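import Crest.Agent.R079.TS0_903
import Crest.Agent.R079.TDfb_853
import Crest.Agent.R079.Qc_406

-- ▼ part R079/It_260
section

/-! R079, doc 2531 (787), [IT] = THE ITERATION WITH TWO COEFFICIENTS (helper260).

`v X Y p` = node term (e.g. `TI bb ε (update (update F a X) b Y) p`), `Sm s R X Y` = "the two free
letters have size `≤ s` on `R`" (restricts).  `TB` = tops of the STATIC windows of the big region `R0`
(they depend on the two other letters only), `bT TB R I` = total length of the `TB`-tops strictly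
inside `R`.

* `Cl s α β` : `‖∑_R v X Y‖ ≤ s² (α |I| + β bT)` for all full `R ⊆ R0` and all `(X,Y)` of size `s`;
* `base` : static pieces ⟹ `Cl s α α` for all `s`;
* `step` : one generation `Gen κ A r` ⟹ `Cl (r s) α β → Cl s (κ + A r² α) (r² β)`;
* `iter` : `n` generations. -/

set_option autoImplicit false

namespace Crest.Agent.R079.It260

open Finset Crest.Agent.R079.Grid Crest.Agent.R079.Growth Crest.Agent.R079.QRed
open Crest.Agent.R079.TRec

open Classical in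
/-- total length of the elements of `TB` inside `R` other than `I` -/
noncomputable def bT (TB R : Finset Nd) (I : Nd) : ℝ :=
  ∑ J ∈ TB.filter (fun J => J ∈ R ∧ J ≠ I), len J

theorem bT_nonneg (TB R : Finset Nd) (I : Nd) : 0 ≤ bT TB R I :=
  Finset.sum_nonneg fun J _ => (Growth.len_pos J).le

/-- claim of size `s` with coefficients `α`, `β` -/
def Cl (v : Fn → Fn → Nd → ℂ) (Sm : ℝ → Finset Nd → Fn → Fn → Prop) (R0 TB : Finset Nd)
    (s α β : ℝ) : Prop :=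
  ∀ R I, Full R I → R ⊆ R0 → ∀ X Y, Sm s R X Y →
    ‖∑ p ∈ R, v X Y p‖ ≤ s ^ 2 * (α * len I + β * bT TB R I)

/-- static pieces -/
def Piece (v : Fn → Fn → Nd → ℂ) (Sm : ℝ → Finset Nd → Fn → Fn → Prop) (R0 TB : Finset Nd)
    (α : ℝ) : Prop :=
  ∀ s, 0 < s → ∀ R I, Full R I → R ⊆ R0 → (∀ J ∈ TB, J ∈ R → J = I) → ∀ X Y, Sm s R X Y →
    ‖∑ p ∈ R, v X Y p‖ ≤ s ^ 2 * α * len I

/-- one generation: kill cost `κ`, number of windows `A`, new size `r s` -/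
def Gen (v : Fn → Fn → Nd → ℂ) (Sm : ℝ → Finset Nd → Fn → Fn → Prop) (R0 : Finset Nd)
    (κ A r : ℝ) : Prop :=
  ∀ s, 0 < s → ∀ R I, Full R I → R ⊆ R0 → ∀ X Y, Sm s R X Y →
    ∃ (T : Finset Nd) (X' Y' : Nd → Fn), Tops R I T ∧ ∑ w ∈ T, len w ≤ A * len I ∧
      (∀ w ∈ T, Sm (r * s) (win R T w) (X' w) (Y' w)) ∧
      ‖∑ p ∈ R, v X Y p‖ ≤ s ^ 2 * κ * len I + ∑ w ∈ T, ‖∑ p ∈ win R T w, v (X' w) (Y' w) p‖

variable {v : Fn → Fn → Nd → ℂ} {Sm : ℝ → Finset Nd → Fn → Fn → Prop} {R0 TB : Finset Nd}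

/-- the windows of a tops set contain disjoint parts of `TB` -/
theorem sum_bT {R : Finset Nd} {I : Nd} (hR : Full R I) {T : Finset Nd} (hT : Tops R I T)
    (TB : Finset Nd) : ∑ w ∈ T, bT TB (win R T w) w ≤ bT TB R I := by
  classical
  unfold bT
  rw [← Finset.sum_biUnion]
  · refine Finset.sum_le_sum_of_subset_of_nonneg ?_ fun J _ _ => (Growth.len_pos J).le
    intro J hJ
    rw [Finset.mem_biUnion] at hJ
    obtain ⟨w, hw, hJw⟩ := hJ
    rw [Finset.mem_filter] at hJw ⊢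
    obtain ⟨hJT, hJ1, hJ2⟩ := hJw
    have h1 := mem_win.1 hJ1
    refine ⟨hJT, h1.1, ?_⟩
    rintro rfl
    exact hJ2 (Qe292.iv_antisymm h1.2.2.1 (hR.reg.1 w (hT.sub hw)))
  · intro w hw w' hw' hne
    rw [Function.onFun, Finset.disjoint_left]
    intro J hJ hJ'
    rw [Finset.mem_filter] at hJ hJ'
    exact Finset.disjoint_left.1 (win_disj (R := R) (T := T) hne) hJ.2.1 hJ'.2.1

/-- **BASE**: cut at the static tops -/
theorem base (hmono : ∀ s R R' X Y, Sm s R X Y → R' ⊆ R → Sm s R' X Y) {I0 : Nd}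
    (_hR0 : Full R0 I0) (hTB : Tops R0 I0 TB) {α : ℝ} (hα : 0 ≤ α) (hP : Piece v Sm R0 TB α) :
    ∀ s, 0 < s → Cl v Sm R0 TB s α α := by
  classical
  intro s hs R I hR hRR X Y hXY
  have hT := hTB.restrict hR hRR
  rw [sum_windows hR hT]
  have h1 : ∀ w ∈ rT TB R I, ‖∑ p ∈ win R (rT TB R I) w, v X Y p‖ ≤ s ^ 2 * α * len w := by
    intro w hw
    refine hP s hs _ w (win_full hR hT hw) (win_sub.trans hRR) (fun J hJ hJw => ?_) X Y
      (hmono _ _ _ _ _ hXY win_sub)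
    have hJ1 := mem_win.1 hJw
    have hJT : J ∈ rT TB R I := mem_rT.2 (Or.inl ⟨hJ, hJ1.1⟩)
    exact (wn_self hJT).unique hJ1.2
  refine (norm_sum_le _ _).trans ((Finset.sum_le_sum h1).trans ?_)
  rw [← Finset.mul_sum]
  have h2 : ∑ w ∈ rT TB R I, len w ≤ len I + bT TB R I := by
    have h3 : rT TB R I ⊆ insert I (TB.filter (fun J => J ∈ R ∧ J ≠ I)) := by
      intro w hw
      rw [Finset.mem_insert, Finset.mem_filter]
      rcases mem_rT.1 hw with h | h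
      · by_cases h' : w = I
        · exact Or.inl h'
        · exact Or.inr ⟨h.1, h.2, h'⟩
      · exact Or.inl h
    refine (Finset.sum_le_sum_of_subset_of_nonneg h3
      fun J _ _ => (Growth.len_pos J).le).trans ?_
    rw [Finset.sum_insert (by simp)]
    exact le_of_eq rfl
  have h4 : 0 ≤ s ^ 2 * α := by positivity
  calc s ^ 2 * α * ∑ w ∈ rT TB R I, len w ≤ s ^ 2 * α * (len I + bT TB R I) :=
        mul_le_mul_of_nonneg_left h2 h4
    _ = s ^ 2 * (α * len I + α * bT TB R I) := by ring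

/-- **STEP**: one generation -/
theorem step {κ A r : ℝ} (hG : Gen v Sm R0 κ A r) {s α β : ℝ} (hs : 0 < s) (hα : 0 ≤ α)
    (hβ : 0 ≤ β) (h : Cl v Sm R0 TB (r * s) α β) :
    Cl v Sm R0 TB s (κ + A * r ^ 2 * α) (r ^ 2 * β) := by
  intro R I hR hRR X Y hXY
  obtain ⟨T, X', Y', hT, hc, hS, hV⟩ := hG s hs R I hR hRR X Y hXY
  refine hV.trans ?_
  have h1 : ∑ w ∈ T, ‖∑ p ∈ win R T w, v (X' w) (Y' w) p‖ ≤
      ∑ w ∈ T, (r * s) ^ 2 * (α * len w + β * bT TB (win R T w) w) :=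
    Finset.sum_le_sum fun w hw =>
      h _ w (win_full hR hT hw) (win_sub.trans hRR) _ _ (hS w hw)
  have h2 : ∑ w ∈ T, (r * s) ^ 2 * (α * len w + β * bT TB (win R T w) w) =
      (r * s) ^ 2 * (α * ∑ w ∈ T, len w + β * ∑ w ∈ T, bT TB (win R T w) w) := by
    rw [← Finset.mul_sum, Finset.sum_add_distrib, ← Finset.mul_sum, ← Finset.mul_sum]
  have h3 : (r * s) ^ 2 * (α * ∑ w ∈ T, len w + β * ∑ w ∈ T, bT TB (win R T w) w) ≤
      (r * s) ^ 2 * (α * (A * len I) + β * bT TB R I) := by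
    refine mul_le_mul_of_nonneg_left (add_le_add ?_ ?_) (sq_nonneg _)
    · exact mul_le_mul_of_nonneg_left hc hα
    · exact mul_le_mul_of_nonneg_left (sum_bT hR hT TB) hβ
  calc s ^ 2 * κ * len I + ∑ w ∈ T, ‖∑ p ∈ win R T w, v (X' w) (Y' w) p‖
      ≤ s ^ 2 * κ * len I + (r * s) ^ 2 * (α * (A * len I) + β * bT TB R I) :=
        add_le_add le_rfl (h1.trans (h2.le.trans h3))
    _ = s ^ 2 * ((κ + A * r ^ 2 * α) * len I + r ^ 2 * β * bT TB R I) := by ring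

/-- **`n` GENERATIONS** (`L ≥ 1`, `A r² ≤ L`) -/
theorem iter {P P' : ℝ} (hP : ∀ s, 0 < s → Cl v Sm R0 TB s P P') {κ A r L : ℝ}
    (hP0 : 0 ≤ P) (hP1 : 0 ≤ P') (hκ : 0 ≤ κ) (hr : 0 < r) (hL : 1 ≤ L) (hA : A * r ^ 2 ≤ L)
    (hG : Gen v Sm R0 κ A r) (n : ℕ) :
    ∀ s, 0 < s → Cl v Sm R0 TB s (L ^ n * (P + n * κ)) (r ^ (2 * n) * P') := by
  induction n with
  | zero =>
    intro s hs
    simpa using hP s hs
  | succ n ih =>
    intro s hs R I hR hRR X Y hXY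
    have hL0 : 0 ≤ L := zero_le_one.trans hL
    have hα : 0 ≤ L ^ n * (P + n * κ) := by positivity
    have hβ : 0 ≤ r ^ (2 * n) * P' := by positivity
    have h1 := step hG hs hα hβ (ih (r * s) (mul_pos hr hs)) R I hR hRR X Y hXY
    refine h1.trans (mul_le_mul_of_nonneg_left (add_le_add ?_ ?_) (sq_nonneg _))
    · refine mul_le_mul_of_nonneg_right ?_ (Growth.len_pos I).le
      have hLn : 1 ≤ L ^ (n + 1) := one_le_pow₀ hL
      calc κ + A * r ^ 2 * (L ^ n * (P + n * κ)) ≤ κ + L * (L ^ n * (P + n * κ)) :=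
            add_le_add le_rfl (mul_le_mul_of_nonneg_right hA hα)
        _ ≤ L ^ (n + 1) * κ + L * (L ^ n * (P + n * κ)) :=
            add_le_add (le_mul_of_one_le_left hκ hLn) le_rfl
        _ = L ^ (n + 1) * (P + ((n + 1 : ℕ) : ℝ) * κ) := by push_cast; ring
    · refine mul_le_mul_of_nonneg_right (le_of_eq ?_) (bT_nonneg _ _ _)
      ring

/-- total length of the static tops of the big region, from `Cnt` -/
theorem bT_le {I0 : Nd} (hR0 : Full R0 I0) {A : ℝ} (hc : Cnt R0 TB A) :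
    bT TB R0 I0 ≤ A * len I0 := by
  classical
  unfold bT
  refine (Finset.sum_le_sum_of_subset_of_nonneg ?_
    fun J _ _ => (Growth.len_pos J).le).trans (hc I0 hR0.top)
  intro J hJ
  rw [Finset.mem_filter] at hJ ⊢
  have hs := hR0.reg.1 J hJ.2.1
  exact ⟨hJ.1, Finset.ssubset_iff_subset_ne.2
    ⟨hs, fun he => hJ.2.2 (Qe292.iv_antisymm hs he.ge)⟩⟩

/-- **[IT]**: static pieces + generations + number of static tops ⟹ bound on the big region -/
theorem it (hmono : ∀ s R R' X Y, Sm s R X Y → R' ⊆ R → Sm s R' X Y) {I0 : Nd}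
    (hR0 : Full R0 I0) (hTB : Tops R0 I0 TB) {AB : ℝ} (hc : Cnt R0 TB AB)
    {P κ A r L : ℝ} (hP0 : 0 ≤ P) (hκ : 0 ≤ κ) (hr : 0 < r) (hL : 1 ≤ L) (hA : A * r ^ 2 ≤ L)
    (hP : Piece v Sm R0 TB P) (hG : Gen v Sm R0 κ A r) (n : ℕ) {X Y : Fn}
    (hXY : Sm 1 R0 X Y) :
    ‖∑ p ∈ R0, v X Y p‖ ≤ (L ^ n * (P + n * κ) + r ^ (2 * n) * P * AB) * len I0 := by
  have h1 := iter (base hmono hR0 hTB hP0 hP) hP0 hP0 hκ hr hL hA hG n 1 one_pos R0 I0 hR0
    subset_rfl X Y hXY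
  refine h1.trans ?_
  have h2 : r ^ (2 * n) * P * bT TB R0 I0 ≤ r ^ (2 * n) * P * (AB * len I0) :=
    mul_le_mul_of_nonneg_left (bT_le hR0 hc) (by positivity)
  have e : (L ^ n * (P + n * κ) + r ^ (2 * n) * P * AB) * len I0 =
      L ^ n * (P + n * κ) * len I0 + r ^ (2 * n) * P * (AB * len I0) := by ring
  rw [e]
  nlinarith [h2]

end Crest.Agent.R079.It260
end

-- ▼ part R079/AsmA_844

/-! R079, rule (A) = MIX, doc 2531 (787): ASSEMBLY `GenA -> StatA -> RuleA2` (helper844).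

`GenA` = Step I, ONE generation (target of S1); `StatA` = Step II, static windows of the pair
(frozen, leveled) (target of S2).  All counting is `It260.it`.  Both free letters (also slot `3`)
are measured in the norm `aq (2 + k)`. -/

set_option autoImplicit false

namespace Crest.Agent.R079.AsmA844

open Finset Crest.Agent.R079.Grid Crest.Agent.R079.Growth Crest.Agent.R079.QRed
open Crest.Agent.R079.TRec

/-- node term: the free letters `X`, `Y` in the slots `a`, `b` -/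
noncomputable def v4 (bb : ℤ) (ε : ℕ → ℤ → ℂ) (F : Fin 4 → Fn) (a b : Fin 4) (X Y : Fn) (p : Nd) :
    ℂ := TI bb ε (Function.update (Function.update F a X) b Y) p

/-- size `≤ s` of the two free letters -/
def Sm (k : ℝ) (s : ℝ) (R : Finset Nd) (X Y : Fn) : Prop :=
  ∀ p ∈ R, aq (2 + k) p X ≤ s ∧ aq (2 + k) p Y ≤ s

/-- the data of rule (A): slot `i` frozen at the top, slot `m` leveled at all nodes -/
structure PR (D : Dict) (k e t : ℝ) (W : Finset Nd) (I : Nd) (i m : Fin 4) (F : Fin 4 → Fn) :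
    Prop where
  full : Full W I
  ne : i ≠ m
  i3 : i ≠ 3
  m3 : m ≠ 3
  nP : ∀ p ∈ W, aq (2 + k) p (F i) ≤ 1
  nR : ∀ p ∈ W, aq (2 + k) p (F m) ≤ 1
  frz : Fz D i (t ^ (1 + e)) 1 I (F i)
  lev : ∀ p ∈ W, Lv D m t 1 p (F m)

/-- `a`, `b` are the two other slots -/
structure Oth (i m a b : Fin 4) : Prop where
  ai : a ≠ i
  am : a ≠ m
  bi : b ≠ i
  bm : b ≠ m
  ab : a ≠ b



theorem exists_oth : ∀ i m : Fin 4, i ≠ m → ∃ a b : Fin 4, a ≠ i ∧ a ≠ m ∧ b ≠ i ∧ b ≠ m ∧ a ≠ b := by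
  decide

/-- local `L^q` norms increase in `q` -/
theorem aq_le_aq {q q' : ℝ} (hq : 0 < q) (hqq : q ≤ q') (p : Nd) (f : Fn) :
    aq q p f ≤ aq q' p f := by
  unfold aq Lq853.avq
  set s := dI (p.1 + 7) p.2 with hs
  have hc : (s.card : ℝ) = 2 ^ (p.1 + 7) := Qc406.card_dI _ _
  have hw : ∑ _y ∈ s, (1 / (2 : ℝ) ^ (p.1 + 7)) = 1 := by
    rw [Finset.sum_const, nsmul_eq_mul, hc]
    field_simp
  have hq0 : 0 < q' := by linarith
  have h := Real.rpow_arith_mean_le_arith_mean_rpow s (fun _ => 1 / (2 : ℝ) ^ (p.1 + 7))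
    (fun y => ‖f y‖ ^ q) (fun _ _ => by positivity) hw (fun _ _ => by positivity)
    (p := q' / q) (by rw [le_div_iff₀ hq]; linarith)
  have e1 : ∑ y ∈ s, (1 / (2 : ℝ) ^ (p.1 + 7)) * ‖f y‖ ^ q =
      (1 / 2 ^ (p.1 + 7)) * ∑ y ∈ s, ‖f y‖ ^ q := by rw [Finset.mul_sum]
  have e2 : ∑ y ∈ s, (1 / (2 : ℝ) ^ (p.1 + 7)) * (‖f y‖ ^ q) ^ (q' / q) =
      (1 / 2 ^ (p.1 + 7)) * ∑ y ∈ s, ‖f y‖ ^ q' := by
    rw [Finset.mul_sum]
    refine Finset.sum_congr rfl fun y _ => ?_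
    congr 1
    rw [← Real.rpow_mul (norm_nonneg _)]
    congr 1
    field_simp
  rw [e1, e2] at h
  have h0 : 0 ≤ (1 / (2 : ℝ) ^ (p.1 + 7)) * ∑ y ∈ s, ‖f y‖ ^ q := by positivity
  have h2 := Real.rpow_le_rpow (Real.rpow_nonneg h0 _) h (by positivity : (0 : ℝ) ≤ 1 / q')
  rw [← Real.rpow_mul h0] at h2
  have e3 : q' / q * (1 / q') = 1 / q := by field_simp
  rwa [e3] at h2

/-- the counting numbers -/
theorem num {c0 c1 dl cG cS CS t K B : ℝ} (ht : 0 < t) (ht1 : t ≤ 1) (hK : 1 ≤ K) (hB : 0 ≤ B)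
    (n : ℕ) (h1 : c0 + 2 * dl * n ≤ cS) (h2 : c0 + 2 * dl * n ≤ cG)
    (h3 : c0 + CS ≤ n * (c1 - 2 * dl) + cS) :
    (K ^ 3 * t ^ (-(2 * dl))) ^ n * (K * (1 + B) * t ^ cS + n * (K * (1 + B) * t ^ cG)) +
      (K * t ^ (c1 / 2 - dl)) ^ (2 * n) * (K * (1 + B) * t ^ cS) * (K * t ^ (-CS)) ≤
      (K ^ (3 * n) * (K + n * K) + K ^ (2 * n + 2)) * (1 + B) * t ^ c0 := by
  have hK0 : 0 < K := by linarith
  have e1 : (K ^ 3 * t ^ (-(2 * dl))) ^ n = K ^ (3 * n) * t ^ (-(2 * dl * n)) := by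
    rw [mul_pow, ← pow_mul, ← Real.rpow_natCast (t ^ (-(2 * dl))) n, ← Real.rpow_mul ht.le]
    congr 2
    ring
  have e2 : (K * t ^ (c1 / 2 - dl)) ^ (2 * n) = K ^ (2 * n) * t ^ (n * (c1 - 2 * dl)) := by
    rw [mul_pow, ← Real.rpow_natCast (t ^ (c1 / 2 - dl)) (2 * n), ← Real.rpow_mul ht.le]
    congr 2
    push_cast
    ring
  have g1 : t ^ (-(2 * dl * n)) * t ^ cS ≤ t ^ c0 := by
    rw [← Real.rpow_add ht]
    exact Real.rpow_le_rpow_of_exponent_ge ht ht1 (by linarith)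
  have g2 : t ^ (-(2 * dl * n)) * t ^ cG ≤ t ^ c0 := by
    rw [← Real.rpow_add ht]
    exact Real.rpow_le_rpow_of_exponent_ge ht ht1 (by linarith)
  have g3 : t ^ (n * (c1 - 2 * dl)) * t ^ cS * t ^ (-CS) ≤ t ^ c0 := by
    rw [← Real.rpow_add ht, ← Real.rpow_add ht]
    exact Real.rpow_le_rpow_of_exponent_ge ht ht1 (by linarith)
  rw [e1, e2]
  have p1 : 0 ≤ K ^ (3 * n) * K * (1 + B) := by positivity
  have p2 : 0 ≤ K ^ (3 * n) * (n * K) * (1 + B) := by positivity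
  have p3 : 0 ≤ K ^ (2 * n) * K * K * (1 + B) := by positivity
  have q1 := mul_le_mul_of_nonneg_left g1 p1
  have q2 := mul_le_mul_of_nonneg_left g2 p2
  have q3 := mul_le_mul_of_nonneg_left g3 p3
  have e3 : K ^ (3 * n) * t ^ (-(2 * dl * n)) *
      (K * (1 + B) * t ^ cS + n * (K * (1 + B) * t ^ cG)) +
      K ^ (2 * n) * t ^ (n * (c1 - 2 * dl)) * (K * (1 + B) * t ^ cS) * (K * t ^ (-CS)) =
      K ^ (3 * n) * K * (1 + B) * (t ^ (-(2 * dl * n)) * t ^ cS) +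
      K ^ (3 * n) * (n * K) * (1 + B) * (t ^ (-(2 * dl * n)) * t ^ cG) +
      K ^ (2 * n) * K * K * (1 + B) * (t ^ (n * (c1 - 2 * dl)) * t ^ cS * t ^ (-CS)) := by ring
  rw [e3]
  have e4 : (K ^ (3 * n) * (K + n * K) + K ^ (2 * n + 2)) * (1 + B) * t ^ c0 =
      K ^ (3 * n) * K * (1 + B) * t ^ c0 + K ^ (3 * n) * (n * K) * (1 + B) * t ^ c0 +
      K ^ (2 * n) * K * K * (1 + B) * t ^ c0 := by ring
  rw [e4]
  linarith


end Crest.Agent.R079.AsmA844
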