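import Crest.Agent.R079.TDfb_853
import Crest.Agent.R079.AsmA_844

-- ▼ part R079/Par_224
section

/-! R079: choice of the parameters of `Ok2` (helper224): `Dic` + `FrzBd` + `RuleA2` (for all small
`e`, `k`) + `RuleS` (for all `s1`, small `e`, `k`) ⟹ `Analytic2`. -/

set_option autoImplicit false

namespace Crest.Agent.R079.TRec

open Finset Crest.Agent.R079.Grid Crest.Agent.R079.Growth Crest.Agent.R079.QRed

theorem RuleA2.mono {D : Dict} {k q3 c0 e t0 K t0' K' : ℝ} (h : RuleA2 D k q3 c0 e t0 K)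
    (ht : t0' ≤ t0) (hK : K ≤ K') : RuleA2 D k q3 c0 e t0' K' := by
  intro N B hB hBN t h0 h1 bb ε hA W I hW hI F hF i m him hi hm hfz hlv
  have := h N B hB hBN t h0 (h1.trans ht) bb ε hA W I hW hI F hF i m him hi hm hfz hlv
  refine this.trans ?_
  have hl : (0 : ℝ) ≤ len I := by unfold len; positivity
  have ht0 : (0 : ℝ) ≤ t ^ c0 := Real.rpow_nonneg h0.le _
  gcongr

theorem RuleS.mono {D : Dict} {k q3 cS CS s1 e t0 K t0' K' : ℝ} (h : RuleS D k q3 cS CS s1 e t0 K)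
    (ht : t0' ≤ t0) (hK : K ≤ K') : RuleS D k q3 cS CS s1 e t0' K' := by
  intro N B hB hBN t h0 h1 bb W I hW hI m hm P G X E hP hG hfz hPX hlv hE
  obtain ⟨T, hT, hC, hw⟩ :=
    h N B hB hBN t h0 (h1.trans ht) bb W I hW hI m hm P G X E hP hG hfz hPX hlv hE
  refine ⟨T, hT, ?_, ?_⟩
  · intro p hp
    refine (hC p hp).trans ?_
    have hl : (0 : ℝ) ≤ len p := by unfold len; positivity
    have ht0 : (0 : ℝ) ≤ t ^ (-CS) := Real.rpow_nonneg h0.le _
    gcongr
  · intro I' hI' W' J hW' hsub F hFm hF3 hF ε hA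
    refine (hw I' hI' W' J hW' hsub F hFm hF3 hF ε hA).trans ?_
    have hl : (0 : ℝ) ≤ len J := by unfold len; positivity
    have ht0 : (0 : ℝ) ≤ t ^ cS := Real.rpow_nonneg h0.le _
    gcongr




end Crest.Agent.R079.TRec
end

-- ▼ part R079/AsmG_734
section

/-! R079, rule (A) = MIX: GRADED ASSEMBLY (helper734).

Steps I of doc 2541 (673) and of msg 28031 (59) kill the residual part of the `(G)` word only with a gain
tied to the weight of the penalty (`t^(g y)`), while one generation loses `t^(-2 C y)`.  So the weight has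
to grow from generation to generation: `y_(j+1) = R y_j`.

* `iterG`, `itG` : `It260.iter`, `It260.it` with parameters depending on the generation;
* `ruleA2_graded` : `GenA` (parameters `dl j`, `cG j`, `j < n`) + `StatA` => `RuleA2`;
* `ruleA2_exists` : choice of `n`, `R`, `y_0`, `c0` and of all small parameters, in the form of the
  hypothesis `hA` of `TRec.analytic2_of'`. -/

set_option autoImplicit false

namespace Crest.Agent.R079.AsmG734

open Finset Crest.Agent.R079.Grid Crest.Agent.R079.Growth Crest.Agent.R079.QRed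
open Crest.Agent.R079.TRec Crest.Agent.R079.AsmA844

section it

variable {v : Fn → Fn → Nd → ℂ} {Sm : ℝ → Finset Nd → Fn → Fn → Prop} {R0 TB : Finset Nd}




end it

theorem prodL {K t : ℝ} (ht : 0 < t) (dl : ℕ → ℝ) (n : ℕ) :
    ∏ i ∈ range n, (K ^ 3 * t ^ (-(2 * dl i))) =
      K ^ (3 * n) * t ^ (-(2 * ∑ i ∈ range n, dl i)) := by
  induction n with
  | zero => simp
  | succ n ih =>
    rw [Finset.prod_range_succ, ih, Finset.sum_range_succ]
    have e : t ^ (-(2 * (∑ i ∈ range n, dl i + dl n))) =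
        t ^ (-(2 * ∑ i ∈ range n, dl i)) * t ^ (-(2 * dl n)) := by
      rw [← Real.rpow_add ht]
      congr 1
      ring
    rw [e]
    ring

theorem prodr {K t c1 : ℝ} (ht : 0 < t) (dl : ℕ → ℝ) (n : ℕ) :
    ∏ i ∈ range n, (K * t ^ (c1 / 2 - dl i)) ^ 2 =
      K ^ (2 * n) * t ^ (n * c1 - 2 * ∑ i ∈ range n, dl i) := by
  induction n with
  | zero => simp
  | succ n ih =>
    rw [Finset.prod_range_succ, ih, Finset.sum_range_succ]
    have e1 : (t ^ (c1 / 2 - dl n)) ^ 2 = t ^ (c1 - 2 * dl n) := by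
      rw [← Real.rpow_natCast (t ^ (c1 / 2 - dl n)) 2, ← Real.rpow_mul ht.le]
      congr 1
      push_cast
      ring
    have e : t ^ (((n + 1 : ℕ) : ℝ) * c1 - 2 * (∑ i ∈ range n, dl i + dl n)) =
        t ^ (n * c1 - 2 * ∑ i ∈ range n, dl i) * t ^ (c1 - 2 * dl n) := by
      rw [← Real.rpow_add ht]
      congr 1
      push_cast
      ring
    rw [e, mul_pow, e1]
    ring

/-- the counting numbers, graded -/
theorem numG {c0 c1 cS CS t K B : ℝ} {dl cG : ℕ → ℝ} (ht : 0 < t) (ht1 : t ≤ 1) (hK : 1 ≤ K)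
    (hB : 0 ≤ B) (n : ℕ) (h1 : c0 + 2 * ∑ i ∈ range n, dl i ≤ cS)
    (h2 : ∀ j, j < n → c0 + 2 * ∑ i ∈ range j, dl i ≤ cG j)
    (h3 : c0 + CS ≤ n * c1 - 2 * ∑ i ∈ range n, dl i + cS) :
    (∏ i ∈ range n, (K ^ 3 * t ^ (-(2 * dl i)))) * (K * (1 + B) * t ^ cS) +
      ∑ j ∈ range n, (∏ i ∈ range j, (K ^ 3 * t ^ (-(2 * dl i)))) * (K * (1 + B) * t ^ (cG j)) +
      (∏ i ∈ range n, (K * t ^ (c1 / 2 - dl i)) ^ 2) * (K * (1 + B) * t ^ cS) *
        (K * t ^ (-CS)) ≤
      (K ^ (3 * n) * (K + n * K) + K ^ (2 * n + 2)) * (1 + B) * t ^ c0 := by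
  have hK0 : 0 < K := by linarith
  have hB1 : 0 ≤ 1 + B := by linarith
  rw [prodr ht, prodL ht]
  have a1 : K ^ (3 * n) * t ^ (-(2 * ∑ i ∈ range n, dl i)) * (K * (1 + B) * t ^ cS) ≤
      K ^ (3 * n) * K * (1 + B) * t ^ c0 := by
    have g1 : t ^ (-(2 * ∑ i ∈ range n, dl i)) * t ^ cS ≤ t ^ c0 := by
      rw [← Real.rpow_add ht]
      exact Real.rpow_le_rpow_of_exponent_ge ht ht1 (by linarith)
    have p1 : 0 ≤ K ^ (3 * n) * K * (1 + B) := by positivity
    calc K ^ (3 * n) * t ^ (-(2 * ∑ i ∈ range n, dl i)) * (K * (1 + B) * t ^ cS)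
        = K ^ (3 * n) * K * (1 + B) * (t ^ (-(2 * ∑ i ∈ range n, dl i)) * t ^ cS) := by ring
      _ ≤ _ := mul_le_mul_of_nonneg_left g1 p1
  have a2 : ∑ j ∈ range n, (∏ i ∈ range j, (K ^ 3 * t ^ (-(2 * dl i)))) *
      (K * (1 + B) * t ^ (cG j)) ≤ n * (K ^ (3 * n) * K * (1 + B) * t ^ c0) := by
    have h4 : ∀ j ∈ range n, (∏ i ∈ range j, (K ^ 3 * t ^ (-(2 * dl i)))) *
        (K * (1 + B) * t ^ (cG j)) ≤ K ^ (3 * n) * K * (1 + B) * t ^ c0 := by
      intro j hj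
      have hjn : j < n := Finset.mem_range.1 hj
      rw [prodL ht]
      have g1 : t ^ (-(2 * ∑ i ∈ range j, dl i)) * t ^ (cG j) ≤ t ^ c0 := by
        rw [← Real.rpow_add ht]
        exact Real.rpow_le_rpow_of_exponent_ge ht ht1 (by linarith [h2 j hjn])
      have g2 : K ^ (3 * j) ≤ K ^ (3 * n) := pow_le_pow_right₀ hK (by omega)
      have g3 : 0 ≤ t ^ c0 := Real.rpow_nonneg ht.le _
      calc K ^ (3 * j) * t ^ (-(2 * ∑ i ∈ range j, dl i)) * (K * (1 + B) * t ^ (cG j))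
          = K ^ (3 * j) * (K * (1 + B)) * (t ^ (-(2 * ∑ i ∈ range j, dl i)) * t ^ (cG j)) := by
            ring
        _ ≤ K ^ (3 * j) * (K * (1 + B)) * t ^ c0 := by
            refine mul_le_mul_of_nonneg_left g1 (by positivity)
        _ ≤ K ^ (3 * n) * (K * (1 + B)) * t ^ c0 := by
            refine mul_le_mul_of_nonneg_right ?_ g3
            exact mul_le_mul_of_nonneg_right g2 (by positivity)
        _ = _ := by ring
    refine (Finset.sum_le_sum h4).trans (le_of_eq ?_)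
    rw [Finset.sum_const, Finset.card_range, nsmul_eq_mul]
  have a3 : K ^ (2 * n) * t ^ (n * c1 - 2 * ∑ i ∈ range n, dl i) * (K * (1 + B) * t ^ cS) *
      (K * t ^ (-CS)) ≤ K ^ (2 * n + 2) * (1 + B) * t ^ c0 := by
    have g1 : t ^ (n * c1 - 2 * ∑ i ∈ range n, dl i) * t ^ cS * t ^ (-CS) ≤ t ^ c0 := by
      rw [← Real.rpow_add ht, ← Real.rpow_add ht]
      exact Real.rpow_le_rpow_of_exponent_ge ht ht1 (by linarith)
    have p1 : 0 ≤ K ^ (2 * n + 2) * (1 + B) := by positivity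
    calc K ^ (2 * n) * t ^ (n * c1 - 2 * ∑ i ∈ range n, dl i) * (K * (1 + B) * t ^ cS) *
          (K * t ^ (-CS))
        = K ^ (2 * n + 2) * (1 + B) *
          (t ^ (n * c1 - 2 * ∑ i ∈ range n, dl i) * t ^ cS * t ^ (-CS)) := by ring
      _ ≤ _ := mul_le_mul_of_nonneg_left g1 p1
  calc _ ≤ K ^ (3 * n) * K * (1 + B) * t ^ c0 + n * (K ^ (3 * n) * K * (1 + B) * t ^ c0) +
        K ^ (2 * n + 2) * (1 + B) * t ^ c0 := add_le_add (add_le_add a1 a2) a3
    _ = _ := by ring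


/-! ### monotonicity in `t0`, `K` -/



/-! ### choice of the parameters -/

theorem unif_small {n : ℕ} {Q : ℕ → ℝ → Prop}
    (h : ∀ j, j < n → ∃ x : ℝ, 0 < x ∧ ∀ y, 0 < y → y ≤ x → Q j y) :
    ∃ x : ℝ, 0 < x ∧ ∀ y, 0 < y → y ≤ x → ∀ j, j < n → Q j y := by
  induction n with
  | zero => exact ⟨1, one_pos, fun y _ _ j hj => absurd hj (by omega)⟩
  | succ n ih =>
    obtain ⟨x, hx, h1⟩ := ih fun j hj => h j (by omega)
    obtain ⟨x', hx', h2⟩ := h n (by omega)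
    refine ⟨min x x', lt_min hx hx', fun y hy hyx j hj => ?_⟩
    rcases Nat.lt_succ_iff_lt_or_eq.1 hj with h3 | h3
    · exact h1 y hy (hyx.trans (min_le_left _ _)) j h3
    · subst h3
      exact h2 y hy (hyx.trans (min_le_right _ _))

theorem unif_tK {n : ℕ} {Q : ℕ → ℝ → ℝ → Prop}
    (hm : ∀ j t K t' K', Q j t K → t' ≤ t → K ≤ K' → Q j t' K')
    (h : ∀ j, j < n → ∃ t K : ℝ, 0 < t ∧ 0 ≤ K ∧ Q j t K) :
    ∃ t K : ℝ, 0 < t ∧ t ≤ 1 ∧ 1 ≤ K ∧ ∀ j, j < n → Q j t K := by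
  induction n with
  | zero => exact ⟨1, 1, one_pos, le_rfl, le_rfl, fun j hj => absurd hj (by omega)⟩
  | succ n ih =>
    obtain ⟨t, K, ht, ht1, hK, h1⟩ := ih fun j hj => h j (by omega)
    obtain ⟨t', K', ht', _, h2⟩ := h n (by omega)
    refine ⟨min t t', max K K', lt_min ht ht', (min_le_left _ _).trans ht1,
      hK.trans (le_max_left _ _), fun j hj => ?_⟩
    rcases Nat.lt_succ_iff_lt_or_eq.1 hj with h3 | h3
    · exact hm _ _ _ _ _ (h1 j h3) (min_le_left _ _) (le_max_left _ _)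
    · subst h3
      exact hm _ _ _ _ _ h2 (min_le_right _ _) (le_max_right _ _)

/-- geometric weights -/
theorem geo {R y0 : ℝ} (_hR : 1 < R) (hy : 0 ≤ y0) (n : ℕ) :
    (R - 1) * ∑ i ∈ range n, y0 * R ^ i ≤ y0 * R ^ n := by
  induction n with
  | zero => simpa using hy
  | succ n ih =>
    rw [Finset.sum_range_succ, mul_add]
    have : (R - 1) * (y0 * R ^ n) = y0 * R ^ (n + 1) - y0 * R ^ n := by ring
    linarith

/-- **the parameters**: `n ≥ CS / c1` generations, weights `y_j = y0 R^j` -/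
theorem exists_weights {c1 C g ys cS CS : ℝ} (hc1 : 0 < c1) (hC : 0 < C) (hg : 0 < g)
    (hys : 0 < ys) (hcS : 0 < cS) :
    ∃ (n : ℕ) (y : ℕ → ℝ) (c0 : ℝ), 0 < c0 ∧ (∀ j, 0 < y j) ∧ (∀ j, j < n → y j ≤ ys) ∧
      c0 + 2 * ∑ i ∈ range n, C * y i ≤ cS ∧
      (∀ j, j < n → c0 + 2 * ∑ i ∈ range j, C * y i ≤ g * y j) ∧
      c0 + CS ≤ n * c1 - 2 * ∑ i ∈ range n, C * y i + cS := by
  obtain ⟨n, hn⟩ := exists_nat_ge (CS / c1)
  have hn' : CS ≤ n * c1 := by rwa [div_le_iff₀ hc1] at hn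
  set R : ℝ := 1 + 4 * C / g with hR
  have hR1 : 1 < R := by
    have : 0 < 4 * C / g := by positivity
    linarith
  have hR0 : 0 < R := by linarith
  have hRg : (R - 1) * g = 4 * C := by
    rw [hR]
    field_simp
    ring
  set y0 : ℝ := min ys (cS / g) / R ^ n with hy0
  have hm : 0 < min ys (cS / g) := lt_min hys (by positivity)
  have hy0p : 0 < y0 := div_pos hm (pow_pos hR0 n)
  have hyn : y0 * R ^ n = min ys (cS / g) := by
    rw [hy0]
    field_simp
  have key : ∀ j : ℕ, 2 * ∑ i ∈ range j, C * (y0 * R ^ i) ≤ g / 2 * (y0 * R ^ j) := by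
    intro j
    have h1 := geo hR1 hy0p.le j
    have h2 : (R - 1) * (2 * ∑ i ∈ range j, C * (y0 * R ^ i)) ≤
        (R - 1) * (g / 2 * (y0 * R ^ j)) := by
      have e1 : (R - 1) * (2 * ∑ i ∈ range j, C * (y0 * R ^ i)) =
          2 * C * ((R - 1) * ∑ i ∈ range j, y0 * R ^ i) := by
        rw [← Finset.mul_sum]
        ring
      have e2 : (R - 1) * (g / 2 * (y0 * R ^ j)) = 2 * C * (y0 * R ^ j) := by
        have : (R - 1) * (g / 2 * (y0 * R ^ j)) = ((R - 1) * g) / 2 * (y0 * R ^ j) := by ring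
        rw [this, hRg]
        ring
      rw [e1, e2]
      exact mul_le_mul_of_nonneg_left h1 (by positivity)
    exact le_of_mul_le_mul_left h2 (by linarith)
  have hpow : ∀ j : ℕ, y0 ≤ y0 * R ^ j := fun j =>
    le_mul_of_one_le_right hy0p.le (one_le_pow₀ hR1.le)
  have hle : g * (y0 * R ^ n) ≤ cS := by
    rw [hyn]
    calc g * min ys (cS / g) ≤ g * (cS / g) := mul_le_mul_of_nonneg_left (min_le_right _ _) hg.le
      _ = cS := by field_simp
  have hsum : g / 2 * y0 + 2 * ∑ i ∈ range n, C * (y0 * R ^ i) ≤ cS := by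
    have h1 := key n
    have h2 := mul_le_mul_of_nonneg_left (hpow n) (by positivity : (0 : ℝ) ≤ g / 2)
    nlinarith
  refine ⟨n, fun j => y0 * R ^ j, g / 2 * y0, by positivity, fun j => by positivity,
    fun j hj => ?_, hsum, fun j _ => ?_, ?_⟩
  · have h1 : y0 * R ^ j ≤ y0 * R ^ n :=
      mul_le_mul_of_nonneg_left (pow_le_pow_right₀ hR1.le hj.le) hy0p.le
    exact h1.trans (hyn.le.trans (min_le_left _ _))
  · have h1 := key j
    have h2 := mul_le_mul_of_nonneg_left (hpow j) (by positivity : (0 : ℝ) ≤ g / 2)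
    show g / 2 * y0 + 2 * ∑ i ∈ range j, C * (y0 * R ^ i) ≤ g * (y0 * R ^ j)
    linarith
  · show g / 2 * y0 + CS ≤ n * c1 - 2 * ∑ i ∈ range n, C * (y0 * R ^ i) + cS
    linarith


end Crest.Agent.R079.AsmG734
end

-- ▼ part R079/AsmP_734

/-! R079, rule (A) = MIX: graded assembly FOR ONE PAIR `(i, m)` (helper734).

With the staggered dictionary of helper853 / 903 / 623 (`D' j t = D j (t ^ γ_j)`, `γ_0 < γ_1 < γ_2`) rule (A)
is needed only for the pairs `i > m`, the other pairs being trivial kills.  Same proof as `AsmG_734`, with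
`i`, `m` fixed. -/

set_option autoImplicit false

namespace Crest.Agent.R079.AsmP734

open Finset Crest.Agent.R079.Grid Crest.Agent.R079.Growth Crest.Agent.R079.QRed
open Crest.Agent.R079.TRec Crest.Agent.R079.AsmA844 Crest.Agent.R079.AsmG734


/-- Step I for the pair `(i, m)` -/
def GenP (D : Dict) (k q3 e c1 dl cG t0 K : ℝ) (i m : Fin 4) : Prop :=
  ∀ (N : ℕ) (B : ℝ), 0 ≤ B → BN k q3 N B → ∀ t, 0 < t → t ≤ t0 → ∀ W I F,
    PR D k e t W I i m F → I.1 ≤ N → ∀ a b : Fin 4, Oth i m a b → ∀ bb ε, Adm bb ε →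
      It260.Gen (v4 bb ε F a b) (Sm k) W (K * (1 + B) * t ^ cG) (K * t ^ (-c1))
        (K * t ^ (c1 / 2 - dl))










end Crest.Agent.R079.AsmP734
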