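import Crest.Agent.R079.Static_569

/-! R079, I1 part B (helper569): masks `R_m`, exits `D_m = R_m \ R_{m-1}`, local sums. -/

set_option autoImplicit false

namespace Crest.Agent.R079.Glue

open Finset Crest.Agent.R079.Grid

lemma mem_dI_iff (k : ℕ) (l y : ℤ) : y ∈ dI k l ↔ y / 2 ^ k = l := by
  unfold dI
  have hp : (0 : ℤ) < 2 ^ k := by positivity
  rw [Finset.mem_Ico]
  constructor
  · rintro ⟨h1, h2⟩
    have h3 : l ≤ y / 2 ^ k := by rwa [Int.le_ediv_iff_mul_le hp]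
    have h4 : y / 2 ^ k < l + 1 := by rwa [Int.ediv_lt_iff_lt_mul hp]
    omega
  · rintro rfl
    exact ⟨Int.ediv_mul_le y hp.ne', Int.lt_ediv_add_one_mul_self y hp⟩

lemma card_dI (k : ℕ) (l : ℤ) : (dI k l).card = 2 ^ k := by
  unfold dI
  rw [Int.card_Ico]
  rw [show (l + 1) * 2 ^ k - l * 2 ^ k = ((2 ^ k : ℕ) : ℤ) by push_cast; ring]
  exact Int.toNat_natCast _

/-- ancestor of a point -/
lemma ediv_pow_ediv (y : ℤ) (k n : ℕ) : y / 2 ^ (k + n) = (y / 2 ^ k) / 2 ^ n := by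
  rw [pow_add, Int.ediv_ediv_of_nonneg (by positivity)]


/-- union of the nodes of level `m` of the region -/
noncomputable def Rm (R : Finset (ℕ × ℤ)) (m : ℕ) : Finset ℤ :=
  (R.filter (fun p => p.1 = m)).biUnion fun p => dI (p.1 + 7) p.2

/-- shifted family: `Rs 0 = ∅`, `Rs (m+1) = R_m` -/
noncomputable def Rs (R : Finset (ℕ × ℤ)) : ℕ → Finset ℤ
  | 0 => ∅
  | m + 1 => Rm R m

/-- exits -/
noncomputable def Dm (R : Finset (ℕ × ℤ)) (m : ℕ) : Finset ℤ := Rs R (m + 1) \ Rs R m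

lemma mem_Rm (R : Finset (ℕ × ℤ)) (m : ℕ) (y : ℤ) : y ∈ Rm R m ↔ (m, y / 2 ^ (m + 7)) ∈ R := by
  unfold Rm
  rw [Finset.mem_biUnion]
  constructor
  · rintro ⟨p, hp, hy⟩
    rw [Finset.mem_filter] at hp
    obtain ⟨hp, hpm⟩ := hp
    rw [mem_dI_iff] at hy
    obtain ⟨a, b⟩ := p
    simp only at hpm hy
    subst hpm
    rw [hy]
    exact hp
  · intro h
    refine ⟨(m, y / 2 ^ (m + 7)), ?_, ?_⟩
    · rw [Finset.mem_filter]; exact ⟨h, rfl⟩
    · rw [mem_dI_iff]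

lemma level_le (R : Finset (ℕ × ℤ)) (J : ℕ × ℤ) (hR : IsRegion R J) (p : ℕ × ℤ) (hp : p ∈ R) :
    p.1 ≤ J.1 := by
  have h := Finset.card_le_card (hR.1 p hp)
  rw [card_dI, card_dI] at h
  by_contra hc
  rw [not_le] at hc
  have : 2 ^ (J.1 + 7) < 2 ^ (p.1 + 7) := Nat.pow_lt_pow_right (by norm_num) (by omega)
  omega

lemma Rm_subset_top (R : Finset (ℕ × ℤ)) (J : ℕ × ℤ) (hR : IsRegion R J) (m : ℕ) :
    Rm R m ⊆ dI (J.1 + 7) J.2 := by
  intro y hy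
  rw [mem_Rm] at hy
  refine hR.1 _ hy ?_
  simp only
  rw [mem_dI_iff]

lemma Rm_mono (R : Finset (ℕ × ℤ)) (J : ℕ × ℤ) (hR : IsRegion R J) (m : ℕ) (hm : m + 1 ≤ J.1) :
    Rm R m ⊆ Rm R (m + 1) := by
  intro y hy
  have htop := Rm_subset_top R J hR m hy
  rw [mem_Rm] at hy ⊢
  refine hR.2 _ hy (m + 1, y / 2 ^ (m + 1 + 7)) ?_ ?_
  · simp only
    intro z hz
    rw [mem_dI_iff] at hz ⊢
    rw [show m + 1 + 7 = m + 7 + 1 by ring, ediv_pow_ediv, hz, ← ediv_pow_ediv]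
  · simp only
    intro z hz
    rw [mem_dI_iff] at hz htop ⊢
    obtain ⟨n, hn⟩ := Nat.exists_eq_add_of_le hm
    rw [show J.1 + 7 = m + 1 + 7 + n by omega] at htop ⊢
    rw [ediv_pow_ediv, hz, ← ediv_pow_ediv, htop]

lemma Rs_mono (R : Finset (ℕ × ℤ)) (J : ℕ × ℤ) (hR : IsRegion R J) (m : ℕ) (hm : m ≤ J.1) :
    Rs R m ⊆ Rs R (m + 1) := by
  cases m with
  | zero => exact Finset.empty_subset _
  | succ m => exact Rm_mono R J hR m hm

/-- total length of the exits -/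
lemma sum_card_Dm (R : Finset (ℕ × ℤ)) (J : ℕ × ℤ) (hR : IsRegion R J) :
    ∑ m ∈ range (J.1 + 1), ((Dm R m).card : ℝ) ≤ 2 ^ (J.1 + 7) := by
  have h : ∀ M, M ≤ J.1 + 1 → ∑ m ∈ range M, (Dm R m).card = (Rs R M).card := by
    intro M hM
    induction M with
    | zero => simp [Rs]
    | succ M ih =>
      rw [Finset.sum_range_succ, ih (by omega)]
      have h1 := Finset.card_sdiff_add_card_eq_card (Rs_mono R J hR M (by omega))
      unfold Dm
      omega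
  have h2 := h (J.1 + 1) le_rfl
  have h3 : (Rs R (J.1 + 1)).card ≤ 2 ^ (J.1 + 7) := by
    have := Finset.card_le_card (Rm_subset_top R J hR J.1)
    rw [card_dI] at this
    exact this
  rw [← Nat.cast_sum, h2]
  exact_mod_cast h3

/-- masked function -/
noncomputable def msk (S : Finset ℤ) (F : ℤ → ℂ) (y : ℤ) : ℂ := if y ∈ S then F y else 0

/-- sum over one dyadic interval of the masked function -/
lemma sum_msk_dI (R : Finset (ℕ × ℤ)) (m : ℕ) (F : ℤ → ℂ) (A : ℝ)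
    (hF : ∀ p ∈ R, av2 (p.1 + 7) p.2 F ≤ A) (l : ℤ) :
    ∑ y ∈ dI (m + 7) l, ‖msk (Rm R m) F y‖ ^ 2 ≤ 2 ^ (m + 7) * A ^ 2 := by
  by_cases h : (m, l) ∈ R
  · have h1 : ∑ y ∈ dI (m + 7) l, ‖msk (Rm R m) F y‖ ^ 2 ≤ ∑ y ∈ dI (m + 7) l, ‖F y‖ ^ 2 := by
      refine Finset.sum_le_sum fun y _ => ?_
      unfold msk
      split_ifs
      · exact le_rfl
      · simp
    refine h1.trans ?_
    rw [sum_sq_eq]
    have h2 := hF _ h
    simp only at h2
    have h3 := av2_nonneg (m + 7) l F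
    have h4 : av2 (m + 7) l F ^ 2 ≤ A ^ 2 := pow_le_pow_left₀ h3 h2 2
    exact mul_le_mul_of_nonneg_left h4 (by positivity)
  · have h1 : ∀ y ∈ dI (m + 7) l, ‖msk (Rm R m) F y‖ ^ 2 = 0 := by
      intro y hy
      have : y ∉ Rm R m := by
        rw [mem_Rm]
        rw [mem_dI_iff] at hy
        rwa [hy]
      unfold msk
      rw [if_neg this]
      simp
    rw [Finset.sum_eq_zero h1]
    positivity

lemma sum_biUnion_le' {ι : Type*} [DecidableEq ι] (s : Finset ι) (t : ι → Finset ℤ) (f : ℤ → ℝ)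
    (hf : ∀ x, 0 ≤ f x) : ∑ x ∈ s.biUnion t, f x ≤ ∑ i ∈ s, ∑ x ∈ t i, f x := by
  classical
  induction s using Finset.induction_on with
  | empty => simp
  | insert a s ha ih =>
    rw [Finset.biUnion_insert, Finset.sum_insert ha]
    have h1 := Finset.sum_union_inter (s₁ := t a) (s₂ := s.biUnion t) (f := f)
    have h2 : 0 ≤ ∑ x ∈ t a ∩ s.biUnion t, f x := Finset.sum_nonneg fun x _ => hf x
    linarith

/-- **local sums** -/
lemma sum_msk_Icc (R : Finset (ℕ × ℤ)) (m : ℕ) (F : ℤ → ℂ) (A : ℝ)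
    (hF : ∀ p ∈ R, av2 (p.1 + 7) p.2 F ≤ A) (y0 : ℤ) (h : ℕ) :
    ∑ y ∈ Icc (y0 - h * 2 ^ m) (y0 + h * 2 ^ m), ‖msk (Rm R m) F y‖ ^ 2 ≤
      (2 * h + 1) * (2 ^ (m + 7) * A ^ 2) := by
  classical
  have hp : (0 : ℤ) < 2 ^ (m + 7) := by positivity
  have hsub : Icc (y0 - h * 2 ^ m) (y0 + h * 2 ^ m) ⊆
      (Icc (y0 / 2 ^ (m + 7) - (h : ℤ)) (y0 / 2 ^ (m + 7) + h)).biUnion fun l => dI (m + 7) l := by
    intro y hy
    rw [Finset.mem_Icc] at hy
    rw [Finset.mem_biUnion]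
    refine ⟨y / 2 ^ (m + 7), ?_, by rw [mem_dI_iff]⟩
    have h2 : (h : ℤ) * 2 ^ m ≤ h * 2 ^ (m + 7) :=
      mul_le_mul_of_nonneg_left (pow_le_pow_right₀ (by norm_num) (by omega)) (by positivity)
    rw [Finset.mem_Icc]
    constructor
    · have h3 : (y0 + (-(h : ℤ)) * 2 ^ (m + 7)) / 2 ^ (m + 7) ≤ y / 2 ^ (m + 7) :=
        Int.ediv_le_ediv hp (by linarith [hy.1])
      rw [Int.add_mul_ediv_right _ _ hp.ne'] at h3
      linarith
    · have h3 : y / 2 ^ (m + 7) ≤ (y0 + (h : ℤ) * 2 ^ (m + 7)) / 2 ^ (m + 7) :=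
        Int.ediv_le_ediv hp (by linarith [hy.2])
      rw [Int.add_mul_ediv_right _ _ hp.ne'] at h3
      exact h3
  refine (Finset.sum_le_sum_of_subset_of_nonneg hsub fun y _ _ => by positivity).trans ?_
  refine (sum_biUnion_le' _ _ (fun y => ‖msk (Rm R m) F y‖ ^ 2) fun y => by positivity).trans ?_
  refine (Finset.sum_le_sum fun l _ => sum_msk_dI R m F A hF l).trans ?_
  rw [Finset.sum_const, nsmul_eq_mul]
  refine mul_le_mul_of_nonneg_right (le_of_eq ?_) (by positivity)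
  rw [Int.card_Icc]
  rw [show y0 / 2 ^ (m + 7) + (h : ℤ) + 1 - (y0 / 2 ^ (m + 7) - (h : ℤ)) = ((2 * h + 1 : ℕ) : ℤ) by
    push_cast; ring, Int.toNat_natCast]
  push_cast
  ring

/-- neighbourhood of the exits -/
noncomputable def Dp (R : Finset (ℕ × ℤ)) (m h : ℕ) : Finset ℤ :=
  (Dm R m).biUnion fun d => Icc (d - h * 2 ^ m) (d + h * 2 ^ m)

/-- every node which meets `D_m` contains `2^(m+6)` points of `D_m` -/
lemma card_exit (R : Finset (ℕ × ℤ)) (m : ℕ) (y : ℤ) (hy : y ∈ Dm R m) :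
    2 ^ (m + 6) ≤ (Dm R m ∩ dI (m + 7) (y / 2 ^ (m + 7))).card := by
  unfold Dm at hy ⊢
  rw [Finset.mem_sdiff] at hy
  obtain ⟨h1, h2⟩ := hy
  have h1' : (m, y / 2 ^ (m + 7)) ∈ R := by
    have : y ∈ Rm R m := h1
    rwa [mem_Rm] at this
  have hfull : ∀ z, z / 2 ^ (m + 7) = y / 2 ^ (m + 7) → z ∈ Rs R (m + 1) := by
    intro z hz
    show z ∈ Rm R m
    rw [mem_Rm, hz]
    exact h1'
  cases m with
  | zero =>
    have hsub : dI 7 (y / 2 ^ 7) ⊆ (Rs R (0 + 1) \ Rs R 0) ∩ dI (0 + 7) (y / 2 ^ (0 + 7)) := by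
      intro z hz
      rw [Finset.mem_inter, Finset.mem_sdiff]
      refine ⟨⟨hfull z ?_, by simp [Rs]⟩, hz⟩
      rw [mem_dI_iff] at hz
      exact hz
    have := Finset.card_le_card hsub
    rw [card_dI] at this
    refine le_trans (by norm_num) this
  | succ m =>
    have hsub : dI (m + 7) (y / 2 ^ (m + 7)) ⊆
        (Rs R (m + 1 + 1) \ Rs R (m + 1)) ∩ dI (m + 1 + 7) (y / 2 ^ (m + 1 + 7)) := by
      intro z hz
      rw [mem_dI_iff] at hz
      have hz2 : z / 2 ^ (m + 1 + 7) = y / 2 ^ (m + 1 + 7) := by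
        rw [show m + 1 + 7 = m + 7 + 1 by ring, ediv_pow_ediv, hz, ← ediv_pow_ediv]
      rw [Finset.mem_inter, Finset.mem_sdiff]
      refine ⟨⟨hfull z hz2, ?_⟩, ?_⟩
      · intro hz3
        have hz3' : z ∈ Rm R m := hz3
        rw [mem_Rm, hz] at hz3'
        apply h2
        show y ∈ Rm R m
        rw [mem_Rm]
        exact hz3'
      · rw [mem_dI_iff]; exact hz2
    have := Finset.card_le_card hsub
    rw [card_dI] at this
    rw [show m + 1 + 6 = m + 7 by ring]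
    exact this

/-- number of nodes meeting the exits -/
lemma card_nodes (R : Finset (ℕ × ℤ)) (m : ℕ) :
    ((Dm R m).image fun y => y / 2 ^ (m + 7)).card * 2 ^ (m + 6) ≤ (Dm R m).card := by
  classical
  set E := (Dm R m).image fun y => y / 2 ^ (m + 7) with hE
  have h1 : ∑ l ∈ E, (Dm R m ∩ dI (m + 7) l).card ≤ (Dm R m).card := by
    rw [← Finset.card_biUnion]
    · refine Finset.card_le_card ?_
      intro y hy
      rw [Finset.mem_biUnion] at hy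
      obtain ⟨l, _, hy⟩ := hy
      exact (Finset.mem_inter.mp hy).1
    · intro l _ l' _ hll
      rw [Function.onFun, Finset.disjoint_left]
      intro y hy hy'
      rw [Finset.mem_inter, mem_dI_iff] at hy hy'
      exact hll (hy.2.symm.trans hy'.2)
  have h2 : ∑ l ∈ E, 2 ^ (m + 6) ≤ ∑ l ∈ E, (Dm R m ∩ dI (m + 7) l).card := by
    refine Finset.sum_le_sum fun l hl => ?_
    rw [hE, Finset.mem_image] at hl
    obtain ⟨y, hy, rfl⟩ := hl
    exact card_exit R m y hy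
  rw [Finset.sum_const, smul_eq_mul] at h2
  exact h2.trans h1

/-- **sum over the neighbourhood of the exits** -/
lemma sum_msk_Dp (R : Finset (ℕ × ℤ)) (m : ℕ) (F : ℤ → ℂ) (A : ℝ)
    (hF : ∀ p ∈ R, av2 (p.1 + 7) p.2 F ≤ A) (h : ℕ) :
    ∑ y ∈ Dp R m h, ‖msk (Rm R m) F y‖ ^ 2 ≤ (2 * (2 * h + 257) * A ^ 2) * (Dm R m).card := by
  classical
  set E := (Dm R m).image fun y => y / 2 ^ (m + 7) with hE
  have hsub : Dp R m h ⊆ E.biUnion fun l =>
      Icc (l * 2 ^ (m + 7) - ((h + 128 : ℕ) : ℤ) * 2 ^ m)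
        (l * 2 ^ (m + 7) + ((h + 128 : ℕ) : ℤ) * 2 ^ m) := by
    intro y hy
    unfold Dp at hy
    rw [Finset.mem_biUnion] at hy ⊢
    obtain ⟨d, hd, hy⟩ := hy
    refine ⟨d / 2 ^ (m + 7), Finset.mem_image_of_mem _ hd, ?_⟩
    have hdd : d ∈ dI (m + 7) (d / 2 ^ (m + 7)) := by rw [mem_dI_iff]
    unfold dI at hdd
    rw [Finset.mem_Ico] at hdd
    have e : (d / 2 ^ (m + 7) + 1) * (2 : ℤ) ^ (m + 7) =
        d / 2 ^ (m + 7) * 2 ^ (m + 7) + 128 * 2 ^ m := by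
      rw [add_mul, one_mul]
      congr 1
      rw [pow_add]; ring
    rw [e] at hdd
    rw [Finset.mem_Icc] at hy ⊢
    have hp : (0 : ℤ) < 2 ^ m := by positivity
    push_cast
    constructor <;> nlinarith [hy.1, hy.2, hdd.1, hdd.2]
  refine (Finset.sum_le_sum_of_subset_of_nonneg hsub fun y _ _ => by positivity).trans ?_
  refine (sum_biUnion_le' _ _ (fun y => ‖msk (Rm R m) F y‖ ^ 2) fun y => by positivity).trans ?_
  refine (Finset.sum_le_sum fun l _ => sum_msk_Icc R m F A hF _ (h + 128)).trans ?_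
  rw [Finset.sum_const, nsmul_eq_mul]
  have h1 : ((E.card : ℝ)) * 2 ^ (m + 6) ≤ ((Dm R m).card : ℝ) := by
    exact_mod_cast card_nodes R m
  have e : (E.card : ℝ) * ((2 * ((h + 128 : ℕ) : ℝ) + 1) * (2 ^ (m + 7) * A ^ 2)) =
      (2 * (2 * h + 257) * A ^ 2) * ((E.card : ℝ) * 2 ^ (m + 6)) := by
    push_cast
    rw [pow_succ 2 (m + 6)]
    ring
  rw [e]
  exact mul_le_mul_of_nonneg_left h1 (by positivity)

/-- **box averages**: `y = β + γ z + δ z'` -/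
lemma sum_msk_box (R : Finset (ℕ × ℤ)) (m s : ℕ) (F : ℤ → ℂ) (A : ℝ)
    (hF : ∀ p ∈ R, av2 (p.1 + 7) p.2 F ≤ A) (β γ δ : ℤ) (hγ : γ ≠ 0) (hγ3 : |γ| ≤ 3) :
    (1 / ((2 ^ (m + s) : ℕ) : ℝ) ^ 2) * ∑ i ∈ range (2 ^ (m + s)), ∑ j ∈ range (2 ^ (m + s)),
      ‖msk (Rm R m) F (β + γ * (i : ℤ) + δ * (j : ℤ))‖ ^ 2 ≤ 896 * A ^ 2 := by
  classical
  have h1 : ∀ j ∈ range (2 ^ (m + s)), ∑ i ∈ range (2 ^ (m + s)),
      ‖msk (Rm R m) F (β + γ * (i : ℤ) + δ * (j : ℤ))‖ ^ 2 ≤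
      ((2 ^ (m + s) : ℕ) : ℝ) * (896 * A ^ 2) := by
    intro j _
    set β' : ℤ := β + δ * (j : ℤ) with hβ'
    have h2 : ∑ i ∈ range (2 ^ (m + s)), ‖msk (Rm R m) F (β + γ * (i : ℤ) + δ * (j : ℤ))‖ ^ 2 =
        ∑ y ∈ (range (2 ^ (m + s))).image (fun i : ℕ => β' + γ * (i : ℤ)),
          ‖msk (Rm R m) F y‖ ^ 2 := by
      rw [Finset.sum_image]
      · refine Finset.sum_congr rfl fun i _ => ?_
        rw [hβ', show β + γ * (i : ℤ) + δ * (j : ℤ) = β + δ * (j : ℤ) + γ * (i : ℤ) by ring]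
      · intro a _ b _ hab
        simp only at hab
        have : γ * (a : ℤ) = γ * (b : ℤ) := by linarith
        exact_mod_cast mul_left_cancel₀ hγ this
    rw [h2]
    have hsub : (range (2 ^ (m + s))).image (fun i : ℕ => β' + γ * (i : ℤ)) ⊆
        Icc (β' - ((3 * 2 ^ s : ℕ) : ℤ) * 2 ^ m) (β' + ((3 * 2 ^ s : ℕ) : ℤ) * 2 ^ m) := by
      intro y hy
      rw [Finset.mem_image] at hy
      obtain ⟨i, hi, rfl⟩ := hy
      rw [Finset.mem_range] at hi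
      have hi' : (i : ℤ) ≤ 2 ^ (m + s) := by exact_mod_cast hi.le
      have hi0 : (0 : ℤ) ≤ i := by positivity
      have h3 : |γ * (i : ℤ)| ≤ 3 * 2 ^ (m + s) := by
        rw [abs_mul, abs_of_nonneg hi0]
        exact mul_le_mul hγ3 hi' hi0 (by norm_num)
      have e : ((3 * 2 ^ s : ℕ) : ℤ) * 2 ^ m = 3 * 2 ^ (m + s) := by
        push_cast; rw [pow_add]; ring
      rw [Finset.mem_Icc, e]
      have := abs_le.mp h3
      constructor <;> linarith [this.1, this.2]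
    refine (Finset.sum_le_sum_of_subset_of_nonneg hsub fun y _ _ => by positivity).trans ?_
    refine (sum_msk_Icc R m F A hF β' (3 * 2 ^ s)).trans ?_
    have hs1 : (1 : ℝ) ≤ 2 ^ s := one_le_pow₀ (by norm_num)
    have hm0 : (0 : ℝ) ≤ 2 ^ m * A ^ 2 := by positivity
    push_cast
    rw [pow_add 2 m 7, pow_add 2 m s]
    have : (2 * (3 * 2 ^ s) + 1) * (2 ^ m * 2 ^ 7 * A ^ 2) =
        128 * (6 * 2 ^ s + 1) * (2 ^ m * A ^ 2 : ℝ) := by ring
    rw [this, show (2 : ℝ) ^ m * 2 ^ s * (896 * A ^ 2) = (896 * 2 ^ s) * (2 ^ m * A ^ 2) by ring]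
    refine mul_le_mul_of_nonneg_right ?_ hm0
    linarith
  rw [Finset.sum_comm]
  refine (mul_le_mul_of_nonneg_left (Finset.sum_le_sum h1) (by positivity)).trans ?_
  rw [Finset.sum_const, Finset.card_range, nsmul_eq_mul]
  have hN : (0 : ℝ) < ((2 ^ (m + s) : ℕ) : ℝ) := by positivity
  refine le_of_eq ?_
  field_simp

end Crest.Agent.R079.Glue
private theorem rz_216749b9ec : type_of% @_root_.Crest.Agent.R079.Glue.Rs.eq_1 := @_root_.Crest.Agent.R079.Glue.Rs.eq_1 -- L43
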