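import Crest.Agent.R072.Mat
import Crest.Agent.R072.NodeSpec
import Crest.Agent.R072.DyadicA

-- ▼ part R079/PathMat_378
section

/-!
# R079: PATH-R072, node level, part 1 (helper259's #20612 (1), typed by helper378)

Real matrices.  `Hm M = (1+M)⁻¹`, `hm M = H M H = H - H²` (`h(m) = m/(1+m)²`),
`gm M = 1 - H` (`g(m) = m/(1+m)`), `Psi M = tr M - tr g(M)` (`Psi(m) = m²/(1+m)`).
-/

set_option autoImplicit false
set_option linter.unusedSectionVars false

namespace Crest.Agent.R079.Path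

open Matrix
open Crest.Agent.R072 Crest.Agent.R072.Nd
open scoped MatrixOrder

variable {n m : Type*} [Fintype n] [DecidableEq n] [Fintype m] [DecidableEq m]

/-- `(1+M)⁻¹` -/
noncomputable def Hm (M : Matrix n n ℝ) : Matrix n n ℝ := (1 + M)⁻¹

/-- `g(M) = M/(1+M) = 1 - (1+M)⁻¹` -/
noncomputable def gm (M : Matrix n n ℝ) : Matrix n n ℝ := 1 - Hm M

/-- `h(M) = M/(1+M)²` -/
noncomputable def hm (M : Matrix n n ℝ) : Matrix n n ℝ := Hm M * M * Hm M

/-- `Psi M = tr M²/(1+M)` -/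
noncomputable def Psi (M : Matrix n n ℝ) : ℝ := trace M - trace (gm M)

theorem one_add_posDef {M : Matrix n n ℝ} (hM : 0 ≤ M) : (1 + M).PosDef :=
  (PosDef.one (n := n) (R := ℝ)).add_posSemidef (Matrix.nonneg_iff_posSemidef.mp hM)

theorem one_add_isUnit {M : Matrix n n ℝ} (hM : 0 ≤ M) : IsUnit (1 + M).det :=
  PosDef.isUnit_det' (one_add_posDef hM)

theorem Hm_posDef {M : Matrix n n ℝ} (hM : 0 ≤ M) : (Hm M).PosDef := (one_add_posDef hM).inv

theorem Hm_nonneg {M : Matrix n n ℝ} (hM : 0 ≤ M) : 0 ≤ Hm M := (Hm_posDef hM).posSemidef.nonneg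

theorem Hm_transpose {M : Matrix n n ℝ} (hM : 0 ≤ M) : (Hm M)ᵀ = Hm M :=
  psd_transpose (Hm_posDef hM).posSemidef

theorem mul_Hm {M : Matrix n n ℝ} (hM : 0 ≤ M) : M * Hm M = 1 - Hm M := by
  have h := mul_nonsing_inv _ (one_add_isUnit hM)
  rw [Matrix.add_mul, Matrix.one_mul] at h
  exact eq_sub_of_add_eq' h

theorem Hm_mul {M : Matrix n n ℝ} (hM : 0 ≤ M) : Hm M * M = 1 - Hm M := by
  have h := nonsing_inv_mul _ (one_add_isUnit hM)
  rw [Matrix.mul_add, Matrix.mul_one] at h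
  exact eq_sub_of_add_eq' h

theorem hm_eq {M : Matrix n n ℝ} (hM : 0 ≤ M) : hm M = Hm M - Hm M * Hm M := by
  unfold hm
  rw [Hm_mul hM, Matrix.sub_mul, Matrix.one_mul]

theorem gm_eq {M : Matrix n n ℝ} (hM : 0 ≤ M) : gm M = M * Hm M := (mul_Hm hM).symm

theorem hm_nonneg {M : Matrix n n ℝ} (hM : 0 ≤ M) : 0 ≤ hm M := by
  have := frob_psd_conj hM (Hm M)
  rwa [Hm_transpose hM] at this

theorem gm_sub_hm {M : Matrix n n ℝ} (hM : 0 ≤ M) :
    gm M - hm M = (1 - Hm M) * (1 - Hm M) := by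
  rw [hm_eq hM, gm]
  noncomm_ring

theorem one_sub_Hm_transpose {M : Matrix n n ℝ} (hM : 0 ≤ M) : (1 - Hm M)ᵀ = 1 - Hm M := by
  rw [transpose_sub, transpose_one, Hm_transpose hM]

theorem hm_le_gm {M : Matrix n n ℝ} (hM : 0 ≤ M) : hm M ≤ gm M := by
  rw [← sub_nonneg, gm_sub_hm hM]
  exact (psd_of_symm_sq (one_sub_Hm_transpose hM)).nonneg

theorem gm_nonneg {M : Matrix n n ℝ} (hM : 0 ≤ M) : 0 ≤ gm M := (hm_nonneg hM).trans (hm_le_gm hM)

theorem Hm_le_one {M : Matrix n n ℝ} (hM : 0 ≤ M) : Hm M ≤ 1 := by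
  rw [← sub_nonneg]
  exact gm_nonneg hM

/-- `(1+M)⁻¹ (1+M)⁻¹ ≤ 1` -/
theorem Hm_sq_le_one {M : Matrix n n ℝ} (hM : 0 ≤ M) : Hm M * Hm M ≤ 1 := by
  have h : Hm M * Hm M ≤ Hm M := by
    rw [← sub_nonneg, ← hm_eq hM]
    exact hm_nonneg hM
  exact h.trans (Hm_le_one hM)

/-- antitonicity of `H` -/
theorem Hm_anti {M N : Matrix n n ℝ} (hM : 0 ≤ M) (h : M ≤ N) : Hm N ≤ Hm M := by
  have hN : 0 ≤ N := hM.trans h
  -- `H_M - H_N = H_M (N - M) H_N = H_N (N-M) H_N + (H_M - H_N)(N-M) H_N`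
  -- use `H_M - H_N = H_N D H_N + H_N D H_M D H_N`, `D = N - M`
  set D := N - M with hD
  have hD0 : 0 ≤ D := sub_nonneg.mpr h
  have e1 : Hm M - Hm N = Hm M * D * Hm N := by
    have h1 := nonsing_inv_mul _ (one_add_isUnit hM)
    have h2 := mul_nonsing_inv _ (one_add_isUnit hN)
    have h3 : D = (1 + N) - (1 + M) := by rw [hD]; abel
    rw [h3, Matrix.mul_sub, Matrix.sub_mul, Matrix.mul_assoc]
    change _ = Hm M * ((1 + N) * (1 + N)⁻¹) - (1 + M)⁻¹ * (1 + M) * Hm N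
    rw [h1, h2, Matrix.mul_one, Matrix.one_mul]
  have e2 : Hm M - Hm N = Hm N * D * Hm M := by
    have h1 := mul_nonsing_inv _ (one_add_isUnit hM)
    have h2 := nonsing_inv_mul _ (one_add_isUnit hN)
    have h3 : D = (1 + N) - (1 + M) := by rw [hD]; abel
    rw [h3, Matrix.mul_sub, Matrix.sub_mul]
    change _ = (1 + N)⁻¹ * (1 + N) * Hm M - Hm N * (1 + M) * (1 + M)⁻¹
    rw [h2, Matrix.mul_assoc (Hm N), h1, Matrix.mul_one, Matrix.one_mul]
  have e3 : Hm M - Hm N = Hm N * D * Hm N + Hm N * D * Hm M * (Hm N * D)ᵀ := by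
    have : (Hm N * D)ᵀ = D * Hm N := by
      rw [transpose_mul, Hm_transpose hN, psd_transpose (Matrix.nonneg_iff_posSemidef.mp hD0)]
    rw [this]
    calc Hm M - Hm N = Hm N * D * Hm M := e2
      _ = Hm N * D * (Hm N + (Hm M - Hm N)) := by rw [add_sub_cancel]
      _ = Hm N * D * (Hm N + Hm M * D * Hm N) := by rw [e1]
      _ = _ := by noncomm_ring
  rw [← sub_nonneg, e3]
  refine add_nonneg ?_ (frob_psd_conj (Hm_nonneg hM) _)
  have := frob_psd_conj hD0 (Hm N)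
  rwa [Hm_transpose hN] at this


end Crest.Agent.R079.Path
end

-- ▼ part R079/PathNode_378
section

/-!
# R079: PATH-R072, node level, part 2 (helper259's #20612 (1)-(2), typed by helper378)

* `Psi_gap`: `tr h(M) U h(M) U ≤ Psi (M + U M U) - 2 Psi M`.
* `MDeriv.Hm`: derivative of the resolvent.
* `Tt_deriv_le`: the derivative of the interpolant `T(x,y,z) = tr (s3 A s4 B s2 C)`.
-/

set_option autoImplicit false
set_option linter.unusedSectionVars false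

namespace Crest.Agent.R079.Path

open Matrix Filter Topology
open Crest.Agent.R072 Crest.Agent.R072.Nd
open scoped MatrixOrder

variable {n m p q : Type*} [Fintype n] [DecidableEq n] [Fintype m] [DecidableEq m]
  [Fintype p] [DecidableEq p] [Fintype q] [DecidableEq q]

/-- the energy `tr h(M) U h(M) U` -/
noncomputable def En (U M : Matrix n n ℝ) : ℝ := trace (hm M * (U * hm M * U))

/-- the sandwiched sign `H U H` -/
noncomputable def sv (U M : Matrix n n ℝ) : Matrix n n ℝ := Hm M * U * Hm M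

theorem sandwich_nonneg {U P : Matrix n n ℝ} (hU : Uᵀ = U) (hP : 0 ≤ P) : 0 ≤ U * P * U := by
  have := frob_psd_conj hP U
  rwa [hU] at this

theorem En_nonneg {U M : Matrix n n ℝ} (hU : Uᵀ = U) (hM : 0 ≤ M) : 0 ≤ En U M :=
  frob_trace_mul_nonneg (hm_nonneg hM) (sandwich_nonneg hU (hm_nonneg hM))

theorem Hm_conj {U M : Matrix n n ℝ} (hU : Uᵀ = U) (hU2 : U * U = 1) (hM : 0 ≤ M) :
    Hm (U * M * U) = U * Hm M * U := by
  have h1 : (1 + U * M * U) * (U * Hm M * U) = 1 := by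
    have h2 : (1 + M) * Hm M = 1 := mul_nonsing_inv _ (one_add_isUnit hM)
    calc (1 + U * M * U) * (U * Hm M * U)
        = U * Hm M * U + U * M * (U * U) * Hm M * U := by noncomm_ring
      _ = U * ((1 + M) * Hm M) * U := by rw [hU2]; noncomm_ring
      _ = 1 := by rw [h2, Matrix.mul_one, hU2]
  exact inv_eq_right_inv h1

theorem gm_conj {U M : Matrix n n ℝ} (hU : Uᵀ = U) (hU2 : U * U = 1) (hM : 0 ≤ M) :
    gm (U * M * U) = U * gm M * U := by
  unfold gm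
  rw [Hm_conj hU hU2 hM, Matrix.mul_sub, Matrix.sub_mul, Matrix.mul_one, hU2]

theorem trace_conj {U M : Matrix n n ℝ} (hU2 : U * U = 1) : trace (U * M * U) = trace M := by
  rw [trace_mul_comm, ← Matrix.mul_assoc, hU2, Matrix.one_mul]


/-! ### entries of the resolvent -/

theorem Hm_entry_le {M : Matrix n n ℝ} (hM : 0 ≤ M) (i j : n) : |Hm M i j| ≤ 1 := by
  have h1 : 0 ≤ 1 - Hm M * Hm M := sub_nonneg.mpr (Hm_sq_le_one hM)
  have h2 := (Matrix.nonneg_iff_posSemidef.mp h1).diag_nonneg (i := i)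
  rw [Matrix.sub_apply, one_apply_eq, mul_apply] at h2
  have h3 : ∀ k, Hm M i k * Hm M k i = Hm M i k ^ 2 := by
    intro k
    have : Hm M k i = (Hm M)ᵀ i k := rfl
    rw [this, Hm_transpose hM, sq]
  simp only [h3] at h2
  have h4 : Hm M i j ^ 2 ≤ ∑ k, Hm M i k ^ 2 :=
    Finset.single_le_sum (f := fun k => Hm M i k ^ 2) (fun k _ => sq_nonneg _) (Finset.mem_univ j)
  exact (sq_le_one_iff_abs_le_one _).mp (by linarith)

theorem Hm_sub {M N : Matrix n n ℝ} (hM : 0 ≤ M) (hN : 0 ≤ N) :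
    Hm N - Hm M = -(Hm N * (N - M) * Hm M) := by
  have h1 := mul_nonsing_inv _ (one_add_isUnit hM)
  have h2 := nonsing_inv_mul _ (one_add_isUnit hN)
  have h3 : N - M = (1 + N) - (1 + M) := by abel
  rw [h3, Matrix.mul_sub, Matrix.sub_mul]
  have e1 : Hm N * (1 + N) * Hm M = Hm M := by
    change (1 + N)⁻¹ * (1 + N) * Hm M = Hm M
    rw [h2, Matrix.one_mul]
  have e2 : Hm N * (1 + M) * Hm M = Hm N := by
    rw [Matrix.mul_assoc]
    change Hm N * ((1 + M) * (1 + M)⁻¹) = Hm N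
    rw [h1, Matrix.mul_one]
  rw [e1, e2]
  abel

theorem tendsto_Hm {M : ℝ → Matrix n n ℝ} {t : ℝ} {l : Filter ℝ} (h0 : ∀ s, 0 ≤ M s)
    (hc : ∀ i j, Tendsto (fun s => M s i j) l (𝓝 (M t i j))) (i j : n) :
    Tendsto (fun s => Hm (M s) i j) l (𝓝 (Hm (M t) i j)) := by
  have key : ∀ s, Hm (M s) i j - Hm (M t) i j
      = -∑ b, ∑ a, Hm (M s) i a * (M s a b - M t a b) * Hm (M t) b j := by
    intro s
    have h := congrFun (congrFun (Hm_sub (h0 t) (h0 s)) i) j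
    rw [Matrix.sub_apply, Matrix.neg_apply, mul_apply] at h
    rw [h]
    congr 1
    refine Finset.sum_congr rfl fun b _ => ?_
    rw [mul_apply, Finset.sum_mul]
    rfl
  have h1 : Tendsto (fun s => Hm (M s) i j - Hm (M t) i j) l (𝓝 0) := by
    have h2 : Tendsto (fun s => -∑ b, ∑ a, Hm (M s) i a * (M s a b - M t a b) * Hm (M t) b j) l
        (𝓝 (-∑ _b : n, ∑ _a : n, (0 : ℝ))) := by
      refine (tendsto_finsetSum _ fun b _ => tendsto_finsetSum _ fun a _ => ?_).neg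
      have h3 : Tendsto (fun s => M s a b - M t a b) l (𝓝 0) := by
        simpa using (hc a b).sub_const (M t a b)
      have h4 : Tendsto (fun s => Hm (M s) i a * (M s a b - M t a b)) l (𝓝 0) := by
        refine squeeze_zero_norm (a := fun s => |M s a b - M t a b|) (fun s => ?_) ?_
        · rw [norm_mul, Real.norm_eq_abs, Real.norm_eq_abs]
          exact mul_le_of_le_one_left (abs_nonneg _) (Hm_entry_le (h0 s) i a)
        · simpa using h3.abs
      simpa using h4.mul_const (Hm (M t) b j)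
    simp only [Finset.sum_const_zero, neg_zero] at h2
    exact h2.congr fun s => (key s).symm
  simpa using h1.add_const (Hm (M t) i j)

/-- derivative of the resolvent -/
theorem MDeriv.Hm' {M : ℝ → Matrix n n ℝ} {M' : Matrix n n ℝ} {t : ℝ} (hM : MDeriv M M' t)
    (h0 : ∀ s, 0 ≤ M s) :
    MDeriv (fun s => Hm (M s)) (-(Hm (M t) * M' * Hm (M t))) t := by
  intro i j
  rw [hasDerivAt_iff_tendsto_slope]
  have key : ∀ s, slope (fun s => Hm (M s) i j) t s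
      = -∑ b, ∑ a, Hm (M s) i a * slope (fun s => M s a b) t s * Hm (M t) b j := by
    intro s
    have h := congrFun (congrFun (Hm_sub (h0 t) (h0 s)) i) j
    rw [Matrix.sub_apply, Matrix.neg_apply, mul_apply] at h
    rw [slope_def_field, h, neg_div, Finset.sum_div]
    congr 1
    refine Finset.sum_congr rfl fun b _ => ?_
    rw [mul_apply, Finset.sum_mul, Finset.sum_div]
    refine Finset.sum_congr rfl fun a _ => ?_
    rw [slope_def_field, Matrix.sub_apply]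
    ring
  have hval : (-(Hm (M t) * M' * Hm (M t))) i j
      = -∑ b, ∑ a, Hm (M t) i a * M' a b * Hm (M t) b j := by
    rw [Matrix.neg_apply, mul_apply]
    congr 1
    refine Finset.sum_congr rfl fun b _ => ?_
    rw [mul_apply, Finset.sum_mul]
  rw [hval]
  have hcont : ∀ i j, Tendsto (fun s => M s i j) (𝓝[≠] t) (𝓝 (M t i j)) := fun i j =>
    ((hM i j).continuousAt.tendsto).mono_left nhdsWithin_le_nhds
  have h2 : Tendsto (fun s => -∑ b, ∑ a, Hm (M s) i a * slope (fun s => M s a b) t s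
      * Hm (M t) b j) (𝓝[≠] t) (𝓝 (-∑ b, ∑ a, Hm (M t) i a * M' a b * Hm (M t) b j)) := by
    refine (tendsto_finsetSum _ fun b _ => tendsto_finsetSum _ fun a _ => ?_).neg
    exact ((tendsto_Hm h0 hcont i a).mul (hasDerivAt_iff_tendsto_slope.mp (hM a b))).mul_const _
  exact h2.congr fun s => (key s).symm

/-! ### the four typical terms -/

theorem sv_transpose {U M : Matrix n n ℝ} (hU : Uᵀ = U) (hM : 0 ≤ M) : (sv U M)ᵀ = sv U M := by
  unfold sv
  rw [transpose_mul, transpose_mul, Hm_transpose hM, hU, Matrix.mul_assoc]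

theorem sv_contraction {U M : Matrix n n ℝ} (hU : Uᵀ = U) (hU2 : U * U = 1) (hM : 0 ≤ M) :
    sv U M * (sv U M)ᵀ ≤ 1 := by
  rw [sv_transpose hU hM]
  unfold sv
  have h1 : Hm M * U * Hm M * (Hm M * U * Hm M) = (Hm M * U) * (Hm M * Hm M) * (Hm M * U)ᵀ := by
    rw [transpose_mul, Hm_transpose hM, hU]
    noncomm_ring
  rw [h1]
  refine (le_conj (Hm_sq_le_one hM) (Hm M * U)).trans ?_
  rw [Matrix.mul_one, transpose_mul, Hm_transpose hM, hU]
  have h3 : Hm M * U * (U * Hm M) = Hm M * Hm M := by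
    rw [Matrix.mul_assoc, ← Matrix.mul_assoc U U, hU2, Matrix.one_mul]
  rw [h3]
  exact Hm_sq_le_one hM

/-- `|X (H U H) Y|_2² ≤ tr h U h U` -/
theorem fsq_sv_le {U M : Matrix n n ℝ} (hU : Uᵀ = U) (hM : 0 ≤ M) (X : Matrix p n ℝ)
    (Y : Matrix n q ℝ) (hX : Xᵀ * X ≤ M) (hY : Y * Yᵀ ≤ M) :
    fsq (X * sv U M * Y) ≤ En U M := by
  have h1 : X * sv U M * Y = (X * Hm M) * U * (Hm M * Y) := by
    unfold sv
    simp only [Matrix.mul_assoc]
  have h2 : (X * Hm M)ᵀ * (X * Hm M) ≤ hm M := by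
    rw [transpose_mul, Hm_transpose hM]
    have := le_conj hX (Hm M)
    rw [Hm_transpose hM] at this
    unfold hm
    calc Hm M * Xᵀ * (X * Hm M) = Hm M * (Xᵀ * X) * Hm M := by simp only [Matrix.mul_assoc]
      _ ≤ _ := this
  have h3 : (Hm M * Y) * (Hm M * Y)ᵀ ≤ hm M := by
    rw [transpose_mul, Hm_transpose hM]
    have := le_conj hY (Hm M)
    rw [Hm_transpose hM] at this
    unfold hm
    calc Hm M * Y * (Yᵀ * Hm M) = Hm M * (Y * Yᵀ) * Hm M := by simp only [Matrix.mul_assoc]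
      _ ≤ _ := this
  rw [h1]
  have h4 := fsq_sandwich_le (X * Hm M) U (Hm M * Y) h2 h3
  unfold En
  rwa [hU] at h4

theorem contraction_Hm_mul {M : Matrix n n ℝ} (hM : 0 ≤ M) (X : Matrix n p ℝ)
    (hX : X * Xᵀ ≤ M) : (Hm M * X) * (Hm M * X)ᵀ ≤ 1 := by
  rw [transpose_mul, Hm_transpose hM]
  have := le_conj hX (Hm M)
  rw [Hm_transpose hM] at this
  calc Hm M * X * (Xᵀ * Hm M) = Hm M * (X * Xᵀ) * Hm M := by simp only [Matrix.mul_assoc]
    _ ≤ hm M := this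
    _ ≤ gm M := hm_le_gm hM
    _ ≤ 1 := by
      rw [← sub_nonneg]
      have : (1 : Matrix n n ℝ) - gm M = Hm M := by unfold gm; abel
      rw [this]
      exact Hm_nonneg hM

section terms

variable {i3 i4 i2 : Type*} [Fintype i3] [DecidableEq i3] [Fintype i4] [DecidableEq i4]
  [Fintype i2] [DecidableEq i2]

theorem sqrt_mul_sqrt_le {a b E : ℝ} (ha0 : 0 ≤ a) (hb0 : 0 ≤ b) (h : a + b ≤ E) :
    √a * √b ≤ E / 2 := by
  have h1 := Real.sq_sqrt ha0
  have h2 := Real.sq_sqrt hb0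
  nlinarith [sq_nonneg (√a - √b)]

/-- general term: `W = X or Y`: `tr (H3 W Wᵀ s3 A s4 B s2 C)`, `W` with `W Wᵀ ≤ M3`. -/
theorem term_le (U3 M3 : Matrix i3 i3 ℝ) (U4 M4 : Matrix i4 i4 ℝ) (U2 M2 : Matrix i2 i2 ℝ)
    (hU3 : U3ᵀ = U3) (hU4 : U4ᵀ = U4) (hU2 : U2ᵀ = U2) (hU3' : U3 * U3 = 1) (hU4' : U4 * U4 = 1)
    (hU2' : U2 * U2 = 1) (h3 : 0 ≤ M3) (h4 : 0 ≤ M4) (h2 : 0 ≤ M2)
    (A : Matrix i3 i4 ℝ) (B : Matrix i4 i2 ℝ) (C : Matrix i2 i3 ℝ) (W : Matrix i3 p ℝ)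
    (hA3 : A * Aᵀ ≤ M3) (hC2 : C * Cᵀ ≤ M2) (hB2 : Bᵀ * B ≤ M2) (hW : W * Wᵀ ≤ M3) :
    |trace (Hm M3 * (W * Wᵀ) * sv U3 M3 * A * sv U4 M4 * B * sv U2 M2 * C)|
      ≤ (En U3 M3 + En U4 M4 + En U2 M2) / 2 := by
  have e1 : trace (Hm M3 * (W * Wᵀ) * sv U3 M3 * A * sv U4 M4 * B * sv U2 M2 * C)
      = trace ((Wᵀ * sv U3 M3 * A) * sv U4 M4 * ((B * sv U2 M2 * C) * (Hm M3 * W))) := by
    rw [show Hm M3 * (W * Wᵀ) * sv U3 M3 * A * sv U4 M4 * B * sv U2 M2 * C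
      = (Hm M3 * W) * ((Wᵀ * sv U3 M3 * A) * sv U4 M4 * (B * sv U2 M2 * C)) by
        simp only [Matrix.mul_assoc], trace_mul_comm]
    simp only [Matrix.mul_assoc]
  rw [e1]
  have hWt : (Wᵀ)ᵀ * Wᵀ ≤ M3 := by rwa [transpose_transpose]
  have f1 : fsq (Wᵀ * sv U3 M3 * A) ≤ En U3 M3 := fsq_sv_le hU3 h3 _ _ hWt hA3
  have f2 : fsq (B * sv U2 M2 * C) ≤ En U2 M2 := fsq_sv_le hU2 h2 _ _ hB2 hC2
  have f3 : fsq ((B * sv U2 M2 * C) * (Hm M3 * W)) ≤ En U2 M2 :=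
    (fsq_mul_contraction _ _ (contraction_Hm_mul h3 W hW)).trans f2
  refine (abs_trace_mul_mul_le _ _ _ (sv_contraction hU4 hU4' h4)).trans ?_
  refine (mul_le_mul (Real.sqrt_le_sqrt f1) (Real.sqrt_le_sqrt f3) (Real.sqrt_nonneg _)
    (Real.sqrt_nonneg _)).trans ?_
  refine sqrt_mul_sqrt_le (En_nonneg hU3 h3) (En_nonneg hU2 h2) ?_
  have := En_nonneg hU4 h4
  linarith

/-- mirrored term `tr (s3 W Wᵀ H3 A s4 B s2 C)` -/
theorem term_le' (U3 M3 : Matrix i3 i3 ℝ) (U4 M4 : Matrix i4 i4 ℝ) (U2 M2 : Matrix i2 i2 ℝ)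
    (hU3 : U3ᵀ = U3) (hU4 : U4ᵀ = U4) (hU2 : U2ᵀ = U2) (hU3' : U3 * U3 = 1) (hU4' : U4 * U4 = 1)
    (hU2' : U2 * U2 = 1) (h3 : 0 ≤ M3) (h4 : 0 ≤ M4) (h2 : 0 ≤ M2)
    (A : Matrix i3 i4 ℝ) (B : Matrix i4 i2 ℝ) (C : Matrix i2 i3 ℝ) (W : Matrix i3 p ℝ)
    (hC3 : Cᵀ * C ≤ M3) (hA4 : Aᵀ * A ≤ M4) (hB4 : B * Bᵀ ≤ M4) (hW : W * Wᵀ ≤ M3) :
    |trace (sv U3 M3 * (W * Wᵀ) * Hm M3 * A * sv U4 M4 * B * sv U2 M2 * C)|
      ≤ (En U3 M3 + En U4 M4 + En U2 M2) / 2 := by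
  have e1 : trace (sv U3 M3 * (W * Wᵀ) * Hm M3 * A * sv U4 M4 * B * sv U2 M2 * C)
      = trace (Hm M3 * (W * Wᵀ) * sv U3 M3 * Cᵀ * sv U2 M2 * Bᵀ * sv U4 M4 * Aᵀ) := by
    rw [← trace_transpose]
    simp only [transpose_mul, transpose_transpose, sv_transpose hU3 h3, sv_transpose hU4 h4,
      sv_transpose hU2 h2, Hm_transpose h3]
    rw [show Cᵀ * (sv U2 M2 * (Bᵀ * (sv U4 M4 * (Aᵀ * (Hm M3 * (W * Wᵀ * sv U3 M3))))))
      = (Cᵀ * sv U2 M2 * Bᵀ * sv U4 M4 * Aᵀ) * (Hm M3 * (W * Wᵀ) * sv U3 M3) by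
        simp only [Matrix.mul_assoc], trace_mul_comm]
    simp only [Matrix.mul_assoc]
  rw [e1]
  have := term_le U3 M3 U2 M2 U4 M4 hU3 hU2 hU4 hU3' hU2' hU4' h3 h2 h4 Cᵀ Bᵀ Aᵀ W
    (by rwa [transpose_transpose]) (by rwa [transpose_transpose]) (by rwa [transpose_transpose]) hW
  linarith

end terms

end Crest.Agent.R079.Path
end

-- ▼ part R079/PathDeriv_378
section

/-!
# R079: PATH-R072, node level, part 3: the interpolant and its derivative (helper378)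

`Pv x z A C = x A Aᵀ + z Cᵀ C`, `Tt x y z = tr (s3 A s4 B s2 C)`, `s_v = H_v U_v H_v`,
`H_v = (1+M_v)⁻¹`, `M_3 = Pv x z A C`, `M_4 = Pv y x B A`, `M_2 = Pv z y C B`.
At `x=y=z=0` it is `tr (U3 A U4 B U2 C)`.
-/

set_option autoImplicit false
set_option linter.unusedSectionVars false
set_option linter.unusedVariables false

namespace Crest.Agent.R079.Path

open Matrix Filter Topology
open Crest.Agent.R072 Crest.Agent.R072.Nd
open scoped MatrixOrder

variable {i3 i4 i2 : Type*} [Fintype i3] [DecidableEq i3] [Fintype i4] [DecidableEq i4]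
  [Fintype i2] [DecidableEq i2]

/-- vertex matrix -/
noncomputable def Pv (x z : ℝ) (A : Matrix i3 i4 ℝ) (C : Matrix i2 i3 ℝ) : Matrix i3 i3 ℝ :=
  x • (A * Aᵀ) + z • (Cᵀ * C)

/-- the interpolant -/
noncomputable def Tt (U3 : Matrix i3 i3 ℝ) (U4 : Matrix i4 i4 ℝ) (U2 : Matrix i2 i2 ℝ)
    (A : Matrix i3 i4 ℝ) (B : Matrix i4 i2 ℝ) (C : Matrix i2 i3 ℝ) (x y z : ℝ) : ℝ :=
  trace (sv U3 (Pv x z A C) * A * sv U4 (Pv y x B A) * B * sv U2 (Pv z y C B) * C)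

/-- the total energy -/
noncomputable def EE (U3 : Matrix i3 i3 ℝ) (U4 : Matrix i4 i4 ℝ) (U2 : Matrix i2 i2 ℝ)
    (A : Matrix i3 i4 ℝ) (B : Matrix i4 i2 ℝ) (C : Matrix i2 i3 ℝ) (x y z : ℝ) : ℝ :=
  En U3 (Pv x z A C) + En U4 (Pv y x B A) + En U2 (Pv z y C B)

theorem psd_smul' {n : Type*} [Fintype n] [DecidableEq n] {P : Matrix n n ℝ} (hP : 0 ≤ P) {c : ℝ}
    (hc : 0 ≤ c) : 0 ≤ c • P :=
  ((Matrix.nonneg_iff_posSemidef.mp hP).smul hc).nonneg

theorem Pv_nonneg {x z : ℝ} (hx : 0 ≤ x) (hz : 0 ≤ z) (A : Matrix i3 i4 ℝ) (C : Matrix i2 i3 ℝ) :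
    0 ≤ Pv x z A C :=
  add_nonneg (psd_smul' (psd_mul_transpose_self A) hx) (psd_smul' (psd_transpose_mul_self C) hz)

theorem Hm_zero : Hm (0 : Matrix i3 i3 ℝ) = 1 := by
  unfold Hm
  rw [add_zero, inv_one]

theorem Tt_zero (U3 : Matrix i3 i3 ℝ) (U4 : Matrix i4 i4 ℝ) (U2 : Matrix i2 i2 ℝ)
    (A : Matrix i3 i4 ℝ) (B : Matrix i4 i2 ℝ) (C : Matrix i2 i3 ℝ) :
    Tt U3 U4 U2 A B C 0 0 0 = trace (U3 * A * U4 * B * U2 * C) := by
  unfold Tt Pv sv
  simp only [zero_smul, add_zero, Hm_zero, Matrix.one_mul, Matrix.mul_one]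


theorem EE_rot (U3 : Matrix i3 i3 ℝ) (U4 : Matrix i4 i4 ℝ) (U2 : Matrix i2 i2 ℝ)
    (A : Matrix i3 i4 ℝ) (B : Matrix i4 i2 ℝ) (C : Matrix i2 i3 ℝ) (x y z : ℝ) :
    EE U3 U4 U2 A B C x y z = EE U4 U2 U3 B C A y z x := by
  unfold EE
  ring

theorem EE_nonneg {U3 : Matrix i3 i3 ℝ} {U4 : Matrix i4 i4 ℝ} {U2 : Matrix i2 i2 ℝ}
    (hU3 : U3ᵀ = U3) (hU4 : U4ᵀ = U4) (hU2 : U2ᵀ = U2)
    (A : Matrix i3 i4 ℝ) (B : Matrix i4 i2 ℝ) (C : Matrix i2 i3 ℝ) {x y z : ℝ}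
    (hx : 0 ≤ x) (hy : 0 ≤ y) (hz : 0 ≤ z) : 0 ≤ EE U3 U4 U2 A B C x y z :=
  add_nonneg (add_nonneg (En_nonneg hU3 (Pv_nonneg hx hz A C)) (En_nonneg hU4 (Pv_nonneg hy hx B A)))
    (En_nonneg hU2 (Pv_nonneg hz hy C B))

/-- vertex contribution to the derivative -/
noncomputable def dsv (U M M' : Matrix i3 i3 ℝ) : Matrix i3 i3 ℝ :=
  -(Hm M * M' * sv U M + sv U M * M' * Hm M)

theorem MDeriv.sv' {U : Matrix i3 i3 ℝ} {M : ℝ → Matrix i3 i3 ℝ} {M' : Matrix i3 i3 ℝ} {t : ℝ}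
    (hM : MDeriv M M' t) (h0 : ∀ s, 0 ≤ M s) :
    MDeriv (fun s => sv U (M s)) (dsv U (M t) M') t := by
  have h1 := MDeriv.Hm' hM h0
  have h2 := (h1.mul_const U).mul h1
  have e : -(Hm (M t) * M' * Hm (M t)) * U * Hm (M t)
      + Hm (M t) * U * -(Hm (M t) * M' * Hm (M t)) = dsv U (M t) M' := by
    unfold dsv sv
    noncomm_ring
  rw [e] at h2
  exact h2

theorem MDeriv.Pv' {x z : ℝ → ℝ} {x' z' t : ℝ} (hx : HasDerivAt x x' t) (hz : HasDerivAt z z' t)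
    (A : Matrix i3 i4 ℝ) (C : Matrix i2 i3 ℝ) :
    MDeriv (fun s => Pv (x s) (z s) A C) (Pv x' z' A C) t := by
  intro i j
  unfold Pv
  simp only [Matrix.add_apply, Matrix.smul_apply, smul_eq_mul]
  exact (hx.mul_const _).add (hz.mul_const _)

/-- vertex term -/
noncomputable def vt (U3 : Matrix i3 i3 ℝ) (U4 : Matrix i4 i4 ℝ) (U2 : Matrix i2 i2 ℝ)
    (A : Matrix i3 i4 ℝ) (B : Matrix i4 i2 ℝ) (C : Matrix i2 i3 ℝ) (x y z x' z' : ℝ) : ℝ :=
  trace (dsv U3 (Pv x z A C) (Pv x' z' A C) * A * sv U4 (Pv y x B A) * B * sv U2 (Pv z y C B) * C)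

theorem Tt_hasDerivAt (U3 : Matrix i3 i3 ℝ) (U4 : Matrix i4 i4 ℝ) (U2 : Matrix i2 i2 ℝ)
    (A : Matrix i3 i4 ℝ) (B : Matrix i4 i2 ℝ) (C : Matrix i2 i3 ℝ)
    {x y z : ℝ → ℝ} {x' y' z' t : ℝ} (hx : HasDerivAt x x' t) (hy : HasDerivAt y y' t)
    (hz : HasDerivAt z z' t) (hx0 : ∀ s, 0 ≤ x s) (hy0 : ∀ s, 0 ≤ y s) (hz0 : ∀ s, 0 ≤ z s) :
    HasDerivAt (fun s => Tt U3 U4 U2 A B C (x s) (y s) (z s))
      (vt U3 U4 U2 A B C (x t) (y t) (z t) x' z' + vt U4 U2 U3 B C A (y t) (z t) (x t) y' x'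
        + vt U2 U3 U4 C A B (z t) (x t) (y t) z' y') t := by
  have h3 := MDeriv.sv' (U := U3) (MDeriv.Pv' hx hz A C)
    (fun s => Pv_nonneg (hx0 s) (hz0 s) A C)
  have h4 := MDeriv.sv' (U := U4) (MDeriv.Pv' hy hx B A)
    (fun s => Pv_nonneg (hy0 s) (hx0 s) B A)
  have h2 := MDeriv.sv' (U := U2) (MDeriv.Pv' hz hy C B)
    (fun s => Pv_nonneg (hz0 s) (hy0 s) C B)
  have h := ((((((h3.mul_const A).mul h4).mul_const B).mul h2).mul_const C)).trace
  refine h.congr_deriv ?_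
  set S3 := sv U3 (Pv (x t) (z t) A C)
  set S4 := sv U4 (Pv (y t) (x t) B A)
  set S2 := sv U2 (Pv (z t) (y t) C B)
  unfold vt
  set D3 := dsv U3 (Pv (x t) (z t) A C) (Pv x' z' A C)
  set D4 := dsv U4 (Pv (y t) (x t) B A) (Pv y' x' B A)
  set D2 := dsv U2 (Pv (z t) (y t) C B) (Pv z' y' C B)
  have e2 : trace (D4 * B * S2 * C * S3 * A) = trace (S3 * A * D4 * B * S2 * C) := by
    rw [show D4 * B * S2 * C * S3 * A = (D4 * B * S2 * C) * (S3 * A) by
      simp only [Matrix.mul_assoc], trace_mul_comm]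
    simp only [Matrix.mul_assoc]
  have e3 : trace (D2 * C * S3 * A * S4 * B) = trace (S3 * A * S4 * B * D2 * C) := by
    rw [show D2 * C * S3 * A * S4 * B = (D2 * C) * (S3 * A * S4 * B) by
      simp only [Matrix.mul_assoc], trace_mul_comm]
    simp only [Matrix.mul_assoc]
  rw [e2, e3]
  simp only [Matrix.add_mul, trace_add]
  rfl

/-- bound of the vertex term -/
theorem vt_le {U3 : Matrix i3 i3 ℝ} {U4 : Matrix i4 i4 ℝ} {U2 : Matrix i2 i2 ℝ}
    (hU3 : U3ᵀ = U3) (hU4 : U4ᵀ = U4) (hU2 : U2ᵀ = U2) (hU3' : U3 * U3 = 1) (hU4' : U4 * U4 = 1)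
    (hU2' : U2 * U2 = 1)
    (A : Matrix i3 i4 ℝ) (B : Matrix i4 i2 ℝ) (C : Matrix i2 i3 ℝ) {x y z : ℝ}
    (hx : 0 < x) (hy : 0 < y) (hz : 0 < z) (x' z' : ℝ) :
    |vt U3 U4 U2 A B C x y z x' z'| ≤
      (|x'| / x + |z'| / z) * ((√x * √y * √z)⁻¹ * EE U3 U4 U2 A B C x y z) := by
  set M3 := Pv x z A C with hM3
  set M4 := Pv y x B A with hM4
  set M2 := Pv z y C B with hM2
  have p3 : 0 ≤ M3 := Pv_nonneg hx.le hz.le A C
  have p4 : 0 ≤ M4 := Pv_nonneg hy.le hx.le B A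
  have p2 : 0 ≤ M2 := Pv_nonneg hz.le hy.le C B
  have sx : √x * √x = x := Real.mul_self_sqrt hx.le
  have sy : √y * √y = y := Real.mul_self_sqrt hy.le
  have sz : √z * √z = z := Real.mul_self_sqrt hz.le
  have hρ : 0 < √x * √y * √z := by positivity
  -- hat matrices
  set A' := √x • A with hA'
  set B' := √y • B with hB'
  set C' := √z • C with hC'
  have a1 : A' * A'ᵀ = x • (A * Aᵀ) := by
    rw [hA', transpose_smul, Matrix.smul_mul, Matrix.mul_smul, smul_smul, sx]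
  have a2 : A'ᵀ * A' = x • (Aᵀ * A) := by
    rw [hA', transpose_smul, Matrix.smul_mul, Matrix.mul_smul, smul_smul, sx]
  have b1 : B' * B'ᵀ = y • (B * Bᵀ) := by
    rw [hB', transpose_smul, Matrix.smul_mul, Matrix.mul_smul, smul_smul, sy]
  have b2 : B'ᵀ * B' = y • (Bᵀ * B) := by
    rw [hB', transpose_smul, Matrix.smul_mul, Matrix.mul_smul, smul_smul, sy]
  have c1 : C' * C'ᵀ = z • (C * Cᵀ) := by
    rw [hC', transpose_smul, Matrix.smul_mul, Matrix.mul_smul, smul_smul, sz]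
  have c2 : C'ᵀ * C' = z • (Cᵀ * C) := by
    rw [hC', transpose_smul, Matrix.smul_mul, Matrix.mul_smul, smul_smul, sz]
  have A3 : A' * A'ᵀ ≤ M3 := by
    rw [a1, hM3, Pv]
    exact le_add_of_nonneg_right (psd_smul' (psd_transpose_mul_self C) hz.le)
  have C3 : C'ᵀ * C' ≤ M3 := by
    rw [c2, hM3, Pv]
    exact le_add_of_nonneg_left (psd_smul' (psd_mul_transpose_self A) hx.le)
  have B4 : B' * B'ᵀ ≤ M4 := by
    rw [b1, hM4, Pv]
    exact le_add_of_nonneg_right (psd_smul' (psd_transpose_mul_self A) hx.le)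
  have A4 : A'ᵀ * A' ≤ M4 := by
    rw [a2, hM4, Pv]
    exact le_add_of_nonneg_left (psd_smul' (psd_mul_transpose_self B) hy.le)
  have C2 : C' * C'ᵀ ≤ M2 := by
    rw [c1, hM2, Pv]
    exact le_add_of_nonneg_right (psd_smul' (psd_transpose_mul_self B) hy.le)
  have B2 : B'ᵀ * B' ≤ M2 := by
    rw [b2, hM2, Pv]
    exact le_add_of_nonneg_left (psd_smul' (psd_mul_transpose_self C) hz.le)
  -- the four terms
  have t1 := term_le U3 M3 U4 M4 U2 M2 hU3 hU4 hU2 hU3' hU4' hU2' p3 p4 p2 A' B' C' A' A3 C2 B2 A3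
  have t2 := term_le U3 M3 U4 M4 U2 M2 hU3 hU4 hU2 hU3' hU4' hU2' p3 p4 p2 A' B' C' C'ᵀ A3 C2 B2
    (by rwa [transpose_transpose])
  have t3 := term_le' U3 M3 U4 M4 U2 M2 hU3 hU4 hU2 hU3' hU4' hU2' p3 p4 p2 A' B' C' A' C3 A4 B4 A3
  have t4 := term_le' U3 M3 U4 M4 U2 M2 hU3 hU4 hU2 hU3' hU4' hU2' p3 p4 p2 A' B' C' C'ᵀ C3 A4 B4
    (by rwa [transpose_transpose])
  rw [transpose_transpose] at t2 t4
  -- unscaled traces
  set ρ := √x * √y * √z with hρd
  have k1 : ∀ (X Y : Matrix i3 i3 ℝ) (W : Matrix i3 i3 ℝ) (c : ℝ),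
      trace (X * (c • W) * Y * A' * sv U4 M4 * B' * sv U2 M2 * C')
        = c * ρ * trace (X * W * Y * A * sv U4 M4 * B * sv U2 M2 * C) := by
    intro X Y W c
    rw [hA', hB', hC']
    simp only [Matrix.smul_mul, Matrix.mul_smul, trace_smul, smul_eq_mul]
    rw [hρd]
    ring
  rw [a1, k1] at t1
  rw [c2, k1] at t2
  rw [a1, k1] at t3
  rw [c2, k1] at t4
  set E := En U3 M3 + En U4 M4 + En U2 M2 with hE
  have hEE : EE U3 U4 U2 A B C x y z = E := rfl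
  -- expand vt
  have ev : vt U3 U4 U2 A B C x y z x' z' =
      -(x' * trace (Hm M3 * (A * Aᵀ) * sv U3 M3 * A * sv U4 M4 * B * sv U2 M2 * C)
        + z' * trace (Hm M3 * (Cᵀ * C) * sv U3 M3 * A * sv U4 M4 * B * sv U2 M2 * C)
        + x' * trace (sv U3 M3 * (A * Aᵀ) * Hm M3 * A * sv U4 M4 * B * sv U2 M2 * C)
        + z' * trace (sv U3 M3 * (Cᵀ * C) * Hm M3 * A * sv U4 M4 * B * sv U2 M2 * C)) := by
    unfold vt dsv
    rw [← hM3, ← hM4, ← hM2, show Pv x' z' A C = x' • (A * Aᵀ) + z' • (Cᵀ * C) from rfl]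
    simp only [Matrix.neg_mul, Matrix.add_mul, Matrix.mul_add, Matrix.smul_mul, Matrix.mul_smul,
      trace_neg, trace_add, trace_smul, smul_eq_mul]
    ring
  rw [ev, hEE, abs_neg]
  set τ1 := trace (Hm M3 * (A * Aᵀ) * sv U3 M3 * A * sv U4 M4 * B * sv U2 M2 * C)
  set τ2 := trace (Hm M3 * (Cᵀ * C) * sv U3 M3 * A * sv U4 M4 * B * sv U2 M2 * C)
  set τ3 := trace (sv U3 M3 * (A * Aᵀ) * Hm M3 * A * sv U4 M4 * B * sv U2 M2 * C)
  set τ4 := trace (sv U3 M3 * (Cᵀ * C) * Hm M3 * A * sv U4 M4 * B * sv U2 M2 * C)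
  have key : ∀ (c τ c' : ℝ), 0 < c → |c * ρ * τ| ≤ E / 2 →
      |c' * τ| ≤ |c'| / c * (ρ⁻¹ * (E / 2)) := by
    intro c τ c' hc h
    rw [abs_mul, abs_mul, abs_of_pos hc, abs_of_pos hρ] at h
    rw [abs_mul]
    have h5 : |c'| * |τ| = |c'| / c * (ρ⁻¹ * (c * ρ * |τ|)) := by
      field_simp
    rw [h5]
    gcongr
  have u1 := key x τ1 x' hx t1
  have u2 := key z τ2 z' hz t2
  have u3 := key x τ3 x' hx t3
  have u4 := key z τ4 z' hz t4
  have e5 : (|x'| / x + |z'| / z) * (ρ⁻¹ * E) = |x'| / x * (ρ⁻¹ * (E / 2)) + |z'| / z * (ρ⁻¹ * (E / 2))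
      + |x'| / x * (ρ⁻¹ * (E / 2)) + |z'| / z * (ρ⁻¹ * (E / 2)) := by ring
  rw [e5]
  refine (abs_add_le _ _).trans (add_le_add ((abs_add_le _ _).trans (add_le_add
    ((abs_add_le _ _).trans (add_le_add u1 u2)) u3)) u4)

/-- **(P4)** the derivative of the interpolant is bounded by the energies -/
theorem Tt_deriv_le {U3 : Matrix i3 i3 ℝ} {U4 : Matrix i4 i4 ℝ} {U2 : Matrix i2 i2 ℝ}
    (hU3 : U3ᵀ = U3) (hU4 : U4ᵀ = U4) (hU2 : U2ᵀ = U2) (hU3' : U3 * U3 = 1) (hU4' : U4 * U4 = 1)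
    (hU2' : U2 * U2 = 1)
    (A : Matrix i3 i4 ℝ) (B : Matrix i4 i2 ℝ) (C : Matrix i2 i3 ℝ)
    {x y z : ℝ → ℝ} {x' y' z' t : ℝ} (hx : HasDerivAt x x' t) (hy : HasDerivAt y y' t)
    (hz : HasDerivAt z z' t) (hx0 : ∀ s, 0 < x s) (hy0 : ∀ s, 0 < y s) (hz0 : ∀ s, 0 < z s) :
    ∃ T', HasDerivAt (fun s => Tt U3 U4 U2 A B C (x s) (y s) (z s)) T' t ∧
      |T'| ≤ 2 * (|x'| / x t + |y'| / y t + |z'| / z t) *
        ((√(x t) * √(y t) * √(z t))⁻¹ * EE U3 U4 U2 A B C (x t) (y t) (z t)) := by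
  refine ⟨_, Tt_hasDerivAt U3 U4 U2 A B C hx hy hz (fun s => (hx0 s).le) (fun s => (hy0 s).le)
    (fun s => (hz0 s).le), ?_⟩
  have h1 := vt_le hU3 hU4 hU2 hU3' hU4' hU2' A B C (hx0 t) (hy0 t) (hz0 t) x' z'
  have h2 := vt_le hU4 hU2 hU3 hU4' hU2' hU3' B C A (hy0 t) (hz0 t) (hx0 t) y' x'
  have h3 := vt_le hU2 hU3 hU4 hU2' hU3' hU4' C A B (hz0 t) (hx0 t) (hy0 t) z' y'
  have e2 : EE U4 U2 U3 B C A (y t) (z t) (x t) = EE U3 U4 U2 A B C (x t) (y t) (z t) :=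
    (EE_rot U3 U4 U2 A B C (x t) (y t) (z t)).symm
  have e3 : EE U2 U3 U4 C A B (z t) (x t) (y t) = EE U3 U4 U2 A B C (x t) (y t) (z t) := by
    rw [EE_rot, ← e2, EE_rot, EE_rot]
  rw [e2, show √(y t) * √(z t) * √(x t) = √(x t) * √(y t) * √(z t) by ring] at h2
  rw [e3, show √(z t) * √(x t) * √(y t) = √(x t) * √(y t) * √(z t) by ring] at h3
  refine (abs_add_le _ _).trans ((add_le_add ((abs_add_le _ _).trans (add_le_add h1 h2)) h3).trans ?_)
  apply le_of_eq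
  ring

end Crest.Agent.R079.Path
end

-- ▼ part R079/PathStep_378
section

/-!
# R079: PATH-R072, part 4: the one step inequality of the potential (helper378)

`Vp x y z A B C = Psi (M_3) + Psi (M_4) + Psi (M_2)`.
`step_path`: `EE (parent) ≤ 2 (¼ ∑ children Vp - Vp parent)`.
-/

set_option autoImplicit false
set_option linter.unusedSectionVars false
set_option linter.unusedVariables false

namespace Crest.Agent.R079.Path

open Matrix Filter Topology
open Crest.Agent.R072 Crest.Agent.R072.Nd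
open scoped MatrixOrder

section psi

variable {n m : Type*} [Fintype n] [DecidableEq n] [Fintype m] [DecidableEq m]


theorem Psi_eq_sq {M : Matrix n n ℝ} (hM : 0 ≤ M) : Psi M = trace (M * M * Hm M) := by
  have h : M * M * Hm M = M - gm M := by
    rw [Matrix.mul_assoc, mul_Hm hM, Matrix.mul_sub, Matrix.mul_one, ← gm_eq hM]
  rw [h, trace_sub]
  rfl

theorem tr_fromBlocks (P : Matrix n n ℝ) (Q : Matrix n m ℝ) (R : Matrix m n ℝ)
    (S : Matrix m m ℝ) : trace (fromBlocks P Q R S) = trace P + trace S := by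
  simp only [trace, diag_apply, Fintype.sum_sum_type, fromBlocks_apply₁₁, fromBlocks_apply₂₂]

theorem psd_symm_sq {M : Matrix n n ℝ} (hM : 0 ≤ M) : 0 ≤ M * M :=
  (psd_of_symm_sq (psd_transpose (Matrix.nonneg_iff_posSemidef.mp hM))).nonneg


theorem Psi_le_trace {M : Matrix n n ℝ} (hM : 0 ≤ M) : Psi M ≤ trace M := by
  unfold Psi
  have := trace_nonneg_of_psd (gm_nonneg hM)
  linarith

theorem Psi_le_trace_sq {M : Matrix n n ℝ} (hM : 0 ≤ M) : Psi M ≤ trace (M * M) := by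
  rw [Psi_eq_sq hM]
  have := trace_mul_mono_right (psd_symm_sq hM) (Hm_le_one hM)
  rwa [Matrix.mul_one] at this







theorem trace_submatrix_equiv' (e : m ≃ n) (M : Matrix n n ℝ) :
    trace (M.submatrix e e) = trace M := by
  simp only [trace, diag_apply, submatrix_apply]
  exact Equiv.sum_comp e fun i => M i i


end psi

section step

variable {i3 i4 i2 : Type*} [Fintype i3] [DecidableEq i3] [Fintype i4] [DecidableEq i4]
  [Fintype i2] [DecidableEq i2]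











end step

section block

open Crest.Agent.R072.Dyadic (sg sg_mul_self diagonal_sg add_conj_sg)

variable {m : Type*} [Fintype m] [DecidableEq m]





end block

end Crest.Agent.R079.Path
end

-- ▼ part R079/LogDet_378
section

/-!
# R079: the log-det potential (helper378; potential proposed by helper491 #24559)

`LD1 M = tr M - log det (1+M)`, `LD t M = LD1 (t⁻¹ M)`, real positive semidefinite matrices.
* `LD1_superadd_gap`: `tr g(M) g(N) ≤ LD1 (M+N) - LD1 M - LD1 N`, `g(M) = M/(1+M)`.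
* `LD1_mid_le`: midpoint convexity.
* `LD1_mixed_le`: mixed difference of `LD1 (a+b)` bounded by `gap1 (2a₁) (2a₂) + gap1 (2b₁) (2b₂)`.
-/

set_option autoImplicit false
set_option linter.unusedSectionVars false
set_option linter.unusedVariables false
set_option linter.dupNamespace false

namespace Crest.Agent.R079.LD

open Matrix
open Crest.Agent.R072 Crest.Agent.R072.Nd Crest.Agent.R079.Path
open scoped MatrixOrder

variable {n m : Type*} [Fintype n] [DecidableEq n] [Fintype m] [DecidableEq m]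

/-- `tr M - log det (1 + M)` -/
noncomputable def LD1 (M : Matrix n n ℝ) : ℝ := trace M - Real.log (det (1 + M))

/-- threshold `t` -/
noncomputable def LD (t : ℝ) (M : Matrix n n ℝ) : ℝ := LD1 (t⁻¹ • M)

/-- midpoint gap -/
noncomputable def gapLD (t : ℝ) (X Y : Matrix n n ℝ) : ℝ :=
  LD t X + LD t Y - 2 * LD t ((1 / 2 : ℝ) • (X + Y))

/-- midpoint gap at threshold 1 -/
noncomputable def gap1 (X Y : Matrix n n ℝ) : ℝ :=
  LD1 X + LD1 Y - 2 * LD1 ((1 / 2 : ℝ) • (X + Y))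

/-! ### the basic inequality `log det A - log det B ≤ tr (A B⁻¹) - n` -/

theorem log_det_le_trace {P : Matrix n n ℝ} (hP : P.PosDef) :
    Real.log (det P) ≤ trace P - Fintype.card n := by
  have h1 : det P = ∏ i, hP.isHermitian.eigenvalues i := by
    simpa using hP.isHermitian.det_eq_prod_eigenvalues
  have h2 : trace P = ∑ i, hP.isHermitian.eigenvalues i := by
    simpa using hP.isHermitian.trace_eq_sum_eigenvalues
  have hpos : ∀ i, 0 < hP.isHermitian.eigenvalues i := hP.eigenvalues_pos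
  rw [h1, h2, Real.log_prod fun i _ => (hpos i).ne']
  have h3 : (Fintype.card n : ℝ) = ∑ _i : n, (1 : ℝ) := by simp
  rw [h3, ← Finset.sum_sub_distrib]
  exact Finset.sum_le_sum fun i _ => Real.log_le_sub_one_of_pos (hpos i)

theorem log_det_sub_le {A B : Matrix n n ℝ} (hA : A.PosDef) (hB : B.PosDef) :
    Real.log (det A) - Real.log (det B) ≤ trace (A * B⁻¹) - Fintype.card n := by
  have hBi := hB.inv
  set K := CFC.sqrt B⁻¹ with hK
  have hKK : K * K = B⁻¹ := rt_mul_rt hBi.posSemidef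
  have hKt : Kᵀ = K := rt_transpose _
  have hdetB : det B ≠ 0 := hB.det_pos.ne'
  have hKdet : det K * det K = (det B)⁻¹ := by
    rw [← det_mul, hKK, det_nonsing_inv, Ring.inverse_eq_inv']
  have hKne : det K ≠ 0 := by
    intro h
    rw [h, mul_zero] at hKdet
    exact (inv_ne_zero hdetB) hKdet.symm
  have hC : (K * A * K).PosDef := by
    have hu : IsUnit K := by
      rw [Matrix.isUnit_iff_isUnit_det]
      exact hKne.isUnit
    have h := (Matrix.IsUnit.posDef_star_right_conjugate_iff hu (x := A)).mpr hA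
    rw [star_eq_conjTranspose, conjTranspose_eq_transpose_of_trivial, hKt] at h
    exact h
  have h := log_det_le_trace hC
  have e1 : det (K * A * K) = det A * (det B)⁻¹ := by
    rw [det_mul, det_mul, ← hKdet]
    ring
  have e2 : trace (K * A * K) = trace (A * B⁻¹) := by
    rw [← hKK, Matrix.mul_assoc, trace_mul_comm]
    simp only [Matrix.mul_assoc]
  rw [e1, e2, Real.log_mul hA.det_pos.ne' (inv_ne_zero hdetB), Real.log_inv] at h
  linarith

/-- midpoint concavity of `log det` -/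
theorem log_det_mid {A B : Matrix n n ℝ} (hA : A.PosDef) (hB : B.PosDef) :
    Real.log (det A) + Real.log (det B) ≤ 2 * Real.log (det ((1 / 2 : ℝ) • (A + B))) := by
  have hM : ((1 / 2 : ℝ) • (A + B)).PosDef := (hA.add hB).smul (by norm_num)
  set M := (1 / 2 : ℝ) • (A + B) with hMd
  have h1 := log_det_sub_le hA hM
  have h2 := log_det_sub_le hB hM
  have h3 : trace (A * M⁻¹) + trace (B * M⁻¹) = 2 * Fintype.card n := by
    rw [← trace_add, ← Matrix.add_mul, show A + B = (2 : ℝ) • M by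
      rw [hMd, smul_smul]; norm_num, Matrix.smul_mul,
      mul_nonsing_inv _ (PosDef.isUnit_det' hM), trace_smul, trace_one, smul_eq_mul]
  linarith

/-- monotonicity of `log det` -/
theorem log_det_mono {A B : Matrix n n ℝ} (hA : A.PosDef) (hB : B.PosDef) (h : A ≤ B) :
    Real.log (det A) ≤ Real.log (det B) := by
  have h1 := log_det_sub_le hA hB
  have h2 : trace (A * B⁻¹) ≤ trace (B * B⁻¹) :=
    trace_mul_mono_left h hB.inv.posSemidef.nonneg
  rw [mul_nonsing_inv _ (PosDef.isUnit_det' hB), trace_one] at h2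
  linarith

/-! ### basic properties of `LD1` -/

/-- Bregman inequality, gradient `g` -/
theorem LD1_breg {X Y : Matrix n n ℝ} (hX : 0 ≤ X) (hY : 0 ≤ Y) :
    LD1 X + trace (gm X * (Y - X)) ≤ LD1 Y := by
  have h := log_det_sub_le (one_add_posDef hY) (one_add_posDef hX)
  have e1 : (1 + Y) * (1 + X)⁻¹ = 1 + (Y - X) * Hm X := by
    have h1 : (1 + X) * Hm X = 1 := mul_nonsing_inv _ (one_add_isUnit hX)
    calc (1 + Y) * (1 + X)⁻¹ = ((1 + X) + (Y - X)) * Hm X := by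
          rw [show (1 + X) + (Y - X) = 1 + Y by abel]; rfl
      _ = _ := by rw [Matrix.add_mul, h1]
  rw [e1, trace_add, trace_one] at h
  have e2 : trace (gm X * (Y - X)) = trace (Y - X) - trace ((Y - X) * Hm X) := by
    unfold gm
    rw [Matrix.sub_mul, Matrix.one_mul, trace_sub, trace_mul_comm (Hm X)]
  unfold LD1
  rw [e2, trace_sub]
  linarith

theorem LD1_zero : LD1 (0 : Matrix n n ℝ) = 0 := by
  unfold LD1
  simp

theorem gm_zero : gm (0 : Matrix n n ℝ) = 0 := by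
  unfold gm
  rw [Hm_zero, sub_self]

theorem LD1_nonneg {M : Matrix n n ℝ} (hM : 0 ≤ M) : 0 ≤ LD1 M := by
  have h := LD1_breg (le_refl (0 : Matrix n n ℝ)) hM
  rw [LD1_zero, gm_zero, Matrix.zero_mul, trace_zero] at h
  linarith

theorem LD1_le_Psi {M : Matrix n n ℝ} (hM : 0 ≤ M) : LD1 M ≤ Psi M := by
  have h := LD1_breg hM (le_refl (0 : Matrix n n ℝ))
  rw [LD1_zero, zero_sub, Matrix.mul_neg, trace_neg] at h
  have e : trace (gm M * M) = Psi M := by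
    unfold Psi
    rw [← trace_sub]
    congr 1
    unfold gm
    rw [Matrix.sub_mul, Matrix.one_mul, Hm_mul hM]
  rw [e] at h
  linarith

theorem LD1_le_trace {M : Matrix n n ℝ} (hM : 0 ≤ M) : LD1 M ≤ trace M :=
  (LD1_le_Psi hM).trans (Psi_le_trace hM)

theorem LD1_le_trace_sq {M : Matrix n n ℝ} (hM : 0 ≤ M) : LD1 M ≤ trace (M * M) :=
  (LD1_le_Psi hM).trans (Psi_le_trace_sq hM)

theorem LD1_mid_le {X Y : Matrix n n ℝ} (hX : 0 ≤ X) (hY : 0 ≤ Y) :
    LD1 ((1 / 2 : ℝ) • (X + Y)) ≤ (1 / 2) * (LD1 X + LD1 Y) := by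
  have h := log_det_mid (one_add_posDef hX) (one_add_posDef hY)
  have e : (1 / 2 : ℝ) • ((1 + X) + (1 + Y)) = 1 + (1 / 2 : ℝ) • (X + Y) := by
    rw [show (1 + X) + (1 + Y) = (2 : ℝ) • (1 : Matrix n n ℝ) + (X + Y) by rw [two_smul]; abel,
      smul_add, smul_smul]
    norm_num
  rw [e] at h
  unfold LD1
  rw [trace_smul, trace_add, smul_eq_mul]
  linarith

theorem gap1_nonneg {X Y : Matrix n n ℝ} (hX : 0 ≤ X) (hY : 0 ≤ Y) : 0 ≤ gap1 X Y := by
  have := LD1_mid_le hX hY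
  unfold gap1
  linarith

/-- **superadditivity with gap** -/
theorem LD1_superadd_gap {M N : Matrix n n ℝ} (hM : 0 ≤ M) (hN : 0 ≤ N) :
    trace (gm M * gm N) ≤ LD1 (M + N) - LD1 M - LD1 N := by
  have hN' := Matrix.nonneg_iff_posSemidef.mp hN
  set W := CFC.sqrt N with hW
  have hWW : W * W = N := rt_mul_rt hN'
  have hWt : Wᵀ = W := rt_transpose N
  set a := Hm M with ha
  have ha0 : 0 ≤ a := Hm_nonneg hM
  have haM : (1 + M) * a = 1 := mul_nonsing_inv _ (one_add_isUnit hM)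
  set Z := W * a * W with hZ
  have hZ0 : 0 ≤ Z := by
    have := frob_psd_conj ha0 W
    rwa [hWt] at this
  have hdet : det (1 + (M + N)) = det (1 + M) * det (1 + Z) := by
    have h1 : 1 + (M + N) = (1 + M) * (1 + (a * W) * W) := by
      rw [Matrix.mul_add, Matrix.mul_one, ← Matrix.mul_assoc, ← Matrix.mul_assoc, haM,
        Matrix.one_mul, hWW, add_assoc]
    rw [h1, det_mul, det_one_add_mul_comm, ← Matrix.mul_assoc]
  have hlog : Real.log (det (1 + (M + N))) = Real.log (det (1 + M)) + Real.log (det (1 + Z)) := by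
    rw [hdet, Real.log_mul (one_add_posDef hM).det_pos.ne' (one_add_posDef hZ0).det_pos.ne']
  have h := log_det_sub_le (one_add_posDef hZ0) (one_add_posDef hN)
  have hWc : W * Hm N * W = gm N := by
    have hcomm : W * (1 + N) = (1 + N) * W := by
      rw [← hWW]; noncomm_ring
    have h1 : Hm N * W = W * Hm N := by
      have h2 := mul_nonsing_inv _ (one_add_isUnit hN)
      have h3 := nonsing_inv_mul _ (one_add_isUnit hN)
      calc Hm N * W = Hm N * W * ((1 + N) * (1 + N)⁻¹) := by rw [h2, Matrix.mul_one]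
        _ = Hm N * (W * (1 + N)) * (1 + N)⁻¹ := by noncomm_ring
        _ = (1 + N)⁻¹ * (1 + N) * W * (1 + N)⁻¹ := by rw [hcomm]; unfold Hm; noncomm_ring
        _ = W * Hm N := by rw [h3, Matrix.one_mul]; rfl
    rw [Matrix.mul_assoc, h1, ← Matrix.mul_assoc, hWW, ← gm_eq hN]
  have e1 : trace ((1 + Z) * (1 + N)⁻¹) = Fintype.card n - trace (gm N) + trace (a * gm N) := by
    rw [Matrix.add_mul, Matrix.one_mul, trace_add]
    have e2 : trace (1 + N)⁻¹ = Fintype.card n - trace (gm N) := by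
      unfold gm
      rw [trace_sub, trace_one]
      unfold Hm
      ring
    have e3 : trace (Z * (1 + N)⁻¹) = trace (a * gm N) := by
      rw [hZ, ← hWc, show W * a * W * (1 + N)⁻¹ = W * (a * W * Hm N) by
        unfold Hm; simp only [Matrix.mul_assoc], trace_mul_comm]
      simp only [Matrix.mul_assoc]
    rw [e2, e3]
  have e4 : trace (gm M * gm N) = trace (gm N) - trace (a * gm N) := by
    rw [show gm M = 1 - a from rfl, Matrix.sub_mul, Matrix.one_mul, trace_sub]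
  rw [e1] at h
  unfold LD1
  rw [hlog, trace_add, e4]
  linarith


/-! ### spectral form and scaling -/

theorem LD1_spec {V : Matrix n n ℝ} (hV : Vᵀ * V = 1) (hV' : V * Vᵀ = 1) {e : n → ℝ}
    (he : ∀ i, 0 ≤ e i) :
    LD1 (V * diagonal e * Vᵀ) = ∑ i, (e i - Real.log (1 + e i)) := by
  have h1 : 1 + V * diagonal e * Vᵀ = V * diagonal (fun i => 1 + e i) * Vᵀ := by
    have : diagonal (fun i => 1 + e i) = 1 + diagonal e := by
      rw [← diagonal_one, diagonal_add]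
    rw [this, Matrix.mul_add, Matrix.mul_one, Matrix.add_mul, hV']
  have h2 : det (V * diagonal (fun i => 1 + e i) * Vᵀ) = ∏ i, (1 + e i) := by
    rw [det_mul, det_mul, det_diagonal]
    have h3 : det V * det Vᵀ = 1 := by rw [← det_mul, hV', det_one]
    linear_combination (∏ i, (1 + e i)) * h3
  unfold LD1
  rw [h1, h2, spec_trace hV, Real.log_prod fun i _ => by have := he i; positivity,
    Finset.sum_sub_distrib]

theorem LD1_two_le {M : Matrix n n ℝ} (hM : 0 ≤ M) : LD1 ((2 : ℝ) • M) ≤ 4 * LD1 M := by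
  obtain ⟨V, e, hV, hV', he, rfl⟩ := exists_spec (Matrix.nonneg_iff_posSemidef.mp hM)
  have e1 : (2 : ℝ) • (V * diagonal e * Vᵀ) = V * diagonal (fun i => 2 * e i) * Vᵀ := by
    have : diagonal (fun i => 2 * e i) = (2 : ℝ) • diagonal e := by
      rw [← diagonal_smul]; rfl
    rw [this, Matrix.mul_smul, Matrix.smul_mul]
  rw [e1, LD1_spec hV hV' (fun i => by have := he i; positivity), LD1_spec hV hV' he,
    Finset.mul_sum]
  refine Finset.sum_le_sum fun i _ => ?_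
  have hx := he i
  set x := e i
  -- `4 log (1+x) ≤ 2 x + log (1+2x)`: monotonicity argument
  have hd : ∀ y : ℝ, 0 ≤ y → HasDerivAt (fun y => 2 * y + Real.log (1 + 2 * y) - 4 * Real.log (1 + y))
      (2 + 2 / (1 + 2 * y) - 4 * (1 / (1 + y))) y := by
    intro y hy
    have h1 : HasDerivAt (fun y : ℝ => 1 + 2 * y) 2 y := by
      simpa using ((hasDerivAt_id y).const_mul 2).const_add 1
    have h2 : HasDerivAt (fun y : ℝ => 1 + y) 1 y := (hasDerivAt_id y).const_add 1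
    have h3 := h1.log (by positivity)
    have h4 := h2.log (by positivity)
    have h5 : HasDerivAt (fun y : ℝ => 2 * y) 2 y := by
      simpa using (hasDerivAt_id y).const_mul 2
    exact (h5.add h3).sub (h4.const_mul 4)
  have hmono : MonotoneOn (fun y => 2 * y + Real.log (1 + 2 * y) - 4 * Real.log (1 + y))
      (Set.Ici 0) := by
    refine monotoneOn_of_deriv_nonneg (convex_Ici 0) ?_ ?_ ?_
    · intro y hy
      exact (hd y hy).continuousAt.continuousWithinAt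
    · intro y hy
      rw [interior_Ici] at hy
      exact (hd y (le_of_lt hy)).differentiableAt.differentiableWithinAt
    · intro y hy
      rw [interior_Ici] at hy
      have hy' : 0 < y := hy
      rw [(hd y hy'.le).deriv]
      have : 2 + 2 / (1 + 2 * y) - 4 * (1 / (1 + y)) = 4 * y ^ 2 / ((1 + 2 * y) * (1 + y)) := by
        field_simp
        ring
      rw [this]
      positivity
  have h := hmono (Set.self_mem_Ici) (show x ∈ Set.Ici 0 from hx) hx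
  simp only [mul_zero, add_zero, Real.log_one, sub_zero] at h
  linarith

theorem LD1_add_le {X Y : Matrix n n ℝ} (hX : 0 ≤ X) (hY : 0 ≤ Y) :
    LD1 (X + Y) ≤ 2 * (LD1 X + LD1 Y) := by
  have h := LD1_mid_le (psd_smul' hX (by norm_num : (0 : ℝ) ≤ 2))
    (psd_smul' hY (by norm_num : (0 : ℝ) ≤ 2))
  rw [← smul_add, smul_smul, show (1 / 2 : ℝ) * 2 = 1 by norm_num, one_smul] at h
  have h1 := LD1_two_le hX
  have h2 := LD1_two_le hY
  linarith


/-! ### conjugation, blocks, reindexing -/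

theorem LD1_conj {U M : Matrix n n ℝ} (hU2 : U * U = 1) : LD1 (U * M * U) = LD1 M := by
  unfold LD1
  have e : 1 + U * M * U = U * (1 + M) * U := by
    rw [Matrix.mul_add, Matrix.mul_one, Matrix.add_mul, hU2]
  have hd : det U * det U = 1 := by rw [← det_mul, hU2, det_one]
  rw [trace_conj hU2, e, det_mul, det_mul]
  rw [show det U * det (1 + M) * det U = det (1 + M) * (det U * det U) by ring, hd, mul_one]

theorem LD1_fromBlocks {P : Matrix n n ℝ} {S : Matrix m m ℝ} (hP : 0 ≤ P) (hS : 0 ≤ S) :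
    LD1 (fromBlocks P 0 0 S) = LD1 P + LD1 S := by
  unfold LD1
  have e : 1 + fromBlocks P 0 0 S = fromBlocks (1 + P) 0 0 (1 + S) := by
    rw [← fromBlocks_one, fromBlocks_add]
    simp only [add_zero]
  rw [e, tr_fromBlocks, det_fromBlocks_zero₂₁,
    Real.log_mul (one_add_posDef hP).det_pos.ne' (one_add_posDef hS).det_pos.ne']
  ring

theorem LD1_submatrix (e : m ≃ n) (M : Matrix n n ℝ) : LD1 (M.submatrix e e) = LD1 M := by
  unfold LD1
  have h : 1 + M.submatrix e e = (1 + M).submatrix e e := by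
    rw [show (1 + M).submatrix e e = (1 : Matrix n n ℝ).submatrix e e + M.submatrix e e from rfl,
      submatrix_one_equiv]
  rw [h, det_submatrix_equiv_self, trace_submatrix_equiv']

/-- node drop for the log-det potential -/
theorem LD1_gap {U M : Matrix n n ℝ} (hU : Uᵀ = U) (hU2 : U * U = 1) (hM : 0 ≤ M) :
    trace (gm M * (U * gm M * U)) ≤ LD1 (M + U * M * U) - 2 * LD1 M := by
  have hN : 0 ≤ U * M * U := sandwich_nonneg hU hM
  have h := LD1_superadd_gap hM hN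
  rw [gm_conj hU hU2 hM, LD1_conj hU2] at h
  linarith

theorem En_le_gm {U M : Matrix n n ℝ} (hU : Uᵀ = U) (hM : 0 ≤ M) :
    En U M ≤ trace (gm M * (U * gm M * U)) := by
  have h1 : U * hm M * U ≤ U * gm M * U := by
    have := le_conj (hm_le_gm hM) U
    rwa [hU] at this
  exact (trace_mul_mono_left (hm_le_gm hM) (sandwich_nonneg hU (hm_nonneg hM))).trans
    (trace_mul_mono_right (gm_nonneg hM) h1)

theorem En_le_LD1 {U M : Matrix n n ℝ} (hU : Uᵀ = U) (hU2 : U * U = 1) (hM : 0 ≤ M) :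
    En U M ≤ LD1 (M + U * M * U) - 2 * LD1 M :=
  (En_le_gm hU hM).trans (LD1_gap hU hU2 hM)

/-! ### mixed differences: joint convexity of `log det (P+Q) - log det P - log det Q` -/

/-- joint convexity of `X S⁻¹ X` -/
theorem frac_add_le {S1 S2 X1 X2 : Matrix n n ℝ} (h1 : S1.PosDef) (h2 : S2.PosDef)
    (hX1 : X1ᵀ = X1) (hX2 : X2ᵀ = X2) :
    (X1 + X2) * (S1 + S2)⁻¹ * (X1 + X2) ≤ X1 * S1⁻¹ * X1 + X2 * S2⁻¹ * X2 := by
  have hS := h1.add h2
  set S := S1 + S2 with hSd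
  set X := X1 + X2 with hXd
  obtain ⟨W, hW⟩ : ∃ W, W = S⁻¹ * X := ⟨_, rfl⟩
  have uS := PosDef.isUnit_det' hS
  have u1 := PosDef.isUnit_det' h1
  have u2 := PosDef.isUnit_det' h2
  have s1 : S1ᵀ = S1 := psd_transpose h1.posSemidef
  have s2 : S2ᵀ = S2 := psd_transpose h2.posSemidef
  have sS : (S⁻¹)ᵀ = S⁻¹ := psd_transpose hS.inv.posSemidef
  have hXt : Xᵀ = X := by rw [hXd, transpose_add, hX1, hX2]
  have hWt : Wᵀ = X * S⁻¹ := by rw [hW, transpose_mul, sS, hXt]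
  have hSW : S * W = X := by rw [hW, ← Matrix.mul_assoc, mul_nonsing_inv _ uS, Matrix.one_mul]
  have key : ∀ (Si Xi : Matrix n n ℝ), IsUnit Si.det → Siᵀ = Si → Xiᵀ = Xi →
      (Xi - Wᵀ * Si) * Si⁻¹ * (Xi - Wᵀ * Si)ᵀ
        = Xi * Si⁻¹ * Xi - Xi * W - Wᵀ * Xi + Wᵀ * Si * W := by
    intro Si Xi hu hs hx
    have a1 := mul_nonsing_inv _ hu
    have a2 := nonsing_inv_mul _ hu
    rw [transpose_sub, transpose_mul, transpose_transpose, hs, hx, Matrix.sub_mul, Matrix.mul_assoc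
      Wᵀ Si, a1, Matrix.mul_one, Matrix.sub_mul, Matrix.mul_sub, Matrix.mul_sub]
    rw [show Xi * Si⁻¹ * (Si * W) = Xi * (Si⁻¹ * Si) * W by simp only [Matrix.mul_assoc], a2,
      Matrix.mul_one, ← Matrix.mul_assoc Wᵀ Si W]
    abel
  have k1 := frob_psd_conj h1.inv.posSemidef.nonneg (X1 - Wᵀ * S1)
  have k2 := frob_psd_conj h2.inv.posSemidef.nonneg (X2 - Wᵀ * S2)
  rw [key S1 X1 u1 s1 hX1] at k1
  rw [key S2 X2 u2 s2 hX2] at k2
  have k3 := add_nonneg k1 k2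
  rw [← sub_nonneg]
  refine k3.trans (le_of_eq ?_)
  have e1 : X * S⁻¹ * X = Wᵀ * X := by rw [hWt]
  have e2 : Wᵀ * S1 * W + Wᵀ * S2 * W = Wᵀ * X := by
    rw [← Matrix.add_mul, ← Matrix.mul_add, ← hSd, Matrix.mul_assoc, hSW]
  have e3 : X1 * W + X2 * W = Wᵀ * X := by
    rw [← Matrix.add_mul, ← hXd, hWt, hW, Matrix.mul_assoc]
  have e4 : Wᵀ * X1 + Wᵀ * X2 = Wᵀ * X := by rw [← Matrix.mul_add]
  rw [e1]
  calc X1 * S1⁻¹ * X1 - X1 * W - Wᵀ * X1 + Wᵀ * S1 * W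
        + (X2 * S2⁻¹ * X2 - X2 * W - Wᵀ * X2 + Wᵀ * S2 * W)
      = X1 * S1⁻¹ * X1 + X2 * S2⁻¹ * X2 - (X1 * W + X2 * W) - (Wᵀ * X1 + Wᵀ * X2)
        + (Wᵀ * S1 * W + Wᵀ * S2 * W) := by abel
    _ = _ := by rw [e2, e3, e4]; abel

/-- parallel sum -/
noncomputable def par (P Q : Matrix n n ℝ) : Matrix n n ℝ := P - P * (P + Q)⁻¹ * P

theorem par_eq {P Q : Matrix n n ℝ} (hP : P.PosDef) (hQ : Q.PosDef) :
    par P Q = P * (P + Q)⁻¹ * Q := by
  have u := PosDef.isUnit_det' (hP.add hQ)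
  have h := nonsing_inv_mul _ u
  unfold par
  have : P = P * ((P + Q)⁻¹ * (P + Q)) := by rw [h, Matrix.mul_one]
  nth_rewrite 1 [this]
  noncomm_ring

theorem par_det {P Q : Matrix n n ℝ} (hP : P.PosDef) (hQ : Q.PosDef) :
    det (par P Q) = det P * det Q * (det (P + Q))⁻¹ := by
  rw [par_eq hP hQ, det_mul, det_mul, det_nonsing_inv, Ring.inverse_eq_inv']
  ring

theorem par_posDef {P Q : Matrix n n ℝ} (hP : P.PosDef) (hQ : Q.PosDef) : (par P Q).PosDef := by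
  have hS := hP.add hQ
  -- `par P Q = (P⁻¹ + Q⁻¹)⁻¹`
  have h1 : par P Q = (P⁻¹ + Q⁻¹)⁻¹ := by
    rw [par_eq hP hQ]
    symm
    refine inv_eq_right_inv ?_
    have uP := PosDef.isUnit_det' hP
    have uQ := PosDef.isUnit_det' hQ
    have uS := PosDef.isUnit_det' hS
    have a1 := nonsing_inv_mul _ uP
    have a2 := nonsing_inv_mul _ uQ
    have a3 := mul_nonsing_inv _ uS
    have e1 : (P⁻¹ + Q⁻¹) = Q⁻¹ * (P + Q) * P⁻¹ := by
      have b1 := mul_nonsing_inv _ uP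
      rw [Matrix.mul_add, Matrix.add_mul, Matrix.mul_assoc, b1, Matrix.mul_one, a2, Matrix.one_mul]
      abel
    rw [e1]
    calc Q⁻¹ * (P + Q) * P⁻¹ * (P * (P + Q)⁻¹ * Q)
        = Q⁻¹ * (P + Q) * (P⁻¹ * P) * (P + Q)⁻¹ * Q := by noncomm_ring
      _ = Q⁻¹ * ((P + Q) * (P + Q)⁻¹) * Q := by rw [a1, Matrix.mul_one]; noncomm_ring
      _ = 1 := by rw [a3, Matrix.mul_one, a2]
  rw [h1]
  exact (hP.inv.add hQ.inv).inv

theorem par_add_le {P1 P2 Q1 Q2 : Matrix n n ℝ} (hP1 : P1.PosDef) (hP2 : P2.PosDef)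
    (hQ1 : Q1.PosDef) (hQ2 : Q2.PosDef) :
    par P1 Q1 + par P2 Q2 ≤ par (P1 + P2) (Q1 + Q2) := by
  have h := frac_add_le (hP1.add hQ1) (hP2.add hQ2) (psd_transpose hP1.posSemidef)
    (psd_transpose hP2.posSemidef)
  unfold par
  have e : P1 + P2 + (Q1 + Q2) = P1 + Q1 + (P2 + Q2) := by abel
  rw [e, ← sub_nonneg]
  rw [← sub_nonneg] at h
  refine h.trans (le_of_eq ?_)
  abel

theorem par_smul {c : ℝ} (hc : 0 < c) {P Q : Matrix n n ℝ} (hP : P.PosDef) (hQ : Q.PosDef) :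
    par (c • P) (c • Q) = c • par P Q := by
  have hS := hP.add hQ
  unfold par
  have e : (c • P + c • Q)⁻¹ = c⁻¹ • (P + Q)⁻¹ := by
    refine inv_eq_right_inv ?_
    rw [← smul_add, Matrix.smul_mul, Matrix.mul_smul, smul_smul, mul_inv_cancel₀ hc.ne', one_smul,
      mul_nonsing_inv _ (PosDef.isUnit_det' hS)]
  rw [e]
  simp only [Matrix.smul_mul, Matrix.mul_smul, smul_smul, smul_sub]
  congr 2
  field_simp

/-- joint midpoint convexity of `log det (P+Q) - log det P - log det Q` -/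
theorem log_det_joint {P1 P2 Q1 Q2 : Matrix n n ℝ} (hP1 : P1.PosDef) (hP2 : P2.PosDef)
    (hQ1 : Q1.PosDef) (hQ2 : Q2.PosDef) :
    2 * Real.log (det ((1 / 2 : ℝ) • (P1 + P2 + (Q1 + Q2)))) - Real.log (det (P1 + Q1))
        - Real.log (det (P2 + Q2)) ≤
      (2 * Real.log (det ((1 / 2 : ℝ) • (P1 + P2))) - Real.log (det P1) - Real.log (det P2)) +
      (2 * Real.log (det ((1 / 2 : ℝ) • (Q1 + Q2))) - Real.log (det Q1) - Real.log (det Q2)) := by
  have hh : (0 : ℝ) < 1 / 2 := by norm_num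
  set p := (1 / 2 : ℝ) • (P1 + P2) with hp
  set q := (1 / 2 : ℝ) • (Q1 + Q2) with hq
  have hpP : p.PosDef := (hP1.add hP2).smul hh
  have hqP : q.PosDef := (hQ1.add hQ2).smul hh
  have e0 : (1 / 2 : ℝ) • (P1 + P2 + (Q1 + Q2)) = p + q := by rw [hp, hq, smul_add]
  rw [e0]
  have hA := par_posDef hP1 hQ1
  have hB := par_posDef hP2 hQ2
  have hC := par_posDef hpP hqP
  have h1 : (1 / 2 : ℝ) • (par P1 Q1 + par P2 Q2) ≤ par p q := by
    rw [hp, hq, par_smul hh (hP1.add hP2) (hQ1.add hQ2), ← sub_nonneg, ← smul_sub]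
    exact psd_smul' (sub_nonneg.mpr (par_add_le hP1 hP2 hQ1 hQ2)) hh.le
  have h2 := log_det_mid hA hB
  have h3 := log_det_mono ((hA.add hB).smul hh) hC h1
  have f : ∀ {P Q : Matrix n n ℝ}, P.PosDef → Q.PosDef → Real.log (det (par P Q))
      = Real.log (det P) + Real.log (det Q) - Real.log (det (P + Q)) := by
    intro P Q hP hQ
    have a1 := hP.det_pos.ne'
    have a2 := hQ.det_pos.ne'
    have a3 := (hP.add hQ).det_pos.ne'
    rw [par_det hP hQ, Real.log_mul (mul_ne_zero a1 a2) (inv_ne_zero a3), Real.log_mul a1 a2,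
      Real.log_inv]
    ring
  rw [f hP1 hQ1, f hP2 hQ2] at h2
  rw [f hpP hqP] at h3
  linarith

theorem log_det_two_smul {P : Matrix n n ℝ} (hP : P.PosDef) {c : ℝ} (hc : 0 < c) :
    Real.log (det (c • P)) = Fintype.card n * Real.log c + Real.log (det P) := by
  rw [det_smul, Real.log_mul (pow_pos hc _).ne' hP.det_pos.ne', Real.log_pow]

/-- gap of sums -/
theorem gap1_add_le {a1 a2 b1 b2 : Matrix n n ℝ} (ha1 : 0 ≤ a1) (ha2 : 0 ≤ a2) (hb1 : 0 ≤ b1)
    (hb2 : 0 ≤ b2) :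
    gap1 (a1 + b1) (a2 + b2) ≤ gap1 ((2 : ℝ) • a1) ((2 : ℝ) • a2)
      + gap1 ((2 : ℝ) • b1) ((2 : ℝ) • b2) := by
  have h2 : (0 : ℝ) ≤ 2 := by norm_num
  have pa1 := one_add_posDef (psd_smul' ha1 h2)
  have pa2 := one_add_posDef (psd_smul' ha2 h2)
  have pb1 := one_add_posDef (psd_smul' hb1 h2)
  have pb2 := one_add_posDef (psd_smul' hb2 h2)
  have h := log_det_joint pa1 pa2 pb1 pb2
  -- rewrite sums
  have s1 : (1 + (2 : ℝ) • a1) + (1 + (2 : ℝ) • b1) = (2 : ℝ) • (1 + (a1 + b1)) := by module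
  have s2 : (1 + (2 : ℝ) • a2) + (1 + (2 : ℝ) • b2) = (2 : ℝ) • (1 + (a2 + b2)) := by module
  have s3 : (1 / 2 : ℝ) • ((1 + (2 : ℝ) • a1) + (1 + (2 : ℝ) • a2)
      + ((1 + (2 : ℝ) • b1) + (1 + (2 : ℝ) • b2)))
      = (2 : ℝ) • (1 + (1 / 2 : ℝ) • (a1 + b1 + (a2 + b2))) := by module
  have s4 : (1 / 2 : ℝ) • ((1 + (2 : ℝ) • a1) + (1 + (2 : ℝ) • a2))
      = 1 + (1 / 2 : ℝ) • ((2 : ℝ) • a1 + (2 : ℝ) • a2) := by module
  have s5 : (1 / 2 : ℝ) • ((1 + (2 : ℝ) • b1) + (1 + (2 : ℝ) • b2))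
      = 1 + (1 / 2 : ℝ) • ((2 : ℝ) • b1 + (2 : ℝ) • b2) := by module
  have q1 := one_add_posDef (add_nonneg ha1 hb1)
  have q2 := one_add_posDef (add_nonneg ha2 hb2)
  have q3 : (1 + (1 / 2 : ℝ) • (a1 + b1 + (a2 + b2))).PosDef :=
    one_add_posDef (psd_smul' (add_nonneg (add_nonneg ha1 hb1) (add_nonneg ha2 hb2)) (by norm_num))
  rw [s3, s1, s2, s4, s5, log_det_two_smul q1 two_pos, log_det_two_smul q2 two_pos,
    log_det_two_smul q3 two_pos] at h
  unfold gap1 LD1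
  simp only [trace_smul, trace_add, smul_eq_mul]
  linarith

/-- **mixed difference** (threshold 1) -/
theorem LD1_mixed_le {a1 a2 b1 b2 : Matrix n n ℝ} (ha1 : 0 ≤ a1) (ha2 : 0 ≤ a2) (hb1 : 0 ≤ b1)
    (hb2 : 0 ≤ b2) :
    |LD1 (a1 + b1) + LD1 (a2 + b2) - LD1 (a1 + b2) - LD1 (a2 + b1)| ≤
      gap1 ((2 : ℝ) • a1) ((2 : ℝ) • a2) + gap1 ((2 : ℝ) • b1) ((2 : ℝ) • b2) := by
  have h1 := gap1_add_le ha1 ha2 hb1 hb2
  have h2 := gap1_add_le ha1 ha2 hb2 hb1
  have h3 := gap1_nonneg (add_nonneg ha1 hb1) (add_nonneg ha2 hb2)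
  have h4 := gap1_nonneg (add_nonneg ha1 hb2) (add_nonneg ha2 hb1)
  have h5 : gap1 ((2 : ℝ) • b2) ((2 : ℝ) • b1) = gap1 ((2 : ℝ) • b1) ((2 : ℝ) • b2) := by
    unfold gap1
    rw [add_comm ((2 : ℝ) • b2)]
    ring
  rw [h5] at h2
  have e : LD1 (a1 + b1) + LD1 (a2 + b2) - LD1 (a1 + b2) - LD1 (a2 + b1)
      = gap1 (a1 + b1) (a2 + b2) - gap1 (a1 + b2) (a2 + b1) := by
    unfold gap1
    rw [show a1 + b1 + (a2 + b2) = a1 + b2 + (a2 + b1) by abel]
    ring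
  rw [e, abs_le]
  constructor <;> linarith

end Crest.Agent.R079.LD
end

-- ▼ part R079/LogDetT_378

/-!
# R079: the log-det potential at threshold `t` and its Bregman divergence (helper378)
-/

set_option autoImplicit false
set_option linter.unusedSectionVars false
set_option linter.unusedVariables false
set_option linter.dupNamespace false

namespace Crest.Agent.R079.LD

open Matrix
open Crest.Agent.R072 Crest.Agent.R072.Nd Crest.Agent.R079.Path
open scoped MatrixOrder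

variable {n m : Type*} [Fintype n] [DecidableEq n] [Fintype m] [DecidableEq m]

/-- `M (t+M)⁻¹` -/
noncomputable def gt (t : ℝ) (M : Matrix n n ℝ) : Matrix n n ℝ := gm (t⁻¹ • M)

/-- Bregman divergence of `LD t` -/
noncomputable def bregLD (t : ℝ) (Y X : Matrix n n ℝ) : ℝ :=
  LD t Y - LD t X - trace (gt t X * (t⁻¹ • (Y - X)))

theorem inv_smul_nonneg {t : ℝ} (ht : 0 < t) {M : Matrix n n ℝ} (hM : 0 ≤ M) : 0 ≤ t⁻¹ • M :=
  psd_smul' hM (by positivity)


theorem LD_nonneg {t : ℝ} (ht : 0 < t) {M : Matrix n n ℝ} (hM : 0 ≤ M) : 0 ≤ LD t M :=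
  LD1_nonneg (inv_smul_nonneg ht hM)

theorem LD_zero (t : ℝ) : LD t (0 : Matrix n n ℝ) = 0 := by
  unfold LD
  rw [smul_zero, LD1_zero]

theorem LD_le_trace {t : ℝ} (ht : 0 < t) {M : Matrix n n ℝ} (hM : 0 ≤ M) :
    LD t M ≤ t⁻¹ * trace M := by
  have h := LD1_le_trace (inv_smul_nonneg ht hM)
  rwa [trace_smul, smul_eq_mul] at h

theorem LD_le_sq {t : ℝ} (ht : 0 < t) {M : Matrix n n ℝ} (hM : 0 ≤ M) :
    LD t M ≤ (t⁻¹) ^ 2 * trace (M * M) := by
  have h := LD1_le_trace_sq (inv_smul_nonneg ht hM)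
  rw [Matrix.smul_mul, Matrix.mul_smul, smul_smul, trace_smul, smul_eq_mul] at h
  rw [sq]
  exact h






theorem LD_add_le {t : ℝ} (ht : 0 < t) {X Y : Matrix n n ℝ} (hX : 0 ≤ X) (hY : 0 ≤ Y) :
    LD t (X + Y) ≤ 2 * (LD t X + LD t Y) := by
  unfold LD
  rw [smul_add]
  exact LD1_add_le (inv_smul_nonneg ht hX) (inv_smul_nonneg ht hY)


theorem LD_superadd_gap {t : ℝ} (ht : 0 < t) {M N : Matrix n n ℝ} (hM : 0 ≤ M) (hN : 0 ≤ N) :
    trace (gt t M * gt t N) ≤ LD t (M + N) - LD t M - LD t N := by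
  unfold LD gt
  rw [smul_add]
  exact LD1_superadd_gap (inv_smul_nonneg ht hM) (inv_smul_nonneg ht hN)


theorem LD_conj {t : ℝ} {U M : Matrix n n ℝ} (hU2 : U * U = 1) : LD t (U * M * U) = LD t M := by
  unfold LD
  rw [show t⁻¹ • (U * M * U) = U * (t⁻¹ • M) * U by rw [Matrix.mul_smul, Matrix.smul_mul]]
  exact LD1_conj hU2

theorem LD_fromBlocks {t : ℝ} (ht : 0 < t) {P : Matrix n n ℝ} {S : Matrix m m ℝ} (hP : 0 ≤ P)
    (hS : 0 ≤ S) : LD t (fromBlocks P 0 0 S) = LD t P + LD t S := by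
  unfold LD
  rw [fromBlocks_smul, smul_zero, smul_zero]
  exact LD1_fromBlocks (inv_smul_nonneg ht hP) (inv_smul_nonneg ht hS)

theorem LD_submatrix (t : ℝ) (e : m ≃ n) (M : Matrix n n ℝ) :
    LD t (M.submatrix e e) = LD t M := by
  unfold LD
  exact LD1_submatrix e (t⁻¹ • M)

theorem half_inv_smul (t : ℝ) (M : Matrix n n ℝ) : (t / 2)⁻¹ • M = (2 : ℝ) • (t⁻¹ • M) := by
  rw [smul_smul]
  congr 1
  rw [inv_div]
  ring



theorem gapLD_half (t : ℝ) (X Y : Matrix n n ℝ) :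
    gapLD (t / 2) X Y = gap1 ((2 : ℝ) • (t⁻¹ • X)) ((2 : ℝ) • (t⁻¹ • Y)) := by
  unfold gapLD gap1 LD
  rw [half_inv_smul, half_inv_smul, half_inv_smul]
  congr 3
  module


/-- **mixed difference**, thresholds `t` and `t/2` -/
theorem LD_mixed_le {t : ℝ} (ht : 0 < t) {a1 a2 b1 b2 : Matrix n n ℝ} (ha1 : 0 ≤ a1)
    (ha2 : 0 ≤ a2) (hb1 : 0 ≤ b1) (hb2 : 0 ≤ b2) :
    |LD t (a1 + b1) + LD t (a2 + b2) - LD t (a1 + b2) - LD t (a2 + b1)| ≤
      gapLD (t / 2) a1 a2 + gapLD (t / 2) b1 b2 := by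
  have h := LD1_mixed_le (inv_smul_nonneg ht ha1) (inv_smul_nonneg ht ha2)
    (inv_smul_nonneg ht hb1) (inv_smul_nonneg ht hb2)
  rw [gapLD_half, gapLD_half]
  unfold LD
  rw [smul_add, smul_add, smul_add, smul_add]
  exact h

/-! ### Bregman divergence -/

theorem bregLD_nonneg {t : ℝ} (ht : 0 < t) {X Y : Matrix n n ℝ} (hX : 0 ≤ X) (hY : 0 ≤ Y) :
    0 ≤ bregLD t Y X := by
  have h := LD1_breg (inv_smul_nonneg ht hX) (inv_smul_nonneg ht hY)
  unfold bregLD LD gt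
  rw [smul_sub]
  linarith





end Crest.Agent.R079.LD
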