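import Crest.Agent.R079.PotDefs_491
import Crest.Agent.R079.LogDetT_378
import Crest.Agent.R079.PathDisc_378
import Crest.Agent.R079.GlueDefs_569

-- ▼ part R079/PotLD_378
section

/-! R079, leaf PI2 (helper378): the log-det potential is a `Good` pair with constant `1`. -/

set_option autoImplicit false

namespace Crest.Agent.R079.Pot

open Matrix Finset Crest.Agent.R072 Crest.Agent.R072.Lattice Crest.Agent.R079.LD
  Crest.Agent.R079.Path Crest.Agent.R072.Nd
open scoped MatrixOrder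

/-- the log-det pair at threshold `t` -/
noncomputable def potLD (t : ℝ) : TPot where
  F := fun _ M => LD t M
  E := fun _ M => LD (t / 2) M

theorem LD_pinch {t : ℝ} (ht : 0 < t) (r : ℕ) {M : Matrix (Fin (r + r)) (Fin (r + r)) ℝ}
    (hM : M.PosSemidef) :
    LD t (M + diagonal (hsgn r) * M * diagonal (hsgn r)) = LD t (blkA r M) + LD t (blkB r M) := by
  have hA : (blkA r M).PosSemidef := (hM.submatrix _).smul (by norm_num)
  have hB : (blkB r M).PosSemidef := (hM.submatrix _).smul (by norm_num)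
  have h2 : (M + diagonal (hsgn r) * M * diagonal (hsgn r)).submatrix finSumFinEquiv
      finSumFinEquiv = fromBlocks (blkA r M) 0 0 (blkB r M) := by
    ext i j
    rw [Matrix.submatrix_apply, Matrix.add_apply, Matrix.mul_diagonal, Matrix.diagonal_mul]
    rcases i with i | i <;> rcases j with j | j
    · have h1 : ((i : ℕ)) < r := i.2
      have h1' : ((j : ℕ)) < r := j.2
      simp [hsgn, blkA, h1, h1', two_mul]
    · have h1 : ((i : ℕ)) < r := i.2
      simp [hsgn, h1]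
    · have h1 : ((j : ℕ)) < r := j.2
      simp [hsgn, h1]
    · simp [hsgn, blkB, two_mul]
  rw [← LD_submatrix t finSumFinEquiv, h2, LD_fromBlocks ht hA.nonneg hB.nonneg]

theorem hsgn_symm (r : ℕ) : (diagonal (hsgn r))ᵀ = diagonal (hsgn r) := diagonal_transpose _

theorem hsgn_sq (r : ℕ) : diagonal (hsgn r) * diagonal (hsgn r) = 1 := by
  rw [diagonal_mul_diagonal, ← diagonal_one]
  congr 1
  ext i
  exact hsgn_mul_self r i

/-- the pinching gain dominates `tr g(M) U g(M) U` -/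
theorem gam_LD_ge {t : ℝ} (ht : 0 < t) (r : ℕ) {M : Matrix (Fin (r + r)) (Fin (r + r)) ℝ}
    (hM : M.PosSemidef) :
    trace (gt t M * gt t (diagonal (hsgn r) * M * diagonal (hsgn r))) ≤
      gam (fun _ M => LD t M) r M := by
  have hU : 0 ≤ diagonal (hsgn r) * M * diagonal (hsgn r) :=
    sandwich_nonneg (hsgn_symm r) hM.nonneg
  have h := LD_superadd_gap ht hM.nonneg hU
  rw [LD_pinch ht r hM, LD_conj (hsgn_sq r)] at h
  show _ ≤ LD t (blkA r M) + LD t (blkB r M) - 2 * LD t M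
  linarith

theorem goodPot_LD {t : ℝ} (ht : 0 < t) : GoodPot (fun _ M => LD t M) where
  nonneg := fun r M hM => LD_nonneg ht hM.nonneg
  supp := fun r Z hZ => by
    refine ⟨{ toFun := fun Y => trace (gt t Z * (t⁻¹ • Y))
              map_add' := fun Y Y' => by rw [smul_add, mul_add, trace_add]
              map_smul' := fun a Y => by
                rw [smul_comm, mul_smul_comm, trace_smul, RingHom.id_apply] }, ?_⟩
    intro X hX
    have h := bregLD_nonneg ht hZ.nonneg hX.nonneg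
    unfold bregLD at h
    show LD t Z + trace (gt t Z * (t⁻¹ • (X - Z))) ≤ LD t X
    linarith
  split := fun r M hM => by
    refine le_trans ?_ (gam_LD_ge ht r hM)
    have hU : 0 ≤ diagonal (hsgn r) * M * diagonal (hsgn r) :=
      sandwich_nonneg (hsgn_symm r) hM.nonneg
    exact frob_trace_mul_nonneg (gm_nonneg (inv_smul_nonneg ht hM.nonneg))
      (gm_nonneg (inv_smul_nonneg ht hU))

/-- **(PI2)** -/
theorem instLD {t : ℝ} (ht : 0 < t) : Good (potLD t) 1 where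
  c0 := zero_le_one
  F := goodPot_LD ht
  E := goodPot_LD (half_pos ht)
  mixed := fun r a₁ a₂ b₁ b₂ ha1 ha2 hb1 hb2 => by
    rw [one_mul]
    exact LD_mixed_le ht ha1.nonneg ha2.nonneg hb1.nonneg hb2.nonneg

end Crest.Agent.R079.Pot
end

-- ▼ part R079/PathBox_378
section

/-!
# R079, leaf PN (helper378): PATH-R072 for one box, discrete path, and summed over boxes

`PathSeq x y z`, `gams`, **`Lbox_path`**.
-/

set_option autoImplicit false
set_option linter.unusedSectionVars false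
set_option linter.unusedVariables false

namespace Crest.Agent.R079.Path

open Matrix Filter Topology
open Crest.Agent.R072 Crest.Agent.R072.Nd
open scoped MatrixOrder

section tail

variable {n p : Type*} [Fintype n] [DecidableEq n] [Fintype p] [DecidableEq p]

theorem fsq_le_card (X : Matrix n p ℝ) (h : X * Xᵀ ≤ 1) : fsq X ≤ Fintype.card n := by
  rw [← trace_mul_transpose_self]
  have := trace_nonneg_of_psd (sub_nonneg.mpr h)
  rw [trace_sub, trace_one] at this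
  linarith

theorem hm_le_one {M : Matrix n n ℝ} (hM : 0 ≤ M) : hm M ≤ 1 := by
  refine (hm_le_gm hM).trans ?_
  rw [← sub_nonneg]
  have : (1 : Matrix n n ℝ) - gm M = Hm M := by unfold gm; abel
  rw [this]
  exact Hm_nonneg hM

theorem En_le_card {U M : Matrix n n ℝ} (hU : Uᵀ = U) (hU2 : U * U = 1) (hM : 0 ≤ M) :
    En U M ≤ Fintype.card n := by
  unfold En
  have h1 : U * hm M * U ≤ 1 := by
    have := le_conj (hm_le_one hM) U
    rwa [hU, Matrix.mul_one, hU2] at this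
  calc trace (hm M * (U * hm M * U)) ≤ trace (hm M * 1) :=
        trace_mul_mono_right (hm_nonneg hM) h1
    _ ≤ trace (1 * (1 : Matrix n n ℝ)) :=
        trace_mul_mono_left (hm_le_one hM) (zero_le_one_mat)
    _ = Fintype.card n := by rw [Matrix.mul_one, trace_one]
where
  zero_le_one_mat : (0 : Matrix n n ℝ) ≤ 1 := (PosSemidef.one (n := n) (R := ℝ)).nonneg

theorem tendsto_Hm_gen {ι : Type*} {l : Filter ι} {M : ι → Matrix n n ℝ} {M0 : Matrix n n ℝ}
    (h0 : ∀ s, 0 ≤ M s) (hM0 : 0 ≤ M0)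
    (hc : ∀ i j, Tendsto (fun s => M s i j) l (𝓝 (M0 i j))) (i j : n) :
    Tendsto (fun s => Hm (M s) i j) l (𝓝 (Hm M0 i j)) := by
  have key : ∀ s, Hm (M s) i j - Hm M0 i j
      = -∑ b, ∑ a, Hm (M s) i a * (M s a b - M0 a b) * Hm M0 b j := by
    intro s
    have h := congrFun (congrFun (Hm_sub hM0 (h0 s)) i) j
    rw [Matrix.sub_apply, Matrix.neg_apply, mul_apply] at h
    rw [h]
    congr 1
    refine Finset.sum_congr rfl fun b _ => ?_
    rw [mul_apply, Finset.sum_mul]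
    rfl
  have h1 : Tendsto (fun s => Hm (M s) i j - Hm M0 i j) l (𝓝 0) := by
    have h2 : Tendsto (fun s => -∑ b, ∑ a, Hm (M s) i a * (M s a b - M0 a b) * Hm M0 b j) l
        (𝓝 (-∑ _b : n, ∑ _a : n, (0 : ℝ))) := by
      refine (tendsto_finsetSum _ fun b _ => tendsto_finsetSum _ fun a _ => ?_).neg
      have h3 : Tendsto (fun s => M s a b - M0 a b) l (𝓝 0) := by
        simpa using (hc a b).sub_const (M0 a b)
      have h4 : Tendsto (fun s => Hm (M s) i a * (M s a b - M0 a b)) l (𝓝 0) := by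
        refine squeeze_zero_norm (a := fun s => |M s a b - M0 a b|) (fun s => ?_) ?_
        · rw [norm_mul, Real.norm_eq_abs, Real.norm_eq_abs]
          exact mul_le_of_le_one_left (abs_nonneg _) (Hm_entry_le (h0 s) i a)
        · simpa using h3.abs
      simpa using h4.mul_const (Hm M0 b j)
    simp only [Finset.sum_const_zero, neg_zero] at h2
    exact h2.congr fun s => (key s).symm
  simpa using h1.add_const (Hm M0 i j)

end tail

section lim

variable {ι : Type*} {l : Filter ι}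

/-- entrywise limits, general index -/
def MT {m n : Type*} (X : ι → Matrix m n ℝ) (l : Filter ι) (L : Matrix m n ℝ) : Prop :=
  ∀ i j, Tendsto (fun t => X t i j) l (𝓝 (L i j))

theorem MT.mul {m n p : Type*} [Fintype n] {X : ι → Matrix m n ℝ} {Y : ι → Matrix n p ℝ}
    {L : Matrix m n ℝ} {L' : Matrix n p ℝ} (hX : MT X l L)
    (hY : MT Y l L') : MT (fun t => X t * Y t) l (L * L') := by
  intro i k
  simp only [mul_apply]
  exact tendsto_finsetSum _ fun j _ => (hX i j).mul (hY j k)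

theorem MT.const {m n : Type*} (A : Matrix m n ℝ) : MT (fun _ : ι => A) l A :=
  fun _ _ => tendsto_const_nhds

theorem MT.trace {m : Type*} [Fintype m] {X : ι → Matrix m m ℝ}
    {L : Matrix m m ℝ} (hX : MT X l L) :
    Tendsto (fun t => Matrix.trace (X t)) l (𝓝 (Matrix.trace L)) := by
  simp only [Matrix.trace, diag_apply]
  exact tendsto_finsetSum _ fun i _ => hX i i

variable {i3 i4 i2 : Type*} [Fintype i3] [DecidableEq i3] [Fintype i4] [DecidableEq i4]
  [Fintype i2] [DecidableEq i2]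

theorem MT.Pv {x z : ι → ℝ} {x0 z0 : ℝ} (hx : Tendsto x l (𝓝 x0)) (hz : Tendsto z l (𝓝 z0))
    (A : Matrix i3 i4 ℝ) (C : Matrix i2 i3 ℝ) : MT (fun s => Pv (x s) (z s) A C) l (Pv x0 z0 A C) := by
  intro i j
  unfold Path.Pv
  simp only [Matrix.add_apply, Matrix.smul_apply, smul_eq_mul]
  exact (hx.mul_const _).add (hz.mul_const _)

theorem MT.sv {U : Matrix i3 i3 ℝ} {M : ι → Matrix i3 i3 ℝ} {M0 : Matrix i3 i3 ℝ}
    (h0 : ∀ s, 0 ≤ M s) (hM0 : 0 ≤ M0) (hM : MT M l M0) :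
    MT (fun s => sv U (M s)) l (sv U M0) := by
  have h : MT (fun s => Hm (M s)) l (Hm M0) := fun i j => tendsto_Hm_gen h0 hM0 hM i j
  exact (h.mul (MT.const U)).mul h

theorem Tt_tendsto (U3 : Matrix i3 i3 ℝ) (U4 : Matrix i4 i4 ℝ) (U2 : Matrix i2 i2 ℝ)
    (A : Matrix i3 i4 ℝ) (B : Matrix i4 i2 ℝ) (C : Matrix i2 i3 ℝ)
    {x y z : ι → ℝ} (hx : Tendsto x l (𝓝 0)) (hy : Tendsto y l (𝓝 0)) (hz : Tendsto z l (𝓝 0))
    (hx0 : ∀ s, 0 ≤ x s) (hy0 : ∀ s, 0 ≤ y s) (hz0 : ∀ s, 0 ≤ z s) :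
    Tendsto (fun s => Tt U3 U4 U2 A B C (x s) (y s) (z s)) l
      (𝓝 (trace (U3 * A * U4 * B * U2 * C))) := by
  rw [← Tt_zero]
  have p0 : (0 : ℝ) ≤ 0 := le_refl 0
  have h3 := MT.sv (U := U3) (fun s => Pv_nonneg (hx0 s) (hz0 s) A C) (Pv_nonneg p0 p0 A C)
    (MT.Pv hx hz A C)
  have h4 := MT.sv (U := U4) (fun s => Pv_nonneg (hy0 s) (hx0 s) B A) (Pv_nonneg p0 p0 B A)
    (MT.Pv hy hx B A)
  have h2 := MT.sv (U := U2) (fun s => Pv_nonneg (hz0 s) (hy0 s) C B) (Pv_nonneg p0 p0 C B)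
    (MT.Pv hz hy C B)
  exact (((((h3.mul (MT.const A)).mul h4).mul (MT.const B)).mul h2).mul (MT.const C)).trace

/-- tail bound -/
theorem Tt_tail {U3 : Matrix i3 i3 ℝ} {U4 : Matrix i4 i4 ℝ} {U2 : Matrix i2 i2 ℝ}
    (hU3 : U3ᵀ = U3) (hU4 : U4ᵀ = U4) (hU2 : U2ᵀ = U2) (hU3' : U3 * U3 = 1) (hU4' : U4 * U4 = 1)
    (hU2' : U2 * U2 = 1)
    (A : Matrix i3 i4 ℝ) (B : Matrix i4 i2 ℝ) (C : Matrix i2 i3 ℝ) {x y z : ℝ}
    (hx : 0 < x) (hy : 0 < y) (hz : 0 < z) :
    |Tt U3 U4 U2 A B C x y z| ≤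
      (√x * √y * √z)⁻¹ * (√(Fintype.card i3) * √(Fintype.card i2)) := by
  set M3 := Pv x z A C with hM3
  set M4 := Pv y x B A with hM4
  set M2 := Pv z y C B with hM2
  have p3 : 0 ≤ M3 := Pv_nonneg hx.le hz.le A C
  have p4 : 0 ≤ M4 := Pv_nonneg hy.le hx.le B A
  have p2 : 0 ≤ M2 := Pv_nonneg hz.le hy.le C B
  have sx : √x * √x = x := Real.mul_self_sqrt hx.le
  have sy : √y * √y = y := Real.mul_self_sqrt hy.le
  have sz : √z * √z = z := Real.mul_self_sqrt hz.le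
  have hρ : 0 < √x * √y * √z := by positivity
  set A' := √x • A with hA'
  set B' := √y • B with hB'
  set C' := √z • C with hC'
  have A3 : A' * A'ᵀ ≤ M3 := by
    rw [hA', transpose_smul, Matrix.smul_mul, Matrix.mul_smul, smul_smul, sx, hM3, Pv]
    exact le_add_of_nonneg_right (psd_smul' (psd_transpose_mul_self C) hz.le)
  have C2 : C' * C'ᵀ ≤ M2 := by
    rw [hC', transpose_smul, Matrix.smul_mul, Matrix.mul_smul, smul_smul, sz, hM2, Pv]
    exact le_add_of_nonneg_right (psd_smul' (psd_transpose_mul_self B) hy.le)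
  have B2 : B'ᵀ * B' ≤ M2 := by
    rw [hB', transpose_smul, Matrix.smul_mul, Matrix.mul_smul, smul_smul, sy, hM2, Pv]
    exact le_add_of_nonneg_left (psd_smul' (psd_mul_transpose_self C) hz.le)
  have e1 : Tt U3 U4 U2 A B C x y z = (√x * √y * √z)⁻¹ *
      trace ((sv U3 M3 * A') * sv U4 M4 * (B' * sv U2 M2 * C')) := by
    have : trace ((sv U3 M3 * A') * sv U4 M4 * (B' * sv U2 M2 * C'))
        = (√x * √y * √z) * Tt U3 U4 U2 A B C x y z := by
      unfold Tt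
      rw [hA', hB', hC']
      simp only [Matrix.smul_mul, Matrix.mul_smul, trace_smul, smul_eq_mul, ← Matrix.mul_assoc]
      ring
    rw [this, ← mul_assoc, inv_mul_cancel₀ hρ.ne', one_mul]
  rw [e1, abs_mul, abs_of_pos (inv_pos.mpr hρ)]
  refine mul_le_mul_of_nonneg_left ?_ (inv_pos.mpr hρ).le
  refine (abs_trace_mul_mul_le _ _ _ (sv_contraction hU4 hU4' p4)).trans ?_
  have f1 : fsq (sv U3 M3 * A') ≤ Fintype.card i3 := by
    refine fsq_le_card _ ?_
    have h1 : sv U3 M3 * A' * (sv U3 M3 * A')ᵀ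
        = (Hm M3 * U3) * ((Hm M3 * A') * (Hm M3 * A')ᵀ) * (Hm M3 * U3)ᵀ := by
      unfold sv
      simp only [transpose_mul, Matrix.mul_assoc]
    rw [h1]
    refine (le_conj (contraction_Hm_mul p3 A' A3) (Hm M3 * U3)).trans ?_
    rw [Matrix.mul_one, transpose_mul, hU3, Hm_transpose p3]
    have h3 : Hm M3 * U3 * (U3 * Hm M3) = Hm M3 * Hm M3 := by
      rw [Matrix.mul_assoc, ← Matrix.mul_assoc U3 U3, hU3', Matrix.one_mul]
    rw [h3]
    exact Hm_sq_le_one p3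
  have f2 : fsq (B' * sv U2 M2 * C') ≤ Fintype.card i2 :=
    (fsq_sv_le hU2 p2 _ _ B2 C2).trans (En_le_card hU2 hU2' p2)
  exact mul_le_mul (Real.sqrt_le_sqrt f1) (Real.sqrt_le_sqrt f2) (Real.sqrt_nonneg _)
    (Real.sqrt_nonneg _)

end lim

/-- admissible parameter sequences (`x = 1/a²`, `y = 1/b²`, `z = 1/c²`) -/
structure PathSeq (x y z : ℤ → ℝ) : Prop where
  xpos : ∀ j, 0 < x j
  ypos : ∀ j, 0 < y j
  zpos : ∀ j, 0 < z j
  xmono : ∀ j, x j ≤ x (j + 1)
  ymono : ∀ j, y j ≤ y (j + 1)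
  zmono : ∀ j, z j ≤ z (j + 1)
  x4 : ∀ j, x (j + 1) ≤ 4 * x j
  y4 : ∀ j, y (j + 1) ≤ 4 * y j
  z4 : ∀ j, z (j + 1) ≤ 4 * z j
  xbot : Tendsto x atBot (𝓝 0)
  ybot : Tendsto y atBot (𝓝 0)
  zbot : Tendsto z atBot (𝓝 0)
  top : Tendsto (fun j => x j * y j * z j) atTop atTop

section path

variable {i3 i4 i2 : Type*} [Fintype i3] [DecidableEq i3] [Fintype i4] [DecidableEq i4]
  [Fintype i2] [DecidableEq i2]

theorem Tt_telescope {U3 : Matrix i3 i3 ℝ} {U4 : Matrix i4 i4 ℝ} {U2 : Matrix i2 i2 ℝ}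
    (hU3 : U3ᵀ = U3) (hU4 : U4ᵀ = U4) (hU2 : U2ᵀ = U2) (hU3' : U3 * U3 = 1) (hU4' : U4 * U4 = 1)
    (hU2' : U2 * U2 = 1)
    (A : Matrix i3 i4 ℝ) (B : Matrix i4 i2 ℝ) (C : Matrix i2 i3 ℝ) {x y z : ℤ → ℝ}
    (hp : PathSeq x y z) (J : ℕ) :
    |Tt U3 U4 U2 A B C (x (-J)) (y (-J)) (z (-J))| ≤
      |Tt U3 U4 U2 A B C (x J) (y J) (z J)| +
      76800 * ∑ j ∈ Finset.Ico (-(J : ℤ)) J, (√(x j) * √(y j) * √(z j))⁻¹ *
        EE U3 U4 U2 A B C (x j) (y j) (z j) := by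
  set T : ℤ → ℝ := fun j => Tt U3 U4 U2 A B C (x j) (y j) (z j) with hT
  have hstep : ∀ j, |T (j + 1) - T j| ≤ 76800 * ((√(x j) * √(y j) * √(z j))⁻¹ *
        EE U3 U4 U2 A B C (x j) (y j) (z j)) := fun j =>
    Tt_step hU3 hU4 hU2 hU3' hU4' hU2' A B C (hp.xpos j) (hp.ypos j) (hp.zpos j) (hp.xmono j)
      (hp.x4 j) (hp.ymono j) (hp.y4 j) (hp.zmono j) (hp.z4 j)
  -- reindex by naturals
  have htel : ∀ (k : ℕ) (a : ℤ), |T a| ≤ |T (a + k)| +
      ∑ j ∈ Finset.Ico a (a + k), 76800 * ((√(x j) * √(y j) * √(z j))⁻¹ *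
        EE U3 U4 U2 A B C (x j) (y j) (z j)) := by
    intro k a
    induction k with
    | zero => simp
    | succ k ih =>
      have h1 : Finset.Ico a (a + ((k + 1 : ℕ) : ℤ)) = insert (a + k) (Finset.Ico a (a + k)) := by
        ext j
        simp only [Finset.mem_Ico, Finset.mem_insert]
        push_cast
        omega
      rw [h1, Finset.sum_insert (by simp)]
      have h2 := hstep (a + k)
      have h3 : |T (a + k)| ≤ |T (a + k + 1)| + |T (a + k + 1) - T (a + k)| := by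
        have := abs_sub_abs_le_abs_sub (T (a + k)) (T (a + k + 1))
        rw [abs_sub_comm (T (a + k)) (T (a + k + 1))] at this
        linarith
      have h4 : a + ((k + 1 : ℕ) : ℤ) = a + k + 1 := by push_cast; ring
      rw [h4]
      linarith
  have h := htel (J + J) (-(J : ℤ))
  have e : -(J : ℤ) + ((J + J : ℕ) : ℤ) = J := by push_cast; ring
  rw [e, ← Finset.mul_sum] at h
  exact h

end path

end Crest.Agent.R079.Path

namespace Crest.Agent.R079.Pot

open Matrix Finset Filter Topology Crest.Agent.R072 Crest.Agent.R072.Lattice Crest.Agent.R079.LD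
  Crest.Agent.R079.Path Crest.Agent.R072.Nd
open scoped MatrixOrder

variable {Q : ℕ} [NeZero Q]

theorem LD_one {n : Type*} [Fintype n] [DecidableEq n] (M : Matrix n n ℝ) : LD 1 M = LD1 M := by
  unfold LD
  rw [inv_one, one_smul]

theorem En_le_gam {N : ℕ} {M : Matrix (Fin (N + N)) (Fin (N + N)) ℝ} (hM : M.PosSemidef) :
    En (diagonal (hsgn N)) M ≤ gam (potLD 1).F N M := by
  have h1 := En_le_LD1 (hsgn_symm N) (hsgn_sq N) hM.nonneg
  have h2 := LD_pinch one_pos N hM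
  rw [LD_one, LD_one, LD_one] at h2
  show _ ≤ LD 1 (blkA N M) + LD 1 (blkB N M) - 2 * LD 1 M
  rw [LD_one, LD_one, LD_one]
  linarith

/-- the three joint pinching gains of a box at parameters `x, y, z` -/
noncomputable def gams (F0 F1 F2 : ZMod Q → ZMod Q → ℝ) (N : ℕ) (p0 p1 p2 : ZMod Q)
    (x y z : ℝ) : ℝ :=
  gam (potLD 1).F N (x • abar (fun u v => F0 v u) (N + N) (N + N) p1 p0 +
      z • abar F2 (N + N) (N + N) p2 p0) +
  gam (potLD 1).F N (y • abar (fun u v => F1 v u) (N + N) (N + N) p2 p1 +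
      x • abar F0 (N + N) (N + N) p0 p1) +
  gam (potLD 1).F N (z • abar (fun u v => F2 v u) (N + N) (N + N) p0 p2 +
      y • abar F1 (N + N) (N + N) p1 p2)

theorem smul_abar {x : ℝ} (hx : 0 ≤ x) (X : ZMod Q → ZMod Q → ℝ) (a r : ℕ) (q p : ZMod Q) :
    x • abar X a r q p = abar (fun u v => √x * X u v) a r q p := by
  ext j j'
  simp only [abar, Matrix.smul_apply, smul_eq_mul]
  rw [← mul_assoc, mul_comm x, mul_assoc, Finset.mul_sum]
  congr 1
  refine Finset.sum_congr rfl fun i _ => ?_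
  have := Real.mul_self_sqrt hx
  linear_combination (-X (q + (i : ZMod Q)) (p + ((j : ℕ) : ZMod Q)) *
      X (q + (i : ZMod Q)) (p + ((j' : ℕ) : ZMod Q))) * this

/-- normalised block -/
noncomputable def nb (F : ZMod Q → ZMod Q → ℝ) (N : ℕ) (p q : ZMod Q) :
    Matrix (Fin (N + N)) (Fin (N + N)) ℝ := (((N : ℝ) + N)⁻¹) • blkm F (N + N) p q

theorem nb_transpose_mul (F : ZMod Q → ZMod Q → ℝ) {N : ℕ} (hN : 0 < N) (p q : ZMod Q) :
    (nb F N q p)ᵀ * nb F N q p = abar F (N + N) (N + N) q p := by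
  have hc : ((N : ℝ) + N) ≠ 0 := by positivity
  unfold nb
  rw [transpose_smul, Matrix.smul_mul, Matrix.mul_smul, smul_smul,
    transpose_mul_blkm F (by omega : 0 < N + N), smul_smul]
  push_cast
  rw [show ((N : ℝ) + N)⁻¹ * ((N : ℝ) + N)⁻¹ * ((N : ℝ) + N) ^ 2 = 1 by field_simp, one_smul]

theorem nb_mul_transpose (F : ZMod Q → ZMod Q → ℝ) {N : ℕ} (hN : 0 < N) (p q : ZMod Q) :
    nb F N p q * (nb F N p q)ᵀ = abar (fun x y => F y x) (N + N) (N + N) q p := by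
  have hc : ((N : ℝ) + N) ≠ 0 := by positivity
  unfold nb
  rw [transpose_smul, Matrix.smul_mul, Matrix.mul_smul, smul_smul,
    mul_transpose_blkm F (by omega : 0 < N + N), smul_smul]
  push_cast
  rw [show ((N : ℝ) + N)⁻¹ * ((N : ℝ) + N)⁻¹ * ((N : ℝ) + N) ^ 2 = 1 by field_simp, one_smul]

theorem Lbox_nb (F0 F1 F2 : ZMod Q → ZMod Q → ℝ) {N : ℕ} (hN : 0 < N) (p0 p1 p2 : ZMod Q) :
    Lbox F0 F1 F2 N p0 p1 p2 =
      trace (diagonal (hsgn N) * nb F0 N p0 p1 * diagonal (hsgn N) * nb F1 N p1 p2 *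
        diagonal (hsgn N) * nb F2 N p2 p0) := by
  rw [Lbox_eq]
  unfold nb
  simp only [Matrix.mul_smul, Matrix.smul_mul, trace_smul, smul_eq_mul]
  rw [one_div]
  ring

theorem EE_le_gams (F0 F1 F2 : ZMod Q → ZMod Q → ℝ) {N : ℕ} (hN : 0 < N) (p0 p1 p2 : ZMod Q)
    {x y z : ℝ} (hx : 0 ≤ x) (hy : 0 ≤ y) (hz : 0 ≤ z) :
    Path.EE (diagonal (hsgn N)) (diagonal (hsgn N)) (diagonal (hsgn N)) (nb F0 N p0 p1)
      (nb F1 N p1 p2) (nb F2 N p2 p0) x y z ≤ gams F0 F1 F2 N p0 p1 p2 x y z := by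
  unfold Path.EE gams
  have h3 := En_le_gam (N := N) (Matrix.nonneg_iff_posSemidef.mp
    (Pv_nonneg hx hz (nb F0 N p0 p1) (nb F2 N p2 p0)))
  have h4 := En_le_gam (N := N) (Matrix.nonneg_iff_posSemidef.mp
    (Pv_nonneg hy hx (nb F1 N p1 p2) (nb F0 N p0 p1)))
  have h2 := En_le_gam (N := N) (Matrix.nonneg_iff_posSemidef.mp
    (Pv_nonneg hz hy (nb F2 N p2 p0) (nb F1 N p1 p2)))
  have e3 : Pv x z (nb F0 N p0 p1) (nb F2 N p2 p0) =
      x • abar (fun u v => F0 v u) (N + N) (N + N) p1 p0 + z • abar F2 (N + N) (N + N) p2 p0 := by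
    unfold Pv
    rw [nb_mul_transpose F0 hN, nb_transpose_mul F2 hN]
  have e4 : Pv y x (nb F1 N p1 p2) (nb F0 N p0 p1) =
      y • abar (fun u v => F1 v u) (N + N) (N + N) p2 p1 + x • abar F0 (N + N) (N + N) p0 p1 := by
    unfold Pv
    rw [nb_mul_transpose F1 hN, nb_transpose_mul F0 hN]
  have e2 : Pv z y (nb F2 N p2 p0) (nb F1 N p1 p2) =
      z • abar (fun u v => F2 v u) (N + N) (N + N) p0 p2 + y • abar F1 (N + N) (N + N) p1 p2 := by
    unfold Pv
    rw [nb_mul_transpose F2 hN, nb_transpose_mul F1 hN]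
  rw [← e3, ← e4, ← e2]
  linarith

/-- **(PN)** path bound for a finite family of boxes (functions, sides and corners may depend on
the box), with weights. -/
theorem Lbox_path {ι : Type*} (S : Finset ι) (w : ι → ℝ) (hw : ∀ i ∈ S, 0 ≤ w i)
    (F0 F1 F2 : ι → ZMod Q → ZMod Q → ℝ) (N : ι → ℕ) (hN : ∀ i ∈ S, 0 < N i)
    (p0 p1 p2 : ι → ZMod Q) {x y z : ℤ → ℝ} (hp : PathSeq x y z) (B : ℝ)
    (hB : ∀ J : ℕ, ∑ j ∈ Finset.Ico (-(J : ℤ)) J, (√(x j) * √(y j) * √(z j))⁻¹ *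
      ∑ i ∈ S, w i * gams (F0 i) (F1 i) (F2 i) (N i) (p0 i) (p1 i) (p2 i) (x j) (y j) (z j) ≤ B) :
    ∑ i ∈ S, w i * |Lbox (F0 i) (F1 i) (F2 i) (N i) (p0 i) (p1 i) (p2 i)| ≤ 76800 * B := by
  -- interpolants
  set T : ι → ℤ → ℝ := fun i j => Tt (diagonal (hsgn (N i))) (diagonal (hsgn (N i)))
    (diagonal (hsgn (N i))) (nb (F0 i) (N i) (p0 i) (p1 i)) (nb (F1 i) (N i) (p1 i) (p2 i))
    (nb (F2 i) (N i) (p2 i) (p0 i)) (x j) (y j) (z j) with hT
  set L : ι → ℝ := fun i => Lbox (F0 i) (F1 i) (F2 i) (N i) (p0 i) (p1 i) (p2 i) with hL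
  have hbot : ∀ i ∈ S, Tendsto (fun J : ℕ => T i (-(J : ℤ))) atTop (𝓝 (L i)) := by
    intro i hi
    have h := Tt_tendsto (l := atBot) (diagonal (hsgn (N i))) (diagonal (hsgn (N i)))
      (diagonal (hsgn (N i))) (nb (F0 i) (N i) (p0 i) (p1 i)) (nb (F1 i) (N i) (p1 i) (p2 i))
      (nb (F2 i) (N i) (p2 i) (p0 i)) hp.xbot hp.ybot hp.zbot (fun j => (hp.xpos j).le)
      (fun j => (hp.ypos j).le) (fun j => (hp.zpos j).le)
    rw [← Lbox_nb _ _ _ (hN i hi)] at h
    exact h.comp (tendsto_neg_atTop_atBot.comp tendsto_natCast_atTop_atTop)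
  have htop : ∀ i ∈ S, Tendsto (fun J : ℕ => |T i (J : ℤ)|) atTop (𝓝 0) := by
    intro i hi
    refine squeeze_zero (g := fun J : ℕ => (√(x J * y J * z J))⁻¹ *
      (√(Fintype.card (Fin (N i + N i))) * √(Fintype.card (Fin (N i + N i))))) ?_ ?_ ?_
    · intro J; exact abs_nonneg _
    · intro J
      have h := Tt_tail (hsgn_symm (N i)) (hsgn_symm (N i)) (hsgn_symm (N i)) (hsgn_sq (N i))
        (hsgn_sq (N i)) (hsgn_sq (N i)) (nb (F0 i) (N i) (p0 i) (p1 i))
        (nb (F1 i) (N i) (p1 i) (p2 i)) (nb (F2 i) (N i) (p2 i) (p0 i)) (hp.xpos J) (hp.ypos J)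
        (hp.zpos J)
      rw [Real.sqrt_mul (mul_pos (hp.xpos J) (hp.ypos J)).le, Real.sqrt_mul (hp.xpos J).le]
      exact h
    · have h1 : Tendsto (fun J : ℕ => √(x J * y J * z J)) atTop atTop :=
        Real.tendsto_sqrt_atTop.comp (hp.top.comp tendsto_natCast_atTop_atTop)
      simpa using h1.inv_tendsto_atTop.mul_const
        (√(Fintype.card (Fin (N i + N i)) : ℝ) * √(Fintype.card (Fin (N i + N i)) : ℝ))
  have hmain : ∀ J : ℕ, ∑ i ∈ S, w i * |T i (-(J : ℤ))| ≤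
      ∑ i ∈ S, w i * |T i (J : ℤ)| + 76800 * B := by
    intro J
    have h1 : ∀ i ∈ S, w i * |T i (-(J : ℤ))| ≤ w i * |T i (J : ℤ)| + 76800 *
        ∑ j ∈ Finset.Ico (-(J : ℤ)) J, (√(x j) * √(y j) * √(z j))⁻¹ *
          (w i * gams (F0 i) (F1 i) (F2 i) (N i) (p0 i) (p1 i) (p2 i) (x j) (y j) (z j)) := by
      intro i hi
      have h2 := Tt_telescope (hsgn_symm (N i)) (hsgn_symm (N i)) (hsgn_symm (N i))
        (hsgn_sq (N i)) (hsgn_sq (N i)) (hsgn_sq (N i)) (nb (F0 i) (N i) (p0 i) (p1 i))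
        (nb (F1 i) (N i) (p1 i) (p2 i)) (nb (F2 i) (N i) (p2 i) (p0 i)) hp J
      have h3 : ∑ j ∈ Finset.Ico (-(J : ℤ)) J, (√(x j) * √(y j) * √(z j))⁻¹ *
          Path.EE (diagonal (hsgn (N i))) (diagonal (hsgn (N i))) (diagonal (hsgn (N i)))
            (nb (F0 i) (N i) (p0 i) (p1 i)) (nb (F1 i) (N i) (p1 i) (p2 i))
            (nb (F2 i) (N i) (p2 i) (p0 i)) (x j) (y j) (z j) ≤
          ∑ j ∈ Finset.Ico (-(J : ℤ)) J, (√(x j) * √(y j) * √(z j))⁻¹ *
            gams (F0 i) (F1 i) (F2 i) (N i) (p0 i) (p1 i) (p2 i) (x j) (y j) (z j) := by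
        refine Finset.sum_le_sum fun j _ => mul_le_mul_of_nonneg_left
          (EE_le_gams _ _ _ (hN i hi) _ _ _ (hp.xpos j).le (hp.ypos j).le (hp.zpos j).le)
          (by positivity)
      have h4 : w i * |T i (-(J : ℤ))| ≤ w i * (|T i (J : ℤ)| + 76800 *
          ∑ j ∈ Finset.Ico (-(J : ℤ)) J, (√(x j) * √(y j) * √(z j))⁻¹ *
            gams (F0 i) (F1 i) (F2 i) (N i) (p0 i) (p1 i) (p2 i) (x j) (y j) (z j)) := by
        refine mul_le_mul_of_nonneg_left (h2.trans ?_) (hw i hi)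
        linarith
      refine h4.trans (le_of_eq ?_)
      rw [mul_add]
      congr 1
      rw [mul_left_comm, Finset.mul_sum]
      congr 1
      refine Finset.sum_congr rfl fun j _ => ?_
      ring
    refine (Finset.sum_le_sum h1).trans ?_
    rw [Finset.sum_add_distrib, ← Finset.mul_sum, Finset.sum_comm]
    have h5 := hB J
    have h6 : ∑ j ∈ Finset.Ico (-(J : ℤ)) J, ∑ i ∈ S, (√(x j) * √(y j) * √(z j))⁻¹ *
          (w i * gams (F0 i) (F1 i) (F2 i) (N i) (p0 i) (p1 i) (p2 i) (x j) (y j) (z j)) =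
        ∑ j ∈ Finset.Ico (-(J : ℤ)) J, (√(x j) * √(y j) * √(z j))⁻¹ *
      ∑ i ∈ S, w i * gams (F0 i) (F1 i) (F2 i) (N i) (p0 i) (p1 i) (p2 i) (x j) (y j) (z j) := by
      refine Finset.sum_congr rfl fun j _ => ?_
      rw [Finset.mul_sum]
    rw [h6]
    linarith
  have hlim1 : Tendsto (fun J : ℕ => ∑ i ∈ S, w i * |T i (-(J : ℤ))|) atTop
      (𝓝 (∑ i ∈ S, w i * |L i|)) :=
    tendsto_finsetSum _ fun i hi => ((hbot i hi).abs).const_mul _
  have hlim2 : Tendsto (fun J : ℕ => ∑ i ∈ S, w i * |T i (J : ℤ)| + 76800 * B) atTop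
      (𝓝 (∑ i ∈ S, w i * 0 + 76800 * B)) :=
    (tendsto_finsetSum _ fun i hi => (htop i hi).const_mul _).add_const _
  have h := le_of_tendsto_of_tendsto' hlim1 hlim2 hmain
  simpa using h

end Crest.Agent.R079.Pot
end

-- ▼ part R079/PotLat_491
section

/-! R079, LAYER 2, (PL1): one scale estimate for an abstract pair of trace potentials (R072's
`LatA`/`LatB` for `Good P c`, block averaged offsets).  helper491. -/

set_option autoImplicit false
set_option linter.unusedVariables false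
set_option linter.unusedSectionVars false

namespace Crest.Agent.R079.Pot

open Matrix Finset Crest.Agent.R072 Crest.Agent.R072.Lattice
open scoped MatrixOrder

variable {Q : ℕ} [NeZero Q]

theorem W_nonneg {P : TPot} (h : GoodPot P.F) (X Z : ZMod Q → ZMod Q → ℝ) (a r : ℕ) (n : ZMod Q) :
    0 ≤ W P X Z a r n :=
  Finset.sum_nonneg fun _ _ => Finset.sum_nonneg fun _ _ =>
    h.nonneg _ _ (abar_add_posSemidef _ _ _ _ _ _ _ _)

theorem EW_nonneg {P : TPot} (h : GoodPot P.E) (X : ZMod Q → ZMod Q → ℝ) (a r : ℕ) :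
    0 ≤ EW P X a r :=
  Finset.sum_nonneg fun _ _ => Finset.sum_nonneg fun _ _ => h.nonneg _ _ (abar_posSemidef _ _ _ _ _)

theorem EE_nonneg {P : TPot} (h : GoodPot P.E) (X Z : ZMod Q → ZMod Q → ℝ) (N : ℕ) :
    0 ≤ EE P X Z N := add_nonneg (EW_nonneg h _ _ _) (EW_nonneg h _ _ _)

theorem GW_nonneg {P : TPot} (h : GoodPot P.F) (X Z : ZMod Q → ZMod Q → ℝ) (N : ℕ) (n : ZMod Q) :
    0 ≤ GW P X Z N n :=
  Finset.sum_nonneg fun _ _ => Finset.sum_nonneg fun _ _ =>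
    h.split _ _ (abar_add_posSemidef _ _ _ _ _ _ _ _)

theorem bl_nonneg {f : ZMod Q → ℝ} (h : ∀ n, 0 ≤ f n) (N : ℕ) (l : ℤ) : 0 ≤ bl f N l :=
  mul_nonneg (by positivity) (Finset.sum_nonneg fun _ _ => h _)

theorem Vb_nonneg {P : TPot} (h : GoodPot P.F) (X Z : ZMod Q → ZMod Q → ℝ) (N : ℕ) :
    0 ≤ Vb P X Z N := bl_nonneg (fun n => W_nonneg h X Z N N n) N _

/-- (C1) -/
theorem W_double_a {P : TPot} (hF : GoodPot P.F) (X Z : ZMod Q → ZMod Q → ℝ) {a r : ℕ}
    (ha : 0 < a) (n : ZMod Q) :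
    W P X Z (a + a) r n ≤ W P X Z a r (n + a) := by
  have key : ∀ p q : ZMod Q, P.F r (abar X (a + a) r q p + abar Z (a + a) r (n - p - q) p) ≤
      (1 / 2) * P.F r (abar X a r q p + abar Z a r (n + a - p - q) p) +
      (1 / 2) * P.F r (abar X a r (q + a) p + abar Z a r (n + a - p - (q + a)) p) := by
    intro p q
    have e : abar X (a + a) r q p + abar Z (a + a) r (n - p - q) p =
        (1 / 2 : ℝ) • ((abar X a r q p + abar Z a r (n + a - p - q) p) +
          (abar X a r (q + a) p + abar Z a r (n + a - p - (q + a)) p)) := by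
      rw [abar_double X ha, abar_double Z ha, ← smul_add]
      congr 1
      have e1 : n + a - p - q = n - p - q + a := by ring
      have e2 : n + a - p - (q + a) = n - p - q := by ring
      rw [e1, e2]
      abel
    rw [e]
    exact hF.mid r _ _ (abar_add_posSemidef X Z a r q p (n + a - p - q) p)
      (abar_add_posSemidef X Z a r (q + a) p (n + a - p - (q + a)) p)
  unfold W
  refine Finset.sum_le_sum fun p _ => ?_
  refine (Finset.sum_le_sum fun q _ => key p q).trans ?_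
  rw [Finset.sum_add_distrib, ← Finset.mul_sum, ← Finset.mul_sum,
    sum_add_right' (fun q => P.F r (abar X a r q p + abar Z a r (n + a - p - q) p)) a]
  linarith

theorem gam_abar (G : (r : ℕ) → Matrix (Fin r) (Fin r) ℝ → ℝ) (X Z : ZMod Q → ZMod Q → ℝ)
    {a r : ℕ} (hr : 0 < r) (q q' p : ZMod Q) :
    gam G r (abar X a (r + r) q p + abar Z a (r + r) q' p) =
      G r (abar X a r q p + abar Z a r q' p) +
      G r (abar X a r q (p + r) + abar Z a r q' (p + r)) -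
      2 * G (r + r) (abar X a (r + r) q p + abar Z a (r + r) q' p) := by
  have e1 : (2 : ℝ) • (abar X a (r + r) q p + abar Z a (r + r) q' p).submatrix (Fin.castAdd r)
      (Fin.castAdd r) = abar X a r q p + abar Z a r q' p := by
    rw [Matrix.submatrix_add, Pi.add_apply, Pi.add_apply, smul_add, abar_submatrix_castAdd X hr,
      abar_submatrix_castAdd Z hr]
  have e2 : (2 : ℝ) • (abar X a (r + r) q p + abar Z a (r + r) q' p).submatrix (Fin.natAdd r)
      (Fin.natAdd r) = abar X a r q (p + r) + abar Z a r q' (p + r) := by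
    rw [Matrix.submatrix_add, Pi.add_apply, Pi.add_apply, smul_add, abar_submatrix_natAdd X hr,
      abar_submatrix_natAdd Z hr]
  unfold gam blkA blkB
  rw [e1, e2]

theorem gam_abar_single (G : (r : ℕ) → Matrix (Fin r) (Fin r) ℝ → ℝ) (X : ZMod Q → ZMod Q → ℝ)
    {a r : ℕ} (hr : 0 < r) (q p : ZMod Q) :
    gam G r (abar X a (r + r) q p) =
      G r (abar X a r q p) + G r (abar X a r q (p + r)) - 2 * G (r + r) (abar X a (r + r) q p) := by
  unfold gam blkA blkB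
  rw [abar_submatrix_castAdd X hr, abar_submatrix_natAdd X hr]

/-- (C2) -/
theorem GW_eq (P : TPot) (X Z : ZMod Q → ZMod Q → ℝ) {N : ℕ} (hN : 0 < N) (n : ZMod Q) :
    GW P X Z N n = W P X Z (N + N) N n + W P X Z (N + N) N (n + N) -
      2 * W P X Z (N + N) (N + N) n := by
  unfold GW W
  simp only [gam_abar P.F X Z hN, Finset.sum_sub_distrib, Finset.sum_add_distrib, Finset.mul_sum]
  congr 2
  rw [← sum_add_right' (fun p => ∑ q : ZMod Q, P.F N (abar X (N + N) N q p +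
    abar Z (N + N) N (n + N - p - q) p)) N]
  refine Finset.sum_congr rfl fun p _ => Finset.sum_congr rfl fun q _ => ?_
  have e : n + N - (p + N) - q = n - p - q := by ring
  rw [e]

theorem GW_le {P : TPot} (hF : GoodPot P.F) (X Z : ZMod Q → ZMod Q → ℝ) {N : ℕ} (hN : 0 < N)
    (n : ZMod Q) :
    GW P X Z N n ≤ W P X Z N N (n + N) + W P X Z N N (n + 2 * N) -
      2 * W P X Z (N + N) (N + N) n := by
  have h1 := GW_eq P X Z hN n
  have h2 := W_double_a hF X Z (a := N) (r := N) hN n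
  have h3 := W_double_a hF X Z (a := N) (r := N) hN (n + N)
  have e : n + N + N = n + 2 * (N : ZMod Q) := by ring
  rw [e] at h3
  linarith

theorem EW_double_a {P : TPot} (hE : GoodPot P.E) (X : ZMod Q → ZMod Q → ℝ) {a r : ℕ}
    (ha : 0 < a) : EW P X (a + a) r ≤ EW P X a r := by
  unfold EW
  refine Finset.sum_le_sum fun p _ => ?_
  have key : ∀ q : ZMod Q, P.E r (abar X (a + a) r q p) ≤ (1 / 2) * P.E r (abar X a r q p) +
      (1 / 2) * P.E r (abar X a r (q + a) p) := by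
    intro q
    rw [abar_double X ha]
    exact hE.mid r _ _ (abar_posSemidef X a r q p) (abar_posSemidef X a r (q + a) p)
  refine (Finset.sum_le_sum fun q _ => key q).trans ?_
  rw [Finset.sum_add_distrib, ← Finset.mul_sum, ← Finset.mul_sum,
    sum_add_right' (fun q => P.E r (abar X a r q p)) a]
  linarith

theorem EW_double_r {P : TPot} (hE : GoodPot P.E) (X : ZMod Q → ZMod Q → ℝ) {a r : ℕ}
    (hr : 0 < r) : EW P X a (r + r) ≤ EW P X a r := by
  have key : ∀ p q : ZMod Q, P.E (r + r) (abar X a (r + r) q p) ≤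
      (1 / 2) * P.E r (abar X a r q p) + (1 / 2) * P.E r (abar X a r q (p + r)) := by
    intro p q
    have h1 := hE.split r _ (abar_posSemidef X a (r + r) q p)
    rw [gam_abar_single P.E X hr] at h1
    linarith
  unfold EW
  refine (Finset.sum_le_sum fun p _ => Finset.sum_le_sum fun q _ => key p q).trans ?_
  simp only [Finset.sum_add_distrib, ← Finset.mul_sum]
  rw [sum_add_right' (fun p => ∑ q : ZMod Q, P.E r (abar X a r q p)) r]
  linarith

theorem EW_pow_r {P : TPot} (hE : GoodPot P.E) (X : ZMod Q → ZMod Q → ℝ) {a r : ℕ}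
    (hr : 0 < r) (κ : ℕ) : EW P X a (2 ^ κ * r) ≤ EW P X a r := by
  induction κ with
  | zero => simp
  | succ κ ih =>
    have h := EW_double_r hE X (a := a) (r := 2 ^ κ * r) (by positivity)
    have e : 2 ^ (κ + 1) * r = 2 ^ κ * r + 2 ^ κ * r := by ring
    rw [e]
    exact h.trans ih

theorem EW_pow {P : TPot} (hE : GoodPot P.E) (X : ZMod Q → ZMod Q → ℝ) {N : ℕ}
    (hN : 0 < N) (κ : ℕ) : EW P X (2 ^ κ * N) (2 ^ κ * N) ≤ EW P X N N := by
  induction κ with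
  | zero => simp
  | succ κ ih =>
    have e : 2 ^ (κ + 1) * N = 2 ^ κ * N + 2 ^ κ * N := by ring
    rw [e]
    exact ((EW_double_r hE X (by positivity)).trans (EW_double_a hE X (by positivity))).trans ih

/-! ### Bregman remainder of an abstract potential -/

section breg

variable {G : (r : ℕ) → Matrix (Fin r) (Fin r) ℝ → ℝ}

/-- supporting functional -/
noncomputable def spf (h : GoodPot G) (r : ℕ) (Z : Matrix (Fin r) (Fin r) ℝ)
    (hZ : Z.PosSemidef) : Matrix (Fin r) (Fin r) ℝ →ₗ[ℝ] ℝ := Classical.choose (h.supp r Z hZ)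

/-- Bregman remainder at `Z` -/
noncomputable def bz (h : GoodPot G) (r : ℕ) (Z : Matrix (Fin r) (Fin r) ℝ)
    (hZ : Z.PosSemidef) (X : Matrix (Fin r) (Fin r) ℝ) : ℝ :=
  G r X - G r Z - spf h r Z hZ (X - Z)

theorem bz_nonneg (h : GoodPot G) {r : ℕ} {Z : Matrix (Fin r) (Fin r) ℝ}
    (hZ : Z.PosSemidef) {X : Matrix (Fin r) (Fin r) ℝ} (hX : X.PosSemidef) :
    0 ≤ bz h r Z hZ X := by
  have := Classical.choose_spec (h.supp r Z hZ) X hX
  unfold bz spf
  linarith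

theorem mgap_le_bz (h : GoodPot G) {r : ℕ} {Z : Matrix (Fin r) (Fin r) ℝ}
    (hZ : Z.PosSemidef) {X Y : Matrix (Fin r) (Fin r) ℝ} (hX : X.PosSemidef)
    (hY : Y.PosSemidef) : mgap G r X Y ≤ bz h r Z hZ X + bz h r Z hZ Y := by
  have h1 := bz_nonneg h hZ (X := (1 / 2 : ℝ) • (X + Y)) ((hX.add hY).smul (by norm_num))
  have e : spf h r Z hZ (X - Z) + spf h r Z hZ (Y - Z) =
      2 * spf h r Z hZ ((1 / 2 : ℝ) • (X + Y) - Z) := by
    rw [← map_add, ← smul_eq_mul, ← map_smul]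
    congr 1
    rw [smul_sub, smul_smul]
    norm_num
    rw [two_smul]
    abel
  unfold bz at h1 ⊢
  unfold mgap
  linarith

theorem bz_mid_le (h : GoodPot G) {r : ℕ} {Z : Matrix (Fin r) (Fin r) ℝ}
    (hZ : Z.PosSemidef) {X Y : Matrix (Fin r) (Fin r) ℝ} (hX : X.PosSemidef)
    (hY : Y.PosSemidef) :
    bz h r Z hZ ((1 / 2 : ℝ) • (X + Y)) ≤ (bz h r Z hZ X + bz h r Z hZ Y) / 2 := by
  have h1 := h.mid r X Y hX hY
  have e : spf h r Z hZ (X - Z) + spf h r Z hZ (Y - Z) =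
      2 * spf h r Z hZ ((1 / 2 : ℝ) • (X + Y) - Z) := by
    rw [← map_add, ← smul_eq_mul, ← map_smul]
    congr 1
    rw [smul_sub, smul_smul]
    norm_num
    rw [two_smul]
    abel
  unfold bz
  linarith

theorem sum_bz_avg (h : GoodPot G) {r K : ℕ} (hK : 0 < K) (x : ℕ → Matrix (Fin r) (Fin r) ℝ)
    {Z : Matrix (Fin r) (Fin r) ℝ} (hZ : Z.PosSemidef)
    (hz : Z = (1 / (K : ℝ)) • ∑ i ∈ range K, x i) :
    ∑ i ∈ range K, bz h r Z hZ (x i) = ∑ i ∈ range K, G r (x i) - K * G r Z := by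
  have hK' : (K : ℝ) ≠ 0 := by positivity
  unfold bz
  rw [Finset.sum_sub_distrib, Finset.sum_sub_distrib, ← map_sum, Finset.sum_sub_distrib,
    Finset.sum_const, Finset.card_range, Finset.sum_const, Finset.card_range]
  have e : ∑ i ∈ range K, x i - K • Z = 0 := by
    rw [hz, ← Nat.cast_smul_eq_nsmul ℝ, smul_smul, mul_one_div_cancel hK', one_smul, sub_self]
  rw [e, map_zero, nsmul_eq_mul]
  ring

theorem mgap_comm (G : (r : ℕ) → Matrix (Fin r) (Fin r) ℝ → ℝ) (r : ℕ)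
    (X Y : Matrix (Fin r) (Fin r) ℝ) : mgap G r X Y = mgap G r Y X := by
  unfold mgap
  rw [add_comm X Y]
  ring

end breg

/-! ### shifts -/

section shift

variable {G : (r : ℕ) → Matrix (Fin r) (Fin r) ℝ → ℝ}

/-- Bregman remainder of the `i`-th block, summed over all positions -/
noncomputable def SB (h : GoodPot G) (X : ZMod Q → ZMod Q → ℝ) (K N r : ℕ) (p : ZMod Q) (i : ℕ) :
    ℝ :=
  ∑ q : ZMod Q, bz h r (abar X (K * N) r q p) (abar_posSemidef X (K * N) r q p)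
    (abar X N r (q + (i : ZMod Q) * N) p)

theorem SB_nonneg (h : GoodPot G) (X : ZMod Q → ZMod Q → ℝ) (K N r : ℕ) (p : ZMod Q) (i : ℕ) :
    0 ≤ SB h X K N r p i :=
  Finset.sum_nonneg fun q _ => bz_nonneg h _ (abar_posSemidef X _ _ _ _)

theorem sum_SB (h : GoodPot G) (X : ZMod Q → ZMod Q → ℝ) {K N r : ℕ} (hK : 0 < K) (hN : 0 < N)
    (p : ZMod Q) :
    ∑ i ∈ range K, SB h X K N r p i =
      K * (∑ q : ZMod Q, G r (abar X N r q p) - ∑ q : ZMod Q, G r (abar X (K * N) r q p)) := by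
  unfold SB
  rw [Finset.sum_comm]
  have h1 : ∀ q : ZMod Q, ∑ i ∈ range K,
      bz h r (abar X (K * N) r q p) (abar_posSemidef X (K * N) r q p)
        (abar X N r (q + (i : ZMod Q) * N) p) =
      ∑ i ∈ range K, G r (abar X N r (q + (i : ZMod Q) * N) p) -
        K * G r (abar X (K * N) r q p) := by
    intro q
    exact sum_bz_avg h hK (fun i => abar X N r (q + (i : ZMod Q) * N) p) _ (abar_mul X hK hN q p)
  rw [Finset.sum_congr rfl fun q _ => h1 q, Finset.sum_sub_distrib, Finset.sum_comm,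
    ← Finset.mul_sum]
  have h2 : ∀ i ∈ range K, ∑ q : ZMod Q, G r (abar X N r (q + (i : ZMod Q) * N) p) =
      ∑ q : ZMod Q, G r (abar X N r q p) := fun i _ =>
    sum_shift (fun q => G r (abar X N r q p)) ((i : ZMod Q) * N)
  rw [Finset.sum_congr rfl h2, Finset.sum_const, Finset.card_range, nsmul_eq_mul]
  ring

theorem sum_SB_shift_le (h : GoodPot G) (X : ZMod Q → ZMod Q → ℝ) (K N r : ℕ) (p : ZMod Q)
    (L c : ℕ) (hL : L + c ≤ K) :
    ∑ i ∈ range L, SB h X K N r p (i + c) ≤ ∑ i ∈ range K, SB h X K N r p i := by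
  have h1 : ∑ i ∈ range L, SB h X K N r p (i + c) =
      ∑ i ∈ Finset.Ico c (L + c), SB h X K N r p i := by
    rw [Finset.sum_Ico_eq_sum_range]
    simp [add_comm]
  rw [h1]
  apply Finset.sum_le_sum_of_subset_of_nonneg
  · intro i hi
    rw [Finset.mem_Ico] at hi
    exact Finset.mem_range.2 (by omega)
  · intro i _ _
    exact SB_nonneg h X K N r p i

theorem gap_shift_nat (h : GoodPot G) (X : ZMod Q → ZMod Q → ℝ) {N r : ℕ} (hN : 0 < N)
    (s K : ℕ) (hK : 0 < K) (hs : 2 * s ≤ K) (p : ZMod Q) :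
    ∑ q : ZMod Q, mgap G r (abar X N r q p) (abar X N r (q + (s : ZMod Q) * N) p) ≤
      4 * (∑ q : ZMod Q, G r (abar X N r q p) - ∑ q : ZMod Q, G r (abar X (K * N) r q p)) := by
  set S := ∑ q : ZMod Q, mgap G r (abar X N r q p) (abar X N r (q + (s : ZMod Q) * N) p) with hG
  set D := ∑ q : ZMod Q, G r (abar X N r q p) - ∑ q : ZMod Q, G r (abar X (K * N) r q p) with hD
  have hsum : ∑ i ∈ range K, SB h X K N r p i = K * D := sum_SB h X hK hN p
  have hD0 : 0 ≤ D := by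
    have h1 : 0 ≤ ∑ i ∈ range K, SB h X K N r p i :=
      Finset.sum_nonneg fun i _ => SB_nonneg h X K N r p i
    rw [hsum] at h1
    have : (0 : ℝ) < K := by exact_mod_cast hK
    exact nonneg_of_mul_nonneg_right h1 this
  have hi : ∀ i : ℕ, S ≤ SB h X K N r p i + SB h X K N r p (i + s) := by
    intro i
    have e1 : S = ∑ q : ZMod Q, mgap G r (abar X N r (q + (i : ZMod Q) * N) p)
        (abar X N r (q + ((i + s : ℕ) : ZMod Q) * N) p) := by
      rw [hG, ← sum_shift _ ((i : ZMod Q) * (N : ZMod Q))]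
      refine Finset.sum_congr rfl fun q _ => ?_
      have : q + (i : ZMod Q) * N + (s : ZMod Q) * N = q + ((i + s : ℕ) : ZMod Q) * N := by
        push_cast; ring
      rw [this]
    rw [e1]
    unfold SB
    rw [← Finset.sum_add_distrib]
    exact Finset.sum_le_sum fun q _ => mgap_le_bz h _ (abar_posSemidef X _ _ _ _)
      (abar_posSemidef X _ _ _ _)
  have hsum2 : ((K - s : ℕ) : ℝ) * S ≤ 2 * (K * D) := by
    have h1 : ∑ _i ∈ range (K - s), S ≤
        ∑ i ∈ range (K - s), (SB h X K N r p i + SB h X K N r p (i + s)) :=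
      Finset.sum_le_sum fun i _ => hi i
    rw [Finset.sum_const, Finset.card_range, nsmul_eq_mul, Finset.sum_add_distrib] at h1
    have h2 := sum_SB_shift_le h X K N r p (K - s) 0 (by omega)
    have h3 := sum_SB_shift_le h X K N r p (K - s) s (by omega)
    simp only [add_zero] at h2
    rw [hsum] at h2 h3
    linarith
  have hKs : (K : ℝ) ≤ 2 * ((K - s : ℕ) : ℝ) := by
    have : K ≤ 2 * (K - s) := by omega
    exact_mod_cast this
  have hpos : (0 : ℝ) < ((K - s : ℕ) : ℝ) := by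
    have : 0 < K - s := by omega
    exact_mod_cast this
  have h5 : ((K - s : ℕ) : ℝ) * S ≤ ((K - s : ℕ) : ℝ) * (4 * D) := by
    nlinarith
  exact le_of_mul_le_mul_left h5 hpos

theorem gap_shift_two_nat (h : GoodPot G) (X : ZMod Q → ZMod Q → ℝ) {N r : ℕ} (hN : 0 < N)
    (s K : ℕ) (hs : 2 * (s + 1) ≤ K) (p : ZMod Q) :
    ∑ q : ZMod Q, mgap G r (abar X (N + N) r q p) (abar X (N + N) r (q + (s : ZMod Q) * N) p) ≤
      4 * (∑ q : ZMod Q, G r (abar X N r q p) - ∑ q : ZMod Q, G r (abar X (K * N) r q p)) := by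
  have hK : 0 < K := by omega
  set S := ∑ q : ZMod Q, mgap G r (abar X (N + N) r q p)
    (abar X (N + N) r (q + (s : ZMod Q) * N) p) with hG
  set D := ∑ q : ZMod Q, G r (abar X N r q p) - ∑ q : ZMod Q, G r (abar X (K * N) r q p) with hD
  have hsum : ∑ i ∈ range K, SB h X K N r p i = K * D := sum_SB h X hK hN p
  have hD0 : 0 ≤ D := by
    have h1 : 0 ≤ ∑ i ∈ range K, SB h X K N r p i :=
      Finset.sum_nonneg fun i _ => SB_nonneg h X K N r p i
    rw [hsum] at h1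
    have : (0 : ℝ) < K := by exact_mod_cast hK
    exact nonneg_of_mul_nonneg_right h1 this
  have hb : ∀ (q : ZMod Q) (i : ℕ),
      bz h r (abar X (K * N) r q p) (abar_posSemidef X (K * N) r q p)
        (abar X (N + N) r (q + (i : ZMod Q) * N) p) ≤
      (bz h r (abar X (K * N) r q p) (abar_posSemidef X (K * N) r q p)
          (abar X N r (q + (i : ZMod Q) * N) p) +
        bz h r (abar X (K * N) r q p) (abar_posSemidef X (K * N) r q p)
          (abar X N r (q + ((i + 1 : ℕ) : ZMod Q) * N) p)) / 2 := by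
    intro q i
    rw [abar_two X hN]
    have : q + (i : ZMod Q) * N + N = q + ((i + 1 : ℕ) : ZMod Q) * N := by
      push_cast; ring
    rw [this]
    exact bz_mid_le h _ (abar_posSemidef X _ _ _ _) (abar_posSemidef X _ _ _ _)
  have hi : ∀ i : ℕ, S ≤ (SB h X K N r p i + SB h X K N r p (i + 1)) / 2 +
      (SB h X K N r p (i + s) + SB h X K N r p (i + (s + 1))) / 2 := by
    intro i
    have e1 : S = ∑ q : ZMod Q, mgap G r (abar X (N + N) r (q + (i : ZMod Q) * N) p)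
        (abar X (N + N) r (q + ((i + s : ℕ) : ZMod Q) * N) p) := by
      rw [hG, ← sum_shift _ ((i : ZMod Q) * (N : ZMod Q))]
      refine Finset.sum_congr rfl fun q _ => ?_
      have : q + (i : ZMod Q) * N + (s : ZMod Q) * N = q + ((i + s : ℕ) : ZMod Q) * N := by
        push_cast; ring
      rw [this]
    have e2 : (SB h X K N r p i + SB h X K N r p (i + 1)) / 2 +
        (SB h X K N r p (i + s) + SB h X K N r p (i + (s + 1))) / 2 =
        ∑ q : ZMod Q,
          ((bz h r (abar X (K * N) r q p) (abar_posSemidef X (K * N) r q p)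
              (abar X N r (q + (i : ZMod Q) * N) p) +
            bz h r (abar X (K * N) r q p) (abar_posSemidef X (K * N) r q p)
              (abar X N r (q + ((i + 1 : ℕ) : ZMod Q) * N) p)) / 2 +
          (bz h r (abar X (K * N) r q p) (abar_posSemidef X (K * N) r q p)
              (abar X N r (q + ((i + s : ℕ) : ZMod Q) * N) p) +
            bz h r (abar X (K * N) r q p) (abar_posSemidef X (K * N) r q p)
              (abar X N r (q + ((i + s + 1 : ℕ) : ZMod Q) * N) p)) / 2) := by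
      unfold SB
      rw [← add_assoc i s 1]
      rw [Finset.sum_add_distrib, ← Finset.sum_div, ← Finset.sum_div, Finset.sum_add_distrib,
        Finset.sum_add_distrib]
    rw [e1, e2]
    refine Finset.sum_le_sum fun q _ => ?_
    refine (mgap_le_bz h (abar_posSemidef X (K * N) r q p) (abar_posSemidef X _ _ _ _)
      (abar_posSemidef X _ _ _ _)).trans ?_
    exact add_le_add (hb q i) (hb q (i + s))
  have hsum2 : ((K - (s + 1) : ℕ) : ℝ) * S ≤ 2 * (K * D) := by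
    have h1 : ∑ _i ∈ range (K - (s + 1)), S ≤
        ∑ i ∈ range (K - (s + 1)), ((SB h X K N r p i + SB h X K N r p (i + 1)) / 2 +
          (SB h X K N r p (i + s) + SB h X K N r p (i + (s + 1))) / 2) :=
      Finset.sum_le_sum fun i _ => hi i
    rw [Finset.sum_const, Finset.card_range, nsmul_eq_mul, Finset.sum_add_distrib,
      ← Finset.sum_div, ← Finset.sum_div, Finset.sum_add_distrib, Finset.sum_add_distrib] at h1
    have h2 := sum_SB_shift_le h X K N r p (K - (s + 1)) 0 (by omega)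
    have h3 := sum_SB_shift_le h X K N r p (K - (s + 1)) 1 (by omega)
    have h4 := sum_SB_shift_le h X K N r p (K - (s + 1)) s (by omega)
    have h5 := sum_SB_shift_le h X K N r p (K - (s + 1)) (s + 1) (by omega)
    simp only [add_zero] at h2
    rw [hsum] at h2 h3 h4 h5
    linarith
  have hKs : (K : ℝ) ≤ 2 * ((K - (s + 1) : ℕ) : ℝ) := by
    have : K ≤ 2 * (K - (s + 1)) := by omega
    exact_mod_cast this
  have hpos : (0 : ℝ) < ((K - (s + 1) : ℕ) : ℝ) := by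
    have : 0 < K - (s + 1) := by omega
    exact_mod_cast this
  have h5 : ((K - (s + 1) : ℕ) : ℝ) * S ≤ ((K - (s + 1) : ℕ) : ℝ) * (4 * D) := by
    nlinarith
  exact le_of_mul_le_mul_left h5 hpos

end shift

/-- (SL) for `N`-averages -/
theorem gap_shift {P : TPot} (h : GoodPot P.E) (X : ZMod Q → ZMod Q → ℝ) {N r : ℕ}
    (hN : 0 < N) (s : ℤ) (K : ℕ) (hK : 0 < K) (hs : 2 * |s| ≤ K) :
    ∑ p : ZMod Q, ∑ q : ZMod Q,
      mgap P.E r (abar X N r q p) (abar X N r (q + (s : ZMod Q) * N) p) ≤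
      4 * (EW P X N r - EW P X (K * N) r) := by
  have hs' : 2 * s.natAbs ≤ K := by
    have : ((s.natAbs : ℕ) : ℤ) = |s| := Int.natCast_natAbs s
    omega
  unfold EW
  rw [← Finset.sum_sub_distrib, Finset.mul_sum]
  refine Finset.sum_le_sum fun p _ => ?_
  refine le_trans (le_of_eq ?_) (gap_shift_nat h X hN s.natAbs K hK hs' p)
  rcases Int.natAbs_eq s with h' | h'
  · rw [h']; simp
  · rw [← sum_shift (fun q => mgap P.E r (abar X N r q p) (abar X N r (q + (s : ZMod Q) * N) p))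
      ((s.natAbs : ZMod Q) * N)]
    refine Finset.sum_congr rfl fun q _ => ?_
    have e : q + (s.natAbs : ZMod Q) * N + (s : ZMod Q) * N = q := by
      have : (s : ZMod Q) = -((s.natAbs : ℕ) : ZMod Q) := by
        have h2 : (s : ZMod Q) = ((-(s.natAbs : ℤ) : ℤ) : ZMod Q) := congrArg _ h'
        rw [h2, Int.cast_neg, Int.cast_natCast]
      rw [this]; ring
    rw [e, mgap_comm]

/-- (SL) for `2N`-averages with shifts in `N ℤ` -/
theorem gap_shift_two {P : TPot} (h : GoodPot P.E) (X : ZMod Q → ZMod Q → ℝ) {N r : ℕ}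
    (hN : 0 < N) (s : ℤ) (K : ℕ) (hs : 2 * (|s| + 1) ≤ K) :
    ∑ p : ZMod Q, ∑ q : ZMod Q,
      mgap P.E r (abar X (N + N) r q p) (abar X (N + N) r (q + (s : ZMod Q) * N) p) ≤
      4 * (EW P X N r - EW P X (K * N) r) := by
  have hs' : 2 * (s.natAbs + 1) ≤ K := by
    have : ((s.natAbs : ℕ) : ℤ) = |s| := Int.natCast_natAbs s
    omega
  unfold EW
  rw [← Finset.sum_sub_distrib, Finset.mul_sum]
  refine Finset.sum_le_sum fun p _ => ?_
  refine le_trans (le_of_eq ?_) (gap_shift_two_nat h X hN s.natAbs K hs' p)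
  rcases Int.natAbs_eq s with h' | h'
  · rw [h']; simp
  · rw [← sum_shift (fun q => mgap P.E r (abar X (N + N) r q p)
      (abar X (N + N) r (q + (s : ZMod Q) * N) p)) ((s.natAbs : ZMod Q) * N)]
    refine Finset.sum_congr rfl fun q _ => ?_
    have e : q + (s.natAbs : ZMod Q) * N + (s : ZMod Q) * N = q := by
      have : (s : ZMod Q) = -((s.natAbs : ℕ) : ZMod Q) := by
        have h2 : (s : ZMod Q) = ((-(s.natAbs : ℤ) : ℤ) : ZMod Q) := congrArg _ h'
        rw [h2, Int.cast_neg, Int.cast_natCast]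
      rw [this]; ring
    rw [e, mgap_comm]

/-- general mixed difference estimate for `W` -/
theorem W_mixed_gen {P : TPot} {c : ℝ} (h : Good P c) (X Z : ZMod Q → ZMod Q → ℝ) (a r : ℕ)
    (n u v : ZMod Q) (ex ez : ℝ)
    (hX : ∑ p : ZMod Q, ∑ q : ZMod Q, mgap P.E r (abar X a r q p) (abar X a r (q + u) p) ≤ 4 * ex)
    (hZ : ∑ p : ZMod Q, ∑ q : ZMod Q, mgap P.E r (abar Z a r q p) (abar Z a r (q + v) p) ≤
      4 * ez) :
    |W P X Z a r n + W P X Z a r (n + (u + v)) - W P X Z a r (n + u) - W P X Z a r (n + v)| ≤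
      4 * c * (ex + ez) := by
  have e00 : W P X Z a r n = ∑ p : ZMod Q, ∑ q : ZMod Q,
      P.F r (abar X a r q p + abar Z a r (n - p - q) p) := rfl
  have e11 : W P X Z a r (n + (u + v)) = ∑ p : ZMod Q, ∑ q : ZMod Q,
      P.F r (abar X a r (q + u) p + abar Z a r (n - p - q + v) p) := by
    unfold W
    refine Finset.sum_congr rfl fun p _ => ?_
    rw [← sum_shift _ u]
    refine Finset.sum_congr rfl fun q _ => ?_
    have : n + (u + v) - p - (q + u) = n - p - q + v := by ring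
    rw [this]
  have e10 : W P X Z a r (n + u) = ∑ p : ZMod Q, ∑ q : ZMod Q,
      P.F r (abar X a r (q + u) p + abar Z a r (n - p - q) p) := by
    unfold W
    refine Finset.sum_congr rfl fun p _ => ?_
    rw [← sum_shift _ u]
    refine Finset.sum_congr rfl fun q _ => ?_
    have : n + u - p - (q + u) = n - p - q := by ring
    rw [this]
  have e01 : W P X Z a r (n + v) = ∑ p : ZMod Q, ∑ q : ZMod Q,
      P.F r (abar X a r q p + abar Z a r (n - p - q + v) p) := by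
    unfold W
    refine Finset.sum_congr rfl fun p _ => Finset.sum_congr rfl fun q _ => ?_
    have : n + v - p - q = n - p - q + v := by ring
    rw [this]
  have hZ' : ∑ p : ZMod Q, ∑ q : ZMod Q,
      mgap P.E r (abar Z a r (n - p - q) p) (abar Z a r (n - p - q + v) p) ≤ 4 * ez := by
    refine le_trans (le_of_eq ?_) hZ
    refine Finset.sum_congr rfl fun p _ => ?_
    exact Equiv.sum_comp (Equiv.subLeft (n - p))
      (fun q => mgap P.E r (abar Z a r q p) (abar Z a r (q + v) p))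
  have hup : ∀ p q : ZMod Q,
      |P.F r (abar X a r q p + abar Z a r (n - p - q) p) +
        P.F r (abar X a r (q + u) p + abar Z a r (n - p - q + v) p) -
        P.F r (abar X a r (q + u) p + abar Z a r (n - p - q) p) -
        P.F r (abar X a r q p + abar Z a r (n - p - q + v) p)| ≤
      c * (mgap P.E r (abar X a r q p) (abar X a r (q + u) p) +
        mgap P.E r (abar Z a r (n - p - q) p) (abar Z a r (n - p - q + v) p)) := by
    intro p q
    have h1 := h.mixed r _ _ _ _ (abar_posSemidef X a r q p) (abar_posSemidef X a r (q + u) p)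
      (abar_posSemidef Z a r (n - p - q) p) (abar_posSemidef Z a r (n - p - q + v) p)
    rw [abs_le] at h1 ⊢
    constructor <;> linarith [h1.1, h1.2]
  rw [e00, e11, e10, e01]
  simp only [← Finset.sum_add_distrib, ← Finset.sum_sub_distrib]
  calc _ ≤ ∑ p : ZMod Q, ∑ q : ZMod Q,
      |P.F r (abar X a r q p + abar Z a r (n - p - q) p) +
        P.F r (abar X a r (q + u) p + abar Z a r (n - p - q + v) p) -
        P.F r (abar X a r (q + u) p + abar Z a r (n - p - q) p) -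
        P.F r (abar X a r q p + abar Z a r (n - p - q + v) p)| :=
        (Finset.abs_sum_le_sum_abs _ _).trans
          (Finset.sum_le_sum fun p _ => Finset.abs_sum_le_sum_abs _ _)
    _ ≤ ∑ p : ZMod Q, ∑ q : ZMod Q,
      c * (mgap P.E r (abar X a r q p) (abar X a r (q + u) p) +
        mgap P.E r (abar Z a r (n - p - q) p) (abar Z a r (n - p - q + v) p)) :=
        Finset.sum_le_sum fun p _ => Finset.sum_le_sum fun q _ => hup p q
    _ = c * (∑ p : ZMod Q, ∑ q : ZMod Q, mgap P.E r (abar X a r q p) (abar X a r (q + u) p) +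
        ∑ p : ZMod Q, ∑ q : ZMod Q,
          mgap P.E r (abar Z a r (n - p - q) p) (abar Z a r (n - p - q + v) p)) := by
        simp only [← Finset.mul_sum, Finset.sum_add_distrib]
    _ ≤ c * (4 * ex + 4 * ez) := mul_le_mul_of_nonneg_left (add_le_add hX hZ') h.c0
    _ = 4 * c * (ex + ez) := by ring

/-- (C4) for `N`-averages -/
theorem W_mixed {P : TPot} {c : ℝ} (h : Good P c) (X Z : ZMod Q → ZMod Q → ℝ) {N r : ℕ}
    (hN : 0 < N) (n : ZMod Q)
    (s t : ℤ) (K : ℕ) (hK : 0 < K) (hs : 2 * |s| ≤ K) (ht : 2 * |t| ≤ K) :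
    |W P X Z N r n + W P X Z N r (n + (s + t : ℤ) * N) - W P X Z N r (n + (s : ZMod Q) * N) -
        W P X Z N r (n + (t : ZMod Q) * N)| ≤
      4 * c * (EW P X N r - EW P X (K * N) r + (EW P Z N r - EW P Z (K * N) r)) := by
  have h := W_mixed_gen h X Z N r n ((s : ZMod Q) * N) ((t : ZMod Q) * N) _ _
    (gap_shift h.E X hN s K hK hs) (gap_shift h.E Z hN t K hK ht)
  have e : ((s + t : ℤ) : ZMod Q) * N = (s : ZMod Q) * N + (t : ZMod Q) * N := by
    push_cast; ring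
  rw [e]
  exact h

/-- (C4) for `2N`-averages -/
theorem W_mixed_two {P : TPot} {c : ℝ} (h : Good P c) (X Z : ZMod Q → ZMod Q → ℝ) {N r : ℕ}
    (hN : 0 < N) (n : ZMod Q)
    (s t : ℤ) (K : ℕ) (hs : 2 * (|s| + 1) ≤ K) (ht : 2 * (|t| + 1) ≤ K) :
    |W P X Z (N + N) r n + W P X Z (N + N) r (n + (s + t : ℤ) * N) -
        W P X Z (N + N) r (n + (s : ZMod Q) * N) - W P X Z (N + N) r (n + (t : ZMod Q) * N)| ≤
      4 * c * (EW P X N r - EW P X (K * N) r + (EW P Z N r - EW P Z (K * N) r)) := by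
  have h := W_mixed_gen h X Z (N + N) r n ((s : ZMod Q) * N) ((t : ZMod Q) * N) _ _
    (gap_shift_two h.E X hN s K hs) (gap_shift_two h.E Z hN t K ht)
  have e : ((s + t : ℤ) : ZMod Q) * N = (s : ZMod Q) * N + (t : ZMod Q) * N := by
    push_cast; ring
  rw [e]
  exact h

/-- pointwise (unaveraged) form of the one scale estimate -/
theorem gap_pot_pt {P : TPot} {c : ℝ} (h : Good P c) (X Z : ZMod Q → ZMod Q → ℝ) (m κ : ℕ)
    (l : ℤ) (hκ : 2 * |l| + 20 ≤ 2 ^ κ) (i : ZMod Q) :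
    GW P X Z (2 ^ m) ((l : ZMod Q) * ((2 ^ m : ℕ) : ZMod Q) + i) ≤
      4 * W P X Z (2 ^ m) (2 ^ m) (((-2 : ℤ) : ZMod Q) * ((2 ^ m : ℕ) : ZMod Q) + i) -
      2 * (W P X Z (2 ^ (m + 1)) (2 ^ (m + 1))
            (((-4 : ℤ) : ZMod Q) * ((2 ^ m : ℕ) : ZMod Q) + i) +
          W P X Z (2 ^ (m + 1)) (2 ^ (m + 1))
            (((-3 : ℤ) : ZMod Q) * ((2 ^ m : ℕ) : ZMod Q) + i)) +
      16 * c * (EE P X Z (2 ^ m) - EE P X Z (2 ^ (m + κ))) := by
  have hc0 := h.c0
  set N : ℕ := 2 ^ m with hNdef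
  have hN : 0 < N := by positivity
  have hN2 : (2 : ℕ) ^ (m + 1) = N + N := by rw [hNdef]; ring
  have hNK : (2 : ℕ) ^ (m + κ) = 2 ^ κ * N := by rw [hNdef]; ring
  rw [hN2, hNK]
  set K : ℕ := 2 ^ κ with hKdef
  have hK : 0 < K := by positivity
  have hκ' : 2 * |l| + 20 ≤ (K : ℤ) := by rw [hKdef]; exact_mod_cast hκ
  have hl1 := le_abs_self l
  have hl2 := neg_abs_le l
  have h1 := GW_le h.F X Z hN ((l : ZMod Q) * (N : ZMod Q) + i)
  have h2 := GW_le h.F X Z hN (((-7 - l : ℤ) : ZMod Q) * (N : ZMod Q) + i)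
  have h2' := GW_nonneg h.F X Z N (((-7 - l : ℤ) : ZMod Q) * (N : ZMod Q) + i)
  set DX := EW P X N N - EW P X (K * N) (K * N) with hDX
  set DZ := EW P Z N N - EW P Z (K * N) (K * N) with hDZ
  have hKN : 0 < K * N := by positivity
  have hEK : ∀ Y : ZMod Q → ZMod Q → ℝ, EW P Y (K * N) (K * N) ≤ EW P Y (K * N) N :=
    fun Y => EW_pow_r h.E Y hN κ
  have hκ1 : 1 ≤ κ := by
    rcases Nat.eq_zero_or_pos κ with h | h
    · exfalso
      have h3 : K = 1 := by rw [hKdef, h]; norm_num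
      rw [h3] at hκ'
      push_cast at hκ'
      have := abs_nonneg l
      omega
    · exact h
  have hEK2 : ∀ Y : ZMod Q → ZMod Q → ℝ, EW P Y (K * N) (K * N) ≤ EW P Y (K * N) (N + N) := by
    intro Y
    have h3 := EW_pow_r h.E Y (a := K * N) (r := N + N) (by omega) (κ - 1)
    have e : 2 ^ (κ - 1) * (N + N) = K * N := by
      rw [hKdef, ← two_mul, ← mul_assoc, ← pow_succ, Nat.sub_add_cancel hκ1]
    rwa [e] at h3
  have hE2 : ∀ Y : ZMod Q → ZMod Q → ℝ, EW P Y N (N + N) ≤ EW P Y N N :=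
    fun Y => EW_double_r h.E Y hN
  -- N-scale comparison
  have hA : ∀ j : ℤ, |j| ≤ |l| + 2 →
      W P X Z N N ((j : ZMod Q) * N + i) + W P X Z N N (((-4 - j : ℤ) : ZMod Q) * N + i) ≤
        2 * W P X Z N N (((-2 : ℤ) : ZMod Q) * N + i) + 4 * c * (DX + DZ) := by
    intro j hj
    have hj1 := le_abs_self j
    have hj2 := neg_abs_le j
    have h3 := W_mixed h X Z (r := N) hN (((-2 : ℤ) : ZMod Q) * N + i) (j + 2) (-2 - j) K hK
      (by rcases abs_cases (j + 2) with h | h <;> omega)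
      (by rcases abs_cases (-2 - j) with h | h <;> omega)
    have e1 : ((-2 : ℤ) : ZMod Q) * N + i + ((j + 2 + (-2 - j) : ℤ) : ZMod Q) * N =
        ((-2 : ℤ) : ZMod Q) * N + i := by
      push_cast; ring
    have e2 : ((-2 : ℤ) : ZMod Q) * N + i + ((j + 2 : ℤ) : ZMod Q) * N =
        (j : ZMod Q) * N + i := by
      push_cast; ring
    have e3 : ((-2 : ℤ) : ZMod Q) * N + i + ((-2 - j : ℤ) : ZMod Q) * N =
        ((-4 - j : ℤ) : ZMod Q) * N + i := by
      push_cast; ring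
    rw [e1, e2, e3] at h3
    have h4 := (abs_le.1 h3).1
    have h5 := hEK X
    have h6 := hEK Z
    have h7 : 4 * c * (EW P X N N - EW P X (K * N) N + (EW P Z N N - EW P Z (K * N) N)) ≤
        4 * c * (DX + DZ) := mul_le_mul_of_nonneg_left (by linarith) (by linarith)
    linarith
  -- 2N-scale comparison
  have hB : W P X Z (N + N) (N + N) (((-4 : ℤ) : ZMod Q) * N + i) +
        W P X Z (N + N) (N + N) (((-3 : ℤ) : ZMod Q) * N + i) - 4 * c * (DX + DZ) ≤
      W P X Z (N + N) (N + N) ((l : ZMod Q) * N + i) +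
        W P X Z (N + N) (N + N) (((-7 - l : ℤ) : ZMod Q) * N + i) := by
    have h3 := W_mixed_two h X Z hN (r := N + N) (((-4 : ℤ) : ZMod Q) * N + i)
      (l + 4) (-3 - l) K
      (by rcases abs_cases (l + 4) with h | h <;> omega)
      (by rcases abs_cases (-3 - l) with h | h <;> omega)
    have e1 : ((-4 : ℤ) : ZMod Q) * N + i + ((l + 4 + (-3 - l) : ℤ) : ZMod Q) * N =
        ((-3 : ℤ) : ZMod Q) * N + i := by
      push_cast; ring
    have e2 : ((-4 : ℤ) : ZMod Q) * N + i + ((l + 4 : ℤ) : ZMod Q) * N =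
        (l : ZMod Q) * N + i := by
      push_cast; ring
    have e3 : ((-4 : ℤ) : ZMod Q) * N + i + ((-3 - l : ℤ) : ZMod Q) * N =
        ((-7 - l : ℤ) : ZMod Q) * N + i := by
      push_cast; ring
    rw [e1, e2, e3] at h3
    have h4 := (abs_le.1 h3).2
    have h5 := hEK2 X
    have h6 := hEK2 Z
    have h7 := hE2 X
    have h8 := hE2 Z
    have h9 : 4 * c * (EW P X N (N + N) - EW P X (K * N) (N + N) +
        (EW P Z N (N + N) - EW P Z (K * N) (N + N))) ≤ 4 * c * (DX + DZ) :=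
      mul_le_mul_of_nonneg_left (by linarith) (by linarith)
    linarith
  have hA1 := hA (l + 1) (by rcases abs_cases (l + 1) with h | h <;> omega)
  have hA2 := hA (l + 2) (by rcases abs_cases (l + 2) with h | h <;> omega)
  have f1 : ((l + 1 : ℤ) : ZMod Q) * N + i = (l : ZMod Q) * N + i + N := by push_cast; ring
  have f2 : ((-4 - (l + 1) : ℤ) : ZMod Q) * N + i =
      ((-7 - l : ℤ) : ZMod Q) * N + i + 2 * N := by push_cast; ring
  have f3 : ((l + 2 : ℤ) : ZMod Q) * N + i = (l : ZMod Q) * N + i + 2 * N := by push_cast; ring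
  have f4 : ((-4 - (l + 2) : ℤ) : ZMod Q) * N + i =
      ((-7 - l : ℤ) : ZMod Q) * N + i + N := by push_cast; ring
  rw [f1, f2] at hA1
  rw [f3, f4] at hA2
  have hEE : EE P X Z N - EE P X Z (K * N) = DX + DZ := by
    unfold EE; rw [hDX, hDZ]; ring
  rw [hEE]
  linarith

theorem Vb_double (P : TPot) (X Z : ZMod Q → ZMod Q → ℝ) {N : ℕ} (hN : 0 < N) :
    (1 / (N : ℝ)) * ∑ i ∈ range N,
      (W P X Z (N + N) (N + N) (((-4 : ℤ) : ZMod Q) * (N : ZMod Q) + (i : ZMod Q)) +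
        W P X Z (N + N) (N + N) (((-3 : ℤ) : ZMod Q) * (N : ZMod Q) + (i : ZMod Q))) =
      2 * Vb P X Z (N + N) := by
  have hN' : (N : ℝ) ≠ 0 := by positivity
  unfold Vb bl
  rw [Finset.sum_range_add, Finset.sum_add_distrib]
  have h1 : ∀ i ∈ range N,
      W P X Z (N + N) (N + N) (((-2 : ℤ) : ZMod Q) * ((N + N : ℕ) : ZMod Q) + (i : ZMod Q)) =
      W P X Z (N + N) (N + N) (((-4 : ℤ) : ZMod Q) * (N : ZMod Q) + (i : ZMod Q)) := by
    intro i _
    congr 1
    push_cast; ring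
  have h2 : ∀ i ∈ range N,
      W P X Z (N + N) (N + N) (((-2 : ℤ) : ZMod Q) * ((N + N : ℕ) : ZMod Q) +
        ((N + i : ℕ) : ZMod Q)) =
      W P X Z (N + N) (N + N) (((-3 : ℤ) : ZMod Q) * (N : ZMod Q) + (i : ZMod Q)) := by
    intro i _
    congr 1
    push_cast; ring
  rw [Finset.sum_congr rfl h1, Finset.sum_congr rfl h2]
  have h3 : (1 / ((N + N : ℕ) : ℝ)) = (1 / 2) * (1 / (N : ℝ)) := by
    push_cast
    field_simp
    norm_num
  rw [h3]
  ring

/-- (PL1), constant 16 -/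
theorem gap_pot {P : TPot} {c : ℝ} (h : Good P c) (X Z : ZMod Q → ZMod Q → ℝ) (m κ : ℕ)
    (l : ℤ) (hκ : 2 * |l| + 20 ≤ 2 ^ κ) :
    bl (GW P X Z (2 ^ m)) (2 ^ m) l ≤
      4 * (Vb P X Z (2 ^ m) - Vb P X Z (2 ^ (m + 1))) +
        16 * c * (EE P X Z (2 ^ m) - EE P X Z (2 ^ (m + κ))) := by
  have hN : 0 < 2 ^ m := by positivity
  have hN' : ((2 ^ m : ℕ) : ℝ) ≠ 0 := by positivity
  have hV := Vb_double P X Z hN
  have e2 : (2 : ℕ) ^ m + 2 ^ m = 2 ^ (m + 1) := by ring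
  rw [e2] at hV
  set D := EE P X Z (2 ^ m) - EE P X Z (2 ^ (m + κ)) with hD
  have h1 : bl (GW P X Z (2 ^ m)) (2 ^ m) l ≤ (1 / ((2 ^ m : ℕ) : ℝ)) *
      ∑ i ∈ range (2 ^ m), (4 * W P X Z (2 ^ m) (2 ^ m)
          (((-2 : ℤ) : ZMod Q) * ((2 ^ m : ℕ) : ZMod Q) + (i : ZMod Q)) -
        2 * (W P X Z (2 ^ (m + 1)) (2 ^ (m + 1))
            (((-4 : ℤ) : ZMod Q) * ((2 ^ m : ℕ) : ZMod Q) + (i : ZMod Q)) +
          W P X Z (2 ^ (m + 1)) (2 ^ (m + 1))
            (((-3 : ℤ) : ZMod Q) * ((2 ^ m : ℕ) : ZMod Q) + (i : ZMod Q))) +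
        16 * c * D) := by
    unfold bl
    refine mul_le_mul_of_nonneg_left (Finset.sum_le_sum fun i _ => ?_) (by positivity)
    exact gap_pot_pt h X Z m κ l hκ (i : ZMod Q)
  refine h1.trans (le_of_eq ?_)
  rw [Finset.sum_add_distrib, Finset.sum_sub_distrib, ← Finset.mul_sum, ← Finset.mul_sum,
    Finset.sum_const, Finset.card_range, nsmul_eq_mul, mul_add, mul_sub]
  have h2 : (1 / ((2 ^ m : ℕ) : ℝ)) * (2 * ∑ i ∈ range (2 ^ m),
      (W P X Z (2 ^ (m + 1)) (2 ^ (m + 1))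
            (((-4 : ℤ) : ZMod Q) * ((2 ^ m : ℕ) : ZMod Q) + (i : ZMod Q)) +
          W P X Z (2 ^ (m + 1)) (2 ^ (m + 1))
            (((-3 : ℤ) : ZMod Q) * ((2 ^ m : ℕ) : ZMod Q) + (i : ZMod Q)))) =
      2 * (2 * Vb P X Z (2 ^ (m + 1))) := by
    rw [← hV]; ring
  have h3 : (1 / ((2 ^ m : ℕ) : ℝ)) * (((2 ^ m : ℕ) : ℝ) * (16 * c * D)) = 16 * c * D := by
    field_simp
  have h4 : (1 / ((2 ^ m : ℕ) : ℝ)) * (4 * ∑ i ∈ range (2 ^ m), W P X Z (2 ^ m) (2 ^ m)
          (((-2 : ℤ) : ZMod Q) * ((2 ^ m : ℕ) : ZMod Q) + (i : ZMod Q))) =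
      4 * Vb P X Z (2 ^ m) := by
    unfold Vb bl; ring
  rw [h2, h3, h4]
  ring


end Crest.Agent.R079.Pot
end

-- ▼ part R079/PotMask_491
section

/-! R079, LAYER 2, (PL2) summation over scales with scale dependent functions, (PL3) the changes
are supported on the boxes which see them.  helper491. -/

set_option autoImplicit false
set_option linter.unusedVariables false
set_option linter.unusedSectionVars false

namespace Crest.Agent.R079.Pot

open Matrix Finset Crest.Agent.R072 Crest.Agent.R072.Lattice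
open scoped MatrixOrder

variable {Q : ℕ} [NeZero Q]

/-- telescoping along the diagonal -/
theorem tele_diag (v : ℕ → ℕ → ℝ) (M : ℕ) :
    ∑ m ∈ range M, (v (m + 1) m - v (m + 1) (m + 1)) =
      ∑ m ∈ range M, (v (m + 1) m - v m m) + v 0 0 - v M M := by
  induction M with
  | zero => simp
  | succ M ih =>
    rw [Finset.sum_range_succ, ih, Finset.sum_range_succ]
    ring

theorem tele_diag_kappa (e : ℕ → ℕ → ℝ) (κ M : ℕ) :
    ∑ m ∈ range M, (e (m + 1) m - e (m + 1) (m + κ)) =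
      ∑ j ∈ range κ, (∑ m ∈ range M, (e (m + 1) (m + j) - e m (m + j)) + e 0 j - e M (M + j)) := by
  have h1 : ∀ m : ℕ, e (m + 1) m - e (m + 1) (m + κ) =
      ∑ j ∈ range κ, (e (m + 1) (m + j) - e (m + 1) (m + (j + 1))) := by
    intro m
    rw [Finset.sum_range_sub' (fun j => e (m + 1) (m + j)) κ, add_zero]
  simp only [h1]
  rw [Finset.sum_comm]
  refine Finset.sum_congr rfl fun j _ => ?_
  have h2 := tele_diag (fun a b => e a (b + j)) M
  simp only [zero_add] at h2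
  rw [← h2]
  refine Finset.sum_congr rfl fun m _ => ?_
  have e1 : m + (j + 1) = m + 1 + j := by ring
  rw [e1]

theorem EE_pow_le {P : TPot} (hE : GoodPot P.E) (X Z : ZMod Q → ZMod Q → ℝ) (j : ℕ) :
    EE P X Z (2 ^ j) ≤ EE P X Z 1 := by
  have h1 := EW_pow hE X (N := 1) one_pos j
  have h2 := EW_pow hE Z (N := 1) one_pos j
  rw [mul_one] at h1 h2
  unfold EE
  linarith

/-- (PL2), constant 16 -/
theorem mask_sum {P : TPot} {c : ℝ} (h : Good P c) (X Z : ℕ → ZMod Q → ZMod Q → ℝ) (κ M : ℕ)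
    (l : ℤ) (hκ : 2 * |l| + 20 ≤ 2 ^ κ) :
    ∑ m ∈ range M, bl (GW P (X (m + 1)) (Z (m + 1)) (2 ^ m)) (2 ^ m) l ≤
      4 * ∑ m ∈ range M, (Vb P (X (m + 1)) (Z (m + 1)) (2 ^ m) - Vb P (X m) (Z m) (2 ^ m)) +
      16 * c * ∑ j ∈ range κ, ∑ m ∈ range M,
        (EE P (X (m + 1)) (Z (m + 1)) (2 ^ (m + j)) - EE P (X m) (Z m) (2 ^ (m + j))) +
      4 * Vb P (X 0) (Z 0) 1 + 16 * c * κ * EE P (X 0) (Z 0) 1 := by
  have hc := h.c0
  have h1 := Finset.sum_le_sum fun m (_ : m ∈ range M) =>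
    gap_pot h (X (m + 1)) (Z (m + 1)) m κ l hκ
  refine h1.trans ?_
  rw [Finset.sum_add_distrib, ← Finset.mul_sum, ← Finset.mul_sum]
  have hv := tele_diag (fun a b => Vb P (X a) (Z a) (2 ^ b)) M
  have he := tele_diag_kappa (fun a b => EE P (X a) (Z a) (2 ^ b)) κ M
  rw [Finset.sum_sub_distrib (s := range κ), Finset.sum_add_distrib (s := range κ)] at he
  rw [hv, he]
  have hV0 := Vb_nonneg h.F (X M) (Z M) (2 ^ M)
  have hE0 : 0 ≤ ∑ j ∈ range κ, EE P (X M) (Z M) (2 ^ (M + j)) :=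
    Finset.sum_nonneg fun j _ => EE_nonneg h.E _ _ _
  have hE1 : ∑ j ∈ range κ, EE P (X 0) (Z 0) (2 ^ j) ≤ κ * EE P (X 0) (Z 0) 1 := by
    refine (Finset.sum_le_sum fun j _ => EE_pow_le h.E (X 0) (Z 0) j).trans (le_of_eq ?_)
    rw [Finset.sum_const, Finset.card_range, nsmul_eq_mul]
  have h2 : 16 * c * (∑ j ∈ range κ, EE P (X 0) (Z 0) (2 ^ j)) ≤
      16 * c * (κ * EE P (X 0) (Z 0) 1) := mul_le_mul_of_nonneg_left hE1 (by linarith)
  have h3 : 0 ≤ 16 * c * ∑ j ∈ range κ, EE P (X M) (Z M) (2 ^ (M + j)) :=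
    mul_nonneg (by linarith) hE0
  rw [pow_zero]
  have h4 : 16 * c * (∑ j ∈ range κ, ∑ m ∈ range M,
        (EE P (X (m + 1)) (Z (m + 1)) (2 ^ (m + j)) - EE P (X m) (Z m) (2 ^ (m + j))) +
      ∑ j ∈ range κ, EE P (X 0) (Z 0) (2 ^ j) -
        ∑ j ∈ range κ, EE P (X M) (Z M) (2 ^ (M + j))) =
      16 * c * (∑ j ∈ range κ, ∑ m ∈ range M,
        (EE P (X (m + 1)) (Z (m + 1)) (2 ^ (m + j)) - EE P (X m) (Z m) (2 ^ (m + j)))) +
      16 * c * (∑ j ∈ range κ, EE P (X 0) (Z 0) (2 ^ j)) -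
        16 * c * ∑ j ∈ range κ, EE P (X M) (Z M) (2 ^ (M + j)) := by ring
  rw [h4]
  have h5 : 16 * c * κ * EE P (X 0) (Z 0) 1 = 16 * c * (κ * EE P (X 0) (Z 0) 1) := by ring
  rw [h5]
  linarith


/-- a box which sees no difference has the same averaged matrix -/
theorem abar_congr {X X' : ZMod Q → ZMod Q → ℝ} {a : ℕ} {q p : ZMod Q}
    (h : ¬ Sees X X' a q p) : abar X a a q p = abar X' a a q p := by
  have h1 : ∀ i j : ℕ, i < a → j < a → X (q + (i : ZMod Q)) (p + (j : ZMod Q)) =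
      X' (q + (i : ZMod Q)) (p + (j : ZMod Q)) := by
    intro i j hi hj
    by_contra hne
    exact h ⟨i, j, hi, hj, hne⟩
  ext j j'
  unfold abar
  congr 1
  refine Finset.sum_congr rfl fun i hi => ?_
  rw [h1 i j (Finset.mem_range.1 hi) j.2, h1 i j' (Finset.mem_range.1 hi) j'.2]

/-- (PL3) -/
theorem touchW {P : TPot} (hF : GoodPot P.F) (X Z X' Z' : ZMod Q → ZMod Q → ℝ) (N : ℕ)
    (n : ZMod Q) (D : Finset (ZMod Q × ZMod Q))
    (hD : ∀ p q, (Sees X X' N q p ∨ Sees Z Z' N (n - p - q) p) → (q, p) ∈ D) :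
    W P X Z N N n - W P X' Z' N N n ≤ ∑ z ∈ D,
      P.F N (abar X N N z.1 z.2 + abar Z N N (n - z.2 - z.1) z.2) := by
  unfold W
  rw [← Finset.sum_sub_distrib]
  simp only [← Finset.sum_sub_distrib]
  rw [Finset.sum_comm, ← Finset.sum_product']
  rw [Finset.univ_product_univ]
  have hsub : D ⊆ (Finset.univ : Finset (ZMod Q × ZMod Q)) := Finset.subset_univ _
  rw [← Finset.sum_subset hsub ?_]
  · refine Finset.sum_le_sum fun z _ => ?_
    have := hF.nonneg N (abar X' N N z.1 z.2 + abar Z' N N (n - z.2 - z.1) z.2)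
      (abar_add_posSemidef _ _ _ _ _ _ _ _)
    linarith
  · intro z _ hz
    have h1 : ¬ (Sees X X' N z.1 z.2 ∨ Sees Z Z' N (n - z.2 - z.1) z.2) := fun h => hz (hD _ _ h)
    rw [not_or] at h1
    rw [abar_congr h1.1, abar_congr h1.2, sub_self]

theorem touchV : TouchV := by
  intro P c h Q _ X Z X' Z' N hN D hD
  unfold Vb bl
  rw [← mul_sub, ← Finset.sum_sub_distrib]
  refine mul_le_mul_of_nonneg_left (Finset.sum_le_sum fun i _ => ?_) (by positivity)
  exact touchW h.F X Z X' Z' N _ _ (hD _)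

theorem touchE : TouchE := by
  intro P c h Q _ X X' N D hD
  unfold EW
  rw [← Finset.sum_sub_distrib]
  simp only [← Finset.sum_sub_distrib]
  rw [Finset.sum_comm, ← Finset.sum_product']
  rw [Finset.univ_product_univ]
  have hsub : D ⊆ (Finset.univ : Finset (ZMod Q × ZMod Q)) := Finset.subset_univ _
  rw [← Finset.sum_subset hsub ?_]
  · refine Finset.sum_le_sum fun z _ => ?_
    have := h.E.nonneg N (abar X' N N z.1 z.2) (abar_posSemidef _ _ _ _ _)
    linarith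
  · intro z _ hz
    have h1 : ¬ Sees X X' N z.1 z.2 := fun h => hz (hD _ _ h)
    rw [abar_congr h1, sub_self]

end Crest.Agent.R079.Pot
end

-- ▼ part R079/Tri_378
section

/-! R079, TRI (helper378): the sum over the scales of the triangular box forms, with scale
dependent functions (masks): path identity `Lbox_path` + `mask_sum` (PL2) + `touchV/touchE` (PL3).

`tri_path`: arbitrary `PathSeq`, abstract budgets for the boxes which see a change.  -/

set_option autoImplicit false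
set_option linter.unusedSectionVars false
set_option linter.unusedVariables false

namespace Crest.Agent.R079.Pot

open Matrix Finset Filter Topology Crest.Agent.R072 Crest.Agent.R072.Lattice Crest.Agent.R079.LD
  Crest.Agent.R079.Path Crest.Agent.R072.Nd
open scoped MatrixOrder

variable {Q : ℕ} [NeZero Q]

/-- scaled function -/
def sc (c : ℝ) (F : ZMod Q → ZMod Q → ℝ) : ZMod Q → ZMod Q → ℝ := fun u v => c * F u v

/-- transposed function -/
def tr (F : ZMod Q → ZMod Q → ℝ) : ZMod Q → ZMod Q → ℝ := fun u v => F v u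

theorem sees_sc {c : ℝ} {X X' : ZMod Q → ZMod Q → ℝ} {a : ℕ} {q p : ZMod Q}
    (h : Sees (sc c X) (sc c X') a q p) : Sees X X' a q p := by
  obtain ⟨i, j, hi, hj, hne⟩ := h
  refine ⟨i, j, hi, hj, fun h => hne ?_⟩
  unfold sc
  rw [h]

theorem sees_tr {X X' : ZMod Q → ZMod Q → ℝ} {a : ℕ} {q p : ZMod Q}
    (h : Sees (tr X) (tr X') a q p) : Sees X X' a p q := by
  obtain ⟨i, j, hi, hj, hne⟩ := h
  exact ⟨j, i, hj, hi, hne⟩

theorem abar_sc {x : ℝ} (hx : 0 ≤ x) (X : ZMod Q → ZMod Q → ℝ) (a r : ℕ) (q p : ZMod Q) :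
    abar (sc √x X) a r q p = x • abar X a r q p := (smul_abar hx X a r q p).symm

theorem bl_mono {f g : ZMod Q → ℝ} (h : ∀ n, f n ≤ g n) (N : ℕ) (l : ℤ) : bl f N l ≤ bl g N l :=
  mul_le_mul_of_nonneg_left (Finset.sum_le_sum fun _ _ => h _) (by positivity)

theorem bl_add (f g : ZMod Q → ℝ) (N : ℕ) (l : ℤ) :
    bl (fun n => f n + g n) N l = bl f N l + bl g N l := by
  unfold bl
  rw [Finset.sum_add_distrib, mul_add]

theorem bl_sum {ι : Type*} (s : Finset ι) (f : ι → ZMod Q → ℝ) (N : ℕ) (l : ℤ) :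
    bl (fun n => ∑ j ∈ s, f j n) N l = ∑ j ∈ s, bl (f j) N l := by
  unfold bl
  rw [Finset.sum_comm, Finset.mul_sum]

theorem bl_const_mul (c : ℝ) (f : ZMod Q → ℝ) (N : ℕ) (l : ℤ) :
    bl (fun n => c * f n) N l = c * bl f N l := by
  unfold bl
  rw [← Finset.mul_sum]
  ring

/-- reindexing `p0 ↦ p2 = n - p0 - p1` -/
theorem sum_third (n : ZMod Q) (g : ZMod Q → ZMod Q → ZMod Q → ℝ) :
    ∑ p0 : ZMod Q, ∑ p1 : ZMod Q, g p0 p1 (n - p0 - p1) =
      ∑ p2 : ZMod Q, ∑ p1 : ZMod Q, g (n - p2 - p1) p1 p2 := by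
  rw [Finset.sum_comm]
  rw [Finset.sum_comm (s := (Finset.univ : Finset (ZMod Q))) (t := (Finset.univ : Finset (ZMod Q)))
    (f := fun p2 p1 => g (n - p2 - p1) p1 p2)]
  refine Finset.sum_congr rfl fun p1 _ => ?_
  refine Fintype.sum_equiv ((Equiv.subLeft n).trans (Equiv.subRight p1)) _ _ fun p0 => ?_
  simp only [Equiv.trans_apply, Equiv.subLeft_apply, Equiv.subRight_apply]
  have : n - (n - p0 - p1) - p1 = p0 := by ring
  rw [this]

theorem sum_gams_eq (F0 F1 F2 : ZMod Q → ZMod Q → ℝ) (N : ℕ) (n : ZMod Q) {x y z : ℝ}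
    (hx : 0 ≤ x) (hy : 0 ≤ y) (hz : 0 ≤ z) :
    ∑ p0 : ZMod Q, ∑ p1 : ZMod Q, gams F0 F1 F2 N p0 p1 (n - p0 - p1) x y z =
      GW (potLD 1) (sc √x (tr F0)) (sc √z F2) N n +
      GW (potLD 1) (sc √x F0) (sc √y (tr F1)) N n +
      GW (potLD 1) (sc √y F1) (sc √z (tr F2)) N n := by
  have h1 : GW (potLD 1) (sc √x (tr F0)) (sc √z F2) N n = ∑ p0 : ZMod Q, ∑ p1 : ZMod Q,
      gam (potLD 1).F N (x • abar (fun u v => F0 v u) (N + N) (N + N) p1 p0 +
        z • abar F2 (N + N) (N + N) (n - p0 - p1) p0) := by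
    unfold GW
    refine Finset.sum_congr rfl fun p _ => Finset.sum_congr rfl fun q _ => ?_
    rw [abar_sc hx, abar_sc hz]
    rfl
  have h2 : GW (potLD 1) (sc √x F0) (sc √y (tr F1)) N n = ∑ p0 : ZMod Q, ∑ p1 : ZMod Q,
      gam (potLD 1).F N (y • abar (fun u v => F1 v u) (N + N) (N + N) (n - p0 - p1) p1 +
        x • abar F0 (N + N) (N + N) p0 p1) := by
    unfold GW
    rw [Finset.sum_comm]
    refine Finset.sum_congr rfl fun q _ => Finset.sum_congr rfl fun p _ => ?_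
    rw [abar_sc hx, abar_sc hy, add_comm, show n - p - q = n - q - p by ring]
    rfl
  have h3 : GW (potLD 1) (sc √y F1) (sc √z (tr F2)) N n = ∑ p0 : ZMod Q, ∑ p1 : ZMod Q,
      gam (potLD 1).F N (z • abar (fun u v => F2 v u) (N + N) (N + N) p0 (n - p0 - p1) +
        y • abar F1 (N + N) (N + N) p1 (n - p0 - p1)) := by
    rw [sum_third n (fun p0 p1 p2 => gam (potLD 1).F N
      (z • abar (fun u v => F2 v u) (N + N) (N + N) p0 p2 +
        y • abar F1 (N + N) (N + N) p1 p2))]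
    unfold GW
    refine Finset.sum_congr rfl fun p _ => Finset.sum_congr rfl fun q _ => ?_
    rw [abar_sc hy, abar_sc hz, add_comm]
    rfl
  rw [h1, h2, h3, ← Finset.sum_add_distrib, ← Finset.sum_add_distrib]
  refine Finset.sum_congr rfl fun p0 _ => ?_
  rw [← Finset.sum_add_distrib, ← Finset.sum_add_distrib]
  rfl

/-- joint potentials of a box of side `N` at parameters `x, y, z` -/
noncomputable def JV (F0 F1 F2 : ZMod Q → ZMod Q → ℝ) (N : ℕ) (p0 p1 p2 : ZMod Q)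
    (x y z : ℝ) : ℝ :=
  LD 1 (x • abar (tr F0) N N p1 p0 + z • abar F2 N N p2 p0) +
  LD 1 (x • abar F0 N N p0 p1 + y • abar (tr F1) N N p2 p1) +
  LD 1 (y • abar F1 N N p1 p2 + z • abar (tr F2) N N p0 p2)

/-- own potentials of a box of side `a` at parameter `x` -/
noncomputable def JE (F : ZMod Q → ZMod Q → ℝ) (a : ℕ) (q p : ZMod Q) (x : ℝ) : ℝ :=
  LD (1 / 2) (x • abar F a a q p) + LD (1 / 2) (x • abar (tr F) a a p q)

/-- the box `(p0,p1,p2)` of side `N` sees a change -/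
def Any3 (A A' B B' C C' : ZMod Q → ZMod Q → ℝ) (N : ℕ) (p0 p1 p2 : ZMod Q) : Prop :=
  Sees A A' N p0 p1 ∨ Sees B B' N p1 p2 ∨ Sees C C' N p2 p0

theorem abar_psd (X : ZMod Q → ZMod Q → ℝ) (a r : ℕ) (q p : ZMod Q) :
    (abar X a r q p).PosSemidef := abar_posSemidef _ _ _ _ _

open Classical in
/-- change of the reference potentials of the three vertices -/
theorem vb_change (A A' B B' C C' : ZMod Q → ZMod Q → ℝ) {N : ℕ} (hN : 0 < N) {x y z : ℝ}
    (hx : 0 ≤ x) (hy : 0 ≤ y) (hz : 0 ≤ z) :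
    (Vb (potLD 1) (sc √x (tr A)) (sc √z C) N - Vb (potLD 1) (sc √x (tr A')) (sc √z C') N) +
    (Vb (potLD 1) (sc √x A) (sc √y (tr B)) N - Vb (potLD 1) (sc √x A') (sc √y (tr B')) N) +
    (Vb (potLD 1) (sc √y B) (sc √z (tr C)) N - Vb (potLD 1) (sc √y B') (sc √z (tr C')) N) ≤
    bl (fun n => ∑ p0 : ZMod Q, ∑ p1 : ZMod Q,
      if Any3 A A' B B' C C' N p0 p1 (n - p0 - p1) then
        JV A B C N p0 p1 (n - p0 - p1) x y z else 0) N (-2) := by
  have h1 := touchV (potLD 1) 1 (instLD one_pos) Q (sc √x (tr A)) (sc √z C) (sc √x (tr A'))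
    (sc √z C') N hN
    (fun n => Finset.univ.filter fun w => Any3 A A' B B' C C' N w.2 w.1 (n - w.2 - w.1)) (by
      intro n p q h
      rw [Finset.mem_filter]
      refine ⟨Finset.mem_univ _, ?_⟩
      rcases h with h | h
      · exact Or.inl (sees_tr (sees_sc h))
      · exact Or.inr (Or.inr (sees_sc h)))
  have h2 := touchV (potLD 1) 1 (instLD one_pos) Q (sc √x A) (sc √y (tr B)) (sc √x A')
    (sc √y (tr B')) N hN
    (fun n => Finset.univ.filter fun w => Any3 A A' B B' C C' N w.1 w.2 (n - w.2 - w.1)) (by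
      intro n p q h
      rw [Finset.mem_filter]
      refine ⟨Finset.mem_univ _, ?_⟩
      rcases h with h | h
      · exact Or.inl (sees_sc h)
      · exact Or.inr (Or.inl (sees_tr (sees_sc h))))
  have h3 := touchV (potLD 1) 1 (instLD one_pos) Q (sc √y B) (sc √z (tr C)) (sc √y B')
    (sc √z (tr C')) N hN
    (fun n => Finset.univ.filter fun w => Any3 A A' B B' C C' N (n - w.2 - w.1) w.1 w.2) (by
      intro n p q h
      rw [Finset.mem_filter]
      refine ⟨Finset.mem_univ _, ?_⟩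
      rcases h with h | h
      · exact Or.inr (Or.inl (sees_sc h))
      · exact Or.inr (Or.inr (sees_tr (sees_sc h))))
  refine (add_le_add (add_le_add h1 h2) h3).trans (le_of_eq ?_)
  rw [← bl_add, ← bl_add]
  congr 1
  funext n
  have e1 : ∑ w ∈ (Finset.univ.filter fun w : ZMod Q × ZMod Q =>
        Any3 A A' B B' C C' N w.2 w.1 (n - w.2 - w.1)),
      (potLD 1).F N (abar (sc √x (tr A)) N N w.1 w.2 + abar (sc √z C) N N (n - w.2 - w.1) w.2) =
      ∑ p0 : ZMod Q, ∑ p1 : ZMod Q, if Any3 A A' B B' C C' N p0 p1 (n - p0 - p1) then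
        LD 1 (x • abar (tr A) N N p1 p0 + z • abar C N N (n - p0 - p1) p0) else 0 := by
    rw [Finset.sum_filter, Fintype.sum_prod_type, Finset.sum_comm]
    refine Finset.sum_congr rfl fun p0 _ => Finset.sum_congr rfl fun p1 _ => ?_
    simp only [abar_sc hx, abar_sc hz]
    rfl
  have e2 : ∑ w ∈ (Finset.univ.filter fun w : ZMod Q × ZMod Q =>
        Any3 A A' B B' C C' N w.1 w.2 (n - w.2 - w.1)),
      (potLD 1).F N (abar (sc √x A) N N w.1 w.2 + abar (sc √y (tr B)) N N (n - w.2 - w.1) w.2) =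
      ∑ p0 : ZMod Q, ∑ p1 : ZMod Q, if Any3 A A' B B' C C' N p0 p1 (n - p0 - p1) then
        LD 1 (x • abar A N N p0 p1 + y • abar (tr B) N N (n - p0 - p1) p1) else 0 := by
    rw [Finset.sum_filter, Fintype.sum_prod_type]
    refine Finset.sum_congr rfl fun p0 _ => Finset.sum_congr rfl fun p1 _ => ?_
    simp only [abar_sc hx, abar_sc hy]
    rw [show n - p1 - p0 = n - p0 - p1 by ring]
    rfl
  have e3 : ∑ w ∈ (Finset.univ.filter fun w : ZMod Q × ZMod Q =>
        Any3 A A' B B' C C' N (n - w.2 - w.1) w.1 w.2),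
      (potLD 1).F N (abar (sc √y B) N N w.1 w.2 + abar (sc √z (tr C)) N N (n - w.2 - w.1) w.2) =
      ∑ p0 : ZMod Q, ∑ p1 : ZMod Q, if Any3 A A' B B' C C' N p0 p1 (n - p0 - p1) then
        LD 1 (y • abar B N N p1 (n - p0 - p1) + z • abar (tr C) N N p0 (n - p0 - p1)) else 0 := by
    rw [sum_third n (fun p0 p1 p2 => if Any3 A A' B B' C C' N p0 p1 p2 then
        LD 1 (y • abar B N N p1 p2 + z • abar (tr C) N N p0 p2) else 0)]
    rw [Finset.sum_filter, Fintype.sum_prod_type, Finset.sum_comm]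
    refine Finset.sum_congr rfl fun p2 _ => Finset.sum_congr rfl fun p1 _ => ?_
    simp only [abar_sc hy, abar_sc hz]
    rfl
  rw [e1, e2, e3, ← Finset.sum_add_distrib, ← Finset.sum_add_distrib]
  refine Finset.sum_congr rfl fun p0 _ => ?_
  rw [← Finset.sum_add_distrib, ← Finset.sum_add_distrib]
  refine Finset.sum_congr rfl fun p1 _ => ?_
  by_cases h : Any3 A A' B B' C C' N p0 p1 (n - p0 - p1)
  · simp only [h, if_true]
    rfl
  · simp only [h, if_false, add_zero]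

open Classical in
/-- change of the own potentials of one function -/
theorem ew_change (A A' : ZMod Q → ZMod Q → ℝ) (a : ℕ) {x : ℝ} (hx : 0 ≤ x) :
    (EW (potLD 1) (sc √x (tr A)) a a - EW (potLD 1) (sc √x (tr A')) a a) +
    (EW (potLD 1) (sc √x A) a a - EW (potLD 1) (sc √x A') a a) ≤
    ∑ q : ZMod Q, ∑ p : ZMod Q, if Sees A A' a q p then JE A a q p x else 0 := by
  have h1 := touchE (potLD 1) 1 (instLD one_pos) Q (sc √x (tr A)) (sc √x (tr A')) a
    (Finset.univ.filter fun w => Sees A A' a w.2 w.1) (by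
      intro p q h
      rw [Finset.mem_filter]
      exact ⟨Finset.mem_univ _, sees_tr (sees_sc h)⟩)
  have h2 := touchE (potLD 1) 1 (instLD one_pos) Q (sc √x A) (sc √x A') a
    (Finset.univ.filter fun w => Sees A A' a w.1 w.2) (by
      intro p q h
      rw [Finset.mem_filter]
      exact ⟨Finset.mem_univ _, sees_sc h⟩)
  refine (add_le_add h1 h2).trans (le_of_eq ?_)
  rw [Finset.sum_filter, Finset.sum_filter, Fintype.sum_prod_type, Fintype.sum_prod_type,
    Finset.sum_comm, ← Finset.sum_add_distrib]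
  refine Finset.sum_congr rfl fun q _ => ?_
  rw [← Finset.sum_add_distrib]
  refine Finset.sum_congr rfl fun p _ => ?_
  by_cases h : Sees A A' a q p
  · simp only [h, if_true, abar_sc hx]
    unfold JE
    rw [add_comm]
    rfl
  · simp only [h, if_false, add_zero]

theorem LD_zero (t : ℝ) {n : Type*} [Fintype n] [DecidableEq n] :
    LD t (0 : Matrix n n ℝ) = 0 := by
  unfold LD LD1
  simp

theorem abar_zero (a r : ℕ) (q p : ZMod Q) :
    abar (fun _ _ => 0 : ZMod Q → ZMod Q → ℝ) a r q p = 0 := by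
  ext j j'
  simp [abar]

theorem Vb_zero (N : ℕ) :
    Vb (potLD 1) (fun _ _ => 0 : ZMod Q → ZMod Q → ℝ) (fun _ _ => 0) N = 0 := by
  unfold Vb bl W
  simp [abar_zero, potLD, LD_zero]

theorem EE_zero (N : ℕ) :
    EE (potLD 1) (fun _ _ => 0 : ZMod Q → ZMod Q → ℝ) (fun _ _ => 0) N = 0 := by
  unfold EE EW
  simp [abar_zero, potLD, LD_zero]

theorem sc_zero (c : ℝ) {X : ZMod Q → ZMod Q → ℝ} (h : X = fun _ _ => 0) :
    sc c X = fun _ _ => 0 := by
  unfold sc
  rw [h]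
  simp

theorem tr_zero {X : ZMod Q → ZMod Q → ℝ} (h : X = fun _ _ => 0) :
    tr X = fun _ _ => 0 := by
  unfold tr
  rw [h]

open Classical in
/-- the three vertices together, at fixed parameters -/
theorem mask_three (A B C : ℕ → ZMod Q → ZMod Q → ℝ) (hA : A 0 = fun _ _ => 0)
    (hB : B 0 = fun _ _ => 0) (hC : C 0 = fun _ _ => 0) (κ M : ℕ) (l : ℤ)
    (hκ : 2 * |l| + 20 ≤ 2 ^ κ) {x y z : ℝ} (hx : 0 ≤ x) (hy : 0 ≤ y) (hz : 0 ≤ z) :
    ∑ m ∈ range M, bl (fun n => ∑ p0 : ZMod Q, ∑ p1 : ZMod Q,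
      gams (A (m + 1)) (B (m + 1)) (C (m + 1)) (2 ^ m) p0 p1 (n - p0 - p1) x y z) (2 ^ m) l ≤
    4 * ∑ m ∈ range M, bl (fun n => ∑ p0 : ZMod Q, ∑ p1 : ZMod Q,
      if Any3 (A (m + 1)) (A m) (B (m + 1)) (B m) (C (m + 1)) (C m) (2 ^ m) p0 p1 (n - p0 - p1)
      then JV (A (m + 1)) (B (m + 1)) (C (m + 1)) (2 ^ m) p0 p1 (n - p0 - p1) x y z
      else 0) (2 ^ m) (-2) +
    16 * ∑ k ∈ range κ, ∑ m ∈ range M,
      ((∑ q : ZMod Q, ∑ p : ZMod Q, if Sees (A (m + 1)) (A m) (2 ^ (m + k)) q p then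
        JE (A (m + 1)) (2 ^ (m + k)) q p x else 0) +
      (∑ q : ZMod Q, ∑ p : ZMod Q, if Sees (B (m + 1)) (B m) (2 ^ (m + k)) q p then
        JE (B (m + 1)) (2 ^ (m + k)) q p y else 0) +
      (∑ q : ZMod Q, ∑ p : ZMod Q, if Sees (C (m + 1)) (C m) (2 ^ (m + k)) q p then
        JE (C (m + 1)) (2 ^ (m + k)) q p z else 0)) := by
  have hg := instLD (t := 1) one_pos
  have h1 := mask_sum hg (fun m => sc √x (tr (A m))) (fun m => sc √z (C m)) κ M l hκ
  have h2 := mask_sum hg (fun m => sc √x (A m)) (fun m => sc √y (tr (B m))) κ M l hκ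
  have h3 := mask_sum hg (fun m => sc √y (B m)) (fun m => sc √z (tr (C m))) κ M l hκ
  simp only [sc_zero _ (tr_zero hA), sc_zero _ hC, sc_zero _ hA, sc_zero _ (tr_zero hB),
    sc_zero _ hB, sc_zero _ (tr_zero hC), Vb_zero, EE_zero, mul_zero, add_zero, mul_one] at h1 h2 h3
  have hL : ∀ m : ℕ, bl (fun n => ∑ p0 : ZMod Q, ∑ p1 : ZMod Q,
      gams (A (m + 1)) (B (m + 1)) (C (m + 1)) (2 ^ m) p0 p1 (n - p0 - p1) x y z) (2 ^ m) l =
      bl (GW (potLD 1) (sc √x (tr (A (m + 1)))) (sc √z (C (m + 1))) (2 ^ m)) (2 ^ m) l +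
      bl (GW (potLD 1) (sc √x (A (m + 1))) (sc √y (tr (B (m + 1)))) (2 ^ m)) (2 ^ m) l +
      bl (GW (potLD 1) (sc √y (B (m + 1))) (sc √z (tr (C (m + 1)))) (2 ^ m)) (2 ^ m) l := by
    intro m
    rw [← bl_add, ← bl_add]
    congr 1
    funext n
    exact sum_gams_eq _ _ _ _ _ hx hy hz
  simp only [hL]
  rw [Finset.sum_add_distrib, Finset.sum_add_distrib]
  refine (add_le_add (add_le_add h1 h2) h3).trans ?_
  have hV := Finset.sum_le_sum fun m (_ : m ∈ range M) =>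
    vb_change (A (m + 1)) (A m) (B (m + 1)) (B m) (C (m + 1)) (C m) (N := 2 ^ m) (by positivity)
      hx hy hz
  have hE : ∑ k ∈ range κ, ∑ m ∈ range M,
      ((EE (potLD 1) (sc √x (tr (A (m + 1)))) (sc √z (C (m + 1))) (2 ^ (m + k)) -
        EE (potLD 1) (sc √x (tr (A m))) (sc √z (C m)) (2 ^ (m + k))) +
      (EE (potLD 1) (sc √x (A (m + 1))) (sc √y (tr (B (m + 1)))) (2 ^ (m + k)) -
        EE (potLD 1) (sc √x (A m)) (sc √y (tr (B m))) (2 ^ (m + k))) +
      (EE (potLD 1) (sc √y (B (m + 1))) (sc √z (tr (C (m + 1)))) (2 ^ (m + k)) -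
        EE (potLD 1) (sc √y (B m)) (sc √z (tr (C m))) (2 ^ (m + k)))) ≤
      ∑ k ∈ range κ, ∑ m ∈ range M,
      ((∑ q : ZMod Q, ∑ p : ZMod Q, if Sees (A (m + 1)) (A m) (2 ^ (m + k)) q p then
        JE (A (m + 1)) (2 ^ (m + k)) q p x else 0) +
      (∑ q : ZMod Q, ∑ p : ZMod Q, if Sees (B (m + 1)) (B m) (2 ^ (m + k)) q p then
        JE (B (m + 1)) (2 ^ (m + k)) q p y else 0) +
      (∑ q : ZMod Q, ∑ p : ZMod Q, if Sees (C (m + 1)) (C m) (2 ^ (m + k)) q p then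
        JE (C (m + 1)) (2 ^ (m + k)) q p z else 0)) := by
    refine Finset.sum_le_sum fun k _ => Finset.sum_le_sum fun m _ => ?_
    have a1 := ew_change (A (m + 1)) (A m) (2 ^ (m + k)) hx
    have a2 := ew_change (B (m + 1)) (B m) (2 ^ (m + k)) hy
    have a3 := ew_change (C (m + 1)) (C m) (2 ^ (m + k)) hz
    unfold EE
    linarith
  simp only [Finset.sum_add_distrib] at hV hE ⊢
  linarith

/-- the boxes of all scales `< M` and all offsets of the block `l` -/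
noncomputable def idx (Q : ℕ) [NeZero Q] (M : ℕ) : Finset (Σ _ : ℕ, ℕ × ZMod Q × ZMod Q) :=
  (range M).sigma fun m => (range (2 ^ m)) ×ˢ (Finset.univ ×ˢ Finset.univ)

theorem sum_idx (M : ℕ) (l : ℤ) (f : ℕ → ZMod Q → ZMod Q → ZMod Q → ℝ) :
    ∑ i ∈ idx Q M, (1 / ((2 ^ i.1 : ℕ) : ℝ)) * f i.1 i.2.2.1 i.2.2.2
      ((l : ZMod Q) * ((2 ^ i.1 : ℕ) : ZMod Q) + (i.2.1 : ZMod Q) - i.2.2.1 - i.2.2.2) =
    ∑ m ∈ range M, bl (fun n => ∑ p0 : ZMod Q, ∑ p1 : ZMod Q, f m p0 p1 (n - p0 - p1)) (2 ^ m) l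
    := by
  unfold idx
  rw [Finset.sum_sigma]
  refine Finset.sum_congr rfl fun m _ => ?_
  unfold bl
  rw [Finset.sum_product, Finset.mul_sum]
  refine Finset.sum_congr rfl fun i _ => ?_
  rw [Finset.sum_product, Finset.mul_sum]
  refine Finset.sum_congr rfl fun p0 _ => ?_
  rw [Finset.mul_sum]

open Classical in
/-- **(TRI)** for an arbitrary path, with abstract budgets of the boxes which see a change -/
theorem tri_path (A B C : ℕ → ZMod Q → ZMod Q → ℝ) (hA : A 0 = fun _ _ => 0)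
    (hB : B 0 = fun _ _ => 0) (hC : C 0 = fun _ _ => 0) (κ M : ℕ) (l : ℤ)
    (hκ : 2 * |l| + 20 ≤ 2 ^ κ) {x y z : ℤ → ℝ} (hp : PathSeq x y z)
    (GV : ℕ → ZMod Q → ZMod Q → ZMod Q → ℝ) (GA GB GC : ℕ → ℕ → ZMod Q → ZMod Q → ℝ)
    (hV : ∀ m ∈ range M, ∀ p0 p1 p2 : ZMod Q,
      Any3 (A (m + 1)) (A m) (B (m + 1)) (B m) (C (m + 1)) (C m) (2 ^ m) p0 p1 p2 → ∀ J : ℕ,
      ∑ j ∈ Finset.Ico (-(J : ℤ)) J, (√(x j) * √(y j) * √(z j))⁻¹ *
        JV (A (m + 1)) (B (m + 1)) (C (m + 1)) (2 ^ m) p0 p1 p2 (x j) (y j) (z j) ≤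
      GV m p0 p1 p2)
    (hGA : ∀ m ∈ range M, ∀ k ∈ range κ, ∀ q p : ZMod Q,
      Sees (A (m + 1)) (A m) (2 ^ (m + k)) q p → ∀ J : ℕ,
      ∑ j ∈ Finset.Ico (-(J : ℤ)) J, (√(x j) * √(y j) * √(z j))⁻¹ *
        JE (A (m + 1)) (2 ^ (m + k)) q p (x j) ≤ GA m k q p)
    (hGB : ∀ m ∈ range M, ∀ k ∈ range κ, ∀ q p : ZMod Q,
      Sees (B (m + 1)) (B m) (2 ^ (m + k)) q p → ∀ J : ℕ,
      ∑ j ∈ Finset.Ico (-(J : ℤ)) J, (√(x j) * √(y j) * √(z j))⁻¹ *
        JE (B (m + 1)) (2 ^ (m + k)) q p (y j) ≤ GB m k q p)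
    (hGC : ∀ m ∈ range M, ∀ k ∈ range κ, ∀ q p : ZMod Q,
      Sees (C (m + 1)) (C m) (2 ^ (m + k)) q p → ∀ J : ℕ,
      ∑ j ∈ Finset.Ico (-(J : ℤ)) J, (√(x j) * √(y j) * √(z j))⁻¹ *
        JE (C (m + 1)) (2 ^ (m + k)) q p (z j) ≤ GC m k q p) :
    ∑ m ∈ range M, bl (fun n => ∑ p0 : ZMod Q, ∑ p1 : ZMod Q,
      |Lbox (A (m + 1)) (B (m + 1)) (C (m + 1)) (2 ^ m) p0 p1 (n - p0 - p1)|) (2 ^ m) l ≤
    76800 * (4 * ∑ m ∈ range M, bl (fun n => ∑ p0 : ZMod Q, ∑ p1 : ZMod Q,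
      if Any3 (A (m + 1)) (A m) (B (m + 1)) (B m) (C (m + 1)) (C m) (2 ^ m) p0 p1 (n - p0 - p1)
      then GV m p0 p1 (n - p0 - p1) else 0) (2 ^ m) (-2) +
    16 * ∑ k ∈ range κ, ∑ m ∈ range M,
      ((∑ q : ZMod Q, ∑ p : ZMod Q, if Sees (A (m + 1)) (A m) (2 ^ (m + k)) q p then
        GA m k q p else 0) +
      (∑ q : ZMod Q, ∑ p : ZMod Q, if Sees (B (m + 1)) (B m) (2 ^ (m + k)) q p then
        GB m k q p else 0) +
      (∑ q : ZMod Q, ∑ p : ZMod Q, if Sees (C (m + 1)) (C m) (2 ^ (m + k)) q p then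
        GC m k q p else 0))) := by
  rw [← sum_idx M l (fun m p0 p1 p2 =>
    |Lbox (A (m + 1)) (B (m + 1)) (C (m + 1)) (2 ^ m) p0 p1 p2|)]
  refine Lbox_path (idx Q M) (fun i => 1 / ((2 ^ i.1 : ℕ) : ℝ)) (fun i _ => by positivity)
    (fun i => A (i.1 + 1)) (fun i => B (i.1 + 1)) (fun i => C (i.1 + 1)) (fun i => 2 ^ i.1)
    (fun i _ => by positivity) (fun i => i.2.2.1) (fun i => i.2.2.2)
    (fun i => (l : ZMod Q) * ((2 ^ i.1 : ℕ) : ZMod Q) + (i.2.1 : ZMod Q) - i.2.2.1 - i.2.2.2) hp _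
    fun J => ?_
  set w : ℤ → ℝ := fun j => (√(x j) * √(y j) * √(z j))⁻¹ with hw
  have hw0 : ∀ j, 0 ≤ w j := fun j => by positivity
  have h1 : ∀ j ∈ Finset.Ico (-(J : ℤ)) J, (√(x j) * √(y j) * √(z j))⁻¹ *
      ∑ i ∈ idx Q M, 1 / ((2 ^ i.1 : ℕ) : ℝ) * gams (A (i.1 + 1)) (B (i.1 + 1)) (C (i.1 + 1))
        (2 ^ i.1) i.2.2.1 i.2.2.2
        ((l : ZMod Q) * ((2 ^ i.1 : ℕ) : ZMod Q) + (i.2.1 : ZMod Q) - i.2.2.1 - i.2.2.2)
        (x j) (y j) (z j) ≤
      4 * ∑ m ∈ range M, bl (fun n => ∑ p0 : ZMod Q, ∑ p1 : ZMod Q,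
      if Any3 (A (m + 1)) (A m) (B (m + 1)) (B m) (C (m + 1)) (C m) (2 ^ m) p0 p1 (n - p0 - p1)
      then w j * JV (A (m + 1)) (B (m + 1)) (C (m + 1)) (2 ^ m) p0 p1 (n - p0 - p1) (x j) (y j) (z j)
      else 0) (2 ^ m) (-2) +
      16 * ∑ k ∈ range κ, ∑ m ∈ range M,
      ((∑ q : ZMod Q, ∑ p : ZMod Q, if Sees (A (m + 1)) (A m) (2 ^ (m + k)) q p then
        w j * JE (A (m + 1)) (2 ^ (m + k)) q p (x j) else 0) +
      (∑ q : ZMod Q, ∑ p : ZMod Q, if Sees (B (m + 1)) (B m) (2 ^ (m + k)) q p then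
        w j * JE (B (m + 1)) (2 ^ (m + k)) q p (y j) else 0) +
      (∑ q : ZMod Q, ∑ p : ZMod Q, if Sees (C (m + 1)) (C m) (2 ^ (m + k)) q p then
        w j * JE (C (m + 1)) (2 ^ (m + k)) q p (z j) else 0)) := by
    intro j _
    rw [sum_idx M l (fun m p0 p1 p2 =>
      gams (A (m + 1)) (B (m + 1)) (C (m + 1)) (2 ^ m) p0 p1 p2 (x j) (y j) (z j))]
    have h := mul_le_mul_of_nonneg_left (mask_three A B C hA hB hC κ M l hκ (hp.xpos j).le
      (hp.ypos j).le (hp.zpos j).le) (hw0 j)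
    refine h.trans (le_of_eq ?_)
    rw [mul_add, mul_left_comm, mul_left_comm (w j) 16]
    congr 2
    · rw [Finset.mul_sum]
      refine Finset.sum_congr rfl fun m _ => ?_
      rw [← bl_const_mul]
      congr 1
      funext n
      rw [Finset.mul_sum]
      refine Finset.sum_congr rfl fun p0 _ => ?_
      rw [Finset.mul_sum]
      refine Finset.sum_congr rfl fun p1 _ => ?_
      rw [mul_ite, mul_zero]
    · rw [Finset.mul_sum]
      refine Finset.sum_congr rfl fun k _ => ?_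
      rw [Finset.mul_sum]
      refine Finset.sum_congr rfl fun m _ => ?_
      rw [mul_add, mul_add]
      congr 2
      all_goals
        rw [Finset.mul_sum]
        refine Finset.sum_congr rfl fun p0 _ => ?_
        rw [Finset.mul_sum]
        refine Finset.sum_congr rfl fun p1 _ => ?_
        rw [mul_ite, mul_zero]
  refine (Finset.sum_le_sum h1).trans ?_
  rw [Finset.sum_add_distrib, ← Finset.mul_sum, ← Finset.mul_sum]
  refine add_le_add (mul_le_mul_of_nonneg_left ?_ (by norm_num))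
    (mul_le_mul_of_nonneg_left ?_ (by norm_num))
  · rw [Finset.sum_comm]
    refine Finset.sum_le_sum fun m hm => ?_
    rw [← bl_sum]
    refine bl_mono (fun n => ?_) _ _
    rw [Finset.sum_comm]
    refine Finset.sum_le_sum fun p0 _ => ?_
    rw [Finset.sum_comm]
    refine Finset.sum_le_sum fun p1 _ => ?_
    by_cases h : Any3 (A (m + 1)) (A m) (B (m + 1)) (B m) (C (m + 1)) (C m) (2 ^ m) p0 p1
      (n - p0 - p1)
    · simp only [h, if_true]
      exact hV m hm _ _ _ h J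
    · simp only [h, if_false, Finset.sum_const_zero, le_refl]
  · rw [Finset.sum_comm]
    refine Finset.sum_le_sum fun k hk => ?_
    rw [Finset.sum_comm]
    refine Finset.sum_le_sum fun m hm => ?_
    rw [Finset.sum_add_distrib, Finset.sum_add_distrib]
    refine add_le_add (add_le_add ?_ ?_) ?_
    · rw [Finset.sum_comm]
      refine Finset.sum_le_sum fun q _ => ?_
      rw [Finset.sum_comm]
      refine Finset.sum_le_sum fun p _ => ?_
      by_cases h : Sees (A (m + 1)) (A m) (2 ^ (m + k)) q p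
      · simp only [h, if_true]
        exact hGA m hm k hk _ _ h J
      · simp only [h, if_false, Finset.sum_const_zero, le_refl]
    · rw [Finset.sum_comm]
      refine Finset.sum_le_sum fun q _ => ?_
      rw [Finset.sum_comm]
      refine Finset.sum_le_sum fun p _ => ?_
      by_cases h : Sees (B (m + 1)) (B m) (2 ^ (m + k)) q p
      · simp only [h, if_true]
        exact hGB m hm k hk _ _ h J
      · simp only [h, if_false, Finset.sum_const_zero, le_refl]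
    · rw [Finset.sum_comm]
      refine Finset.sum_le_sum fun q _ => ?_
      rw [Finset.sum_comm]
      refine Finset.sum_le_sum fun p _ => ?_
      by_cases h : Sees (C (m + 1)) (C m) (2 ^ (m + k)) q p
      · simp only [h, if_true]
        exact hGC m hm k hk _ _ h J
      · simp only [h, if_false, Finset.sum_const_zero, le_refl]

end Crest.Agent.R079.Pot
end

-- ▼ part R079/TriIso_378

/-! R079, TriIso (helper378): isotropic corollary of `tri_path`, `x = y = z = 4^j`. -/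

set_option autoImplicit false
set_option linter.unusedSectionVars false
set_option linter.unusedVariables false

namespace Crest.Agent.R079.Pot

open Matrix Finset Filter Topology Crest.Agent.R072 Crest.Agent.R072.Lattice Crest.Agent.R079.LD
  Crest.Agent.R079.Path Crest.Agent.R072.Nd Crest.Agent.R079.Glue
open scoped MatrixOrder

theorem four_zpow_exp (j : ℤ) : (4 : ℝ) ^ j = Real.exp (Real.log 4 * (j : ℝ)) := by
  rw [← Real.rpow_intCast, Real.rpow_def_of_pos (by norm_num : (0 : ℝ) < 4)]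

theorem tendsto_four_bot : Tendsto (fun j : ℤ => (4 : ℝ) ^ j) atBot (𝓝 0) := by
  have h4 : 0 < Real.log 4 := Real.log_pos (by norm_num)
  simp only [four_zpow_exp]
  exact Real.tendsto_exp_atBot.comp
    ((tendsto_intCast_atBot_iff (R := ℝ).2 tendsto_id).const_mul_atBot h4)

theorem tendsto_four_top : Tendsto (fun j : ℤ => (4 : ℝ) ^ j) atTop atTop := by
  have h4 : 0 < Real.log 4 := Real.log_pos (by norm_num)
  simp only [four_zpow_exp]
  exact Real.tendsto_exp_atTop.comp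
    ((tendsto_intCast_atTop_atTop (R := ℝ)).const_mul_atTop h4)

/-- the isotropic path -/
theorem pathIso : PathSeq (fun j : ℤ => (4 : ℝ) ^ j) (fun j : ℤ => (4 : ℝ) ^ j)
    (fun j : ℤ => (4 : ℝ) ^ j) := by
  have hpos : ∀ j : ℤ, (0 : ℝ) < 4 ^ j := fun j => by positivity
  have hs : ∀ j : ℤ, (4 : ℝ) ^ (j + 1) = 4 * 4 ^ j := fun j => by
    rw [zpow_add_one₀ (by norm_num)]; ring
  have hm : ∀ j : ℤ, (4 : ℝ) ^ j ≤ 4 ^ (j + 1) := fun j => by
    rw [hs]; nlinarith [hpos j]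
  refine ⟨hpos, hpos, hpos, hm, hm, hm, fun j => (hs j).le, fun j => (hs j).le,
    fun j => (hs j).le, tendsto_four_bot, tendsto_four_bot, tendsto_four_bot, ?_⟩
  exact (tendsto_four_top.atTop_mul_atTop₀ tendsto_four_top).atTop_mul_atTop₀ tendsto_four_top

theorem iso_weight (j : ℤ) :
    (√((4 : ℝ) ^ j) * √((4 : ℝ) ^ j) * √((4 : ℝ) ^ j))⁻¹ = ((2 : ℝ) ^ j)⁻¹ ^ 3 := by
  have h : √((4 : ℝ) ^ j) = 2 ^ j := by
    rw [show (4 : ℝ) = 2 * 2 by norm_num, mul_zpow, Real.sqrt_mul_self (by positivity)]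
  rw [h]
  rw [inv_pow]
  congr 1
  ring

/-- telescoping over `Ico` of integers -/
theorem sum_Ico_tele (h : ℤ → ℝ) (a : ℤ) (k : ℕ) :
    ∑ j ∈ Finset.Ico a (a + k), (h (j + 1) - h j) = h (a + k) - h a := by
  induction k with
  | zero => simp
  | succ k ih =>
    have e : Finset.Ico a (a + ((k + 1 : ℕ) : ℤ)) = insert (a + k) (Finset.Ico a (a + k)) := by
      ext i
      simp only [Finset.mem_Ico, Finset.mem_insert]
      push_cast
      omega
    rw [e, Finset.sum_insert (by simp), ih]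
    push_cast
    rw [show a + ((k : ℤ) + 1) = a + k + 1 by ring]
    ring

theorem min_tele {u : ℝ} (hu : 0 ≤ u) :
    min u (u ^ 3) * 1 ≤ 6 * u ^ 2 * (2 * u / (1 + 2 * u) - u / (1 + u)) := by
  have h1 : 0 < 1 + 2 * u := by linarith
  have h2 : 0 < 1 + u := by linarith
  have e : 2 * u / (1 + 2 * u) - u / (1 + u) = u / ((1 + 2 * u) * (1 + u)) := by
    field_simp
    ring
  rw [e, mul_one]
  rcases le_total u 1 with h | h
  · refine (min_le_right _ _).trans ?_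
    rw [← mul_div_assoc, le_div_iff₀ (by positivity)]
    have : (1 + 2 * u) * (1 + u) ≤ 6 := by nlinarith
    have h3 : 0 ≤ u ^ 3 := by positivity
    nlinarith
  · refine (min_le_left _ _).trans ?_
    rw [← mul_div_assoc, le_div_iff₀ (by positivity)]
    have : (1 + 2 * u) * (1 + u) ≤ 6 * u ^ 2 := by nlinarith
    nlinarith

/-- the isotropic geometric sum -/
theorem iso_sum {t : ℝ} (ht : 0 ≤ t) (J : ℕ) :
    ∑ j ∈ Finset.Ico (-(J : ℤ)) J, ((2 : ℝ) ^ j)⁻¹ ^ 3 * min (4 ^ j * t) ((4 ^ j * t) ^ 2) ≤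
      6 * t ^ (3 / 2 : ℝ) := by
  set r := √t with hr
  have hr0 : 0 ≤ r := Real.sqrt_nonneg t
  have hrt : t = r ^ 2 := (Real.sq_sqrt ht).symm
  have hpow : t ^ (3 / 2 : ℝ) = r ^ 3 := by
    rw [hr, Real.sqrt_eq_rpow, ← Real.rpow_natCast, ← Real.rpow_mul ht]
    norm_num
  rw [hpow]
  set h : ℤ → ℝ := fun j => 2 ^ j * r / (1 + 2 ^ j * r) with hh
  have hterm : ∀ j : ℤ, ((2 : ℝ) ^ j)⁻¹ ^ 3 * min (4 ^ j * t) ((4 ^ j * t) ^ 2) ≤
      6 * r ^ 3 * (h (j + 1) - h j) := by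
    intro j
    have hp : (0 : ℝ) < 2 ^ j := by positivity
    have h4 : (4 : ℝ) ^ j = 2 ^ j * 2 ^ j := by
      rw [show (4 : ℝ) = 2 * 2 by norm_num, mul_zpow]
    have h2 : (2 : ℝ) ^ (j + 1) = 2 * 2 ^ j := by rw [zpow_add_one₀ (by norm_num)]; ring
    simp only [hh]
    rw [h2, h4, hrt]
    set P : ℝ := (2 : ℝ) ^ j with hP
    rcases eq_or_lt_of_le hr0 with h0 | h0
    · rw [← h0]; simp
    have hu : 0 < P * r := by positivity
    have hm := min_tele hu.le
    have e1 : min (P * P * r ^ 2) ((P * P * r ^ 2) ^ 2) = P * r * min (P * r) ((P * r) ^ 3) := by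
      rw [mul_min_of_nonneg _ _ hu.le]
      congr 1 <;> ring
    have e2 : P⁻¹ ^ 3 * min (P * P * r ^ 2) ((P * P * r ^ 2) ^ 2) =
        r ^ 3 * ((P * r)⁻¹ ^ 2 * min (P * r) ((P * r) ^ 3)) := by
      rw [e1]
      field_simp
    rw [e2, mul_comm (6 : ℝ), mul_assoc]
    refine mul_le_mul_of_nonneg_left ?_ (by positivity)
    rw [inv_pow, inv_mul_le_iff₀ (by positivity)]
    have e3 : 2 * P * r = 2 * (P * r) := by ring
    rw [e3]
    linarith
  refine (Finset.sum_le_sum fun j _ => hterm j).trans ?_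
  rw [← Finset.mul_sum]
  have ht := sum_Ico_tele h (-(J : ℤ)) (J + J)
  have e : -(J : ℤ) + ((J + J : ℕ) : ℤ) = J := by push_cast; ring
  rw [e] at ht
  rw [ht]
  have h1 : h J ≤ 1 := by
    simp only [hh]
    rw [div_le_one (by positivity)]
    linarith
  have h2 : 0 ≤ h (-(J : ℤ)) := by
    simp only [hh]
    positivity
  have h3 : 0 ≤ 6 * r ^ 3 := by positivity
  nlinarith

theorem trace_sq_le {n : ℕ} {M : Matrix (Fin n) (Fin n) ℝ} (hM : M.PosSemidef) :
    trace (M * M) ≤ trace M ^ 2 := by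
  have hsym : ∀ i j, M i j = M j i := fun i j => by
    have := hM.1.apply i j
    simpa using this.symm
  have hd : ∀ i, 0 ≤ M i i := fun i => hM.diag_nonneg
  have h2 : ∀ i j, M i j * M j i ≤ M i i * M j j := by
    intro i j
    by_cases hij : i = j
    · subst hij; exact le_refl _
    have h := hM.dotProduct_mulVec_nonneg
    rcases eq_or_lt_of_le (hd i) with h0 | h0
    · -- M i i = 0
      have hk : ∀ a : ℝ, 0 ≤ a * (2 * M i j) + M j j := by
        intro a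
        have hv := h (Pi.single i a + Pi.single j 1)
        have e : star (Pi.single i a + Pi.single j (1 : ℝ)) ⬝ᵥ
            M *ᵥ (Pi.single i a + Pi.single j 1) =
            a * a * M i i + a * M i j + a * M j i + M j j := by
          rw [Matrix.mulVec_add, star_trivial, add_dotProduct, dotProduct_add, dotProduct_add]
          simp [Matrix.mulVec_single, single_dotProduct]
          ring
        rw [e, ← h0, hsym j i] at hv
        linarith
      have hz : M i j = 0 := by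
        by_contra hne
        have := hk (-(M j j + 1) / (2 * M i j))
        rw [div_mul_cancel₀ _ (mul_ne_zero two_ne_zero hne)] at this
        linarith
      rw [hz, ← h0]; simp
    · have hv := h (Pi.single i (-(M i j / M i i)) + Pi.single j 1)
      have e : star (Pi.single i (-(M i j / M i i)) + Pi.single j (1 : ℝ)) ⬝ᵥ
            M *ᵥ (Pi.single i (-(M i j / M i i)) + Pi.single j 1) =
            (-(M i j / M i i)) * (-(M i j / M i i)) * M i i + (-(M i j / M i i)) * M i j +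
              (-(M i j / M i i)) * M j i + M j j := by
        rw [Matrix.mulVec_add, star_trivial, add_dotProduct, dotProduct_add, dotProduct_add]
        simp [Matrix.mulVec_single, single_dotProduct]
        ring
      rw [e, hsym j i] at hv
      rw [hsym j i]
      have e2 : (-(M i j / M i i)) * (-(M i j / M i i)) * M i i + (-(M i j / M i i)) * M i j +
              (-(M i j / M i i)) * M i j + M j j = M j j - M i j ^ 2 / M i i := by
        field_simp
        ring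
      rw [e2] at hv
      have : M i j ^ 2 / M i i ≤ M j j := by linarith
      rw [div_le_iff₀ h0] at this
      nlinarith
  calc trace (M * M) = ∑ i, ∑ j, M i j * M j i := by
        simp only [trace, Matrix.diag_apply, Matrix.mul_apply]
    _ ≤ ∑ i, ∑ j, M i i * M j j := Finset.sum_le_sum fun i _ => Finset.sum_le_sum fun j _ => h2 i j
    _ = trace M ^ 2 := by
        simp only [trace, Matrix.diag_apply]
        rw [sq, Finset.sum_mul_sum]

theorem LD1_le_min {n : ℕ} {M : Matrix (Fin n) (Fin n) ℝ} (hM : M.PosSemidef) {c : ℝ}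
    (hc : 0 ≤ c) : LD 1 (c • M) ≤ min (c * trace M) ((c * trace M) ^ 2) := by
  have hcM : (c • M).PosSemidef := hM.smul hc
  have h1 := LD_le_trace one_pos hcM.nonneg
  have h2 := LD_le_sq one_pos hcM.nonneg
  have h3 := trace_sq_le hcM
  rw [trace_smul, smul_eq_mul] at h1 h3
  rw [inv_one, one_mul] at h1
  rw [inv_one, one_pow, one_mul] at h2
  exact le_min h1 (h2.trans h3)

theorem LDh_le_min {n : ℕ} {M : Matrix (Fin n) (Fin n) ℝ} (hM : M.PosSemidef) {c : ℝ}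
    (hc : 0 ≤ c) : LD (1 / 2) (c • M) ≤ 4 * min (c * trace M) ((c * trace M) ^ 2) := by
  have hcM : (c • M).PosSemidef := hM.smul hc
  have h1 := LD_le_trace (t := 1 / 2) (by norm_num) hcM.nonneg
  have h2 := LD_le_sq (t := 1 / 2) (by norm_num) hcM.nonneg
  have h3 := trace_sq_le hcM
  have h0 : 0 ≤ trace (c • M) := hcM.trace_nonneg
  rw [trace_smul, smul_eq_mul] at h1 h3 h0
  rw [mul_min_of_nonneg _ _ (by norm_num : (0 : ℝ) ≤ 4)]
  refine le_min ?_ ?_
  · refine h1.trans ?_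
    rw [show ((1 / 2 : ℝ))⁻¹ = 2 by norm_num]
    linarith
  · refine h2.trans ?_
    rw [show ((1 / 2 : ℝ))⁻¹ ^ 2 = 4 by norm_num]
    linarith

section

variable {Q : ℕ} [NeZero Q]

theorem trace_abar (X : ZMod Q → ZMod Q → ℝ) (N : ℕ) (q p : ZMod Q) :
    trace (abar X N N q p) = bx X N q p := by
  unfold bx abar
  simp only [trace, Matrix.diag_apply]
  rw [← Finset.mul_sum, Finset.sum_comm]
  congr 1
  · rw [sq]
  · refine Finset.sum_congr rfl fun i _ => ?_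
    rw [Finset.sum_range]
    refine Finset.sum_congr rfl fun j _ => ?_
    rw [sq]

theorem trace_abar_tr (X : ZMod Q → ZMod Q → ℝ) (N : ℕ) (q p : ZMod Q) :
    trace (abar (tr X) N N p q) = bx X N q p := by
  rw [trace_abar]
  unfold bx tr
  rw [Finset.sum_comm]

theorem bx_nonneg (X : ZMod Q → ZMod Q → ℝ) (N : ℕ) (q p : ZMod Q) : 0 ≤ bx X N q p := by
  unfold bx
  positivity

theorem add_rpow_32 {a b : ℝ} (ha : 0 ≤ a) (hb : 0 ≤ b) :
    (a + b) ^ (3 / 2 : ℝ) ≤ 4 * (a ^ (3 / 2 : ℝ) + b ^ (3 / 2 : ℝ)) := by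
  have h1 : a + b ≤ 2 * max a b := by
    have := le_max_left a b
    have := le_max_right a b
    linarith
  have hm : 0 ≤ max a b := ha.trans (le_max_left a b)
  have h2 : (a + b) ^ (3 / 2 : ℝ) ≤ (2 * max a b) ^ (3 / 2 : ℝ) :=
    Real.rpow_le_rpow (by linarith) h1 (by norm_num)
  have h3 : (2 * max a b) ^ (3 / 2 : ℝ) = 2 ^ (3 / 2 : ℝ) * (max a b) ^ (3 / 2 : ℝ) :=
    Real.mul_rpow (by norm_num) hm
  have h4 : (2 : ℝ) ^ (3 / 2 : ℝ) ≤ 4 := by
    calc (2 : ℝ) ^ (3 / 2 : ℝ) ≤ 2 ^ (2 : ℝ) :=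
          Real.rpow_le_rpow_of_exponent_le (by norm_num) (by norm_num)
      _ = 4 := by norm_num
  have h5 : (max a b) ^ (3 / 2 : ℝ) ≤ a ^ (3 / 2 : ℝ) + b ^ (3 / 2 : ℝ) := by
    rcases le_total a b with h | h
    · rw [max_eq_right h]
      have := Real.rpow_nonneg ha (3 / 2)
      linarith
    · rw [max_eq_left h]
      have := Real.rpow_nonneg hb (3 / 2)
      linarith
  have h6 : 0 ≤ (max a b) ^ (3 / 2 : ℝ) := Real.rpow_nonneg hm _
  rw [h3] at h2
  nlinarith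

/-- one joint potential along the isotropic path -/
theorem iso_joint (X Z : ZMod Q → ZMod Q → ℝ) {α γ : ℝ} {n : ℕ}
    (U V : Matrix (Fin n) (Fin n) ℝ) (hU : U.PosSemidef) (hV : V.PosSemidef)
    (ha : trace U = α) (hc : trace V = γ) (J : ℕ) :
    ∑ j ∈ Finset.Ico (-(J : ℤ)) J, ((2 : ℝ) ^ j)⁻¹ ^ 3 *
      LD 1 ((4 : ℝ) ^ j • U + (4 : ℝ) ^ j • V) ≤
      24 * (α ^ (3 / 2 : ℝ) + γ ^ (3 / 2 : ℝ)) := by
  have hα : 0 ≤ α := ha ▸ hU.trace_nonneg
  have hγ : 0 ≤ γ := hc ▸ hV.trace_nonneg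
  have h1 : ∑ j ∈ Finset.Ico (-(J : ℤ)) J, ((2 : ℝ) ^ j)⁻¹ ^ 3 *
      LD 1 ((4 : ℝ) ^ j • U + (4 : ℝ) ^ j • V) ≤
      ∑ j ∈ Finset.Ico (-(J : ℤ)) J, ((2 : ℝ) ^ j)⁻¹ ^ 3 *
        min (4 ^ j * (α + γ)) ((4 ^ j * (α + γ)) ^ 2) := by
    refine Finset.sum_le_sum fun j _ => mul_le_mul_of_nonneg_left ?_ (by positivity)
    rw [← smul_add]
    have h := LD1_le_min (hU.add hV) (c := (4 : ℝ) ^ j) (by positivity)
    rwa [trace_add, ha, hc] at h
  refine h1.trans ((iso_sum (add_nonneg hα hγ) J).trans ?_)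
  have := add_rpow_32 hα hγ
  linarith

/-- one own potential along the isotropic path -/
theorem iso_own {α : ℝ} {n : ℕ} (U : Matrix (Fin n) (Fin n) ℝ) (hU : U.PosSemidef)
    (ha : trace U = α) (J : ℕ) :
    ∑ j ∈ Finset.Ico (-(J : ℤ)) J, ((2 : ℝ) ^ j)⁻¹ ^ 3 * LD (1 / 2) ((4 : ℝ) ^ j • U) ≤
      24 * α ^ (3 / 2 : ℝ) := by
  have hα : 0 ≤ α := ha ▸ hU.trace_nonneg
  have h1 : ∑ j ∈ Finset.Ico (-(J : ℤ)) J, ((2 : ℝ) ^ j)⁻¹ ^ 3 * LD (1 / 2) ((4 : ℝ) ^ j • U) ≤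
      ∑ j ∈ Finset.Ico (-(J : ℤ)) J, 4 * (((2 : ℝ) ^ j)⁻¹ ^ 3 *
        min (4 ^ j * α) ((4 ^ j * α) ^ 2)) := by
    refine Finset.sum_le_sum fun j _ => ?_
    have h := LDh_le_min hU (c := (4 : ℝ) ^ j) (by positivity)
    rw [ha] at h
    have h2 : (0 : ℝ) ≤ ((2 : ℝ) ^ j)⁻¹ ^ 3 := by positivity
    calc ((2 : ℝ) ^ j)⁻¹ ^ 3 * LD (1 / 2) ((4 : ℝ) ^ j • U) ≤ ((2 : ℝ) ^ j)⁻¹ ^ 3 *
          (4 * min (4 ^ j * α) ((4 ^ j * α) ^ 2)) := mul_le_mul_of_nonneg_left h h2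
      _ = _ := by ring
  refine h1.trans ?_
  rw [← Finset.mul_sum]
  have := iso_sum hα J
  linarith

theorem iso_JV (F0 F1 F2 : ZMod Q → ZMod Q → ℝ) (N : ℕ) (p0 p1 p2 : ZMod Q) (J : ℕ) :
    ∑ j ∈ Finset.Ico (-(J : ℤ)) J, (√((4 : ℝ) ^ j) * √((4 : ℝ) ^ j) * √((4 : ℝ) ^ j))⁻¹ *
      JV F0 F1 F2 N p0 p1 p2 ((4 : ℝ) ^ j) ((4 : ℝ) ^ j) ((4 : ℝ) ^ j) ≤
    48 * (bx F0 N p0 p1 ^ (3 / 2 : ℝ) + bx F1 N p1 p2 ^ (3 / 2 : ℝ) +
      bx F2 N p2 p0 ^ (3 / 2 : ℝ)) := by
  have h1 := iso_joint F0 F2 (abar (tr F0) N N p1 p0) (abar F2 N N p2 p0) (abar_psd _ _ _ _ _)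
    (abar_psd _ _ _ _ _) (trace_abar_tr F0 N p0 p1) (trace_abar F2 N p2 p0) J
  have h2 := iso_joint F0 F2 (abar F0 N N p0 p1) (abar (tr F1) N N p2 p1) (abar_psd _ _ _ _ _)
    (abar_psd _ _ _ _ _) (trace_abar F0 N p0 p1) (trace_abar_tr F1 N p1 p2) J
  have h3 := iso_joint F0 F2 (abar F1 N N p1 p2) (abar (tr F2) N N p0 p2) (abar_psd _ _ _ _ _)
    (abar_psd _ _ _ _ _) (trace_abar F1 N p1 p2) (trace_abar_tr F2 N p2 p0) J
  have e : ∑ j ∈ Finset.Ico (-(J : ℤ)) J,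
      (√((4 : ℝ) ^ j) * √((4 : ℝ) ^ j) * √((4 : ℝ) ^ j))⁻¹ *
      JV F0 F1 F2 N p0 p1 p2 ((4 : ℝ) ^ j) ((4 : ℝ) ^ j) ((4 : ℝ) ^ j) =
      ∑ j ∈ Finset.Ico (-(J : ℤ)) J, ((2 : ℝ) ^ j)⁻¹ ^ 3 *
        LD 1 ((4 : ℝ) ^ j • abar (tr F0) N N p1 p0 + (4 : ℝ) ^ j • abar F2 N N p2 p0) +
      ∑ j ∈ Finset.Ico (-(J : ℤ)) J, ((2 : ℝ) ^ j)⁻¹ ^ 3 *
        LD 1 ((4 : ℝ) ^ j • abar F0 N N p0 p1 + (4 : ℝ) ^ j • abar (tr F1) N N p2 p1) +
      ∑ j ∈ Finset.Ico (-(J : ℤ)) J, ((2 : ℝ) ^ j)⁻¹ ^ 3 *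
        LD 1 ((4 : ℝ) ^ j • abar F1 N N p1 p2 + (4 : ℝ) ^ j • abar (tr F2) N N p0 p2) := by
    rw [← Finset.sum_add_distrib, ← Finset.sum_add_distrib]
    refine Finset.sum_congr rfl fun j _ => ?_
    rw [iso_weight]
    unfold JV
    ring
  rw [e]
  linarith

theorem iso_JE (F : ZMod Q → ZMod Q → ℝ) (a : ℕ) (q p : ZMod Q) (J : ℕ) :
    ∑ j ∈ Finset.Ico (-(J : ℤ)) J, (√((4 : ℝ) ^ j) * √((4 : ℝ) ^ j) * √((4 : ℝ) ^ j))⁻¹ *
      JE F a q p ((4 : ℝ) ^ j) ≤ 48 * bx F a q p ^ (3 / 2 : ℝ) := by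
  have h1 := iso_own (abar F a a q p) (abar_psd _ _ _ _ _) (trace_abar F a q p) J
  have h2 := iso_own (abar (tr F) a a p q) (abar_psd _ _ _ _ _) (trace_abar_tr F a q p) J
  have e : ∑ j ∈ Finset.Ico (-(J : ℤ)) J,
      (√((4 : ℝ) ^ j) * √((4 : ℝ) ^ j) * √((4 : ℝ) ^ j))⁻¹ * JE F a q p ((4 : ℝ) ^ j) =
      ∑ j ∈ Finset.Ico (-(J : ℤ)) J, ((2 : ℝ) ^ j)⁻¹ ^ 3 *
        LD (1 / 2) ((4 : ℝ) ^ j • abar F a a q p) +
      ∑ j ∈ Finset.Ico (-(J : ℤ)) J, ((2 : ℝ) ^ j)⁻¹ ^ 3 *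
        LD (1 / 2) ((4 : ℝ) ^ j • abar (tr F) a a p q) := by
    rw [← Finset.sum_add_distrib]
    refine Finset.sum_congr rfl fun j _ => ?_
    rw [iso_weight]
    unfold JE
    ring
  rw [e]
  linarith

end

/-- **(TriIso)** -/
theorem triIso : TriIso := by
  classical
  refine ⟨76800 * 768, by norm_num, 6, ?_⟩
  intro l hl Q _ A B C hA hB hC M
  have hκ : 2 * |l| + 20 ≤ 2 ^ 6 := by omega
  have h := tri_path A B C hA hB hC 6 M l (by exact_mod_cast hκ) pathIso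
    (fun m p0 p1 p2 => 48 * (bx (A (m + 1)) (2 ^ m) p0 p1 ^ (3 / 2 : ℝ) +
      bx (B (m + 1)) (2 ^ m) p1 p2 ^ (3 / 2 : ℝ) + bx (C (m + 1)) (2 ^ m) p2 p0 ^ (3 / 2 : ℝ)))
    (fun m k q p => 48 * bx (A (m + 1)) (2 ^ (m + k)) q p ^ (3 / 2 : ℝ))
    (fun m k q p => 48 * bx (B (m + 1)) (2 ^ (m + k)) q p ^ (3 / 2 : ℝ))
    (fun m k q p => 48 * bx (C (m + 1)) (2 ^ (m + k)) q p ^ (3 / 2 : ℝ))
    (fun m _ p0 p1 p2 _ J => iso_JV _ _ _ _ _ _ _ J)
    (fun m _ k _ q p _ J => iso_JE _ _ _ _ J)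
    (fun m _ k _ q p _ J => iso_JE _ _ _ _ J)
    (fun m _ k _ q p _ J => iso_JE _ _ _ _ J)
  have hl' : ∀ m : ℕ, (1 / (2 : ℝ) ^ m) * ∑ i ∈ range (2 ^ m), ∑ p0 : ZMod Q, ∑ p1 : ZMod Q,
      |Crest.Agent.R072.Lattice.Lbox (A (m + 1)) (B (m + 1)) (C (m + 1)) (2 ^ m) p0 p1
        ((l : ZMod Q) * ((2 ^ m : ℕ) : ZMod Q) + (i : ZMod Q) - p0 - p1)| =
      bl (fun n => ∑ p0 : ZMod Q, ∑ p1 : ZMod Q,
      |Lbox (A (m + 1)) (B (m + 1)) (C (m + 1)) (2 ^ m) p0 p1 (n - p0 - p1)|) (2 ^ m) l := by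
    intro m
    unfold bl
    push_cast
    rfl
  simp only [hl']
  refine h.trans ?_
  have hVT : ∀ m : ℕ, bl (fun n => ∑ p0 : ZMod Q, ∑ p1 : ZMod Q,
      if Any3 (A (m + 1)) (A m) (B (m + 1)) (B m) (C (m + 1)) (C m) (2 ^ m) p0 p1 (n - p0 - p1)
      then 48 * (bx (A (m + 1)) (2 ^ m) p0 p1 ^ (3 / 2 : ℝ) +
      bx (B (m + 1)) (2 ^ m) p1 (n - p0 - p1) ^ (3 / 2 : ℝ) +
      bx (C (m + 1)) (2 ^ m) (n - p0 - p1) p0 ^ (3 / 2 : ℝ)) else 0) (2 ^ m) (-2) =
      48 * VT (A (m + 1)) (B (m + 1)) (C (m + 1)) (A m) (B m) (C m) (2 ^ m) := by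
    intro m
    unfold bl VT
    rw [mul_left_comm]
    congr 1
    rw [Finset.mul_sum]
    refine Finset.sum_congr rfl fun i _ => ?_
    rw [Finset.mul_sum]
    refine Finset.sum_congr rfl fun p0 _ => ?_
    rw [Finset.mul_sum]
    refine Finset.sum_congr rfl fun p1 _ => ?_
    rw [mul_ite, mul_zero]
    have e : (((-2 : ℤ)) : ZMod Q) * ((2 ^ m : ℕ) : ZMod Q) + (i : ZMod Q) - p0 - p1 =
      -(2 * ((2 ^ m : ℕ) : ZMod Q)) + (i : ZMod Q) - p0 - p1 := by
      push_cast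
      ring
    rw [e]
    exact if_congr Iff.rfl rfl rfl
  have hET : ∀ (F : ℕ → ZMod Q → ZMod Q → ℝ) (m k : ℕ),
      (∑ q : ZMod Q, ∑ p : ZMod Q, if Sees (F (m + 1)) (F m) (2 ^ (m + k)) q p then
        48 * bx (F (m + 1)) (2 ^ (m + k)) q p ^ (3 / 2 : ℝ) else 0) =
      48 * ET (F (m + 1)) (F m) (2 ^ (m + k)) := by
    intro F m k
    unfold ET
    rw [Finset.mul_sum]
    refine Finset.sum_congr rfl fun q _ => ?_
    rw [Finset.mul_sum]
    refine Finset.sum_congr rfl fun p _ => ?_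
    rw [mul_ite, mul_zero]
  simp only [hVT, hET]
  have hV0 : 0 ≤ ∑ m ∈ range M, VT (A (m + 1)) (B (m + 1)) (C (m + 1)) (A m) (B m) (C m)
      (2 ^ m) := by
    refine Finset.sum_nonneg fun m _ => ?_
    unfold VT
    refine mul_nonneg (by positivity) (Finset.sum_nonneg fun i _ => Finset.sum_nonneg fun p0 _ =>
      Finset.sum_nonneg fun p1 _ => ?_)
    split_ifs
    · have h1 := Real.rpow_nonneg (bx_nonneg (A (m + 1)) (2 ^ m) p0 p1) (3 / 2)
      have h2 := Real.rpow_nonneg (bx_nonneg (B (m + 1)) (2 ^ m) p1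
        (-(2 * ((2 ^ m : ℕ) : ZMod Q)) + (i : ZMod Q) - p0 - p1)) (3 / 2)
      have h3 := Real.rpow_nonneg (bx_nonneg (C (m + 1)) (2 ^ m)
        (-(2 * ((2 ^ m : ℕ) : ZMod Q)) + (i : ZMod Q) - p0 - p1) p0) (3 / 2)
      linarith
    · exact le_refl _
  rw [Finset.sum_add_distrib]
  rw [Finset.sum_comm (s := range M) (t := range 6)]
  simp only [← mul_add, ← Finset.mul_sum]
  linarith

end Crest.Agent.R079.Pot
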