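import Crest.Agent.R079.FrozenA_569
import Crest.Agent.R079.FrozenB_569
import Crest.Agent.R079.TriIso_378

-- ▼ part R079/FrozenC_569
section

/-! R079, I1 part C (helper569): frozen kernels, exit values, sum over the frozen variable. -/

set_option autoImplicit false

namespace Crest.Agent.R079.Glue

open Finset Crest.Agent.R079.Grid

/-- Hölder in the form used at the exits -/
lemma holder32 {ι : Type*} (S : Finset ι) (c : ℝ) (hc : 0 ≤ c) (u v : ι → ℝ) (hu : ∀ i, 0 ≤ u i)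
    (r : ℝ) (hr : 0 < r) (hV : c * ∑ i ∈ S, v i ^ 2 ≤ r ^ 2) (X : ℝ) (hX0 : 0 ≤ X)
    (hX : X ≤ c * ∑ i ∈ S, u i ^ 2 * v i ^ 2) :
    X ^ (3 / 2 : ℝ) ≤ r * (c * ∑ i ∈ S, u i ^ 3 * v i ^ 2) := by
  set t := Real.sqrt X with ht
  have ht0 : 0 ≤ t := Real.sqrt_nonneg X
  have ht2 : t ^ 2 = X := Real.sq_sqrt hX0
  set P := c * ∑ i ∈ S, u i ^ 3 * v i ^ 2 with hP
  set lam := t / r with hlam
  have hlam0 : 0 ≤ lam := div_nonneg ht0 hr.le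
  have h1 : ∀ i ∈ S, 3 * lam * (u i ^ 2 * v i ^ 2) ≤ 2 * (u i ^ 3 * v i ^ 2) + lam ^ 3 * v i ^ 2 := by
    intro i _
    have h2 : 0 ≤ 2 * u i ^ 3 + lam ^ 3 - 3 * u i ^ 2 * lam := by
      have : 2 * u i ^ 3 + lam ^ 3 - 3 * u i ^ 2 * lam = (u i - lam) ^ 2 * (2 * u i + lam) := by ring
      rw [this]
      exact mul_nonneg (sq_nonneg _) (by linarith [hu i])
    nlinarith [mul_nonneg h2 (sq_nonneg (v i))]
  have h2 := Finset.sum_le_sum h1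
  rw [← Finset.mul_sum, Finset.sum_add_distrib, ← Finset.mul_sum, ← Finset.mul_sum] at h2
  have h3 : 3 * lam * (c * ∑ i ∈ S, u i ^ 2 * v i ^ 2) ≤ 2 * P + lam ^ 3 * (c * ∑ i ∈ S, v i ^ 2) := by
    have := mul_le_mul_of_nonneg_left h2 hc
    rw [hP]
    linarith
  have h4 : 3 * lam * X ≤ 2 * P + lam ^ 3 * r ^ 2 := by
    refine (mul_le_mul_of_nonneg_left hX (by positivity)).trans (h3.trans ?_)
    have := mul_le_mul_of_nonneg_left hV (by positivity : 0 ≤ lam ^ 3)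
    linarith
  have e1 : lam * X = t ^ 3 / r := by rw [hlam, ← ht2]; ring
  have e2 : lam ^ 3 * r ^ 2 = t ^ 3 / r := by
    rw [hlam]; field_simp
  have h5 : t ^ 3 / r ≤ P := by
    have : 3 * (lam * X) ≤ 2 * P + lam ^ 3 * r ^ 2 := by linarith
    rw [e1, e2] at this
    linarith
  have h6 : t ^ 3 ≤ r * P := by
    rw [div_le_iff₀ hr] at h5
    linarith
  have e3 : X ^ (3 / 2 : ℝ) = t ^ 3 := by
    rw [ht, Real.sqrt_eq_rpow, ← Real.rpow_natCast, ← Real.rpow_mul hX0]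
    norm_num
  rw [e3]
  exact h6

/-- real and imaginary parts -/
noncomputable def pr (σ : Bool) (z : ℂ) : ℝ := if σ then z.re else z.im

lemma abs_pr_le (σ : Bool) (z : ℂ) : |pr σ z| ≤ ‖z‖ := by
  unfold pr
  split_ifs
  · exact Complex.abs_re_le_norm z
  · exact Complex.abs_im_le_norm z

lemma pr_zero (σ : Bool) : pr σ 0 = 0 := by unfold pr; simp

/-- frozen real kernel with linear form `α w + γ z + δ z'` -/
noncomputable def fK (σ : Bool) (α γ δ : ℤ) (T T' : Finset ℤ) (a : ℤ → ℤ → ℂ) (G : ℤ → ℂ) (w : ℤ)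
    (z z' : ℤ) : ℝ :=
  if z ∈ T ∧ z' ∈ T' then pr σ (a z z' * G (α * w + γ * z + δ * z')) else 0

/-- exit density -/
noncomputable def gK (α γ δ : ℤ) (T T' : Finset ℤ) (a : ℤ → ℤ → ℂ) (D : Finset ℤ) (G : ℤ → ℂ)
    (w : ℤ) (z z' : ℤ) : ℝ :=
  if z ∈ T ∧ z' ∈ T' then ‖a z z'‖ ^ 3 *
    (if α * w + γ * z + δ * z' ∈ D then ‖G (α * w + γ * z + δ * z')‖ ^ 2 else 0) else 0

lemma gK_nonneg (α γ δ : ℤ) (T T' : Finset ℤ) (a : ℤ → ℤ → ℂ) (D : Finset ℤ) (G : ℤ → ℂ)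
    (w : ℤ) (z z' : ℤ) : 0 ≤ gK α γ δ T T' a D G w z z' := by
  unfold gK
  split_ifs <;> positivity

lemma gK_off (α γ δ : ℤ) (T T' : Finset ℤ) (a : ℤ → ℤ → ℂ) (D : Finset ℤ) (G : ℤ → ℂ)
    (w : ℤ) (z z' : ℤ) (h : ¬ (z ∈ T ∧ z' ∈ T')) : gK α γ δ T T' a D G w z z' = 0 := by
  unfold gK
  rw [if_neg h]

/-- exit value of one box -/
lemma bxZ_fK_le (R : Finset (ℕ × ℤ)) (m s : ℕ) (F : ℤ → ℂ) (A : ℝ) (hA : 0 < A)
    (hF : ∀ p ∈ R, av2 (p.1 + 7) p.2 F ≤ A) (σ : Bool) (α γ δ : ℤ) (hγ : γ ≠ 0) (hγ3 : |γ| ≤ 3)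
    (T T' : Finset ℤ) (a : ℤ → ℤ → ℂ) (w : ℤ) (D : Finset ℤ) (q p : ℤ)
    (hD : ∀ i j : ℕ, i < 2 ^ (m + s) → j < 2 ^ (m + s) →
      α * w + γ * (q + (i : ℤ)) + δ * (p + (j : ℤ)) ∈ D) :
    bxZ (fK σ α γ δ T T' a (msk (Rm R m) F) w) (2 ^ (m + s)) q p ^ (3 / 2 : ℝ) ≤
      30 * A * ((1 / ((2 ^ (m + s) : ℕ) : ℝ) ^ 2) * ∑ i ∈ range (2 ^ (m + s)),
        ∑ j ∈ range (2 ^ (m + s)),
          gK α γ δ T T' a D (msk (Rm R m) F) w (q + (i : ℤ)) (p + (j : ℤ))) := by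
  classical
  set N := 2 ^ (m + s) with hN
  set y : ℕ × ℕ → ℤ := fun ij => α * w + γ * (q + (ij.1 : ℤ)) + δ * (p + (ij.2 : ℤ)) with hy
  set u : ℕ × ℕ → ℝ := fun ij =>
    if q + (ij.1 : ℤ) ∈ T ∧ p + (ij.2 : ℤ) ∈ T' then ‖a (q + (ij.1 : ℤ)) (p + (ij.2 : ℤ))‖ else 0
    with hu
  set v : ℕ × ℕ → ℝ := fun ij => ‖msk (Rm R m) F (y ij)‖ with hv
  have hu0 : ∀ ij, 0 ≤ u ij := fun ij => by simp only [hu]; split_ifs <;> positivity
  have h := holder32 (range N ×ˢ range N) (1 / (N : ℝ) ^ 2) (by positivity) u v hu0 (30 * A)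
    (by positivity) ?_ (bxZ (fK σ α γ δ T T' a (msk (Rm R m) F) w) N q p) (bxZ_nonneg _ _ _ _) ?_
  · refine h.trans (le_of_eq ?_)
    congr 2
    rw [Finset.sum_product]
    refine Finset.sum_congr rfl fun i hi => Finset.sum_congr rfl fun j hj => ?_
    rw [Finset.mem_range] at hi hj
    have hm := hD i j hi hj
    simp only [hu, hv, hy]
    unfold gK
    split_ifs with h1
    · rfl
    · simp
  · -- average of v²
    have h1 := sum_msk_box R m s F A hF (α * w + γ * q + δ * p) γ δ hγ hγ3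
    rw [← hN] at h1
    rw [Finset.sum_product]
    have e : ∀ i ∈ range N, ∀ j ∈ range N, v (i, j) ^ 2 =
        ‖msk (Rm R m) F (α * w + γ * q + δ * p + γ * (i : ℤ) + δ * (j : ℤ))‖ ^ 2 := by
      intro i _ j _
      simp only [hv, hy]
      congr 3
      ring
    rw [Finset.sum_congr rfl fun i hi => Finset.sum_congr rfl fun j hj => e i hi j hj]
    refine h1.trans ?_
    nlinarith [sq_nonneg A]
  · -- bxZ
    unfold bxZ
    rw [Finset.sum_product]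
    refine mul_le_mul_of_nonneg_left ?_ (by positivity)
    refine Finset.sum_le_sum fun i _ => Finset.sum_le_sum fun j _ => ?_
    simp only [hu, hv, hy]
    unfold fK
    split_ifs with h1
    · have h2 := abs_pr_le σ (a (q + (i : ℤ)) (p + (j : ℤ)) *
        msk (Rm R m) F (α * w + γ * (q + (i : ℤ)) + δ * (p + (j : ℤ))))
      rw [norm_mul] at h2
      rw [← sq_abs, ← mul_pow]
      exact pow_le_pow_left₀ (abs_nonneg _) h2 2
    · simp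

/-- sum over injective families of positions -/
lemma sum_positions {ι : Type*} (Λ : Finset ι) (π : ι → ℤ × ℤ) (hπ : Set.InjOn π Λ) (N : ℕ)
    (T T' : Finset ℤ) (g : ℤ → ℤ → ℝ) (hg : ∀ z z', 0 ≤ g z z')
    (hoff : ∀ z z', ¬ (z ∈ T ∧ z' ∈ T') → g z z' = 0) :
    ∑ x ∈ Λ, (1 / (N : ℝ) ^ 2) * ∑ i ∈ range N, ∑ j ∈ range N,
      g ((π x).1 + (i : ℤ)) ((π x).2 + (j : ℤ)) ≤ ∑ z ∈ T, ∑ z' ∈ T', g z z' := by
  classical
  rw [← Finset.mul_sum, Finset.sum_comm]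
  have h1 : ∀ i ∈ range N, ∑ x ∈ Λ, ∑ j ∈ range N, g ((π x).1 + (i : ℤ)) ((π x).2 + (j : ℤ)) ≤
      N * ∑ z ∈ T, ∑ z' ∈ T', g z z' := by
    intro i _
    rw [Finset.sum_comm]
    have h2 : ∀ j ∈ range N, ∑ x ∈ Λ, g ((π x).1 + (i : ℤ)) ((π x).2 + (j : ℤ)) ≤
        ∑ z ∈ T, ∑ z' ∈ T', g z z' := by
      intro j _
      rw [← Finset.sum_product']
      set φ : ι → ℤ × ℤ := fun x => ((π x).1 + (i : ℤ), (π x).2 + (j : ℤ)) with hφ
      have hφi : Set.InjOn φ Λ := by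
        intro x hx x' hx' hxx
        apply hπ hx hx'
        simp only [hφ, Prod.mk.injEq] at hxx
        exact Prod.ext (by linarith [hxx.1]) (by linarith [hxx.2])
      have e : ∑ x ∈ Λ, g ((π x).1 + (i : ℤ)) ((π x).2 + (j : ℤ)) =
          ∑ z ∈ Λ.image φ, g z.1 z.2 := by
        rw [Finset.sum_image hφi]
      rw [e]
      have e2 : ∑ z ∈ Λ.image φ, g z.1 z.2 = ∑ z ∈ (Λ.image φ).filter (fun z => z ∈ T ×ˢ T'),
          g z.1 z.2 := by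
        rw [Finset.sum_filter]
        refine Finset.sum_congr rfl fun z _ => ?_
        split_ifs with hz
        · rfl
        · rw [Finset.mem_product] at hz
          exact hoff _ _ hz
      rw [e2]
      refine Finset.sum_le_sum_of_subset_of_nonneg ?_ fun z _ _ => hg _ _
      intro z hz
      exact (Finset.mem_filter.mp hz).2
    refine (Finset.sum_le_sum h2).trans (le_of_eq ?_)
    rw [Finset.sum_const, Finset.card_range, nsmul_eq_mul]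
  have h3 := mul_le_mul_of_nonneg_left (Finset.sum_le_sum h1)
    (by positivity : (0 : ℝ) ≤ 1 / (N : ℝ) ^ 2)
  refine h3.trans ?_
  rw [Finset.sum_const, Finset.card_range, nsmul_eq_mul]
  have hS : 0 ≤ ∑ z ∈ T, ∑ z' ∈ T', g z z' :=
    Finset.sum_nonneg fun z _ => Finset.sum_nonneg fun z' _ => hg _ _
  rcases Nat.eq_zero_or_pos N with h0 | h0
  · subst h0; simpa using hS
  · have hN : (0 : ℝ) < N := by exact_mod_cast h0
    refine le_of_eq ?_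
    field_simp

/-- sum over the frozen variable -/
lemma sum_gK_le (α γ δ : ℤ) (hα : α ≠ 0) (T T' : Finset ℤ) (a : ℤ → ℤ → ℂ) (D : Finset ℤ)
    (G : ℤ → ℂ) (Wf : Finset ℤ) :
    ∑ w ∈ Wf, ∑ z ∈ T, ∑ z' ∈ T', gK α γ δ T T' a D G w z z' ≤
      n3 T T' a * ∑ y ∈ D, ‖G y‖ ^ 2 := by
  classical
  rw [Finset.sum_comm]
  unfold n3
  rw [Finset.sum_mul]
  refine Finset.sum_le_sum fun z hz => ?_
  rw [Finset.sum_comm, Finset.sum_mul]
  refine Finset.sum_le_sum fun z' hz' => ?_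
  have e : ∀ w ∈ Wf, gK α γ δ T T' a D G w z z' = ‖a z z'‖ ^ 3 *
      (if α * w + γ * z + δ * z' ∈ D then ‖G (α * w + γ * z + δ * z')‖ ^ 2 else 0) := by
    intro w _
    unfold gK
    rw [if_pos ⟨hz, hz'⟩]
  rw [Finset.sum_congr rfl e, ← Finset.mul_sum]
  refine mul_le_mul_of_nonneg_left ?_ (by positivity)
  rw [← Finset.sum_filter]
  rw [← Finset.sum_image (f := fun y => ‖G y‖ ^ 2) (g := fun w => α * w + γ * z + δ * z')]
  · refine Finset.sum_le_sum_of_subset_of_nonneg ?_ fun y _ _ => by positivity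
    intro y hy
    rw [Finset.mem_image] at hy
    obtain ⟨w, hw, rfl⟩ := hy
    exact (Finset.mem_filter.mp hw).2
  · intro w _ w' _ hww
    simp only at hww
    have : α * w = α * w' := by linarith
    exact mul_left_cancel₀ hα this


/-- a change of the frozen kernel is seen at an exit -/
lemma fK_sees (R : Finset (ℕ × ℤ)) (J : ℕ × ℤ) (hR : IsRegion R J) (m : ℕ) (hm : m ≤ J.1)
    (F : ℤ → ℂ) (σ : Bool) (α γ δ : ℤ) (T T' : Finset ℤ) (a : ℤ → ℤ → ℂ) (w : ℤ) (N : ℕ) (q p : ℤ)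
    (h : SeesZ (fK σ α γ δ T T' a (msk (Rs R (m + 1)) F) w)
      (fK σ α γ δ T T' a (msk (Rs R m) F) w) N q p) :
    ∃ i j : ℕ, i < N ∧ j < N ∧ α * w + γ * (q + (i : ℤ)) + δ * (p + (j : ℤ)) ∈ Dm R m := by
  obtain ⟨i, j, hi, hj, hne⟩ := h
  refine ⟨i, j, hi, hj, ?_⟩
  by_contra hc
  apply hne
  have hmono := Rs_mono R J hR m hm
  have e : msk (Rs R (m + 1)) F (α * w + γ * (q + (i : ℤ)) + δ * (p + (j : ℤ))) =
      msk (Rs R m) F (α * w + γ * (q + (i : ℤ)) + δ * (p + (j : ℤ))) := by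
    unfold msk
    unfold Dm at hc
    rw [Finset.mem_sdiff] at hc
    by_cases h1 : α * w + γ * (q + (i : ℤ)) + δ * (p + (j : ℤ)) ∈ Rs R m
    · rw [if_pos h1, if_pos (hmono h1)]
    · have h2 : α * w + γ * (q + (i : ℤ)) + δ * (p + (j : ℤ)) ∉ Rs R (m + 1) :=
        fun h2 => hc ⟨h2, h1⟩
      rw [if_neg h1, if_neg h2]
  unfold fK
  rw [e]

lemma abs_smul_le (s : ℤ) (i N : ℕ) (hs : |s| ≤ 3) (hi : i < N) : |s * (i : ℤ)| ≤ 3 * N := by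
  rw [abs_mul, abs_of_nonneg (by positivity : (0 : ℤ) ≤ i)]
  have hi' : (i : ℤ) ≤ N := by exact_mod_cast hi.le
  exact mul_le_mul hs hi' (by positivity) (by norm_num)

lemma mem_Dp (R : Finset (ℕ × ℤ)) (m h : ℕ) (d y : ℤ) (hd : d ∈ Dm R m)
    (h1 : |y - d| ≤ h * 2 ^ m) : y ∈ Dp R m h := by
  unfold Dp
  rw [Finset.mem_biUnion]
  refine ⟨d, hd, ?_⟩
  rw [Finset.mem_Icc]
  rw [abs_le] at h1
  constructor <;> linarith [h1.1, h1.2]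

/-- **own potentials at the exits** -/
lemma ETZ_fK_le (R : Finset (ℕ × ℤ)) (J : ℕ × ℤ) (hR : IsRegion R J) (m s h : ℕ) (hm : m ≤ J.1)
    (hh : 12 * 2 ^ s ≤ h) (F : ℤ → ℂ) (A : ℝ) (hA : 0 < A)
    (hF : ∀ p ∈ R, av2 (p.1 + 7) p.2 F ≤ A) (σ : Bool) (α γ δ : ℤ) (hγ : γ ≠ 0) (hγ3 : |γ| ≤ 3)
    (hδ3 : |δ| ≤ 3) (T T' : Finset ℤ) (a : ℤ → ℤ → ℂ) (w : ℤ) (L : ℕ) :
    ETZ L (fK σ α γ δ T T' a (msk (Rs R (m + 1)) F) w) (fK σ α γ δ T T' a (msk (Rs R m) F) w)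
      (2 ^ (m + s)) ≤ 30 * A * ∑ z ∈ T, ∑ z' ∈ T',
        gK α γ δ T T' a (Dp R m h) (msk (Rm R m) F) w z z' := by
  classical
  set N := 2 ^ (m + s) with hN
  set g := gK α γ δ T T' a (Dp R m h) (msk (Rm R m) F) w with hg
  have hNz : (N : ℤ) = 2 ^ s * 2 ^ m := by rw [hN]; push_cast; rw [pow_add]; ring
  have h1 : ∀ q p : ℤ, (if SeesZ (fK σ α γ δ T T' a (msk (Rs R (m + 1)) F) w)
      (fK σ α γ δ T T' a (msk (Rs R m) F) w) N q p then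
      bxZ (fK σ α γ δ T T' a (msk (Rs R (m + 1)) F) w) N q p ^ (3 / 2 : ℝ) else 0) ≤
      30 * A * ((1 / (N : ℝ) ^ 2) * ∑ i ∈ range N, ∑ j ∈ range N, g (q + (i : ℤ)) (p + (j : ℤ))) := by
    intro q p
    split_ifs with hs
    · obtain ⟨i', j', hi', hj', hd⟩ := fK_sees R J hR m hm F σ α γ δ T T' a w N q p hs
      refine bxZ_fK_le R m s F A hA hF σ α γ δ hγ hγ3 T T' a w (Dp R m h) q p ?_
      intro i j hi hj
      refine mem_Dp R m h _ _ hd ?_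
      have a1 := abs_smul_le γ i N hγ3 hi
      have a2 := abs_smul_le γ i' N hγ3 hi'
      have a3 := abs_smul_le δ j N hδ3 hj
      have a4 := abs_smul_le δ j' N hδ3 hj'
      have e : α * w + γ * (q + (i : ℤ)) + δ * (p + (j : ℤ)) -
          (α * w + γ * (q + (i' : ℤ)) + δ * (p + (j' : ℤ))) =
          γ * (i : ℤ) + δ * (j : ℤ) - γ * (i' : ℤ) - δ * (j' : ℤ) := by ring
      have hhz : (12 * 2 ^ s : ℤ) ≤ h := by exact_mod_cast hh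
      have hb : 12 * (N : ℤ) ≤ h * 2 ^ m := by
        rw [hNz]
        have : (0 : ℤ) ≤ 2 ^ m := by positivity
        nlinarith
      rw [e]
      refine le_trans ?_ hb
      rw [abs_le] at a1 a2 a3 a4 ⊢
      constructor <;> linarith [a1.1, a1.2, a2.1, a2.2, a3.1, a3.2, a4.1, a4.2]
    · have : ∀ i ∈ range N, ∀ j ∈ range N, 0 ≤ g (q + (i : ℤ)) (p + (j : ℤ)) :=
        fun i _ j _ => gK_nonneg _ _ _ _ _ _ _ _ _ _ _
      have h2 : 0 ≤ ∑ i ∈ range N, ∑ j ∈ range N, g (q + (i : ℤ)) (p + (j : ℤ)) :=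
        Finset.sum_nonneg fun i hi => Finset.sum_nonneg fun j hj => this i hi j hj
      positivity
  unfold ETZ
  refine (Finset.sum_le_sum fun q _ => Finset.sum_le_sum fun p _ => h1 q p).trans ?_
  rw [← Finset.sum_product', ← Finset.mul_sum]
  refine mul_le_mul_of_nonneg_left ?_ (by positivity)
  exact sum_positions (Icc (-(L : ℤ)) L ×ˢ Icc (-(L : ℤ)) L) (fun x => x)
    (fun x _ y _ hxy => hxy) N T T' g (fun z z' => gK_nonneg _ _ _ _ _ _ _ _ _ _ _)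
    (fun z z' hz => gK_off _ _ _ _ _ _ _ _ _ _ _ hz)

/-- slopes: all four distinct in `[0,3]` -/
structure Slopes (sj s0 s1 s2 : ℤ) : Prop where
  hj : 0 ≤ sj ∧ sj ≤ 3
  h0 : 0 ≤ s0 ∧ s0 ≤ 3
  h1 : 0 ≤ s1 ∧ s1 ≤ 3
  h2 : 0 ≤ s2 ∧ s2 ≤ 3
  nj0 : sj - s0 ≠ 0
  nj1 : sj - s1 ≠ 0
  nj2 : sj - s2 ≠ 0
  n10 : s1 - s0 ≠ 0
  n21 : s2 - s1 ≠ 0
  n02 : s0 - s2 ≠ 0

lemma slopes_sl (j : Fin 4) : Slopes (sl j) (sl (j.succAbove 0)) (sl (j.succAbove 1))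
    (sl (j.succAbove 2)) := by
  fin_cases j <;> constructor <;> decide

/-- **joint potentials at the exits** -/
lemma VTZ_fK_le (R : Finset (ℕ × ℤ)) (J : ℕ × ℤ) (hR : IsRegion R J) (m h : ℕ) (hm : m ≤ J.1)
    (hh : 24 ≤ h) (F0 F1 F2 : ℤ → ℂ) (A0 A1 A2 : ℝ) (hA0 : 0 < A0) (hA1 : 0 < A1) (hA2 : 0 < A2)
    (hF0 : ∀ p ∈ R, av2 (p.1 + 7) p.2 F0 ≤ A0) (hF1 : ∀ p ∈ R, av2 (p.1 + 7) p.2 F1 ≤ A1)
    (hF2 : ∀ p ∈ R, av2 (p.1 + 7) p.2 F2 ≤ A2) (σ0 σ1 σ2 : Bool) (sj s0 s1 s2 : ℤ)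
    (hs : Slopes sj s0 s1 s2) (T0 T1 T2 : Finset ℤ) (a b c : ℤ → ℤ → ℂ) (w : ℤ) (L : ℕ) :
    VTZ L w
      (fK σ2 (sj - s2) (s0 - s2) (s1 - s2) T0 T1 a (msk (Rs R (m + 1)) F2) w)
      (fK σ0 (sj - s0) (s1 - s0) (s2 - s0) T1 T2 b (msk (Rs R (m + 1)) F0) w)
      (fK σ1 (sj - s1) (s2 - s1) (s0 - s1) T2 T0 c (msk (Rs R (m + 1)) F1) w)
      (fK σ2 (sj - s2) (s0 - s2) (s1 - s2) T0 T1 a (msk (Rs R m) F2) w)
      (fK σ0 (sj - s0) (s1 - s0) (s2 - s0) T1 T2 b (msk (Rs R m) F0) w)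
      (fK σ1 (sj - s1) (s2 - s1) (s0 - s1) T2 T0 c (msk (Rs R m) F1) w) (2 ^ m) ≤
    30 * A2 * (∑ z ∈ T0, ∑ z' ∈ T1,
        gK (sj - s2) (s0 - s2) (s1 - s2) T0 T1 a (Dp R m h) (msk (Rm R m) F2) w z z') +
    30 * A0 * (∑ z ∈ T1, ∑ z' ∈ T2,
        gK (sj - s0) (s1 - s0) (s2 - s0) T1 T2 b (Dp R m h) (msk (Rm R m) F0) w z z') +
    30 * A1 * (∑ z ∈ T2, ∑ z' ∈ T0,
        gK (sj - s1) (s2 - s1) (s0 - s1) T2 T0 c (Dp R m h) (msk (Rm R m) F1) w z z') := by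
  classical
  set N := 2 ^ m with hN
  set gA := gK (sj - s2) (s0 - s2) (s1 - s2) T0 T1 a (Dp R m h) (msk (Rm R m) F2) w with hgA
  set gB := gK (sj - s0) (s1 - s0) (s2 - s0) T1 T2 b (Dp R m h) (msk (Rm R m) F0) w with hgB
  set gC := gK (sj - s1) (s2 - s1) (s0 - s1) T2 T0 c (Dp R m h) (msk (Rm R m) F1) w with hgC
  have hNz : (N : ℤ) = 2 ^ m := by rw [hN]; push_cast; ring
  set av : (ℤ → ℤ → ℝ) → ℤ → ℤ → ℝ := fun g q p =>
    (1 / (N : ℝ) ^ 2) * ∑ i ∈ range N, ∑ j ∈ range N, g (q + (i : ℤ)) (p + (j : ℤ)) with hav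
  have hav0 : ∀ (g : ℤ → ℤ → ℝ), (∀ z z', 0 ≤ g z z') → ∀ q p, 0 ≤ av g q p := by
    intro g hg q p
    simp only [hav]
    exact mul_nonneg (by positivity)
      (Finset.sum_nonneg fun i _ => Finset.sum_nonneg fun j _ => hg _ _)
  have hgA0 : ∀ z z', 0 ≤ gA z z' := fun z z' => gK_nonneg _ _ _ _ _ _ _ _ _ _ _
  have hgB0 : ∀ z z', 0 ≤ gB z z' := fun z z' => gK_nonneg _ _ _ _ _ _ _ _ _ _ _
  have hgC0 : ∀ z z', 0 ≤ gC z z' := fun z z' => gK_nonneg _ _ _ _ _ _ _ _ _ _ _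
  have b2 : |s0 - s2| ≤ 3 ∧ |s1 - s2| ≤ 3 := by
    constructor <;> rw [abs_le] <;> constructor <;> linarith [hs.h0.1, hs.h0.2, hs.h1.1, hs.h1.2, hs.h2.1, hs.h2.2]
  have b0 : |s1 - s0| ≤ 3 ∧ |s2 - s0| ≤ 3 := by
    constructor <;> rw [abs_le] <;> constructor <;> linarith [hs.h0.1, hs.h0.2, hs.h1.1, hs.h1.2, hs.h2.1, hs.h2.2]
  have b1 : |s2 - s1| ≤ 3 ∧ |s0 - s1| ≤ 3 := by
    constructor <;> rw [abs_le] <;> constructor <;> linarith [hs.h0.1, hs.h0.2, hs.h1.1, hs.h1.2, hs.h2.1, hs.h2.2]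
  have hbh : 24 * (N : ℤ) ≤ h * 2 ^ m := by
    rw [hNz]
    have h24 : (24 : ℤ) ≤ h := by exact_mod_cast hh
    exact mul_le_mul_of_nonneg_right h24 (by positivity)
  -- the value at one position
  have h1 : ∀ i ∈ range N, ∀ p0 p1 : ℤ,
      (if SeesZ (fK σ2 (sj - s2) (s0 - s2) (s1 - s2) T0 T1 a (msk (Rs R (m + 1)) F2) w)
          (fK σ2 (sj - s2) (s0 - s2) (s1 - s2) T0 T1 a (msk (Rs R m) F2) w) N p0 p1 ∨
        SeesZ (fK σ0 (sj - s0) (s1 - s0) (s2 - s0) T1 T2 b (msk (Rs R (m + 1)) F0) w)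
          (fK σ0 (sj - s0) (s1 - s0) (s2 - s0) T1 T2 b (msk (Rs R m) F0) w) N p1
            (tc N i w p0 p1) ∨
        SeesZ (fK σ1 (sj - s1) (s2 - s1) (s0 - s1) T2 T0 c (msk (Rs R (m + 1)) F1) w)
          (fK σ1 (sj - s1) (s2 - s1) (s0 - s1) T2 T0 c (msk (Rs R m) F1) w) N
            (tc N i w p0 p1) p0 then
        bxZ (fK σ2 (sj - s2) (s0 - s2) (s1 - s2) T0 T1 a (msk (Rs R (m + 1)) F2) w) N p0 p1
          ^ (3 / 2 : ℝ) +
        bxZ (fK σ0 (sj - s0) (s1 - s0) (s2 - s0) T1 T2 b (msk (Rs R (m + 1)) F0) w) N p1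
          (tc N i w p0 p1) ^ (3 / 2 : ℝ) +
        bxZ (fK σ1 (sj - s1) (s2 - s1) (s0 - s1) T2 T0 c (msk (Rs R (m + 1)) F1) w) N
          (tc N i w p0 p1) p0 ^ (3 / 2 : ℝ)
      else 0) ≤ 30 * A2 * av gA p0 p1 + 30 * A0 * av gB p1 (tc N i w p0 p1) +
        30 * A1 * av gC (tc N i w p0 p1) p0 := by
    intro i hi p0 p1
    rw [Finset.mem_range] at hi
    split_ifs with hse
    · set p2 := tc N i w p0 p1 with hp2
      set G0 : ℤ := sj * w + s0 * p0 + s1 * p1 + s2 * p2 with hG0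
      set t0 : ℤ := w + p0 + p1 + p2 with ht0
      have ht : t0 = -(2 * (N : ℤ)) + i := by rw [ht0, hp2]; unfold tc; ring
      have hi' : (i : ℤ) < N := by exact_mod_cast hi
      have hi0 : (0 : ℤ) ≤ i := by positivity
      have hst : ∀ s : ℤ, 0 ≤ s ∧ s ≤ 3 → |s * t0| ≤ 6 * N := by
        intro s hs
        rw [abs_mul]
        have h1 : |s| ≤ 3 := by rw [abs_le]; constructor <;> linarith [hs.1, hs.2]
        have h2 : |t0| ≤ 2 * N := by rw [ht, abs_le]; constructor <;> linarith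
        have := mul_le_mul h1 h2 (abs_nonneg _) (by norm_num)
        linarith
      -- all points are close to `G0`
      have cA : ∀ i0 i1 : ℕ, i0 < N → i1 < N → |((sj - s2) * w + (s0 - s2) * (p0 + (i0 : ℤ)) +
          (s1 - s2) * (p1 + (i1 : ℤ))) - G0| ≤ 12 * N := by
        intro i0 i1 hi0 hi1
        have e : ((sj - s2) * w + (s0 - s2) * (p0 + (i0 : ℤ)) + (s1 - s2) * (p1 + (i1 : ℤ))) - G0 =
            -(s2 * t0) + (s0 - s2) * (i0 : ℤ) + (s1 - s2) * (i1 : ℤ) := by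
          rw [hG0, ht0]; ring
        have a1 := abs_smul_le (s0 - s2) i0 N b2.1 hi0
        have a2 := abs_smul_le (s1 - s2) i1 N b2.2 hi1
        have a3 := hst s2 hs.h2
        rw [e]
        rw [abs_le] at a1 a2 a3 ⊢
        constructor <;> linarith [a1.1, a1.2, a2.1, a2.2, a3.1, a3.2]
      have cB : ∀ i0 i1 : ℕ, i0 < N → i1 < N → |((sj - s0) * w + (s1 - s0) * (p1 + (i0 : ℤ)) +
          (s2 - s0) * (p2 + (i1 : ℤ))) - G0| ≤ 12 * N := by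
        intro i0 i1 hi0 hi1
        have e : ((sj - s0) * w + (s1 - s0) * (p1 + (i0 : ℤ)) + (s2 - s0) * (p2 + (i1 : ℤ))) - G0 =
            -(s0 * t0) + (s1 - s0) * (i0 : ℤ) + (s2 - s0) * (i1 : ℤ) := by
          rw [hG0, ht0]; ring
        have a1 := abs_smul_le (s1 - s0) i0 N b0.1 hi0
        have a2 := abs_smul_le (s2 - s0) i1 N b0.2 hi1
        have a3 := hst s0 hs.h0
        rw [e]
        rw [abs_le] at a1 a2 a3 ⊢
        constructor <;> linarith [a1.1, a1.2, a2.1, a2.2, a3.1, a3.2]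
      have cC : ∀ i0 i1 : ℕ, i0 < N → i1 < N → |((sj - s1) * w + (s2 - s1) * (p2 + (i0 : ℤ)) +
          (s0 - s1) * (p0 + (i1 : ℤ))) - G0| ≤ 12 * N := by
        intro i0 i1 hi0 hi1
        have e : ((sj - s1) * w + (s2 - s1) * (p2 + (i0 : ℤ)) + (s0 - s1) * (p0 + (i1 : ℤ))) - G0 =
            -(s1 * t0) + (s2 - s1) * (i0 : ℤ) + (s0 - s1) * (i1 : ℤ) := by
          rw [hG0, ht0]; ring
        have a1 := abs_smul_le (s2 - s1) i0 N b1.1 hi0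
        have a2 := abs_smul_le (s0 - s1) i1 N b1.2 hi1
        have a3 := hst s1 hs.h1
        rw [e]
        rw [abs_le] at a1 a2 a3 ⊢
        constructor <;> linarith [a1.1, a1.2, a2.1, a2.2, a3.1, a3.2]
      obtain ⟨d, hd, hdG⟩ : ∃ d ∈ Dm R m, |d - G0| ≤ 12 * N := by
        rcases hse with hse | hse | hse
        · obtain ⟨i', j', hi', hj', hd⟩ := fK_sees R J hR m hm F2 σ2 _ _ _ T0 T1 a w N p0 p1 hse
          exact ⟨_, hd, cA i' j' hi' hj'⟩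
        · obtain ⟨i', j', hi', hj', hd⟩ := fK_sees R J hR m hm F0 σ0 _ _ _ T1 T2 b w N p1 p2 hse
          exact ⟨_, hd, cB i' j' hi' hj'⟩
        · obtain ⟨i', j', hi', hj', hd⟩ := fK_sees R J hR m hm F1 σ1 _ _ _ T2 T0 c w N p2 p0 hse
          exact ⟨_, hd, cC i' j' hi' hj'⟩
      have close : ∀ y : ℤ, |y - G0| ≤ 12 * N → y ∈ Dp R m h := by
        intro y hy
        refine mem_Dp R m h d y hd (le_trans ?_ hbh)
        rw [abs_le] at hy hdG ⊢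
        constructor <;> linarith [hy.1, hy.2, hdG.1, hdG.2]
      refine add_le_add (add_le_add ?_ ?_) ?_
      · exact bxZ_fK_le R m 0 F2 A2 hA2 hF2 σ2 _ _ _ hs.n02 b2.1 T0 T1 a w (Dp R m h) p0 p1
          fun i j hi hj => close _ (cA i j hi hj)
      · exact bxZ_fK_le R m 0 F0 A0 hA0 hF0 σ0 _ _ _ hs.n10 b0.1 T1 T2 b w (Dp R m h) p1 p2
          fun i j hi hj => close _ (cB i j hi hj)
      · exact bxZ_fK_le R m 0 F1 A1 hA1 hF1 σ1 _ _ _ hs.n21 b1.1 T2 T0 c w (Dp R m h) p2 p0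
          fun i j hi hj => close _ (cC i j hi hj)
    · have := hav0 gA hgA0 p0 p1
      have := hav0 gB hgB0 p1 (tc N i w p0 p1)
      have := hav0 gC hgC0 (tc N i w p0 p1) p0
      positivity
  set SA := ∑ z ∈ T0, ∑ z' ∈ T1, gA z z' with hSA
  set SB := ∑ z ∈ T1, ∑ z' ∈ T2, gB z z' with hSB
  set SC := ∑ z ∈ T2, ∑ z' ∈ T0, gC z z' with hSC
  have h2 : ∀ i ∈ range N, ∑ p0 ∈ Icc (-(L : ℤ)) L, ∑ p1 ∈ Icc (-(L : ℤ)) L,
      (if SeesZ (fK σ2 (sj - s2) (s0 - s2) (s1 - s2) T0 T1 a (msk (Rs R (m + 1)) F2) w)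
          (fK σ2 (sj - s2) (s0 - s2) (s1 - s2) T0 T1 a (msk (Rs R m) F2) w) N p0 p1 ∨
        SeesZ (fK σ0 (sj - s0) (s1 - s0) (s2 - s0) T1 T2 b (msk (Rs R (m + 1)) F0) w)
          (fK σ0 (sj - s0) (s1 - s0) (s2 - s0) T1 T2 b (msk (Rs R m) F0) w) N p1
            (tc N i w p0 p1) ∨
        SeesZ (fK σ1 (sj - s1) (s2 - s1) (s0 - s1) T2 T0 c (msk (Rs R (m + 1)) F1) w)
          (fK σ1 (sj - s1) (s2 - s1) (s0 - s1) T2 T0 c (msk (Rs R m) F1) w) N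
            (tc N i w p0 p1) p0 then
        bxZ (fK σ2 (sj - s2) (s0 - s2) (s1 - s2) T0 T1 a (msk (Rs R (m + 1)) F2) w) N p0 p1
          ^ (3 / 2 : ℝ) +
        bxZ (fK σ0 (sj - s0) (s1 - s0) (s2 - s0) T1 T2 b (msk (Rs R (m + 1)) F0) w) N p1
          (tc N i w p0 p1) ^ (3 / 2 : ℝ) +
        bxZ (fK σ1 (sj - s1) (s2 - s1) (s0 - s1) T2 T0 c (msk (Rs R (m + 1)) F1) w) N
          (tc N i w p0 p1) p0 ^ (3 / 2 : ℝ)
      else 0) ≤ 30 * A2 * SA + 30 * A0 * SB + 30 * A1 * SC := by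
    intro i hi
    refine (Finset.sum_le_sum fun p0 _ => Finset.sum_le_sum fun p1 _ => h1 i hi p0 p1).trans ?_
    have qA : ∑ x ∈ Icc (-(L : ℤ)) L ×ˢ Icc (-(L : ℤ)) L, av gA x.1 x.2 ≤ SA :=
      sum_positions (Icc (-(L : ℤ)) L ×ˢ Icc (-(L : ℤ)) L) (fun x => x)
        (fun x _ y _ hxy => hxy) N T0 T1 gA hgA0 (fun z z' hz => gK_off _ _ _ _ _ _ _ _ _ _ _ hz)
    have qB : ∑ x ∈ Icc (-(L : ℤ)) L ×ˢ Icc (-(L : ℤ)) L, av gB x.2 (tc N i w x.1 x.2) ≤ SB := by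
      refine sum_positions (Icc (-(L : ℤ)) L ×ˢ Icc (-(L : ℤ)) L)
        (fun x => (x.2, tc N i w x.1 x.2)) ?_ N T1 T2 gB hgB0
        (fun z z' hz => gK_off _ _ _ _ _ _ _ _ _ _ _ hz)
      intro x _ y _ hxy
      simp only [Prod.mk.injEq, tc] at hxy
      exact Prod.ext (by linarith [hxy.1, hxy.2]) hxy.1
    have qC : ∑ x ∈ Icc (-(L : ℤ)) L ×ˢ Icc (-(L : ℤ)) L, av gC (tc N i w x.1 x.2) x.1 ≤ SC := by
      refine sum_positions (Icc (-(L : ℤ)) L ×ˢ Icc (-(L : ℤ)) L)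
        (fun x => (tc N i w x.1 x.2, x.1)) ?_ N T2 T0 gC hgC0
        (fun z z' hz => gK_off _ _ _ _ _ _ _ _ _ _ _ hz)
      intro x _ y _ hxy
      simp only [Prod.mk.injEq, tc] at hxy
      exact Prod.ext hxy.2 (by linarith [hxy.1, hxy.2])
    have e : ∑ p0 ∈ Icc (-(L : ℤ)) L, ∑ p1 ∈ Icc (-(L : ℤ)) L,
        (30 * A2 * av gA p0 p1 + 30 * A0 * av gB p1 (tc N i w p0 p1) +
          30 * A1 * av gC (tc N i w p0 p1) p0) =
        30 * A2 * (∑ x ∈ Icc (-(L : ℤ)) L ×ˢ Icc (-(L : ℤ)) L, av gA x.1 x.2) +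
        30 * A0 * (∑ x ∈ Icc (-(L : ℤ)) L ×ˢ Icc (-(L : ℤ)) L, av gB x.2 (tc N i w x.1 x.2)) +
        30 * A1 * (∑ x ∈ Icc (-(L : ℤ)) L ×ˢ Icc (-(L : ℤ)) L, av gC (tc N i w x.1 x.2) x.1) := by
      rw [Finset.mul_sum (Icc (-(L : ℤ)) L ×ˢ Icc (-(L : ℤ)) L) (fun x => av gA x.1 x.2),
        Finset.mul_sum (Icc (-(L : ℤ)) L ×ˢ Icc (-(L : ℤ)) L) (fun x => av gB x.2 (tc N i w x.1 x.2)),
        Finset.mul_sum (Icc (-(L : ℤ)) L ×ˢ Icc (-(L : ℤ)) L) (fun x => av gC (tc N i w x.1 x.2) x.1),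
        ← Finset.sum_add_distrib, ← Finset.sum_add_distrib, Finset.sum_product]
    rw [e]
    exact add_le_add (add_le_add (mul_le_mul_of_nonneg_left qA (by positivity))
      (mul_le_mul_of_nonneg_left qB (by positivity))) (mul_le_mul_of_nonneg_left qC (by positivity))
  unfold VTZ
  refine (mul_le_mul_of_nonneg_left (Finset.sum_le_sum h2) (by positivity)).trans ?_
  rw [Finset.sum_const, Finset.card_range, nsmul_eq_mul]
  have hN0 : (0 : ℝ) < (N : ℝ) := by rw [hN]; positivity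
  refine le_of_eq ?_
  field_simp

end Crest.Agent.R079.Glue
end

-- ▼ part R079/Frozen_569

/-! R079, I1 (helper569): the frozen atom theorem `FrozenAtom` from `TriIso`. -/

set_option autoImplicit false

namespace Crest.Agent.R079.Glue

open Finset Crest.Agent.R079.Grid

/-! ### complex to real -/

/-- `1` or `I` -/
noncomputable def co (σ : Bool) : ℂ := if σ then 1 else Complex.I

lemma norm_co (σ : Bool) : ‖co σ‖ = 1 := by unfold co; split_ifs <;> simp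

lemma co_pr (z : ℂ) : z = ∑ σ : Bool, co σ * ((pr σ z : ℝ) : ℂ) := by
  rw [Fintype.sum_bool]
  unfold co pr
  simp only [if_true, Bool.false_eq_true, if_false]
  rw [one_mul, mul_comm]
  exact (Complex.re_add_im z).symm

lemma co_pr' (z : ℂ) : z = co true * ((pr true z : ℝ) : ℂ) + co false * ((pr false z : ℝ) : ℂ) := by
  have := co_pr z
  rwa [Fintype.sum_bool] at this

lemma Lb3_A (A B C : ℤ → ℤ → ℂ) (N : ℕ) (p0 p1 p2 : ℤ) :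
    Lb3 A B C N p0 p1 p2 = ∑ σ : Bool, co σ * Lb3 (fun z z' => ((pr σ (A z z') : ℝ) : ℂ)) B C N p0 p1 p2 := by
  rw [Fintype.sum_bool]
  unfold Lb3
  simp only [Finset.mul_sum]
  simp only [← Finset.sum_add_distrib]
  refine Finset.sum_congr rfl fun i0 _ => Finset.sum_congr rfl fun i1 _ =>
    Finset.sum_congr rfl fun i2 _ => ?_
  conv_lhs => rw [co_pr' (A (p0 + ((i0 : ℕ) : ℤ)) (p1 + ((i1 : ℕ) : ℤ)))]
  ring

lemma Lb3_B (A B C : ℤ → ℤ → ℂ) (N : ℕ) (p0 p1 p2 : ℤ) :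
    Lb3 A B C N p0 p1 p2 = ∑ σ : Bool, co σ * Lb3 A (fun z z' => ((pr σ (B z z') : ℝ) : ℂ)) C N p0 p1 p2 := by
  rw [Fintype.sum_bool]
  unfold Lb3
  simp only [Finset.mul_sum]
  simp only [← Finset.sum_add_distrib]
  refine Finset.sum_congr rfl fun i0 _ => Finset.sum_congr rfl fun i1 _ =>
    Finset.sum_congr rfl fun i2 _ => ?_
  conv_lhs => rw [co_pr' (B (p1 + ((i1 : ℕ) : ℤ)) (p2 + ((i2 : ℕ) : ℤ)))]
  ring

lemma Lb3_C (A B C : ℤ → ℤ → ℂ) (N : ℕ) (p0 p1 p2 : ℤ) :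
    Lb3 A B C N p0 p1 p2 = ∑ σ : Bool, co σ * Lb3 A B (fun z z' => ((pr σ (C z z') : ℝ) : ℂ)) N p0 p1 p2 := by
  rw [Fintype.sum_bool]
  unfold Lb3
  simp only [Finset.mul_sum]
  simp only [← Finset.sum_add_distrib]
  refine Finset.sum_congr rfl fun i0 _ => Finset.sum_congr rfl fun i1 _ =>
    Finset.sum_congr rfl fun i2 _ => ?_
  conv_lhs => rw [co_pr' (C (p2 + ((i2 : ℕ) : ℤ)) (p0 + ((i0 : ℕ) : ℤ)))]
  ring

lemma Lb3_real (A B C : ℤ → ℤ → ℝ) (N : ℕ) (p0 p1 p2 : ℤ) :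
    Lb3 (fun z z' => (A z z' : ℂ)) (fun z z' => (B z z' : ℂ)) (fun z z' => (C z z' : ℂ)) N p0 p1 p2 =
      ((Lb3r A B C N p0 p1 p2 : ℝ) : ℂ) := by
  unfold Lb3 Lb3r
  push_cast
  rfl

lemma norm_sum_co (f : Bool → ℂ) : ‖∑ σ : Bool, co σ * f σ‖ ≤ ∑ σ : Bool, ‖f σ‖ := by
  refine (norm_sum_le _ _).trans (Finset.sum_le_sum fun σ _ => ?_)
  rw [norm_mul, norm_co, one_mul]

lemma norm_Lb3_le (A B C : ℤ → ℤ → ℂ) (N : ℕ) (p0 p1 p2 : ℤ) :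
    ‖Lb3 A B C N p0 p1 p2‖ ≤ ∑ σ2 : Bool, ∑ σ0 : Bool, ∑ σ1 : Bool,
      |Lb3r (fun z z' => pr σ2 (A z z')) (fun z z' => pr σ0 (B z z'))
        (fun z z' => pr σ1 (C z z')) N p0 p1 p2| := by
  rw [Lb3_A]
  refine (norm_sum_co _).trans (Finset.sum_le_sum fun σ2 _ => ?_)
  rw [Lb3_B]
  refine (norm_sum_co _).trans (Finset.sum_le_sum fun σ0 _ => ?_)
  rw [Lb3_C]
  refine (norm_sum_co _).trans (Finset.sum_le_sum fun σ1 _ => ?_)
  rw [Lb3_real, Complex.norm_real, Real.norm_eq_abs]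

/-- frozen kernels of the masked functions are `fK` -/
lemma pr_frz (σ : Bool) (j k e f : Fin 4) (T T' : Finset ℤ) (a : ℤ → ℤ → ℂ) (G : ℤ → ℂ) (w : ℤ)
    (z z' : ℤ) : pr σ (frz j k e f T T' a G w z z') =
      fK σ (sl j - sl k) (sl e - sl k) (sl f - sl k) T T' a G w z z' := by
  unfold frz fK
  split_ifs
  · rfl
  · exact pr_zero σ

/-! ### one choice of real parts and one block: sum over scales and the frozen variable -/

/-- the data of the three frozen kernels at level index `n` -/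
noncomputable def famA (R : Finset (ℕ × ℤ)) (j : Fin 4) (T : Fin 3 → Finset ℤ) (a : ℤ → ℤ → ℂ)
    (F : Fin 4 → ℤ → ℂ) (σ : Bool) (w : ℤ) (n : ℕ) : ℤ → ℤ → ℝ :=
  fK σ (sl j - sl (j.succAbove 2)) (sl (j.succAbove 0) - sl (j.succAbove 2))
    (sl (j.succAbove 1) - sl (j.succAbove 2)) (T 0) (T 1) a (msk (Rs R n) (F (j.succAbove 2))) w

noncomputable def famB (R : Finset (ℕ × ℤ)) (j : Fin 4) (T : Fin 3 → Finset ℤ) (b : ℤ → ℤ → ℂ)
    (F : Fin 4 → ℤ → ℂ) (σ : Bool) (w : ℤ) (n : ℕ) : ℤ → ℤ → ℝ :=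
  fK σ (sl j - sl (j.succAbove 0)) (sl (j.succAbove 1) - sl (j.succAbove 0))
    (sl (j.succAbove 2) - sl (j.succAbove 0)) (T 1) (T 2) b (msk (Rs R n) (F (j.succAbove 0))) w

noncomputable def famC (R : Finset (ℕ × ℤ)) (j : Fin 4) (T : Fin 3 → Finset ℤ) (c : ℤ → ℤ → ℂ)
    (F : Fin 4 → ℤ → ℂ) (σ : Bool) (w : ℤ) (n : ℕ) : ℤ → ℤ → ℝ :=
  fK σ (sl j - sl (j.succAbove 1)) (sl (j.succAbove 2) - sl (j.succAbove 1))
    (sl (j.succAbove 0) - sl (j.succAbove 1)) (T 2) (T 0) c (msk (Rs R n) (F (j.succAbove 1))) w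

lemma fK_support (σ : Bool) (α γ δ : ℤ) (T T' : Finset ℤ) (a : ℤ → ℤ → ℂ) (G : ℤ → ℂ) (w : ℤ)
    (L : ℕ) (hT : ∀ z ∈ T, |z| ≤ L) (hT' : ∀ z ∈ T', |z| ≤ L) (z z' : ℤ)
    (h : (L : ℤ) < |z| ∨ (L : ℤ) < |z'|) : fK σ α γ δ T T' a G w z z' = 0 := by
  unfold fK
  rw [if_neg]
  rintro ⟨h1, h2⟩
  rcases h with h | h
  · exact absurd (hT z h1) (not_le.mpr h)
  · exact absurd (hT' z' h2) (not_le.mpr h)

lemma fK_zero (σ : Bool) (α γ δ : ℤ) (T T' : Finset ℤ) (a : ℤ → ℤ → ℂ) (R : Finset (ℕ × ℤ))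
    (G : ℤ → ℂ) (w : ℤ) : fK σ α γ δ T T' a (msk (Rs R 0) G) w = 0 := by
  funext z z'
  unfold fK msk Rs
  simp [pr_zero]

lemma exists_bound (T : Fin 3 → Finset ℤ) : ∃ L : ℕ, ∀ i, ∀ z ∈ T i, |z| ≤ L := by
  classical
  refine ⟨(Finset.univ.sup fun i => (T i).sup fun z => z.natAbs), fun i z hz => ?_⟩
  have h1 : z.natAbs ≤ (T i).sup fun z => z.natAbs := Finset.le_sup (f := fun z : ℤ => z.natAbs) hz
  have h2 : ((T i).sup fun z => z.natAbs) ≤ Finset.univ.sup fun i => (T i).sup fun z => z.natAbs :=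
    Finset.le_sup (f := fun i => (T i).sup fun z : ℤ => z.natAbs) (Finset.mem_univ i)
  rw [Int.abs_eq_natAbs]
  exact_mod_cast h1.trans h2

/-- **one block, one choice of real parts** -/
lemma block_bound (K : ℝ) (hK : 0 ≤ K) (κ : ℕ)
    (hTri : ∀ l : ℤ, |l| ≤ 7 → ∀ (w : ℤ) (A B C : ℕ → ℤ → ℤ → ℝ) (L : ℕ),
    (∀ m x y, ((L : ℤ) < |x| ∨ (L : ℤ) < |y|) → A m x y = 0) →
    (∀ m x y, ((L : ℤ) < |x| ∨ (L : ℤ) < |y|) → B m x y = 0) →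
    (∀ m x y, ((L : ℤ) < |x| ∨ (L : ℤ) < |y|) → C m x y = 0) →
    A 0 = 0 → B 0 = 0 → C 0 = 0 → ∀ M L1 : ℕ, ∃ L' : ℕ,
    ∑ m ∈ range M, (1 / (2 : ℝ) ^ m) * ∑ i ∈ range (2 ^ m), ∑ p0 ∈ Icc (-(L1 : ℤ)) L1,
      ∑ p1 ∈ Icc (-(L1 : ℤ)) L1,
      |Lb3r (A (m + 1)) (B (m + 1)) (C (m + 1)) (2 ^ m) p0 p1
        (l * 2 ^ m + (i : ℤ) - w - p0 - p1)| ≤
    K * ∑ m ∈ range M,
      (VTZ L' w (A (m + 1)) (B (m + 1)) (C (m + 1)) (A m) (B m) (C m) (2 ^ m) +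
        ∑ s ∈ range κ, (ETZ L' (A (m + 1)) (A m) (2 ^ (m + s)) +
          ETZ L' (B (m + 1)) (B m) (2 ^ (m + s)) + ETZ L' (C (m + 1)) (C m) (2 ^ (m + s)))))
    (l : ℤ) (hl : |l| ≤ 7) (R : Finset (ℕ × ℤ)) (J : ℕ × ℤ) (hR : IsRegion R J) (j : Fin 4)
    (T : Fin 3 → Finset ℤ) (a b c : ℤ → ℤ → ℂ) (F : Fin 4 → ℤ → ℂ) (A : Fin 3 → ℝ)
    (hA : ∀ i, 0 < A i) (hF : ∀ i, ∀ p ∈ R, av2 (p.1 + 7) p.2 (F (j.succAbove i)) ≤ A i)
    (σ2 σ0 σ1 : Bool) (Wf : Finset ℤ) (L1 : ℕ) :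
    ∑ w ∈ Wf, ∑ m ∈ range (J.1 + 1), (1 / (2 : ℝ) ^ m) * ∑ i ∈ range (2 ^ m),
      ∑ p0 ∈ Icc (-(L1 : ℤ)) L1, ∑ p1 ∈ Icc (-(L1 : ℤ)) L1,
      |Lb3r (famA R j T a F σ2 w (m + 1)) (famB R j T b F σ0 w (m + 1))
        (famC R j T c F σ1 w (m + 1)) (2 ^ m) p0 p1 (l * 2 ^ m + (i : ℤ) - w - p0 - p1)| ≤
    (K * (1 + κ) * 30 * (2 * (2 * ((12 * 2 ^ κ + 24 : ℕ) : ℝ) + 257))) *
      (A 2 ^ 3 * n3 (T 0) (T 1) a + A 0 ^ 3 * n3 (T 1) (T 2) b + A 1 ^ 3 * n3 (T 2) (T 0) c) *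
      2 ^ (J.1 + 7) := by
  classical
  obtain ⟨L, hL⟩ := exists_bound T
  set h : ℕ := 12 * 2 ^ κ + 24 with hh
  have hsl := slopes_sl j
  have h1 : ∀ w, ∃ L' : ℕ,
    ∑ m ∈ range (J.1 + 1), (1 / (2 : ℝ) ^ m) * ∑ i ∈ range (2 ^ m), ∑ p0 ∈ Icc (-(L1 : ℤ)) L1,
      ∑ p1 ∈ Icc (-(L1 : ℤ)) L1,
      |Lb3r (famA R j T a F σ2 w (m + 1)) (famB R j T b F σ0 w (m + 1))
        (famC R j T c F σ1 w (m + 1)) (2 ^ m) p0 p1 (l * 2 ^ m + (i : ℤ) - w - p0 - p1)| ≤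
    K * ∑ m ∈ range (J.1 + 1),
      (VTZ L' w (famA R j T a F σ2 w (m + 1)) (famB R j T b F σ0 w (m + 1))
        (famC R j T c F σ1 w (m + 1)) (famA R j T a F σ2 w m) (famB R j T b F σ0 w m)
        (famC R j T c F σ1 w m) (2 ^ m) +
        ∑ s ∈ range κ, (ETZ L' (famA R j T a F σ2 w (m + 1)) (famA R j T a F σ2 w m) (2 ^ (m + s)) +
          ETZ L' (famB R j T b F σ0 w (m + 1)) (famB R j T b F σ0 w m) (2 ^ (m + s)) +
          ETZ L' (famC R j T c F σ1 w (m + 1)) (famC R j T c F σ1 w m) (2 ^ (m + s)))) := by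
    intro w
    exact hTri l hl w (famA R j T a F σ2 w) (famB R j T b F σ0 w) (famC R j T c F σ1 w) L
      (fun m x y hxy => fK_support _ _ _ _ _ _ _ _ _ L (hL 0) (hL 1) x y hxy)
      (fun m x y hxy => fK_support _ _ _ _ _ _ _ _ _ L (hL 1) (hL 2) x y hxy)
      (fun m x y hxy => fK_support _ _ _ _ _ _ _ _ _ L (hL 2) (hL 0) x y hxy)
      (fK_zero _ _ _ _ _ _ _ _ _ _) (fK_zero _ _ _ _ _ _ _ _ _ _) (fK_zero _ _ _ _ _ _ _ _ _ _)
      (J.1 + 1) L1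
  choose L' hL' using h1
  -- exit densities
  set gA : ℕ → ℤ → ℝ := fun m w => ∑ z ∈ T 0, ∑ z' ∈ T 1,
    gK (sl j - sl (j.succAbove 2)) (sl (j.succAbove 0) - sl (j.succAbove 2))
      (sl (j.succAbove 1) - sl (j.succAbove 2)) (T 0) (T 1) a (Dp R m h)
      (msk (Rm R m) (F (j.succAbove 2))) w z z' with hgA
  set gB : ℕ → ℤ → ℝ := fun m w => ∑ z ∈ T 1, ∑ z' ∈ T 2,
    gK (sl j - sl (j.succAbove 0)) (sl (j.succAbove 1) - sl (j.succAbove 0))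
      (sl (j.succAbove 2) - sl (j.succAbove 0)) (T 1) (T 2) b (Dp R m h)
      (msk (Rm R m) (F (j.succAbove 0))) w z z' with hgB
  set gC : ℕ → ℤ → ℝ := fun m w => ∑ z ∈ T 2, ∑ z' ∈ T 0,
    gK (sl j - sl (j.succAbove 1)) (sl (j.succAbove 2) - sl (j.succAbove 1))
      (sl (j.succAbove 0) - sl (j.succAbove 1)) (T 2) (T 0) c (Dp R m h)
      (msk (Rm R m) (F (j.succAbove 1))) w z z' with hgC
  have hlev : ∀ w, ∀ m ∈ range (J.1 + 1),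
      (VTZ (L' w) w (famA R j T a F σ2 w (m + 1)) (famB R j T b F σ0 w (m + 1))
        (famC R j T c F σ1 w (m + 1)) (famA R j T a F σ2 w m) (famB R j T b F σ0 w m)
        (famC R j T c F σ1 w m) (2 ^ m) +
        ∑ s ∈ range κ, (ETZ (L' w) (famA R j T a F σ2 w (m + 1)) (famA R j T a F σ2 w m) (2 ^ (m + s)) +
          ETZ (L' w) (famB R j T b F σ0 w (m + 1)) (famB R j T b F σ0 w m) (2 ^ (m + s)) +
          ETZ (L' w) (famC R j T c F σ1 w (m + 1)) (famC R j T c F σ1 w m) (2 ^ (m + s)))) ≤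
      (1 + κ) * (30 * A 2 * gA m w + 30 * A 0 * gB m w + 30 * A 1 * gC m w) := by
    intro w m hm
    rw [Finset.mem_range] at hm
    have v1 := VTZ_fK_le R J hR m h (by omega) (by omega) (F (j.succAbove 0)) (F (j.succAbove 1))
      (F (j.succAbove 2)) (A 0) (A 1) (A 2) (hA 0) (hA 1) (hA 2) (hF 0) (hF 1) (hF 2) σ0 σ1 σ2
      (sl j) (sl (j.succAbove 0)) (sl (j.succAbove 1)) (sl (j.succAbove 2)) hsl (T 0) (T 1) (T 2)
      a b c w (L' w)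
    have v2 : ∀ s ∈ range κ,
        (ETZ (L' w) (famA R j T a F σ2 w (m + 1)) (famA R j T a F σ2 w m) (2 ^ (m + s)) +
          ETZ (L' w) (famB R j T b F σ0 w (m + 1)) (famB R j T b F σ0 w m) (2 ^ (m + s)) +
          ETZ (L' w) (famC R j T c F σ1 w (m + 1)) (famC R j T c F σ1 w m) (2 ^ (m + s))) ≤
        (30 * A 2 * gA m w + 30 * A 0 * gB m w + 30 * A 1 * gC m w) := by
      intro s hs
      rw [Finset.mem_range] at hs
      have hsh : 12 * 2 ^ s ≤ h := by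
        have : 2 ^ s ≤ 2 ^ κ := Nat.pow_le_pow_right (by norm_num) hs.le
        omega
      have b2 : |sl (j.succAbove 0) - sl (j.succAbove 2)| ≤ 3 ∧
          |sl (j.succAbove 1) - sl (j.succAbove 2)| ≤ 3 := by
        constructor <;> rw [abs_le] <;> constructor <;>
          linarith [hsl.h0.1, hsl.h0.2, hsl.h1.1, hsl.h1.2, hsl.h2.1, hsl.h2.2]
      have b0 : |sl (j.succAbove 1) - sl (j.succAbove 0)| ≤ 3 ∧
          |sl (j.succAbove 2) - sl (j.succAbove 0)| ≤ 3 := by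
        constructor <;> rw [abs_le] <;> constructor <;>
          linarith [hsl.h0.1, hsl.h0.2, hsl.h1.1, hsl.h1.2, hsl.h2.1, hsl.h2.2]
      have b1 : |sl (j.succAbove 2) - sl (j.succAbove 1)| ≤ 3 ∧
          |sl (j.succAbove 0) - sl (j.succAbove 1)| ≤ 3 := by
        constructor <;> rw [abs_le] <;> constructor <;>
          linarith [hsl.h0.1, hsl.h0.2, hsl.h1.1, hsl.h1.2, hsl.h2.1, hsl.h2.2]
      refine add_le_add (add_le_add ?_ ?_) ?_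
      · exact ETZ_fK_le R J hR m s h (by omega) hsh _ (A 2) (hA 2) (hF 2) σ2 _ _ _ hsl.n02
          b2.1 b2.2 (T 0) (T 1) a w (L' w)
      · exact ETZ_fK_le R J hR m s h (by omega) hsh _ (A 0) (hA 0) (hF 0) σ0 _ _ _ hsl.n10
          b0.1 b0.2 (T 1) (T 2) b w (L' w)
      · exact ETZ_fK_le R J hR m s h (by omega) hsh _ (A 1) (hA 1) (hF 1) σ1 _ _ _ hsl.n21
          b1.1 b1.2 (T 2) (T 0) c w (L' w)
    have v3 := Finset.sum_le_sum v2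
    rw [Finset.sum_const, Finset.card_range, nsmul_eq_mul] at v3
    have e : (1 + (κ : ℝ)) * (30 * A 2 * gA m w + 30 * A 0 * gB m w + 30 * A 1 * gC m w) =
        (30 * A 2 * gA m w + 30 * A 0 * gB m w + 30 * A 1 * gC m w) +
        κ * (30 * A 2 * gA m w + 30 * A 0 * gB m w + 30 * A 1 * gC m w) := by ring
    rw [e]
    exact add_le_add v1 v3
  have h2 : ∀ w ∈ Wf, ∑ m ∈ range (J.1 + 1), (1 / (2 : ℝ) ^ m) * ∑ i ∈ range (2 ^ m),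
      ∑ p0 ∈ Icc (-(L1 : ℤ)) L1, ∑ p1 ∈ Icc (-(L1 : ℤ)) L1,
      |Lb3r (famA R j T a F σ2 w (m + 1)) (famB R j T b F σ0 w (m + 1))
        (famC R j T c F σ1 w (m + 1)) (2 ^ m) p0 p1 (l * 2 ^ m + (i : ℤ) - w - p0 - p1)| ≤
      K * ∑ m ∈ range (J.1 + 1),
        (1 + κ) * (30 * A 2 * gA m w + 30 * A 0 * gB m w + 30 * A 1 * gC m w) := by
    intro w _
    exact (hL' w).trans (mul_le_mul_of_nonneg_left (Finset.sum_le_sum (hlev w)) hK)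
  refine (Finset.sum_le_sum h2).trans ?_
  rw [← Finset.mul_sum, Finset.sum_comm]
  -- sum over `w`
  have h3 : ∀ m ∈ range (J.1 + 1), ∑ w ∈ Wf,
      (1 + (κ : ℝ)) * (30 * A 2 * gA m w + 30 * A 0 * gB m w + 30 * A 1 * gC m w) ≤
      ((1 + κ) * 30 * (2 * (2 * (h : ℝ) + 257)) *
      (A 2 ^ 3 * n3 (T 0) (T 1) a + A 0 ^ 3 * n3 (T 1) (T 2) b + A 1 ^ 3 * n3 (T 2) (T 0) c)) *
        (Dm R m).card := by
    intro m _
    have nA : ∑ w ∈ Wf, gA m w ≤ n3 (T 0) (T 1) a *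
        ((2 * (2 * h + 257) * A 2 ^ 2) * (Dm R m).card) :=
      (sum_gK_le _ _ _ hsl.nj2 (T 0) (T 1) a (Dp R m h) _ Wf).trans
        (mul_le_mul_of_nonneg_left (sum_msk_Dp R m _ (A 2) (hF 2) h)
          (Finset.sum_nonneg fun z _ => Finset.sum_nonneg fun z' _ => by positivity))
    have nB : ∑ w ∈ Wf, gB m w ≤ n3 (T 1) (T 2) b *
        ((2 * (2 * h + 257) * A 0 ^ 2) * (Dm R m).card) :=
      (sum_gK_le _ _ _ hsl.nj0 (T 1) (T 2) b (Dp R m h) _ Wf).trans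
        (mul_le_mul_of_nonneg_left (sum_msk_Dp R m _ (A 0) (hF 0) h)
          (Finset.sum_nonneg fun z _ => Finset.sum_nonneg fun z' _ => by positivity))
    have nC : ∑ w ∈ Wf, gC m w ≤ n3 (T 2) (T 0) c *
        ((2 * (2 * h + 257) * A 1 ^ 2) * (Dm R m).card) :=
      (sum_gK_le _ _ _ hsl.nj1 (T 2) (T 0) c (Dp R m h) _ Wf).trans
        (mul_le_mul_of_nonneg_left (sum_msk_Dp R m _ (A 1) (hF 1) h)
          (Finset.sum_nonneg fun z _ => Finset.sum_nonneg fun z' _ => by positivity))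
    have e : ∑ w ∈ Wf, (1 + (κ : ℝ)) *
        (30 * A 2 * gA m w + 30 * A 0 * gB m w + 30 * A 1 * gC m w) =
        (1 + κ) * (30 * A 2 * ∑ w ∈ Wf, gA m w + 30 * A 0 * ∑ w ∈ Wf, gB m w +
          30 * A 1 * ∑ w ∈ Wf, gC m w) := by
      rw [← Finset.mul_sum, Finset.sum_add_distrib, Finset.sum_add_distrib, ← Finset.mul_sum,
        ← Finset.mul_sum, ← Finset.mul_sum]
    rw [e]
    have q2 : 30 * A 2 * ∑ w ∈ Wf, gA m w ≤ 30 * A 2 * (n3 (T 0) (T 1) a *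
        ((2 * (2 * h + 257) * A 2 ^ 2) * (Dm R m).card)) :=
      mul_le_mul_of_nonneg_left nA (by have := hA 2; positivity)
    have q0 : 30 * A 0 * ∑ w ∈ Wf, gB m w ≤ 30 * A 0 * (n3 (T 1) (T 2) b *
        ((2 * (2 * h + 257) * A 0 ^ 2) * (Dm R m).card)) :=
      mul_le_mul_of_nonneg_left nB (by have := hA 0; positivity)
    have q1 : 30 * A 1 * ∑ w ∈ Wf, gC m w ≤ 30 * A 1 * (n3 (T 2) (T 0) c *
        ((2 * (2 * h + 257) * A 1 ^ 2) * (Dm R m).card)) :=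
      mul_le_mul_of_nonneg_left nC (by have := hA 1; positivity)
    have q := mul_le_mul_of_nonneg_left (add_le_add (add_le_add q2 q0) q1)
      (by positivity : (0 : ℝ) ≤ 1 + (κ : ℝ))
    refine q.trans (le_of_eq ?_)
    ring
  have h4 := mul_le_mul_of_nonneg_left (Finset.sum_le_sum h3) hK
  refine h4.trans ?_
  rw [← Finset.mul_sum]
  have h5 := sum_card_Dm R J hR
  have hn : ∀ (T T' : Finset ℤ) (a : ℤ → ℤ → ℂ), 0 ≤ n3 T T' a := fun T T' a =>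
    Finset.sum_nonneg fun z _ => Finset.sum_nonneg fun z' _ => by positivity
  have a2 := (hA 2).le
  have a0 := (hA 0).le
  have a1 := (hA 1).le
  have n1 := hn (T 0) (T 1) a
  have n2 := hn (T 1) (T 2) b
  have n3' := hn (T 2) (T 0) c
  have h6 : 0 ≤ K * ((1 + κ) * 30 * (2 * (2 * (h : ℝ) + 257)) *
      (A 2 ^ 3 * n3 (T 0) (T 1) a + A 0 ^ 3 * n3 (T 1) (T 2) b + A 1 ^ 3 * n3 (T 2) (T 0) c)) := by
    positivity
  have h7 := mul_le_mul_of_nonneg_left h5 h6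
  refine le_trans (le_of_eq ?_) (h7.trans (le_of_eq ?_)) <;> ring

/-! ### from the region sum to the blocks -/

/-- masked system at level `m` -/
noncomputable def Fm (R : Finset (ℕ × ℤ)) (j : Fin 4) (F : Fin 4 → ℤ → ℂ) (m : ℕ) : Fin 4 → ℤ → ℂ :=
  fun k => if k = j then F j else msk (Rm R m) (F k)

lemma Lbox_Fm (R : Finset (ℕ × ℤ)) (j : Fin 4) (F : Fin 4 → ℤ → ℂ) (m : ℕ) (l : ℤ)
    (hp : (m, l) ∈ R) (bb : ℤ) (hbb : bb = -1 ∨ bb = -7) (x : ℤ) (hx : x ∈ adm m l) :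
    Lbox (2 ^ m) bb F x = Lbox (2 ^ m) bb (Fm R j F m) x := by
  unfold Lbox
  congr 1
  refine Finset.sum_congr rfl fun u _ => ?_
  congr 1
  refine Finset.prod_congr rfl fun k _ => ?_
  unfold Fm
  split_ifs with hk
  · rw [hk]
  · unfold msk
    have h1 := yv_mem m l bb x hbb hx u k
    rw [mem_dI_iff] at h1
    have h2 : yv (2 ^ m) bb x u k ∈ Rm R m := by
      rw [mem_Rm, h1]; exact hp
    rw [if_pos h2]

lemma adm_subset (m : ℕ) (l : ℤ) : adm m l ⊆ dI (m + 7) l := by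
  intro x hx
  unfold adm at hx
  unfold dI
  rw [Finset.mem_Ico] at hx ⊢
  have : (0 : ℤ) < 2 ^ (m + 1) := by positivity
  constructor <;> linarith [hx.1, hx.2]

lemma region_sum (R : Finset (ℕ × ℤ)) (J : ℕ × ℤ) (hR : IsRegion R J) (j : Fin 4)
    (F : Fin 4 → ℤ → ℂ) (bb : ℤ) (hbb : bb = -1 ∨ bb = -7) :
    ∑ p ∈ R, ∑ x ∈ adm p.1 p.2, ‖Lbox (2 ^ p.1) bb F x‖ =
      ∑ m ∈ range (J.1 + 1), ∑ x ∈ (R.filter (fun p => p.1 = m)).biUnion (fun p => adm p.1 p.2),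
        ‖Lbox (2 ^ m) bb (Fm R j F m) x‖ := by
  classical
  rw [← Finset.sum_fiberwise_of_maps_to (s := R) (t := range (J.1 + 1)) (g := fun p => p.1)
    (fun p hp => Finset.mem_range.mpr (Nat.lt_succ_of_le (level_le R J hR p hp)))]
  refine Finset.sum_congr rfl fun m _ => ?_
  rw [Finset.sum_biUnion]
  · refine Finset.sum_congr rfl fun p hp => ?_
    rw [Finset.mem_filter] at hp
    obtain ⟨hp, hpm⟩ := hp
    obtain ⟨m', l⟩ := p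
    simp only at hpm
    subst hpm
    refine Finset.sum_congr rfl fun x hx => ?_
    rw [Lbox_Fm R j F m' l hp bb hbb x hx]
  · intro p hp q hq hpq
    rw [Function.onFun, Finset.disjoint_left]
    intro x hx hx'
    rw [Finset.mem_coe, Finset.mem_filter] at hp hq
    have h1 := adm_subset _ _ hx
    have h2 := adm_subset _ _ hx'
    rw [mem_dI_iff] at h1 h2
    apply hpq
    obtain ⟨p1, p2⟩ := p
    obtain ⟨q1, q2⟩ := q
    simp only at hp hq h1 h2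
    obtain ⟨_, rfl⟩ := hp
    obtain ⟨_, hq2⟩ := hq
    subst hq2
    rw [h1] at h2
    rw [h2]

lemma sum_fin_two (N : ℕ) (f : ℕ → ℝ) : ∑ v : Fin (N + N), f v =
    ∑ i ∈ range N, f i + ∑ i ∈ range N, f (N + i) := by
  rw [Fin.sum_univ_eq_sum_range, Finset.sum_range_add]

/-- reordering of the positions: frozen variable outside -/
lemma sum_cube_le (L1 N : ℕ) (l : ℤ) (i : ℕ) (hi : i < N) (hl : |l| ≤ 7) (W0 : ℕ)
    (hW : 3 * L1 + 8 * N ≤ W0) (G : ℤ → ℤ → ℤ → ℤ → ℝ) (hG : ∀ w x y z, 0 ≤ G w x y z) :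
    ∑ p ∈ Icc (-(L1 : ℤ)) L1 ×ˢ (Icc (-(L1 : ℤ)) L1 ×ˢ Icc (-(L1 : ℤ)) L1),
      G ((i : ℤ) + l * N - p.1 - p.2.1 - p.2.2) p.1 p.2.1 p.2.2 ≤
    ∑ w ∈ Icc (-(W0 : ℤ)) W0, ∑ p0 ∈ Icc (-(L1 : ℤ)) L1, ∑ p1 ∈ Icc (-(L1 : ℤ)) L1,
      G w p0 p1 (l * N + (i : ℤ) - w - p0 - p1) := by
  classical
  have e : ∑ w ∈ Icc (-(W0 : ℤ)) W0, ∑ p0 ∈ Icc (-(L1 : ℤ)) L1, ∑ p1 ∈ Icc (-(L1 : ℤ)) L1,
      G w p0 p1 (l * N + (i : ℤ) - w - p0 - p1) =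
      ∑ q ∈ Icc (-(W0 : ℤ)) W0 ×ˢ (Icc (-(L1 : ℤ)) L1 ×ˢ Icc (-(L1 : ℤ)) L1),
        G q.1 q.2.1 q.2.2 (l * N + (i : ℤ) - q.1 - q.2.1 - q.2.2) := by
    rw [Finset.sum_product]
    refine Finset.sum_congr rfl fun w _ => ?_
    rw [Finset.sum_product]
  rw [e]
  set φ : ℤ × ℤ × ℤ → ℤ × ℤ × ℤ := fun p => ((i : ℤ) + l * N - p.1 - p.2.1 - p.2.2, p.1, p.2.1)
    with hφ
  have hφi : Function.Injective φ := by
    rintro ⟨x, y, z⟩ ⟨x', y', z'⟩ h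
    simp only [hφ, Prod.mk.injEq] at h
    obtain ⟨h1, h2, h3⟩ := h
    subst h2
    subst h3
    have : z = z' := by linarith
    rw [this]
  have e2 : ∑ p ∈ Icc (-(L1 : ℤ)) L1 ×ˢ (Icc (-(L1 : ℤ)) L1 ×ˢ Icc (-(L1 : ℤ)) L1),
      G ((i : ℤ) + l * N - p.1 - p.2.1 - p.2.2) p.1 p.2.1 p.2.2 =
      ∑ q ∈ (Icc (-(L1 : ℤ)) L1 ×ˢ (Icc (-(L1 : ℤ)) L1 ×ˢ Icc (-(L1 : ℤ)) L1)).image φ,
        G q.1 q.2.1 q.2.2 (l * N + (i : ℤ) - q.1 - q.2.1 - q.2.2) := by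
    rw [Finset.sum_image (fun x _ y _ h => hφi h)]
    refine Finset.sum_congr rfl fun p _ => ?_
    simp only [hφ]
    congr 1
    ring
  rw [e2]
  refine Finset.sum_le_sum_of_subset_of_nonneg ?_ fun q _ _ => hG _ _ _ _
  intro q hq
  rw [Finset.mem_image] at hq
  obtain ⟨p, hp, rfl⟩ := hq
  rw [Finset.mem_product, Finset.mem_product, Finset.mem_Icc, Finset.mem_Icc, Finset.mem_Icc] at hp
  simp only [hφ]
  rw [Finset.mem_product, Finset.mem_product, Finset.mem_Icc, Finset.mem_Icc, Finset.mem_Icc]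
  refine ⟨?_, hp.1, hp.2.1⟩
  have hN : (0 : ℤ) ≤ N := by positivity
  have hlN : |l * (N : ℤ)| ≤ 7 * N := by
    rw [abs_mul, abs_of_nonneg hN]
    exact mul_le_mul_of_nonneg_right hl hN
  have hlN' := abs_le.mp hlN
  have hi' : (i : ℤ) < N := by exact_mod_cast hi
  have hi0 : (0 : ℤ) ≤ i := by positivity
  have hW' : (3 * L1 + 8 * N : ℤ) ≤ W0 := by exact_mod_cast hW
  constructor <;> linarith [hp.1.1, hp.1.2, hp.2.1.1, hp.2.1.2, hp.2.2.1, hp.2.2.2, hlN'.1, hlN'.2]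

lemma swap5 (I : Finset ℕ) (W P : Finset ℤ) (X : Bool × Bool × Bool → ℕ → ℤ → ℤ → ℤ → ℝ) :
    ∑ i ∈ I, ∑ w ∈ W, ∑ p0 ∈ P, ∑ p1 ∈ P, ∑ σ : Bool × Bool × Bool, X σ i w p0 p1 =
      ∑ σ : Bool × Bool × Bool, ∑ w ∈ W, ∑ i ∈ I, ∑ p0 ∈ P, ∑ p1 ∈ P, X σ i w p0 p1 := by
  have h1 : ∀ i w p0, ∑ p1 ∈ P, ∑ σ : Bool × Bool × Bool, X σ i w p0 p1 =
      ∑ σ : Bool × Bool × Bool, ∑ p1 ∈ P, X σ i w p0 p1 := fun i w p0 => Finset.sum_comm
  have h2 : ∀ i w, ∑ p0 ∈ P, ∑ p1 ∈ P, ∑ σ : Bool × Bool × Bool, X σ i w p0 p1 =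
      ∑ σ : Bool × Bool × Bool, ∑ p0 ∈ P, ∑ p1 ∈ P, X σ i w p0 p1 := fun i w => by
    rw [Finset.sum_congr rfl fun p0 _ => h1 i w p0, Finset.sum_comm]
  have h3 : ∀ i, ∑ w ∈ W, ∑ p0 ∈ P, ∑ p1 ∈ P, ∑ σ : Bool × Bool × Bool, X σ i w p0 p1 =
      ∑ σ : Bool × Bool × Bool, ∑ w ∈ W, ∑ p0 ∈ P, ∑ p1 ∈ P, X σ i w p0 p1 := fun i => by
    rw [Finset.sum_congr rfl fun w _ => h2 i w, Finset.sum_comm]
  rw [Finset.sum_congr rfl fun i _ => h3 i, Finset.sum_comm]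
  refine Finset.sum_congr rfl fun σ _ => ?_
  rw [Finset.sum_comm]

lemma norm_Lb3_le' (A B C : ℤ → ℤ → ℂ) (N : ℕ) (p0 p1 p2 : ℤ) :
    ‖Lb3 A B C N p0 p1 p2‖ ≤ ∑ σ : Bool × Bool × Bool,
      |Lb3r (fun z z' => pr σ.1 (A z z')) (fun z z' => pr σ.2.1 (B z z'))
        (fun z z' => pr σ.2.2 (C z z')) N p0 p1 p2| := by
  refine (norm_Lb3_le A B C N p0 p1 p2).trans (le_of_eq ?_)
  rw [Fintype.sum_prod_type]
  refine Finset.sum_congr rfl fun σ2 _ => ?_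
  rw [Fintype.sum_prod_type]

/-- **the region sum, before scaling** -/
lemma frozen_sum (Kb : ℝ) (bb : ℤ) (hbb : bb = -1 ∨ bb = -7)
    (R : Finset (ℕ × ℤ)) (J : ℕ × ℤ) (hR : IsRegion R J) (j : Fin 4)
    (T : Fin 3 → Finset ℤ) (a b c : ℤ → ℤ → ℂ) (F : Fin 4 → ℤ → ℂ)
    (hblock : ∀ l : ℤ, |l| ≤ 7 → ∀ (σ2 σ0 σ1 : Bool) (Wf : Finset ℤ) (L1 : ℕ),
      ∑ w ∈ Wf, ∑ m ∈ range (J.1 + 1), (1 / (2 : ℝ) ^ m) * ∑ i ∈ range (2 ^ m),
      ∑ p0 ∈ Icc (-(L1 : ℤ)) L1, ∑ p1 ∈ Icc (-(L1 : ℤ)) L1,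
      |Lb3r (famA R j T a F σ2 w (m + 1)) (famB R j T b F σ0 w (m + 1))
        (famC R j T c F σ1 w (m + 1)) (2 ^ m) p0 p1 (l * 2 ^ m + (i : ℤ) - w - p0 - p1)| ≤ Kb)
    (κ : ℝ) (hκ : 0 ≤ κ) (hFj : F j = atom j κ T a b c) :
    ∑ p ∈ R, ∑ x ∈ adm p.1 p.2, ‖Lbox (2 ^ p.1) bb F x‖ ≤ κ * (8 * Kb) := by
  classical
  obtain ⟨Lt, hLt⟩ := exists_bound T
  set L1 : ℕ := Lt + 2 * 2 ^ (J.1 + 1) with hL1
  set W0 : ℕ := 3 * L1 + 8 * 2 ^ (J.1 + 1) with hW0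
  set P : Finset (ℤ × ℤ × ℤ) := Icc (-(L1 : ℤ)) L1 ×ˢ (Icc (-(L1 : ℤ)) L1 ×ˢ Icc (-(L1 : ℤ)) L1)
    with hP
  set Wf := Icc (-(W0 : ℤ)) W0 with hWf
  rw [region_sum R J hR j F bb hbb]
  -- one level
  set X : ℤ → Bool × Bool × Bool → ℕ → ℕ → ℤ → ℤ → ℤ → ℝ := fun l σ m i w p0 p1 =>
    |Lb3r (famA R j T a F σ.1 w (m + 1)) (famB R j T b F σ.2.1 w (m + 1))
        (famC R j T c F σ.2.2 w (m + 1)) (2 ^ m) p0 p1 (l * 2 ^ m + (i : ℤ) - w - p0 - p1)| with hX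
  set G : ℕ → ℤ → ℤ → ℤ → ℤ → ℝ := fun m w p0 p1 p2 =>
    ‖Lb3 (frA j T a (Fm R j F m) w) (frB j T b (Fm R j F m) w) (frC j T c (Fm R j F m) w)
      (2 ^ m) p0 p1 p2‖ with hG
  have hG0 : ∀ m w x y z, 0 ≤ G m w x y z := fun m w x y z => norm_nonneg _
  have hGX : ∀ (l : ℤ) (m i : ℕ) (w p0 p1 : ℤ), G m w p0 p1 (l * 2 ^ m + (i : ℤ) - w - p0 - p1) ≤
      ∑ σ : Bool × Bool × Bool, X l σ m i w p0 p1 := by
    intro l m i w p0 p1
    simp only [hG, hX]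
    refine (norm_Lb3_le' _ _ _ _ _ _ _).trans (le_of_eq ?_)
    refine Finset.sum_congr rfl fun σ _ => ?_
    have e1 : (fun z z' => pr σ.1 (frA j T a (Fm R j F m) w z z')) =
        famA R j T a F σ.1 w (m + 1) := by
      funext z z'
      unfold frA famA
      rw [pr_frz]
      unfold Fm
      rw [if_neg (Fin.succAbove_ne j 2)]
      rfl
    have e2 : (fun z z' => pr σ.2.1 (frB j T b (Fm R j F m) w z z')) =
        famB R j T b F σ.2.1 w (m + 1) := by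
      funext z z'
      unfold frB famB
      rw [pr_frz]
      unfold Fm
      rw [if_neg (Fin.succAbove_ne j 0)]
      rfl
    have e3 : (fun z z' => pr σ.2.2 (frC j T c (Fm R j F m) w z z')) =
        famC R j T c F σ.2.2 w (m + 1) := by
      funext z z'
      unfold frC famC
      rw [pr_frz]
      unfold Fm
      rw [if_neg (Fin.succAbove_ne j 1)]
      rfl
    rw [e1, e2, e3]
  have hlevel : ∀ m ∈ range (J.1 + 1),
      ∑ x ∈ (R.filter (fun p => p.1 = m)).biUnion (fun p => adm p.1 p.2),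
        ‖Lbox (2 ^ m) bb (Fm R j F m) x‖ ≤
      κ * ((1 / 2) * ((∑ σ : Bool × Bool × Bool, ∑ w ∈ Wf, (1 / (2 : ℝ) ^ m) *
        ∑ i ∈ range (2 ^ m), ∑ p0 ∈ Icc (-(L1 : ℤ)) L1, ∑ p1 ∈ Icc (-(L1 : ℤ)) L1,
          X bb σ m i w p0 p1) +
        (∑ σ : Bool × Bool × Bool, ∑ w ∈ Wf, (1 / (2 : ℝ) ^ m) *
        ∑ i ∈ range (2 ^ m), ∑ p0 ∈ Icc (-(L1 : ℤ)) L1, ∑ p1 ∈ Icc (-(L1 : ℤ)) L1,
          X (bb + 1) σ m i w p0 p1))) := by
    intro m hm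
    rw [Finset.mem_range] at hm
    have hpow : 2 ^ m ≤ 2 ^ (J.1 + 1) := Nat.pow_le_pow_right (by norm_num) (by omega)
    have g := sum_norm_Lbox_atom_le j (2 ^ m) bb κ hκ T a b c (Fm R j F m)
      (by unfold Fm; rw [if_pos rfl, hFj])
      ((R.filter (fun p => p.1 = m)).biUnion (fun p => adm p.1 p.2)) P (by
        intro t0 t1 t2 z0 h0 z1 h1 z2 h2
        have c0 := abs_le.mp (hLt 0 z0 h0)
        have c1 := abs_le.mp (hLt 1 z1 h1)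
        have c2 := abs_le.mp (hLt 2 z2 h2)
        have d0 := t0.isLt
        have d1 := t1.isLt
        have d2 := t2.isLt
        rw [hP, Finset.mem_product, Finset.mem_product, Finset.mem_Icc, Finset.mem_Icc,
          Finset.mem_Icc]
        refine ⟨?_, ?_, ?_⟩ <;> constructor <;> simp only <;> omega)
    refine g.trans (mul_le_mul_of_nonneg_left ?_ hκ)
    -- two blocks
    have hsplit : ∀ p : ℤ × ℤ × ℤ, (1 / (((2 ^ m : ℕ) : ℝ) + ((2 ^ m : ℕ) : ℝ))) *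
        ∑ v : Fin (2 ^ m + 2 ^ m),
        ‖Lb3 (frA j T a (Fm R j F m) (((v : ℕ) : ℤ) + bb * ((2 ^ m : ℕ) : ℤ) - p.1 - p.2.1 - p.2.2))
            (frB j T b (Fm R j F m) (((v : ℕ) : ℤ) + bb * ((2 ^ m : ℕ) : ℤ) - p.1 - p.2.1 - p.2.2))
            (frC j T c (Fm R j F m) (((v : ℕ) : ℤ) + bb * ((2 ^ m : ℕ) : ℤ) - p.1 - p.2.1 - p.2.2))
            (2 ^ m) p.1 p.2.1 p.2.2‖ =
        (1 / 2) * ((1 / (2 : ℝ) ^ m) * ∑ i ∈ range (2 ^ m),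
          G m ((i : ℤ) + bb * ((2 ^ m : ℕ) : ℤ) - p.1 - p.2.1 - p.2.2) p.1 p.2.1 p.2.2 +
          (1 / (2 : ℝ) ^ m) * ∑ i ∈ range (2 ^ m),
          G m ((i : ℤ) + (bb + 1) * ((2 ^ m : ℕ) : ℤ) - p.1 - p.2.1 - p.2.2) p.1 p.2.1 p.2.2) := by
      intro p
      have e1 := sum_fin_two (2 ^ m) (fun v => G m ((v : ℤ) + bb * ((2 ^ m : ℕ) : ℤ) - p.1 - p.2.1 -
        p.2.2) p.1 p.2.1 p.2.2)
      have e2 : ∑ v : Fin (2 ^ m + 2 ^ m),
        ‖Lb3 (frA j T a (Fm R j F m) (((v : ℕ) : ℤ) + bb * ((2 ^ m : ℕ) : ℤ) - p.1 - p.2.1 - p.2.2))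
            (frB j T b (Fm R j F m) (((v : ℕ) : ℤ) + bb * ((2 ^ m : ℕ) : ℤ) - p.1 - p.2.1 - p.2.2))
            (frC j T c (Fm R j F m) (((v : ℕ) : ℤ) + bb * ((2 ^ m : ℕ) : ℤ) - p.1 - p.2.1 - p.2.2))
            (2 ^ m) p.1 p.2.1 p.2.2‖ = ∑ v : Fin (2 ^ m + 2 ^ m),
          G m (((v : ℕ) : ℤ) + bb * ((2 ^ m : ℕ) : ℤ) - p.1 - p.2.1 - p.2.2) p.1 p.2.1 p.2.2 := rfl
      rw [e2, e1]
      have e3 : ∀ i ∈ range (2 ^ m), G m (((2 ^ m + i : ℕ) : ℤ) + bb * ((2 ^ m : ℕ) : ℤ) - p.1 -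
          p.2.1 - p.2.2) p.1 p.2.1 p.2.2 =
          G m ((i : ℤ) + (bb + 1) * ((2 ^ m : ℕ) : ℤ) - p.1 - p.2.1 - p.2.2) p.1 p.2.1 p.2.2 := by
        intro i _
        congr 1
        push_cast
        ring
      rw [Finset.sum_congr rfl e3]
      push_cast
      have h2m : (2 : ℝ) ^ m ≠ 0 := by positivity
      field_simp
      ring
    rw [Finset.sum_congr rfl fun p _ => hsplit p, ← Finset.mul_sum, Finset.sum_add_distrib,
      ← Finset.mul_sum, ← Finset.mul_sum]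
    refine mul_le_mul_of_nonneg_left ?_ (by norm_num)
    have hone : ∀ l : ℤ, |l| ≤ 7 → (1 / (2 : ℝ) ^ m) * ∑ p ∈ P, ∑ i ∈ range (2 ^ m),
          G m ((i : ℤ) + l * ((2 ^ m : ℕ) : ℤ) - p.1 - p.2.1 - p.2.2) p.1 p.2.1 p.2.2 ≤
        ∑ σ : Bool × Bool × Bool, ∑ w ∈ Wf, (1 / (2 : ℝ) ^ m) *
        ∑ i ∈ range (2 ^ m), ∑ p0 ∈ Icc (-(L1 : ℤ)) L1, ∑ p1 ∈ Icc (-(L1 : ℤ)) L1,
          X l σ m i w p0 p1 := by
      intro l hl
      have e4 : ∑ σ : Bool × Bool × Bool, ∑ w ∈ Wf, (1 / (2 : ℝ) ^ m) *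
        ∑ i ∈ range (2 ^ m), ∑ p0 ∈ Icc (-(L1 : ℤ)) L1, ∑ p1 ∈ Icc (-(L1 : ℤ)) L1,
          X l σ m i w p0 p1 = (1 / (2 : ℝ) ^ m) * ∑ i ∈ range (2 ^ m), ∑ w ∈ Wf,
          ∑ p0 ∈ Icc (-(L1 : ℤ)) L1, ∑ p1 ∈ Icc (-(L1 : ℤ)) L1,
          ∑ σ : Bool × Bool × Bool, X l σ m i w p0 p1 := by
        rw [swap5 (range (2 ^ m)) Wf (Icc (-(L1 : ℤ)) L1) (fun σ i w p0 p1 => X l σ m i w p0 p1)]
        rw [Finset.mul_sum]
        refine Finset.sum_congr rfl fun σ _ => ?_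
        rw [Finset.mul_sum]
      rw [e4]
      refine mul_le_mul_of_nonneg_left ?_ (by positivity)
      rw [Finset.sum_comm]
      refine Finset.sum_le_sum fun i hi => ?_
      rw [Finset.mem_range] at hi
      refine (sum_cube_le L1 (2 ^ m) l i hi hl W0 (by rw [hW0]; omega) (G m) (hG0 m)).trans ?_
      refine Finset.sum_le_sum fun w _ => Finset.sum_le_sum fun p0 _ =>
        Finset.sum_le_sum fun p1 _ => ?_
      have := hGX l m i w p0 p1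
      rw [show (l * ((2 ^ m : ℕ) : ℤ) + (i : ℤ) - w - p0 - p1) =
        l * 2 ^ m + (i : ℤ) - w - p0 - p1 by push_cast; ring]
      exact this
    have hl0 : |bb| ≤ 7 := by rcases hbb with rfl | rfl <;> norm_num
    have hl1 : |bb + 1| ≤ 7 := by rcases hbb with rfl | rfl <;> norm_num
    exact add_le_add (hone bb hl0) (hone (bb + 1) hl1)
  refine (Finset.sum_le_sum hlevel).trans ?_
  rw [← Finset.mul_sum, ← Finset.mul_sum, Finset.sum_add_distrib]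
  refine mul_le_mul_of_nonneg_left ?_ hκ
  have htot : ∀ l : ℤ, |l| ≤ 7 → ∑ m ∈ range (J.1 + 1), ∑ σ : Bool × Bool × Bool, ∑ w ∈ Wf,
      (1 / (2 : ℝ) ^ m) * ∑ i ∈ range (2 ^ m), ∑ p0 ∈ Icc (-(L1 : ℤ)) L1,
        ∑ p1 ∈ Icc (-(L1 : ℤ)) L1, X l σ m i w p0 p1 ≤ 8 * Kb := by
    intro l hl
    rw [Finset.sum_comm]
    have h1 : ∀ σ ∈ (Finset.univ : Finset (Bool × Bool × Bool)), ∑ m ∈ range (J.1 + 1),
        ∑ w ∈ Wf, (1 / (2 : ℝ) ^ m) * ∑ i ∈ range (2 ^ m), ∑ p0 ∈ Icc (-(L1 : ℤ)) L1,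
        ∑ p1 ∈ Icc (-(L1 : ℤ)) L1, X l σ m i w p0 p1 ≤ Kb := by
      intro σ _
      rw [Finset.sum_comm]
      exact hblock l hl σ.1 σ.2.1 σ.2.2 Wf L1
    refine (Finset.sum_le_sum h1).trans (le_of_eq ?_)
    rw [Finset.sum_const, Finset.card_univ]
    simp
  have hl0 : |bb| ≤ 7 := by rcases hbb with rfl | rfl <;> norm_num
  have hl1 : |bb + 1| ≤ 7 := by rcases hbb with rfl | rfl <;> norm_num
  have t0 := htot bb hl0
  have t1 := htot (bb + 1) hl1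
  linarith

/-! ### scaling -/

lemma n3_smul (T T' : Finset ℤ) (a : ℤ → ℤ → ℂ) (s : ℝ) (hs : 0 ≤ s) :
    n3 T T' (fun z z' => (s : ℂ) * a z z') = s ^ 3 * n3 T T' a := by
  unfold n3
  rw [Finset.mul_sum]
  refine Finset.sum_congr rfl fun z _ => ?_
  rw [Finset.mul_sum]
  refine Finset.sum_congr rfl fun z' _ => ?_
  rw [norm_mul, mul_pow, Complex.norm_real, Real.norm_of_nonneg hs]

lemma n3_nonneg (T T' : Finset ℤ) (a : ℤ → ℤ → ℂ) : 0 ≤ n3 T T' a :=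
  Finset.sum_nonneg fun z _ => Finset.sum_nonneg fun z' _ => by positivity

lemma atom_smul (j : Fin 4) (κ : ℝ) (T : Fin 3 → Finset ℤ) (a b c : ℤ → ℤ → ℂ) (s1 s2 s3 : ℝ)
    (h : s1 * s2 * s3 = 1) :
    atom j κ T (fun z z' => (s1 : ℂ) * a z z') (fun z z' => (s2 : ℂ) * b z z')
      (fun z z' => (s3 : ℂ) * c z z') = atom j κ T a b c := by
  funext y
  unfold atom
  congr 1
  refine Finset.sum_congr rfl fun z0 _ => Finset.sum_congr rfl fun z1 _ =>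
    Finset.sum_congr rfl fun z2 _ => ?_
  split_ifs
  · have hc : (s1 : ℂ) * s2 * s3 = 1 := by exact_mod_cast h
    calc (s1 : ℂ) * a z0 z1 * ((s2 : ℂ) * b z1 z2) * ((s3 : ℂ) * c z2 z0)
        = ((s1 : ℂ) * s2 * s3) * (a z0 z1 * b z1 z2 * c z2 z0) := by ring
      _ = a z0 z1 * b z1 z2 * c z2 z0 := by rw [hc, one_mul]
  · rfl

lemma scale_opt (V M x y z δ : ℝ) (hM : 0 ≤ M) (hx0 : 0 ≤ x) (hy0 : 0 ≤ y) (hz0 : 0 ≤ z)
    (hδ : 0 < δ)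
    (h : ∀ s1 s2 s3 : ℝ, 0 ≤ s1 → 0 ≤ s2 → 0 ≤ s3 → s1 * s2 * s3 = 1 →
      V ≤ M * (s1 ^ 3 * x + s2 ^ 3 * y + s3 ^ 3 * z)) :
    V ≤ M * (3 * ((x + δ) * (y + δ) * (z + δ)) ^ (1 / 3 : ℝ)) := by
  set X := x + δ with hX
  set Y := y + δ with hY
  set Z := z + δ with hZ
  have hX0 : 0 < X := by linarith
  have hY0 : 0 < Y := by linarith
  have hZ0 : 0 < Z := by linarith
  set P := (X * Y * Z) ^ (1 / 3 : ℝ) with hP
  have hXYZ : 0 < X * Y * Z := by positivity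
  have hP0 : 0 < P := Real.rpow_pos_of_pos hXYZ _
  have hP3 : P ^ 3 = X * Y * Z := by
    rw [hP, ← Real.rpow_natCast, ← Real.rpow_mul hXYZ.le]
    norm_num
  have hcube : ∀ u : ℝ, 0 ≤ u → (u ^ (1 / 3 : ℝ)) ^ 3 = u := by
    intro u hu
    rw [← Real.rpow_natCast, ← Real.rpow_mul hu]
    norm_num
  have p1 : 0 ≤ P / X := by positivity
  have p2 : 0 ≤ P / Y := by positivity
  have p3 : 0 ≤ P / Z := by positivity
  have hprod : (P / X) ^ (1 / 3 : ℝ) * (P / Y) ^ (1 / 3 : ℝ) * (P / Z) ^ (1 / 3 : ℝ) = 1 := by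
    rw [← Real.mul_rpow p1 p2, ← Real.mul_rpow (mul_nonneg p1 p2) p3]
    have : P / X * (P / Y) * (P / Z) = 1 := by
      have e : P / X * (P / Y) * (P / Z) = P ^ 3 / (X * Y * Z) := by field_simp
      rw [e, hP3, div_self hXYZ.ne']
    rw [this, Real.one_rpow]
  refine (h _ _ _ (Real.rpow_nonneg p1 _) (Real.rpow_nonneg p2 _) (Real.rpow_nonneg p3 _)
    hprod).trans (mul_le_mul_of_nonneg_left ?_ hM)
  rw [hcube _ p1, hcube _ p2, hcube _ p3]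
  have aux : ∀ u U : ℝ, 0 < U → u ≤ U → P / U * u ≤ P := by
    intro u U hU huU
    rw [div_mul_eq_mul_div, div_le_iff₀ hU]
    exact mul_le_mul_of_nonneg_left huU hP0.le
  have e1 := aux x X hX0 (by linarith)
  have e2 := aux y Y hY0 (by linarith)
  have e3 := aux z Z hZ0 (by linarith)
  linarith

/-- **(I1): the frozen atom theorem** -/
theorem frozenAtom_of_triIsoZ (h : TriIsoZ) : FrozenAtom := by
  obtain ⟨K, hK, κ, hTri⟩ := h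
  set C0 : ℝ := K * (1 + κ) * 30 * (2 * (2 * ((12 * 2 ^ κ + 24 : ℕ) : ℝ) + 257)) with hC0
  have hC00 : 0 ≤ C0 := by positivity
  refine ⟨24 * C0, by positivity, ?_⟩
  intro bb hbb R J hR j μ hμ T a b c F A hA hF hFj
  set V := ∑ p ∈ R, ∑ x ∈ adm p.1 p.2, ‖Lbox (2 ^ p.1) bb F x‖ with hV
  have na := n3_nonneg (T 0) (T 1) a
  have nb := n3_nonneg (T 1) (T 2) b
  have nc := n3_nonneg (T 2) (T 0) c
  set M : ℝ := μ * (8 * C0 * 2 ^ (J.1 + 7)) with hM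
  have hM0 : 0 ≤ M := by positivity
  set na' := n3 (T 0) (T 1) a with hna
  set nb' := n3 (T 1) (T 2) b with hnb
  set nc' := n3 (T 2) (T 0) c with hnc
  -- the bound for every `δ > 0`
  set f : ℝ → ℝ := fun δ => M * (3 * ((((A 2 + δ) ^ 3 * na' + δ) *
    ((A 0 + δ) ^ 3 * nb' + δ) * ((A 1 + δ) ^ 3 * nc' + δ)) ^ (1 / 3 : ℝ))) with hf
  have h2 : ∀ δ : ℝ, 0 < δ → V ≤ f δ := by
    intro δ hδ
    have hA' : ∀ i, 0 < A i + δ := fun i => by have := hA i; linarith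
    refine scale_opt V M _ _ _ δ hM0 (mul_nonneg (pow_nonneg (hA' 2).le 3) na)
      (mul_nonneg (pow_nonneg (hA' 0).le 3) nb) (mul_nonneg (pow_nonneg (hA' 1).le 3) nc) hδ ?_
    intro s1 s2 s3 hs1 hs2 hs3 hs
    have := frozen_sum (C0 * ((A 2 + δ) ^ 3 * (s1 ^ 3 * na') +
        (A 0 + δ) ^ 3 * (s2 ^ 3 * nb') + (A 1 + δ) ^ 3 * (s3 ^ 3 * nc')) *
        2 ^ (J.1 + 7)) bb hbb R J hR j T (fun z z' => (s1 : ℂ) * a z z')
      (fun z z' => (s2 : ℂ) * b z z') (fun z z' => (s3 : ℂ) * c z z') F ?_ μ hμ ?_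
    · refine this.trans (le_of_eq ?_)
      rw [hM]
      ring
    · intro l hl σ2 σ0 σ1 Wf L1
      have := block_bound K hK κ hTri l hl R J hR j T (fun z z' => (s1 : ℂ) * a z z')
        (fun z z' => (s2 : ℂ) * b z z') (fun z z' => (s3 : ℂ) * c z z') F (fun i => A i + δ) hA'
        (fun i p hp => (hF i p hp).trans (by linarith)) σ2 σ0 σ1 Wf L1
      rw [n3_smul _ _ _ _ hs1, n3_smul _ _ _ _ hs2, n3_smul _ _ _ _ hs3] at this
      exact this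
    · rw [hFj, atom_smul j μ T a b c s1 s2 s3 hs]
  -- limit
  have hcont : Continuous f := by
    simp only [hf]
    refine continuous_const.mul (continuous_const.mul
      (Continuous.rpow_const ?_ fun x => Or.inr (by norm_num)))
    fun_prop
  have h3 : V ≤ f 0 := by
    refine ge_of_tendsto (x := nhdsWithin 0 (Set.Ioi 0)) (hcont.continuousWithinAt (s := Set.Ioi 0)) ?_
    exact Filter.eventually_of_mem self_mem_nhdsWithin fun δ hδ => h2 δ hδ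
  refine h3.trans (le_of_eq ?_)
  simp only [hf, add_zero]
  have e : (A 2 ^ 3 * na' * (A 0 ^ 3 * nb') * (A 1 ^ 3 * nc')) ^ (1 / 3 : ℝ) = (∏ i, A i) *
      (na' * nb' * nc') ^ (1 / 3 : ℝ) := by
    rw [show A 2 ^ 3 * na' * (A 0 ^ 3 * nb') * (A 1 ^ 3 * nc') = (A 0 * A 1 * A 2) ^ 3 *
      (na' * nb' * nc') by ring]
    have hp : 0 ≤ A 0 * A 1 * A 2 := mul_nonneg (mul_nonneg (hA 0) (hA 1)) (hA 2)
    rw [Real.mul_rpow (pow_nonneg hp 3) (mul_nonneg (mul_nonneg na nb) nc), Fin.prod_univ_three]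
    congr 1
    rw [← Real.rpow_natCast, ← Real.rpow_mul hp]
    norm_num
  rw [e, hM]
  ring

/-- **(I1) from `TriIso`** -/
theorem frozenAtom_of_triIso (h : TriIso) : FrozenAtom :=
  frozenAtom_of_triIsoZ (triIsoZ_of_triIso h)

/-- **(I1)** -/
theorem frozenAtom : FrozenAtom := frozenAtom_of_triIso Crest.Agent.R079.Pot.triIso

end Crest.Agent.R079.Glue
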