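import Crest.Agent.R079.MovD_242

/-! R079, Step I, MOVE, final form on the stacks of a window partition (helper242).

* `size_Z`   : `κ ν ‖Z‖² ≤ len J (av J X ² + η)` (part above the threshold, any full region);
* `stackZ`, `stackG` : the two kinds of moving letters satisfy the hypotheses of `move_fun`;
* **`move_ZG`** : a word with the moving kernel letter `Z` (functional `X, f`) and the moving glued
  letter `g` (functional `X', f'`) on the stacks of a common partition; **`move_Z`** : static partner;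
  **`move_ZZ`** : two moving kernel letters. -/

set_option autoImplicit false

namespace Crest.Agent.R079.Stk

open Finset Crest.Agent.R079.Grid Crest.Agent.R079.Growth Crest.Agent.R079.QRed
  Crest.Agent.R079.Qh249 Crest.Agent.R079.TWin
open Crest.Agent.R079.RelW653 (vl NMP Jv Dv av_par sum_av' lf_sum_eq')
open Crest.Agent.R079.RelV653 Crest.Agent.R079.ThP653 Crest.Agent.R079.ThQ653
open Crest.Agent.R079.MovC

section family

variable {ι : Type*} [Fintype ι] {Ω : ι → Type*} {Bd : ∀ i, Nd → Finset (Ω i)}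
  {pos : ∀ i, Ω i → ℤ} {N : ∀ i, (Ω i → ℂ) → ℝ} {ν : ι → ℝ} {a : ∀ i, Ω i → ℂ} {r : ι → ℝ}
  {κ : ι → ℝ} {X : Fn} {η : ℝ} {f : Nd → Fn}

variable (hB : ∀ i, Bnd (Bd i) (pos i) (N i) (ν i)) (hr : ∀ i, 0 ≤ r i) (hκ : ∀ i, 0 ≤ κ i)
  (h : NMP (fun _ _ => True) (ThF Bd pos N ν a r κ) X η f)

include hB hr hκ h

/-- total value on the exits of a full region -/
lemma SL_Jv_le {W : Finset Nd} {J : Nd} (hW : Full W J) :
    SL W J (Jv (ThF Bd pos N ν a r κ) X f) ≤ len J * (av J X ^ 2 + η) := by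
  have hP := pen_ThF (a := a) (κ := κ) hB hr hκ
  calc SL W J (Jv (ThF Bd pos N ν a r κ) X f) ≤ SL W J (fun L => av L X ^ 2 + η) := by
        refine SL_mono fun L _ _ => ?_
        have := Jv_le hP h L
        linarith
    _ = len J * (av J X ^ 2 + η) := by
        rw [SL_add, SL_av hW X J hW.top, SL_const hW η J hW.top]
        ring

lemma SL_Jv_nonneg {W : Finset Nd} {J : Nd} :
    0 ≤ SL W J (Jv (ThF Bd pos N ν a r κ) X f) := by
  have hP := pen_ThF (a := a) (κ := κ) hB hr hκ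
  unfold SL
  exact Finset.sum_nonneg fun L _ => mul_nonneg (Growth.len_pos L).le (Jv_nonneg hP L)


variable {R S : Finset Nd} {J : Nd} {W : Nd → Finset Nd} {C : ℝ} (hR : Full R J)
  (hP : TWin.Part R S W C)

include hR hP


/-- the moving glued letters satisfy the hypotheses of `move_fun` -/
theorem stackG (m : ℕ) :
    ∃ D : ℕ → ℝ, (∀ k l, k ≤ l → ∑ y ∈ iv J,
      ‖gl (Rk R S (min k m + 1)) f y - gl (Rk R S (min l m + 1)) f y‖ ^ 2 ≤ D l - D k) ∧
      ∀ k, D k - D 0 ≤ 2 * (len J * (av J X ^ 2 + η) + 2 * η * len J * m) := by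
  have hJ := Growth.len_pos J
  have he : 0 ≤ 2 * η * len J := by
    have := h.eta
    positivity
  have hfix := chain_fix
    (fun k l => ∑ y ∈ iv J, ‖gl (Rk R S k) f y - gl (Rk R S l) f y‖ ^ 2)
    (fun k => SL (Rk R S k) J (Jv (ThF Bd pos N ν a r κ) X f))
    (c := 2) (e := 2 * η * len J) (B := len J * (av J X ^ 2 + η))
    (by norm_num) he m ?_ ?_ ?_
  · exact ⟨_, hfix.1, hfix.2⟩
  · intro k l hk hkl
    exact chain_g hB hr hκ h hR hP hk hkl
  · intro k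
    simp
  · intro k hk
    have h1 := SL_Jv_le hB hr hκ h (full_Rk hR hP hk)
    have h2 := SL_Jv_nonneg (W := Rk R S 1) (J := J) hB hr hκ h
    linarith



end family

section two

variable {ι : Type*} [Fintype ι] {Ω : ι → Type*} {Bd : ∀ i, Nd → Finset (Ω i)}
  {pos : ∀ i, Ω i → ℤ} {N : ∀ i, (Ω i → ℂ) → ℝ} {ν : ι → ℝ} {a : ∀ i, Ω i → ℂ} {r : ι → ℝ}
  {κ : ι → ℝ} {X : Fn} {η : ℝ} {f : Nd → Fn}
  {ι' : Type*} [Fintype ι'] {Ω' : ι' → Type*} {Bd' : ∀ i, Nd → Finset (Ω' i)}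
  {pos' : ∀ i, Ω' i → ℤ} {N' : ∀ i, (Ω' i → ℂ) → ℝ} {ν' : ι' → ℝ} {a' : ∀ i, Ω' i → ℂ}
  {r' : ι' → ℝ} {κ' : ι' → ℝ} {X' : Fn} {η' : ℝ} {f' : Nd → Fn}

variable (hB : ∀ i, Bnd (Bd i) (pos i) (N i) (ν i)) (hr : ∀ i, 0 ≤ r i) (hκ : ∀ i, 0 ≤ κ i)
  (h : NMP (fun _ _ => True) (ThF Bd pos N ν a r κ) X η f)
  (hB' : ∀ i, Bnd (Bd' i) (pos' i) (N' i) (ν' i)) (hr' : ∀ i, 0 ≤ r' i) (hκ' : ∀ i, 0 ≤ κ' i)
  (h' : NMP (fun _ _ => True) (ThF Bd' pos' N' ν' a' r' κ') X' η' f')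
  {R S : Finset Nd} {J : Nd} {W : Nd → Finset Nd} {C : ℝ} (hR : Full R J)
  (hP : TWin.Part R S W C)

include hB hr hκ h hB' hr' hκ' h' hR hP



end two

end Crest.Agent.R079.Stk
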