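import Crest.Agent.R079.PjD_881
import Crest.Agent.R079.CelB_159

/-! R079, S1 (c) (helper881): masks.  A kernel that vanishes outside `T₁ × T₂` has the same operator
norm on `S × S'` and on `(S ∩ T₁) × (S' ∩ T₂)`; the clip of a masked kernel is masked. -/

set_option autoImplicit false

namespace Crest.Agent.R079.PjC881

open Finset Crest.Agent.R079.Grid Crest.Agent.R079.Growth Crest.Agent.R079.QRed
  Crest.Agent.R079.Qh249 Crest.Agent.R079.TWin Crest.Agent.R079.HiF881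
  Crest.Agent.R079.ClW59 Crest.Agent.R079.ThA159

/-- masks do not change the operator norm -/
theorem opS_mask {S S' T₁ T₂ : Finset ℤ} {B : ℤ → ℤ → ℂ} {s : ℝ}
    (h0 : ∀ u v, ¬ (u ∈ T₁ ∧ v ∈ T₂) → B u v = 0) :
    OpS S S' B s ↔ OpS (S ∩ T₁) (S' ∩ T₂) B s := by
  classical
  have e1 : ∀ (f : ℤ → ℂ) (u : ℤ), ∑ v ∈ S' ∩ T₂, B u v * f v = ∑ v ∈ S', B u v * f v := by
    intro f u
    refine Finset.sum_subset Finset.inter_subset_left fun v hv hv' => ?_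
    have : v ∉ T₂ := fun h => hv' (Finset.mem_inter.2 ⟨hv, h⟩)
    rw [h0 u v (fun h => this h.2), zero_mul]
  have e2 : ∀ f : ℤ → ℂ, ∑ u ∈ S ∩ T₁, ‖∑ v ∈ S', B u v * f v‖ ^ 2
      = ∑ u ∈ S, ‖∑ v ∈ S', B u v * f v‖ ^ 2 := by
    intro f
    refine Finset.sum_subset Finset.inter_subset_left fun u hu hu' => ?_
    have : u ∉ T₁ := fun h => hu' (Finset.mem_inter.2 ⟨hu, h⟩)
    have h1 : ∑ v ∈ S', B u v * f v = 0 :=
      Finset.sum_eq_zero fun v _ => by rw [h0 u v (fun h => this h.1), zero_mul]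
    rw [h1, norm_zero]; norm_num
  constructor
  · intro h f
    -- test with `f` cut to `T₂`
    have h1 := h (fun v => if v ∈ T₂ then f v else 0)
    have e3 : ∀ u, ∑ v ∈ S', B u v * (if v ∈ T₂ then f v else 0) = ∑ v ∈ S' ∩ T₂, B u v * f v := by
      intro u
      rw [e1 f u]
      refine Finset.sum_congr rfl fun v _ => ?_
      split_ifs with hv
      · rfl
      · rw [h0 u v (fun h => hv h.2), zero_mul, zero_mul]
    have e4 : ∑ v ∈ S', ‖(if v ∈ T₂ then f v else 0)‖ ^ 2 = ∑ v ∈ S' ∩ T₂, ‖f v‖ ^ 2 := by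
      rw [← Finset.sum_filter_add_sum_filter_not S' (fun v => v ∈ T₂)]
      have a1 : ∑ v ∈ S' with v ∈ T₂, ‖(if v ∈ T₂ then f v else 0)‖ ^ 2
          = ∑ v ∈ S' ∩ T₂, ‖f v‖ ^ 2 := by
        rw [Finset.filter_mem_eq_inter]
        refine Finset.sum_congr rfl fun v hv => ?_
        rw [if_pos (Finset.mem_inter.1 hv).2]
      have a2 : ∑ v ∈ S' with ¬ v ∈ T₂, ‖(if v ∈ T₂ then f v else 0)‖ ^ 2 = 0 := by
        refine Finset.sum_eq_zero fun v hv => ?_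
        rw [if_neg (Finset.mem_filter.1 hv).2, norm_zero]; norm_num
      rw [a1, a2, add_zero]
    simp only [e3, e4] at h1
    refine le_trans (Finset.sum_le_sum_of_subset_of_nonneg Finset.inter_subset_left
      (fun _ _ _ => sq_nonneg _)) h1
  · intro h f
    have h1 := h f
    simp only [e1] at h1
    rw [e2] at h1
    refine h1.trans (mul_le_mul_of_nonneg_left ?_ (sq_nonneg _))
    exact Finset.sum_le_sum_of_subset_of_nonneg Finset.inter_subset_left (fun _ _ _ => sq_nonneg _)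

section inst

open Crest.Agent.R079.Cel159
open Crest.Agent.R079.Whit (Ins)

variable {Y : ℤ → ℤ → ℤ → ℤ} {k : ℕ} {T₀ T₁ T₂ : Finset ℤ}

/-- every point of the strip lies in a maximal cell -/
theorem exists_Mx {Z : ℤ → ℤ → ℤ} {p : Nd} {u v : ℤ} (h : Z u v ∈ iv p) :
    ∃ n a b, Mx Z k p n a b ∧ u ∈ dI n a ∧ v ∈ dI n b := by
  classical
  set P : ℕ → Prop := fun n => Ins Z (iv p) n (u / 2 ^ n) (v / 2 ^ n) with hP
  have h0 : P 0 := by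
    intro x hx y hy
    rw [L0e.mem_dI] at hx hy
    simp only [pow_zero, Int.ediv_one] at hx hy
    rw [hx, hy]; exact h
  have h1 := Nat.findGreatest_spec (P := P) (Nat.zero_le (p.1 + k)) h0
  have h2 := Nat.findGreatest_le (P := P) (p.1 + k)
  set n := Nat.findGreatest P (p.1 + k) with hn
  refine ⟨n, u / 2 ^ n, v / 2 ^ n, ⟨h2, h1, ?_⟩, by rw [L0e.mem_dI], by rw [L0e.mem_dI]⟩
  rcases h2.eq_or_lt with h3 | h3
  · exact Or.inl h3
  · right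
    intro h4
    have e : ∀ x : ℤ, x / 2 ^ n / 2 = x / 2 ^ (n + 1) := by
      intro x
      have hp : (0 : ℤ) < 2 ^ n := by positivity
      rw [Int.ediv_ediv, if_neg (fun h => absurd h.1 (not_lt.2 hp.le)), sub_zero, pow_succ]
    rw [e, e] at h4
    have h5 : n + 1 ≤ Nat.findGreatest P (p.1 + k) := Nat.le_findGreatest h3 h4
    rw [← hn] at h5
    omega

/-- **159's projection on a maximal cell is the clip** (product mask) -/
theorem Pj_eq_cl {ν : ℝ}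
    (hB : Bnd (fun p => (T₀ ×ˢ (T₁ ×ˢ T₂)).filter (fun ω => Y ω.1 ω.2.1 ω.2.2 ∈ iv p))
      (fun ω => Y ω.1 ω.2.1 ω.2.2) (NmP (T₀ ×ˢ (T₁ ×ˢ T₂)) cf (okc Y k)) ν) {r : ℝ} (hr : 0 ≤ r)
    (p : Nd) (A : ℤ × ℤ × ℤ → ℂ) {z : ℤ} (hz : z ∈ T₀) {n : ℕ} {a b : ℤ}
    (hM : Mx (Y z) k p n a b) :
    ∀ u ∈ dI n a ∩ T₁, ∀ v ∈ dI n b ∩ T₂,
      Pj (fun p => (T₀ ×ˢ (T₁ ×ˢ T₂)).filter (fun ω => Y ω.1 ω.2.1 ω.2.2 ∈ iv p))
          (NmP (T₀ ×ˢ (T₁ ×ˢ T₂)) cf (okc Y k)) r p A (z, u, v)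
        = cl (fun u v => A (z, u, v)) (dI n a ∩ T₁) (dI n b ∩ T₂) (r * 2 ^ n) u v := by
  classical
  have hmem : ∀ u v, ((z, u, v) ∈ T₀ ×ˢ (T₁ ×ˢ T₂)) ↔ (u ∈ T₁ ∧ v ∈ T₂) := by
    intro u v; simp [hz]
  have hmsk0 : ∀ (D : ℤ × ℤ × ℤ → ℂ) (u v : ℤ), ¬ (u ∈ T₁ ∧ v ∈ T₂) →
      msk (T₀ ×ˢ (T₁ ×ˢ T₂)) D z u v = 0 := by
    intro D u v h
    unfold msk
    rw [if_neg (fun h' => h ((hmem u v).1 h'))]
  have hmsk1 : ∀ (D : ℤ × ℤ × ℤ → ℂ) (u v : ℤ), u ∈ T₁ → v ∈ T₂ →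
      msk (T₀ ×ˢ (T₁ ×ˢ T₂)) D z u v = D (z, u, v) := by
    intro D u v hu hv
    unfold msk
    rw [if_pos ((hmem u v).2 ⟨hu, hv⟩)]
  have hfil : (T₀ ×ˢ (T₁ ×ˢ T₂)).filter (fun ω => ω.1 = z ∧ ω.2.1 ∈ dI n a ∧ ω.2.2 ∈ dI n b)
      = ({z} : Finset ℤ) ×ˢ ((dI n a ∩ T₁) ×ˢ (dI n b ∩ T₂)) := by
    ext ω
    simp only [Finset.mem_filter, Finset.mem_product, Finset.mem_singleton, Finset.mem_inter]
    constructor
    · rintro ⟨⟨_, h2, h3⟩, h4, h5, h6⟩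
      exact ⟨h4, ⟨h5, h2⟩, ⟨h6, h3⟩⟩
    · rintro ⟨h4, ⟨h5, h2⟩, ⟨h6, h3⟩⟩
      exact ⟨⟨h4 ▸ hz, h2, h3⟩, h4, h5, h6⟩
  refine near_eq_cl (by positivity) ?_ fun C hC => ?_
  · have h1 := (opC_iff hr).1 (Pj_op hB hr p A hM)
    have h2 := (opS_mask (hmsk0 _)).1 h1
    refine opS_congr h2 fun u hu v hv => ?_
    rw [Finset.mem_inter] at hu hv
    exact hmsk1 _ u v hu.2 hv.2
  · set D : ℤ × ℤ × ℤ → ℂ := fun ω => C ω.2.1 ω.2.2 with hD
    have h1 : OpS (dI n a ∩ T₁) (dI n b ∩ T₂) (msk (T₀ ×ˢ (T₁ ×ˢ T₂)) D z) (r * 2 ^ n) := by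
      refine opS_congr hC fun u hu v hv => ?_
      rw [Finset.mem_inter] at hu hv
      rw [hmsk1 D u v hu.2 hv.2]
    have h2 : OpC (msk (T₀ ×ˢ (T₁ ×ˢ T₂)) D z) n a b r :=
      (opC_iff hr).2 ((opS_mask (hmsk0 D)).2 h1)
    have h3 := Cel159.Pj_cell hB hr p A hM h2
    rw [hfil] at h3
    simp only [Finset.sum_product, Finset.sum_singleton] at h3
    exact h3


end inst

end Crest.Agent.R079.PjC881
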