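import Crest.Agent.R079.ElU_440
import Crest.Agent.R079.PjE_881

-- ▼ part R079/ElV_440
section

/-! R079 Step I, leaf (e) on the WHITNEY CELLS of the line model (helper440): plug of
ElU_440.el_ladder0, 159's `bnd_cell` and 881's `comp_cells`. -/

set_option autoImplicit false

namespace Crest.Agent.R079.ElV440

open Finset Crest.Agent.R079.Grid Crest.Agent.R079.Growth Crest.Agent.R079.QRed
  Crest.Agent.R079.Qh249 Crest.Agent.R079.QVar181 Crest.Agent.R079.TWin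
open Crest.Agent.R079.RelW653 (vl NMP Jv Dv av_par sum_av' lf_sum_eq')
open Crest.Agent.R079.RelV653 Crest.Agent.R079.ThA159 Crest.Agent.R079.ThB159
open Crest.Agent.R079.ElS440 (Ln LnF)
open Crest.Agent.R079.ElT440 (lad)
open Crest.Agent.R079.ElU440 Crest.Agent.R079.Cel159 Crest.Agent.R079.PjC881

/-- positions of the gauge `w` on the strip of `p` -/
noncomputable def bdc {ι : Type*} (Y : ι → ℤ → ℤ → ℤ → ℤ) (T₀ T₁ T₂ : ι → Finset ℤ) (w : ι) (p : Nd) :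
    Finset (ℤ × ℤ × ℤ) :=
  (T₀ w ×ˢ (T₁ w ×ˢ T₂ w)).filter (fun ω => Y w ω.1 ω.2.1 ω.2.2 ∈ iv p)


end Crest.Agent.R079.ElV440
end

-- ▼ part R079/ElG_69

/-! R079 Step I with TALL GAUGES (helper69; operator atoms with two fibre-unit edges, notes 846/882):
port of `ThA159.fv_Th`, `fv_ThF`, `ElT440.LnF_dst`, `el_swap`, `ElU440.el_ladder0`, `el_cells`,
`ElV440.el_whitney` with the hypothesis `‖a i ω‖ ≤ 1` replaced by the FIBRE SUM condition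
`FibG : ν * ∑_{ω ∈ Bd p, pos ω = y} ‖a ω‖² ≤ 1` (true for one operator atom, all plane translates
together).  `FibG.of_le_one` recovers the old case. -/

set_option autoImplicit false

namespace Crest.Agent.R079.ElGx69

open Finset Crest.Agent.R079.Grid Crest.Agent.R079.Growth Crest.Agent.R079.QRed
  Crest.Agent.R079.Qh249 Crest.Agent.R079.QVar181 Crest.Agent.R079.TWin
open Crest.Agent.R079.RelW653 (vl NMP Jv Dv av_par sum_av' lf_sum_eq')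
open Crest.Agent.R079.RelV653 Crest.Agent.R079.ThA159 Crest.Agent.R079.ThB159
open Crest.Agent.R079.ElS440 (Ln LnF Ln_sub)
open Crest.Agent.R079.ElW778 (Ln_congr Ln_sum tele)
open Crest.Agent.R079.ElT440 (lad lad_dst GrF_eq)
open Crest.Agent.R079.ElU440 (upto lad_eq0 ThL0)
open Crest.Agent.R079.ElV440 (bdc)
open Crest.Agent.R079.Cel159 Crest.Agent.R079.PjC881

section one

variable {Ω : Type*} {Bd : Nd → Finset Ω} {pos : Ω → ℤ} {N : Nd → (Ω → ℂ) → ℝ} {ν : ℝ}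

open Classical in
/-- the square sum of the gauge on every fibre is at most `1` -/
def FibG (Bd : Nd → Finset Ω) (pos : Ω → ℤ) (ν : ℝ) (a : Ω → ℂ) : Prop :=
  ∀ (p : Nd) (y : ℤ), ν * ∑ ω ∈ (Bd p).filter (fun ω => pos ω = y), ‖a ω‖ ^ 2 ≤ 1


/-- fibre sums against a gauge -/
lemma fib_sumG (hB : Bnd Bd pos N ν) {a : Ω → ℂ} (ha : FibG Bd pos ν a) (p : Nd) (F : ℤ → ℝ)
    (hF : ∀ y, 0 ≤ F y) :
    ν * ∑ ω ∈ Bd p, ‖a ω‖ ^ 2 * F (pos ω) ≤ ∑ y ∈ iv p, F y := by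
  classical
  rw [← Finset.sum_fiberwise_of_maps_to (g := pos) (t := iv p) (fun ω hω => hB.mem p ω hω),
    Finset.mul_sum]
  refine Finset.sum_le_sum fun y _ => ?_
  have e : ∑ ω ∈ (Bd p).filter (fun ω => pos ω = y), ‖a ω‖ ^ 2 * F (pos ω)
      = (∑ ω ∈ (Bd p).filter (fun ω => pos ω = y), ‖a ω‖ ^ 2) * F y := by
    rw [Finset.sum_mul]
    exact Finset.sum_congr rfl fun ω hω => by rw [(Finset.mem_filter.1 hω).2]
  rw [e, ← mul_assoc]
  have := mul_le_mul_of_nonneg_right (ha p y) (hF y)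
  linarith

/-- **first variation** with constant `1` -/
theorem fv_ThG (hB : Bnd Bd pos N ν) {a : Ω → ℂ} (ha : FibG Bd pos ν a) {r : ℝ} (hr : 0 ≤ r)
    (p : Nd) (g h : Fn) :
    FV (Th Bd pos N ν a r) p g (Gr Bd pos N ν a r p g) 1 h := by
  classical
  unfold FV
  set P : Ω → ℂ := Pj Bd N r p (ag Bd pos a p g) with hP
  have hL := Growth.len_pos p
  have h1 := Th_le hB (a := a) hr (p := p) (g := fun y => g y + h y)
    (Pj_spec hB hr p (ag Bd pos a p g)).1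
  rw [← hP] at h1
  have h2 : dst Bd p (ag Bd pos a p fun y => g y + h y) P
      = dst Bd p (ag Bd pos a p g) P
        + 2 * ∑ ω ∈ Bd p, (starRingEnd ℂ (ag Bd pos a p g ω - P ω) * (a ω * h (pos ω))).re
        + ∑ ω ∈ Bd p, ‖a ω * h (pos ω)‖ ^ 2 := by
    unfold dst
    rw [Finset.mul_sum, ← Finset.sum_add_distrib, ← Finset.sum_add_distrib]
    refine Finset.sum_congr rfl fun ω hω => ?_
    have e1 : ag Bd pos a p (fun y => g y + h y) ω - P ω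
        = (ag Bd pos a p g ω - P ω) + a ω * h (pos ω) := by
      rw [ag_eq hω, ag_eq hω]
      ring
    rw [e1, ← Complex.normSq_eq_norm_sq, ← Complex.normSq_eq_norm_sq,
      ← Complex.normSq_eq_norm_sq]
    set u := ag Bd pos a p g ω - P ω
    set v := a ω * h (pos ω)
    simp only [Complex.normSq_apply, Complex.mul_re, Complex.conj_re,
      Complex.conj_im, Complex.add_re, Complex.add_im]
    ring
  have h3 : ν * ∑ ω ∈ Bd p, (starRingEnd ℂ (ag Bd pos a p g ω - P ω) * (a ω * h (pos ω))).re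
      = ∑ y ∈ iv p, (starRingEnd ℂ (Gr Bd pos N ν a r p g y) * h y).re := by
    rw [← Finset.sum_fiberwise_of_maps_to (g := pos) (t := iv p) (fun ω hω => hB.mem p ω hω),
      Finset.mul_sum]
    refine Finset.sum_congr rfl fun y _ => ?_
    unfold Gr
    rw [map_mul, Complex.conj_ofReal, mul_assoc, Complex.re_ofReal_mul, map_sum, Finset.sum_mul,
      Complex.re_sum]
    congr 1
    refine Finset.sum_congr rfl fun ω hω => ?_
    rw [map_mul, Complex.conj_conj, (Finset.mem_filter.1 hω).2, ← hP]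
    congr 1
    ring
  have h4 : ν * ∑ ω ∈ Bd p, ‖a ω * h (pos ω)‖ ^ 2 ≤ len p * av p h ^ 2 := by
    rw [← sum_av']
    refine le_trans (le_of_eq ?_) (fib_sumG hB ha p (fun y => ‖h y‖ ^ 2) fun y => sq_nonneg _)
    congr 1
    exact Finset.sum_congr rfl fun ω _ => by rw [norm_mul, mul_pow]
  have h7 : ν / len p * dst Bd p (ag Bd pos a p fun y => g y + h y) P
      = ν / len p * dst Bd p (ag Bd pos a p g) P
        + 2 * (∑ y ∈ iv p, (starRingEnd ℂ (Gr Bd pos N ν a r p g y) * h y).re) / len p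
        + (ν * ∑ ω ∈ Bd p, ‖a ω * h (pos ω)‖ ^ 2) / len p := by
    rw [h2, ← h3]
    field_simp
  have h8 : (ν * ∑ ω ∈ Bd p, ‖a ω * h (pos ω)‖ ^ 2) / len p ≤ 1 * av p h ^ 2 := by
    rw [div_le_iff₀ hL]
    linarith
  rw [h7] at h1
  have e9 : Th Bd pos N ν a r p g = ν / len p * dst Bd p (ag Bd pos a p g) P := rfl
  rw [e9]
  linarith


/-- pointwise bound -/
lemma Ln_ptG (hB : Bnd Bd pos N ν) {a : Ω → ℂ} (ha : FibG Bd pos ν a) (p : Nd) (U : Ω → ℂ) (y : ℤ) :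
    ‖Ln Bd pos ν a p U y‖ ^ 2
      ≤ ν * ∑ ω ∈ (Bd p).filter (fun ω => pos ω = y), ‖U ω‖ ^ 2 := by
  classical
  set S := (Bd p).filter (fun ω => pos ω = y) with hS
  have h1 : ‖Ln Bd pos ν a p U y‖ ≤ ν * ∑ ω ∈ S, ‖a ω‖ * ‖U ω‖ := by
    unfold Ln
    rw [norm_mul, Complex.norm_real, Real.norm_eq_abs, abs_of_pos hB.nu]
    refine mul_le_mul_of_nonneg_left ?_ hB.nu.le
    refine (norm_sum_le _ _).trans (Finset.sum_le_sum fun ω _ => ?_)
    rw [norm_mul, RCLike.norm_conj]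
  have h2 : (∑ ω ∈ S, ‖a ω‖ * ‖U ω‖) ^ 2 ≤ (∑ ω ∈ S, ‖a ω‖ ^ 2) * ∑ ω ∈ S, ‖U ω‖ ^ 2 :=
    Finset.sum_mul_sq_le_sq_mul_sq S _ _
  have h3 : ν * ∑ ω ∈ S, ‖a ω‖ ^ 2 ≤ 1 := ha p y
  have h4 : 0 ≤ ∑ ω ∈ S, ‖U ω‖ ^ 2 := Finset.sum_nonneg fun _ _ => sq_nonneg _
  calc ‖Ln Bd pos ν a p U y‖ ^ 2 ≤ (ν * ∑ ω ∈ S, ‖a ω‖ * ‖U ω‖) ^ 2 :=
        pow_le_pow_left₀ (norm_nonneg _) h1 2
    _ = ν * (ν * (∑ ω ∈ S, ‖a ω‖ * ‖U ω‖) ^ 2) := by ring
    _ ≤ ν * (ν * ((∑ ω ∈ S, ‖a ω‖ ^ 2) * ∑ ω ∈ S, ‖U ω‖ ^ 2)) :=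
        mul_le_mul_of_nonneg_left (mul_le_mul_of_nonneg_left h2 hB.nu.le) hB.nu.le
    _ = ν * ((ν * ∑ ω ∈ S, ‖a ω‖ ^ 2) * ∑ ω ∈ S, ‖U ω‖ ^ 2) := by ring
    _ ≤ ν * (1 * ∑ ω ∈ S, ‖U ω‖ ^ 2) :=
        mul_le_mul_of_nonneg_left (mul_le_mul_of_nonneg_right h3 h4) hB.nu.le
    _ = ν * ∑ ω ∈ S, ‖U ω‖ ^ 2 := by ring

/-- the line function is `ℓ²` bounded by the kernel on the band -/
theorem Ln_avG (hB : Bnd Bd pos N ν) {a : Ω → ℂ} (ha : FibG Bd pos ν a) (p : Nd) (U : Ω → ℂ) :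
    len p * av p (Ln Bd pos ν a p U) ^ 2 ≤ ν * ∑ ω ∈ Bd p, ‖U ω‖ ^ 2 := by
  classical
  rw [← sum_av', ← Finset.sum_fiberwise_of_maps_to (g := pos) (t := iv p)
    (fun ω hω => hB.mem p ω hω), Finset.mul_sum]
  exact Finset.sum_le_sum fun y _ => Ln_ptG hB ha p U y


theorem Ln_dstG (hB : Bnd Bd pos N ν) {a : Ω → ℂ} (ha : FibG Bd pos ν a) (p : Nd)
    (U U' : Ω → ℂ) :
    len p * av p (fun y => Ln Bd pos ν a p U y - Ln Bd pos ν a p U' y) ^ 2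
      ≤ ν * dst Bd p U U' := by
  have h1 := Ln_avG hB ha p (fun ω => U ω - U' ω)
  have e : (fun y => Ln Bd pos ν a p U y - Ln Bd pos ν a p U' y)
      = Ln Bd pos ν a p (fun ω => U ω - U' ω) := by
    funext y
    exact Ln_sub a p U U' y
  rw [e]
  exact h1


end one

section family

variable {ι : Type*} [Fintype ι] {Ω : ι → Type*} {Bd : ∀ i, Nd → Finset (Ω i)}
  {pos : ∀ i, Ω i → ℤ} {N : ∀ i, Nd → (Ω i → ℂ) → ℝ} {ν : ι → ℝ} {a : ∀ i, Ω i → ℂ} {r : ι → ℝ}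
  {κ : ι → ℝ} {X : Fn} {η : ℝ} {f : Nd → Fn}

theorem fv_ThFG (hB : ∀ i, Bnd (Bd i) (pos i) (N i) (ν i)) (ha : ∀ i, FibG (Bd i) (pos i) (ν i) (a i))
    (hr : ∀ i, 0 ≤ r i) (hκ : ∀ i, 0 ≤ κ i) (p : Nd) (g h : Fn) :
    FV (ThF Bd pos N ν a r κ) p g (GrF Bd pos N ν a r κ p g) (∑ i, κ i) h := by
  have := fv_sum (M := fun _ => 1) (κ := κ) hκ (p := p) (g := g) (h := h)
    (fun i => fv_ThG (hB i) (ha i) (hr i) p g h)
  simpa [ThF, GrF] using this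


/-- replacement of the kernels -/
theorem LnF_dstG (hB : ∀ i, Bnd (Bd i) (pos i) (N i) (ν i)) (ha : ∀ i, FibG (Bd i) (pos i) (ν i) (a i))
    (hκ : ∀ i, 0 ≤ κ i) (p : Nd) (Z Z' : ∀ i, Ω i → ℂ) :
    len p * av p (fun y => LnF Bd pos ν a κ p Z y - LnF Bd pos ν a κ p Z' y) ^ 2
      ≤ (∑ i, κ i) * ∑ i, κ i * (ν i * dst (Bd i) p (Z i) (Z' i)) := by
  classical
  rw [← sum_av']
  have h1 : ∀ y, ‖LnF Bd pos ν a κ p Z y - LnF Bd pos ν a κ p Z' y‖ ^ 2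
      ≤ (∑ i, κ i) * ∑ i, κ i * ‖Ln (Bd i) (pos i) (ν i) (a i) p (Z i) y
        - Ln (Bd i) (pos i) (ν i) (a i) p (Z' i) y‖ ^ 2 := by
    intro y
    set D : ι → ℂ := fun i => Ln (Bd i) (pos i) (ν i) (a i) p (Z i) y
        - Ln (Bd i) (pos i) (ν i) (a i) p (Z' i) y with hD
    have e : LnF Bd pos ν a κ p Z y - LnF Bd pos ν a κ p Z' y = ∑ i, (κ i : ℂ) * D i := by
      unfold LnF
      rw [← Finset.sum_sub_distrib]
      exact Finset.sum_congr rfl fun i _ => by rw [hD]; ring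
    rw [e]
    have h2 : ‖∑ i, (κ i : ℂ) * D i‖ ≤ ∑ i, κ i * ‖D i‖ := by
      refine (norm_sum_le _ _).trans (le_of_eq ?_)
      refine Finset.sum_congr rfl fun i _ => ?_
      rw [norm_mul, Complex.norm_real, Real.norm_eq_abs, abs_of_nonneg (hκ i)]
    have h3 : (∑ i, κ i * ‖D i‖) ^ 2 ≤ (∑ i, κ i) * ∑ i, κ i * ‖D i‖ ^ 2 := by
      have h4 := Finset.sum_mul_sq_le_sq_mul_sq Finset.univ (fun i => Real.sqrt (κ i))
        (fun i => Real.sqrt (κ i) * ‖D i‖)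
      have e1 : ∀ i, Real.sqrt (κ i) * (Real.sqrt (κ i) * ‖D i‖) = κ i * ‖D i‖ := fun i => by
        rw [← mul_assoc, Real.mul_self_sqrt (hκ i)]
      have e2 : ∀ i, Real.sqrt (κ i) ^ 2 = κ i := fun i => Real.sq_sqrt (hκ i)
      have e3 : ∀ i, (Real.sqrt (κ i) * ‖D i‖) ^ 2 = κ i * ‖D i‖ ^ 2 := fun i => by
        rw [mul_pow, Real.sq_sqrt (hκ i)]
      simpa only [e1, e2, e3] using h4
    exact (pow_le_pow_left₀ (norm_nonneg _) h2 2).trans h3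
  refine (Finset.sum_le_sum fun y _ => h1 y).trans ?_
  rw [← Finset.mul_sum, Finset.sum_comm]
  refine mul_le_mul_of_nonneg_left ?_ (Finset.sum_nonneg fun i _ => hκ i)
  refine Finset.sum_le_sum fun i _ => ?_
  rw [← Finset.mul_sum]
  refine mul_le_mul_of_nonneg_left ?_ (hκ i)
  have h5 := Ln_dstG (hB i) (ha i) p (Z i) (Z' i)
  rw [← sum_av'] at h5
  exact h5




end family

section family

variable {ι : Type*} [Fintype ι] {Ω : ι → Type*} {Bd : ∀ i, Nd → Finset (Ω i)}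
  {pos : ∀ i, Ω i → ℤ} {N : ∀ i, Nd → (Ω i → ℂ) → ℝ} {ν : ι → ℝ} {a : ∀ i, Ω i → ℂ} {r : ι → ℕ → ℝ}
  {κ : ι → ℝ} {X : Fn} {η : ℝ} {f : Nd → Fn}



end family





end Crest.Agent.R079.ElGx69
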