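import Crest.Agent.R079.TwL_253
import Crest.Agent.R079.GaW_571
import Crest.Agent.R079.GaB_571
import Crest.Agent.R079.GaF_371

-- ▼ part R079/TaK_253
section

/-! R079: THE CORNER IN THE BOX FORM `TA` OF 571, three complex kernels, killer on any edge (helper253).

* `ta_corner` : alive families `al w` (`AlC`), sum over all boxes of `Gd`;
* `ta_unif`   : `Gd = AdX W` (all boxes of one full window), killer with an operator bound on all boxes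
  of the region. -/

set_option autoImplicit false

namespace Crest.Agent.R079.TaKx253

open Finset Crest.Agent.R079.Grid Crest.Agent.R079.Glue Crest.Agent.R079.Growth
  Crest.Agent.R079.QRed Crest.Agent.R079.KLx446 Crest.Agent.R079.KC996 Crest.Agent.R079.TwLx253
  Crest.Agent.R079.GaAx571 Crest.Agent.R079.GaBx571 Crest.Agent.R079.GaWx571

/-- component of a base point -/
def pc (e : Fin 3) (p : ℤ × ℤ × ℤ) : ℤ := ![p.1, p.2.1, p.2.2] e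

lemma wv_rp1 (bb : ℤ) (n : ℕ) (p : ℤ × ℤ × ℤ) (v : ℕ) : wv bb n (rp1 p) v = wv bb n p v := by
  unfold wv rp1; ring

lemma rp1_3 (p : ℤ × ℤ × ℤ) : rp1 (rp1 (rp1 p)) = p := rfl

/-- rotation once, with any set of boxes -/
lemma TA_rot1 (bb : ℤ) (L1 M : ℕ) (Gd : ℕ → ℤ × ℤ × ℤ → ℕ → Prop) (K : Fin 3 → Kl) :
    TA bb (cube L1) M Gd K =
      TA bb (cube L1) M (fun n p v => Gd n (rp1 (rp1 p)) v) (fun e => K (e + 1)) := by
  rw [← TA_rot]
  rfl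


/-- the line coefficients of three edges form a `Cof` -/
theorem cof_edge (j : Fin 4) (e : Fin 3) : Cof (sl j - sl (j.succAbove (e + 2)))
    (sl (j.succAbove e) - sl (j.succAbove (e + 2)))
    (sl (j.succAbove (e + 1)) - sl (j.succAbove (e + 2))) := by
  fin_cases j <;> fin_cases e <;> constructor <;> decide


/-! ### all boxes of one window -/

theorem d4_edge (j : Fin 4) (e : Fin 3) :
    D4 j (j.succAbove (e + 1)) (j.succAbove (e + 2)) (j.succAbove e) := by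
  fin_cases j <;> fin_cases e <;> constructor <;> decide

lemma xv_edge (j : Fin 4) (e : Fin 3) (bb : ℤ) (n : ℕ) (p : ℤ × ℤ × ℤ) :
    lf4 j (j.succAbove (e + 1)) (j.succAbove (e + 2)) (j.succAbove e) (pc (e + 1) p)
      (pc (e + 2) p) (pc e p) + sl j * (bb * ((2 ^ n : ℕ) : ℤ)) = xv j bb n p := by
  fin_cases e
  · change (sl (j.succAbove 1) - sl j) * p.2.1 + (sl (j.succAbove 2) - sl j) * p.2.2 +
      (sl (j.succAbove 0) - sl j) * p.1 + sl j * (bb * ((2 ^ n : ℕ) : ℤ)) =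
      (sl (j.succAbove 0) - sl j) * p.1 + (sl (j.succAbove 1) - sl j) * p.2.1 +
      (sl (j.succAbove 2) - sl j) * p.2.2 + sl j * (bb * ((2 ^ n : ℕ) : ℤ))
    ring
  · change (sl (j.succAbove 2) - sl j) * p.2.2 + (sl (j.succAbove 0) - sl j) * p.1 +
      (sl (j.succAbove 1) - sl j) * p.2.1 + sl j * (bb * ((2 ^ n : ℕ) : ℤ)) =
      (sl (j.succAbove 0) - sl j) * p.1 + (sl (j.succAbove 1) - sl j) * p.2.1 +
      (sl (j.succAbove 2) - sl j) * p.2.2 + sl j * (bb * ((2 ^ n : ℕ) : ℤ))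
    ring
  · change (sl (j.succAbove 0) - sl j) * p.1 + (sl (j.succAbove 1) - sl j) * p.2.1 +
      (sl (j.succAbove 2) - sl j) * p.2.2 + sl j * (bb * ((2 ^ n : ℕ) : ℤ)) =
      (sl (j.succAbove 0) - sl j) * p.1 + (sl (j.succAbove 1) - sl j) * p.2.1 +
      (sl (j.succAbove 2) - sl j) * p.2.2 + sl j * (bb * ((2 ^ n : ℕ) : ℤ))
    ring

lemma wv_edge (bb : ℤ) (e : Fin 3) (n : ℕ) (p : ℤ × ℤ × ℤ) (v : ℕ) :
    ((v : ℤ) + bb * ((2 ^ n : ℕ) : ℤ) - pc (e + 1) p - pc (e + 2) p - pc e p) = wv bb n p v := by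
  fin_cases e
  · change (v : ℤ) + bb * ((2 ^ n : ℕ) : ℤ) - p.2.1 - p.2.2 - p.1 =
      (v : ℤ) + bb * ((2 ^ n : ℕ) : ℤ) - p.1 - p.2.1 - p.2.2
    ring
  · change (v : ℤ) + bb * ((2 ^ n : ℕ) : ℤ) - p.2.2 - p.1 - p.2.1 =
      (v : ℤ) + bb * ((2 ^ n : ℕ) : ℤ) - p.1 - p.2.1 - p.2.2
    ring
  · change (v : ℤ) + bb * ((2 ^ n : ℕ) : ℤ) - p.1 - p.2.1 - p.2.2 =
      (v : ℤ) + bb * ((2 ^ n : ℕ) : ℤ) - p.1 - p.2.1 - p.2.2
    ring

/-- the shadows of an admissible box are in the region -/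
theorem gd_of_adX {j : Fin 4} {e : Fin 3} {R : Finset Nd} {bb : ℤ} (hbb : bb = -1 ∨ bb = -7)
    {n : ℕ} {p : ℤ × ℤ × ℤ} (h : AdX R n (xv j bb n p)) {v : ℕ} (hv : v < 2 ^ n + 2 ^ n) :
    Gd j (j.succAbove (e + 1)) (j.succAbove (e + 2)) (j.succAbove e) R n (wv bb n p v)
      (pc (e + 1) p) (pc (e + 2) p) (pc e p) := by
  obtain ⟨q, hq, hqn, hqx⟩ := h
  obtain ⟨m', l⟩ := q
  simp only at hqn hqx
  subst hqn
  have h1 := gd_of_adm (d4_edge j e) R m' l hq bb hbb (pc (e + 1) p) (pc (e + 2) p) (pc e p)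
    (by rw [xv_edge]; exact hqx) ⟨v, hv⟩
  rw [← wv_edge bb e]
  exact h1

/-- all boxes are alive -/
theorem al4_of_adX {j : Fin 4} {e : Fin 3} {R : Finset Nd} {bb : ℤ} (hbb : bb = -1 ∨ bb = -7)
    {n : ℕ} {p : ℤ × ℤ × ℤ} (h : AdX R n (xv j bb n p)) {v : ℕ} (hv : v < 2 ^ n + 2 ^ n) :
    Al4Z (fun m q u => Om R (sl j - sl (j.succAbove (e + 2)))
      (sl (j.succAbove e) - sl (j.succAbove (e + 2)))
      (sl (j.succAbove (e + 1)) - sl (j.succAbove (e + 2))) (wv bb n p v) m q u) n (pc e p)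
      (pc (e + 1) p) :=
  gd_al4 (gd_of_adX hbb h hv)


end Crest.Agent.R079.TaKx253
end

-- ▼ part R079/TwE_253
section

/-! R079: the corner at one `w`, sum over `w`, `TA` form, with the Hilbert-Schmidt density `E0` of the
killer on the alive boxes in place of its sup (helper253; asked by helper247: `N`-free for killers which
are only row-bounded). -/

set_option autoImplicit false

namespace Crest.Agent.R079.TwEx253

open Finset Crest.Agent.R079.Grid Crest.Agent.R079.Glue Crest.Agent.R079.Growth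
  Crest.Agent.R079.QRed Crest.Agent.R079.KLx446 Crest.Agent.R079.KC996 Crest.Agent.R079.TwLx253
  Crest.Agent.R079.GaAx571 Crest.Agent.R079.GaBx571 Crest.Agent.R079.GaWx571
  Crest.Agent.R079.TaKx253

/-- **THE CORNER AT ONE FROZEN VALUE, all parameters chosen** -/
theorem tw_leE (hZ : CornerZ) : ∃ K : ℝ, 0 ≤ K ∧ ∀ (l : ℤ), |l| ≤ 7 →
    ∀ (R : Finset Nd) (J : Nd) (α β γ w x0 x1 y0 y1 : ℤ) (al : ℕ → ℤ → ℤ → Prop),
    IsRegion R J → Cof α β γ → AlC R J α β γ w x0 x1 y0 y1 al →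
    ∀ (A B C : ℤ → ℤ → ℝ) (τ HA HB E0 a2 b2 : ℝ), FS A → FS B → FS C →
    0 < τ → 0 < a2 → 0 < b2 →
    (∀ x y, |A x y| ≤ HA) → (∀ x y, |B x y| ≤ HB) → 0 ≤ E0 →
    (∀ m q p, al m q p → ∑ x ∈ Ico q (q + (2 : ℤ) ^ m), ∑ y ∈ Ico p (p + (2 : ℤ) ^ m),
      C x y ^ 2 ≤ 4 ^ m * E0) →
    (∀ X Y : Finset ℤ, ∑ x ∈ X, ∑ y ∈ Y, A x y ^ 2 ≤ a2) →
    (∀ X Y : Finset ℤ, ∑ x ∈ X, ∑ y ∈ Y, B x y ^ 2 ≤ b2) →
    (∀ m q p, al m q p → OpZ C (2 ^ m) q p (2 ^ m * τ)) →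
    ∀ (Gm : ℕ → ℤ → ℤ → ℤ → Prop), (∀ m ≤ J.1, ∀ p0 p1 p2, Gm m p0 p1 p2 →
      (∃ i j : ℕ, i < 2 ^ (m + 1) ∧ j < 2 ^ (m + 1) ∧ C (p2 + i) (p0 + j) ≠ 0) →
      Al4Z al m p2 p0) →
    ∀ L1 : ℕ, Tw Gm A B C (J.1 + 1) L1 l w ≤
      K * (1 + Real.log (1 + E0 * (((Ico x0 x1).card : ℝ) * len J) *
        (HA ^ 2 / a2 + HB ^ 2 / b2) / τ ^ 2)) * (τ * √a2 * √b2) := by
  classical
  obtain ⟨K, hK0, hK⟩ := corner_const hZ
  refine ⟨300 * K, by positivity, ?_⟩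
  intro l hl R J α β γ w x0 x1 y0 y1 al hR hc hal A B C τ HA HB E0 a2 b2 sA sB sC hτ ha hb
    hA hB hE0 hC eA eB hop Gm hGm L1
  set Ar0 : ℝ := ((Ico x0 x1).card : ℝ) * len J with hAr0
  have hAr0' : 0 ≤ Ar0 := mul_nonneg (Nat.cast_nonneg _) (Growth.len_pos J).le
  set D : ℝ := HA ^ 2 / a2 + HB ^ 2 / b2 with hD
  have hD0 : 0 ≤ D := by positivity
  set z : ℝ := E0 * Ar0 * D / τ ^ 2 with hz
  have hz0 : 0 ≤ z := by positivity
  have hlog0 : 0 ≤ Real.log (1 + z) := Real.log_nonneg (by linarith)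
  have hrhs : 0 ≤ 300 * K * (1 + Real.log (1 + z)) * (τ * √a2 * √b2) := by positivity
  -- restrict to the boxes which meet the support of `C`
  set Gm' : ℕ → ℤ → ℤ → ℤ → Prop := fun m p0 p1 p2 => (m ≤ J.1 ∧ Gm m p0 p1 p2) ∧
    (∃ i j : ℕ, i < 2 ^ (m + 1) ∧ j < 2 ^ (m + 1) ∧ C (p2 + i) (p0 + j) ≠ 0) with hGm'
  have e0 : Tw Gm A B C (J.1 + 1) L1 l w = Tw Gm' A B C (J.1 + 1) L1 l w := by
    unfold Tw
    refine Finset.sum_congr rfl fun m hm => ?_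
    have hm' : m ≤ J.1 := Nat.lt_succ_iff.1 (Finset.mem_range.1 hm)
    congr 1
    refine Finset.sum_congr rfl fun i _ => Finset.sum_congr rfl fun p0 _ => Finset.sum_congr rfl
      fun p1 _ => ?_
    by_cases hg : Gm m p0 p1 (l * 2 ^ m + (i : ℤ) - w - p0 - p1)
    · by_cases hs : ∃ i' j : ℕ, i' < 2 ^ (m + 1) ∧ j < 2 ^ (m + 1) ∧
        C ((l * 2 ^ m + (i : ℤ) - w - p0 - p1) + i') (p0 + j) ≠ 0
      · rw [if_pos hg, if_pos ⟨⟨hm', hg⟩, hs⟩]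
      · rw [if_pos hg, if_neg (fun h => hs h.2), Lb3r_zero_C hs, abs_zero]
    · rw [if_neg hg, if_neg (fun h => hg h.1.2)]
  rw [e0]
  by_cases hD1 : D = 0
  · -- no letter at all
    have hA0 : ∀ x y, A x y = 0 := by
      have h1 : HA ^ 2 / a2 = 0 := by
        have h2 : 0 ≤ HA ^ 2 / a2 := by positivity
        have h3 : 0 ≤ HB ^ 2 / b2 := by positivity
        linarith
      have h4 : HA = 0 := by
        rcases div_eq_zero_iff.1 h1 with h | h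
        · exact pow_eq_zero_iff (two_ne_zero) |>.1 h
        · exact absurd h ha.ne'
      intro x y
      have := hA x y
      rw [h4] at this
      exact abs_eq_zero.1 (le_antisymm this (abs_nonneg _))
    rw [tw_zero (Lb3r_zero_A hA0)]
    exact hrhs
  have hDp : 0 < D := lt_of_le_of_ne hD0 (Ne.symm hD1)
  obtain ⟨SA, hSA⟩ := sA
  obtain ⟨SB, hSB⟩ := sB
  obtain ⟨SC, hSC⟩ := sC
  obtain ⟨SX, hSX⟩ := exists_absbd {x0, x1, y0, y1}
  set S0 : ℕ := max (max SA SB) (max SC SX) with hS0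
  have iA : (SA : ℤ) ≤ S0 := by exact_mod_cast (le_max_left SA SB).trans (le_max_left _ _)
  have iB : (SB : ℤ) ≤ S0 := by exact_mod_cast (le_max_right SA SB).trans (le_max_left _ _)
  have iC : (SC : ℤ) ≤ S0 := by exact_mod_cast (le_max_left SC SX).trans (le_max_right _ _)
  have iX : (SX : ℤ) ≤ S0 := by exact_mod_cast (le_max_right SC SX).trans (le_max_right _ _)
  have hx0 := abs_le.1 (hSX x0 (by simp))
  have hx1 := abs_le.1 (hSX x1 (by simp))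
  have hy0 := abs_le.1 (hSX y0 (by simp))
  have hy1 := abs_le.1 (hSX y1 (by simp))
  obtain ⟨J', hJ1, hJ2⟩ := exists_steps z hz0
  have hr : 0 < 1 / D := by positivity
  have main := hK l hl (J.1 + 1) J' S0 A B C al w a2 b2 (1 / D) τ E0 (61 * Ar0) ha hb hr hτ
    (fun x y h => ⟨(hSA x y h).1.trans iA, (hSA x y h).2.trans iA⟩)
    (fun x y h => ⟨(hSB x y h).1.trans iB, (hSB x y h).2.trans iB⟩)
    (fun x y h => ⟨(hSC x y h).1.trans iC, (hSC x y h).2.trans iC⟩)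
    (eA _ _) (eB _ _)
    (fun x y => by
      have h1 : A x y ^ 2 ≤ HA ^ 2 := by
        rw [← sq_abs (A x y)]
        exact pow_le_pow_left₀ (abs_nonneg _) (hA x y) 2
      have h2 : HA ^ 2 / a2 ≤ D := le_add_of_nonneg_right (by positivity)
      have h3 : a2 / (1 / D) = a2 * D := by field_simp
      rw [h3]
      rw [div_le_iff₀ ha] at h2
      linarith)
    (fun x y => by
      have h1 : B x y ^ 2 ≤ HB ^ 2 := by
        rw [← sq_abs (B x y)]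
        exact pow_le_pow_left₀ (abs_nonneg _) (hB x y) 2
      have h2 : HB ^ 2 / b2 ≤ D := le_add_of_nonneg_left (by positivity)
      have h3 : b2 / (1 / D) = b2 * D := by field_simp
      rw [h3]
      rw [div_le_iff₀ hb] at h2
      linarith)
    { dom := fun m q p h => by
        obtain ⟨h1, h2⟩ := hal.dom m q p h
        have hm0 : (0 : ℤ) < 2 ^ m := by positivity
        refine ⟨?_, ?_, ?_⟩
        · have h3 := h1 q (Finset.mem_Ico.2 ⟨le_rfl, by linarith⟩) p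
            (Finset.mem_Ico.2 ⟨le_rfl, by linarith⟩)
          rw [mem_Rm] at h3
          have h4 := Glue.level_le R J hR _ h3
          exact Nat.lt_succ_of_le h4
        · rw [abs_le]
          unfold Dm2 at h2
          constructor <;> linarith [h2.1, h2.2.1]
        · rw [abs_le]
          unfold Dm2 at h2
          constructor <;> linarith [h2.2.2.1, h2.2.2.2]
      op := hop
      ex := fun k' hk L c d => hal.exl k' hk L c d }
    { hs := hC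
      ar := fun m => by
        refine (area_global hR hc m (fun q p h => hal.dom m q p h) _ _).trans ?_
        change Ar0 ≤ _
        linarith
      ex := fun k' hk => hal.exg k' hk _ _ _ }
    (by
      have h1 : τ ^ 2 * (1 / D * 2 ^ J') = τ ^ 2 / D * 2 ^ J' := by ring
      rw [h1]
      have h2 : E0 * (61 * Ar0) = τ ^ 2 / D * (61 * z) := by
        rw [hz]
        field_simp
      rw [h2]
      exact mul_le_mul_of_nonneg_left hJ1 (by positivity))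
    Gm' (fun m p0 p1 p2 h => hGm m h.1.1 p0 p1 p2 h.1.2 h.2) L1
  refine main.trans ?_
  have h5 : K * (2 * (J' : ℝ) + 1) ≤ 300 * K * (1 + Real.log (1 + z)) := by
    calc K * (2 * (J' : ℝ) + 1) ≤ K * (300 * (1 + Real.log (1 + z))) :=
          mul_le_mul_of_nonneg_left hJ2 hK0
      _ = _ := by ring
  exact mul_le_mul_of_nonneg_right h5 (by positivity)

/-! ### sum over the frozen values -/

/-- **SUM OVER THE FROZEN VALUES**, floors `fa`, `fb` -/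
theorem sum_twE (hZ : CornerZ) : ∃ K : ℝ, 0 ≤ K ∧ ∀ (l : ℤ), |l| ≤ 7 →
    ∀ (R : Finset Nd) (J : Nd) (α β γ x0 x1 y0 y1 : ℤ) (al : ℤ → ℕ → ℤ → ℤ → Prop),
    IsRegion R J → Cof α β γ → (∀ w, AlC R J α β γ w x0 x1 y0 y1 (al w)) →
    ∀ (A B C : ℤ → ℤ → ℤ → ℝ) (τ HA HB E0 fa fb SA SB : ℝ) (W1 : Finset ℤ),
    (∀ w, FS (A w)) → (∀ w, FS (B w)) → (∀ w, FS (C w)) →
    0 < τ → 0 < fa → 0 < fb →
    (∀ w x y, |A w x y| ≤ HA) → (∀ w x y, |B w x y| ≤ HB) → 0 ≤ E0 →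
    (∀ w m q p, al w m q p → ∑ x ∈ Ico q (q + (2 : ℤ) ^ m), ∑ y ∈ Ico p (p + (2 : ℤ) ^ m),
      C w x y ^ 2 ≤ 4 ^ m * E0) →
    (∀ w, w ∉ W1 → (∀ x y, A w x y = 0) ∨ (∀ x y, B w x y = 0)) →
    (∀ X Y : Finset ℤ, ∑ w ∈ W1, ∑ x ∈ X, ∑ y ∈ Y, A w x y ^ 2 ≤ SA) →
    (∀ X Y : Finset ℤ, ∑ w ∈ W1, ∑ x ∈ X, ∑ y ∈ Y, B w x y ^ 2 ≤ SB) →
    (∀ w m q p, al w m q p → OpZ (C w) (2 ^ m) q p (2 ^ m * τ)) →
    ∀ (Gm : ℤ → ℕ → ℤ → ℤ → ℤ → Prop), (∀ w, ∀ m ≤ J.1, ∀ p0 p1 p2, Gm w m p0 p1 p2 →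
      (∃ i j : ℕ, i < 2 ^ (m + 1) ∧ j < 2 ^ (m + 1) ∧ C w (p2 + i) (p0 + j) ≠ 0) →
      Al4Z (al w) m p2 p0) →
    ∀ (Wf : Finset ℤ) (L1 : ℕ), ∑ w ∈ Wf, Tw (Gm w) (A w) (B w) (C w) (J.1 + 1) L1 l w ≤
      K * (1 + Real.log (1 + E0 * (((Ico x0 x1).card : ℝ) * len J) *
        (HA ^ 2 / fa + HB ^ 2 / fb) / τ ^ 2)) *
        (τ * √(SA + W1.card * fa) * √(SB + W1.card * fb)) := by
  classical
  obtain ⟨K, hK0, hK⟩ := tw_leE hZ
  refine ⟨K, hK0, ?_⟩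
  intro l hl R J α β γ x0 x1 y0 y1 al hR hc hal A B C τ HA HB E0 fa fb SA SB W1 sA sB sC hτ hfa
    hfb hA hB hE0 hC h0 eA eB hop Gm hGm Wf L1
  set Ar0 : ℝ := ((Ico x0 x1).card : ℝ) * len J with hAr0
  have hAr0' : 0 ≤ Ar0 := mul_nonneg (Nat.cast_nonneg _) (Growth.len_pos J).le
  -- one box containing all supports
  obtain ⟨S, hS⟩ : ∃ S : ℕ, ∀ w ∈ W1, (∀ x y, A w x y ≠ 0 → |x| ≤ S ∧ |y| ≤ S) ∧
      (∀ x y, B w x y ≠ 0 → |x| ≤ S ∧ |y| ≤ S) := by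
    choose fA hfA using sA
    choose fB hfB using sB
    refine ⟨∑ w ∈ W1, (fA w + fB w), fun w hw => ?_⟩
    have h1 : fA w + fB w ≤ ∑ w ∈ W1, (fA w + fB w) :=
      Finset.single_le_sum (f := fun w => fA w + fB w) (fun _ _ => Nat.zero_le _) hw
    have h2 : (fA w : ℤ) + fB w ≤ ((∑ w ∈ W1, (fA w + fB w) : ℕ) : ℤ) := by exact_mod_cast h1
    refine ⟨fun x y hxy => ?_, fun x y hxy => ?_⟩
    · have := hfA w x y hxy
      constructor <;> linarith [this.1, this.2, Int.natCast_nonneg (fB w)]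
    · have := hfB w x y hxy
      constructor <;> linarith [this.1, this.2, Int.natCast_nonneg (fA w)]
  set IS : Finset ℤ := Icc (-(S : ℤ)) S with hIS
  set EA : ℤ → ℝ := fun w => ∑ x ∈ IS, ∑ y ∈ IS, A w x y ^ 2 with hEA
  set EB : ℤ → ℝ := fun w => ∑ x ∈ IS, ∑ y ∈ IS, B w x y ^ 2 with hEB
  have tot : ∀ (F : ℤ → ℤ → ℝ), (∀ x y, F x y ≠ 0 → |x| ≤ S ∧ |y| ≤ S) → ∀ X Y : Finset ℤ,
      ∑ x ∈ X, ∑ y ∈ Y, F x y ^ 2 ≤ ∑ x ∈ IS, ∑ y ∈ IS, F x y ^ 2 := by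
    intro F hF X Y
    have hm : ∀ x, |x| ≤ (S : ℤ) → x ∈ IS := fun x hx => by
      rw [hIS, Finset.mem_Icc]; exact abs_le.1 hx
    calc ∑ x ∈ X, ∑ y ∈ Y, F x y ^ 2 = ∑ z ∈ X ×ˢ Y, F z.1 z.2 ^ 2 := by
          rw [Finset.sum_product]
      _ = ∑ z ∈ (X ×ˢ Y).filter (fun z => F z.1 z.2 ≠ 0), F z.1 z.2 ^ 2 := by
          rw [Finset.sum_filter]
          refine Finset.sum_congr rfl fun z _ => ?_
          by_cases hz : F z.1 z.2 = 0
          · simp [hz]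
          · rw [if_pos hz]
      _ ≤ ∑ z ∈ IS ×ˢ IS, F z.1 z.2 ^ 2 := by
          refine Finset.sum_le_sum_of_subset_of_nonneg ?_ (fun _ _ _ => sq_nonneg _)
          intro z hz
          rw [Finset.mem_filter] at hz
          rw [Finset.mem_product]
          exact ⟨hm _ (hF _ _ hz.2).1, hm _ (hF _ _ hz.2).2⟩
      _ = _ := by rw [Finset.sum_product]
  set Lg : ℝ := 1 + Real.log (1 + E0 * Ar0 * (HA ^ 2 / fa + HB ^ 2 / fb) / τ ^ 2) with hLg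
  have hLg0 : 0 ≤ Lg := by
    have : 0 ≤ Real.log (1 + E0 * Ar0 * (HA ^ 2 / fa + HB ^ 2 / fb) / τ ^ 2) :=
      Real.log_nonneg (by
        have : 0 ≤ E0 * Ar0 * (HA ^ 2 / fa + HB ^ 2 / fb) / τ ^ 2 := by positivity
        linarith)
    linarith
  have hEA0 : ∀ w, 0 ≤ EA w := fun w => Finset.sum_nonneg fun _ _ => Finset.sum_nonneg
    fun _ _ => sq_nonneg _
  have hEB0 : ∀ w, 0 ≤ EB w := fun w => Finset.sum_nonneg fun _ _ => Finset.sum_nonneg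
    fun _ _ => sq_nonneg _
  have one : ∀ w ∈ W1, Tw (Gm w) (A w) (B w) (C w) (J.1 + 1) L1 l w ≤
      K * Lg * (τ * √(EA w + fa) * √(EB w + fb)) := by
    intro w hw
    have h1 := hK l hl R J α β γ w x0 x1 y0 y1 (al w) hR hc (hal w) (A w) (B w) (C w) τ HA HB E0
      (EA w + fa) (EB w + fb) (sA w) (sB w) (sC w) hτ (by linarith [hEA0 w]) (by linarith [hEB0 w])
      (hA w) (hB w) hE0 (hC w)
      (fun X Y => (tot (A w) (hS w hw).1 X Y).trans (by simp only [hEA]; linarith))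
      (fun X Y => (tot (B w) (hS w hw).2 X Y).trans (by simp only [hEB]; linarith))
      (hop w) (Gm w) (hGm w) L1
    refine h1.trans (mul_le_mul_of_nonneg_right (mul_le_mul_of_nonneg_left ?_ hK0) (by positivity))
    have h2 : HA ^ 2 / (EA w + fa) ≤ HA ^ 2 / fa :=
      div_le_div_of_nonneg_left (sq_nonneg _) hfa (by linarith [hEA0 w])
    have h3 : HB ^ 2 / (EB w + fb) ≤ HB ^ 2 / fb :=
      div_le_div_of_nonneg_left (sq_nonneg _) hfb (by linarith [hEB0 w])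
    have h4 : E0 * Ar0 * (HA ^ 2 / (EA w + fa) + HB ^ 2 / (EB w + fb)) / τ ^ 2 ≤
        E0 * Ar0 * (HA ^ 2 / fa + HB ^ 2 / fb) / τ ^ 2 := by
      refine div_le_div_of_nonneg_right ?_ (by positivity)
      exact mul_le_mul_of_nonneg_left (add_le_add h2 h3) (by positivity)
    have h5 : 0 ≤ E0 * Ar0 * (HA ^ 2 / (EA w + fa) + HB ^ 2 / (EB w + fb)) / τ ^ 2 := by
      have := hEA0 w
      have := hEB0 w
      positivity
    simp only [hLg]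
    have h6 := Real.log_le_log (by linarith) (by linarith : 1 + E0 * Ar0 *
      (HA ^ 2 / (EA w + fa) + HB ^ 2 / (EB w + fb)) / τ ^ 2 ≤
        1 + E0 * Ar0 * (HA ^ 2 / fa + HB ^ 2 / fb) / τ ^ 2)
    linarith
  have hzero : ∀ w ∈ Wf, w ∉ W1 → Tw (Gm w) (A w) (B w) (C w) (J.1 + 1) L1 l w = 0 := by
    intro w _ hw
    rcases h0 w hw with h | h
    · exact tw_zero (Lb3r_zero_A h)
    · exact tw_zero (Lb3r_zero_B h)
  have hTw0 : ∀ w, 0 ≤ Tw (Gm w) (A w) (B w) (C w) (J.1 + 1) L1 l w := by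
    intro w
    unfold Tw
    refine Finset.sum_nonneg fun m _ => mul_nonneg (by positivity) ?_
    refine Finset.sum_nonneg fun i _ => Finset.sum_nonneg fun p0 _ => Finset.sum_nonneg
      fun p1 _ => ?_
    split_ifs
    · exact abs_nonneg _
    · exact le_rfl
  calc ∑ w ∈ Wf, Tw (Gm w) (A w) (B w) (C w) (J.1 + 1) L1 l w
      = ∑ w ∈ Wf.filter (fun w => w ∈ W1), Tw (Gm w) (A w) (B w) (C w) (J.1 + 1) L1 l w := by
        rw [Finset.sum_filter]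
        refine Finset.sum_congr rfl fun w hw => ?_
        by_cases hw1 : w ∈ W1
        · rw [if_pos hw1]
        · rw [if_neg hw1, hzero w hw hw1]
    _ ≤ ∑ w ∈ W1, Tw (Gm w) (A w) (B w) (C w) (J.1 + 1) L1 l w :=
        Finset.sum_le_sum_of_subset_of_nonneg (fun w hw => (Finset.mem_filter.1 hw).2)
          (fun w _ _ => hTw0 w)
    _ ≤ ∑ w ∈ W1, K * Lg * (τ * √(EA w + fa) * √(EB w + fb)) := Finset.sum_le_sum one
    _ = K * Lg * (τ * ∑ w ∈ W1, √(EA w + fa) * √(EB w + fb)) := by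
        rw [Finset.mul_sum, Finset.mul_sum]
        refine Finset.sum_congr rfl fun w _ => by ring
    _ ≤ K * Lg * (τ * (√(SA + W1.card * fa) * √(SB + W1.card * fb))) := by
        refine mul_le_mul_of_nonneg_left (mul_le_mul_of_nonneg_left ?_ hτ.le) (by positivity)
        refine (Real.sum_sqrt_mul_sqrt_le W1 (fun w => by linarith [hEA0 w])
          (fun w => by linarith [hEB0 w])).trans ?_
        refine mul_le_mul (Real.sqrt_le_sqrt ?_) (Real.sqrt_le_sqrt ?_) (Real.sqrt_nonneg _)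
          (Real.sqrt_nonneg _)
        · rw [Finset.sum_add_distrib, Finset.sum_const, nsmul_eq_mul]
          linarith [eA IS IS]
        · rw [Finset.sum_add_distrib, Finset.sum_const, nsmul_eq_mul]
          linarith [eB IS IS]
    _ = _ := by ring

/-- real words, killer at position `2` -/
theorem ta_twoE : ∃ K0 : ℝ, 0 ≤ K0 ∧ ∀ (bb : ℤ), bb = -1 ∨ bb = -7 →
    ∀ (R : Finset Nd) (J : Nd) (α β γ x0 x1 y0 y1 : ℤ) (al : ℤ → ℕ → ℤ → ℤ → Prop),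
    IsRegion R J → Cof α β γ → (∀ w, AlC R J α β γ w x0 x1 y0 y1 (al w)) →
    ∀ (A B C : Kl) (τ HA HB E0 fa fb SA SB : ℝ) (W1 : Finset ℤ),
    (∀ w, ∃ T T' : Finset ℤ, ∀ x y, A w x y ≠ 0 → x ∈ T ∧ y ∈ T') →
    (∀ w, ∃ T T' : Finset ℤ, ∀ x y, B w x y ≠ 0 → x ∈ T ∧ y ∈ T') →
    (∀ w, ∃ T T' : Finset ℤ, ∀ x y, C w x y ≠ 0 → x ∈ T ∧ y ∈ T') →
    0 < τ → 0 < fa → 0 < fb →
    (∀ w x y, ‖A w x y‖ ≤ HA) → (∀ w x y, ‖B w x y‖ ≤ HB) → 0 ≤ E0 →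
    (∀ w m q p, al w m q p → ∑ x ∈ Ico q (q + (2 : ℤ) ^ m), ∑ y ∈ Ico p (p + (2 : ℤ) ^ m),
      ‖C w x y‖ ^ 2 ≤ 4 ^ m * E0) →
    (∀ w, w ∉ W1 → (∀ x y, A w x y = 0) ∨ (∀ x y, B w x y = 0)) →
    (∀ X Y : Finset ℤ, ∑ w ∈ W1, ∑ x ∈ X, ∑ y ∈ Y, ‖A w x y‖ ^ 2 ≤ SA) →
    (∀ X Y : Finset ℤ, ∑ w ∈ W1, ∑ x ∈ X, ∑ y ∈ Y, ‖B w x y‖ ^ 2 ≤ SB) →
    (∀ w m q p, al w m q p → BadTx138.OpB (C w) (Ico q (q + (2 ^ m : ℕ))) (Ico p (p + (2 ^ m : ℕ)))
      (2 ^ m * τ)) →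
    ∀ (Gd : ℕ → ℤ × ℤ × ℤ → ℕ → Prop), (∀ n ≤ J.1, ∀ p v, Gd n p v →
      (∃ i j : ℕ, i < 2 ^ (n + 1) ∧ j < 2 ^ (n + 1) ∧ C (wv bb n p v) (p.2.2 + i) (p.1 + j) ≠ 0) →
      Al4Z (al (wv bb n p v)) n p.2.2 p.1) →
    ∀ (L1 : ℕ), TA bb (cube L1) (J.1 + 1) Gd ![A, B, C] ≤
      K0 * (1 + Real.log (1 + E0 * (((Ico x0 x1).card : ℝ) * len J) *
        (HA ^ 2 / fa + HB ^ 2 / fb) / τ ^ 2)) *
        (τ * √(SA + W1.card * fa) * √(SB + W1.card * fb)) := by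
  classical
  obtain ⟨K, hK0, hK⟩ := sum_twE KTx279.cornerZ
  refine ⟨8 * K, by positivity, ?_⟩
  intro bb hbb R J α β γ x0 x1 y0 y1 al hR hc hal A B C τ HA HB E0 fa fb SA SB W1 sA sB sC hτ hfa
    hfb hA hB hE0 hC h0 eA eB hop Gd hGd L1
  set G : ℕ → ℤ → ℤ → ℤ → ℤ → Prop := fun n w p0 p1 p2 => n ≤ J.1 ∧
    ((∃ i j : ℕ, i < 2 ^ (n + 1) ∧ j < 2 ^ (n + 1) ∧ C w (p2 + i) (p0 + j) ≠ 0) →
      Al4Z (al w) n p2 p0) with hG
  set X : ℝ := K * (1 + Real.log (1 + E0 * (((Ico x0 x1).card : ℝ) * len J) *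
        (HA ^ 2 / fa + HB ^ 2 / fb) / τ ^ 2)) *
        (τ * √(SA + W1.card * fa) * √(SB + W1.card * fb)) with hX
  have fsA : ∀ σ w, FS (fun x y => pr σ (A w x y)) := by
    intro σ w
    obtain ⟨T, T', h⟩ := sA w
    exact fs_of_mem (T := T) (T' := T') fun x y hxy => h x y fun h0 => hxy (by rw [h0, pr_zero])
  have fsB : ∀ σ w, FS (fun x y => pr σ (B w x y)) := by
    intro σ w
    obtain ⟨T, T', h⟩ := sB w
    exact fs_of_mem (T := T) (T' := T') fun x y hxy => h x y fun h0 => hxy (by rw [h0, pr_zero])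
  have fsC : ∀ σ w, FS (fun x y => pr σ (C w x y)) := by
    intro σ w
    obtain ⟨T, T', h⟩ := sC w
    exact fs_of_mem (T := T) (T' := T') fun x y hxy => h x y fun h0 => hxy (by rw [h0, pr_zero])
  have sqpr : ∀ (σ : Bool) (z : ℂ), pr σ z ^ 2 ≤ ‖z‖ ^ 2 := by
    intro σ z
    rw [← sq_abs]
    exact pow_le_pow_left₀ (abs_nonneg _) (abs_pr_le σ z) 2
  have word : ∀ l : ℤ, |l| ≤ 7 → ∀ (σ : Bool × Bool × Bool) (Wf : Finset ℤ),
      ∑ w ∈ Wf, Tw (fun m p0 p1 p2 => G m w p0 p1 p2) (fun z z' => pr σ.1 (A w z z'))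
        (fun z z' => pr σ.2.1 (B w z z')) (fun z z' => pr σ.2.2 (C w z z')) (J.1 + 1) L1 l w ≤
        X := by
    intro l hl σ Wf
    refine hK l hl R J α β γ x0 x1 y0 y1 al hR hc hal (fun w z z' => pr σ.1 (A w z z'))
      (fun w z z' => pr σ.2.1 (B w z z')) (fun w z z' => pr σ.2.2 (C w z z')) τ HA HB E0 fa fb SA SB
      W1 (fsA _) (fsB _) (fsC _) hτ hfa hfb (fun w x y => (abs_pr_le _ _).trans (hA w x y))
      (fun w x y => (abs_pr_le _ _).trans (hB w x y))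
      hE0 (fun w m q p h => (Finset.sum_le_sum fun x _ => Finset.sum_le_sum fun y _ =>
        sqpr _ _).trans (hC w m q p h)) ?_ ?_ ?_ ?_
      (fun w m p0 p1 p2 => G m w p0 p1 p2) ?_ Wf L1
    · intro w hw
      rcases h0 w hw with h | h
      · exact Or.inl fun x y => by rw [h, pr_zero]
      · exact Or.inr fun x y => by rw [h, pr_zero]
    · intro X Y
      refine (Finset.sum_le_sum fun w _ => Finset.sum_le_sum fun x _ => Finset.sum_le_sum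
        fun y _ => sqpr _ _).trans (eA X Y)
    · intro X Y
      refine (Finset.sum_le_sum fun w _ => Finset.sum_le_sum fun x _ => Finset.sum_le_sum
        fun y _ => sqpr _ _).trans (eB X Y)
    · intro w m q p h
      exact opZ_of_opB (hop w m q p h) _
    · intro w m _ p0 p1 p2 hg hex
      refine hg.2 ?_
      obtain ⟨i, j, hi, hj, hne⟩ := hex
      exact ⟨i, j, hi, hj, fun h => hne (by simp only [h, pr_zero])⟩
  have h1 := TA_le_Tw bb hbb (J.1 + 1) L1 (3 * L1 + 8 * 2 ^ (J.1 + 1 + 1)) rfl G Gd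
    (fun n hn p _ v _ hg => ⟨Nat.lt_succ_iff.1 hn, hGd n (Nat.lt_succ_iff.1 hn) p v hg⟩) ![A, B, C]
  have h2 : ∀ l : ℤ, |l| ≤ 7 → ∀ Wf : Finset ℤ,
      ∑ w ∈ Wf, Wt G ![A, B, C] (J.1 + 1) L1 l w ≤ 8 * X := by
    intro l hl Wf
    unfold Wt
    rw [Finset.sum_comm]
    refine (Finset.sum_le_sum fun σ _ => word l hl σ Wf).trans (le_of_eq ?_)
    simp
  have hl0 : |bb| ≤ 7 := by rcases hbb with rfl | rfl <;> norm_num
  have hl1 : |bb + 1| ≤ 7 := by rcases hbb with rfl | rfl <;> norm_num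
  refine h1.trans ?_
  have h3 := h2 bb hl0 (Icc (-((3 * L1 + 8 * 2 ^ (J.1 + 1 + 1) : ℕ) : ℤ))
    ((3 * L1 + 8 * 2 ^ (J.1 + 1 + 1) : ℕ) : ℤ))
  have h4 := h2 (bb + 1) hl1 (Icc (-((3 * L1 + 8 * 2 ^ (J.1 + 1 + 1) : ℕ) : ℤ))
    ((3 * L1 + 8 * 2 ^ (J.1 + 1 + 1) : ℕ) : ℤ))
  have e1 : 8 * K * (1 + Real.log (1 + E0 * (((Ico x0 x1).card : ℝ) * len J) *
        (HA ^ 2 / fa + HB ^ 2 / fb) / τ ^ 2)) *
        (τ * √(SA + W1.card * fa) * √(SB + W1.card * fb)) = 8 * X := by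
    rw [hX]; ring
  rw [e1]
  linarith

/-- **THE CORNER FOR THREE COMPLEX KERNELS, killer on the edge `e`** -/
theorem ta_cornerE : ∃ K0 : ℝ, 0 ≤ K0 ∧ ∀ (bb : ℤ), bb = -1 ∨ bb = -7 → ∀ (j : Fin 4) (e : Fin 3),
    ∀ (R : Finset Nd) (J : Nd) (x0 x1 y0 y1 : ℤ) (al : ℤ → ℕ → ℤ → ℤ → Prop),
    IsRegion R J → (∀ w, AlC R J (sl j - sl (j.succAbove (e + 2)))
      (sl (j.succAbove e) - sl (j.succAbove (e + 2)))
      (sl (j.succAbove (e + 1)) - sl (j.succAbove (e + 2))) w x0 x1 y0 y1 (al w)) →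
    ∀ (K : Fin 3 → Kl) (τ HA HB E0 fa fb SA SB : ℝ) (W1 : Finset ℤ),
    (∀ e' w, ∃ T T' : Finset ℤ, ∀ x y, K e' w x y ≠ 0 → x ∈ T ∧ y ∈ T') →
    0 < τ → 0 < fa → 0 < fb →
    (∀ w x y, ‖K (e + 1) w x y‖ ≤ HA) → (∀ w x y, ‖K (e + 2) w x y‖ ≤ HB) →
    0 ≤ E0 →
    (∀ w m q p, al w m q p → ∑ x ∈ Ico q (q + (2 : ℤ) ^ m), ∑ y ∈ Ico p (p + (2 : ℤ) ^ m),
      ‖K e w x y‖ ^ 2 ≤ 4 ^ m * E0) →
    (∀ w, w ∉ W1 → (∀ x y, K (e + 1) w x y = 0) ∨ (∀ x y, K (e + 2) w x y = 0)) →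
    (∀ X Y : Finset ℤ, ∑ w ∈ W1, ∑ x ∈ X, ∑ y ∈ Y, ‖K (e + 1) w x y‖ ^ 2 ≤ SA) →
    (∀ X Y : Finset ℤ, ∑ w ∈ W1, ∑ x ∈ X, ∑ y ∈ Y, ‖K (e + 2) w x y‖ ^ 2 ≤ SB) →
    (∀ w m q p, al w m q p → BadTx138.OpB (K e w) (Ico q (q + (2 ^ m : ℕ)))
      (Ico p (p + (2 ^ m : ℕ))) (2 ^ m * τ)) →
    ∀ (Gd : ℕ → ℤ × ℤ × ℤ → ℕ → Prop), (∀ n ≤ J.1, ∀ p v, Gd n p v →
      (∃ i i' : ℕ, i < 2 ^ (n + 1) ∧ i' < 2 ^ (n + 1) ∧
        K e (wv bb n p v) (pc e p + i) (pc (e + 1) p + i') ≠ 0) →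
      Al4Z (al (wv bb n p v)) n (pc e p) (pc (e + 1) p)) →
    ∀ (L1 : ℕ), TA bb (cube L1) (J.1 + 1) Gd K ≤
      K0 * (1 + Real.log (1 + E0 * (((Ico x0 x1).card : ℝ) * len J) *
        (HA ^ 2 / fa + HB ^ 2 / fb) / τ ^ 2)) *
        (τ * √(SA + W1.card * fa) * √(SB + W1.card * fb)) := by
  obtain ⟨K0, hK0, hK⟩ := ta_twoE
  refine ⟨K0, hK0, ?_⟩
  intro bb hbb j e R J x0 x1 y0 y1 al hR hal K τ HA HB E0 fa fb SA SB W1 sK hτ hfa hfb hA hB hE0 hC h0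
    eA eB hop Gd hGd L1
  have hcof := cof_edge j e
  have main := fun (Gd' : ℕ → ℤ × ℤ × ℤ → ℕ → Prop) (hGd' : ∀ n ≤ J.1, ∀ p v, Gd' n p v →
      (∃ i j : ℕ, i < 2 ^ (n + 1) ∧ j < 2 ^ (n + 1) ∧
        K e (wv bb n p v) (p.2.2 + i) (p.1 + j) ≠ 0) →
      Al4Z (al (wv bb n p v)) n p.2.2 p.1) =>
    hK bb hbb R J _ _ _ x0 x1 y0 y1 al hR hcof hal (K (e + 1)) (K (e + 2)) (K e) τ HA HB E0 fa fb
      SA SB W1 (sK _) (sK _) (sK _) hτ hfa hfb hA hB hE0 hC h0 eA eB hop Gd' hGd' L1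
  fin_cases e
  · -- killer on the edge 0: one rotation
    rw [TA_rot1]
    have e1 : (fun e' : Fin 3 => K (e' + 1)) = ![K 1, K 2, K 0] := by
      funext e'
      fin_cases e' <;> rfl
    rw [e1]
    refine main (fun n p v => Gd n (rp1 (rp1 p)) v) ?_
    intro n hn p v hg hex
    have h1 := hGd n hn (rp1 (rp1 p)) v hg
    rw [wv_rp1, wv_rp1] at h1
    exact h1 hex
  · -- killer on the edge 1: two rotations
    rw [TA_rot1, TA_rot1]
    have e1 : (fun e' : Fin 3 => (fun e' : Fin 3 => K (e' + 1)) (e' + 1)) = ![K 2, K 0, K 1] := by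
      funext e'
      fin_cases e' <;> rfl
    rw [e1]
    refine main (fun n p v => Gd n (rp1 (rp1 (rp1 (rp1 p)))) v) ?_
    intro n hn p v hg hex
    have h1 := hGd n hn (rp1 (rp1 (rp1 (rp1 p)))) v hg
    rw [rp1_3, wv_rp1] at h1
    exact h1 hex
  · have e1 : K = ![K 0, K 1, K 2] := by
      funext e'
      fin_cases e' <;> rfl
    rw [e1]
    refine main Gd ?_
    intro n hn p v hg hex
    exact hGd n hn p v hg hex

/-- **ALL BOXES OF ONE REGION, killer with an operator bound on all boxes of the region** -/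
theorem ta_unifE : ∃ K0 : ℝ, 0 ≤ K0 ∧ ∀ (bb : ℤ), bb = -1 ∨ bb = -7 → ∀ (j : Fin 4) (e : Fin 3),
    ∀ (R : Finset Nd) (J : Nd) (c0 c1 d0 d1 : ℤ), IsRegion R J →
    ∀ (K : Fin 3 → Kl) (τ HA HB E0 fa fb SA SB : ℝ) (W1 : Finset ℤ),
    (∀ e' w, ∃ T T' : Finset ℤ, ∀ x y, K e' w x y ≠ 0 → x ∈ T ∧ y ∈ T') →
    (∀ w x y, K e w x y ≠ 0 → (c0 ≤ x ∧ x < c1) ∧ (d0 ≤ y ∧ y < d1)) →
    0 < τ → 0 < fa → 0 < fb →
    (∀ w x y, ‖K (e + 1) w x y‖ ≤ HA) → (∀ w x y, ‖K (e + 2) w x y‖ ≤ HB) →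
    0 ≤ E0 →
    (∀ w m q p, Om R (sl j - sl (j.succAbove (e + 2)))
      (sl (j.succAbove e) - sl (j.succAbove (e + 2)))
      (sl (j.succAbove (e + 1)) - sl (j.succAbove (e + 2))) w m q p →
      ∑ x ∈ Ico q (q + (2 : ℤ) ^ m), ∑ y ∈ Ico p (p + (2 : ℤ) ^ m),
      ‖K e w x y‖ ^ 2 ≤ 4 ^ m * E0) →
    (∀ w, w ∉ W1 → (∀ x y, K (e + 1) w x y = 0) ∨ (∀ x y, K (e + 2) w x y = 0)) →
    (∀ X Y : Finset ℤ, ∑ w ∈ W1, ∑ x ∈ X, ∑ y ∈ Y, ‖K (e + 1) w x y‖ ^ 2 ≤ SA) →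
    (∀ X Y : Finset ℤ, ∑ w ∈ W1, ∑ x ∈ X, ∑ y ∈ Y, ‖K (e + 2) w x y‖ ^ 2 ≤ SB) →
    (∀ w m q p, Om R (sl j - sl (j.succAbove (e + 2)))
      (sl (j.succAbove e) - sl (j.succAbove (e + 2)))
      (sl (j.succAbove (e + 1)) - sl (j.succAbove (e + 2))) w m q p →
      BadTx138.OpB (K e w) (Ico q (q + (2 ^ m : ℕ))) (Ico p (p + (2 ^ m : ℕ))) (2 ^ m * τ)) →
    ∀ (L1 : ℕ), TA bb (cube L1) (J.1 + 1) (fun n p _ => AdX R n (xv j bb n p)) K ≤
      K0 * (1 + Real.log (1 + E0 * (((Ico (c0 - 2 ^ (J.1 + 1)) (c1 + 2 ^ (J.1 + 1))).card : ℝ) *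
        len J) * (HA ^ 2 / fa + HB ^ 2 / fb) / τ ^ 2)) *
        (τ * √(SA + W1.card * fa) * √(SB + W1.card * fb)) := by
  obtain ⟨K0, hK0, hK⟩ := ta_cornerE
  refine ⟨K0, hK0, ?_⟩
  intro bb hbb j e R J c0 c1 d0 d1 hR K τ HA HB E0 fa fb SA SB W1 sK sC hτ hfa hfb hA hB hE0 hC h0
    eA eB hop L1
  refine (TA_mono bb (cube L1) (J.1 + 1) (Gd' := fun n p v => v < 2 ^ n + 2 ^ n ∧
    AdX R n (xv j bb n p)) K (fun n _ p _ v hv h _ => ⟨hv, h⟩)).trans ?_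
  refine hK bb hbb j e R J (c0 - 2 ^ (J.1 + 1)) (c1 + 2 ^ (J.1 + 1)) (d0 - 2 ^ (J.1 + 1))
    (d1 + 2 ^ (J.1 + 1)) (fun w => AlU R (sl j - sl (j.succAbove (e + 2)))
      (sl (j.succAbove e) - sl (j.succAbove (e + 2)))
      (sl (j.succAbove (e + 1)) - sl (j.succAbove (e + 2))) w (c0 - 2 ^ (J.1 + 1))
      (c1 + 2 ^ (J.1 + 1)) (d0 - 2 ^ (J.1 + 1)) (d1 + 2 ^ (J.1 + 1))) hR
    (fun w => alC_unif hR (cof_edge j e)) K τ HA HB E0 fa fb SA SB W1 sK hτ hfa hfb hA hB hE0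
    (fun w m q p h => hC w m q p h.1) h0 eA eB (fun w m q p h => hop w m q p h.1) _ ?_ L1
  rintro n hn p v ⟨hv, hg⟩ ⟨i, i', hi, hi', hne⟩
  obtain ⟨⟨h1, h2⟩, h3, h4⟩ := sC _ _ _ hne
  refine al4_unif hn (al4_of_adX hbb hg hv) ⟨i, by positivity, by exact_mod_cast hi, h1, h2⟩
    ⟨i', by positivity, by exact_mod_cast hi', h3, h4⟩

end Crest.Agent.R079.TwEx253
end

-- ▼ part R079/B0K_253

/-! R079, Step I, (G) words (helper253): THE KILLER WORD OF ONE WINDOW for the atoms `OpD` of 371.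

The killer is ANY kernel `K e` supported in the band of the window, with an operator bound `τ 2^m` and a
Hilbert-Schmidt bound `E0 4^m` on all boxes of the window (glued projections `B_0`, tall part `Z - τ_h Z`);
the two partners have heights and energies `n² len J a²`, `n² len J b²`.  Price `log (1 + …)`, scale free.

* `b0_gen`  : general partners;
* `en_lk`   : energy of a line kernel;
* `b0_line` : line letter on the killer edge `v + 1` and line letter on the other tall edge. -/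

set_option autoImplicit false

namespace Crest.Agent.R079.B0Kx253

open Finset Crest.Agent.R079.Grid Crest.Agent.R079.Glue Crest.Agent.R079.Growth
  Crest.Agent.R079.QRed Crest.Agent.R079.KLx446
  Crest.Agent.R079.GaAx571 Crest.Agent.R079.GaBx571 Crest.Agent.R079.GaWx571
  Crest.Agent.R079.TaKx253 Crest.Agent.R079.TwEx253 Crest.Agent.R079.GaFx371

/-- all three kernels are supported in the bands of the top `J` -/
def Sup (j : Fin 4) (T : Fin 3 → Finset ℤ) (J : Nd) (K : Fin 3 → Kl) : Prop :=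
  ∀ e w x y, K e w x y ≠ 0 → x ∈ T e ∧ y ∈ T (e + 1) ∧ Ye j e w x y ∈ iv J

lemma sl_bd (i k : Fin 4) : |sl i - sl k| ≤ 3 := by
  fin_cases i <;> fin_cases k <;> simp [sl]

/-- the frozen values of a band lie in an interval of length `O(n)` -/
lemma w_range {j : Fin 4} {e : Fin 3} {J : Nd} {n : ℕ} (hJ : 2 ^ J.1 ≤ n) {t t' : ℤ}
    {w x y : ℤ} (hx : x ∈ Ico t (t + n)) (hy : y ∈ Ico t' (t' + n)) (h : Ye j e w x y ∈ iv J) :
    ∃ w0 : ℤ, w0 = (J.2 * 2 ^ (J.1 + 7) - (sl (j.succAbove e) - sl (j.succAbove (e + 2))) * t -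
      (sl (j.succAbove (e + 1)) - sl (j.succAbove (e + 2))) * t') /
        (sl j - sl (j.succAbove (e + 2))) ∧ |w - w0| ≤ 140 * n := by
  refine ⟨_, rfl, ?_⟩
  set c := sl j - sl (j.succAbove (e + 2)) with hc
  set a := sl (j.succAbove e) - sl (j.succAbove (e + 2)) with ha
  set b := sl (j.succAbove (e + 1)) - sl (j.succAbove (e + 2)) with hb
  have hc0 : c ≠ 0 := co_ne j e
  have ha3 : |a| ≤ 3 := sl_bd _ _
  have hb3 : |b| ≤ 3 := sl_bd _ _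
  have hc3 : |c| ≤ 3 := sl_bd _ _
  set z := J.2 * 2 ^ (J.1 + 7) - a * t - b * t' with hz
  have hn0 : (0 : ℤ) ≤ n := Int.natCast_nonneg n
  have hJ' : (2 : ℤ) ^ J.1 ≤ n := by exact_mod_cast hJ
  have hJ7 : (2 : ℤ) ^ (J.1 + 7) ≤ 128 * n := by
    rw [pow_add]; norm_num; linarith
  have hn1 : (1 : ℤ) ≤ n := le_trans (one_le_pow₀ (by norm_num)) hJ'
  rw [Finset.mem_Ico] at hx hy
  unfold iv dI at h
  rw [Finset.mem_Ico] at h
  have hY : Ye j e w x y = c * w + a * x + b * y := rfl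
  have h1 : |c * w - z| ≤ 128 * n + 6 * n := by
    have e1 : c * w - z = (Ye j e w x y - J.2 * 2 ^ (J.1 + 7)) - a * (x - t) - b * (y - t') := by
      rw [hY, hz]; ring
    have h2 : |Ye j e w x y - J.2 * 2 ^ (J.1 + 7)| ≤ 128 * n := by
      rw [abs_le]
      constructor
      · linarith [h.1]
      · have := h.2
        have e2 : (J.2 + 1) * 2 ^ (J.1 + 7) = J.2 * 2 ^ (J.1 + 7) + 2 ^ (J.1 + 7) := by ring
        linarith
    have h3 : |a * (x - t)| ≤ 3 * n := by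
      rw [abs_mul]
      exact mul_le_mul ha3 (abs_le.2 ⟨by linarith, by linarith⟩) (abs_nonneg _) (by norm_num)
    have h4 : |b * (y - t')| ≤ 3 * n := by
      rw [abs_mul]
      exact mul_le_mul hb3 (abs_le.2 ⟨by linarith, by linarith⟩) (abs_nonneg _) (by norm_num)
    rw [e1]
    have h5 := abs_sub (Ye j e w x y - J.2 * 2 ^ (J.1 + 7) - a * (x - t)) (b * (y - t'))
    have h6 := abs_sub (Ye j e w x y - J.2 * 2 ^ (J.1 + 7)) (a * (x - t))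
    linarith
  have h7 : |c * (w - z / c)| ≤ 128 * n + 6 * n + 3 := by
    have h8 := Int.emod_add_mul_ediv z c
    have h9 : 0 ≤ z % c := Int.emod_nonneg z hc0
    have h10 : z % c < |c| := Int.emod_lt_abs z hc0
    have e3 : c * (w - z / c) = (c * w - z) + z % c := by linarith
    rw [e3]
    refine (abs_add_le _ _).trans ?_
    have : |z % c| ≤ 3 := by
      rw [abs_of_nonneg h9]; linarith
    linarith
  rw [abs_mul] at h7
  have h11 : 1 ≤ |c| := Int.one_le_abs hc0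
  nlinarith [abs_nonneg (w - z / c)]

/-- elementary: the price -/
lemma log_price {C x : ℝ} (hC : 1 ≤ C) (hx : 0 ≤ x) :
    1 + Real.log (1 + C * x) ≤ C * (1 + Real.log (1 + x)) := by
  have h1 : 1 + C * x ≤ C * (1 + x) := by linarith
  have h2 := Real.log_le_log (by positivity) h1
  rw [Real.log_mul (by positivity) (by positivity)] at h2
  have h3 := Real.log_le_sub_one_of_pos (show (0 : ℝ) < C by linarith)
  have h4 : 0 ≤ Real.log (1 + x) := Real.log_nonneg (by linarith)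
  nlinarith

lemma aux_z {E n l H dl τ : ℝ} (hn : 0 < n) (hl : 0 < l) (hdl : 0 < dl) (hτ : 0 < τ) :
    E * (5 * n * l) * (H / (n ^ 2 * l * dl / (281 * n))) / τ ^ 2 = 1405 * (E * H / (dl * τ ^ 2)) := by
  field_simp
  ring

lemma aux_f {n l dl : ℝ} (hn : 0 < n) :
    281 * n * (n ^ 2 * l * dl / (281 * n)) = n ^ 2 * l * dl := by
  field_simp

lemma aux_sq {A a f dl : ℝ} (hA : 0 ≤ A) (ha : 0 ≤ a) (hdl : 0 ≤ dl) (hf : f ≤ A * dl) :
    √(A * a ^ 2 + f) ≤ √A * (a + √dl) := by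
  have h1 : A * a ^ 2 + f ≤ A * (a + √dl) ^ 2 := by
    have h2 : (√dl) ^ 2 = dl := Real.sq_sqrt hdl
    have h3 : 0 ≤ √dl := Real.sqrt_nonneg _
    have h4 : A * (a + √dl) ^ 2 = A * a ^ 2 + A * dl + 2 * (A * (a * √dl)) := by
      have : (a + √dl) ^ 2 = a ^ 2 + (√dl) ^ 2 + 2 * (a * √dl) := by ring
      rw [this, h2]; ring
    have h5 : 0 ≤ A * (a * √dl) := by positivity
    linarith
  refine (Real.sqrt_le_sqrt h1).trans (le_of_eq ?_)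
  rw [Real.sqrt_mul hA, Real.sqrt_sq (by positivity)]

lemma fin_num {K0 E0 Cd l n HA HB dl τ a b wc f0 : ℝ} (hK0 : 0 ≤ K0) (hE0 : 0 ≤ E0) (hn : 0 < n)
    (hl : 0 < l) (hdl : 0 < dl) (hτ : 0 < τ) (ha : 0 ≤ a) (hb : 0 ≤ b) (hCd0 : 0 ≤ Cd)
    (hCd : Cd ≤ 5 * n) (hw : wc ≤ 281 * n)
    (hf0 : f0 = n ^ 2 * l * dl / (281 * n)) :
    K0 * (1 + Real.log (1 + E0 * (Cd * l) * (HA ^ 2 / f0 + HB ^ 2 / f0) / τ ^ 2)) *
      (τ * √(n ^ 2 * l * a ^ 2 + wc * f0) * √(n ^ 2 * l * b ^ 2 + wc * f0)) ≤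
    2000 * K0 * (1 + Real.log (1 + E0 * (HA ^ 2 + HB ^ 2) / (dl * τ ^ 2))) *
      (τ * (n ^ 2 * l * ((a + √dl) * (b + √dl)))) := by
  have hf0p : 0 < f0 := by rw [hf0]; positivity
  have hfl : wc * f0 ≤ n ^ 2 * l * dl := by
    calc wc * f0 ≤ 281 * n * f0 := mul_le_mul_of_nonneg_right hw hf0p.le
      _ = n ^ 2 * l * dl := by rw [hf0]; exact aux_f hn
  obtain ⟨X, hX⟩ : ∃ X, X = E0 * (HA ^ 2 + HB ^ 2) / (dl * τ ^ 2) := ⟨_, rfl⟩
  have hX0 : 0 ≤ X := by rw [hX]; positivity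
  have hz : E0 * (Cd * l) * (HA ^ 2 / f0 + HB ^ 2 / f0) / τ ^ 2 ≤ 1405 * X := by
    have e1 : HA ^ 2 / f0 + HB ^ 2 / f0 = (HA ^ 2 + HB ^ 2) / f0 := by rw [add_div]
    have e2 : 1405 * X = E0 * (5 * n * l) * ((HA ^ 2 + HB ^ 2) / f0) / τ ^ 2 := by
      rw [hX, hf0]
      exact (aux_z hn hl hdl hτ).symm
    rw [e1, e2]
    refine div_le_div_of_nonneg_right ?_ (by positivity)
    refine mul_le_mul_of_nonneg_right ?_ (by positivity)
    refine mul_le_mul_of_nonneg_left ?_ hE0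
    exact mul_le_mul_of_nonneg_right hCd hl.le
  have hz0 : 0 ≤ E0 * (Cd * l) * (HA ^ 2 / f0 + HB ^ 2 / f0) / τ ^ 2 := by positivity
  obtain ⟨Z, hZ⟩ : ∃ Z, Z = E0 * (Cd * l) * (HA ^ 2 / f0 + HB ^ 2 / f0) / τ ^ 2 := ⟨_, rfl⟩
  rw [← hZ] at hz hz0 ⊢
  rw [← hX]
  have hlog : 1 + Real.log (1 + Z) ≤ 1405 * (1 + Real.log (1 + X)) := by
    refine le_trans ?_ (log_price (by norm_num : (1 : ℝ) ≤ 1405) hX0)
    have := Real.log_le_log (by linarith) (by linarith : 1 + Z ≤ 1 + 1405 * X)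
    linarith
  have hlX : 0 ≤ Real.log (1 + X) := Real.log_nonneg (by linarith)
  obtain ⟨A, hA⟩ : ∃ A, A = n ^ 2 * l := ⟨_, rfl⟩
  have hA0 : 0 ≤ A := by rw [hA]; positivity
  rw [← hA] at hfl ⊢
  have s1 : √(A * a ^ 2 + wc * f0) ≤ √A * (a + √dl) := aux_sq hA0 ha hdl.le hfl
  have s2 : √(A * b ^ 2 + wc * f0) ≤ √A * (b + √dl) := aux_sq hA0 hb hdl.le hfl
  have hs0 : √A * √A = A := Real.mul_self_sqrt hA0
  obtain ⟨u, hu⟩ : ∃ u, u = a + √dl := ⟨_, rfl⟩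
  obtain ⟨v, hv⟩ : ∃ v, v = b + √dl := ⟨_, rfl⟩
  have hu0 : 0 ≤ u := by rw [hu]; positivity
  have hv0 : 0 ≤ v := by rw [hv]; positivity
  rw [← hu] at s1 ⊢
  rw [← hv] at s2 ⊢
  have h1 : τ * √(A * a ^ 2 + wc * f0) * √(A * b ^ 2 + wc * f0) ≤ τ * (A * (u * v)) := by
    calc τ * √(A * a ^ 2 + wc * f0) * √(A * b ^ 2 + wc * f0) ≤ τ * (√A * u) * (√A * v) :=
          mul_le_mul (mul_le_mul_of_nonneg_left s1 hτ.le) s2 (Real.sqrt_nonneg _) (by positivity)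
      _ = τ * ((√A * √A) * (u * v)) := by ring
      _ = _ := by rw [hs0]
  have h2 : K0 * (1 + Real.log (1 + Z)) ≤ 1405 * (K0 * (1 + Real.log (1 + X))) := by
    have := mul_le_mul_of_nonneg_left hlog hK0
    linarith
  have h3 : 0 ≤ K0 * (1 + Real.log (1 + X)) := by positivity
  have h4 : 0 ≤ τ * (A * (u * v)) := by positivity
  calc _ ≤ 1405 * (K0 * (1 + Real.log (1 + X))) * (τ * (A * (u * v))) :=
        mul_le_mul h2 h1 (by positivity) (by positivity)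
    _ ≤ 2000 * (K0 * (1 + Real.log (1 + X))) * (τ * (A * (u * v))) :=
        mul_le_mul_of_nonneg_right (mul_le_mul_of_nonneg_right (by norm_num) h3) h4
    _ = _ := by ring

/-- **THE KILLER WORD OF ONE WINDOW, general partners** -/
theorem b0_gen : ∃ K0 : ℝ, 0 ≤ K0 ∧ ∀ (bb : ℤ), bb = -1 ∨ bb = -7 → ∀ (j : Fin 4) (e : Fin 3),
    ∀ (R : Finset Nd) (J : Nd), IsRegion R J → ∀ (n : ℕ), 2 ^ J.1 ≤ n →
    ∀ (T : Fin 3 → Finset ℤ), (∀ e', ∃ t : ℤ, T e' ⊆ Ico t (t + n)) →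
    ∀ (K : Fin 3 → Kl), Sup j T J K →
    ∀ (τ HA HB E0 dl a b : ℝ), 0 < τ → 0 ≤ E0 → 0 < dl → 0 ≤ a → 0 ≤ b →
    (∀ w x y, ‖K (e + 1) w x y‖ ≤ HA) → (∀ w x y, ‖K (e + 2) w x y‖ ≤ HB) →
    (∀ W1 X Y : Finset ℤ, ∑ w ∈ W1, ∑ x ∈ X, ∑ y ∈ Y, ‖K (e + 1) w x y‖ ^ 2 ≤
      n ^ 2 * len J * a ^ 2) →
    (∀ W1 X Y : Finset ℤ, ∑ w ∈ W1, ∑ x ∈ X, ∑ y ∈ Y, ‖K (e + 2) w x y‖ ^ 2 ≤
      n ^ 2 * len J * b ^ 2) →
    (∀ (w : ℤ) (m : ℕ) (q p : ℤ), Om R (sl j - sl (j.succAbove (e + 2)))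
      (sl (j.succAbove e) - sl (j.succAbove (e + 2)))
      (sl (j.succAbove (e + 1)) - sl (j.succAbove (e + 2))) w m q p →
      ∑ x ∈ Ico q (q + (2 : ℤ) ^ m), ∑ y ∈ Ico p (p + (2 : ℤ) ^ m), ‖K e w x y‖ ^ 2 ≤
        4 ^ m * E0) →
    (∀ (w : ℤ) (m : ℕ) (q p : ℤ), Om R (sl j - sl (j.succAbove (e + 2)))
      (sl (j.succAbove e) - sl (j.succAbove (e + 2)))
      (sl (j.succAbove (e + 1)) - sl (j.succAbove (e + 2))) w m q p →
      BadTx138.OpB (K e w) (Ico q (q + (2 ^ m : ℕ))) (Ico p (p + (2 ^ m : ℕ))) (2 ^ m * τ)) →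
    ∀ (L1 : ℕ), TA bb (cube L1) (J.1 + 1) (fun n p _ => AdX R n (xv j bb n p)) K ≤
      K0 * (1 + Real.log (1 + E0 * (HA ^ 2 + HB ^ 2) / (dl * τ ^ 2))) *
        (τ * (n ^ 2 * len J * ((a + √dl) * (b + √dl)))) := by
  classical
  obtain ⟨K0, hK0, hK⟩ := ta_unifE
  refine ⟨2000 * K0, by positivity, ?_⟩
  intro bb hbb j e R J hR n hJn T hTI K hS τ HA HB E0 dl a b hτ hE0 hdl ha hb hA hB eA eB hHS hop L1
  have hn1 : 1 ≤ n := le_trans Nat.one_le_two_pow hJn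
  have hn : (0 : ℝ) < n := by exact_mod_cast hn1
  have hl : 0 < len J := Growth.len_pos J
  choose t ht using hTI
  -- the frozen values
  set w0 : ℤ := (J.2 * 2 ^ (J.1 + 7) - (sl (j.succAbove (e + 1)) - sl (j.succAbove (e + 1 + 2))) *
      t (e + 1) - (sl (j.succAbove (e + 1 + 1)) - sl (j.succAbove (e + 1 + 2))) * t (e + 1 + 1)) /
        (sl j - sl (j.succAbove (e + 1 + 2))) with hw0
  set W1 : Finset ℤ := Icc (w0 - 140 * n) (w0 + 140 * n) with hW1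
  have hcard : (W1.card : ℝ) ≤ 281 * n := by
    rw [hW1, Int.card_Icc]
    have e1 : w0 + 140 * (n : ℤ) + 1 - (w0 - 140 * n) = ((280 * n + 1 : ℕ) : ℤ) := by
      push_cast; ring
    rw [e1, Int.toNat_natCast]
    push_cast
    have : (1 : ℝ) ≤ n := by exact_mod_cast hn1
    linarith
  have hW1' : ∀ w, w ∉ W1 → ∀ x y, K (e + 1) w x y = 0 := by
    intro w hw x y
    by_contra hne
    obtain ⟨h1, h2, h3⟩ := hS (e + 1) w x y hne
    obtain ⟨w0', hw0', h4⟩ := w_range hJn (ht _ h1) (ht _ h2) h3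
    rw [← hw0] at hw0'
    subst hw0'
    refine hw ?_
    rw [hW1, Finset.mem_Icc]
    rw [abs_le] at h4
    constructor <;> linarith
  -- floors
  obtain ⟨f0, hf0⟩ : ∃ f0 : ℝ, f0 = (n : ℝ) ^ 2 * len J * dl / (281 * n) := ⟨_, rfl⟩
  have hf0p : 0 < f0 := by rw [hf0]; positivity
  have main := hK bb hbb j e R J (t e) (t e + n) (t (e + 1)) (t (e + 1) + n) hR K τ HA HB E0 f0 f0
    (n ^ 2 * len J * a ^ 2) (n ^ 2 * len J * b ^ 2) W1
    (fun e' w => ⟨T e', T (e' + 1), fun x y h => ⟨(hS e' w x y h).1, (hS e' w x y h).2.1⟩⟩)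
    (fun w x y h => ⟨Finset.mem_Ico.1 (ht _ (hS e w x y h).1),
      Finset.mem_Ico.1 (ht _ (hS e w x y h).2.1)⟩)
    hτ hf0p hf0p hA hB hE0 hHS (fun w hw => Or.inl (hW1' w hw)) (fun X Y => eA W1 X Y)
    (fun X Y => eB W1 X Y) hop L1
  refine main.trans ?_
  have hcI : ((Ico (t e - 2 ^ (J.1 + 1)) (t e + n + 2 ^ (J.1 + 1))).card : ℝ) ≤ 5 * n := by
    rw [Int.card_Ico]
    have e1 : t e + (n : ℤ) + 2 ^ (J.1 + 1) - (t e - 2 ^ (J.1 + 1)) =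
        ((n + 4 * 2 ^ J.1 : ℕ) : ℤ) := by push_cast; ring
    rw [e1, Int.toNat_natCast]
    have : (2 : ℝ) ^ J.1 ≤ n := by exact_mod_cast hJn
    push_cast
    linarith
  exact fin_num hK0 hE0 hn hl hdl hτ ha hb (Nat.cast_nonneg _) hcI hcard hf0

/-! ### line partners -/

/-- cut of a function to the interval of a node -/
noncomputable def cutJ (J : Nd) (F : Fn) : Fn := fun y => if y ∈ iv J then F y else 0

/-- **energy of a line kernel** -/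
theorem en_lk {v : Fin 3} {n : ℕ} {Ht Hf : ℝ} {T : Fin 3 → Finset ℤ} {g : Fin 3 → ℤ → ℤ → ℂ}
    {α : ℤ → ℝ} (h : OpD v n Ht Hf T g α) (j : Fin 4) (e : Fin 3) (J : Nd) (F : Fn)
    (W1 X Y : Finset ℤ) :
    ∑ w ∈ W1, ∑ x ∈ X, ∑ y ∈ Y, ‖lk j T g e (cutJ J F) w x y‖ ^ 2 ≤
      n ^ 2 * len J * av J F ^ 2 := by
  classical
  have hen : ∑ η ∈ iv J, ‖F η‖ ^ 2 = len J * av J F ^ 2 := Growth.sum_av J F
  -- one position of the face
  have h1 : ∀ x y, ∑ w ∈ W1, ‖lk j T g e (cutJ J F) w x y‖ ^ 2 ≤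
      (if x ∈ T e ∧ y ∈ T (e + 1) then ‖g e x y‖ ^ 2 else 0) * (len J * av J F ^ 2) := by
    intro x y
    by_cases hxy : x ∈ T e ∧ y ∈ T (e + 1)
    · have e1 : ∀ w, ‖lk j T g e (cutJ J F) w x y‖ ^ 2 =
          ‖g e x y‖ ^ 2 * (if Ye j e w x y ∈ iv J then ‖F (Ye j e w x y)‖ ^ 2 else 0) := by
        intro w
        rw [lk_Ye, if_pos hxy]
        unfold cutJ
        split_ifs with h3
        · rw [norm_mul, mul_pow]
        · simp
      rw [Finset.sum_congr rfl fun w _ => e1 w, ← Finset.mul_sum, if_pos hxy]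
      refine mul_le_mul_of_nonneg_left ?_ (sq_nonneg _)
      rw [← hen, ← Finset.sum_filter]
      have hinj : Set.InjOn (fun w => Ye j e w x y)
          ((W1.filter fun w => Ye j e w x y ∈ iv J : Finset ℤ) : Set ℤ) :=
        fun w _ w' _ hww => Ye_inj hww
      rw [← Finset.sum_image (f := fun η => ‖F η‖ ^ 2) hinj]
      refine Finset.sum_le_sum_of_subset_of_nonneg ?_ fun _ _ _ => sq_nonneg _
      intro η hη
      obtain ⟨w, hw, rfl⟩ := Finset.mem_image.1 hη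
      exact (Finset.mem_filter.1 hw).2
    · have e1 : ∀ w, ‖lk j T g e (cutJ J F) w x y‖ ^ 2 = 0 := by
        intro w
        rw [lk_Ye, if_neg hxy]
        simp
      rw [Finset.sum_congr rfl fun w _ => e1 w, if_neg hxy]
      simp
  have hE0 : 0 ≤ len J * av J F ^ 2 := mul_nonneg (Growth.len_pos J).le (sq_nonneg _)
  calc ∑ w ∈ W1, ∑ x ∈ X, ∑ y ∈ Y, ‖lk j T g e (cutJ J F) w x y‖ ^ 2
      = ∑ x ∈ X, ∑ y ∈ Y, ∑ w ∈ W1, ‖lk j T g e (cutJ J F) w x y‖ ^ 2 := by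
        rw [Finset.sum_comm]
        refine Finset.sum_congr rfl fun x _ => ?_
        rw [Finset.sum_comm]
    _ ≤ ∑ x ∈ X, ∑ y ∈ Y, (if x ∈ T e ∧ y ∈ T (e + 1) then ‖g e x y‖ ^ 2 else 0) *
          (len J * av J F ^ 2) :=
        Finset.sum_le_sum fun x _ => Finset.sum_le_sum fun y _ => h1 x y
    _ = (∑ x ∈ X, ∑ y ∈ Y, (if x ∈ T e ∧ y ∈ T (e + 1) then ‖g e x y‖ ^ 2 else 0)) *
          (len J * av J F ^ 2) := by
        rw [Finset.sum_mul]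
        exact Finset.sum_congr rfl fun x _ => by rw [Finset.sum_mul]
    _ ≤ (∑ x ∈ T e, ∑ y ∈ T (e + 1), ‖g e x y‖ ^ 2) * (len J * av J F ^ 2) := by
        refine mul_le_mul_of_nonneg_right ?_ hE0
        rw [← Finset.sum_product', ← Finset.sum_product', ← Finset.sum_filter]
        refine Finset.sum_le_sum_of_subset_of_nonneg ?_ fun _ _ _ => sq_nonneg _
        intro z hz
        exact Finset.mem_product.2 (Finset.mem_filter.1 hz).2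
    _ ≤ (n * n) * (len J * av J F ^ 2) := mul_le_mul_of_nonneg_right (h.mass_v e) hE0
    _ = _ := by ring

/-- support of a cut line kernel -/
lemma sup_lk {j : Fin 4} {T : Fin 3 → Finset ℤ} {g : Fin 3 → ℤ → ℤ → ℂ} {e : Fin 3} {J : Nd}
    {F : Fn} {w x y : ℤ} (h : lk j T g e (cutJ J F) w x y ≠ 0) :
    x ∈ T e ∧ y ∈ T (e + 1) ∧ Ye j e w x y ∈ iv J := by
  rw [lk_Ye] at h
  by_cases h1 : x ∈ T e ∧ y ∈ T (e + 1)
  · rw [if_pos h1] at h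
    refine ⟨h1.1, h1.2, ?_⟩
    by_contra h2
    exact h (by unfold cutJ; rw [if_neg h2, mul_zero])
  · exact absurd (by rw [if_neg h1]) h

/-- sup of a cut line kernel -/
lemma norm_lk {v : Fin 3} {n : ℕ} {Ht Hf : ℝ} {T : Fin 3 → Finset ℤ} {g : Fin 3 → ℤ → ℤ → ℂ}
    {α : ℤ → ℝ} (h : OpD v n Ht Hf T g α) (hHf : 0 ≤ Hf) (j : Fin 4) (e : Fin 3) (J : Nd) {F : Fn}
    {H : ℝ} (hH : 0 ≤ H) (hF : ∀ y ∈ iv J, ‖F y‖ ≤ H) (w x y : ℤ) :
    ‖lk j T g e (cutJ J F) w x y‖ ≤ max 1 (√(Hf * Ht)) * H := by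
  have hm : 0 ≤ max 1 (√(Hf * Ht)) := le_trans zero_le_one (le_max_left _ _)
  rw [lk_Ye]
  split_ifs with h1
  · unfold cutJ
    split_ifs with h2
    · rw [norm_mul]
      exact mul_le_mul (h.sup hHf e x y) (hF _ h2) (norm_nonneg _) hm
    · rw [mul_zero, norm_zero]
      positivity
  · rw [norm_zero]
    positivity

/-- the three kernels: killer `C` on the edge `e`, cut line kernels on the two others -/
noncomputable def kk (j : Fin 4) (T : Fin 3 → Finset ℤ) (g : Fin 3 → ℤ → ℤ → ℂ) (J : Nd)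
    (e : Fin 3) (C : Kl) (F : Fin 3 → Fn) : Fin 3 → Kl :=
  fun e' => if e' = e then C else lk j T g e' (cutJ J (F e'))

lemma ne1 (e : Fin 3) : e + 1 ≠ e := by revert e; decide

lemma ne2 (e : Fin 3) : e + 2 ≠ e := by revert e; decide

/-- **THE KILLER WORD OF ONE WINDOW, line partners** (`F e'` = letter read by the edge `e'`) -/
theorem b0_line : ∃ K0 : ℝ, 0 ≤ K0 ∧ ∀ (bb : ℤ), bb = -1 ∨ bb = -7 → ∀ (j : Fin 4) (e v : Fin 3),
    ∀ (R : Finset Nd) (J : Nd), IsRegion R J → ∀ (n : ℕ), 2 ^ J.1 ≤ n →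
    ∀ (Ht Hf : ℝ) (T : Fin 3 → Finset ℤ) (g : Fin 3 → ℤ → ℤ → ℂ) (α : ℤ → ℝ), 0 ≤ Hf →
    OpD v n Ht Hf T g α → (∀ e', ∃ t : ℤ, T e' ⊆ Ico t (t + n)) →
    ∀ (C : Kl) (F : Fin 3 → Fn) (τ H E0 dl : ℝ), 0 < τ → 0 ≤ H → 0 ≤ E0 → 0 < dl →
    (∀ w x y, C w x y ≠ 0 → x ∈ T e ∧ y ∈ T (e + 1) ∧ Ye j e w x y ∈ iv J) →
    (∀ e', ∀ y ∈ iv J, ‖F e' y‖ ≤ H) →
    (∀ (w : ℤ) (m : ℕ) (q p : ℤ), Om R (sl j - sl (j.succAbove (e + 2)))
      (sl (j.succAbove e) - sl (j.succAbove (e + 2)))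
      (sl (j.succAbove (e + 1)) - sl (j.succAbove (e + 2))) w m q p →
      ∑ x ∈ Ico q (q + (2 : ℤ) ^ m), ∑ y ∈ Ico p (p + (2 : ℤ) ^ m), ‖C w x y‖ ^ 2 ≤
        4 ^ m * E0) →
    (∀ (w : ℤ) (m : ℕ) (q p : ℤ), Om R (sl j - sl (j.succAbove (e + 2)))
      (sl (j.succAbove e) - sl (j.succAbove (e + 2)))
      (sl (j.succAbove (e + 1)) - sl (j.succAbove (e + 2))) w m q p →
      BadTx138.OpB (C w) (Ico q (q + (2 ^ m : ℕ))) (Ico p (p + (2 ^ m : ℕ))) (2 ^ m * τ)) →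
    ∀ (L1 : ℕ), TA bb (cube L1) (J.1 + 1) (fun n p _ => AdX R n (xv j bb n p))
        (kk j T g J e C F) ≤
      K0 * (1 + Real.log (1 + E0 * (2 * (max 1 (√(Hf * Ht)) * H) ^ 2) / (dl * τ ^ 2))) *
        (τ * (n ^ 2 * len J * ((av J (F (e + 1)) + √dl) * (av J (F (e + 2)) + √dl)))) := by
  obtain ⟨K0, hK0, hK⟩ := b0_gen
  refine ⟨K0, hK0, ?_⟩
  intro bb hbb j e v R J hR n hJn Ht Hf T g α hHf hD hTI C F τ H E0 dl hτ hH hE0 hdl sC hF hHS hop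
    L1
  have h1 : e + 1 ≠ e := ne1 e
  have h2 : e + 2 ≠ e := ne2 e
  have k0 : kk j T g J e C F e = C := by unfold kk; rw [if_pos rfl]
  have k1 : kk j T g J e C F (e + 1) = lk j T g (e + 1) (cutJ J (F (e + 1))) := by
    unfold kk; rw [if_neg h1]
  have k2 : kk j T g J e C F (e + 2) = lk j T g (e + 2) (cutJ J (F (e + 2))) := by
    unfold kk; rw [if_neg h2]
  have main := hK bb hbb j e R J hR n hJn T hTI (kk j T g J e C F) (by
      intro e' w x y h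
      by_cases he : e' = e
      · subst he
        rw [k0] at h
        exact sC w x y h
      · have e1 : kk j T g J e C F e' = lk j T g e' (cutJ J (F e')) := by
          unfold kk; rw [if_neg he]
        rw [e1] at h
        exact sup_lk h) τ (max 1 (√(Hf * Ht)) * H) (max 1 (√(Hf * Ht)) * H) E0 dl
    (av J (F (e + 1))) (av J (F (e + 2))) hτ hE0 hdl (Real.sqrt_nonneg _) (Real.sqrt_nonneg _)
    (fun w x y => by rw [k1]; exact norm_lk hD hHf j _ J hH (hF _) w x y)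
    (fun w x y => by rw [k2]; exact norm_lk hD hHf j _ J hH (hF _) w x y)
    (fun W1 X Y => by rw [k1]; exact en_lk hD j _ J _ W1 X Y)
    (fun W1 X Y => by rw [k2]; exact en_lk hD j _ J _ W1 X Y)
    (fun w m q p h => by rw [k0]; exact hHS w m q p h)
    (fun w m q p h => by rw [k0]; exact hop w m q p h) L1
  rw [← two_mul] at main
  exact main

end Crest.Agent.R079.B0Kx253
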