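import Crest.Agent.R079.TWinD_649
import Crest.Agent.R079.TSignW_815

/-! R079, piece (0) of doc 2489 (helper649), part 5: the letters `E_w` of a window system in the format
of 815's conversion lemma. -/

set_option autoImplicit false

namespace Crest.Agent.R079.TWin649

open Finset Crest.Agent.R079.Grid Crest.Agent.R079.Glue Crest.Agent.R079.Growth
  Crest.Agent.R079.QRed Crest.Agent.R079.Qe292

open Classical in
/-- `E_w = f_leaf - f_top` on `iv K`, `0` elsewhere -/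
noncomputable def Ew (f : Nd → Fn) (W : Finset Nd) (K : Nd) : Fn :=
  fun y => if y ∈ iv K then gl W f y - f K y else 0

theorem Ew_of {f : Nd → Fn} {W : Finset Nd} {K : Nd} {y : ℤ} (hy : y ∈ iv K) :
    Ew f W K y = gl W f y - f K y := by
  unfold Ew; rw [if_pos hy]

theorem Ew_off {f : Nd → Fn} {W : Finset Nd} {K : Nd} {y : ℤ} (hy : y ∉ iv K) :
    Ew f W K y = 0 := by
  unfold Ew; rw [if_neg hy]


theorem av_congr {p : Nd} {X Y : Fn} (h : ∀ y ∈ iv p, X y = Y y) : av p X = av p Y := by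
  unfold av av2
  congr 2
  refine Finset.sum_congr rfl fun y hy => ?_
  rw [h y hy]

theorem av_Ew {f : Nd → Fn} {W : Finset Nd} {K : Nd} {p : Nd} (hp : iv p ⊆ iv K) :
    av p (Ew f W K) = av p (fun y => gl W f y - f K y) :=
  av_congr fun _ hy => Ew_of (hp hy)

/-- sup bound of the glued function -/
theorem gl_sup {f : Nd → Fn} {W : Finset Nd} {K : Nd} (hW : Full W K) {M : ℝ}
    (hM : ∀ p ∈ W, ∀ y ∈ iv p, ‖f p y‖ ≤ M) : ∀ y ∈ iv K, ‖gl W f y‖ ≤ M := by
  intro y hy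
  obtain ⟨L, hL, _, hyL, _⟩ := (Qh249.qh W K hW K hW.top).2 y hy
  rw [gl_eq f hL hyL]
  exact hM L (lf_sub hL) y hyL

theorem Ew_sup {f : Nd → Fn} {W : Finset Nd} {K : Nd} (hW : Full W K) {M : ℝ} (hM0 : 0 ≤ M)
    (hM : ∀ p ∈ W, ∀ y ∈ iv p, ‖f p y‖ ≤ M) (y : ℤ) : ‖Ew f W K y‖ ≤ 2 * M := by
  by_cases hy : y ∈ iv K
  · rw [Ew_of hy]
    have h1 := gl_sup hW hM y hy
    have h2 := hM K hW.top y hy
    exact (norm_sub_le _ _).trans (by linarith)
  · rw [Ew_off hy, norm_zero]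
    linarith

section letters

variable {ι : Type*} [Fintype ι] {D : ι → Dict} {η : ℝ} {G : ι → Fn} {f : ι → Nd → Fn}
  {t : ι → Nd → ℝ}

/-- sup bound of the near-minimisers: prices `≥ m`, local norms `≤ 1` -/
theorem Data.sup (h : Data D η G f t) {i : ι} {p : Nd} {m : ℝ} (hm : 0 < m)
    (hw : ∀ φ w, (D i).at' φ w → m ≤ w) (hG : av p (G i) ≤ 1) :
    ∀ y ∈ iv p, ‖f i p y‖ ≤ (1 + 2 * η) / (2 * m) := by
  intro y hy
  refine (rp_sup hm hw ((h.near i).rep p) y hy).trans ?_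
  have h1 := (h.near i).t_le p
  have h2 : av p (G i) ^ 2 ≤ 1 := pow_le_one₀ (Real.sqrt_nonneg _) hG
  rw [div_le_div_iff₀ hm (by positivity)]
  nlinarith

open Classical in
/-- local size of `E_w` at the nodes of the window -/
theorem Ew_loc {W : Finset Nd} {K : Nd} {δ : ℝ} (hW : Full W K) (hd : ∀ p ∈ W, dv f K p ≤ δ)
    (i : ι) {p : Nd} (hp : p ∈ W) : av p (Ew (f i) W K) ^ 2 ≤ δ := by
  rw [av_Ew (hW.reg.1 p hp)]
  refine le_trans ?_ (dv_gl hW hd hp)
  exact Finset.single_le_sum (f := fun i => av p (fun y => gl W (f i) y - f i K y) ^ 2)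
    (fun i _ => sq_nonneg _) (Finset.mem_univ i)


end letters

end Crest.Agent.R079.TWin649
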