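import Crest.Agent.R079.Static_569

/-! R079, L0e (helper292), part 1: dyadic intervals, running maximum of the local `L²` averages,
and the maximal theorem `∑ M³ ≤ 8 ∑ |f|³` through the exact potential `3 M a² - M³`. -/

set_option autoImplicit false

namespace Crest.Agent.R079.L0e

open Finset Grid

lemma mem_dI {k : ℕ} {l y : ℤ} : y ∈ dI k l ↔ y / 2 ^ k = l := by
  unfold dI
  have h0 : (0 : ℤ) < 2 ^ k := by positivity
  rw [Finset.mem_Ico, ← Int.le_ediv_iff_mul_le h0, ← Int.ediv_lt_iff_lt_mul h0]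
  omega

lemma ediv_pow_pow (l : ℤ) (a b : ℕ) : l / 2 ^ a / 2 ^ b = l / 2 ^ (a + b) := by
  rw [Int.ediv_ediv_of_nonneg (by positivity), pow_add]

lemma dI_sub (k j : ℕ) (l : ℤ) : dI k l ⊆ dI (k + j) (l / 2 ^ j) := by
  intro y hy
  rw [mem_dI] at hy ⊢
  rw [← hy, ediv_pow_pow]

lemma dI_sub_imp {k k' : ℕ} {l l' : ℤ} (h : dI k l ⊆ dI k' l') :
    ∃ j, k' = k + j ∧ l' = l / 2 ^ j := by
  have h0 : (0 : ℤ) < 2 ^ k := by positivity
  have h0' : (0 : ℤ) < 2 ^ k' := by positivity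
  have hy : l * 2 ^ k ∈ dI k l := by
    rw [mem_dI, Int.mul_ediv_cancel _ h0.ne']
  have hz : l * 2 ^ k + (2 ^ k - 1) ∈ dI k l := by
    unfold dI
    rw [Finset.mem_Ico]
    constructor <;> nlinarith
  have hy' := h hy
  have hz' := h hz
  have hkk : k ≤ k' := by
    by_contra hc
    push Not at hc
    have h2 : (2 : ℤ) ^ k' * 2 ≤ 2 ^ k := by
      rw [← pow_succ]
      exact pow_le_pow_right₀ (by norm_num) hc
    unfold dI at hy' hz'
    rw [Finset.mem_Ico] at hy' hz'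
    have e : (l' + 1) * (2 : ℤ) ^ k' = l' * 2 ^ k' + 2 ^ k' := by ring
    rw [e] at hz'
    linarith [hy'.1, hz'.2]
  obtain ⟨j, rfl⟩ := Nat.exists_eq_add_of_le hkk
  refine ⟨j, rfl, ?_⟩
  rw [mem_dI] at hy hy'
  rw [← hy', ← ediv_pow_pow, hy]

lemma dI_disj {k : ℕ} {l l' : ℤ} (h : l ≠ l') : Disjoint (dI k l) (dI k l') := by
  rw [Finset.disjoint_left]
  intro y hy hy'
  rw [mem_dI] at hy hy'
  exact h (hy.symm.trans hy')

lemma sum_two (A B : ℤ) (g : ℤ → ℝ) :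
    ∑ l ∈ Finset.Ico (2 * A) (2 * B), g l = ∑ l ∈ Finset.Ico A B, (g (2 * l) + g (2 * l + 1)) := by
  classical
  have hm : ∀ l ∈ Finset.Ico (2 * A) (2 * B), l / 2 ∈ Finset.Ico A B := by
    intro l hl
    rw [Finset.mem_Ico] at hl ⊢
    omega
  rw [← Finset.sum_fiberwise_of_maps_to hm]
  refine Finset.sum_congr rfl fun l hl => ?_
  rw [Finset.mem_Ico] at hl
  have e : (Finset.Ico (2 * A) (2 * B)).filter (fun i => i / 2 = l) = {2 * l, 2 * l + 1} := by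
    ext i
    simp only [Finset.mem_filter, Finset.mem_Ico, Finset.mem_insert, Finset.mem_singleton]
    omega
  rw [e, Finset.sum_pair (by omega)]

lemma dI_succ (k : ℕ) (l : ℤ) : dI (k + 1) l = dI k (2 * l) ∪ dI k (2 * l + 1) := by
  ext y
  rw [Finset.mem_union, mem_dI, mem_dI, mem_dI, ← ediv_pow_pow, pow_one]
  omega

lemma sum_dI_succ (k : ℕ) (l : ℤ) (g : ℤ → ℝ) :
    ∑ y ∈ dI (k + 1) l, g y = ∑ y ∈ dI k (2 * l), g y + ∑ y ∈ dI k (2 * l + 1), g y := by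
  rw [dI_succ, Finset.sum_union (dI_disj (by omega))]

lemma av2_sq_succ (k : ℕ) (l : ℤ) (f : ℤ → ℂ) :
    2 * av2 (k + 1) l f ^ 2 = av2 k (2 * l) f ^ 2 + av2 k (2 * l + 1) f ^ 2 := by
  have h := sum_dI_succ k l (fun y => ‖f y‖ ^ 2)
  rw [sum_sq_eq, sum_sq_eq, sum_sq_eq, pow_succ] at h
  have h2 : (0 : ℝ) < 2 ^ k := by positivity
  have h3 : (2 : ℝ) ^ k * (2 * av2 (k + 1) l f ^ 2) =
      2 ^ k * (av2 k (2 * l) f ^ 2 + av2 k (2 * l + 1) f ^ 2) := by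
    linear_combination h
  exact mul_left_cancel₀ h2.ne' h3

/-- running maximum from level `T + 7` down to level `T - d + 7`. -/
noncomputable def Mr (T : ℕ) (f : ℤ → ℂ) : ℕ → ℤ → ℝ
  | 0, l => av2 (T + 7) l f
  | (d + 1), l => max (Mr T f d (l / 2)) (av2 (T - (d + 1) + 7) l f)

lemma av2_le_Mr (T : ℕ) (f : ℤ → ℂ) (d : ℕ) (l : ℤ) : av2 (T - d + 7) l f ≤ Mr T f d l := by
  cases d with
  | zero => exact le_refl _
  | succ d => exact le_max_right _ _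

lemma Mr_nonneg (T : ℕ) (f : ℤ → ℂ) (d : ℕ) (l : ℤ) : 0 ≤ Mr T f d l :=
  (av2_nonneg _ _ _).trans (av2_le_Mr T f d l)

lemma Mr_mono (T : ℕ) (f : ℤ → ℂ) (d k : ℕ) (l : ℤ) :
    Mr T f d (l / 2 ^ k) ≤ Mr T f (d + k) l := by
  induction k generalizing l with
  | zero => simp
  | succ k ih =>
    have e : l / 2 ^ (k + 1) = l / 2 / 2 ^ k := by
      rw [add_comm k 1, ← ediv_pow_pow, pow_one]
    rw [e]
    refine (ih (l / 2)).trans ?_
    exact le_max_left _ _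








end Crest.Agent.R079.L0e
private theorem rz_f29df9c9aa : type_of% @_root_.Crest.Agent.R079.L0e.Mr.eq_def := @_root_.Crest.Agent.R079.L0e.Mr.eq_def -- L96
private theorem rz_86cfa196df : type_of% @_root_.Crest.Agent.R079.L0e.Mr.eq_1 := @_root_.Crest.Agent.R079.L0e.Mr.eq_1 -- L96
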