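import Crest.Agent.R079.QDefs_248
import Crest.Agent.R079.QVar_181
import Crest.Agent.R079.Qh_249
import Crest.Agent.R079.Qe_292
import Crest.Agent.R079.GrowthG1_215

-- ▼ part R079/Qa_246
section

/-! R079, leaf **Qa** (helper246): unit `A₃`-atoms are bounded by one. -/

set_option autoImplicit false

namespace Crest.Agent.R079.Qa246

open Finset Crest.Agent.R079.Grid Crest.Agent.R079.Glue Crest.Agent.R079.Growth
  Crest.Agent.R079.QRed

/-- Hölder `(3,3,3)` for finite sums of nonnegative reals, in the form with upper bounds. -/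
theorem holder3 {ι : Type*} (S : Finset ι) (f g h : ι → ℝ) (hf : ∀ i ∈ S, 0 ≤ f i)
    (hg : ∀ i ∈ S, 0 ≤ g i) (hh : ∀ i ∈ S, 0 ≤ h i) (A B C : ℝ)
    (hA : ∑ i ∈ S, f i ^ 3 ≤ A) (hB : ∑ i ∈ S, g i ^ 3 ≤ B) (hC : ∑ i ∈ S, h i ^ 3 ≤ C) :
    ∑ i ∈ S, f i * g i * h i ≤ (A * B * C) ^ (1 / 3 : ℝ) := by
  have hf3 : ∀ i ∈ S, 0 ≤ f i ^ 3 := fun i hi => pow_nonneg (hf i hi) 3
  have hg3 : ∀ i ∈ S, 0 ≤ g i ^ 3 := fun i hi => pow_nonneg (hg i hi) 3
  have hh3 : ∀ i ∈ S, 0 ≤ h i ^ 3 := fun i hi => pow_nonneg (hh i hi) 3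
  have hA0 : 0 ≤ A := le_trans (Finset.sum_nonneg hf3) hA
  have hB0 : 0 ≤ B := le_trans (Finset.sum_nonneg hg3) hB
  have hC0 : 0 ≤ C := le_trans (Finset.sum_nonneg hh3) hC
  have key : ∀ (u : ι → ℝ) (U : ℝ), (∀ i ∈ S, 0 ≤ u i) → ∑ i ∈ S, u i ^ 3 ≤ U → U = 0 →
      ∀ i ∈ S, u i = 0 := by
    intro u U hu hU h0 i hi
    have h1 : ∑ i ∈ S, u i ^ 3 = 0 :=
      le_antisymm (hU.trans h0.le) (Finset.sum_nonneg fun i hi => pow_nonneg (hu i hi) 3)
    have h2 := (Finset.sum_eq_zero_iff_of_nonneg (fun i hi => pow_nonneg (hu i hi) 3)).1 h1 i hi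
    exact pow_eq_zero_iff (by norm_num) |>.1 h2
  by_cases hA' : A = 0
  · have := key f A hf hA hA'
    rw [Finset.sum_eq_zero (fun i hi => by rw [this i hi]; ring)]
    positivity
  by_cases hB' : B = 0
  · have := key g B hg hB hB'
    rw [Finset.sum_eq_zero (fun i hi => by rw [this i hi]; ring)]
    positivity
  by_cases hC' : C = 0
  · have := key h C hh hC hC'
    rw [Finset.sum_eq_zero (fun i hi => by rw [this i hi]; ring)]
    positivity
  have hAp : 0 < A := lt_of_le_of_ne hA0 (Ne.symm hA')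
  have hBp : 0 < B := lt_of_le_of_ne hB0 (Ne.symm hB')
  have hCp : 0 < C := lt_of_le_of_ne hC0 (Ne.symm hC')
  have cube : ∀ x : ℝ, 0 ≤ x → (x ^ 3) ^ (1 / 3 : ℝ) = x := by
    intro x hx
    rw [← Real.rpow_natCast x 3, ← Real.rpow_mul hx]
    norm_num
  have pt : ∀ i ∈ S, f i * g i * h i ≤ (A * B * C) ^ (1 / 3 : ℝ) *
      ((1 / 3) * (f i ^ 3 / A) + (1 / 3) * (g i ^ 3 / B) + (1 / 3) * (h i ^ 3 / C)) := by
    intro i hi
    have hfi := hf i hi
    have hgi := hg i hi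
    have hhi := hh i hi
    have e : f i * g i * h i = (A * B * C) ^ (1 / 3 : ℝ) *
        ((f i ^ 3 / A) ^ (1 / 3 : ℝ) * (g i ^ 3 / B) ^ (1 / 3 : ℝ) *
          (h i ^ 3 / C) ^ (1 / 3 : ℝ)) := by
      rw [Real.mul_rpow (by positivity) (by positivity), Real.mul_rpow (by positivity)
        (by positivity), Real.div_rpow (by positivity) (by positivity),
        Real.div_rpow (by positivity) (by positivity),
        Real.div_rpow (by positivity) (by positivity), cube _ hfi, cube _ hgi, cube _ hhi]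
      have a1 : A ^ (1 / 3 : ℝ) ≠ 0 := (Real.rpow_pos_of_pos hAp _).ne'
      have a2 : B ^ (1 / 3 : ℝ) ≠ 0 := (Real.rpow_pos_of_pos hBp _).ne'
      have a3 : C ^ (1 / 3 : ℝ) ≠ 0 := (Real.rpow_pos_of_pos hCp _).ne'
      field_simp
    rw [e]
    refine mul_le_mul_of_nonneg_left ?_ (by positivity)
    exact Real.geom_mean_le_arith_mean3_weighted (by norm_num) (by norm_num) (by norm_num)
      (by positivity) (by positivity) (by positivity) (by norm_num)
  calc ∑ i ∈ S, f i * g i * h i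
      ≤ ∑ i ∈ S, (A * B * C) ^ (1 / 3 : ℝ) *
      ((1 / 3) * (f i ^ 3 / A) + (1 / 3) * (g i ^ 3 / B) + (1 / 3) * (h i ^ 3 / C)) :=
        Finset.sum_le_sum pt
    _ = (A * B * C) ^ (1 / 3 : ℝ) * ((1 / 3) * ((∑ i ∈ S, f i ^ 3) / A) +
        (1 / 3) * ((∑ i ∈ S, g i ^ 3) / B) + (1 / 3) * ((∑ i ∈ S, h i ^ 3) / C)) := by
        rw [← Finset.mul_sum, Finset.sum_add_distrib, Finset.sum_add_distrib, ← Finset.mul_sum,
          ← Finset.mul_sum, ← Finset.mul_sum, Finset.sum_div, Finset.sum_div, Finset.sum_div]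
    _ ≤ (A * B * C) ^ (1 / 3 : ℝ) * ((1 / 3) * 1 + (1 / 3) * 1 + (1 / 3) * 1) := by
        have h1 : (∑ i ∈ S, f i ^ 3) / A ≤ 1 := (div_le_one hAp).2 hA
        have h2 : (∑ i ∈ S, g i ^ 3) / B ≤ 1 := (div_le_one hBp).2 hB
        have h3 : (∑ i ∈ S, h i ^ 3) / C ≤ 1 := (div_le_one hCp).2 hC
        refine mul_le_mul_of_nonneg_left ?_ (by positivity)
        linarith
    _ = _ := by ring

theorem sl_inj : Function.Injective sl := by
  intro i j h
  fin_cases i <;> fin_cases j <;> simp [sl] at h ⊢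

theorem cf_ne (j : Fin 4) (i : Fin 3) : cf j i ≠ 0 := by
  unfold cf
  intro h
  exact Fin.succAbove_ne j i (sl_inj (by omega))

/-- sum over the plane of a function of two coordinates -/
theorem plane_sum_le (j : Fin 4) (T : Fin 3 → Finset ℤ) (y : ℤ) (X Y : Finset ℤ)
    (w : ℤ → ℤ → ℝ) (hw : ∀ u v, 0 ≤ w u v) (π : ℤ × ℤ × ℤ → ℤ × ℤ)
    (hm : ∀ z : ℤ × ℤ × ℤ, z ∈ (T 0 ×ˢ T 1 ×ˢ T 2) → (π z).1 ∈ X ∧ (π z).2 ∈ Y)
    (hi : ∀ z z' : ℤ × ℤ × ℤ, cf j 0 * z.1 + cf j 1 * z.2.1 + cf j 2 * z.2.2 = y →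
      cf j 0 * z'.1 + cf j 1 * z'.2.1 + cf j 2 * z'.2.2 = y → π z = π z' → z = z') :
    ∑ z ∈ (T 0 ×ˢ T 1 ×ˢ T 2).filter
      (fun z : ℤ × ℤ × ℤ => cf j 0 * z.1 + cf j 1 * z.2.1 + cf j 2 * z.2.2 = y),
      w (π z).1 (π z).2 ≤ ∑ u ∈ X, ∑ v ∈ Y, w u v := by
  classical
  rw [← Finset.sum_product' X Y w]
  rw [← Finset.sum_image (f := fun p : ℤ × ℤ => w p.1 p.2) (g := π)]
  · refine Finset.sum_le_sum_of_subset_of_nonneg ?_ (fun _ _ _ => hw _ _)
    intro p hp
    obtain ⟨z, hz, rfl⟩ := Finset.mem_image.1 hp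
    have := hm z (Finset.mem_filter.1 hz).1
    exact Finset.mem_product.2 this
  · intro z hz z' hz' h
    exact hi z z' (Finset.mem_filter.1 hz).2 (Finset.mem_filter.1 hz').2 h

/-- **(Qa)** -/
theorem qa : Qa := by
  classical
  rintro j φ ⟨κ, T, a, b, c, hκ, rfl, hn⟩ y
  set S : Finset (ℤ × ℤ × ℤ) := (T 0 ×ˢ T 1 ×ˢ T 2).filter
    (fun z : ℤ × ℤ × ℤ => cf j 0 * z.1 + cf j 1 * z.2.1 + cf j 2 * z.2.2 = y) with hS
  have e1 : (∑ z0 ∈ T 0, ∑ z1 ∈ T 1, ∑ z2 ∈ T 2,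
      if cf j 0 * z0 + cf j 1 * z1 + cf j 2 * z2 = y then a z0 z1 * b z1 z2 * c z2 z0 else 0) =
      ∑ z ∈ S, a z.1 z.2.1 * b z.2.1 z.2.2 * c z.2.2 z.1 := by
    rw [hS, Finset.sum_filter, Finset.sum_product]
    refine Finset.sum_congr rfl fun z0 _ => ?_
    rw [Finset.sum_product]
  have c0 := cf_ne j 0
  have c1 := cf_ne j 1
  have c2 := cf_ne j 2
  have hA : ∑ z ∈ S, ‖a z.1 z.2.1‖ ^ 3 ≤ n3 (T 0) (T 1) a := by
    refine plane_sum_le j T y (T 0) (T 1) (fun u v => ‖a u v‖ ^ 3) (fun _ _ => by positivity)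
      (fun z => (z.1, z.2.1)) (fun z hz => ?_) (fun z z' h h' e => ?_)
    · simp only [Finset.mem_product] at hz; exact ⟨hz.1, hz.2.1⟩
    · simp only [Prod.mk.injEq] at e
      have e3 : cf j 2 * z.2.2 = cf j 2 * z'.2.2 := by rw [e.1, e.2] at h; linarith
      have := mul_left_cancel₀ c2 e3
      ext <;> simp [e.1, e.2, this]
  have hB : ∑ z ∈ S, ‖b z.2.1 z.2.2‖ ^ 3 ≤ n3 (T 1) (T 2) b := by
    refine plane_sum_le j T y (T 1) (T 2) (fun u v => ‖b u v‖ ^ 3) (fun _ _ => by positivity)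
      (fun z => (z.2.1, z.2.2)) (fun z hz => ?_) (fun z z' h h' e => ?_)
    · simp only [Finset.mem_product] at hz; exact ⟨hz.2.1, hz.2.2⟩
    · simp only [Prod.mk.injEq] at e
      have e3 : cf j 0 * z.1 = cf j 0 * z'.1 := by rw [e.1, e.2] at h; linarith
      have := mul_left_cancel₀ c0 e3
      ext <;> simp [e.1, e.2, this]
  have hC : ∑ z ∈ S, ‖c z.2.2 z.1‖ ^ 3 ≤ n3 (T 2) (T 0) c := by
    refine plane_sum_le j T y (T 2) (T 0) (fun u v => ‖c u v‖ ^ 3) (fun _ _ => by positivity)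
      (fun z => (z.2.2, z.1)) (fun z hz => ?_) (fun z z' h h' e => ?_)
    · simp only [Finset.mem_product] at hz; exact ⟨hz.2.2, hz.1⟩
    · simp only [Prod.mk.injEq] at e
      have e3 : cf j 1 * z.2.1 = cf j 1 * z'.2.1 := by rw [e.1, e.2] at h; linarith
      have := mul_left_cancel₀ c1 e3
      ext <;> simp [e.1, e.2, this]
  unfold atom
  rw [e1, norm_mul, Complex.norm_real, Real.norm_of_nonneg hκ]
  refine le_trans ?_ hn
  refine mul_le_mul_of_nonneg_left ?_ hκ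
  refine (norm_sum_le _ _).trans ?_
  have e2 : ∀ z ∈ S, ‖a z.1 z.2.1 * b z.2.1 z.2.2 * c z.2.2 z.1‖ =
      ‖a z.1 z.2.1‖ * ‖b z.2.1 z.2.2‖ * ‖c z.2.2 z.1‖ := fun z _ => by
    rw [norm_mul, norm_mul]
  rw [Finset.sum_congr rfl e2]
  exact holder3 S _ _ _ (fun _ _ => norm_nonneg _) (fun _ _ => norm_nonneg _)
    (fun _ _ => norm_nonneg _) _ _ _ hA hB hC

end Crest.Agent.R079.Qa246
end

-- ▼ part R079/TWin_649
section

/-! R079, piece (0) of doc 2489 (helper649), part 1: PRICED DICTIONARIES, near-minimisers at every node,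
gluing over the leaves of a full region.

`Dict` = any set of pairs (atom, price), closed under conjugation, atoms bounded by `1` (plain `A₃` atoms at
price `σ`: `plain`; union dictionaries: disjoint unions with different prices).  Everything else is
`QVar_181` verbatim. -/

set_option autoImplicit false

namespace Crest.Agent.R079.TWin649

open Finset Crest.Agent.R079.Grid Crest.Agent.R079.Glue Crest.Agent.R079.Growth
  Crest.Agent.R079.QRed

/-- priced dictionary -/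
structure Dict where
  at' : Fn → ℝ → Prop
  conj : ∀ φ w, at' φ w → at' (fun y => (starRingEnd ℂ) (φ y)) w
  bd : ∀ φ w, at' φ w → ∀ y, ‖φ y‖ ≤ 1
  pos : ∀ φ w, at' φ w → 0 < w

/-- `f` is on `iv p` a combination of atoms of total price `≤ t` -/
def Rp (D : Dict) (p : Nd) (f : Fn) (t : ℝ) : Prop :=
  ∃ (n : ℕ) (φ : Fin n → Fn) (w : Fin n → ℝ) (c : Fin n → ℂ), (∀ i, D.at' (φ i) (w i)) ∧
    (∀ y ∈ iv p, f y = ∑ i, c i * φ i y) ∧ ∑ i, ‖c i‖ * w i ≤ t

/-- `g` has level `≤ (price + e)` at `p` -/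
def Lv (D : Dict) (p : Nd) (g : Fn) (e : ℝ) : Prop :=
  ∀ φ w, D.at' φ w → ‖∑ y ∈ iv p, g y * φ y‖ ≤ (w + e) * len p

/-- penalised functional -/
noncomputable def PhD (p : Nd) (F f : Fn) (t : ℝ) : ℝ := av p (fun y => F y - f y) ^ 2 + 2 * t

theorem rp_zero (D : Dict) (p : Nd) : Rp D p (fun _ => 0) 0 :=
  ⟨0, Fin.elim0, Fin.elim0, Fin.elim0, fun i => i.elim0, fun _ _ => by simp, by simp⟩

theorem rp_nonneg {D : Dict} {p : Nd} {f : Fn} {t : ℝ} (h : Rp D p f t) : 0 ≤ t := by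
  obtain ⟨n, φ, w, c, ha, _, ht⟩ := h
  exact le_trans (Finset.sum_nonneg fun i _ =>
    mul_nonneg (norm_nonneg _) (D.pos _ _ (ha i)).le) ht

theorem rp_add {D : Dict} {p : Nd} {f g : Fn} {t u : ℝ} (h : Rp D p f t) (h' : Rp D p g u) :
    Rp D p (fun y => f y + g y) (t + u) := by
  obtain ⟨n, φ, w, c, hφ, hf, ht⟩ := h
  obtain ⟨m, ψ, v, d, hψ, hg, hu⟩ := h'
  refine ⟨n + m, Fin.append φ ψ, Fin.append w v, Fin.append c d, ?_, ?_, ?_⟩
  · intro i
    refine Fin.addCases (fun i => ?_) (fun i => ?_) i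
    · rw [Fin.append_left, Fin.append_left]; exact hφ i
    · rw [Fin.append_right, Fin.append_right]; exact hψ i
  · intro y hy
    rw [Fin.sum_univ_add]
    simp only [Fin.append_left, Fin.append_right]
    rw [← hf y hy, ← hg y hy]
  · rw [Fin.sum_univ_add]
    simp only [Fin.append_left, Fin.append_right]
    linarith

theorem rp_smul {D : Dict} {p : Nd} {f : Fn} {t : ℝ} (z : ℂ) (h : Rp D p f t) :
    Rp D p (fun y => z * f y) (‖z‖ * t) := by
  obtain ⟨n, φ, w, c, hφ, hf, ht⟩ := h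
  refine ⟨n, φ, w, fun i => z * c i, hφ, ?_, ?_⟩
  · intro y hy
    dsimp only
    rw [hf y hy, Finset.mul_sum]
    exact Finset.sum_congr rfl fun i _ => by ring
  · simp only [norm_mul, mul_assoc]
    rw [← Finset.mul_sum]
    exact mul_le_mul_of_nonneg_left ht (norm_nonneg _)

theorem rp_atom {D : Dict} (p : Nd) {φ : Fn} {w : ℝ} (h : D.at' φ w) : Rp D p φ w :=
  ⟨1, fun _ => φ, fun _ => w, fun _ => 1, fun _ => h, fun y _ => by simp, by simp⟩

theorem rp_mono {D : Dict} {p q : Nd} {f : Fn} {t : ℝ} (hqp : iv q ⊆ iv p) (h : Rp D p f t) :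
    Rp D q f t := by
  obtain ⟨n, φ, w, c, hφ, hf, ht⟩ := h
  exact ⟨n, φ, w, c, hφ, fun y hy => hf y (hqp hy), ht⟩

/-- sup bound: prices bounded below by `m` -/
theorem rp_sup {D : Dict} {p : Nd} {f : Fn} {t m : ℝ} (hm : 0 < m)
    (hw : ∀ φ w, D.at' φ w → m ≤ w) (h : Rp D p f t) : ∀ y ∈ iv p, ‖f y‖ ≤ t / m := by
  obtain ⟨n, φ, w, c, hφ, hf, ht⟩ := h
  intro y hy
  rw [hf y hy, le_div_iff₀ hm]
  calc ‖∑ i, c i * φ i y‖ * m ≤ (∑ i, ‖c i‖) * m := by
        refine mul_le_mul_of_nonneg_right (norm_sum_le_of_le _ fun i _ => ?_) hm.le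
        rw [norm_mul]
        exact mul_le_of_le_one_right (norm_nonneg _) (D.bd _ _ (hφ i) y)
    _ = ∑ i, ‖c i‖ * m := by rw [Finset.sum_mul]
    _ ≤ ∑ i, ‖c i‖ * w i := Finset.sum_le_sum fun i _ =>
        mul_le_mul_of_nonneg_left (hw _ _ (hφ i)) (norm_nonneg _)
    _ ≤ t := ht

theorem PhD_nonneg {D : Dict} (p : Nd) (F : Fn) {g : Fn} {u : ℝ} (h : Rp D p g u) :
    0 ≤ PhD p F g u := by
  unfold PhD
  have := rp_nonneg h
  positivity

theorem exists_near (D : Dict) (η : ℝ) (hη : 0 < η) (F : Fn) (p : Nd) :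
    ∃ (f : Fn) (t : ℝ), Rp D p f t ∧ ∀ (g : Fn) (u : ℝ), Rp D p g u →
      PhD p F f t ≤ PhD p F g u + η := by
  let S : Set ℝ := {x | ∃ (g : Fn) (u : ℝ), Rp D p g u ∧ x = PhD p F g u}
  have hne : S.Nonempty := ⟨_, _, _, rp_zero D p, rfl⟩
  have hbd : BddBelow S := ⟨0, by
    rintro x ⟨g, u, h, rfl⟩
    exact PhD_nonneg p F h⟩
  obtain ⟨x, ⟨f, t, hft, rfl⟩, hx⟩ := Real.lt_sInf_add_pos hne hη
  refine ⟨f, t, hft, fun g u hgu => ?_⟩
  have : sInf S ≤ PhD p F g u := csInf_le hbd ⟨g, u, hgu, rfl⟩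
  linarith

theorem near_convex {D : Dict} {η : ℝ} {F : Fn} {p : Nd} {f : Fn} {t : ℝ} (hf : Rp D p f t)
    (hmin : ∀ (g : Fn) (u : ℝ), Rp D p g u → PhD p F f t ≤ PhD p F g u + η)
    (g : Fn) (u : ℝ) (hg : Rp D p g u) :
    PhD p F f t + (1 / 2) * av p (fun y => g y - f y) ^ 2 ≤ PhD p F g u + 2 * η := by
  have hmid : Rp D p (fun y => (1 / 2 : ℂ) * (f y + g y)) (‖(1 / 2 : ℂ)‖ * (t + u)) :=
    rp_smul _ (rp_add hf hg)
  have hn : ‖(1 / 2 : ℂ)‖ = 1 / 2 := by simp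
  rw [hn] at hmid
  have h := hmin _ _ hmid
  have key : av p (fun y => F y - (1 / 2 : ℂ) * (f y + g y)) ^ 2 =
      av p (fun y => F y - f y) ^ 2 / 2 + av p (fun y => F y - g y) ^ 2 / 2 -
        av p (fun y => g y - f y) ^ 2 / 4 := by
    rw [QVar181.av_sq, QVar181.av_sq, QVar181.av_sq, QVar181.av_sq]
    have : ∀ y, ‖F y - (1 / 2 : ℂ) * (f y + g y)‖ ^ 2 =
        ‖F y - f y‖ ^ 2 / 2 + ‖F y - g y‖ ^ 2 / 2 - ‖g y - f y‖ ^ 2 / 4 := by
      intro y
      have e1 : F y - (1 / 2 : ℂ) * (f y + g y) = ((F y - f y) + (F y - g y)) / 2 := by ring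
      have e2 : (F y - f y) - (F y - g y) = g y - f y := by ring
      rw [e1, QVar181.norm_mid, e2]
    rw [Finset.sum_congr rfl fun y _ => this y, Finset.sum_sub_distrib, Finset.sum_add_distrib,
      ← Finset.sum_div, ← Finset.sum_div, ← Finset.sum_div]
    ring
  unfold PhD at h ⊢
  rw [key] at h
  linarith

theorem near_level {D : Dict} {η : ℝ} (hη : 0 < η) {F : Fn} {p : Nd}
    {f : Fn} {t : ℝ} (hf : Rp D p f t)
    (hmin : ∀ (g : Fn) (u : ℝ), Rp D p g u → PhD p F f t ≤ PhD p F g u + η) :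
    Lv D p (fun y => F y - f y) (Real.sqrt η) := by
  intro φ σ hφ
  have hσ := D.pos _ _ hφ
  dsimp only
  set S : ℂ := ∑ y ∈ iv p, (F y - f y) * φ y with hS
  have hL := QVar181.len_pos' p
  set r := Real.sqrt η with hr
  have hr0 : 0 < r := Real.sqrt_pos.mpr hη
  have hrr : r ^ 2 = η := Real.sq_sqrt hη.le
  by_cases hS0 : S = 0
  · rw [hS0, norm_zero]
    positivity
  have hSn : 0 < ‖S‖ := norm_pos_iff.mpr hS0
  let z : ℂ := (r / ‖S‖ : ℝ) * S
  have hz : ‖z‖ = r := by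
    simp only [z, norm_mul, Complex.norm_real, Real.norm_eq_abs]
    rw [abs_of_nonneg (by positivity)]
    field_simp
  have hzS : ((starRingEnd ℂ) z * S).re = r * ‖S‖ := by
    have e : (starRingEnd ℂ) z * S = ((r * ‖S‖ : ℝ) : ℂ) := by
      simp only [z, map_mul, Complex.conj_ofReal]
      have : (starRingEnd ℂ) S * S = ((‖S‖ ^ 2 : ℝ) : ℂ) := by
        rw [mul_comm, Complex.mul_conj, Complex.normSq_eq_norm_sq]
      rw [mul_assoc, this]
      rw [← Complex.ofReal_mul]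
      congr 1
      field_simp
    rw [e, Complex.ofReal_re]
  have hat := D.conj _ _ hφ
  have hrep : Rp D p (fun y => f y + z * (starRingEnd ℂ) (φ y)) (t + ‖z‖ * σ) :=
    rp_add hf (rp_smul z (rp_atom p hat))
  have h := hmin _ _ hrep
  rw [hz] at h
  have key : av p (fun y => F y - (f y + z * (starRingEnd ℂ) (φ y))) ^ 2 =
      av p (fun y => F y - f y) ^ 2 - 2 * (r * ‖S‖) / len p +
        r ^ 2 * ((1 / len p) * ∑ y ∈ iv p, ‖φ y‖ ^ 2) := by
    rw [QVar181.av_sq, QVar181.av_sq]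
    have : ∀ y, ‖F y - (f y + z * (starRingEnd ℂ) (φ y))‖ ^ 2 =
        ‖F y - f y‖ ^ 2 - 2 * ((starRingEnd ℂ) z * ((F y - f y) * φ y)).re
          + r ^ 2 * ‖φ y‖ ^ 2 := by
      intro y
      have e1 : F y - (f y + z * (starRingEnd ℂ) (φ y)) =
          (F y - f y) - z * (starRingEnd ℂ) (φ y) := by ring
      rw [e1, QVar181.norm_sub_mul, hz]
    rw [Finset.sum_congr rfl fun y _ => this y, Finset.sum_add_distrib, Finset.sum_sub_distrib,
      ← Finset.mul_sum, ← Finset.mul_sum]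
    have e2 : ∑ y ∈ iv p, ((starRingEnd ℂ) z * ((F y - f y) * φ y)).re = r * ‖S‖ := by
      rw [← hzS, hS, Finset.mul_sum, Complex.re_sum]
    rw [e2]
    ring
  have hφ1 : (1 / len p) * ∑ y ∈ iv p, ‖φ y‖ ^ 2 ≤ 1 := by
    have h1 : ∑ y ∈ iv p, ‖φ y‖ ^ 2 ≤ ∑ _y ∈ iv p, (1 : ℝ) := by
      refine Finset.sum_le_sum fun y _ => ?_
      have := D.bd _ _ hφ y
      exact pow_le_one₀ (norm_nonneg _) this
    rw [Finset.sum_const, nsmul_eq_mul, mul_one, QVar181.card_iv'] at h1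
    rw [one_div, inv_mul_le_iff₀ hL, mul_one]
    exact h1
  unfold PhD at h
  rw [key] at h
  have h2 : 2 * (r * ‖S‖) / len p ≤ r ^ 2 + 2 * σ * r + η := by
    have := mul_le_mul_of_nonneg_left hφ1 (sq_nonneg r)
    linarith
  rw [div_le_iff₀ hL] at h2
  have h3 : 2 * r * ‖S‖ ≤ 2 * r * ((σ + r) * len p) := by
    rw [← hrr] at h2
    nlinarith [h2]
  exact le_of_mul_le_mul_left h3 (by positivity)

/-- near-minimisers of `F` at every node (chosen once per letter and dictionary) -/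
structure Near (D : Dict) (η : ℝ) (F : Fn) (f : Nd → Fn) (t : Nd → ℝ) : Prop where
  rep : ∀ p, Rp D p (f p) (t p)
  lev : ∀ p, Lv D p (fun y => F y - f p y) (Real.sqrt η)
  cvx : ∀ p (g : Fn) (u : ℝ), Rp D p g u →
    PhD p F (f p) (t p) + (1 / 2) * av p (fun y => g y - f p y) ^ 2 ≤ PhD p F g u + 2 * η

theorem exists_Near (D : Dict) {η : ℝ} (hη : 0 < η) (F : Fn) :
    ∃ (f : Nd → Fn) (t : Nd → ℝ), Near D η F f t := by
  choose f t hft hmin using exists_near D η hη F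
  exact ⟨f, t, ⟨hft, fun p => near_level hη (hft p) (hmin p),
    fun p g u hgu => near_convex (hft p) (hmin p) g u hgu⟩⟩

section near

variable {D : Dict} {η : ℝ} {F : Fn} {f : Nd → Fn} {t : Nd → ℝ}


theorem Near.Ph_le (h : Near D η F f t) (p : Nd) :
    PhD p F (f p) (t p) ≤ av p F ^ 2 + 2 * η := by
  have h1 := h.cvx p _ _ (rp_zero D p)
  have h2 : PhD p F (fun _ => 0) 0 = av p F ^ 2 := by
    unfold PhD
    simp
  rw [h2] at h1
  have := sq_nonneg (av p (fun y => (0 : ℂ) - f p y))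
  linarith

/-- mass bound of the frozen part -/
theorem Near.t_le (h : Near D η F f t) (p : Nd) : t p ≤ (av p F ^ 2 + 2 * η) / 2 := by
  have h1 := h.Ph_le p
  unfold PhD at h1
  have := sq_nonneg (av p (fun y => F y - f p y))
  linarith

theorem Near.av_le (h : Near D η F f t) (p : Nd) :
    av p (f p) ^ 2 ≤ 2 * (av p F ^ 2 + 2 * η) := by
  have h1 := h.cvx p _ _ (rp_zero D p)
  have h2 : PhD p F (fun _ => 0) 0 = av p F ^ 2 := by
    unfold PhD
    simp
  have h3 : av p (fun y => (0 : ℂ) - f p y) = av p (f p) := by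
    unfold av av2
    simp
  rw [h2, h3] at h1
  have := PhD_nonneg p F (h.rep p)
  linarith

end near


end Crest.Agent.R079.TWin649
end

-- ▼ part R079/TWinB_649

/-! R079, piece (0) of doc 2489 (helper649), part 2: gluing over the leaves of a full region. -/

set_option autoImplicit false

namespace Crest.Agent.R079.TWin649

open Finset Crest.Agent.R079.Grid Crest.Agent.R079.Glue Crest.Agent.R079.Growth
  Crest.Agent.R079.QRed

open Classical in
/-- glued leaf function -/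
noncomputable def gl (W : Finset Nd) (f : Nd → Fn) : Fn :=
  fun y => ∑ L ∈ (lf W).filter (fun L => y ∈ iv L), f L y

open Classical in
/-- leaves below `p` -/
noncomputable def lb (W : Finset Nd) (p : Nd) : Finset Nd := (lf W).filter (fun L => iv L ⊆ iv p)

theorem mem_lb {W : Finset Nd} {p L : Nd} : L ∈ lb W p ↔ L ∈ lf W ∧ iv L ⊆ iv p := by
  unfold lb
  rw [Finset.mem_filter]

theorem lf_sub {W : Finset Nd} {L : Nd} (h : L ∈ lf W) : L ∈ W := (Qh249.mem_lf.1 h).1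

/-- two leaves with a common point are equal -/
theorem lf_eq {W : Finset Nd} {L L' : Nd} (hL : L ∈ lf W) (hL' : L' ∈ lf W) {y : ℤ}
    (hy : y ∈ iv L) (hy' : y ∈ iv L') : L = L' := by
  rw [Qh249.mem_lf] at hL hL'
  rcases iv_nest hy hy' with h | h
  · exact hL'.2 L hL.1 h
  · exact (hL.2 L' hL'.1 h).symm

theorem gl_eq {W : Finset Nd} (f : Nd → Fn) {L : Nd} (hL : L ∈ lf W) {y : ℤ} (hy : y ∈ iv L) :
    gl W f y = f L y := by
  classical
  unfold gl
  rw [Finset.sum_eq_single L]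
  · intro L' hL' hne
    rw [Finset.mem_filter] at hL'
    exact absurd (lf_eq hL'.1 hL hL'.2 hy) hne
  · intro h
    exact absurd (Finset.mem_filter.2 ⟨hL, hy⟩) h

/-- the leaves below `p ∈ W` partition `iv p` -/
theorem sum_lb {M : Type*} [AddCommMonoid M] {W : Finset Nd} {I : Nd} (hW : Full W I) {p : Nd}
    (hp : p ∈ W) (h : ℤ → M) : ∑ y ∈ iv p, h y = ∑ L ∈ lb W p, ∑ y ∈ iv L, h y := by
  classical
  have e : iv p = (lb W p).biUnion iv := by
    ext y
    rw [Finset.mem_biUnion]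
    constructor
    · intro hy
      obtain ⟨L, hL, hLp, hyL, _⟩ := (Qh249.qh W I hW p hp).2 y hy
      exact ⟨L, mem_lb.2 ⟨hL, hLp⟩, hyL⟩
    · rintro ⟨L, hL, hy⟩
      exact (mem_lb.1 hL).2 hy
  rw [e, Finset.sum_biUnion]
  intro L hL L' hL' hne
  rw [Function.onFun, Finset.disjoint_left]
  intro y hy hy'
  exact hne (lf_eq (mem_lb.1 (by exact_mod_cast hL)).1 (mem_lb.1 (by exact_mod_cast hL')).1 hy hy')

theorem sum_len_lb {W : Finset Nd} {I : Nd} (hW : Full W I) {p : Nd} (hp : p ∈ W) :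
    ∑ L ∈ lb W p, len L = len p := by
  have h := sum_lb hW hp (fun _ => (1 : ℝ))
  simp only [Finset.sum_const, nsmul_eq_mul, mul_one] at h
  rw [card_iv] at h
  rw [h]
  exact Finset.sum_congr rfl fun L _ => (card_iv L).symm

/-- level of the glued residual at every node -/
theorem lv_gl {D : Dict} {e : ℝ} {W : Finset Nd} {I : Nd} (hW : Full W I) {F : Fn}
    {f : Nd → Fn} (hf : ∀ p, Lv D p (fun y => F y - f p y) e) {p : Nd} (hp : p ∈ W) :
    Lv D p (fun y => F y - gl W f y) e := by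
  intro φ w hφ
  rw [sum_lb hW hp]
  calc ‖∑ L ∈ lb W p, ∑ y ∈ iv L, (F y - gl W f y) * φ y‖
      ≤ ∑ L ∈ lb W p, (w + e) * len L := by
        refine norm_sum_le_of_le _ fun L hL => ?_
        have : ∑ y ∈ iv L, (F y - gl W f y) * φ y = ∑ y ∈ iv L, (F y - f L y) * φ y :=
          Finset.sum_congr rfl fun y hy => by rw [gl_eq f (mem_lb.1 hL).1 hy]
        rw [this]
        exact hf L φ w hφ
    _ = (w + e) * len p := by rw [← Finset.mul_sum, sum_len_lb hW hp]

/-- local norm of the deviation of the glued function from `h` -/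
theorem av_gl {W : Finset Nd} {I : Nd} (hW : Full W I) (f : Nd → Fn) (h : Fn) {p : Nd}
    (hp : p ∈ W) :
    len p * av p (fun y => gl W f y - h y) ^ 2
      = ∑ L ∈ lb W p, len L * av L (fun y => f L y - h y) ^ 2 := by
  rw [← sum_av, sum_lb hW hp]
  refine Finset.sum_congr rfl fun L hL => ?_
  rw [← sum_av]
  exact Finset.sum_congr rfl fun y hy => by rw [gl_eq f (mem_lb.1 hL).1 hy]

/-- the penalised functional is additive over the leaves (frozen function and price) -/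
theorem Ph_lb {W : Finset Nd} {I : Nd} (hW : Full W I) (F f : Fn) (t : ℝ) {p : Nd}
    (hp : p ∈ W) : ∑ L ∈ lb W p, len L * PhD L F f t = len p * PhD p F f t := by
  unfold PhD
  simp only [mul_add, Finset.sum_add_distrib]
  rw [← Finset.sum_mul, sum_len_lb hW hp]
  congr 1
  rw [← sum_av, sum_lb hW hp]
  exact Finset.sum_congr rfl fun L _ => (sum_av L _).symm

theorem lb_top {W : Finset Nd} {I : Nd} (hW : Full W I) : lb W I = lf W := by
  classical
  unfold lb
  rw [Finset.filter_true_of_mem]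
  intro L hL
  exact hW.reg.1 L (lf_sub hL)

/-! ### finitely many letters -/

section letters

variable {ι : Type*} [Fintype ι]

/-- data: letters, dictionaries, near-minimisers -/
structure Data (D : ι → Dict) (η : ℝ) (G : ι → Fn) (f : ι → Nd → Fn) (t : ι → Nd → ℝ) : Prop where
  near : ∀ i, Near (D i) η (G i) (f i) (t i)

theorem exists_Data (D : ι → Dict) {η : ℝ} (hη : 0 < η) (G : ι → Fn) :
    ∃ (f : ι → Nd → Fn) (t : ι → Nd → ℝ), Data D η G f t := by
  choose f t h using fun i => exists_Near (D i) hη (G i)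
  exact ⟨f, t, ⟨h⟩⟩

/-- total deviation at `p` of the data frozen at `I` -/
noncomputable def dv (f : ι → Nd → Fn) (I p : Nd) : ℝ :=
  ∑ i, av p (fun y => f i I y - f i p y) ^ 2

/-- total potential -/
noncomputable def Pt (G : ι → Fn) (f : ι → Nd → Fn) (t : ι → Nd → ℝ) (p : Nd) : ℝ :=
  2 * ∑ i, PhD p (G i) (f i p) (t i p)

theorem dv_nonneg (f : ι → Nd → Fn) (I p : Nd) : 0 ≤ dv f I p :=
  Finset.sum_nonneg fun i _ => sq_nonneg _

theorem dv_self (f : ι → Nd → Fn) (I : Nd) : dv f I I = 0 := by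
  unfold dv
  refine Finset.sum_eq_zero fun i _ => ?_
  have : av I (fun y => f i I y - f i I y) = 0 := by
    unfold av av2
    simp
  rw [this]
  norm_num

variable {D : ι → Dict} {η : ℝ} {G : ι → Fn} {f : ι → Nd → Fn} {t : ι → Nd → ℝ}

theorem Pt_nonneg (h : Data D η G f t) (p : Nd) : 0 ≤ Pt G f t p := by
  unfold Pt
  have : 0 ≤ ∑ i, PhD p (G i) (f i p) (t i p) :=
    Finset.sum_nonneg fun i _ => PhD_nonneg p (G i) ((h.near i).rep p)
  linarith

theorem Pt_le (h : Data D η G f t) (p : Nd) (hG : ∀ i, av p (G i) ≤ 1) :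
    Pt G f t p ≤ 2 * Fintype.card ι * (1 + 2 * η) := by
  unfold Pt
  have : ∑ i, PhD p (G i) (f i p) (t i p) ≤ ∑ _i : ι, (1 + 2 * η) := by
    refine Finset.sum_le_sum fun i _ => ?_
    have h1 := (h.near i).Ph_le p
    have h2 : av p (G i) ^ 2 ≤ 1 := pow_le_one₀ (Real.sqrt_nonneg _) (hG i)
    linarith
  rw [Finset.sum_const, nsmul_eq_mul, Finset.card_univ] at this
  nlinarith [this]

/-- node inequality: the data frozen at `I` are competitors at `p ⊆ I` -/
theorem dv_add_Pt (h : Data D η G f t) {I p : Nd} (hpI : iv p ⊆ iv I) :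
    dv f I p + Pt G f t p
      ≤ 2 * ∑ i, PhD p (G i) (f i I) (t i I) + 4 * Fintype.card ι * η := by
  have key : ∀ i, av p (fun y => f i I y - f i p y) ^ 2 + 2 * PhD p (G i) (f i p) (t i p)
      ≤ 2 * PhD p (G i) (f i I) (t i I) + 4 * η := by
    intro i
    have := (h.near i).cvx p (f i I) (t i I) (rp_mono hpI ((h.near i).rep I))
    linarith
  have hs := Finset.sum_le_sum fun i (_ : i ∈ (Finset.univ : Finset ι)) => key i
  rw [Finset.sum_add_distrib, Finset.sum_add_distrib, Finset.sum_const, nsmul_eq_mul,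
    Finset.card_univ, ← Finset.mul_sum, ← Finset.mul_sum] at hs
  unfold dv Pt
  linarith

/-- hypothesis of the stopping lemma -/
theorem stop_hyp (h : Data D η G f t) {W : Finset Nd} {I : Nd} (hW : Full W I) {p : Nd}
    (hp : p ∈ W) {K : Nd} (hpK : iv p ⊆ iv K) :
    ∑ L ∈ lb W p, len L * (dv f K L + Pt G f t L)
      ≤ len p * (2 * ∑ i, PhD p (G i) (f i K) (t i K) + 4 * Fintype.card ι * η) := by
  calc ∑ L ∈ lb W p, len L * (dv f K L + Pt G f t L)
      ≤ ∑ L ∈ lb W p, len L *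
          (2 * ∑ i, PhD L (G i) (f i K) (t i K) + 4 * Fintype.card ι * η) := by
        refine Finset.sum_le_sum fun L hL => ?_
        exact mul_le_mul_of_nonneg_left
          (dv_add_Pt h ((mem_lb.1 hL).2.trans hpK)) (len_pos L).le
    _ = _ := by
        simp only [mul_add, Finset.sum_add_distrib]
        rw [← Finset.sum_mul, sum_len_lb hW hp]
        congr 1
        have e : ∀ L, len L * (2 * ∑ i, PhD L (G i) (f i K) (t i K))
            = 2 * ∑ i, len L * PhD L (G i) (f i K) (t i K) := by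
          intro L
          rw [Finset.mul_sum, Finset.mul_sum, Finset.mul_sum]
          exact Finset.sum_congr rfl fun i _ => by ring
        rw [Finset.sum_congr rfl fun L _ => e L, ← Finset.mul_sum, Finset.sum_comm, e p]
        congr 1
        exact Finset.sum_congr rfl fun i _ => Ph_lb hW (G i) (f i K) (t i K) hp

end letters

end Crest.Agent.R079.TWin649
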