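import Crest.Agent.R079.TDef_853
import Crest.Agent.R079.QbF_247
import Crest.Agent.R079.TWL_649
import Crest.Agent.R079.TWinB_649

-- ▼ part R079/TFrz_679
section

/-! R079, `FrzBd` of `TDef_853` (helper679): every dictionary whose elements in the slots `0,1,2` are
combinations of unit `A₃` atoms of total mass `≤ M(t)` satisfies `FrzBd` (frozen atom theorem `qb`).

* `rep_comb` : combinations of `Rep`;
* `rep_atom` : `atom j κ T a b c` with `κ (n3 a n3 b n3 c)^(1/3) ≤ M` is `Rep` of mass `M`;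
* `rep_bdd` : kernels bounded by `h a, h b, h c`;
* `frzBd_of_rep` : the literal. -/

set_option autoImplicit false

namespace Crest.Agent.R079.TFrz679

open Finset Crest.Agent.R079.Grid Crest.Agent.R079.Glue Crest.Agent.R079.Growth Crest.Agent.R079.QRed

/-- combinations of `Rep` -/
theorem rep_comb {j : Fin 4} {p : Nd} {n : ℕ} {φ : Fin n → Fn} {c : Fin n → ℂ} {M s : ℝ}
    (hM : 0 ≤ M) (h : ∀ i, Rep j p (φ i) M) (hc : ∑ i, ‖c i‖ ≤ s) {f : Fn}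
    (hf : ∀ y ∈ iv p, f y = ∑ i, c i * φ i y) : Rep j p f (s * M) := by
  choose N ψ d hA hE hS using h
  set e := Fintype.equivFin (Σ i : Fin n, Fin (N i)) with he
  refine ⟨Fintype.card (Σ i : Fin n, Fin (N i)),
    fun k => ψ (e.symm k).1 (e.symm k).2,
    fun k => c (e.symm k).1 * d (e.symm k).1 (e.symm k).2, fun k => hA _ _, ?_, ?_⟩
  · intro y hy
    rw [hf y hy]
    have h1 : ∑ k, c (e.symm k).1 * d (e.symm k).1 (e.symm k).2 * ψ (e.symm k).1 (e.symm k).2 y =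
        ∑ x : (Σ i : Fin n, Fin (N i)), c x.1 * d x.1 x.2 * ψ x.1 x.2 y :=
      Equiv.sum_comp e.symm (fun x : (Σ i : Fin n, Fin (N i)) => c x.1 * d x.1 x.2 * ψ x.1 x.2 y)
    rw [h1, Fintype.sum_sigma]
    refine Finset.sum_congr rfl fun i _ => ?_
    rw [hE i y hy, Finset.mul_sum]
    refine Finset.sum_congr rfl fun l _ => ?_
    ring
  · have h1 : ∑ k, ‖c (e.symm k).1 * d (e.symm k).1 (e.symm k).2‖ =
        ∑ x : (Σ i : Fin n, Fin (N i)), ‖c x.1 * d x.1 x.2‖ :=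
      Equiv.sum_comp e.symm (fun x : (Σ i : Fin n, Fin (N i)) => ‖c x.1 * d x.1 x.2‖)
    rw [h1, Fintype.sum_sigma]
    calc ∑ i, ∑ l, ‖c i * d i l‖ ≤ ∑ i, ‖c i‖ * M := by
          refine Finset.sum_le_sum fun i _ => ?_
          calc ∑ l, ‖c i * d i l‖ = ‖c i‖ * ∑ l, ‖d i l‖ := by
                rw [Finset.mul_sum]
                exact Finset.sum_congr rfl fun l _ => norm_mul _ _
            _ ≤ ‖c i‖ * M := mul_le_mul_of_nonneg_left (hS i) (norm_nonneg _)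
      _ = (∑ i, ‖c i‖) * M := by rw [Finset.sum_mul]
      _ ≤ s * M := mul_le_mul_of_nonneg_right hc hM

/-- a multiple of a unit atom -/
theorem rep_smul {j : Fin 4} {φ : Fn} (h : IsAtom j φ) (c : ℂ) {M : ℝ} (hc : ‖c‖ ≤ M) (p : Nd)
    {f : Fn} (hf : ∀ y ∈ iv p, f y = c * φ y) : Rep j p f M := by
  refine ⟨1, fun _ => φ, fun _ => c, fun _ => h, fun y hy => ?_, ?_⟩
  · rw [hf y hy]; simp
  · simpa using hc

/-- an `A₃` atom of mass `M` -/
theorem rep_atom {j : Fin 4} {κ : ℝ} (hκ : 0 ≤ κ) {T : Fin 3 → Finset ℤ} {a b c : ℤ → ℤ → ℂ}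
    {M : ℝ} (hM : 0 < M)
    (h : κ * (n3 (T 0) (T 1) a * n3 (T 1) (T 2) b * n3 (T 2) (T 0) c) ^ (1 / 3 : ℝ) ≤ M) (p : Nd) :
    Rep j p (atom j κ T a b c) M := by
  have hA : IsAtom j (atom j (κ / M) T a b c) := by
    refine ⟨κ / M, T, a, b, c, by positivity, rfl, ?_⟩
    rw [div_mul_eq_mul_div, div_le_one hM]
    exact h
  refine rep_smul hA (M : ℂ) ?_ p fun y _ => ?_
  · rw [Complex.norm_real, Real.norm_of_nonneg hM.le]
  · unfold atom
    have : (M : ℂ) ≠ 0 := by exact_mod_cast hM.ne'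
    push_cast
    field_simp

/-- bounded kernels: `n3 ≤ (#T #T') h³` -/
theorem n3_le {T T' : Finset ℤ} {a : ℤ → ℤ → ℂ} {h : ℝ}
    (ha : ∀ z ∈ T, ∀ z' ∈ T', ‖a z z'‖ ≤ h) : n3 T T' a ≤ (T.card * T'.card) * h ^ 3 := by
  unfold n3
  calc ∑ z ∈ T, ∑ z' ∈ T', ‖a z z'‖ ^ 3 ≤ ∑ z ∈ T, ∑ z' ∈ T', h ^ 3 :=
        Finset.sum_le_sum fun z hz => Finset.sum_le_sum fun z' hz' =>
          pow_le_pow_left₀ (norm_nonneg _) (ha z hz z' hz') 3
    _ = (T.card * T'.card) * h ^ 3 := by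
        rw [Finset.sum_const, Finset.sum_const]
        simp only [nsmul_eq_mul]
        ring

/-- bounded kernels on `T 0 × T 1 × T 2`: mass `κ (#T0 #T1 #T2)^(2/3) ha hb hc` -/
theorem rep_bdd {j : Fin 4} {κ : ℝ} (hκ : 0 ≤ κ) {T : Fin 3 → Finset ℤ} {a b c : ℤ → ℤ → ℂ}
    {ha hb hc M : ℝ} (ha0 : 0 ≤ ha) (hb0 : 0 ≤ hb) (hc0 : 0 ≤ hc)
    (h0 : ∀ z ∈ T 0, ∀ z' ∈ T 1, ‖a z z'‖ ≤ ha) (h1 : ∀ z ∈ T 1, ∀ z' ∈ T 2, ‖b z z'‖ ≤ hb)
    (h2 : ∀ z ∈ T 2, ∀ z' ∈ T 0, ‖c z z'‖ ≤ hc) (hM : 0 < M)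
    (h : κ * (((T 0).card * (T 1).card * (T 2).card : ℝ) ^ (2 / 3 : ℝ) * (ha * hb * hc)) ≤ M)
    (p : Nd) : Rep j p (atom j κ T a b c) M := by
  refine rep_atom hκ hM (le_trans ?_ h) p
  refine mul_le_mul_of_nonneg_left ?_ hκ
  have e0 := n3_le h0
  have e1 := n3_le h1
  have e2 := n3_le h2
  have p0 : 0 ≤ n3 (T 0) (T 1) a := n3_nonneg _ _ _
  have p1 : 0 ≤ n3 (T 1) (T 2) b := n3_nonneg _ _ _
  have p2 : 0 ≤ n3 (T 2) (T 0) c := n3_nonneg _ _ _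
  set x : ℝ := (T 0).card * (T 1).card * (T 2).card with hx
  have hx0 : 0 ≤ x := by positivity
  have hy0 : 0 ≤ ha * hb * hc := by positivity
  have h3 : n3 (T 0) (T 1) a * n3 (T 1) (T 2) b * n3 (T 2) (T 0) c ≤
      (x ^ (2 / 3 : ℝ) * (ha * hb * hc)) ^ (3 : ℝ) := by
    have h4 : (x ^ (2 / 3 : ℝ) * (ha * hb * hc)) ^ (3 : ℝ) = x ^ 2 * (ha * hb * hc) ^ 3 := by
      rw [Real.mul_rpow (Real.rpow_nonneg hx0 _) hy0, ← Real.rpow_mul hx0]
      norm_num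
    rw [h4]
    calc n3 (T 0) (T 1) a * n3 (T 1) (T 2) b * n3 (T 2) (T 0) c ≤
        (((T 0).card * (T 1).card) * ha ^ 3) * (((T 1).card * (T 2).card) * hb ^ 3) *
          (((T 2).card * (T 0).card) * hc ^ 3) := by
          refine mul_le_mul (mul_le_mul e0 e1 p1 ?_) e2 p2 ?_ <;> positivity
      _ = x ^ 2 * (ha * hb * hc) ^ 3 := by rw [hx]; ring
  calc (n3 (T 0) (T 1) a * n3 (T 1) (T 2) b * n3 (T 2) (T 0) c) ^ (1 / 3 : ℝ) ≤
      ((x ^ (2 / 3 : ℝ) * (ha * hb * hc)) ^ (3 : ℝ)) ^ (1 / 3 : ℝ) :=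
        Real.rpow_le_rpow (by positivity) h3 (by norm_num)
    _ = x ^ (2 / 3 : ℝ) * (ha * hb * hc) := by
        rw [← Real.rpow_mul (by positivity)]
        norm_num


end Crest.Agent.R079.TFrz679
end

-- ▼ part R079/Dic_679

/-! R079, **DICTIONARY SCHEME** (helper679).

`Fam S` = family of test functions with sup `≤ t⁻¹` and plain mass `≤ A t^(-C)`;
`DS S` = the dictionary generated by `S` and by the unit `A₃` atoms at price `t` (slot `3` empty);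
`dic_DS`, `frzBd_DS`; `lv_pl`, `lv_fam` = what a level gives. -/

set_option autoImplicit false

namespace Crest.Agent.R079.Dic679

open Finset Crest.Agent.R079.Grid Crest.Agent.R079.Glue Crest.Agent.R079.Growth Crest.Agent.R079.QRed
open Crest.Agent.R079.TFrz679

/-- admissible family of test functions -/
structure Fam (S : Fin 4 → ℝ → Set Fn) : Prop where
  sup : ∀ j, j ≠ 3 → ∀ t, 0 < t → t ≤ 1 → ∀ φ ∈ S j t, ∀ y, ‖φ y‖ ≤ t⁻¹
  mass : ∃ A C : ℝ, 0 ≤ A ∧ 0 ≤ C ∧ ∀ j, j ≠ 3 → ∀ t, 0 < t → t ≤ 1 → ∀ φ ∈ S j t, ∀ p : Nd,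
    Rep j p φ (A * t ^ (-C))

/-- unit `A₃` atoms at price `t` -/
def Pl (j : Fin 4) (t : ℝ) : Set Fn :=
  {φ | ∃ ψ, IsAtom j ψ ∧ φ = fun y => ((t⁻¹ : ℝ) : ℂ) * ψ y}


theorem rep_mono {j : Fin 4} {p : Nd} {f : Fn} {M M' : ℝ} (h : Rep j p f M) (hM : M ≤ M') :
    Rep j p f M' := by
  obtain ⟨n, φ, c, h1, h2, h3⟩ := h
  exact ⟨n, φ, c, h1, h2, h3.trans hM⟩










theorem Fam.union {S S' : Fin 4 → ℝ → Set Fn} (h : Fam S) (h' : Fam S') :
    Fam (fun j t => S j t ∪ S' j t) := by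
  refine ⟨?_, ?_⟩
  · rintro j hj t ht ht1 φ (hφ | hφ) y
    · exact h.sup j hj t ht ht1 φ hφ y
    · exact h'.sup j hj t ht ht1 φ hφ y
  · obtain ⟨A, C, hA, hC, hm⟩ := h.mass
    obtain ⟨A', C', hA', hC', hm'⟩ := h'.mass
    refine ⟨A + A', C + C', by positivity, by positivity, ?_⟩
    rintro j hj t ht ht1 φ (hφ | hφ) p
    · refine rep_mono (hm j hj t ht ht1 φ hφ p) ?_
      have e1 : t ^ (-C) ≤ t ^ (-(C + C')) :=
        Real.rpow_le_rpow_of_exponent_ge ht ht1 (by linarith)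
      have e2 : 0 ≤ A' * t ^ (-(C + C')) := by positivity
      have e3 := mul_le_mul_of_nonneg_left e1 hA
      linarith
    · refine rep_mono (hm' j hj t ht ht1 φ hφ p) ?_
      have e1 : t ^ (-C') ≤ t ^ (-(C + C')) :=
        Real.rpow_le_rpow_of_exponent_ge ht ht1 (by linarith)
      have e2 : 0 ≤ A * t ^ (-(C + C')) := by positivity
      have e3 := mul_le_mul_of_nonneg_left e1 hA'
      linarith

theorem Fam.empty : Fam (fun _ _ => (∅ : Set Fn)) := by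
  refine ⟨?_, ⟨0, 0, le_rfl, le_rfl, ?_⟩⟩
  · rintro j hj t ht ht1 φ hφ
    exact absurd hφ (Set.notMem_empty φ)
  · rintro j hj t ht ht1 φ hφ
    exact absurd hφ (Set.notMem_empty φ)

end Crest.Agent.R079.Dic679
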