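import Crest.Agent.R079.GridDefs_569

/-! R079, SOFT LAYER: the GROWTH LEMMA of 256 NOTES #9 (#25847 (1)-(5); refereed by 786 #26644 and
578 #26681), literal statement (helper248).

Abstract setting: nodes `p = (m,l)` of the dyadic grid, interval `iv p = dI (m+7) l`; a *system* is a
family of kernels `k p x y` (bilinear node forms, everything except the two Hilbert slots is frozen in
`k`, weights `|Q|` and signs included).  `Cl k w J` = "the region `w` with top `J` is a small window of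
the system `k`" (abstract predicate, e.g. at most `N` steps and clean).  A region `W` is `Big` if it is
split by a monotone window index `win < L` into small windows. -/

set_option autoImplicit false

namespace Crest.Agent.R079.Growth

open Finset Grid

/-- nodes -/
abbrev Nd : Type := ℕ × ℤ

/-- functions -/
abbrev Fn : Type := ℤ → ℂ

/-- interval of a node -/
noncomputable def iv (p : Nd) : Finset ℤ := dI (p.1 + 7) p.2

/-- length of the interval of a node -/
noncomputable def len (p : Nd) : ℝ := (2 : ℝ) ^ (p.1 + 7)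

/-- local `L²` average on a node -/
noncomputable def av (p : Nd) (X : Fn) : ℝ := av2 (p.1 + 7) p.2 X

/-- system of node kernels -/
abbrev Sys : Type := Nd → ℤ → ℤ → ℂ

/-- transposed system -/
def Sys.tr (k : Sys) : Sys := fun p x y => k p y x

/-- slot-1 dual function of one node: `(S1 k p Y)(x) = ∑_y k p x y Y y` for `x ∈ iv p`, else `0` -/
noncomputable def S1 (k : Sys) (p : Nd) (Y : Fn) : Fn :=
  fun x => if x ∈ iv p then ∑ y ∈ iv p, k p x y * Y y else 0

/-- node form -/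
noncomputable def tf (k : Sys) (p : Nd) (X Y : Fn) : ℂ :=
  ∑ x ∈ iv p, ∑ y ∈ iv p, k p x y * X x * Y y

/-- total form over a finite set of nodes -/
noncomputable def T (k : Sys) (W : Finset Nd) (X Y : Fn) : ℂ := ∑ p ∈ W, tf k p X Y

/-- `X` is loc-normalised on `W` -/
def loc (W : Finset Nd) (X : Fn) : Prop := ∀ p ∈ W, av p X ≤ 1

/-- the nodes of the window `l` -/
def wn (W : Finset Nd) (win : Nd → ℕ) (l : ℕ) : Finset Nd := W.filter (fun p => win p = l)

/-- the nodes of the windows `> i` -/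
def wgt (W : Finset Nd) (win : Nd → ℕ) (i : ℕ) : Finset Nd := W.filter (fun p => i < win p)

/-- the moving family `X_0, …, X_{L-1}` is loc-normalised on `W` -/
def locM (L : ℕ) (W : Finset Nd) (win : Nd → ℕ) (X : ℕ → Fn) : Prop :=
  ∀ p ∈ W, ∑ l ∈ (range L).filter (fun l => win p ≤ l), av p (X l) ^ 2 ≤ 1

/-- total form with moving slots -/
noncomputable def TM (L : ℕ) (k : Sys) (W : Finset Nd) (win : Nd → ℕ) (X Y : ℕ → Fn) : ℂ :=
  ∑ l ∈ range L, T k (wn W win l) (X l) (Y l)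



/-- complex conjugate of a function -/
noncomputable def cj (X : Fn) : Fn := fun x => (starRingEnd ℂ) (X x)

/-- `W` (a region with top `J`) is split by `win` into at most `L` windows all of whose sub-regions
are small (`Cl`) -/
structure Big (L : ℕ) (Cl : Sys → Finset Nd → Nd → Prop) (k : Sys) (W : Finset Nd) (J : Nd)
    (win : Nd → ℕ) : Prop where
  reg : IsRegion W J
  lt : ∀ p ∈ W, win p < L
  mono : ∀ p ∈ W, ∀ q ∈ W, iv p ⊆ iv q → win q ≤ win p
  small : ∀ (l : ℕ) (w : Finset Nd) (I : Nd), w ⊆ wn W win l → IsRegion w I → Cl k w I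

/-- bound for frozen/frozen slots on all big regions -/
def B00 (L : ℕ) (Cl : Sys → Finset Nd → Nd → Prop) (A : ℝ) : Prop :=
  ∀ k W J win, Big L Cl k W J win → ∀ X Y : Fn, loc W X → loc W Y → ‖T k W X Y‖ ≤ A * len J

/-- bound for moving/frozen slots on all big regions -/
def B10 (L : ℕ) (Cl : Sys → Finset Nd → Nd → Prop) (A : ℝ) : Prop :=
  ∀ k W J win, Big L Cl k W J win → ∀ (X : ℕ → Fn) (Y : Fn), locM L W win X → loc W Y →
    ‖TM L k W win X (fun _ => Y)‖ ≤ A * len J

/-- bound for moving/moving slots on all big regions -/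
def B11 (L : ℕ) (Cl : Sys → Finset Nd → Nd → Prop) (A : ℝ) : Prop :=
  ∀ k W J win, Big L Cl k W J win → ∀ X Y : ℕ → Fn, locM L W win X → locM L W win Y →
    ‖TM L k W win X Y‖ ≤ A * len J

/-- the windows are bounded by `O` -/
def Small (Cl : Sys → Finset Nd → Nd → Prop) (O : ℝ) : Prop :=
  ∀ k w J, Cl k w J → IsRegion w J → ∀ X Y : Fn, loc w X → loc w Y → ‖T k w X Y‖ ≤ O * len J

/-- **(1)** moving/moving costs `log²` -/
def G1 : Prop := ∃ C : ℝ, 0 ≤ C ∧ ∀ (L : ℕ), 2 ≤ L → ∀ (Cl : Sys → Finset Nd → Nd → Prop) (O : ℝ),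
  0 ≤ O → Small Cl O → B11 L Cl (C * (1 + Real.log L) ^ 2 * O)

/-- **(2)** global-local for the dual functions -/
def G2 : Prop := ∀ (L : ℕ) (Cl : Sys → Finset Nd → Nd → Prop) (A : ℝ), 0 ≤ A →
  (B00 L Cl A → ∀ k W J win, Big L Cl k W J win → ∀ Y : Fn, loc W Y →
    ∑ x ∈ iv J, ‖∑ p ∈ W, S1 k p Y x‖ ^ 2 ≤ (4 * A) ^ 2 * len J) ∧
  (B10 L Cl A → ∀ k W J win, Big L Cl k W J win → ∀ Y : Fn, loc W Y →
    ∑ l ∈ range L, ∑ x ∈ iv J, ‖∑ p ∈ wn W win l, S1 k p Y x‖ ^ 2 ≤ (4 * A) ^ 2 * len J) ∧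
  (B10 L Cl A → ∀ k W J win, Big L Cl k W J win → ∀ X : ℕ → Fn, locM L W win X →
    ∑ x ∈ iv J, ‖∑ p ∈ W, S1 k.tr p (X (win p)) x‖ ^ 2 ≤ (4 * A) ^ 2 * len J) ∧
  (B11 L Cl A → ∀ k W J win, Big L Cl k W J win → ∀ X : ℕ → Fn, locM L W win X →
    ∑ l ∈ range L, ∑ x ∈ iv J, ‖∑ p ∈ wn W win l, S1 k.tr p (X l) x‖ ^ 2 ≤ (4 * A) ^ 2 * len J)


end Crest.Agent.R079.Growth
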