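import Crest.Agent.R079.R244Defs_491
import Crest.Agent.R079.GrowthDefs_248
import Mathlib

-- ▼ part R079/S2At_491
section

/-! R079: the averaged `S₂` hypothesis from loc-`L²` norms (helper491). -/

set_option autoImplicit false

namespace Crest.Agent.R079.R244

open Finset Crest.Agent.R079.Grid Crest.Agent.R079.Pot Crest.Agent.R079.Glue


/-- injective reindexing of a nonnegative sum supported on `T` -/
theorem sum_inj_le {α β : Type*} [DecidableEq β] (g : β → ℝ) (hg : ∀ z, 0 ≤ g z) (T : Finset β)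
    (hT : ∀ z, z ∉ T → g z = 0) (P : Finset α) (φ : α → β) (hφ : Function.Injective φ) :
    ∑ q ∈ P, g (φ q) ≤ ∑ z ∈ T, g z := by
  rw [← Finset.sum_image (f := g) (g := φ) (s := P) (fun a _ b _ hab => hφ hab)]
  rw [← Finset.sum_inter_add_sum_sdiff (P.image φ) T]
  have h1 : ∑ z ∈ P.image φ \ T, g z = 0 := by
    refine Finset.sum_eq_zero fun z hz => hT z ?_
    exact (Finset.mem_sdiff.1 hz).2
  rw [h1, add_zero]
  exact Finset.sum_le_sum_of_subset_of_nonneg Finset.inter_subset_right fun z _ _ => hg z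




theorem sl_ne {j k : Fin 4} (h : j ≠ k) : sl j - sl k ≠ 0 := by
  revert j k
  decide



end Crest.Agent.R079.R244
end

-- ▼ part R079/OpLev_977

/-! R079 (helper977): OP-LEVEL of a slot letter in the LINE model and `op-level ⟹ S₄` of the frozen
kernels (replaces `Cls.C2`, `Cls.C2'`, whose level is the sup norm).

`OLev κ k p f s`: `f` (slot `k`, restricted to the node `p`) has level `≤ s` against all products
`m(z_e, z_e') U(z_j, z_e) V(z_j, z_e')` on cubes of side `n = 2^(p.1+r)`, `r ≤ κ`, with a bounded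
gauge `|m| ≤ 1` and vectors with bounded marginals at the vertex `j`:
`avg_{z_e} |U(z_j,·)|² ≤ α(z_j)`, `avg_{z_e'} |V(z_j,·)|² ≤ α(z_j)`, `avg_{z_j} α² ≤ 1`. -/

set_option autoImplicit false

namespace Crest.Agent.R079.OpLev

open Finset

/-! ### matrices -/

section mat

variable {ι κ : Type*} [Fintype ι] [Fintype κ]

theorem cs (y w : ι → ℂ) :
    ‖∑ i, y i * (starRingEnd ℂ) (w i)‖ ^ 2 ≤ (∑ i, ‖y i‖ ^ 2) * ∑ i, ‖w i‖ ^ 2 := by
  have h1 : ‖∑ i, y i * (starRingEnd ℂ) (w i)‖ ≤ ∑ i, ‖y i‖ * ‖w i‖ := by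
    refine (norm_sum_le _ _).trans (Finset.sum_le_sum fun i _ => ?_)
    rw [norm_mul, RCLike.norm_conj]
  calc ‖∑ i, y i * (starRingEnd ℂ) (w i)‖ ^ 2 ≤ (∑ i, ‖y i‖ * ‖w i‖) ^ 2 :=
        pow_le_pow_left₀ (norm_nonneg _) h1 2
    _ ≤ _ := Finset.sum_mul_sq_le_sq_mul_sq _ _ _

/-- `σ` bounds `M` on `ℓ²` -/
def OpB (M : ι → κ → ℂ) (σ : ℝ) : Prop :=
  ∀ x : κ → ℂ, ∑ i, ‖∑ j, M i j * x j‖ ^ 2 ≤ σ ^ 2 * ∑ j, ‖x j‖ ^ 2

/-- top singular pair -/
theorem exists_top (M : ι → κ → ℂ) :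
    ∃ σ : ℝ, 0 ≤ σ ∧ OpB M σ ∧ ∃ (u : ι → ℂ) (v : κ → ℂ), ∑ i, ‖u i‖ ^ 2 ≤ 1 ∧
      ∑ j, ‖v j‖ ^ 2 ≤ 1 ∧ ∑ i, ∑ j, M i j * u i * v j = (σ : ℂ) := by
  classical
  -- the function to be maximised
  let g : EuclideanSpace ℂ κ → ℝ := fun x => ∑ i, ‖∑ j, M i j * x j‖ ^ 2
  have hg : Continuous g := by
    refine continuous_finsetSum _ fun i _ => ?_
    refine Continuous.pow (Continuous.norm ?_) 2
    refine continuous_finsetSum _ fun j _ => ?_
    exact continuous_const.mul (by fun_prop)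
  obtain ⟨v, hv, hmax⟩ := (isCompact_closedBall (0 : EuclideanSpace ℂ κ) 1).exists_isMaxOn
    ⟨0, by simp⟩ hg.continuousOn
  have hv1 : ∑ j, ‖v j‖ ^ 2 ≤ 1 := by
    have h1 : ‖v‖ ≤ 1 := by simpa using hv
    have h2 : ‖v‖ ^ 2 = ∑ j, ‖v j‖ ^ 2 := EuclideanSpace.norm_sq_eq v
    rw [← h2]
    exact pow_le_one₀ (norm_nonneg _) h1
  have hgn : ∀ x, 0 ≤ g x := fun x => Finset.sum_nonneg fun i _ => by positivity
  refine ⟨Real.sqrt (g v), Real.sqrt_nonneg _, ?_, ?_⟩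
  · intro x
    rw [Real.sq_sqrt (hgn v)]
    rcases eq_or_ne (∑ j, ‖x j‖ ^ 2) 0 with h0 | h0
    · have hx : ∀ j, x j = 0 := by
        intro j
        have := (Finset.sum_eq_zero_iff_of_nonneg (fun j _ => by positivity)).1 h0 j (Finset.mem_univ j)
        simpa using this
      simp [hx]
    · have hpos : 0 < ∑ j, ‖x j‖ ^ 2 := lt_of_le_of_ne
        (Finset.sum_nonneg fun j _ => by positivity) (Ne.symm h0)
      set r : ℝ := Real.sqrt (∑ j, ‖x j‖ ^ 2) with hr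
      have hrpos : 0 < r := Real.sqrt_pos.2 hpos
      have hr2 : r ^ 2 = ∑ j, ‖x j‖ ^ 2 := Real.sq_sqrt hpos.le
      let y : EuclideanSpace ℂ κ := WithLp.toLp 2 (fun j => ((r⁻¹ : ℝ) : ℂ) * x j)
      have hy : y ∈ Metric.closedBall (0 : EuclideanSpace ℂ κ) 1 := by
        rw [mem_closedBall_zero_iff]
        have : ‖y‖ ^ 2 = 1 := by
          rw [EuclideanSpace.norm_sq_eq]
          have : ∀ j, ‖y j‖ ^ 2 = r⁻¹ ^ 2 * ‖x j‖ ^ 2 := by
            intro j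
            show ‖((r⁻¹ : ℝ) : ℂ) * x j‖ ^ 2 = _
            rw [norm_mul, Complex.norm_real, Real.norm_eq_abs, mul_pow, sq_abs]
          rw [Finset.sum_congr rfl fun j _ => this j, ← Finset.mul_sum, ← hr2]
          field_simp
        nlinarith [norm_nonneg y]
      have h3 : g y ≤ g v := hmax hy
      have h4 : g y = r⁻¹ ^ 2 * ∑ i, ‖∑ j, M i j * x j‖ ^ 2 := by
        show ∑ i, ‖∑ j, M i j * (((r⁻¹ : ℝ) : ℂ) * x j)‖ ^ 2 = _
        rw [Finset.mul_sum]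
        refine Finset.sum_congr rfl fun i _ => ?_
        have : ∑ j, M i j * (((r⁻¹ : ℝ) : ℂ) * x j) = ((r⁻¹ : ℝ) : ℂ) * ∑ j, M i j * x j := by
          rw [Finset.mul_sum]; exact Finset.sum_congr rfl fun j _ => by ring
        rw [this, norm_mul, Complex.norm_real, Real.norm_eq_abs, mul_pow, sq_abs]
      rw [h4] at h3
      have h5 : ∑ i, ‖∑ j, M i j * x j‖ ^ 2 ≤ g v * r ^ 2 := by
        have := mul_le_mul_of_nonneg_right h3 (sq_nonneg r)
        have e : r⁻¹ ^ 2 * (∑ i, ‖∑ j, M i j * x j‖ ^ 2) * r ^ 2 = ∑ i, ‖∑ j, M i j * x j‖ ^ 2 := by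
          field_simp
        rwa [e] at this
      rw [← hr2]; exact h5
  · rcases eq_or_ne (g v) 0 with h0 | h0
    · refine ⟨fun _ => 0, fun j => v j, by simp, hv1, ?_⟩
      simp [h0]
    · have hpos : 0 < g v := lt_of_le_of_ne (hgn v) (Ne.symm h0)
      set σ : ℝ := Real.sqrt (g v) with hσ
      have hσpos : 0 < σ := Real.sqrt_pos.2 hpos
      have hσ2 : σ ^ 2 = g v := Real.sq_sqrt hpos.le
      refine ⟨fun i => ((σ⁻¹ : ℝ) : ℂ) * (starRingEnd ℂ) (∑ j, M i j * v j), fun j => v j, ?_, hv1, ?_⟩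
      · have : ∀ i, ‖((σ⁻¹ : ℝ) : ℂ) * (starRingEnd ℂ) (∑ j, M i j * v j)‖ ^ 2 =
            σ⁻¹ ^ 2 * ‖∑ j, M i j * v j‖ ^ 2 := by
          intro i
          rw [norm_mul, Complex.norm_real, Real.norm_eq_abs, mul_pow, sq_abs, RCLike.norm_conj]
        rw [Finset.sum_congr rfl fun i _ => this i, ← Finset.mul_sum]
        have : ∑ i, ‖∑ j, M i j * v j‖ ^ 2 = σ ^ 2 := by rw [hσ2]
        rw [this]
        exact le_of_eq (by field_simp)
      · have : ∀ i, ∑ j, M i j * (((σ⁻¹ : ℝ) : ℂ) * (starRingEnd ℂ) (∑ j, M i j * v j)) * v j =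
            ((σ⁻¹ * ‖∑ j, M i j * v j‖ ^ 2 : ℝ) : ℂ) := by
          intro i
          have e1 : ∑ j, M i j * (((σ⁻¹ : ℝ) : ℂ) * (starRingEnd ℂ) (∑ j, M i j * v j)) * v j =
              ((σ⁻¹ : ℝ) : ℂ) * ((∑ j, M i j * v j) * (starRingEnd ℂ) (∑ j, M i j * v j)) := by
            rw [Finset.sum_mul, Finset.mul_sum]
            refine Finset.sum_congr rfl fun j _ => by ring
          rw [e1, Complex.mul_conj, Complex.normSq_eq_norm_sq]
          push_cast; ring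
        rw [Finset.sum_congr rfl fun i _ => this i]
        rw [← Complex.ofReal_sum, ← Finset.mul_sum]
        have : ∑ i, ‖∑ j, M i j * v j‖ ^ 2 = σ ^ 2 := by rw [hσ2]
        rw [this]
        congr 1
        field_simp

/-- adjoint bound -/
theorem OpB.adj {M : ι → κ → ℂ} {σ : ℝ} (h : OpB M σ) (hσ : 0 ≤ σ) (y : ι → ℂ) :
    ∑ j, ‖∑ i, y i * (starRingEnd ℂ) (M i j)‖ ^ 2 ≤ σ ^ 2 * ∑ i, ‖y i‖ ^ 2 := by
  set z : κ → ℂ := fun j => ∑ i, y i * (starRingEnd ℂ) (M i j) with hz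
  set Z : ℝ := ∑ j, ‖z j‖ ^ 2 with hZ
  have hZ0 : 0 ≤ Z := Finset.sum_nonneg fun j _ => by positivity
  have e1 : ((Z : ℝ) : ℂ) = ∑ i, y i * (starRingEnd ℂ) (∑ j, M i j * z j) := by
    have a1 : ∀ j, ((‖z j‖ ^ 2 : ℝ) : ℂ) = z j * (starRingEnd ℂ) (z j) := by
      intro j
      rw [Complex.mul_conj, Complex.normSq_eq_norm_sq]
    rw [hZ, Complex.ofReal_sum, Finset.sum_congr rfl fun j _ => a1 j]
    have a2 : ∀ j, z j * (starRingEnd ℂ) (z j) =
        ∑ i, y i * ((starRingEnd ℂ) (M i j) * (starRingEnd ℂ) (z j)) := by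
      intro j
      conv_lhs => rw [hz]
      simp only
      rw [Finset.sum_mul]
      exact Finset.sum_congr rfl fun i _ => by ring
    rw [Finset.sum_congr rfl fun j _ => a2 j, Finset.sum_comm]
    refine Finset.sum_congr rfl fun i _ => ?_
    rw [← Finset.mul_sum, map_sum]
    congr 1
    exact Finset.sum_congr rfl fun j _ => by rw [map_mul]
  have e2 : Z ^ 2 ≤ (∑ i, ‖y i‖ ^ 2) * (σ ^ 2 * Z) := by
    have a3 : Z ^ 2 = ‖((Z : ℝ) : ℂ)‖ ^ 2 := by
      rw [Complex.norm_real, Real.norm_eq_abs, sq_abs]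
    rw [a3, e1]
    refine (cs y _).trans ?_
    exact mul_le_mul_of_nonneg_left (h z) (Finset.sum_nonneg fun i _ => by positivity)
  rcases eq_or_lt_of_le hZ0 with h0 | h0
  · rw [← h0]
    exact mul_nonneg (sq_nonneg _) (Finset.sum_nonneg fun i _ => by positivity)
  · nlinarith

/-- `S₄⁴ ≤ op² S₂²` -/
theorem OpB.s4 {M : ι → κ → ℂ} {σ : ℝ} (h : OpB M σ) (hσ : 0 ≤ σ) :
    ∑ j, ∑ j', ‖∑ i, M i j * (starRingEnd ℂ) (M i j')‖ ^ 2 ≤ σ ^ 2 * ∑ j, ∑ i, ‖M i j‖ ^ 2 := by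
  rw [Finset.mul_sum]
  exact Finset.sum_le_sum fun j _ => h.adj hσ (fun i => M i j)

end mat

/-- **level ⟹ operator norms ⟹ `S₄`** for a family of matrices `M c`, `c : Fin n`:
`avg_c e4 ≤ E s²` -/
theorem lev_s4 (n : ℕ) (M : Fin n → Fin n → Fin n → ℂ) (s E : ℝ) (hs : 0 ≤ s) (hE : 0 ≤ E)
    (hlev : ∀ (U V : Fin n → Fin n → ℂ) (α : Fin n → ℝ), (∀ c, 0 ≤ α c) →
      (∀ c, ∑ i, ‖U c i‖ ^ 2 ≤ n * α c) → (∀ c, ∑ j, ‖V c j‖ ^ 2 ≤ n * α c) →
      ∑ c, α c ^ 2 ≤ n → ‖∑ c, ∑ i, ∑ j, M c i j * U c i * V c j‖ ≤ s * n ^ 3)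
    (hE2 : ∀ c, ∑ j, ∑ i, ‖M c i j‖ ^ 2 ≤ n ^ 2 * E) :
    ∑ c, ∑ j, ∑ j', ‖∑ i, M c i j * (starRingEnd ℂ) (M c i j')‖ ^ 2 ≤ n ^ 5 * (E * s ^ 2) := by
  classical
  choose σ hσ0 hσ u v hu hv huv using fun c => exists_top (M c)
  set S : ℝ := ∑ c, σ c ^ 2 with hS
  have hS0 : 0 ≤ S := Finset.sum_nonneg fun c _ => by positivity
  have hn0 : (0 : ℝ) ≤ n := Nat.cast_nonneg n
  -- claim: S ≤ s² n³
  have key : S ≤ s ^ 2 * n ^ 3 := by
    rcases eq_or_lt_of_le hS0 with h0 | h0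
    · rw [← h0]; positivity
    · have hn : 0 < (n : ℝ) := by
        rcases Nat.eq_zero_or_pos n with h | h
        · subst h; simp [hS] at h0
        · exact_mod_cast h
      set lam : ℝ := Real.sqrt (n / S) with hlam
      have hlam0 : 0 < lam := Real.sqrt_pos.2 (by positivity)
      have hlam2 : lam ^ 2 = n / S := Real.sq_sqrt (by positivity)
      have hα0 : ∀ c, 0 ≤ lam * σ c := fun c => mul_nonneg hlam0.le (hσ0 c)
      have h1 := hlev (fun c i => ((Real.sqrt (n * (lam * σ c)) : ℝ) : ℂ) * u c i)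
        (fun c j => ((Real.sqrt (n * (lam * σ c)) : ℝ) : ℂ) * v c j) (fun c => lam * σ c) hα0
        (fun c => by
          have : ∀ i, ‖((Real.sqrt (n * (lam * σ c)) : ℝ) : ℂ) * u c i‖ ^ 2 =
              n * (lam * σ c) * ‖u c i‖ ^ 2 := fun i => by
            rw [norm_mul, Complex.norm_real, Real.norm_eq_abs, mul_pow, sq_abs,
              Real.sq_sqrt (mul_nonneg hn0 (hα0 c))]
          rw [Finset.sum_congr rfl fun i _ => this i, ← Finset.mul_sum]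
          have := mul_le_mul_of_nonneg_left (hu c) (mul_nonneg hn0 (hα0 c))
          simpa using this)
        (fun c => by
          have : ∀ i, ‖((Real.sqrt (n * (lam * σ c)) : ℝ) : ℂ) * v c i‖ ^ 2 =
              n * (lam * σ c) * ‖v c i‖ ^ 2 := fun i => by
            rw [norm_mul, Complex.norm_real, Real.norm_eq_abs, mul_pow, sq_abs,
              Real.sq_sqrt (mul_nonneg hn0 (hα0 c))]
          rw [Finset.sum_congr rfl fun i _ => this i, ← Finset.mul_sum]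
          have := mul_le_mul_of_nonneg_left (hv c) (mul_nonneg hn0 (hα0 c))
          simpa using this)
        (by
          have : ∀ c, (lam * σ c) ^ 2 = lam ^ 2 * σ c ^ 2 := fun c => by ring
          rw [Finset.sum_congr rfl fun c _ => this c, ← Finset.mul_sum, ← hS, hlam2]
          exact le_of_eq (by field_simp))
      have h2 : ∑ c, ∑ i, ∑ j, M c i j * (((Real.sqrt (n * (lam * σ c)) : ℝ) : ℂ) * u c i) *
          (((Real.sqrt (n * (lam * σ c)) : ℝ) : ℂ) * v c j) = ((n * lam * S : ℝ) : ℂ) := by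
        have a1 : ∀ c, ∑ i, ∑ j, M c i j * (((Real.sqrt (n * (lam * σ c)) : ℝ) : ℂ) * u c i) *
            (((Real.sqrt (n * (lam * σ c)) : ℝ) : ℂ) * v c j) =
            ((n * lam * σ c ^ 2 : ℝ) : ℂ) := by
          intro c
          have a2 : ∑ i, ∑ j, M c i j * (((Real.sqrt (n * (lam * σ c)) : ℝ) : ℂ) * u c i) *
              (((Real.sqrt (n * (lam * σ c)) : ℝ) : ℂ) * v c j) =
              ((Real.sqrt (n * (lam * σ c)) ^ 2 : ℝ) : ℂ) * ∑ i, ∑ j, M c i j * u c i * v c j := by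
            rw [Finset.mul_sum]
            refine Finset.sum_congr rfl fun i _ => ?_
            rw [Finset.mul_sum]
            refine Finset.sum_congr rfl fun j _ => ?_
            push_cast; ring
          rw [a2, huv c, Real.sq_sqrt (mul_nonneg hn0 (hα0 c))]
          push_cast; ring
        rw [Finset.sum_congr rfl fun c _ => a1 c, ← Complex.ofReal_sum, ← Finset.mul_sum]
      rw [h2, Complex.norm_real, Real.norm_eq_abs, abs_of_nonneg (by positivity)] at h1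
      -- n * lam * S ≤ s n³  ⟹ lam S ≤ s n²
      have h3 : lam * S ≤ s * n ^ 2 := by
        have : n * (lam * S) ≤ n * (s * n ^ 2) := by nlinarith
        exact le_of_mul_le_mul_left this hn
      have h4 : (lam * S) ^ 2 ≤ (s * n ^ 2) ^ 2 := pow_le_pow_left₀ (by positivity) h3 2
      rw [mul_pow, hlam2] at h4
      have h5 : n / S * S ^ 2 = n * S := by field_simp
      rw [h5] at h4
      have h6 : n * S ≤ n * (s ^ 2 * n ^ 3) := by nlinarith
      exact le_of_mul_le_mul_left h6 hn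
  calc ∑ c, ∑ j, ∑ j', ‖∑ i, M c i j * (starRingEnd ℂ) (M c i j')‖ ^ 2
      ≤ ∑ c, σ c ^ 2 * (n ^ 2 * E) := by
        refine Finset.sum_le_sum fun c _ => ((hσ c).s4 (hσ0 c)).trans ?_
        exact mul_le_mul_of_nonneg_left (hE2 c) (sq_nonneg _)
    _ = S * (n ^ 2 * E) := by rw [← Finset.sum_mul]
    _ ≤ (s ^ 2 * n ^ 3) * (n ^ 2 * E) := mul_le_mul_of_nonneg_right key (by positivity)
    _ = n ^ 5 * (E * s ^ 2) := by ring


/-! ### the level of a slot letter in the line model -/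

open Crest.Agent.R079.Grid Crest.Agent.R079.Glue Crest.Agent.R079.R244

/-- **OP-LEVEL** of `f` (slot `k`) at the node `p`: bounded gauge on the edge `(e,e')`, vectors with
bounded marginals at the vertex `j` (`α` in `L²`). -/
def OLev (κ : ℕ) (k : Fin 4) (p : ℕ × ℤ) (f : ℤ → ℂ) (s : ℝ) : Prop :=
  ∀ j e e' : Fin 4, j ≠ k → j ≠ e → j ≠ e' → k ≠ e → k ≠ e' → e ≠ e' → ∀ r ≤ κ, ∀ n : ℕ,
    n = 2 ^ (p.1 + r) → ∀ (w q u : ℤ) (m : ℤ → ℤ → ℂ), (∀ z z', ‖m z z'‖ ≤ 1) →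
    ∀ (U V : Fin n → Fin n → ℂ) (α : Fin n → ℝ), (∀ c, 0 ≤ α c) →
      (∀ c, ∑ i, ‖U c i‖ ^ 2 ≤ n * α c) → (∀ c, ∑ i, ‖V c i‖ ^ 2 ≤ n * α c) →
      ∑ c, α c ^ 2 ≤ n →
      ‖∑ c : Fin n, ∑ i : Fin n, ∑ i' : Fin n,
        m (q + ((i : ℕ) : ℤ)) (u + ((i' : ℕ) : ℤ)) *
          res p f ((sl j - sl k) * (w + ((c : ℕ) : ℤ)) + (sl e - sl k) * (q + ((i : ℕ) : ℤ)) +
            (sl e' - sl k) * (u + ((i' : ℕ) : ℤ))) * U c i * V c i'‖ ≤ s * n ^ 3

theorem OLev.mono {κ : ℕ} {k : Fin 4} {p : ℕ × ℤ} {f : ℤ → ℂ} {s s' : ℝ} (h : OLev κ k p f s)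
    (hs : s ≤ s') : OLev κ k p f s' := by
  intro j e e' h1 h2 h3 h4 h5 h6 r hr n hn w q u m hm U V α hα hU hV hα2
  exact (h j e e' h1 h2 h3 h4 h5 h6 r hr n hn w q u m hm U V α hα hU hV hα2).trans
    (mul_le_mul_of_nonneg_right hs (by positivity))


theorem e4_nonneg (X : ℤ → ℤ → ℂ) (N : ℕ) (q p : ℤ) : 0 ≤ e4 X N q p := by
  unfold e4; positivity

theorem sl_bd (j k : Fin 4) : |sl j - sl k| ≤ 3 := by
  revert j k; decide






/-- kernel restricted to `T × T'` -/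
noncomputable def msk (T T' : Finset ℤ) (a : ℤ → ℤ → ℂ) (z z' : ℤ) : ℂ :=
  if z ∈ T ∧ z' ∈ T' then a z z' else 0




end Crest.Agent.R079.OpLev
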