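import Mathlib
import Crest.Agent.R079.OpLev_977

-- ▼ part R079/YLeaf_960
section

/-! R079, doc 2531 STEP II, the LEAF TERM (helper960), ABSTRACT form (finite index types, complex
letters, unnormalised sums).

Names: `P(1,2,3)` frozen, `R(0,1,2)` killer, `Y(0,1,3)` one of the two arbitrary letters. -/

set_option autoImplicit false

namespace Crest.Agent.R079.YLeaf

open Finset

/-- complex Cauchy-Schwarz, unnormalised, any finset -/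
theorem cs {ι : Type*} (s : Finset ι) (f g : ι → ℂ) :
    ‖∑ i ∈ s, f i * g i‖ ^ 2 ≤ (∑ i ∈ s, ‖f i‖ ^ 2) * ∑ i ∈ s, ‖g i‖ ^ 2 := by
  have h1 : ‖∑ i ∈ s, f i * g i‖ ≤ ∑ i ∈ s, ‖f i‖ * ‖g i‖ := by
    refine (norm_sum_le _ _).trans (Finset.sum_le_sum fun i _ => ?_)
    rw [norm_mul]
  calc ‖∑ i ∈ s, f i * g i‖ ^ 2 ≤ (∑ i ∈ s, ‖f i‖ * ‖g i‖) ^ 2 :=
        pow_le_pow_left₀ (norm_nonneg _) h1 2
    _ ≤ _ := Finset.sum_mul_sq_le_sq_mul_sq _ _ _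

theorem cs' {ι : Type*} (s : Finset ι) (f g : ι → ℂ) :
    ‖∑ i ∈ s, f i * g i‖ ≤ Real.sqrt (∑ i ∈ s, ‖f i‖ ^ 2) * Real.sqrt (∑ i ∈ s, ‖g i‖ ^ 2) := by
  rw [← Real.sqrt_mul (Finset.sum_nonneg fun i _ => by positivity)]
  exact Real.le_sqrt_of_sq_le (cs s f g)

variable {ι₀ ι₁ ι₂ ι₃ : Type*} [Fintype ι₀] [Fintype ι₁] [Fintype ι₂] [Fintype ι₃]

/-- `S₄⁴` of a matrix `K(1,2)` -/
noncomputable def S4 (K : ι₁ → ι₂ → ℂ) : ℝ :=
  ∑ a, ∑ a', ‖∑ b, K a b * (starRingEnd ℂ) (K a' b)‖ ^ 2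

theorem S4_nonneg (K : ι₁ → ι₂ → ℂ) : 0 ≤ S4 K :=
  Finset.sum_nonneg fun _ _ => Finset.sum_nonneg fun _ _ => by positivity

/-- the expansion of a square sum -/
theorem sq_expand (K : ι₁ → ι₂ → ℂ) (y : ι₁ → ℂ) :
    ((∑ b, ‖∑ a, K a b * y a‖ ^ 2 : ℝ) : ℂ)
      = ∑ z : ι₁ × ι₁, (y z.1 * (starRingEnd ℂ) (y z.2)) *
        ∑ b, K z.1 b * (starRingEnd ℂ) (K z.2 b) := by
  have hb : ∀ b, ((‖∑ a, K a b * y a‖ ^ 2 : ℝ) : ℂ) =
      ∑ a, ∑ a', (y a * (starRingEnd ℂ) (y a')) * (K a b * (starRingEnd ℂ) (K a' b)) := by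
    intro b
    push_cast
    rw [← Complex.mul_conj', map_sum, Finset.sum_mul_sum]
    refine Finset.sum_congr rfl fun a _ => Finset.sum_congr rfl fun a' _ => ?_
    rw [map_mul]
    ring
  rw [Complex.ofReal_sum, Finset.sum_congr rfl fun b _ => hb b, Finset.sum_comm,
    Fintype.sum_prod_type]
  refine Finset.sum_congr rfl fun a _ => ?_
  rw [Finset.sum_comm]
  refine Finset.sum_congr rfl fun a' _ => ?_
  rw [Finset.mul_sum]

/-- **op norm ≤ S₄** in quadratic form -/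
theorem quad_le (K : ι₁ → ι₂ → ℂ) (y : ι₁ → ℂ) :
    ∑ b, ‖∑ a, K a b * y a‖ ^ 2 ≤ Real.sqrt (S4 K) * ∑ a, ‖y a‖ ^ 2 := by
  have h0 : 0 ≤ ∑ b, ‖∑ a, K a b * y a‖ ^ 2 := Finset.sum_nonneg fun _ _ => by positivity
  have h1 := sq_expand K y
  have h2 : ∑ b, ‖∑ a, K a b * y a‖ ^ 2 =
      ‖∑ z : ι₁ × ι₁, (y z.1 * (starRingEnd ℂ) (y z.2)) *
        ∑ b, K z.1 b * (starRingEnd ℂ) (K z.2 b)‖ := by
    rw [← h1, Complex.norm_real, Real.norm_of_nonneg h0]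
  rw [h2]
  refine (cs' _ _ _).trans ?_
  rw [mul_comm]
  refine mul_le_mul (le_of_eq ?_) (le_of_eq ?_) (Real.sqrt_nonneg _) (Real.sqrt_nonneg _)
  · congr 1
    rw [Fintype.sum_prod_type]
    rfl
  · rw [show (∑ z : ι₁ × ι₁, ‖y z.1 * (starRingEnd ℂ) (y z.2)‖ ^ 2)
        = (∑ a, ‖y a‖ ^ 2) ^ 2 from ?_]
    · exact Real.sqrt_sq (Finset.sum_nonneg fun _ _ => by positivity)
    · rw [Fintype.sum_prod_type, sq (∑ a, ‖y a‖ ^ 2), Finset.sum_mul_sum]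
      refine Finset.sum_congr rfl fun a _ => Finset.sum_congr rfl fun a' _ => ?_
      rw [norm_mul, RCLike.norm_conj, mul_pow]

/-- **(Y1)** leaf term, general kernel -/
theorem leaf_S4 (K : ι₀ → ι₃ → ι₁ → ι₂ → ℂ) (Y : ι₀ → ι₁ → ι₃ → ℂ) (y : ℝ)
    (hY : ∀ x₀ x₃, ∑ x₁, ‖Y x₀ x₁ x₃‖ ^ 2 ≤ y) :
    ∑ x₀, ∑ x₃, ∑ x₂, ‖∑ x₁, K x₀ x₃ x₁ x₂ * Y x₀ x₁ x₃‖ ^ 2
      ≤ y * (Real.sqrt (Fintype.card ι₀ * Fintype.card ι₃) *
        Real.sqrt (∑ x₀, ∑ x₃, S4 (K x₀ x₃))) := by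
  have hy : ∀ x₀ x₃, 0 ≤ ∑ x₁, ‖Y x₀ x₁ x₃‖ ^ 2 := fun x₀ x₃ =>
    Finset.sum_nonneg fun _ _ => by positivity
  have h1 : ∑ x₀, ∑ x₃, ∑ x₂, ‖∑ x₁, K x₀ x₃ x₁ x₂ * Y x₀ x₁ x₃‖ ^ 2
      ≤ ∑ x₀, ∑ x₃, y * Real.sqrt (S4 (K x₀ x₃)) := by
    refine Finset.sum_le_sum fun x₀ _ => Finset.sum_le_sum fun x₃ _ => ?_
    refine (quad_le (K x₀ x₃) (fun x₁ => Y x₀ x₁ x₃)).trans ?_
    rw [mul_comm]
    exact mul_le_mul_of_nonneg_right (hY x₀ x₃) (Real.sqrt_nonneg _)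
  refine h1.trans ?_
  by_cases hne : Nonempty ι₀ ∧ Nonempty ι₃
  · obtain ⟨⟨x₀⟩, ⟨x₃⟩⟩ := hne
    have hy0 : 0 ≤ y := (hy x₀ x₃).trans (hY x₀ x₃)
    simp only [← Finset.mul_sum]
    refine mul_le_mul_of_nonneg_left ?_ hy0
    have h2 : (∑ x₀, ∑ x₃, Real.sqrt (S4 (K x₀ x₃))) ^ 2
        ≤ (Fintype.card ι₀ * Fintype.card ι₃ : ℝ) * ∑ x₀, ∑ x₃, S4 (K x₀ x₃) := by
      have h3 := Finset.sum_mul_sq_le_sq_mul_sq (Finset.univ : Finset (ι₀ × ι₃))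
        (fun _ => (1 : ℝ)) (fun z => Real.sqrt (S4 (K z.1 z.2)))
      simp only [one_mul, one_pow, Finset.sum_const, Finset.card_univ, Fintype.card_prod,
        nsmul_eq_mul, mul_one, Nat.cast_mul, Fintype.sum_prod_type,
        Real.sq_sqrt (S4_nonneg _)] at h3
      exact h3
    rw [← Real.sqrt_mul (by positivity)]
    exact Real.le_sqrt_of_sq_le h2
  · have h0 : ∑ x₀ : ι₀, ∑ x₃ : ι₃, y * Real.sqrt (S4 (K x₀ x₃)) = 0 := by
      by_cases h : IsEmpty ι₀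
      · simp
      · rw [not_isEmpty_iff] at h
        have h' : IsEmpty ι₃ := by
          by_contra h''
          rw [not_isEmpty_iff] at h''
          exact hne ⟨h, h''⟩
        simp
    have h0' : ((Fintype.card ι₀ : ℝ) * Fintype.card ι₃) = 0 := by
      by_cases h : IsEmpty ι₀
      · simp
      · rw [not_isEmpty_iff] at h
        have h' : IsEmpty ι₃ := by
          by_contra h''
          rw [not_isEmpty_iff] at h''
          exact hne ⟨h, h''⟩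
        simp
    rw [h0, h0']
    simp








end Crest.Agent.R079.YLeaf
end

-- ▼ part R079/LfB_246

/-! R079, doc 2531 STEP II, LEAF TERM in the LINE model (helper246).

Vertices `x₀,x₁,x₂,x₃` run over intervals of length `n` (`p + v`, `v : Fin n`).  `(x₀,x₃)` = frozen
pair, `x₁` = inner average, `f(x₁,x₂,x₃)`, `g(x₀,x₁,x₂)`, `h(x₀,x₁,x₃)` line letters. -/

set_option autoImplicit false

namespace Crest.Agent.R079.LfB

open Finset Crest.Agent.R079.Grid Crest.Agent.R079.Glue Crest.Agent.R079.R244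
  Crest.Agent.R079.OpLev Crest.Agent.R079.YLeaf

/-- affine fibre of a finitely supported line letter -/
theorem fib_le (n : ℕ) (p c : ℤ) (hc : c ≠ 0) (f : ℤ → ℂ) (S : Finset ℤ)
    (hS : ∀ y, y ∉ S → f y = 0) (α : ℤ) :
    ∑ v : Fin n, ‖f (α + c * (p + ((v : ℕ) : ℤ)))‖ ^ 2 ≤ ∑ y ∈ S, ‖f y‖ ^ 2 := by
  classical
  have hinj : Function.Injective (fun v : Fin n => α + c * (p + ((v : ℕ) : ℤ))) := by
    intro v v' h
    have h' : c * (p + ((v : ℕ) : ℤ)) = c * (p + ((v' : ℕ) : ℤ)) := by simpa using h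
    have h'' := mul_left_cancel₀ hc h'
    have h3 : ((v : ℕ) : ℤ) = ((v' : ℕ) : ℤ) := by linarith
    exact Fin.ext (by exact_mod_cast h3)
  have h1 : ∑ v : Fin n, ‖f (α + c * (p + ((v : ℕ) : ℤ)))‖ ^ 2 =
      ∑ y ∈ (univ : Finset (Fin n)).image (fun v : Fin n => α + c * (p + ((v : ℕ) : ℤ))),
        ‖f y‖ ^ 2 := by
    rw [Finset.sum_image (fun a _ b _ h => hinj h)]
  rw [h1, ← Finset.sum_filter_add_sum_filter_not _ (fun y => y ∈ S)]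
  have h2 : ∑ y ∈ ((univ : Finset (Fin n)).image
      (fun v : Fin n => α + c * (p + ((v : ℕ) : ℤ)))).filter (fun y => ¬ y ∈ S), ‖f y‖ ^ 2 = 0 := by
    refine Finset.sum_eq_zero fun y hy => ?_
    rw [hS y (Finset.mem_filter.1 hy).2, norm_zero]; norm_num
  rw [h2, add_zero]
  refine Finset.sum_le_sum_of_subset_of_nonneg ?_ (fun _ _ _ => by positivity)
  intro y hy
  exact (Finset.mem_filter.1 hy).2


/-- `S₄` of a leveled line letter in a bounded gauge, averaged over the third vertex -/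
theorem olev_S4sum {κ : ℕ} {k : Fin 4} {p : ℕ × ℤ} {f : ℤ → ℂ} {s : ℝ} (hO : OLev κ k p f s)
    (hs : 0 ≤ s) {j e e' : Fin 4} (h1 : j ≠ k) (h2 : j ≠ e) (h3 : j ≠ e') (h4 : k ≠ e)
    (h5 : k ≠ e') (h6 : e ≠ e') {r : ℕ} (hr : r ≤ κ) {n : ℕ} (hn : n = 2 ^ (p.1 + r))
    (w q u : ℤ) (m : ℤ → ℤ → ℂ) (H : ℝ) (hH : 0 < H) (hm : ∀ z z', ‖m z z'‖ ≤ H) (A : ℝ)
    (hA : ∑ y ∈ dI (p.1 + 7) p.2, ‖f y‖ ^ 2 ≤ A) :
    ∑ c : Fin n, S4 (fun (i' i : Fin n) =>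
      res p f ((sl j - sl k) * (w + ((c : ℕ) : ℤ)) + (sl e - sl k) * (q + ((i : ℕ) : ℤ)) +
        (sl e' - sl k) * (u + ((i' : ℕ) : ℤ))) *
      m (q + ((i : ℕ) : ℤ)) (u + ((i' : ℕ) : ℤ))) ≤ (n : ℝ) ^ 4 * A * H ^ 4 * s ^ 2 := by
  have hnpos : 0 < n := by rw [hn]; positivity
  have hn' : (0 : ℝ) < n := by exact_mod_cast hnpos
  have hA0 : 0 ≤ A := le_trans (Finset.sum_nonneg fun _ _ => by positivity) hA
  set M : Fin n → Fin n → Fin n → ℂ := fun c i i' =>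
    res p f ((sl j - sl k) * (w + ((c : ℕ) : ℤ)) + (sl e - sl k) * (q + ((i : ℕ) : ℤ)) +
        (sl e' - sl k) * (u + ((i' : ℕ) : ℤ))) *
      m (q + ((i : ℕ) : ℤ)) (u + ((i' : ℕ) : ℤ)) with hM
  have key := lev_s4 n M (H * s) (H ^ 2 * A / n) (mul_nonneg hH.le hs) (by positivity) ?_ ?_
  · have e : ∑ c : Fin n, S4 (fun (i' i : Fin n) => M c i i') =
        ∑ c, ∑ j, ∑ j', ‖∑ i, M c i j * (starRingEnd ℂ) (M c i j')‖ ^ 2 := rfl
    show ∑ c : Fin n, S4 (fun (i' i : Fin n) => M c i i') ≤ _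
    rw [e]
    refine key.trans (le_of_eq ?_)
    field_simp
  · intro U V α hα hU hV hα2
    have h := hO j e e' h1 h2 h3 h4 h5 h6 r hr n hn w q u
      (fun z z' => ((H⁻¹ : ℝ) : ℂ) * m z z') (fun z z' => by
        rw [norm_mul, Complex.norm_real, Real.norm_eq_abs, abs_of_pos (inv_pos.2 hH)]
        rw [inv_mul_le_iff₀ hH, mul_one]
        exact hm z z') U V α hα hU hV hα2
    have e : ∑ c, ∑ i, ∑ i', M c i i' * U c i * V c i' = ((H : ℝ) : ℂ) *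
        ∑ c : Fin n, ∑ i : Fin n, ∑ i' : Fin n,
        (((H⁻¹ : ℝ) : ℂ) * m (q + ((i : ℕ) : ℤ)) (u + ((i' : ℕ) : ℤ))) *
          res p f ((sl j - sl k) * (w + ((c : ℕ) : ℤ)) + (sl e - sl k) * (q + ((i : ℕ) : ℤ)) +
            (sl e' - sl k) * (u + ((i' : ℕ) : ℤ))) * U c i * V c i' := by
      have hHc : ((H : ℝ) : ℂ) * ((H⁻¹ : ℝ) : ℂ) = 1 := by
        rw [← Complex.ofReal_mul, mul_inv_cancel₀ hH.ne', Complex.ofReal_one]
      simp only [Finset.mul_sum]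
      refine Finset.sum_congr rfl fun c _ => Finset.sum_congr rfl fun i _ =>
        Finset.sum_congr rfl fun i' _ => ?_
      simp only [hM]
      linear_combination (-(m (q + ((i : ℕ) : ℤ)) (u + ((i' : ℕ) : ℤ)) *
        res p f ((sl j - sl k) * (w + ((c : ℕ) : ℤ)) + (sl e - sl k) * (q + ((i : ℕ) : ℤ)) +
            (sl e' - sl k) * (u + ((i' : ℕ) : ℤ))) * U c i * V c i')) * hHc
    rw [e, norm_mul, Complex.norm_real, Real.norm_eq_abs, abs_of_pos hH, mul_assoc]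
    exact mul_le_mul_of_nonneg_left h hH.le
  · intro c
    have hrow : ∀ i' : Fin n, ∑ i : Fin n, ‖M c i i'‖ ^ 2 ≤ H ^ 2 * A := by
      intro i'
      have hfib := fib_le n q (sl e - sl k) (sl_ne h4.symm) (res p f) (dI (p.1 + 7) p.2)
        (fun y hy => by unfold res; rw [if_neg hy])
        ((sl j - sl k) * (w + ((c : ℕ) : ℤ)) + (sl e' - sl k) * (u + ((i' : ℕ) : ℤ)))
      calc ∑ i : Fin n, ‖M c i i'‖ ^ 2
          ≤ ∑ i : Fin n, H ^ 2 * ‖res p f (((sl j - sl k) * (w + ((c : ℕ) : ℤ)) +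
              (sl e' - sl k) * (u + ((i' : ℕ) : ℤ))) + (sl e - sl k) * (q + ((i : ℕ) : ℤ)))‖ ^ 2 := by
            refine Finset.sum_le_sum fun i _ => ?_
            simp only [hM]
            rw [norm_mul, mul_pow, mul_comm (H ^ 2)]
            have e1 : (sl j - sl k) * (w + ((c : ℕ) : ℤ)) + (sl e - sl k) * (q + ((i : ℕ) : ℤ)) +
                (sl e' - sl k) * (u + ((i' : ℕ) : ℤ)) = ((sl j - sl k) * (w + ((c : ℕ) : ℤ)) +
              (sl e' - sl k) * (u + ((i' : ℕ) : ℤ))) + (sl e - sl k) * (q + ((i : ℕ) : ℤ)) := by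
              ring
            rw [e1]
            exact mul_le_mul_of_nonneg_left (pow_le_pow_left₀ (norm_nonneg _) (hm _ _) 2)
              (by positivity)
        _ = H ^ 2 * ∑ i : Fin n, ‖res p f (((sl j - sl k) * (w + ((c : ℕ) : ℤ)) +
              (sl e' - sl k) * (u + ((i' : ℕ) : ℤ))) + (sl e - sl k) * (q + ((i : ℕ) : ℤ)))‖ ^ 2 := by
            rw [Finset.mul_sum]
        _ ≤ H ^ 2 * ∑ y ∈ dI (p.1 + 7) p.2, ‖res p f y‖ ^ 2 :=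
            mul_le_mul_of_nonneg_left hfib (by positivity)
        _ = H ^ 2 * ∑ y ∈ dI (p.1 + 7) p.2, ‖f y‖ ^ 2 := by
            congr 1
            refine Finset.sum_congr rfl fun y hy => ?_
            unfold res; rw [if_pos hy]
        _ ≤ H ^ 2 * A := mul_le_mul_of_nonneg_left hA (by positivity)
    calc ∑ i' : Fin n, ∑ i : Fin n, ‖M c i i'‖ ^ 2 ≤ ∑ _i' : Fin n, H ^ 2 * A :=
          Finset.sum_le_sum fun i' _ => hrow i'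
      _ = (n : ℝ) ^ 2 * (H ^ 2 * A / n) := by
          simp only [Finset.sum_const, Finset.card_univ, Fintype.card_fin, nsmul_eq_mul]
          field_simp

/-- **(LB1)** leaf term, `f` leveled (op-level, slot `k`), `g` bounded by `H`, `h` arbitrary with
fibre-uniform `L²` bound `y` -/
theorem leaf_olev {κ : ℕ} {k : Fin 4} {p : ℕ × ℤ} {f : ℤ → ℂ} {s : ℝ} (hO : OLev κ k p f s)
    (hs : 0 ≤ s) {j e e' : Fin 4} (h1 : j ≠ k) (h2 : j ≠ e) (h3 : j ≠ e') (h4 : k ≠ e)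
    (h5 : k ≠ e') (h6 : e ≠ e') {r : ℕ} (hr : r ≤ κ) {n : ℕ} (hn : n = 2 ^ (p.1 + r))
    (w q u : ℤ) (G : Fin n → ℤ → ℤ → ℂ) (Y : Fin n → Fin n → Fin n → ℂ)
    (H : ℝ) (hH : 0 < H) (hG : ∀ x0 z z', ‖G x0 z z'‖ ≤ H) (A : ℝ)
    (hA : ∑ y ∈ dI (p.1 + 7) p.2, ‖f y‖ ^ 2 ≤ A) (y : ℝ)
    (hY : ∀ x0 x3, ∑ x1, ‖Y x0 x1 x3‖ ^ 2 ≤ y) :
    ∑ x0 : Fin n, ∑ x3 : Fin n, ∑ x2 : Fin n, ‖∑ x1 : Fin n,
        (res p f ((sl j - sl k) * (w + ((x3 : ℕ) : ℤ)) + (sl e - sl k) * (q + ((x2 : ℕ) : ℤ)) +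
          (sl e' - sl k) * (u + ((x1 : ℕ) : ℤ))) *
        G x0 (q + ((x2 : ℕ) : ℤ)) (u + ((x1 : ℕ) : ℤ))) * Y x0 x1 x3‖ ^ 2
      ≤ y * ((n : ℝ) ^ 3 * H ^ 2 * s * Real.sqrt (n * A)) := by
  have hnpos : 0 < n := by rw [hn]; positivity
  have hn' : (0 : ℝ) < n := by exact_mod_cast hnpos
  have hA0 : 0 ≤ A := le_trans (Finset.sum_nonneg fun _ _ => by positivity) hA
  have hy0 : 0 ≤ y := le_trans (Finset.sum_nonneg fun _ _ => by positivity)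
    (hY ⟨0, hnpos⟩ ⟨0, hnpos⟩)
  have hL := leaf_S4 (fun (x0 x3 x1 x2 : Fin n) =>
    res p f ((sl j - sl k) * (w + ((x3 : ℕ) : ℤ)) + (sl e - sl k) * (q + ((x2 : ℕ) : ℤ)) +
          (sl e' - sl k) * (u + ((x1 : ℕ) : ℤ))) *
        G x0 (q + ((x2 : ℕ) : ℤ)) (u + ((x1 : ℕ) : ℤ))) Y y hY
  refine hL.trans (mul_le_mul_of_nonneg_left ?_ hy0)
  have hS : ∑ x0 : Fin n, ∑ x3 : Fin n, S4 (fun (x1 x2 : Fin n) =>
      res p f ((sl j - sl k) * (w + ((x3 : ℕ) : ℤ)) + (sl e - sl k) * (q + ((x2 : ℕ) : ℤ)) +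
          (sl e' - sl k) * (u + ((x1 : ℕ) : ℤ))) *
        G x0 (q + ((x2 : ℕ) : ℤ)) (u + ((x1 : ℕ) : ℤ))) ≤ (n : ℝ) ^ 5 * A * H ^ 4 * s ^ 2 := by
    calc _ ≤ ∑ _x0 : Fin n, (n : ℝ) ^ 4 * A * H ^ 4 * s ^ 2 :=
          Finset.sum_le_sum fun x0 _ =>
            olev_S4sum hO hs h1 h2 h3 h4 h5 h6 hr hn w q u (G x0) H hH (hG x0) A hA
      _ = _ := by
          simp only [Finset.sum_const, Finset.card_univ, Fintype.card_fin, nsmul_eq_mul]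
          ring
  have e1 : Real.sqrt ((Fintype.card (Fin n) : ℝ) * Fintype.card (Fin n)) = n := by
    rw [Fintype.card_fin, Real.sqrt_mul_self hn'.le]
  rw [e1]
  have e2 : Real.sqrt ((n : ℝ) ^ 5 * A * H ^ 4 * s ^ 2) = n ^ 2 * H ^ 2 * s * Real.sqrt (n * A) := by
    rw [show (n : ℝ) ^ 5 * A * H ^ 4 * s ^ 2 = ((n : ℝ) ^ 2 * H ^ 2 * s) ^ 2 * (n * A) by ring,
      Real.sqrt_mul (sq_nonneg _), Real.sqrt_sq (by positivity)]
  calc (n : ℝ) * Real.sqrt _ ≤ (n : ℝ) * Real.sqrt ((n : ℝ) ^ 5 * A * H ^ 4 * s ^ 2) :=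
        mul_le_mul_of_nonneg_left (Real.sqrt_le_sqrt hS) hn'.le
    _ = (n : ℝ) ^ 3 * H ^ 2 * s * Real.sqrt (n * A) := by rw [e2]; ring


end Crest.Agent.R079.LfB
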