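import Crest.Agent.R079.Tr_230
import Crest.Agent.R079.QDefs_248

/-! R079: MERGE LEMMA (617's remark): a finite sum of line atoms of one slot is ONE atom (translate along
the plane `cf . z = 0` until the coordinate supports are disjoint); the unit `A3` atoms form a convex set.
helper530. -/

set_option autoImplicit false
set_option linter.unusedVariables false

namespace Crest.Agent.R079.Mg530

open Finset Crest.Agent.R079.Grid Crest.Agent.R079.Glue Crest.Agent.R079.Growth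
  Crest.Agent.R079.QRed

/-- shift of a finite set -/
def sT (T : Finset ℤ) (s : ℤ) : Finset ℤ := T.map (addRightEmbedding s)

theorem sum_sT {M : Type*} [AddCommMonoid M] (T : Finset ℤ) (s : ℤ) (f : ℤ → M) :
    ∑ x ∈ sT T s, f x = ∑ x ∈ T, f (x + s) := by
  unfold sT
  rw [Finset.sum_map]
  rfl

/-- translation invariance along the plane -/
theorem atom_shift (j : Fin 4) (κ : ℝ) (T : Fin 3 → Finset ℤ) (a b c : ℤ → ℤ → ℂ) (s : Fin 3 → ℤ)
    (hs : cf j 0 * s 0 + cf j 1 * s 1 + cf j 2 * s 2 = 0) (y : ℤ) :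
    atom j κ (fun i => sT (T i) (s i)) (fun x x' => a (x - s 0) (x' - s 1))
      (fun x x' => b (x - s 1) (x' - s 2)) (fun x x' => c (x - s 2) (x' - s 0)) y =
      atom j κ T a b c y := by
  unfold atom
  congr 1
  rw [sum_sT]
  refine Finset.sum_congr rfl fun z0 _ => ?_
  rw [sum_sT]
  refine Finset.sum_congr rfl fun z1 _ => ?_
  rw [sum_sT]
  refine Finset.sum_congr rfl fun z2 _ => ?_
  have e : cf j 0 * (z0 + s 0) + cf j 1 * (z1 + s 1) + cf j 2 * (z2 + s 2) =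
      cf j 0 * z0 + cf j 1 * z1 + cf j 2 * z2 := by linarith
  rw [e]
  simp only [add_sub_cancel_right]

/-- glued edge -/
noncomputable def gl (T T' S S' : Finset ℤ) (a a' : ℤ → ℤ → ℂ) (x x' : ℤ) : ℂ :=
  if x ∈ T ∧ x' ∈ T' then a x x' else if x ∈ S ∧ x' ∈ S' then a' x x' else 0

theorem gl_1 {T T' S S' : Finset ℤ} {a a' : ℤ → ℤ → ℂ} {x x' : ℤ} (h : x ∈ T) (h' : x' ∈ T') :
    gl T T' S S' a a' x x' = a x x' := by
  unfold gl; rw [if_pos ⟨h, h'⟩]

theorem gl_2 {T T' S S' : Finset ℤ} {a a' : ℤ → ℤ → ℂ} {x x' : ℤ} (hd : Disjoint T S)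
    (h : x ∈ S) (h' : x' ∈ S') : gl T T' S S' a a' x x' = a' x x' := by
  unfold gl
  rw [if_neg (fun hc => Finset.disjoint_left.1 hd hc.1 h), if_pos ⟨h, h'⟩]

theorem gl_3 {T T' S S' : Finset ℤ} {a a' : ℤ → ℤ → ℂ} {x x' : ℤ} (hd : Disjoint T S)
    (hd' : Disjoint T' S') (h : x ∈ T) (h' : x' ∈ S') : gl T T' S S' a a' x x' = 0 := by
  unfold gl
  rw [if_neg (fun hc => Finset.disjoint_left.1 hd' hc.2 h'),
    if_neg (fun hc => Finset.disjoint_left.1 hd h hc.1)]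

theorem gl_4 {T T' S S' : Finset ℤ} {a a' : ℤ → ℤ → ℂ} {x x' : ℤ} (hd : Disjoint T S)
    (hd' : Disjoint T' S') (h : x ∈ S) (h' : x' ∈ T') : gl T T' S S' a a' x x' = 0 := by
  unfold gl
  rw [if_neg (fun hc => Finset.disjoint_left.1 hd hc.1 h),
    if_neg (fun hc => Finset.disjoint_left.1 hd' h' hc.2)]

/-- sums of a function of the glued edge -/
theorem sum_gl {T T' S S' : Finset ℤ} (hd : Disjoint T S) (hd' : Disjoint T' S')
    (a a' : ℤ → ℤ → ℂ) (φ : ℂ → ℝ) (hφ : φ 0 = 0) :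
    ∑ x ∈ T ∪ S, ∑ x' ∈ T' ∪ S', φ (gl T T' S S' a a' x x') =
      ∑ x ∈ T, ∑ x' ∈ T', φ (a x x') + ∑ x ∈ S, ∑ x' ∈ S', φ (a' x x') := by
  rw [Finset.sum_union hd]
  congr 1
  · refine Finset.sum_congr rfl fun x hx => ?_
    rw [Finset.sum_union hd', Finset.sum_congr rfl (fun x' hx' => by rw [gl_1 hx hx']),
      add_eq_left]
    refine Finset.sum_eq_zero fun x' hx' => ?_
    rw [gl_3 hd hd' hx hx', hφ]
  · refine Finset.sum_congr rfl fun x hx => ?_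
    rw [Finset.sum_union hd', add_comm, Finset.sum_congr rfl (fun x' hx' => by rw [gl_2 hd hx hx']),
      add_eq_left]
    refine Finset.sum_eq_zero fun x' hx' => ?_
    rw [gl_4 hd hd' hx hx', hφ]

/-- **two atoms with disjoint coordinate supports** -/
theorem atom_gl (j : Fin 4) (T S : Fin 3 → Finset ℤ) (hd : ∀ i, Disjoint (T i) (S i))
    (a b c a' b' c' : ℤ → ℤ → ℂ) (y : ℤ) :
    atom j 1 (fun i => T i ∪ S i) (gl (T 0) (T 1) (S 0) (S 1) a a') (gl (T 1) (T 2) (S 1) (S 2) b b')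
      (gl (T 2) (T 0) (S 2) (S 0) c c') y = atom j 1 T a b c y + atom j 1 S a' b' c' y := by
  unfold atom
  rw [← mul_add]
  congr 1
  rw [Finset.sum_union (hd 0)]
  congr 1
  · refine Finset.sum_congr rfl fun z0 h0 => ?_
    rw [Finset.sum_union (hd 1)]
    have e1 : ∑ z1 ∈ S 1, ∑ z2 ∈ T 2 ∪ S 2,
        (if cf j 0 * z0 + cf j 1 * z1 + cf j 2 * z2 = y then
          gl (T 0) (T 1) (S 0) (S 1) a a' z0 z1 * gl (T 1) (T 2) (S 1) (S 2) b b' z1 z2 *
            gl (T 2) (T 0) (S 2) (S 0) c c' z2 z0 else 0) = 0 := by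
      refine Finset.sum_eq_zero fun z1 h1 => Finset.sum_eq_zero fun z2 _ => ?_
      rw [gl_3 (hd 0) (hd 1) h0 h1, zero_mul, zero_mul, ite_self]
    rw [e1, add_zero]
    refine Finset.sum_congr rfl fun z1 h1 => ?_
    rw [Finset.sum_union (hd 2)]
    have e2 : ∑ z2 ∈ S 2,
        (if cf j 0 * z0 + cf j 1 * z1 + cf j 2 * z2 = y then
          gl (T 0) (T 1) (S 0) (S 1) a a' z0 z1 * gl (T 1) (T 2) (S 1) (S 2) b b' z1 z2 *
            gl (T 2) (T 0) (S 2) (S 0) c c' z2 z0 else 0) = 0 := by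
      refine Finset.sum_eq_zero fun z2 h2 => ?_
      rw [gl_3 (hd 1) (hd 2) h1 h2, mul_zero, zero_mul, ite_self]
    rw [e2, add_zero]
    refine Finset.sum_congr rfl fun z2 h2 => ?_
    rw [gl_1 h0 h1, gl_1 h1 h2, gl_1 h2 h0]
  · refine Finset.sum_congr rfl fun z0 h0 => ?_
    rw [Finset.sum_union (hd 1)]
    have e1 : ∑ z1 ∈ T 1, ∑ z2 ∈ T 2 ∪ S 2,
        (if cf j 0 * z0 + cf j 1 * z1 + cf j 2 * z2 = y then
          gl (T 0) (T 1) (S 0) (S 1) a a' z0 z1 * gl (T 1) (T 2) (S 1) (S 2) b b' z1 z2 *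
            gl (T 2) (T 0) (S 2) (S 0) c c' z2 z0 else 0) = 0 := by
      refine Finset.sum_eq_zero fun z1 h1 => Finset.sum_eq_zero fun z2 _ => ?_
      rw [gl_4 (hd 0) (hd 1) h0 h1, zero_mul, zero_mul, ite_self]
    rw [e1, zero_add]
    refine Finset.sum_congr rfl fun z1 h1 => ?_
    rw [Finset.sum_union (hd 2)]
    have e2 : ∑ z2 ∈ T 2,
        (if cf j 0 * z0 + cf j 1 * z1 + cf j 2 * z2 = y then
          gl (T 0) (T 1) (S 0) (S 1) a a' z0 z1 * gl (T 1) (T 2) (S 1) (S 2) b b' z1 z2 *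
            gl (T 2) (T 0) (S 2) (S 0) c c' z2 z0 else 0) = 0 := by
      refine Finset.sum_eq_zero fun z2 h2 => ?_
      rw [gl_4 (hd 1) (hd 2) h1 h2, mul_zero, zero_mul, ite_self]
    rw [e2, zero_add]
    refine Finset.sum_congr rfl fun z2 h2 => ?_
    rw [gl_2 (hd 0) h0 h1, gl_2 (hd 1) h1 h2, gl_2 (hd 2) h2 h0]

/-- a plane vector with all coordinates as large as we like -/
theorem exists_shift (j : Fin 4) (T S : Fin 3 → Finset ℤ) :
    ∃ s : Fin 3 → ℤ, cf j 0 * s 0 + cf j 1 * s 1 + cf j 2 * s 2 = 0 ∧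
      ∀ i, Disjoint (T i) (sT (S i) (s i)) := by
  -- a bound for all points
  obtain ⟨D, hD⟩ : ∃ D : ℕ, ∀ i, ∀ x ∈ T i ∪ S i, x.natAbs ≤ D := by
    refine ⟨∑ i, ∑ x ∈ T i ∪ S i, x.natAbs, fun i x hx => ?_⟩
    refine le_trans (Finset.single_le_sum (f := fun x => x.natAbs) (fun _ _ => Nat.zero_le _) hx) ?_
    exact Finset.single_le_sum (f := fun i => ∑ x ∈ T i ∪ S i, x.natAbs)
      (fun _ _ => Nat.zero_le _) (Finset.mem_univ i)
  set E : ℤ := 2 * (D : ℤ) + 1 with hE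
  refine ⟨![cf j 1 * cf j 2 * E, cf j 0 * cf j 2 * E, -2 * (cf j 0 * cf j 1) * E], ?_, ?_⟩
  · simp only [Matrix.cons_val_zero, Matrix.cons_val_one, Matrix.cons_val]
    ring
  · have key : ∀ (i : Fin 3) (q : ℤ), q ≠ 0 → ∀ x ∈ T i, x ∉ sT (S i) (q * E) := by
      intro i q hq x hx hx'
      unfold sT at hx'
      rw [Finset.mem_map] at hx'
      obtain ⟨z, hz, hzx⟩ := hx'
      have hzx' : z + q * E = x := hzx
      have h1 := hD i x (Finset.mem_union_left _ hx)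
      have h2 := hD i z (Finset.mem_union_right _ hz)
      have h3 : |q * E| ≤ 2 * (D : ℤ) := by
        have e : q * E = x - z := by linarith
        rw [e, abs_le]
        constructor <;> omega
      have h4 : (1 : ℤ) ≤ |q| := Int.one_le_abs hq
      have h5 : |q * E| = |q| * E := by
        rw [abs_mul, abs_of_nonneg (by positivity : (0 : ℤ) ≤ E)]
      have h6 : (0 : ℤ) ≤ E := by positivity
      nlinarith
    have hc0 := Tr230.cf_ne j 0
    have hc1 := Tr230.cf_ne j 1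
    have hc2 := Tr230.cf_ne j 2
    intro i
    rw [Finset.disjoint_left]
    fin_cases i
    · exact key 0 _ (mul_ne_zero hc1 hc2)
    · exact key 1 _ (mul_ne_zero hc0 hc2)
    · exact key 2 _ (mul_ne_zero (by norm_num) (mul_ne_zero hc0 hc1))

/-- **MERGE, two atoms** -/
theorem merge2 (j : Fin 4) (T S : Fin 3 → Finset ℤ) (a b c a' b' c' : ℤ → ℤ → ℂ) :
    ∃ (U : Fin 3 → Finset ℤ) (A B C : ℤ → ℤ → ℂ),
      (∀ y, atom j 1 U A B C y = atom j 1 T a b c y + atom j 1 S a' b' c' y) ∧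
      (∀ φ : ℂ → ℝ, φ 0 = 0 →
        ∑ x ∈ U 0, ∑ x' ∈ U 1, φ (A x x') =
          ∑ x ∈ T 0, ∑ x' ∈ T 1, φ (a x x') + ∑ x ∈ S 0, ∑ x' ∈ S 1, φ (a' x x') ∧
        ∑ x ∈ U 1, ∑ x' ∈ U 2, φ (B x x') =
          ∑ x ∈ T 1, ∑ x' ∈ T 2, φ (b x x') + ∑ x ∈ S 1, ∑ x' ∈ S 2, φ (b' x x') ∧
        ∑ x ∈ U 2, ∑ x' ∈ U 0, φ (C x x') =
          ∑ x ∈ T 2, ∑ x' ∈ T 0, φ (c x x') + ∑ x ∈ S 2, ∑ x' ∈ S 0, φ (c' x x')) := by
  obtain ⟨s, hs, hd⟩ := exists_shift j T S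
  refine ⟨fun i => T i ∪ sT (S i) (s i),
    gl (T 0) (T 1) (sT (S 0) (s 0)) (sT (S 1) (s 1)) a (fun x x' => a' (x - s 0) (x' - s 1)),
    gl (T 1) (T 2) (sT (S 1) (s 1)) (sT (S 2) (s 2)) b (fun x x' => b' (x - s 1) (x' - s 2)),
    gl (T 2) (T 0) (sT (S 2) (s 2)) (sT (S 0) (s 0)) c (fun x x' => c' (x - s 2) (x' - s 0)),
    fun y => ?_, fun φ hφ => ⟨?_, ?_, ?_⟩⟩
  · rw [atom_gl j T (fun i => sT (S i) (s i)) hd a b c (fun x x' => a' (x - s 0) (x' - s 1))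
      (fun x x' => b' (x - s 1) (x' - s 2)) (fun x x' => c' (x - s 2) (x' - s 0)) y,
      atom_shift j 1 S a' b' c' s hs y]
  · rw [sum_gl (hd 0) (hd 1) _ _ φ hφ]
    congr 1
    rw [sum_sT]
    refine Finset.sum_congr rfl fun x _ => ?_
    rw [sum_sT]
    simp only [add_sub_cancel_right]
  · rw [sum_gl (hd 1) (hd 2) _ _ φ hφ]
    congr 1
    rw [sum_sT]
    refine Finset.sum_congr rfl fun x _ => ?_
    rw [sum_sT]
    simp only [add_sub_cancel_right]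
  · rw [sum_gl (hd 2) (hd 0) _ _ φ hφ]
    congr 1
    rw [sum_sT]
    refine Finset.sum_congr rfl fun x _ => ?_
    rw [sum_sT]
    simp only [add_sub_cancel_right]






theorem n3_nonneg (T T' : Finset ℤ) (a : ℤ → ℤ → ℂ) : 0 ≤ n3 T T' a :=
  Finset.sum_nonneg fun _ _ => Finset.sum_nonneg fun _ _ => by positivity

theorem atom_smul (j : Fin 4) (κ : ℝ) (T : Fin 3 → Finset ℤ) (a b c : ℤ → ℤ → ℂ) (u v w : ℂ) (y : ℤ) :
    atom j κ T (fun x x' => u * a x x') (fun x x' => v * b x x') (fun x x' => w * c x x') y =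
      (u * v * w) * atom j κ T a b c y := by
  unfold atom
  rw [mul_left_comm]
  congr 1
  rw [Finset.mul_sum]
  refine Finset.sum_congr rfl fun z0 _ => ?_
  rw [Finset.mul_sum]
  refine Finset.sum_congr rfl fun z1 _ => ?_
  rw [Finset.mul_sum]
  refine Finset.sum_congr rfl fun z2 _ => ?_
  split_ifs
  · ring
  · rw [mul_zero]

theorem atom_kap (j : Fin 4) (κ : ℝ) (T : Fin 3 → Finset ℤ) (a b c : ℤ → ℤ → ℂ) (y : ℤ) :
    atom j κ T a b c y = (κ : ℂ) * atom j 1 T a b c y := by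
  unfold atom
  push_cast
  ring



end Crest.Agent.R079.Mg530
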