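import Crest.Agent.R079.Cg_408
import Crest.Agent.R079.Wb_71
import Crest.Agent.R079.TWin2_903
import Crest.Agent.R079.WinA_222
import Crest.Agent.R079.LeafV_71

-- ▼ part R079/Wr_408
section

/-! R079 Step II, glue (g1) of helper654 (helper408): ONE STATIC WINDOW.  Composition `Cg_408` + metric
`M + τ` (St2M_834) + exit values `al_line`, `be_line` (LeafV_71) + counting `card_pos` (Ero_526). -/

set_option autoImplicit false
set_option linter.unusedSectionVars false

namespace Crest.Agent.R079.Wr408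

open Matrix Finset Crest.Agent.R079.Grid Crest.Agent.R079.Growth Crest.Agent.R079.QRed
open Crest.Agent.R079.Qh249 (mem_iv)
open Crest.Agent.R079.F2 Crest.Agent.R079.MBes71 Crest.Agent.R079.Ero526 Crest.Agent.R079.Cmp408
open Crest.Agent.R079.Cg408 Crest.Agent.R079.St2 Crest.Agent.R079.LeafV71
open scoped ComplexOrder MatrixOrder

variable {ι : Type*} [Fintype ι] [DecidableEq ι]

/-- masked letter -/
noncomputable def ml (A : ℕ → ℤ → Prop) (f : ℤ → ℂ) (k : ℕ) (z : ℤ) : ℂ := by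
  classical exact if A k z then f z else 0

lemma ml_pos {A : ℕ → ℤ → Prop} {f : ℤ → ℂ} {k : ℕ} {z : ℤ} (h : A k z) : ml A f k z = f z := by
  unfold ml; rw [if_pos h]

lemma ml_neg {A : ℕ → ℤ → Prop} {f : ℤ → ℂ} {k : ℕ} {z : ℤ} (h : ¬ A k z) : ml A f k z = 0 := by
  unfold ml; rw [if_neg h]

/-- vector as an element of the Euclidean space -/
noncomputable def toE (x : ι → ℂ) : EuclideanSpace ℂ ι := WithLp.toLp 2 x

lemma norm_toE (x : ι → ℂ) : ‖toE x‖ ^ 2 = n2 x := by
  unfold toE n2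
  rw [EuclideanSpace.norm_sq_eq]

lemma inner_toE (x y : ι → ℂ) : inner ℂ (toE x) (toE y) = star x ⬝ᵥ y := by
  unfold toE dotProduct
  rw [PiLp.inner_apply]
  refine Finset.sum_congr rfl fun l _ => ?_
  simp [mul_comm]

lemma Em_toE (A : ℕ → ℤ → Prop) (f : ℤ → ℂ) (Z : Matrix ι ι ℂ) (w : ℤ → ι → ℂ) (k : ℕ) (q : ℤ) :
    Em k (msk A (fun z => toE (Z *ᵥ (f z • w z))) k) q = toE (Z *ᵥ bav k q (ml A f k) w) := by
  set L : (ι → ℂ) →ₗ[ℂ] EuclideanSpace ℂ ι :=
    (WithLp.linearEquiv 2 ℂ (ι → ℂ)).symm.toLinearMap ∘ₗ Z.mulVecLin with hL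
  have hLe : ∀ x, toE (Z *ᵥ x) = L x := fun x => rfl
  have hb : bav k q (ml A f k) w =
      (1 / (2 : ℂ) ^ k) • ∑ u ∈ range (2 ^ k), ml A f k (q + (u : ℤ)) • w (q + (u : ℤ)) := by
    funext l
    unfold bav wv
    simp only [Pi.smul_apply, Finset.sum_apply, smul_eq_mul, Finset.mul_sum]
    refine Finset.sum_congr rfl fun u _ => ?_
    push_cast
    ring
  rw [hLe, hb, map_smul, map_sum]
  unfold Em
  congr 1
  refine Finset.sum_congr rfl fun u _ => ?_
  by_cases hA : A k (q + (u : ℤ))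
  · rw [msk_pos _ hA, ml_pos hA]
    exact hLe _
  · rw [msk_neg _ hA, ml_neg hA, zero_smul, map_zero]

/-- **metric form of the composition** -/
theorem metric_le (i m a b : Fin 4) (h : Dst i m a b) (Κ : ℤ → ℤ → ℂ) {bb : ℤ}
    (hbb : bb = -1 ∨ bb = -7) {W : Finset Nd} {I : Nd} (hW : Full W I) (C : ℕ) (X : Finset Nd)
    (hX : X ⊆ W) (hXb : ∀ p ∈ X, ¬ Bad W C p) (G : ℕ → Matrix ι ι ℂ) (hG : ∀ r, (G r).PosDef)
    (w v : ℕ → ℤ → ι → ℂ) (fb fa : ℕ → ℤ → ℂ)
    (hK : ∀ r : ℕ, r < (dd a b).natAbs → ∀ z z' : ℤ,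
      (sl i - sl a) * r + dd a b * z' ∈ iv I → (sl i - sl b) * r + -dd a b * z ∈ iv I →
      (sl a - sl i) * z + (sl b - sl i) * z' ∈ iv I →
      (sl i - sl m) * r + (sl a - sl m) * z + (sl b - sl m) * z' ∈ iv I →
      red i a b Κ r z z' = star (fb r z) * fa r z' * (star (w r z) ⬝ᵥ v r z')) :
    ∑ p ∈ X, ∑ x ∈ adm p.1 p.2, ‖LboxG (2 ^ p.1) bb Κ x‖ ≤
      ∑ r ∈ range (dd a b).natAbs,
        √(∑ k ∈ range (I.1 + 1), ∑ q ∈ pos W C ((sl i - sl b) * r) (-dd a b) k,
            qf (G r) (bav k q (ml (AA W C ((sl i - sl b) * r) (-dd a b)) (fb r) k) (w r))) *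
        √(∑ k ∈ range (I.1 + 1), ∑ q ∈ pos W C ((sl i - sl a) * r) (dd a b) k,
            qf (G r)⁻¹ (bav k q (ml (AA W C ((sl i - sl a) * r) (dd a b)) (fa r) k) (v r))) := by
  choose Z Y hZY hZ hY using fun r => Wa71.fac (hG r)
  have hmain := windowG_le i m a b h Κ hbb hW C X hX hXb
    (fun r z => toE (Z r *ᵥ (fb r z • w r z))) (fun r z => toE (Y r *ᵥ (fa r z • v r z))) (by
      intro r hr z z' h1 h2 h3 h4
      rw [hK r hr z z' h1 h2 h3 h4, inner_toE, hZY, star_smul, smul_dotProduct, dotProduct_smul]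
      simp only [smul_eq_mul]
      ring)
  refine hmain.trans (le_of_eq (Finset.sum_congr rfl fun r _ => ?_))
  unfold EX
  congr 1
  · congr 1
    refine Finset.sum_congr rfl fun k _ => Finset.sum_congr rfl fun q _ => ?_
    rw [Em_toE, norm_toE, hZ]
  · congr 1
    refine Finset.sum_congr rfl fun k _ => Finset.sum_congr rfl fun q _ => ?_
    rw [Em_toE, norm_toE, hY]

lemma ml_mk (W : Finset Nd) (C : ℕ) (c d : ℤ) (f : ℤ → ℂ) (k : ℕ) :
    ml (AA W C c d) f k = Wb71.mk W C c d f k := by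
  classical
  funext z
  unfold Wb71.mk
  by_cases hz : AA W C c d k z
  · rw [ml_pos hz, if_pos hz]
  · rw [ml_neg hz, if_neg hz]

lemma dd_nat (i m a b : Fin 4) (h : Dst i m a b) : (dd a b).natAbs ≤ 3 := by
  rcases dd_cases i m a b h with h | h | ⟨h | h, _⟩ | ⟨h | h, _⟩ <;> rw [h] <;> decide

/-- **(g1): ONE STATIC WINDOW, general kernel.**  `Κ` = main kernel with letters, in reduced coordinates
`conj (fb z) fa(z') ⟨w z, V (c + d z')⟩`; `K` = any comparison kernel (the true product of the two static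
letters), `κ` its leaf value, `κE` the leaf value of the difference. -/
theorem wr_total (i m a b : Fin 4) (h : Dst i m a b) (Κ : ℤ → ℤ → ℂ) {bb : ℤ}
    (hbb : bb = -1 ∨ bb = -7) {W : Finset Nd} {I : Nd} (hW : Full W I) (C : ℕ) (hC : 1 ≤ C)
    (X : Finset Nd) (hX : X ⊆ W) (hXb : ∀ p ∈ X, ¬ Bad W C p)
    (w V : ℕ → ℤ → ι → ℂ) (M : ℕ → Matrix ι ι ℂ) {τ δ H : ℝ} (hτ : 0 < τ) (hδ : 0 ≤ δ) (hH : 0 ≤ H)
    (hM : ∀ r, (M r).PosSemidef)
    (hU : ∀ r : ℕ, r < (dd a b).natAbs → GrU W (V r) (M r) δ)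
    (hL : ∀ r : ℕ, r < (dd a b).natAbs → GrL W (V r) (M r) δ)
    (hV : ∀ r : ℕ, r < (dd a b).natAbs → ∀ y, V r y ≠ 0 → ∃ z, y = (sl i - sl a) * r + dd a b * z)
    (hw : ∀ r : ℕ, r < (dd a b).natAbs → ∀ z, (sl i - sl b) * r + -dd a b * z ∈ iv I →
      n2 (w r z) ≤ H)
    (fb fa : ℕ → ℤ → ℂ) (Fb Fa : ℤ → ℂ)
    (hfb : ∀ (r : ℕ) z, ‖fb r z‖ ≤ ‖Fb ((sl i - sl b) * r + -dd a b * z)‖)
    (hfa : ∀ (r : ℕ) z, ‖fa r z‖ ≤ ‖Fa ((sl i - sl a) * r + dd a b * z)‖)
    (A B κ κE : ℝ) (_hA0 : 0 ≤ A) (hB0 : 0 ≤ B) (hκ : 0 ≤ κ) (hκE : 0 ≤ κE)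
    (hA : ∀ p ∈ W, ∑ y ∈ iv p, ‖Fa y‖ ^ 2 ≤ A * len p)
    (hB : ∀ p ∈ W, ∑ y ∈ iv p, ‖Fb y‖ ^ 2 ≤ B * len p)
    (hK : ∀ r : ℕ, r < (dd a b).natAbs → ∀ z z' : ℤ,
      (sl i - sl a) * r + dd a b * z' ∈ iv I → (sl i - sl b) * r + -dd a b * z ∈ iv I →
      (sl a - sl i) * z + (sl b - sl i) * z' ∈ iv I →
      (sl i - sl m) * r + (sl a - sl m) * z + (sl b - sl m) * z' ∈ iv I →
      red i a b Κ r z z' = star (fb r z) * fa r z' *
        (star (w r z) ⬝ᵥ V r ((sl i - sl a) * r + dd a b * z')))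
    (K : ℕ → ℤ → ℤ → ℂ)
    (hleaf : ∀ r : ℕ, r < (dd a b).natAbs → ∀ k,
      ∀ p ∈ Wa71.Pn W C ((sl i - sl b) * r) (-dd a b) k,
      Wb71.LK ((sl i - sl b) * r) (-dd a b) ((sl i - sl a) * r) (dd a b) (K r)
        (Wb71.mk W C ((sl i - sl b) * r) (-dd a b) (fb r) k) p ≤ κ * len p)
    (herr : ∀ r : ℕ, r < (dd a b).natAbs → ∀ k,
      ∀ p ∈ Wa71.Pn W C ((sl i - sl b) * r) (-dd a b) k,
      Wb71.LK ((sl i - sl b) * r) (-dd a b) ((sl i - sl a) * r) (dd a b)
        (Wb71.Er0 (K r) (w r) (V r) ((sl i - sl a) * r) (dd a b))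
        (Wb71.mk W C ((sl i - sl b) * r) (-dd a b) (fb r) k) p ≤ κE * len p) :
    ∑ p ∈ X, ∑ x ∈ adm p.1 p.2, ‖LboxG (2 ^ p.1) bb Κ x‖ ≤
      48 * (16 * (2 * (C + 2 + 1) + 1) + 1) *
        (√(2 * κ + 2 * κE + (δ + τ) * H * B) * √((1 + δ / τ) * A)) * len I := by
  have hd := dd_ne i m a b h
  have hd1 := dd_abs i m a b h
  have hd2 : |-dd a b| ≤ 128 := by rw [abs_neg]; exact hd1
  have hmain := metric_le i m a b h Κ hbb hW C X hX hXb (fun r => met (M r) τ)
    (fun r => met_posDef (hM r) hτ) w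
    (fun r z' => V r ((sl i - sl a) * r + dd a b * z')) fb fa hK
  refine hmain.trans ?_
  set K1 : ℝ := 16 * (2 * ((C : ℝ) + 2 + 1) + 1) + 1 with hK1
  have hK10 : 0 ≤ K1 := by positivity
  have hl0 : 0 ≤ len I := (Qe292.len_pos I).le
  set P : ℝ := 2 * κ + 2 * κE + (δ + τ) * H * B with hP
  have hP0 : 0 ≤ P := by positivity
  have hterm : ∀ r ∈ range (dd a b).natAbs,
      √(∑ k ∈ range (I.1 + 1), ∑ q ∈ pos W C ((sl i - sl b) * r) (-dd a b) k,
            qf (met (M r) τ) (bav k q (ml (AA W C ((sl i - sl b) * r) (-dd a b)) (fb r) k) (w r))) *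
        √(∑ k ∈ range (I.1 + 1), ∑ q ∈ pos W C ((sl i - sl a) * r) (dd a b) k,
            qf (met (M r) τ)⁻¹ (bav k q (ml (AA W C ((sl i - sl a) * r) (dd a b)) (fa r) k)
              (fun z' => V r ((sl i - sl a) * r + dd a b * z')))) ≤
      16 * K1 * (√P * √((1 + δ / τ) * A)) * len I := by
    intro r hr
    have hr' := Finset.mem_range.1 hr
    have hb := Wb71.be_total hW C hC ((sl i - sl b) * r) ((sl i - sl a) * r) (neg_ne_zero.2 hd) hd2
      hd (δ := δ) (τ := τ) (H := H) (by positivity) hH (hL r hr') (hV r hr') (w r) (hw r hr') (K r)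
      (fb r) Fb (hfb r) B κ κE hκ hκE hB (hleaf r hr') (herr r hr')
    have ha := Wa71.al_sum hW C ((sl i - sl a) * r) hd hd1 (hM r) hτ hδ (hU r hr') (fa r) Fa
      (hfa r) A hA
    simp only [ml_mk]
    have ha' : ∑ k ∈ range (I.1 + 1), ∑ q ∈ pos W C ((sl i - sl a) * r) (dd a b) k,
        qf (met (M r) τ)⁻¹ (bav k q (Wb71.mk W C ((sl i - sl a) * r) (dd a b) (fa r) k)
              (fun z' => V r ((sl i - sl a) * r + dd a b * z'))) ≤
        2 ^ 8 * (1 + δ / τ) * (K1 * A * len I) := by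
      refine le_trans (le_of_eq ?_) ha
      refine Finset.sum_congr rfl fun k _ => Finset.sum_congr rfl fun q _ => ?_
      congr 2
    have e1 : 2 ^ 8 * (1 + δ / τ) * (K1 * A * len I) =
        16 ^ 2 * (K1 * len I * ((1 + δ / τ) * A)) := by ring
    have e2 : K1 * P * len I = K1 * len I * P := by ring
    rw [e1] at ha'
    rw [e2] at hb
    refine (mul_le_mul (Real.sqrt_le_sqrt hb) (Real.sqrt_le_sqrt ha') (Real.sqrt_nonneg _)
      (Real.sqrt_nonneg _)).trans (le_of_eq ?_)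
    have s1 : √(K1 * len I * P) = √(K1 * len I) * √P := Real.sqrt_mul (by positivity) _
    have s2 : √(16 ^ 2 * (K1 * len I * ((1 + δ / τ) * A))) =
        16 * (√(K1 * len I) * √((1 + δ / τ) * A)) := by
      rw [Real.sqrt_mul (by positivity), Real.sqrt_sq (by norm_num),
        Real.sqrt_mul (by positivity : 0 ≤ K1 * len I)]
    rw [s1, s2]
    have e3 : √(K1 * len I) * √(K1 * len I) = K1 * len I := Real.mul_self_sqrt (by positivity)
    calc √(K1 * len I) * √P * (16 * (√(K1 * len I) * √((1 + δ / τ) * A)))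
        = 16 * (√(K1 * len I) * √(K1 * len I)) * (√P * √((1 + δ / τ) * A)) := by ring
      _ = _ := by rw [e3]; ring
  refine (Finset.sum_le_sum hterm).trans ?_
  rw [Finset.sum_const, Finset.card_range, nsmul_eq_mul]
  have h3 : (((dd a b).natAbs : ℕ) : ℝ) ≤ 3 := by exact_mod_cast dd_nat i m a b h
  calc (((dd a b).natAbs : ℕ) : ℝ) * (16 * K1 * (√P * √((1 + δ / τ) * A)) * len I)
      ≤ 3 * (16 * K1 * (√P * √((1 + δ / τ) * A)) * len I) :=
        mul_le_mul_of_nonneg_right h3 (by positivity)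
    _ = _ := by ring

end Crest.Agent.R079.Wr408
end

-- ▼ part R079/PWin_590
section

/-! R079, doc 2531 (787), PREDICTABLE WINDOWS (helper590).

`bel R D p` = mass of `D` below `p`.  `pred_windows`: node function `D ≥ 0` with Carleson constant `S`,
deviation `dev K p` of the data frozen at `K` whose leaf energy is paid by the drift inside the window:
partition into full windows, `≤ 2 + 20 (1+A) S/θ` tops below every node, such that `dev K p ≤ θ` at
all nodes and either the window is one node or the path sums of `D` (both ends included) are `≤ θ`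
(hence the drift below EVERY node of the window is `≤ θ`). -/

set_option autoImplicit false

namespace Crest.Agent.R079.PWin

open Finset Crest.Agent.R079.Grid Crest.Agent.R079.Growth Crest.Agent.R079.QRed
  Crest.Agent.R079.Qe292 Crest.Agent.R079.Qh249 Crest.Agent.R079.TWin

open Classical in
/-- mass of `D` below `p` -/
noncomputable def bel (R : Finset Nd) (D : Nd → ℝ) (p : Nd) : ℝ :=
  ∑ q ∈ R.filter (fun q => iv q ⊆ iv p), len q * D q

/-- own value plus the values of the children which lie in `R` -/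
noncomputable def Dp (R : Finset Nd) (D : Nd → ℝ) : Nd → ℝ
  | (0, l) => D (0, l)
  | (m + 1, l) => D (m + 1, l) + ((R : Set Nd).indicator D (m, 2 * l)
      + (R : Set Nd).indicator D (m, 2 * l + 1))

theorem bel_nonneg {R : Finset Nd} {D : Nd → ℝ} (hD : ∀ p, 0 ≤ D p) (p : Nd) : 0 ≤ bel R D p :=
  Finset.sum_nonneg fun q _ => mul_nonneg (Growth.len_pos q).le (hD q)

theorem ind_nonneg {R : Finset Nd} {D : Nd → ℝ} (hD : ∀ p, 0 ≤ D p) (p : Nd) :
    0 ≤ (R : Set Nd).indicator D p := Set.indicator_nonneg (fun q _ => hD q) p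

theorem Dp_ge {R : Finset Nd} {D : Nd → ℝ} (hD : ∀ p, 0 ≤ D p) : ∀ p, D p ≤ Dp R D p
  | (0, l) => le_refl _
  | (m + 1, l) => by
    have h1 := ind_nonneg (R := R) hD (m, 2 * l)
    have h2 := ind_nonneg (R := R) hD (m, 2 * l + 1)
    show D (m + 1, l) ≤ D (m + 1, l) + _
    linarith

theorem Dp_nonneg {R : Finset Nd} {D : Nd → ℝ} (hD : ∀ p, 0 ≤ D p) (p : Nd) : 0 ≤ Dp R D p :=
  (hD p).trans (Dp_ge hD p)

theorem bel_child {R : Finset Nd} {D : Nd → ℝ} (hD : ∀ p, 0 ≤ D p) (c : ℤ) (hc : c = 0 ∨ c = 1)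
    (p : Nd) (f : Nd → ℝ) (hf0 : ∀ l, f (0, l) = 0)
    (hf : ∀ m l, f (m + 1, l) = (R : Set Nd).indicator D (m, 2 * l + c)) :
    bel R f p ≤ 2 * bel R D p := by
  classical
  unfold bel
  set F := R.filter (fun q => iv q ⊆ iv p) with hF
  -- nodes with a child in `R`
  set G := F.filter (fun q => 1 ≤ q.1 ∧ (q.1 - 1, 2 * q.2 + c) ∈ R) with hG
  have e1 : ∑ q ∈ F, len q * f q = ∑ q ∈ G, len q * f q := by
    symm
    refine Finset.sum_subset (Finset.filter_subset _ _) ?_
    intro q hq hqG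
    rcases q with ⟨m, l⟩
    cases m with
    | zero => rw [hf0, mul_zero]
    | succ m =>
      rw [hf, Set.indicator_of_notMem, mul_zero]
      intro h
      refine hqG (Finset.mem_filter.2 ⟨hq, by simp, ?_⟩)
      simpa using h
  rw [e1]
  have e2 : ∑ q ∈ G, len q * f q
      = ∑ q ∈ G, 2 * (len (q.1 - 1, 2 * q.2 + c) * D (q.1 - 1, 2 * q.2 + c)) := by
    refine Finset.sum_congr rfl fun q hq => ?_
    obtain ⟨_, h1, h2⟩ := Finset.mem_filter.1 hq
    rcases q with ⟨m, l⟩
    cases m with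
    | zero => simp at h1
    | succ m =>
      have h3 : (m, 2 * l + c) ∈ (R : Set Nd) := by simpa using h2
      rw [hf, Set.indicator_of_mem h3, len_ch m l (2 * l + c)]
      simp only [Nat.add_sub_cancel]
      ring
  rw [e2, ← Finset.mul_sum]
  refine mul_le_mul_of_nonneg_left ?_ (by norm_num)
  have e3 : ∑ q ∈ G, len (q.1 - 1, 2 * q.2 + c) * D (q.1 - 1, 2 * q.2 + c)
      = ∑ q ∈ G.image (fun q : Nd => ((q.1 - 1, 2 * q.2 + c) : Nd)), len q * D q := by
    rw [Finset.sum_image]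
    intro q hq q' hq' h
    have h1 := (Finset.mem_filter.1 (by exact_mod_cast hq : q ∈ G)).2.1
    have h1' := (Finset.mem_filter.1 (by exact_mod_cast hq' : q' ∈ G)).2.1
    have h2 := congrArg Prod.fst h
    have h3 := congrArg Prod.snd h
    simp only at h2 h3
    refine Prod.ext (by omega) (by omega)
  rw [e3]
  refine Finset.sum_le_sum_of_subset_of_nonneg ?_ fun q _ _ =>
    mul_nonneg (Growth.len_pos q).le (hD q)
  intro q hq
  obtain ⟨q', hq', rfl⟩ := Finset.mem_image.1 hq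
  obtain ⟨h0, h1, h2⟩ := Finset.mem_filter.1 hq'
  refine Finset.mem_filter.2 ⟨h2, ?_⟩
  refine subset_trans ?_ (Finset.mem_filter.1 h0).2
  rcases q' with ⟨m, l⟩
  cases m with
  | zero => simp at h1
  | succ m =>
    simp only [Nat.add_sub_cancel]
    rcases hc with rfl | rfl
    · rw [add_zero]; exact sub_ch0 m l
    · exact sub_ch1 m l

theorem bel_Dp {R : Finset Nd} {D : Nd → ℝ} (hD : ∀ p, 0 ≤ D p) (p : Nd) :
    bel R (Dp R D) p ≤ 5 * bel R D p := by
  let f0 : Nd → ℝ := fun q => match q with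
    | (0, _) => 0
    | (m + 1, l) => (R : Set Nd).indicator D (m, 2 * l + 0)
  let f1 : Nd → ℝ := fun q => match q with
    | (0, _) => 0
    | (m + 1, l) => (R : Set Nd).indicator D (m, 2 * l + 1)
  have h0 := bel_child hD 0 (Or.inl rfl) p f0 (fun _ => rfl) (fun _ _ => rfl)
  have h1 := bel_child hD 1 (Or.inr rfl) p f1 (fun _ => rfl) (fun _ _ => rfl)
  have e : bel R (Dp R D) p = bel R D p + (bel R f0 p + bel R f1 p) := by
    unfold bel
    rw [← Finset.sum_add_distrib, ← Finset.sum_add_distrib]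
    refine Finset.sum_congr rfl fun q _ => ?_
    rcases q with ⟨m, l⟩
    cases m with
    | zero =>
      show len (0, l) * D (0, l) = len (0, l) * D (0, l) + (len (0, l) * 0 + len (0, l) * 0)
      ring
    | succ m =>
      show len (m + 1, l) * (D (m + 1, l) + ((R : Set Nd).indicator D (m, 2 * l)
        + (R : Set Nd).indicator D (m, 2 * l + 1))) = len (m + 1, l) * D (m + 1, l)
        + (len (m + 1, l) * (R : Set Nd).indicator D (m, 2 * l + 0)
          + len (m + 1, l) * (R : Set Nd).indicator D (m, 2 * l + 1))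
      rw [add_zero]
      ring
  linarith

/-- decomposition of the mass below a node -/
theorem bel_node {X : Finset Nd} (E : Nd → ℝ) {m : ℕ} {l : ℤ} (hX : (m + 1, l) ∈ X) :
    bel X E (m + 1, l) = len (m + 1, l) * E (m + 1, l)
        + (bel X E (m, 2 * l) + bel X E (m, 2 * l + 1)) := by
  classical
  unfold bel
  have hd : Disjoint (X.filter (fun q => iv q ⊆ iv (m, 2 * l)))
      (X.filter (fun q => iv q ⊆ iv (m, 2 * l + 1))) := by
    rw [Finset.disjoint_left]
    intro q hq hq'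
    obtain ⟨y, hy⟩ := iv_nonempty q
    exact Finset.disjoint_left.1 (disj_ch m l) ((Finset.mem_filter.1 hq).2 hy)
      ((Finset.mem_filter.1 hq').2 hy)
  rw [← Finset.sum_union hd]
  have hnot : ((m + 1, l) : Nd) ∉ (X.filter (fun q => iv q ⊆ iv (m, 2 * l))) ∪
      (X.filter (fun q => iv q ⊆ iv (m, 2 * l + 1))) := by
    rw [Finset.mem_union]
    rintro (h | h)
    · have := Qe292.iv_level (Finset.mem_filter.1 h).2
      simp only at this
      omega
    · have := Qe292.iv_level (Finset.mem_filter.1 h).2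
      simp only at this
      omega
  rw [← Finset.sum_insert (f := fun q => len q * E q) hnot]
  refine Finset.sum_congr ?_ fun _ _ => rfl
  ext q
  rw [Finset.mem_insert, Finset.mem_union, Finset.mem_filter, Finset.mem_filter,
    Finset.mem_filter]
  constructor
  · rintro ⟨hq, hs⟩
    by_cases hne : q = (m + 1, l)
    · exact Or.inl hne
    · right
      have hlev : q.1 < m + 1 := by
        rcases (Growth.iv_level hs).lt_or_eq with h | h
        · exact h
        · exact absurd (iv_eq_of_level hs h.symm.le).symm hne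
      obtain ⟨z, hz⟩ := iv_nonempty q
      have hzp := hs hz
      rw [iv_ch, Finset.mem_union] at hzp
      rcases hzp with h | h
      · left
        refine ⟨hq, sub_of_level hz h ?_⟩
        simp only
        omega
      · right
        refine ⟨hq, sub_of_level hz h ?_⟩
        simp only
        omega
  · rintro (rfl | h | h)
    · exact ⟨hX, subset_rfl⟩
    · exact ⟨h.1, h.2.trans (sub_ch0 m l)⟩
    · exact ⟨h.1, h.2.trans (sub_ch1 m l)⟩

/-- the mass below a leaf -/
theorem bel_leaf {R : Finset Nd} (D : Nd → ℝ) {p : Nd} (hp : p ∈ lf R) :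
    bel R D p = len p * D p := by
  classical
  unfold bel
  have : R.filter (fun q => iv q ⊆ iv p) = {p} := by
    ext q
    rw [Finset.mem_filter, Finset.mem_singleton]
    constructor
    · rintro ⟨h1, h2⟩
      exact (mem_lf.1 hp).2 q h1 h2
    · rintro rfl
      exact ⟨(mem_lf.1 hp).1, subset_rfl⟩
  rw [this, Finset.sum_singleton]

/-- Carleson bound from a supermartingale -/
theorem carleson_super {R : Finset Nd} {J : Nd} (hR : Full R J) {D Φ : Nd → ℝ}
    (h0 : ∀ p, 0 ≤ Φ p)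
    (hd : ∀ (m : ℕ) (l : ℤ), (m + 1, l) ∈ R →
      D (m + 1, l) ≤ Φ (m + 1, l) - (Φ (m, 2 * l) + Φ (m, 2 * l + 1)) / 2)
    (hd0 : ∀ l : ℤ, (0, l) ∈ R → D (0, l) ≤ Φ (0, l)) :
    ∀ p ∈ R, bel R D p ≤ len p * Φ p := by
  have hle : ∀ p ∈ R, D p ≤ Φ p := by
    intro p hp
    rcases p with ⟨m, l⟩
    cases m with
    | zero => exact hd0 l hp
    | succ m =>
      have h1 := hd m l hp
      have h2 := h0 (m, 2 * l)
      have h3 := h0 (m, 2 * l + 1)
      linarith
  refine full_ind hR (fun p hp => ?_) fun m l hp hnl h0' h1' e0 e1 => ?_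
  · rw [bel_leaf D hp]
    exact mul_le_mul_of_nonneg_left (hle p (mem_lf.1 hp).1) (Growth.len_pos p).le
  · rw [bel_node D hp]
    have hl0 : len (m + 1, l) = 2 * len (m, 2 * l) := len_ch m l _
    have hl1 : len (m, 2 * l + 1) = len (m, 2 * l) := rfl
    rw [hl1] at e1
    rw [hl0]
    have h2 := mul_le_mul_of_nonneg_left (hd m l hp) (Growth.len_pos (m, 2 * l)).le
    nlinarith


/-- mass of the inner nodes = leaf integral of the accumulated drift -/
theorem SL_acc_eq {W : Finset Nd} {I : Nd} (hW : Full W I) (E : Nd → ℝ) :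
    ∀ p ∈ W, SL W p (acc E p) = bel (W \ lf W) E p := by
  classical
  refine full_ind hW (fun p hp => ?_) fun m l hp hnl h0 h1 e0 e1 => ?_
  · rw [SL_leaf hp, acc_self, mul_zero]
    unfold bel
    symm
    refine Finset.sum_eq_zero fun q hq => ?_
    exfalso
    obtain ⟨h1, h2⟩ := Finset.mem_filter.1 hq
    obtain ⟨h3, h4⟩ := Finset.mem_sdiff.1 h1
    rw [(mem_lf.1 hp).2 q h3 h2] at h4
    exact h4 hp
  · have hA := SL_acc_ch hW E (m := m) (l := l) (l' := 2 * l) (by omega) (sub_ch0 m l) h0 (fun _ => 0)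
    have hB := SL_acc_ch hW E (m := m) (l := l) (l' := 2 * l + 1) (by omega) (sub_ch1 m l) h1
      (fun _ => 0)
    simp only [zero_add] at hA hB
    rw [SL_node hW hnl h0 h1]
    have hA' : SL W (m, 2 * l) (acc E (m + 1, l)) = SL W (m, 2 * l) (acc E (m, 2 * l))
      + len (m, 2 * l) * E (m + 1, l) := hA
    have hB' : SL W (m, 2 * l + 1) (acc E (m + 1, l)) = SL W (m, 2 * l + 1) (acc E (m, 2 * l + 1))
      + len (m, 2 * l + 1) * E (m + 1, l) := hB
    rw [hA', hB', e0, e1]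
    have hl0 : len (m + 1, l) = 2 * len (m, 2 * l) := len_ch m l _
    have hl1 : len (m, 2 * l + 1) = len (m, 2 * l) := rfl
    have e : bel (W \ lf W) E (m + 1, l) = len (m + 1, l) * E (m + 1, l)
        + (bel (W \ lf W) E (m, 2 * l) + bel (W \ lf W) E (m, 2 * l + 1)) :=
      bel_node E (Finset.mem_sdiff.2 ⟨hp, hnl⟩)
    rw [e, hl1, hl0]
    ring

/-- masses below the leaves and of the inner nodes are disjoint -/
theorem bel_split {R W : Finset Nd} {I : Nd} (hW : Full W I) (hWR : W ⊆ R) {E : Nd → ℝ}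
    (hE : ∀ p, 0 ≤ E p) :
    ∑ L ∈ lf W, bel R E L + bel (W \ lf W) E I ≤ bel R E I := by
  classical
  unfold bel
  have hd : ∀ L ∈ lf W, ∀ L' ∈ lf W, L ≠ L' → Disjoint (R.filter (fun q => iv q ⊆ iv L))
      (R.filter (fun q => iv q ⊆ iv L')) := by
    intro L hL L' hL' hne
    rw [Finset.disjoint_left]
    intro q hq hq'
    obtain ⟨y, hy⟩ := iv_nonempty q
    have h1 := leaf_below hW hL (mem_lf.1 hL').1 ((Finset.mem_filter.1 hq).2 hy)
      ((Finset.mem_filter.1 hq').2 hy)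
    exact hne ((mem_lf.1 hL').2 L (mem_lf.1 hL).1 h1)
  rw [← Finset.sum_biUnion (fun L hL L' hL' hne => hd L (by exact_mod_cast hL) L'
    (by exact_mod_cast hL') hne)]
  have hdd : Disjoint ((lf W).biUnion fun L => R.filter (fun q => iv q ⊆ iv L))
      ((W \ lf W).filter (fun q => iv q ⊆ iv I)) := by
    rw [Finset.disjoint_left]
    intro q hq hq'
    obtain ⟨L, hL, hqL⟩ := Finset.mem_biUnion.1 hq
    obtain ⟨h1, h2⟩ := Finset.mem_sdiff.1 (Finset.mem_filter.1 hq').1
    rw [(mem_lf.1 hL).2 q h1 (Finset.mem_filter.1 hqL).2] at h2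
    exact h2 hL
  rw [← Finset.sum_union hdd]
  refine Finset.sum_le_sum_of_subset_of_nonneg ?_ fun q _ _ =>
    mul_nonneg (Growth.len_pos q).le (hE q)
  intro q hq
  rcases Finset.mem_union.1 hq with h | h
  · obtain ⟨L, hL, hqL⟩ := Finset.mem_biUnion.1 h
    exact Finset.mem_filter.2 ⟨(Finset.mem_filter.1 hqL).1,
      (Finset.mem_filter.1 hqL).2.trans (hW.reg.1 L (mem_lf.1 hL).1)⟩
  · exact Finset.mem_filter.2 ⟨hWR (Finset.mem_sdiff.1 (Finset.mem_filter.1 h).1).1,
      (Finset.mem_filter.1 h).2⟩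

theorem SL_top {W : Finset Nd} {I : Nd} (hW : Full W I) (F : Nd → ℝ) :
    ∑ L ∈ lf W, len L * F L = SL W I F := by
  classical
  unfold SL
  refine Finset.sum_congr ?_ fun _ _ => rfl
  symm
  exact Finset.filter_true_of_mem fun L hL => hW.reg.1 L (mem_lf.1 hL).1

/-- path sums with the own value, from `Dp` -/
theorem acc_Dp {R : Finset Nd} {D : Nd → ℝ} (hD : ∀ p, 0 ≤ D p) {K p : Nd} (hp : p ∈ R)
    (hpK : iv p ⊆ iv K) (hne : p ≠ K) : acc D K p + D p ≤ acc (Dp R D) K p := by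
  classical
  obtain ⟨j, hj⟩ := Qe292.iv_sub_iff.1 hpK
  have hj0 : j ≠ 0 := by
    rintro rfl
    exact hne (by rw [hj]; simp)
  have hK1 : K.1 = p.1 + j := by rw [hj]
  have e1 : K.1 - p.1 = (j - 1) + 1 := by omega
  unfold acc
  rw [e1, Finset.sum_range_succ', Finset.sum_range_succ']
  have h1 : ∑ k ∈ range (j - 1), D (p.1 + (k + 1) + 1, p.2 / 2 ^ (k + 1 + 1))
      ≤ ∑ k ∈ range (j - 1), Dp R D (p.1 + (k + 1) + 1, p.2 / 2 ^ (k + 1 + 1)) :=
    Finset.sum_le_sum fun k _ => Dp_ge hD _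
  have h2 : D (p.1 + 0 + 1, p.2 / 2 ^ (0 + 1)) + D p ≤ Dp R D (p.1 + 0 + 1, p.2 / 2 ^ (0 + 1)) := by
    have hpR : p ∈ (R : Set Nd) := hp
    rw [add_zero, zero_add, pow_one]
    have g0 := ind_nonneg (R := R) hD (p.1, 2 * (p.2 / 2))
    have g1 := ind_nonneg (R := R) hD (p.1, 2 * (p.2 / 2) + 1)
    show D (p.1 + 1, p.2 / 2) + D p ≤ D (p.1 + 1, p.2 / 2)
      + ((R : Set Nd).indicator D (p.1, 2 * (p.2 / 2))
        + (R : Set Nd).indicator D (p.1, 2 * (p.2 / 2) + 1))
    rcases Int.emod_two_eq_zero_or_one p.2 with h | h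
    · have e : ((p.1, 2 * (p.2 / 2)) : Nd) = p := Prod.ext rfl (by simp only; omega)
      rw [e, Set.indicator_of_mem hpR]
      rw [e] at g0
      linarith
    · have e : ((p.1, 2 * (p.2 / 2) + 1) : Nd) = p := Prod.ext rfl (by simp only; omega)
      rw [e, Set.indicator_of_mem hpR]
      rw [e] at g1
      linarith
  linarith

/-- drift below a node from path sums -/
theorem bel_of_path {W : Finset Nd} {K : Nd} (hW : Full W K) {D : Nd → ℝ} (hD : ∀ p, 0 ≤ D p)
    {θ : ℝ} (h : ∀ p ∈ W, acc D K p + D p ≤ θ) : ∀ p ∈ W, bel W D p ≤ θ * len p := by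
  classical
  intro p hp
  have h1 : bel W D p = bel (W \ lf W) D p + ∑ L ∈ (lf W).filter (fun L => iv L ⊆ iv p), len L * D L := by
    unfold bel
    rw [← Finset.sum_union]
    · refine Finset.sum_congr ?_ fun _ _ => rfl
      ext q
      rw [Finset.mem_union, Finset.mem_filter, Finset.mem_filter, Finset.mem_filter,
        Finset.mem_sdiff]
      constructor
      · rintro ⟨h1, h2⟩
        by_cases h3 : q ∈ lf W
        · exact Or.inr ⟨h3, h2⟩
        · exact Or.inl ⟨⟨h1, h3⟩, h2⟩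
      · rintro (h | h)
        · exact ⟨h.1.1, h.2⟩
        · exact ⟨(mem_lf.1 h.1).1, h.2⟩
    · rw [Finset.disjoint_left]
      intro q hq hq'
      exact (Finset.mem_sdiff.1 (Finset.mem_filter.1 hq).1).2 (Finset.mem_filter.1 hq').1
  have h2 : bel W D p = SL W p (fun L => acc D p L + D L) := by
    rw [h1, ← SL_acc_eq hW D p hp, SL_add]
    rfl
  rw [h2]
  calc SL W p (fun L => acc D p L + D L) ≤ SL W p (fun _ => θ) := by
        refine SL_mono fun L hL hLp => ?_
        have h3 := h L (mem_lf.1 hL).1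
        have h4 := acc_trans D hLp (hW.reg.1 p hp)
        have h5 := acc_nonneg hD K p
        linarith
    _ = θ * len p := by rw [SL_const hW θ p hp]; ring

/-- **PREDICTABLE WINDOWS** -/
theorem pred_windows {R : Finset Nd} {J : Nd} (hR : Full R J) {D : Nd → ℝ} {dev : Nd → Nd → ℝ}
    {S A θ : ℝ} (hθ : 0 < θ) (hA : 0 ≤ A) (hD : ∀ p, 0 ≤ D p)
    (hS : ∀ p ∈ R, bel R D p ≤ S * len p) (hdev : ∀ I p, 0 ≤ dev I p) (hdevI : ∀ I, dev I I = 0)
    (hen : ∀ I ∈ R, ∀ W : Finset Nd, Full W I → W ⊆ R →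
      ∑ L ∈ lf W, len L * dev I L ≤ A * bel (W \ lf W) D I + θ / 8 * len I) :
    ∃ (T : Finset Nd) (W : Nd → Finset Nd), Part R T W (2 + 20 * (1 + A) * S / θ) ∧
      ∀ K ∈ T, (∀ p ∈ W K, dev K p ≤ θ) ∧
        (W K = {K} ∨ ∀ p ∈ W K, acc D K p + D p ≤ θ ∧ bel (W K) D p ≤ θ * len p) := by
  classical
  set E := Dp R D with hE
  have hE0 : ∀ p, 0 ≤ E p := Dp_nonneg hD
  have hED : ∀ p, D p ≤ E p := Dp_ge hD
  have hbelE : ∀ p ∈ R, bel R E p ≤ 5 * S * len p := by
    intro p hp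
    have h1 := bel_Dp (R := R) hD p
    have h2 := hS p hp
    linarith
  obtain ⟨T, W, hPart, hgood⟩ := exists_part (g := fun I p => acc E I p + dev I p) hR
    (P := fun p => (1 + A) * bel R E p / len p) (P₀ := (1 + A) * (5 * S)) hθ
    (fun p _ => div_nonneg (mul_nonneg (by linarith) (bel_nonneg hE0 p)) (Growth.len_pos p).le)
    (fun p hp => by
      rw [div_le_iff₀ (Growth.len_pos p)]
      have := mul_le_mul_of_nonneg_left (hbelE p hp) (by linarith : 0 ≤ 1 + A)
      linarith)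
    (fun I p => add_nonneg (acc_nonneg hE0 I p) (hdev I p))
    (fun I => by simp only [acc_self, hdevI I, add_zero]; exact hθ.le)
    (by
      intro I hI V hV hVR
      have h1 : ∑ p ∈ lf V, len p * (acc E I p + dev I p + (1 + A) * bel R E p / len p)
          = SL V I (acc E I) + ∑ p ∈ lf V, len p * dev I p
            + (1 + A) * ∑ p ∈ lf V, bel R E p := by
        rw [← SL_top hV, Finset.mul_sum, ← Finset.sum_add_distrib, ← Finset.sum_add_distrib]
        refine Finset.sum_congr rfl fun p _ => ?_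
        have := (Growth.len_pos p).ne'
        field_simp
      rw [h1, SL_acc_eq hV E I hV.top]
      have h2 := hen I hI V hV hVR
      have h3 := bel_split hV hVR hE0
      have h4 : bel (V \ lf V) D I ≤ bel (V \ lf V) E I :=
        Finset.sum_le_sum fun q _ => mul_le_mul_of_nonneg_left (hED q) (Growth.len_pos q).le
      have h5 := mul_le_mul_of_nonneg_left h3 (by linarith : 0 ≤ 1 + A)
      have h6 := mul_le_mul_of_nonneg_left h4 hA
      have h7 : len I * ((1 + A) * bel R E I / len I + θ / 4)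
          = (1 + A) * bel R E I + θ / 4 * len I := by
        have := (Growth.len_pos I).ne'
        field_simp
      rw [h7]
      have h8 := mul_pos hθ (Growth.len_pos I)
      nlinarith)
  refine ⟨T, W, ?_, ?_⟩
  · have e : 2 + 4 * ((1 + A) * (5 * S)) / θ = 2 + 20 * (1 + A) * S / θ := by ring
    rw [← e]
    exact hPart
  · intro K hK
    have hKW := hPart.full K hK
    have hg := hgood K hK
    refine ⟨fun p hp => ?_, ?_⟩
    · have h1 := hg p hp
      have h2 := acc_nonneg hE0 K p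
      linarith
    · by_cases hsing : W K = {K}
      · exact Or.inl hsing
      · right
        have hpath : ∀ p ∈ W K, acc D K p + D p ≤ θ := by
          intro p hp
          by_cases hpK : p = K
          · subst hpK
            rw [acc_self, zero_add]
            -- a child of the top
            have hnl : p ∉ lf (W p) := by
              intro hl
              refine hsing (Finset.eq_singleton_iff_unique_mem.2 ⟨hp, fun q hq => ?_⟩)
              exact (mem_lf.1 hl).2 q hq (hKW.reg.1 q hq)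
            obtain ⟨m, l, he, h0, h1⟩ := children_mem hKW hp hnl
            have h2 := hg _ h0
            have h3 : acc E (m + 1, l) (m, 2 * l) = E (m + 1, l) :=
              acc_par E m l (2 * l) (by omega)
            rw [he] at h2 ⊢
            rw [h3] at h2
            have h4 := hED (m + 1, l)
            have h5 := hdev (m + 1, l) (m, 2 * l)
            linarith
          · have h1 := acc_Dp (R := R) hD (hPart.wsub K hK hp) (hKW.reg.1 p hp) hpK
            have h2 := hg p hp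
            have h3 := hdev K p
            linarith
        intro p hp
        exact ⟨hpath p hp, bel_of_path hKW hD hpath p hp⟩

end Crest.Agent.R079.PWin
end

-- ▼ part R079/WinH_222
section

/-! R079, doc 2531 (787), STATIC WINDOWS of a Hilbert-space valued line function (helper222).

`f : ℤ → H` bounded (`‖f y‖² ≤ S`), e.g. `H` = all `(z₀,z₃)`-fibres of `v v*` (Hilbert-Schmidt).  `mean f k l` =
average over the dyadic interval `dI k l` (any length).  `gram_windows`: at most `2 + 40 (k+1) S / θ` windows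
such that at EVERY node `p` of a window with top `K` (or one-node window) the averages of all sub-intervals
of `iv p` of generation `≤ k+1` (also below level `0`) agree with `mean` on `K` up to `2 θ` in `L²`.
`sum_close`: arbitrary intervals inside `iv p`. -/

set_option autoImplicit false

namespace Crest.Agent.R079.WinH222

open Finset Crest.Agent.R079.Grid Crest.Agent.R079.Growth Crest.Agent.R079.QRed
  Crest.Agent.R079.Qe292 Crest.Agent.R079.Qh249 Crest.Agent.R079.TWin Crest.Agent.R079.PWin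

variable {H : Type*} [NormedAddCommGroup H] [InnerProductSpace ℝ H]

/-- mean over the dyadic interval `dI k l` -/
noncomputable def mean (f : ℤ → H) (k : ℕ) (l : ℤ) : H := ((2 : ℝ) ^ k)⁻¹ • ∑ y ∈ dI k l, f y

theorem mean_succ (f : ℤ → H) (k : ℕ) (l : ℤ) :
    mean f (k + 1) l = (1 / 2 : ℝ) • (mean f k (2 * l) + mean f k (2 * l + 1)) := by
  unfold mean
  rw [L0e.dI_succ, Finset.sum_union (L0e.dI_disj (by omega)), ← smul_add, smul_smul]
  congr 1
  rw [pow_succ, mul_inv]
  ring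

theorem dI_zero (l : ℤ) : dI 0 l = {l} := by
  ext y
  simp only [dI, pow_zero, mul_one, Finset.mem_Ico, Finset.mem_singleton]
  omega

theorem mean_zero (f : ℤ → H) (l : ℤ) : mean f 0 l = f l := by
  unfold mean
  rw [dI_zero, Finset.sum_singleton, pow_zero, inv_one, one_smul]

theorem card_dI (k : ℕ) (l : ℤ) : ((dI k l).card : ℝ) = 2 ^ k := by
  unfold dI
  rw [Int.card_Ico]
  have h : (l + 1) * 2 ^ k - l * 2 ^ k = 2 ^ k := by ring
  rw [h]
  have h2 : (((2 : ℤ) ^ k).toNat : ℤ) = 2 ^ k := Int.toNat_of_nonneg (by positivity)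
  exact_mod_cast h2


/-- average over the sub-intervals of generation `min j k` -/
noncomputable def dav (g : ℕ → ℤ → ℝ) : ℕ → ℕ → ℤ → ℝ
  | 0, k, l => g k l
  | _ + 1, 0, l => g 0 l
  | j + 1, k + 1, l => (dav g j k (2 * l) + dav g j k (2 * l + 1)) / 2

theorem dav_zero (g : ℕ → ℤ → ℝ) (k : ℕ) (l : ℤ) : dav g 0 k l = g k l := by
  cases k <;> rfl

theorem dav_bot (g : ℕ → ℤ → ℝ) (j : ℕ) (l : ℤ) : dav g j 0 l = g 0 l := by
  cases j <;> rfl

theorem dav_succ (g : ℕ → ℤ → ℝ) (j k : ℕ) (l : ℤ) :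
    dav g (j + 1) (k + 1) l = (dav g j k (2 * l) + dav g j k (2 * l + 1)) / 2 := rfl

theorem dav_add (g h : ℕ → ℤ → ℝ) (j : ℕ) : ∀ (k : ℕ) (l : ℤ),
    dav (fun k l => g k l + h k l) j k l = dav g j k l + dav h j k l := by
  induction j with
  | zero => intro k l; simp only [dav_zero]
  | succ j ih =>
    intro k l
    cases k with
    | zero => simp only [dav_bot]
    | succ k => rw [dav_succ, dav_succ, dav_succ, ih, ih]; ring

theorem dav_mart (g : ℕ → ℤ → ℝ) (hg : ∀ k l, g (k + 1) l = (g k (2 * l) + g k (2 * l + 1)) / 2)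
    (j : ℕ) : ∀ (k : ℕ) (l : ℤ), dav g j k l = g k l := by
  induction j with
  | zero => intro k l; rw [dav_zero]
  | succ j ih =>
    intro k l
    cases k with
    | zero => rw [dav_bot]
    | succ k => rw [dav_succ, ih, ih, ← hg]

theorem dav_le (g : ℕ → ℤ → ℝ) {S : ℝ} (hg : ∀ k l, g k l ≤ S) (j : ℕ) :
    ∀ (k : ℕ) (l : ℤ), dav g j k l ≤ S := by
  induction j with
  | zero => intro k l; rw [dav_zero]; exact hg k l
  | succ j ih =>
    intro k l
    cases k with
    | zero => rw [dav_bot]; exact hg 0 l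
    | succ k =>
      rw [dav_succ]
      have h1 := ih k (2 * l)
      have h2 := ih k (2 * l + 1)
      linarith

theorem dav_nonneg (g : ℕ → ℤ → ℝ) (hg : ∀ k l, 0 ≤ g k l) (j : ℕ) :
    ∀ (k : ℕ) (l : ℤ), 0 ≤ dav g j k l := by
  induction j with
  | zero => intro k l; rw [dav_zero]; exact hg k l
  | succ j ih =>
    intro k l
    cases k with
    | zero => rw [dav_bot]; exact hg 0 l
    | succ k =>
      rw [dav_succ]
      have h1 := ih k (2 * l)
      have h2 := ih k (2 * l + 1)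
      linarith

/-- a submartingale: deeper averages are larger -/
theorem dav_mono (g : ℕ → ℤ → ℝ) (hg : ∀ k l, g (k + 1) l ≤ (g k (2 * l) + g k (2 * l + 1)) / 2)
    (j : ℕ) : ∀ (k : ℕ) (l : ℤ), dav g j k l ≤ dav g (j + 1) k l := by
  induction j with
  | zero =>
    intro k l
    cases k with
    | zero => rw [dav_bot, dav_bot]
    | succ k => rw [dav_succ, dav_zero, dav_zero, dav_zero]; exact hg k l
  | succ j ih =>
    intro k l
    cases k with
    | zero => rw [dav_bot, dav_bot]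
    | succ k =>
      rw [dav_succ, dav_succ g (j + 1)]
      have h1 := ih k (2 * l)
      have h2 := ih k (2 * l + 1)
      linarith

theorem dav_mono' (g : ℕ → ℤ → ℝ) (hg : ∀ k l, g (k + 1) l ≤ (g k (2 * l) + g k (2 * l + 1)) / 2)
    {i j : ℕ} (hij : i ≤ j) (k : ℕ) (l : ℤ) : dav g i k l ≤ dav g j k l := by
  obtain ⟨d, rfl⟩ := Nat.exists_eq_add_of_le hij
  clear hij
  induction d with
  | zero => exact le_refl _
  | succ d ih => exact ih.trans (dav_mono g hg (i + d) k l)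

/-- square distance to `c` -/
noncomputable def pq (f : ℤ → H) (c : H) (k : ℕ) (l : ℤ) : ℝ := ‖mean f k l - c‖ ^ 2

theorem half_sq (a b : H) :
    ‖(1 / 2 : ℝ) • (a + b)‖ ^ 2 = (‖a‖ ^ 2 + ‖b‖ ^ 2) / 2 - ‖(1 / 2 : ℝ) • (a - b)‖ ^ 2 := by
  have h := parallelogram_law_with_norm ℝ a b
  rw [norm_smul, norm_smul]
  have e : ‖(1 / 2 : ℝ)‖ = 1 / 2 := by norm_num
  rw [e]
  nlinarith [h]

theorem pq_succ (f : ℤ → H) (c : H) (k : ℕ) (l : ℤ) :
    pq f c (k + 1) l = (pq f c k (2 * l) + pq f c k (2 * l + 1)) / 2 -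
      ‖(1 / 2 : ℝ) • (mean f k (2 * l) - mean f k (2 * l + 1))‖ ^ 2 := by
  unfold pq
  have e : mean f (k + 1) l - c =
      (1 / 2 : ℝ) • ((mean f k (2 * l) - c) + (mean f k (2 * l + 1) - c)) := by
    rw [mean_succ, smul_add, smul_add, smul_sub, smul_sub]
    have : c = (1 / 2 : ℝ) • c + (1 / 2 : ℝ) • c := by rw [← add_smul]; norm_num
    nth_rewrite 1 [this]
    abel
  rw [e, half_sq]
  congr 3
  abel_nf

theorem pq_sub (f : ℤ → H) (c : H) (k : ℕ) (l : ℤ) :
    pq f c (k + 1) l ≤ (pq f c k (2 * l) + pq f c k (2 * l + 1)) / 2 := by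
  rw [pq_succ]
  have := sq_nonneg ‖(1 / 2 : ℝ) • (mean f k (2 * l) - mean f k (2 * l + 1))‖
  linarith

/-- the increment of the averaged square distance does not depend on the centre -/
theorem dav_shift (f : ℤ → H) (c : H) (j k : ℕ) (l : ℤ) :
    dav (pq f c) j k l - pq f c k l = dav (pq f 0) j k l - pq f 0 k l := by
  have h1 : pq f c = fun k l => pq f 0 k l + (‖c‖ ^ 2 - 2 * inner ℝ (mean f k l) c) := by
    funext k l
    unfold pq
    rw [sub_zero, norm_sub_sq_real]
    ring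
  have h2 := dav_mart (fun k l => ‖c‖ ^ 2 - 2 * inner ℝ (mean f k l) c) (fun k l => by
    rw [mean_succ, inner_smul_left, inner_add_left]
    simp only [conj_trivial]
    ring) j k l
  rw [h1, dav_add, h2]
  ring

theorem pq_le (f : ℤ → H) {S : ℝ} (hf : ∀ y, ‖f y‖ ^ 2 ≤ S) (k : ℕ) : ∀ l : ℤ, pq f 0 k l ≤ S := by
  induction k with
  | zero => intro l; unfold pq; rw [mean_zero, sub_zero]; exact hf l
  | succ k ih =>
    intro l
    have h1 := pq_sub f 0 k l
    have h2 := ih (2 * l)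
    have h3 := ih (2 * l + 1)
    linarith

/-- mean on a node -/
noncomputable def Mn (f : ℤ → H) (p : Nd) : H := mean f (p.1 + 7) p.2

/-- look-ahead drift, `k + 1` generations -/
noncomputable def LD (f : ℤ → H) (k : ℕ) (p : Nd) : ℝ :=
  dav (pq f 0) (k + 1) (p.1 + 7) p.2 - pq f 0 (p.1 + 7) p.2

theorem LD_nonneg (f : ℤ → H) (k : ℕ) (p : Nd) : 0 ≤ LD f k p := by
  unfold LD
  have h := dav_mono' (pq f 0) (pq_sub f 0) (Nat.zero_le (k + 1)) (p.1 + 7) p.2
  rw [dav_zero] at h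
  linarith

/-- Carleson condition of the look-ahead drift -/
theorem LD_carleson {R : Finset Nd} {J : Nd} (hR : Full R J) (f : ℤ → H) {S : ℝ}
    (hf : ∀ y, ‖f y‖ ^ 2 ≤ S) (k : ℕ) :
    ∀ p ∈ R, bel R (LD f k) p ≤ (k + 1) * S * len p := by
  have hS0 : ∀ (j n : ℕ) (l : ℤ), dav (pq f 0) j n l ≤ S := fun j n l =>
    dav_le _ (fun n l => pq_le f hf n l) j n l
  have hn0 : ∀ (j n : ℕ) (l : ℤ), 0 ≤ dav (pq f 0) j n l := fun j n l =>
    dav_nonneg _ (fun n l => sq_nonneg _) j n l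
  have h1 := carleson_super hR (D := LD f k)
    (Φ := fun p => ∑ j ∈ range (k + 1), (S - dav (pq f 0) j (p.1 + 7) p.2))
    (fun p => Finset.sum_nonneg fun j _ => by linarith [hS0 j (p.1 + 7) p.2])
    (fun m l _ => by
      simp only
      have e : ∀ j, (dav (pq f 0) j (m + 7) (2 * l) + dav (pq f 0) j (m + 7) (2 * l + 1)) / 2 =
          dav (pq f 0) (j + 1) (m + 1 + 7) l := fun j => by
        rw [show m + 1 + 7 = m + 7 + 1 by omega, dav_succ]
      have e2 : (∑ j ∈ range (k + 1), (S - dav (pq f 0) j (m + 7) (2 * l)) +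
          ∑ j ∈ range (k + 1), (S - dav (pq f 0) j (m + 7) (2 * l + 1))) / 2 =
          ∑ j ∈ range (k + 1), (S - dav (pq f 0) (j + 1) (m + 1 + 7) l) := by
        rw [← Finset.sum_add_distrib, Finset.sum_div]
        refine Finset.sum_congr rfl fun j _ => ?_
        rw [← e j]
        ring
      rw [e2, ← Finset.sum_sub_distrib]
      have e3 : ∀ j ∈ range (k + 1), (S - dav (pq f 0) j (m + 1 + 7) l) -
          (S - dav (pq f 0) (j + 1) (m + 1 + 7) l) =
          dav (pq f 0) (j + 1) (m + 1 + 7) l - dav (pq f 0) j (m + 1 + 7) l := fun j _ => by ring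
      rw [Finset.sum_congr rfl e3, Finset.sum_range_sub (fun j => dav (pq f 0) j (m + 1 + 7) l),
        dav_zero]
      exact le_refl _)
    (fun l _ => by
      simp only [LD]
      have e3 : ∑ j ∈ range (k + 1), (dav (pq f 0) (j + 1) (0 + 7) l - dav (pq f 0) j (0 + 7) l) =
          dav (pq f 0) (k + 1) (0 + 7) l - pq f 0 (0 + 7) l := by
        rw [Finset.sum_range_sub (fun j => dav (pq f 0) j (0 + 7) l), dav_zero]
      rw [← e3]
      refine Finset.sum_le_sum fun j _ => ?_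
      have := hS0 (j + 1) (0 + 7) l
      linarith)
  intro p hp
  refine (h1 p hp).trans ?_
  have h2 : ∑ j ∈ range (k + 1), (S - dav (pq f 0) j (p.1 + 7) p.2) ≤
      ∑ _j ∈ range (k + 1), S :=
    Finset.sum_le_sum fun j _ => by linarith [hn0 j (p.1 + 7) p.2]
  rw [Finset.sum_const, Finset.card_range, nsmul_eq_mul] at h2
  have h3 := mul_le_mul_of_nonneg_left h2 (Growth.len_pos p).le
  push_cast at h3
  linarith

/-- leaf energy of the deviation is paid by the drift inside the window -/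
theorem dev_energy {W : Finset Nd} {I : Nd} (hW : Full W I) (f : ℤ → H) (k : ℕ) (c : H) :
    ∀ p ∈ W, SL W p (fun L => ‖Mn f L - c‖ ^ 2) ≤
      len p * ‖Mn f p - c‖ ^ 2 + bel (W \ lf W) (LD f k) p := by
  refine full_ind hW (fun p hp => ?_) fun m l hp hnl h0 h1 e0 e1 => ?_
  · rw [SL_leaf hp]
    have := bel_nonneg (R := W \ lf W) (LD_nonneg f k) p
    linarith
  · rw [SL_node hW hnl h0 h1, bel_node _ (Finset.mem_sdiff.2 ⟨hp, hnl⟩)]
    have hl0 : len (m + 1, l) = 2 * len (m, 2 * l) := len_ch m l _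
    have hl1 : len (m, 2 * l + 1) = len (m, 2 * l) := rfl
    rw [hl1] at e1
    have hpos := Growth.len_pos (m, 2 * l)
    have h2 := pq_succ f c (m + 7) l
    have h3 := pq_succ f 0 (m + 7) l
    have h4 : ‖(1 / 2 : ℝ) • (mean f (m + 7) (2 * l) - mean f (m + 7) (2 * l + 1))‖ ^ 2 ≤
        LD f k (m + 1, l) := by
      unfold LD
      simp only
      have h5 := dav_mono' (pq f 0) (pq_sub f 0) (Nat.le_add_left 1 k) (m + 1 + 7) l
      have h6 : dav (pq f 0) 1 (m + 1 + 7) l =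
          (pq f 0 (m + 7) (2 * l) + pq f 0 (m + 7) (2 * l + 1)) / 2 := by
        rw [show m + 1 + 7 = m + 7 + 1 by omega, dav_succ, dav_zero, dav_zero]
      have h7 : pq f 0 (m + 1 + 7) l = pq f 0 (m + 7 + 1) l := by
        rw [show m + 1 + 7 = m + 7 + 1 by omega]
      rw [h7]
      linarith
    have h8 : ‖Mn f (m + 1, l) - c‖ ^ 2 = pq f c (m + 7 + 1) l := by
      have : m + 7 + 1 = m + 1 + 7 := by omega
      rw [this]
      rfl
    have h9 : ‖Mn f (m, 2 * l) - c‖ ^ 2 = pq f c (m + 7) (2 * l) := rfl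
    have h10 : ‖Mn f (m, 2 * l + 1) - c‖ ^ 2 = pq f c (m + 7) (2 * l + 1) := rfl
    rw [h9] at e0
    rw [h10] at e1
    rw [h8, h2, hl0]
    have h11 := mul_le_mul_of_nonneg_left h4 hpos.le
    nlinarith [h11, e0, e1]

/-- **STATIC WINDOWS of a bounded `H`-valued line function, with look-ahead** -/
theorem gram_windows {R : Finset Nd} {J : Nd} (hR : Full R J) (f : ℤ → H) {S θ : ℝ} (hθ : 0 < θ)
    (hf : ∀ y, ‖f y‖ ^ 2 ≤ S) (k : ℕ) :
    ∃ (T : Finset Nd) (W : Nd → Finset Nd), Part R T W (2 + 40 * ((k + 1) * S) / θ) ∧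
      ∀ K ∈ T, (∀ p ∈ W K, ‖Mn f p - Mn f K‖ ^ 2 ≤ θ) ∧
        (W K = {K} ∨ ∀ p ∈ W K, ∀ j ≤ k + 1,
          dav (pq f (Mn f K)) j (p.1 + 7) p.2 ≤ 2 * θ) := by
  obtain ⟨T, W, hP, hT⟩ := pred_windows hR (D := LD f k)
    (dev := fun I p => ‖Mn f p - Mn f I‖ ^ 2) (S := (k + 1) * S) (A := 1) hθ zero_le_one
    (LD_nonneg f k) (LD_carleson hR f hf k) (fun I p => sq_nonneg _)
    (fun I => by simp) (fun I hI V hV hVR => by
      have h1 := dev_energy hV f k (Mn f I) I hV.top
      rw [sub_self, norm_zero] at h1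
      have h2 : ∑ L ∈ lf V, len L * ‖Mn f L - Mn f I‖ ^ 2 =
          SL V I (fun L => ‖Mn f L - Mn f I‖ ^ 2) := by
        unfold SL
        have : (lf V).filter (fun L => iv L ⊆ iv I) = lf V := by
          rw [Finset.filter_eq_self]
          exact fun L hL => hV.reg.1 L (mem_lf.1 hL).1
        rw [this]
      rw [h2]
      have h3 := Growth.len_pos I
      have h4 : 0 ≤ θ / 8 * len I := by positivity
      linarith)
  refine ⟨T, W, ?_, fun K hK => ⟨(hT K hK).1, ?_⟩⟩
  · have e : 20 * (1 + 1) * ((k + 1) * S) / θ = 40 * ((k + 1) * S) / θ := by ring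
    rw [← e]
    exact hP
  · rcases (hT K hK).2 with h | h
    · exact Or.inl h
    · refine Or.inr fun p hp j hj => ?_
      have h1 := (h p hp).1
      have h2 := acc_nonneg (LD_nonneg f k) K p
      have h3 := (hT K hK).1 p hp
      have h4 := dav_mono' (pq f (Mn f K)) (pq_sub f _) hj (p.1 + 7) p.2
      have h5 := dav_shift f (Mn f K) (k + 1) (p.1 + 7) p.2
      have h6 : pq f (Mn f K) (p.1 + 7) p.2 = ‖Mn f p - Mn f K‖ ^ 2 := rfl
      have h7 : LD f k p = dav (pq f 0) (k + 1) (p.1 + 7) p.2 - pq f 0 (p.1 + 7) p.2 := rfl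
      linarith

/-! ### arbitrary intervals -/

/-- number of end points of `[a, b)` strictly inside `dI k l` -/
def nb (a b : ℤ) (k : ℕ) (l : ℤ) : ℝ :=
  (if l * 2 ^ k < a ∧ a < (l + 1) * 2 ^ k then 1 else 0) +
    (if l * 2 ^ k < b ∧ b < (l + 1) * 2 ^ k then 1 else 0)










end Crest.Agent.R079.WinH222
end

-- ▼ part R079/GWin_590
section

/-! R079, doc 2531 / 530's fixed weight / 844's additive form: GRAM WINDOWS with look-ahead (helper590).

Scalar family `S : ι → Nd → ℂ`, additive over the two children (entries of `∑ v v*` over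
`{z_b : y_a ∈ iv p}`, all pairs `(x_i, x_m)`), weights `om ≥ 0`, `Mn (S i) p = S i p / len p`,
`En om S p = ∑ om ‖M‖²`, `Df om S p q = ∑ om ‖M p - M q‖²`, exact drift `Dr`.
`gram_windows`: partition into full windows, `≤ 2 + 40 (k+1) S₀/θ` tops below every node, such that
`M` deviates from the top value by `≤ θ` at all nodes and (unless the window is one node) the same
holds in the mean over all descendants of depth `j ≤ k` (also below the leaves of `R`). -/

set_option autoImplicit false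

namespace Crest.Agent.R079.GWin

open Finset Crest.Agent.R079.Grid Crest.Agent.R079.Growth Crest.Agent.R079.QRed
  Crest.Agent.R079.Qe292 Crest.Agent.R079.Qh249 Crest.Agent.R079.TWin Crest.Agent.R079.PWin

/-! ### sums over descendants -/

/-- sum of `f` over the descendants of depth `j` (`0` if `j > level`) -/
noncomputable def sd (f : Nd → ℝ) : ℕ → Nd → ℝ
  | 0, p => f p
  | _ + 1, (0, _) => 0
  | j + 1, (m + 1, l) => sd f j (m, 2 * l) + sd f j (m, 2 * l + 1)

/-- descendants of depth `j` -/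
noncomputable def desc (j : ℕ) (p : Nd) : Finset Nd :=
  (Finset.Ico (p.2 * 2 ^ j) ((p.2 + 1) * 2 ^ j)).image (fun l' => ((p.1 - j, l') : Nd))

theorem sd_zero (f : Nd → ℝ) (p : Nd) : sd f 0 p = f p := by
  rcases p with ⟨m, l⟩
  rw [sd]

theorem sd_bot (f : Nd → ℝ) (j : ℕ) (l : ℤ) : sd f (j + 1) (0, l) = 0 := by rw [sd]

theorem sd_succ (f : Nd → ℝ) (j m : ℕ) (l : ℤ) :
    sd f (j + 1) (m + 1, l) = sd f j (m, 2 * l) + sd f j (m, 2 * l + 1) := by rw [sd]

theorem sd_nonneg {f : Nd → ℝ} (hf : ∀ p, 0 ≤ f p) (j : ℕ) : ∀ p, 0 ≤ sd f j p := by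
  induction j with
  | zero => intro p; rw [sd_zero]; exact hf p
  | succ j ih =>
    intro p
    rcases p with ⟨m, l⟩
    cases m with
    | zero => rw [sd_bot]
    | succ m => rw [sd_succ]; exact add_nonneg (ih _) (ih _)

theorem sum_desc (f : Nd → ℝ) (j : ℕ) : ∀ p : Nd, j ≤ p.1 → ∑ r ∈ desc j p, f r = sd f j p := by
  induction j with
  | zero =>
    intro p _
    rw [sd_zero]
    unfold desc
    rw [pow_zero, mul_one, mul_one, Finset.sum_image (fun a _ b _ h => congrArg Prod.snd h)]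
    have : Finset.Ico p.2 (p.2 + 1) = {p.2} := by
      ext z
      rw [Finset.mem_Ico, Finset.mem_singleton]
      omega
    rw [this, Finset.sum_singleton, Nat.sub_zero]
  | succ j ih =>
    intro p hp
    rcases p with ⟨m, l⟩
    cases m with
    | zero => simp at hp
    | succ m =>
      have hjm : j ≤ m := by simpa using hp
      rw [sd_succ, ← ih (m, 2 * l) hjm, ← ih (m, 2 * l + 1) hjm]
      unfold desc
      simp only
      rw [Finset.sum_image (fun a _ b _ h => congrArg Prod.snd h),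
        Finset.sum_image (fun a _ b _ h => congrArg Prod.snd h),
        Finset.sum_image (fun a _ b _ h => congrArg Prod.snd h)]
      have e1 : m + 1 - (j + 1) = m - j := by omega
      have e2 : l * 2 ^ (j + 1) = 2 * l * 2 ^ j := by rw [pow_succ]; ring
      have e3 : (l + 1) * 2 ^ (j + 1) = (2 * l + 1 + 1) * 2 ^ j := by rw [pow_succ]; ring
      rw [e1, e2, e3]
      have hpos : (0 : ℤ) < 2 ^ j := by positivity
      rw [← Finset.sum_union (Finset.Ico_disjoint_Ico_consecutive _ _ _),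
        Finset.Ico_union_Ico_eq_Ico (by nlinarith) (by nlinarith)]



/-! ### look-ahead of a node function -/

/-- Carleson function of the sums of depth `j` -/
noncomputable def TT (f : Nd → ℝ) (j : ℕ) : Nd → ℝ
  | (0, l) => sd f j (0, l)
  | (m + 1, l) => sd f j (m + 1, l) + (TT f j (m, 2 * l) + TT f j (m, 2 * l + 1))
termination_by p => p.1

theorem TT_bot (f : Nd → ℝ) (j : ℕ) (l : ℤ) : TT f j (0, l) = sd f j (0, l) := by rw [TT]

theorem TT_node (f : Nd → ℝ) (j m : ℕ) (l : ℤ) :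
    TT f j (m + 1, l) = sd f j (m + 1, l) + (TT f j (m, 2 * l) + TT f j (m, 2 * l + 1)) := by
  rw [TT]

theorem TT_succ (f : Nd → ℝ) (j m : ℕ) : ∀ l : ℤ,
    TT f (j + 1) (m + 1, l) = TT f j (m, 2 * l) + TT f j (m, 2 * l + 1) := by
  induction m with
  | zero =>
    intro l
    rw [TT_node, sd_succ, TT_bot, TT_bot, TT_bot, TT_bot, sd_bot, sd_bot]
    ring
  | succ m ih =>
    intro l
    rw [TT_node, sd_succ, ih, ih, TT_node f j m (2 * l), TT_node f j m (2 * l + 1)]
    ring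

theorem TT_le {f : Nd → ℝ} (hf : ∀ p, 0 ≤ f p) (j : ℕ) : ∀ p, TT f j p ≤ TT f 0 p := by
  induction j with
  | zero => intro p; exact le_rfl
  | succ j ih =>
    intro p
    rcases p with ⟨m, l⟩
    cases m with
    | zero =>
      rw [TT_bot, TT_bot, sd_bot, sd_zero]
      exact hf _
    | succ m =>
      rw [TT_succ, TT_node, sd_zero]
      have h1 := ih (m, 2 * l)
      have h2 := ih (m, 2 * l + 1)
      have h3 := hf (m + 1, l)
      linarith

/-- look-ahead of `k` generations -/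
noncomputable def la (k : ℕ) (D : Nd → ℝ) (p : Nd) : ℝ :=
  (∑ j ∈ range (k + 1), sd (fun q => len q * D q) j p) / len p

theorem mass_nonneg {D : Nd → ℝ} (hD : ∀ p, 0 ≤ D p) (p : Nd) : 0 ≤ len p * D p :=
  mul_nonneg (Growth.len_pos p).le (hD p)

theorem la_nonneg (k : ℕ) {D : Nd → ℝ} (hD : ∀ p, 0 ≤ D p) (p : Nd) : 0 ≤ la k D p :=
  div_nonneg (Finset.sum_nonneg fun _ _ => sd_nonneg (mass_nonneg hD) _ _) (Growth.len_pos p).le

theorem len_mul_la (k : ℕ) (D : Nd → ℝ) (p : Nd) :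
    len p * la k D p = ∑ j ∈ range (k + 1), sd (fun q => len q * D q) j p := by
  unfold la
  have := (Growth.len_pos p).ne'
  field_simp

theorem le_la (k : ℕ) {D : Nd → ℝ} (hD : ∀ p, 0 ≤ D p) (p : Nd) : D p ≤ la k D p := by
  refine le_of_mul_le_mul_left ?_ (Growth.len_pos p)
  rw [len_mul_la]
  have h := Finset.single_le_sum (f := fun j => sd (fun q => len q * D q) j p)
    (fun j _ => sd_nonneg (mass_nonneg hD) j p) (Finset.mem_range.2 (Nat.succ_pos k))
  simp only [sd_zero] at h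
  exact h

theorem bel_la {R : Finset Nd} {J : Nd} (hR : Full R J) (k : ℕ) {D : Nd → ℝ}
    (hD : ∀ p, 0 ≤ D p) : ∀ p ∈ R, bel R (la k D) p ≤ (k + 1 : ℝ) * TT (fun q => len q * D q) 0 p := by
  have key : ∀ p ∈ R, bel R (la k D) p
      ≤ ∑ j ∈ range (k + 1), TT (fun q => len q * D q) j p := by
    refine full_ind hR (fun p hp => ?_) fun m l hp hnl h0 h1 e0 e1 => ?_
    · rw [bel_leaf _ hp, len_mul_la]
      refine Finset.sum_le_sum fun j _ => ?_
      rcases p with ⟨m, l⟩
      cases m with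
      | zero => rw [TT_bot]
      | succ m =>
        rw [TT_node]
        have hT : ∀ (m : ℕ) (l : ℤ), 0 ≤ TT (fun q => len q * D q) j (m, l) := by
          intro m
          induction m with
          | zero => intro l; rw [TT_bot]; exact sd_nonneg (mass_nonneg hD) _ _
          | succ m ih =>
            intro l
            rw [TT_node]
            have h1 := sd_nonneg (mass_nonneg hD) j (m + 1, l)
            have h2 := ih (2 * l)
            have h3 := ih (2 * l + 1)
            linarith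
        have h2 := hT m (2 * l)
        have h3 := hT m (2 * l + 1)
        linarith
    · rw [bel_node _ hp, len_mul_la]
      have e : ∑ j ∈ range (k + 1), TT (fun q => len q * D q) j (m + 1, l)
          = ∑ j ∈ range (k + 1), sd (fun q => len q * D q) j (m + 1, l)
            + (∑ j ∈ range (k + 1), TT (fun q => len q * D q) j (m, 2 * l)
              + ∑ j ∈ range (k + 1), TT (fun q => len q * D q) j (m, 2 * l + 1)) := by
        rw [← Finset.sum_add_distrib, ← Finset.sum_add_distrib]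
        exact Finset.sum_congr rfl fun j _ => TT_node _ _ _ _
      rw [e]
      linarith
  intro p hp
  refine (key p hp).trans ?_
  calc ∑ j ∈ range (k + 1), TT (fun q => len q * D q) j p
      ≤ ∑ _j ∈ range (k + 1), TT (fun q => len q * D q) 0 p :=
        Finset.sum_le_sum fun j _ => TT_le (mass_nonneg hD) j p
    _ = _ := by rw [Finset.sum_const, Finset.card_range, nsmul_eq_mul]; push_cast; ring

/-! ### the Gram martingale -/

variable {ι : Type*} [Fintype ι]

/-- mean -/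
noncomputable def Mn (S : Nd → ℂ) (p : Nd) : ℂ := S p / ((len p : ℝ) : ℂ)

/-- energy -/
noncomputable def En (om : ι → ℝ) (S : ι → Nd → ℂ) (p : Nd) : ℝ := ∑ i, om i * ‖Mn (S i) p‖ ^ 2

/-- deviation -/
noncomputable def Df (om : ι → ℝ) (S : ι → Nd → ℂ) (p q : Nd) : ℝ :=
  ∑ i, om i * ‖Mn (S i) p - Mn (S i) q‖ ^ 2

/-- drift -/
noncomputable def Dr (om : ι → ℝ) (S : ι → Nd → ℂ) : Nd → ℝ
  | (0, _) => 0
  | (m + 1, l) => ∑ i, om i * ‖(Mn (S i) (m, 2 * l) - Mn (S i) (m, 2 * l + 1)) / 2‖ ^ 2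

/-- additive over the children -/
def Add (S : ι → Nd → ℂ) : Prop :=
  ∀ i (m : ℕ) (l : ℤ), S i (m + 1, l) = S i (m, 2 * l) + S i (m, 2 * l + 1)

variable {om : ι → ℝ} {S : ι → Nd → ℂ}

omit [Fintype ι] in
theorem Mn_node (hS : Add S) (i : ι) (m : ℕ) (l : ℤ) :
    Mn (S i) (m + 1, l) = (Mn (S i) (m, 2 * l) + Mn (S i) (m, 2 * l + 1)) / 2 := by
  unfold Mn
  have hl0 : len (m + 1, l) = 2 * len (m, 2 * l) := len_ch m l _
  have hl1 : len (m, 2 * l + 1) = len (m, 2 * l) := rfl
  have hne : ((len (m, 2 * l) : ℝ) : ℂ) ≠ 0 := by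
    exact_mod_cast (Growth.len_pos (m, 2 * l)).ne'
  rw [hS i m l, hl0, hl1]
  push_cast
  field_simp

theorem par_id (a b : ℂ) : ‖(a + b) / 2‖ ^ 2 + ‖(a - b) / 2‖ ^ 2 = (‖a‖ ^ 2 + ‖b‖ ^ 2) / 2 := by
  have h := parallelogram_law_with_norm ℝ a b
  rw [norm_div, norm_div]
  have h2 : ‖(2 : ℂ)‖ = 2 := by norm_num
  rw [h2]
  nlinarith

theorem Dr_nonneg (hom : ∀ i, 0 ≤ om i) : ∀ p, 0 ≤ Dr om S p
  | (0, _) => le_refl _
  | (m + 1, l) => Finset.sum_nonneg fun i _ => mul_nonneg (hom i) (by positivity)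

theorem Df_nonneg (hom : ∀ i, 0 ≤ om i) (p q : Nd) : 0 ≤ Df om S p q :=
  Finset.sum_nonneg fun i _ => mul_nonneg (hom i) (by positivity)

theorem Df_self (p : Nd) : Df om S p p = 0 := by
  unfold Df
  refine Finset.sum_eq_zero fun i _ => ?_
  rw [sub_self, norm_zero]
  ring

theorem En_nonneg (hom : ∀ i, 0 ≤ om i) (p : Nd) : 0 ≤ En om S p :=
  Finset.sum_nonneg fun i _ => mul_nonneg (hom i) (by positivity)

theorem En_node (hS : Add S) (m : ℕ) (l : ℤ) :
    En om S (m + 1, l) + Dr om S (m + 1, l)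
      = (En om S (m, 2 * l) + En om S (m, 2 * l + 1)) / 2 := by
  show ∑ i, om i * ‖Mn (S i) (m + 1, l)‖ ^ 2
    + ∑ i, om i * ‖(Mn (S i) (m, 2 * l) - Mn (S i) (m, 2 * l + 1)) / 2‖ ^ 2
    = (∑ i, om i * ‖Mn (S i) (m, 2 * l)‖ ^ 2 + ∑ i, om i * ‖Mn (S i) (m, 2 * l + 1)‖ ^ 2) / 2
  rw [← Finset.sum_add_distrib, ← Finset.sum_add_distrib, Finset.sum_div]
  refine Finset.sum_congr rfl fun i _ => ?_
  rw [Mn_node hS i m l]
  have h := par_id (Mn (S i) (m, 2 * l)) (Mn (S i) (m, 2 * l + 1))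
  have h2 : om i * (‖(Mn (S i) (m, 2 * l) + Mn (S i) (m, 2 * l + 1)) / 2‖ ^ 2
      + ‖(Mn (S i) (m, 2 * l) - Mn (S i) (m, 2 * l + 1)) / 2‖ ^ 2)
      = om i * ((‖Mn (S i) (m, 2 * l)‖ ^ 2 + ‖Mn (S i) (m, 2 * l + 1)‖ ^ 2) / 2) := by rw [h]
  linarith

theorem Df_node (hS : Add S) (m : ℕ) (l : ℤ) (K : Nd) :
    Df om S (m + 1, l) K + Dr om S (m + 1, l)
      = (Df om S (m, 2 * l) K + Df om S (m, 2 * l + 1) K) / 2 := by
  show ∑ i, om i * ‖Mn (S i) (m + 1, l) - Mn (S i) K‖ ^ 2
    + ∑ i, om i * ‖(Mn (S i) (m, 2 * l) - Mn (S i) (m, 2 * l + 1)) / 2‖ ^ 2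
    = (∑ i, om i * ‖Mn (S i) (m, 2 * l) - Mn (S i) K‖ ^ 2
      + ∑ i, om i * ‖Mn (S i) (m, 2 * l + 1) - Mn (S i) K‖ ^ 2) / 2
  rw [← Finset.sum_add_distrib, ← Finset.sum_add_distrib, Finset.sum_div]
  refine Finset.sum_congr rfl fun i _ => ?_
  have h := par_id (Mn (S i) (m, 2 * l) - Mn (S i) K) (Mn (S i) (m, 2 * l + 1) - Mn (S i) K)
  have e1 : (Mn (S i) (m, 2 * l) - Mn (S i) K + (Mn (S i) (m, 2 * l + 1) - Mn (S i) K)) / 2
      = Mn (S i) (m + 1, l) - Mn (S i) K := by
    rw [Mn_node hS i m l]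
    ring
  have e2 : (Mn (S i) (m, 2 * l) - Mn (S i) K - (Mn (S i) (m, 2 * l + 1) - Mn (S i) K)) / 2
      = (Mn (S i) (m, 2 * l) - Mn (S i) (m, 2 * l + 1)) / 2 := by ring
  rw [e1, e2] at h
  have h2 : om i * (‖Mn (S i) (m + 1, l) - Mn (S i) K‖ ^ 2
      + ‖(Mn (S i) (m, 2 * l) - Mn (S i) (m, 2 * l + 1)) / 2‖ ^ 2)
      = om i * ((‖Mn (S i) (m, 2 * l) - Mn (S i) K‖ ^ 2
        + ‖Mn (S i) (m, 2 * l + 1) - Mn (S i) K‖ ^ 2) / 2) := by rw [h]
  linarith

/-- total drift of the full dyadic tree below a node -/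
theorem TT_Dr (hS : Add S) {S₀ : ℝ} (hB : ∀ p, En om S p ≤ S₀) :
    ∀ (m : ℕ) (l : ℤ), TT (fun q => len q * Dr om S q) 0 (m, l)
      ≤ len (m, l) * (S₀ - En om S (m, l)) := by
  intro m
  induction m with
  | zero =>
    intro l
    rw [TT_bot, sd_zero]
    show len (0, l) * 0 ≤ _
    rw [mul_zero]
    exact mul_nonneg (Growth.len_pos _).le (by linarith [hB (0, l)])
  | succ m ih =>
    intro l
    rw [TT_node, sd_zero]
    have h0 := ih (2 * l)
    have h1 := ih (2 * l + 1)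
    have h2 := En_node (om := om) hS m l
    have hl0 : len (m + 1, l) = 2 * len (m, 2 * l) := len_ch m l _
    have hl1 : len (m, 2 * l + 1) = len (m, 2 * l) := rfl
    rw [hl1] at h1
    have h3 : Dr om S (m + 1, l) = (En om S (m, 2 * l) + En om S (m, 2 * l + 1)) / 2
        - En om S (m + 1, l) := by linarith
    rw [hl0, h3]
    nlinarith

/-- martingale orthogonality in a window -/
theorem SL_Df (hS : Add S) {W : Finset Nd} {I : Nd} (hW : Full W I) (K : Nd) :
    ∀ p ∈ W, SL W p (fun L => Df om S L K)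
      = len p * Df om S p K + bel (W \ lf W) (Dr om S) p := by
  refine full_ind hW (fun p hp => ?_) fun m l hp hnl h0 h1 e0 e1 => ?_
  · rw [SL_leaf hp]
    have : bel (W \ lf W) (Dr om S) p = 0 := by
      classical
      unfold bel
      refine Finset.sum_eq_zero fun q hq => ?_
      exfalso
      obtain ⟨h1, h2⟩ := Finset.mem_filter.1 hq
      obtain ⟨h3, h4⟩ := Finset.mem_sdiff.1 h1
      rw [(mem_lf.1 hp).2 q h3 h2] at h4
      exact h4 hp
    rw [this, add_zero]
  · rw [SL_node hW hnl h0 h1, e0, e1, bel_node _ (Finset.mem_sdiff.2 ⟨hp, hnl⟩)]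
    have hl0 : len (m + 1, l) = 2 * len (m, 2 * l) := len_ch m l _
    have hl1 : len (m, 2 * l + 1) = len (m, 2 * l) := rfl
    have h2 := Df_node (om := om) hS m l K
    have h3 : Df om S (m, 2 * l + 1) K = 2 * (Df om S (m + 1, l) K + Dr om S (m + 1, l))
        - Df om S (m, 2 * l) K := by linarith
    rw [hl1, hl0, h3]
    ring

/-- deviation of the descendants of depth `j` -/
theorem sd_Df (hS : Add S) (K : Nd) (j : ℕ) : ∀ p : Nd, j ≤ p.1 →
    sd (fun r => len r * Df om S r K) j p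
      = len p * Df om S p K + ∑ i ∈ range j, sd (fun q => len q * Dr om S q) i p := by
  induction j with
  | zero =>
    intro p _
    rw [sd_zero, Finset.range_zero, Finset.sum_empty, add_zero]
  | succ j ih =>
    intro p hp
    rcases p with ⟨m, l⟩
    cases m with
    | zero => simp at hp
    | succ m =>
      have hjm : j ≤ m := by simpa using hp
      rw [sd_succ, ih (m, 2 * l) hjm, ih (m, 2 * l + 1) hjm, Finset.sum_range_succ', sd_zero]
      have hl0 : len (m + 1, l) = 2 * len (m, 2 * l) := len_ch m l _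
      have hl1 : len (m, 2 * l + 1) = len (m, 2 * l) := rfl
      have h2 := Df_node (om := om) hS m l K
      have h3 : Df om S (m, 2 * l + 1) K = 2 * (Df om S (m + 1, l) K + Dr om S (m + 1, l))
        - Df om S (m, 2 * l) K := by linarith
      have e : ∑ i ∈ range j, sd (fun q => len q * Dr om S q) (i + 1) (m + 1, l)
          = ∑ i ∈ range j, sd (fun q => len q * Dr om S q) i (m, 2 * l)
            + ∑ i ∈ range j, sd (fun q => len q * Dr om S q) i (m, 2 * l + 1) := by
        rw [← Finset.sum_add_distrib]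
        exact Finset.sum_congr rfl fun i _ => sd_succ _ _ _ _
      rw [e, hl1, hl0, h3]
      ring

/-- **GRAM WINDOWS** -/
theorem gram_windows {R : Finset Nd} {J : Nd} (hR : Full R J) (hom : ∀ i, 0 ≤ om i) (hS : Add S)
    {S₀ θ : ℝ} (k : ℕ) (hθ : 0 < θ) (hB : ∀ p, En om S p ≤ S₀) :
    ∃ (T : Finset Nd) (W : Nd → Finset Nd), Part R T W (2 + 40 * (k + 1) * S₀ / θ) ∧
      ∀ K ∈ T, (∀ p ∈ W K, Df om S p K ≤ θ) ∧
        (W K = {K} ∨ ∀ p ∈ W K, acc (la k (Dr om S)) K p + la k (Dr om S) p ≤ θ ∧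
          ∀ j ≤ k, j ≤ p.1 → ∑ r ∈ desc j p, len r * Df om S r K ≤ 2 * θ * len p) := by
  have hD0 := Dr_nonneg (om := om) (S := S) hom
  have hL0 := la_nonneg k hD0
  have hcar : ∀ p ∈ R, bel R (la k (Dr om S)) p ≤ ((k + 1 : ℝ) * S₀) * len p := by
    intro p hp
    have h1 := bel_la hR k hD0 p hp
    have h2 := TT_Dr hS hB p.1 p.2
    have h3 : TT (fun q => len q * Dr om S q) 0 p ≤ len p * (S₀ - En om S p) := h2
    have h4 := mul_nonneg (Growth.len_pos p).le (En_nonneg hom (S := S) p)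
    have h5 : TT (fun q => len q * Dr om S q) 0 p ≤ S₀ * len p := by nlinarith
    have h6 := mul_le_mul_of_nonneg_left h5 (by positivity : (0 : ℝ) ≤ (k : ℝ) + 1)
    linarith
  obtain ⟨T, W, hP, hW⟩ := pred_windows (A := 1) (dev := fun K p => Df om S p K) hR hθ
    (by norm_num) hL0 hcar (fun I p => Df_nonneg hom p I) (fun I => Df_self I) (by
      intro I _ V hV _
      have h1 := SL_Df (om := om) hS hV I I hV.top
      rw [Df_self, mul_zero, zero_add] at h1
      rw [SL_top hV, h1]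
      have h2 : bel (V \ lf V) (Dr om S) I ≤ bel (V \ lf V) (la k (Dr om S)) I :=
        Finset.sum_le_sum fun q _ =>
          mul_le_mul_of_nonneg_left (le_la k hD0 q) (Growth.len_pos q).le
      have h3 := mul_pos hθ (Growth.len_pos I)
      nlinarith)
  refine ⟨T, W, ?_, fun K hK => ⟨(hW K hK).1, ?_⟩⟩
  · have e : 2 + 20 * (1 + 1) * ((k + 1 : ℝ) * S₀) / θ = 2 + 40 * (k + 1) * S₀ / θ := by ring
    rw [← e]
    exact hP
  · rcases (hW K hK).2 with h | h
    · exact Or.inl h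
    · right
      intro p hp
      refine ⟨(h p hp).1, fun j hj hjp => ?_⟩
      rw [sum_desc _ j p hjp, sd_Df hS K j p hjp]
      have h1 := (hW K hK).1 p hp
      have h2 : la k (Dr om S) p ≤ θ := by
        have h3 := acc_nonneg hL0 K p
        linarith [(h p hp).1]
      have h4 : ∑ i ∈ range j, sd (fun q => len q * Dr om S q) i p
          ≤ ∑ i ∈ range (k + 1), sd (fun q => len q * Dr om S q) i p :=
        Finset.sum_le_sum_of_subset_of_nonneg
          (Finset.range_subset_range.2 (by omega)) fun i _ _ => sd_nonneg (mass_nonneg hD0) i p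
      rw [← len_mul_la] at h4
      have h5 := mul_le_mul_of_nonneg_left h1 (Growth.len_pos p).le
      have h6 := mul_le_mul_of_nonneg_left h2 (Growth.len_pos p).le
      linarith

end Crest.Agent.R079.GWin
private theorem rz_1ad91ffee9 : type_of% @_root_.Crest.Agent.R079.GWin.TT.eq_1 := @_root_.Crest.Agent.R079.GWin.TT.eq_1 -- L122
private theorem rz_2728e44cbf : type_of% @_root_.Crest.Agent.R079.GWin.TT.eq_def := @_root_.Crest.Agent.R079.GWin.TT.eq_def -- L122
private theorem rz_ecb3e9b4dd : type_of% @_root_.Crest.Agent.R079.GWin.sd.eq_def := @_root_.Crest.Agent.R079.GWin.sd.eq_def -- L22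
private theorem rz_0333605667 : type_of% @_root_.Crest.Agent.R079.GWin.sd.eq_1 := @_root_.Crest.Agent.R079.GWin.sd.eq_1 -- L22
end

-- ▼ part R079/Wc1_863
section

/-! R079, S2 (g5), abstract half (helper863): UNION / REFINEMENT of the static windows and transfer of the
deviation estimates.

* `dev_union`   : finite family of window systems with "deviation from the top ≤ θ i" (any squared
  distance): ONE `Part`, counts add, deviation ≤ `4 θ i` from the NEW tops; the coarse window of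
  each system is returned.
* `dev_refine`  : window systems inside the windows of a first one (product of the counts).
* `mean_tri`, `dav_center`, `Df_tri`, `desc_center` : the instances (222's and 590's forms).
* `gram_union`, `gram_refine` : 222's `gram_windows` for a finite family / inside given windows.
* `GrU`, `GrL` : monotone in the node set, change of the matrix.
* `bad_meas`    : maximal nodes where a submartingale deviation exceeds `δ`: total length
  `≤ (mean over the leaves) / δ`, summed over any weighted family. -/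

set_option autoImplicit false

namespace Crest.Agent.R079.Wc1863

open Finset Crest.Agent.R079.Grid Crest.Agent.R079.Growth Crest.Agent.R079.QRed
  Crest.Agent.R079.Qe292 Crest.Agent.R079.Qh249 Crest.Agent.R079.TWin Crest.Agent.R079.PWin
  Crest.Agent.R079.WinA222

variable {R : Finset Nd} {J : Nd}

/-! ### union -/



/-! ### refinement -/

/-- **REFINEMENT** of a window system by systems inside its windows -/
theorem dev_refine (hR : Full R J) {S : Finset Nd} {W : Nd → Finset Nd} {C C' : ℝ}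
    (hC' : 0 ≤ C') (h : Part R S W C) (Q : Nd → Nd → Finset Nd → Prop)
    (hT : ∀ K ∈ S, ∃ (T : Finset Nd) (V : Nd → Finset Nd), Part (W K) T V C' ∧
      ∀ K' ∈ T, Q K K' (V K')) :
    ∃ (S' : Finset Nd) (W' : Nd → Finset Nd), Part R S' W' (C' * (1 + C)) ∧
      ∀ K' ∈ S', ∃ K ∈ S, K' ∈ W K ∧ W' K' ⊆ W K ∧ Q K K' (W' K') := by
  classical
  have hex : ∀ K : Nd, ∃ (T : Finset Nd) (V : Nd → Finset Nd), K ∈ S →
      (Part (W K) T V C' ∧ ∀ K' ∈ T, Q K K' (V K')) := by
    intro K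
    by_cases hK : K ∈ S
    · obtain ⟨T, V, h1⟩ := hT K hK
      exact ⟨T, V, fun _ => h1⟩
    · exact ⟨∅, fun _ => ∅, fun h1 => absurd h1 hK⟩
  choose T V hTV using hex
  obtain ⟨S', W', hP, hW⟩ := refine_part hR hC' h T V fun K hK => (hTV K hK).1
  refine ⟨S', W', hP, fun K' hK' => ?_⟩
  obtain ⟨K, hK, h1, h2, h3⟩ := hW K' hK'
  refine ⟨K, hK, (hTV K hK).1.sub h1, h3, ?_⟩
  rw [h2]
  exact (hTV K hK).2 K' h1

/-! ### 222's form: Hilbert valued means -/

section hilbert

variable {H : Type*} [NormedAddCommGroup H] [InnerProductSpace ℝ H]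






end hilbert

/-! ### 590's form: weighted scalar families -/

section scalar

variable {ι : Type*} [Fintype ι] {om : ι → ℝ} {S : ι → Nd → ℂ}








end scalar

/-! ### 71's comparison forms -/

section gram

open Matrix Crest.Agent.R079.St2 Crest.Agent.R079.LeafV71
open scoped ComplexOrder MatrixOrder

variable {ι : Type*} [Fintype ι] [DecidableEq ι]

omit [DecidableEq ι] in
theorem GrU.mono {T T' : Finset (ℕ × ℤ)} {v : ℤ → ι → ℂ} {M : Matrix ι ι ℂ} {δ : ℝ}
    (h : GrU T v M δ) (hT : T' ⊆ T) : GrU T' v M δ := fun p hp x => h p (hT hp) x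

omit [DecidableEq ι] in
theorem GrL.mono {T T' : Finset (ℕ × ℤ)} {v : ℤ → ι → ℂ} {M : Matrix ι ι ℂ} {δ : ℝ}
    (h : GrL T v M δ) (hT : T' ⊆ T) : GrL T' v M δ := fun p hp x => h p (hT hp) x



/-- change of the matrix: from `M` to the Gram of any node `K ∈ T` -/
theorem GrU.top {T : Finset (ℕ × ℤ)} {v : ℤ → ι → ℂ} {M : Matrix ι ι ℂ} {δ δ' : ℝ}
    (h : GrU T v M δ) (h' : GrL T v M δ') {K : ℕ × ℤ} (hK : K ∈ T) :
    GrU T v (gr (dI (K.1 + 7) K.2) (1 / ln K) v) (δ + δ') := fun p hp x => by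
  have h1 := h p hp x
  have h2 := h' K hK x
  have h3 : qf (gr (dI (K.1 + 7) K.2) (1 / ln K) v) x = gf v K x := by
    rw [qf_gr]
    rfl
  rw [h3]
  linarith

theorem GrL.top {T : Finset (ℕ × ℤ)} {v : ℤ → ι → ℂ} {M : Matrix ι ι ℂ} {δ δ' : ℝ}
    (h : GrU T v M δ) (h' : GrL T v M δ') {K : ℕ × ℤ} (hK : K ∈ T) :
    GrL T v (gr (dI (K.1 + 7) K.2) (1 / ln K) v) (δ + δ') := fun p hp x => by
  have h1 := h K hK x
  have h2 := h' p hp x
  have h3 : qf (gr (dI (K.1 + 7) K.2) (1 / ln K) v) x = gf v K x := by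
    rw [qf_gr]
    rfl
  rw [h3]
  linarith

end gram

/-! ### stopping times: a submartingale deviation exceeds `δ` on a small set, per frozen pair -/

section stop



open Classical in
/-- good nodes: no bad node above (or equal) -/
noncomputable def Gd (W : Finset Nd) (D : Nd → ℝ) (δ : ℝ) : Finset Nd :=
  W.filter (fun p => ∀ q ∈ W, iv p ⊆ iv q → D q ≤ δ)










end stop

end Crest.Agent.R079.Wc1863
end

-- ▼ part R079/Wc_530

/-! R079, doc 2531 STEP II, (g5) of helper654: static windows with Gram closeness in the shape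
`LeafV71.GrU` / `GrL`, refinement of a given window partition.  helper530. -/

set_option autoImplicit false
set_option linter.unusedSectionVars false

namespace Crest.Agent.R079.Wc530

open Finset Matrix Crest.Agent.R079.Grid Crest.Agent.R079.Growth Crest.Agent.R079.QRed
  Crest.Agent.R079.Qe292 Crest.Agent.R079.TWin Crest.Agent.R079.St2 Crest.Agent.R079.LeafV71
open Crest.Agent.R079.WinH222 (Mn mean pq dav gram_windows)
open scoped ComplexOrder MatrixOrder

variable {ι : Type*} [Fintype ι] [DecidableEq ι]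

/-- `v v*` as a Hilbert vector -/
noncomputable def vv (v : ℤ → ι → ℂ) (y : ℤ) : EuclideanSpace ℂ (ι × ι) :=
  WithLp.toLp 2 (fun ij : ι × ι => v y ij.1 * star (v y ij.2))

theorem vv_sq (v : ℤ → ι → ℂ) (y : ℤ) : ‖vv v y‖ ^ 2 = n2 (v y) ^ 2 := by
  rw [EuclideanSpace.norm_sq_eq, Fintype.sum_prod_type]
  unfold n2
  rw [sq, Finset.sum_mul_sum]
  refine Finset.sum_congr rfl fun i _ => Finset.sum_congr rfl fun j _ => ?_
  simp only [vv]
  rw [norm_mul, mul_pow, norm_star]

/-- the Gram matrix of the node `p` -/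
noncomputable def Gm (v : ℤ → ι → ℂ) (p : ℕ × ℤ) : Matrix ι ι ℂ :=
  gr (dI (p.1 + 7) p.2) (1 / ln p) v

theorem mn_vv (v : ℤ → ι → ℂ) (p : Nd) (ij : ι × ι) : (Mn (vv v) p) ij = Gm v p ij.1 ij.2 := by
  unfold Mn mean Gm gr ln
  rw [PiLp.smul_apply]
  rw [show ((∑ y ∈ dI (p.1 + 7) p.2, vv v y) : EuclideanSpace ℂ (ι × ι)) ij =
    ∑ y ∈ dI (p.1 + 7) p.2, (vv v y) ij from by
      simp [WithLp.ofLp_sum, Finset.sum_apply]]
  simp only [vv, one_div]
  rw [Complex.real_smul]
  rfl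

theorem hs_eq (v : ℤ → ι → ℂ) (p K : Nd) :
    ∑ i, ∑ j, ‖(Gm v p - Gm v K) i j‖ ^ 2 = ‖Mn (vv v) p - Mn (vv v) K‖ ^ 2 := by
  rw [EuclideanSpace.norm_sq_eq, Fintype.sum_prod_type]
  refine Finset.sum_congr rfl fun i _ => Finset.sum_congr rfl fun j _ => ?_
  rw [PiLp.sub_apply, mn_vv, mn_vv, Matrix.sub_apply]

/-- **ONE LABEL VECTOR: static windows with Gram closeness** -/
theorem gram_part {R : Finset Nd} {J : Nd} (hR : Full R J) (v : ℤ → ι → ℂ) {B θ : ℝ}
    (hθ : 0 < θ) (hB : ∀ y, n2 (v y) ≤ B) (k : ℕ) :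
    ∃ (T : Finset Nd) (W : Nd → Finset Nd), Part R T W (2 + 40 * ((k + 1) * B ^ 2) / θ ^ 2) ∧
      ∀ K ∈ T, GrU (W K) v (Gm v K) θ ∧ GrL (W K) v (Gm v K) θ ∧
        (W K = {K} ∨ ∀ p ∈ W K, ∀ j ≤ k + 1,
          dav (pq (vv v) (Mn (vv v) K)) j (p.1 + 7) p.2 ≤ 2 * θ ^ 2) := by
  have hf : ∀ y, ‖vv v y‖ ^ 2 ≤ B ^ 2 := fun y => by
    rw [vv_sq]
    exact pow_le_pow_left₀ (n2_nonneg _) (hB y) 2
  obtain ⟨T, W, hP, hT⟩ := gram_windows hR (vv v) (θ := θ ^ 2) (by positivity) hf k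
  refine ⟨T, W, hP, fun K hK => ?_⟩
  have h := gr_of_hs (T := W K) (v := v) (M := Gm v K) hθ.le (fun p hp => by
    have h1 := (hT K hK).1 p hp
    rw [← hs_eq] at h1
    exact h1)
  exact ⟨h.1, h.2, (hT K hK).2⟩

theorem Gm_psd (v : ℤ → ι → ℂ) (p : Nd) : (Gm v p).PosSemidef := by
  unfold Gm
  exact gr_posSemidef _ (by unfold ln; positivity) _

/-- **A FINITE FAMILY OF LABEL VECTORS** (residues, gauges): one system of windows -/
theorem gram_family {κ : Type*} (s : Finset κ) {R : Finset Nd} {J : Nd} (hR : Full R J)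
    (v : κ → ℤ → ι → ℂ) {B θ : ℝ} (hθ : 0 < θ) (hB : ∀ r ∈ s, ∀ y, n2 (v r y) ≤ B) :
    ∃ (T : Finset Nd) (W : Nd → Finset Nd), Part R T W (1 + s.card * (2 + 40 * B ^ 2 / θ ^ 2)) ∧
      ∀ K ∈ T, ∀ r ∈ s, ∃ M : Matrix ι ι ℂ, M.PosSemidef ∧ GrU (W K) (v r) M θ ∧
        GrL (W K) (v r) M θ := by
  classical
  have h : ∀ r ∈ s, ∃ (T : Finset Nd) (W : Nd → Finset Nd), Part R T W (2 + 40 * B ^ 2 / θ ^ 2) ∧
      ∀ K ∈ T, GrU (W K) (v r) (Gm (v r) K) θ ∧ GrL (W K) (v r) (Gm (v r) K) θ := by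
    intro r hr
    obtain ⟨T, W, hP, hT⟩ := gram_part hR (v r) hθ (hB r hr) 0
    refine ⟨T, W, ?_, fun K hK => ⟨(hT K hK).1, (hT K hK).2.1⟩⟩
    have e : ((0 : ℕ) : ℝ) + 1 = 1 := by norm_num
    rw [e, one_mul] at hP
    exact hP
  choose! T V hP hG using h
  obtain ⟨S, W, hPS, hW, -, -⟩ := WinA222.part_family s hR T V
    (fun _ => 2 + 40 * B ^ 2 / θ ^ 2) hP
  refine ⟨S, W, ?_, fun K hK r hr => ?_⟩
  · rw [Finset.sum_const, nsmul_eq_mul] at hPS
    exact hPS
  · obtain ⟨A, hA, hWA, -⟩ := hW K hK r hr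
    exact ⟨Gm (v r) A, Gm_psd _ _, fun p hp => (hG r hr A hA).1 p (hWA hp),
      fun p hp => (hG r hr A hA).2 p (hWA hp)⟩

/-- **(g5)**: Gram windows INSIDE given windows (`h`: lasso windows of `LiftW_429`), label type and
label vectors depending on the outer window, finitely many residues `r ∈ s` -/
theorem gram_inside {κ : Type*} (s : Finset κ) {R : Finset Nd} {J : Nd} (hR : Full R J)
    {S : Finset Nd} {W : Nd → Finset Nd} {C : ℝ} (h : Part R S W C)
    (L : Nd → Type*) [∀ K, Fintype (L K)] [∀ K, DecidableEq (L K)]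
    (v : (K : Nd) → κ → ℤ → L K → ℂ) {B θ : ℝ} (hθ : 0 < θ)
    (hB : ∀ K ∈ S, ∀ r ∈ s, ∀ y, n2 (v K r y) ≤ B) :
    ∃ (S' : Finset Nd) (W' : Nd → Finset Nd),
      Part R S' W' ((1 + s.card * (2 + 40 * B ^ 2 / θ ^ 2)) * (1 + C)) ∧
      ∀ K' ∈ S', ∃ K ∈ S, K' ∈ W K ∧ W' K' ⊆ W K ∧ ∀ r ∈ s, ∃ M : Matrix (L K) (L K) ℂ,
        M.PosSemidef ∧ GrU (W' K') (v K r) M θ ∧ GrL (W' K') (v K r) M θ := by
  obtain ⟨S', W', hP, hT⟩ := Wc1863.dev_refine hR (C' := 1 + s.card * (2 + 40 * B ^ 2 / θ ^ 2))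
    (by positivity) h
    (fun K _ V => ∀ r ∈ s, ∃ M : Matrix (L K) (L K) ℂ,
      M.PosSemidef ∧ GrU V (v K r) M θ ∧ GrL V (v K r) M θ)
    (fun K hK => gram_family s (h.full K hK) (v K) hθ (hB K hK))
  exact ⟨S', W', hP, hT⟩

end Crest.Agent.R079.Wc530
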