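import Crest.Agent.R079.WinA_222
import Crest.Agent.R079.TWL_649
import Crest.Agent.R079.TDfb_853
import Crest.Agent.R079.Wc_530_Mg
import Crest.Agent.R079.Qb_247
import Crest.Agent.R079.Mg_530

-- ▼ part R079/WinB_222
section

/-! R079, doc 2531 (787), (O2), `TRec` forms (helper222): `Tops`, `Cnt`, `Adp`, `Sq` under superposition
of two systems of tops. -/

set_option autoImplicit false

namespace Crest.Agent.R079.WinA222

open Finset Crest.Agent.R079.Grid Crest.Agent.R079.Growth Crest.Agent.R079.QRed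
  Crest.Agent.R079.Qe292 Crest.Agent.R079.Qh249 Crest.Agent.R079.TWin



/-- existence of the window top -/
theorem exists_wn {R : Finset Nd} {J : Nd} (hR : Full R J) {T : Finset Nd} (h : TRec.Tops R J T)
    {p : Nd} (hp : p ∈ R) : ∃ I, TRec.Wn T I p := by
  classical
  obtain ⟨I, hI, hmin⟩ := Finset.exists_min_image (T.filter (fun I => iv p ⊆ iv I)) (fun I => I.1)
    ⟨J, Finset.mem_filter.2 ⟨h.top, hR.reg.1 p hp⟩⟩
  rw [Finset.mem_filter] at hI
  refine ⟨I, hI.1, hI.2, fun I' hI' hpI' => ?_⟩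
  rcases Qe292.sub_total hI.2 hpI' with h1 | h1
  · exact h1
  · have h2 := hmin I' (Finset.mem_filter.2 ⟨hI', hpI'⟩)
    rw [iv_eq_of_level h1 h2]





/-- the tops of a `Part` whose top window is at `J` form `Tops` -/
theorem tops_of_part {R : Finset Nd} {J : Nd} (hR : Full R J) {S : Finset Nd}
    {W : Nd → Finset Nd} {C : ℝ} (h : Part R S W C) : TRec.Tops R J S := by
  have hJ : J ∈ S := by
    obtain ⟨K, hK, hJK⟩ := h.cover J hR.top
    have h1 := (h.full K hK).reg.1 J hJK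
    have h2 := hR.reg.1 K (h.sub hK)
    rw [Qe292.iv_antisymm h1 h2]
    exact hK
  have hown : ∀ {A B p q : Nd}, A ∈ S → B ∈ S → p ∈ W A → iv p ⊆ iv q → iv q ⊆ iv A → q ∈ W B →
      A = B := by
    intro A B p q hA hB hp h1 h2 hq
    exact own_unique h hA hB ((h.full A hA).reg.2 p hp q h1 h2) hq
  have half : ∀ {m : ℕ} {l c c' : ℤ}, (m + 1, l) ∈ R → c / 2 = l → c' / 2 = l →
      (∀ (V : Finset Nd) (I : Nd), Full V I → (m + 1, l) ∈ V → ((m, c) ∈ V ↔ (m, c') ∈ V)) →
      (m, c) ∈ S → (m, c') ∈ S := by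
    intro m l c c' hP hc hc' hb hK
    have hcR : (m, c') ∈ R := (hb R J hR hP).1 (h.sub hK)
    obtain ⟨K₀, hK₀, hPK₀⟩ := h.cover _ hP
    obtain ⟨K₁, hK₁, hcK₁⟩ := h.cover _ hcR
    by_cases hne : K₁ = (m, c')
    · rw [← hne]; exact hK₁
    · exfalso
      have h1 : iv (m + 1, l) ⊆ iv K₁ :=
        TWL649.above_child hc' ((h.full K₁ hK₁).reg.1 _ hcK₁) hne
      have h2 : K₁ = K₀ := hown hK₁ hK₀ hcK₁ (TWL649.iv_child m l c' hc') h1 hPK₀
      rw [h2] at hcK₁
      have h3 : (m, c) ∈ W K₀ := (hb (W K₀) K₀ (h.full K₀ hK₀) hPK₀).2 hcK₁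
      have h4 : (m, c) = K₀ := by
        by_contra h5
        exact Finset.disjoint_left.1 (h.disj _ hK _ hK₀ h5) (h.full _ hK).top h3
      have h6 := (h.full K₀ hK₀).reg.1 _ hPK₀
      rw [← h4] at h6
      exact TWL649.not_sub_child h6
  exact ⟨h.sub, hJ, fun m l hP =>
    ⟨half hP (by omega) (by omega) fun V I hV h => hV.bin m l h,
      half hP (by omega) (by omega) fun V I hV h => (hV.bin m l h).symm⟩⟩

/-- the window of `p` in the `Tops` sense is the owner in the `Part` sense -/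
theorem wn_owner {R : Finset Nd} {S : Finset Nd} {W : Nd → Finset Nd} {C : ℝ} (h : Part R S W C)
    {K p I : Nd} (hK : K ∈ S) (hp : p ∈ W K) (hI : TRec.Wn S I p) : K = I := by
  have h1 := (h.full K hK).reg.1 p hp
  exact own_unique h hK hI.1 ((h.full K hK).reg.2 p hp I hI.2.1 (hI.2.2 K hK h1))
    (h.full I hI.1).top

/-- strict count of a `Part` -/
theorem cnt_of_part {R : Finset Nd} {S : Finset Nd} {W : Nd → Finset Nd} {C : ℝ}
    (h : Part R S W C) : TRec.Cnt R S C := by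
  classical
  intro p hp
  refine le_trans (Finset.sum_le_sum_of_subset_of_nonneg ?_
    fun K _ _ => (Growth.len_pos K).le) (h.cnt p hp)
  intro K hK
  rw [Finset.mem_filter] at hK ⊢
  exact ⟨hK.1, hK.2.1⟩

end Crest.Agent.R079.WinA222
end

-- ▼ part R079/Rs_530
section

/-! R079, doc 2531 STEP II: the window bookkeeping of `TRec.RuleS`.  `RuleSP` = `RuleS` with a `Part`
(owner windows `V K`) instead of `Tops` / `Cnt` / `win`.  helper530. -/

set_option autoImplicit false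
set_option linter.unusedVariables false

namespace Crest.Agent.R079.Rs530

open Finset Crest.Agent.R079.Grid Crest.Agent.R079.Growth Crest.Agent.R079.QRed
  Crest.Agent.R079.TRec Crest.Agent.R079.TWin

/-- the `win` windows of the tops of a `Part` are its owner windows -/
theorem win_eq {R : Finset Nd} {J : Nd} (hR : Full R J) {S : Finset Nd} {V : Nd → Finset Nd} {C : ℝ}
    (h : Part R S V C) {K : Nd} (hK : K ∈ S) : win R S K = V K := by
  ext p
  rw [mem_win]
  constructor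
  · rintro ⟨hp, hw⟩
    obtain ⟨A, hA, hpA⟩ := h.cover p hp
    have := WinA222.wn_owner h hA hpA hw
    rw [← this]
    exact hpA
  · intro hp
    have hpR := h.wsub K hK hp
    refine ⟨hpR, ?_⟩
    obtain ⟨I, hI⟩ := WinA222.exists_wn hR (WinA222.tops_of_part hR h) hpR
    have := WinA222.wn_owner h hK hp hI
    rw [this]
    exact hI



end Crest.Agent.R079.Rs530
end

-- ▼ part R079/S2D_530

/-! R079, doc 2531 STEP II (g4): assembly of ONE window (good nodes: main kernel + error kernel; bad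
nodes: one node gain) and passage to `TRec.RuleS`.  helper530. -/

set_option autoImplicit false
set_option linter.unusedVariables false

namespace Crest.Agent.R079.S2D530

open Finset Crest.Agent.R079.Grid Crest.Agent.R079.Growth Crest.Agent.R079.QRed
  Crest.Agent.R079.TRec Crest.Agent.R079.TWin Crest.Agent.R079.Ero526 Crest.Agent.R079.Cg408
  Crest.Agent.R079.QRed.Qb247

open Classical in
/-- restriction to `iv J` -/
noncomputable def rs (J : Nd) (F : Fin 4 → Fn) : Fin 4 → Fn := fun j y => if y ∈ iv J then F j y else 0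

theorem rs_box {bb : ℤ} (hbb : bb = -1 ∨ bb = -7) (F : Fin 4 → Fn) {p J : Nd} (h : iv p ⊆ iv J)
    {x : ℤ} (hx : x ∈ adm p.1 p.2) :
    Lbox (2 ^ p.1) bb F x = Lbox (2 ^ p.1) bb (rs J F) x := by
  refine Lbox_congr p.1 p.2 bb x hbb hx F (rs J F) ?_
  intro j y hy
  unfold rs
  rw [if_pos (h hy)]

open Classical in
/-- **ONE WINDOW**: the product of the four letters (on the points with all shadows in `iv J`) is a main
kernel plus an error kernel -/
theorem window_split {bb : ℤ} {ε : ℕ → ℤ → ℂ} (hε : Adm bb ε) {W : Finset Nd} {J : Nd}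
    (hW : Full W J) (C : ℕ) (F : Fin 4 → Fn) (Ka Kb : ℤ → ℤ → ℂ)
    (hK : ∀ T A, ∏ j, rs J F j (A - sl j * T) = Ka T A + Kb T A) {A1 A2 g : ℝ} (hg : 0 ≤ g)
    (h1 : ∑ p ∈ W.filter (fun p => ¬ Bad W C p), ∑ x ∈ adm p.1 p.2, ‖LboxG (2 ^ p.1) bb Ka x‖ ≤
      A1 * len J)
    (h2 : ∑ p ∈ W.filter (fun p => ¬ Bad W C p), ∑ x ∈ adm p.1 p.2, ‖LboxG (2 ^ p.1) bb Kb x‖ ≤
      A2 * len J)
    (h3 : ∀ p ∈ W, Bad W C p → ∑ x ∈ adm p.1 p.2, ‖Lbox (2 ^ p.1) bb F x‖ ≤ g * len p) :
    ‖TR bb ε W F‖ ≤ (A1 + A2 + 16 * (2 * (C + 1) + 1) * g) * len J := by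
  have e0 := norm_TR_le (bb := bb) hε.2 W F
  have e1 : ∑ p ∈ W, ∑ x ∈ adm p.1 p.2, ‖Lbox (2 ^ p.1) bb F x‖ =
      ∑ p ∈ W.filter (Bad W C), ∑ x ∈ adm p.1 p.2, ‖Lbox (2 ^ p.1) bb F x‖ +
      ∑ p ∈ W.filter (fun p => ¬ Bad W C p), ∑ x ∈ adm p.1 p.2, ‖Lbox (2 ^ p.1) bb F x‖ :=
    (Finset.sum_filter_add_sum_filter_not _ _ _).symm
  have e2 : ∑ p ∈ W.filter (Bad W C), ∑ x ∈ adm p.1 p.2, ‖Lbox (2 ^ p.1) bb F x‖ ≤
      g * (16 * (2 * (C + 1) + 1) * len J) := by
    calc _ ≤ ∑ p ∈ W.filter (Bad W C), g * len p := Finset.sum_le_sum fun p hp => by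
          obtain ⟨h4, h5⟩ := Finset.mem_filter.1 hp
          exact h3 p h4 h5
      _ = g * ∑ p ∈ W.filter (Bad W C), len p := by rw [Finset.mul_sum]
      _ ≤ _ := mul_le_mul_of_nonneg_left (sum_bad hW C) hg
  have e3 : ∑ p ∈ W.filter (fun p => ¬ Bad W C p), ∑ x ∈ adm p.1 p.2,
      ‖Lbox (2 ^ p.1) bb F x‖ ≤ A1 * len J + A2 * len J := by
    refine le_trans ?_ (add_le_add h1 h2)
    rw [← Finset.sum_add_distrib]
    refine Finset.sum_le_sum fun p hp => ?_
    rw [← Finset.sum_add_distrib]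
    refine Finset.sum_le_sum fun x hx => ?_
    rw [rs_box hε.1 F (hW.reg.1 p (Finset.mem_filter.1 hp).1) hx, Lbox_LboxG,
      show (fun T A => ∏ j, rs J F j (A - sl j * T)) = fun T A => Ka T A + Kb T A from by
        funext T A; exact hK T A, LboxG_add]
    exact norm_add_le _ _
  calc _ ≤ _ := e0
    _ ≤ g * (16 * (2 * (C + 1) + 1) * len J) + (A1 * len J + A2 * len J) := by
        rw [e1]; exact add_le_add e2 e3
    _ = _ := by ring



end Crest.Agent.R079.S2D530
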