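import Crest.Agent.R079.Static_569
import Crest.Agent.R079.GrowthDefs_248
import Crest.Agent.R079.LfB_246
import Crest.Agent.R079.S2D_530
import Crest.Agent.R079.TWL_649
import Crest.Agent.R079.QbF_247
import Crest.Agent.R079.TWin3_903

-- ▼ part R079/OneN_354
section

/-! R079, doc 2539 (6) L6 (helper354): ONE-BOX / ONE-NODE form of Step II.

`Lbox` is split in the 16 sub-boxes of side `N` (constant Haar sign); on each of them
Cauchy-Schwarz in the three variables of ONE arbitrary letter (`σ 1`), so that what is left is the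
LEAF quantity of 246 / 977:
`∑_{x₀,x₃,x₂} ‖∑_{x₁} F(σ 0) · F(σ 3) · F(σ 2)‖²`, roles `σ 0` = frozen letter (does not see `x₀`),
`σ 3` = second static letter, `σ 2` = arbitrary letter. -/

set_option autoImplicit false

namespace Crest.Agent.R079.OneN354

open Finset Crest.Agent.R079.Grid Crest.Agent.R079.Growth

/-- argument of the letter of role `r` at the point `(x₀,..,x₃)` (roles, absolute variables) -/
def ag (b x : ℤ) (N : ℕ) (σ : Equiv.Perm (Fin 4)) (r : Fin 4) (z : Fin 4 → ℤ) : ℤ :=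
  x + ∑ i, (sl (σ i) - sl (σ r)) * z i - sl (σ r) * (b * N)

/-- splitting of `Fin (N+N)` -/
def spl (N : ℕ) : Fin 2 × Fin N ≃ Fin (N + N) :=
  finProdFinEquiv.trans (finCongr (two_mul N))

theorem spl_val (N : ℕ) (a : Fin 2) (v : Fin N) : ((spl N (a, v) : Fin (N + N)) : ℕ) = v + N * a := by
  simp [spl, finProdFinEquiv]

theorem hsg_spl (N : ℕ) (a : Fin 2) (v : Fin N) :
    hsg N (spl N (a, v)) = if a = 0 then 1 else -1 := by
  unfold hsg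
  rw [spl_val]
  have hv := v.isLt
  fin_cases a
  · simp
  · simp

/-- sub-box sum, constant sign -/
noncomputable def SB (N : ℕ) (b x : ℤ) (F : Fin 4 → ℤ → ℂ) (s : Fin 4 → Fin 2) : ℂ :=
  ∑ v : Fin 4 → Fin N, ∏ j, F j (x + ∑ i, (sl i - sl j) * (((v i : ℕ) : ℤ) + N * (s i : ℕ)) -
    sl j * (b * N))

theorem lbox_eq (N : ℕ) (b x : ℤ) (F : Fin 4 → ℤ → ℂ) :
    Lbox N b F x = (1 / ((N : ℂ) + N) ^ 4) * ∑ s : Fin 4 → Fin 2,
      (∏ i, if s i = 0 then (1 : ℂ) else -1) * SB N b x F s := by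
  unfold Lbox
  congr 1
  rw [← Equiv.sum_comp (Equiv.piCongrRight fun _ : Fin 4 => spl N),
    ← Equiv.sum_comp (Equiv.arrowProdEquivProdArrow (Fin 4) (fun _ => Fin 2) (fun _ => Fin N)).symm,
    Fintype.sum_prod_type]
  refine Finset.sum_congr rfl fun s _ => ?_
  unfold SB
  rw [Finset.mul_sum]
  refine Finset.sum_congr rfl fun v _ => ?_
  have h1 : ∀ i, ((Equiv.piCongrRight fun _ : Fin 4 => spl N)
      ((Equiv.arrowProdEquivProdArrow (Fin 4) (fun _ => Fin 2) (fun _ => Fin N)).symm (s, v))) i =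
      spl N (s i, v i) := fun i => rfl
  congr 1
  · rw [Complex.ofReal_prod]
    refine Finset.prod_congr rfl fun i _ => ?_
    rw [h1, hsg_spl]
    split_ifs <;> simp

theorem norm_lbox_le (N : ℕ) (b x : ℤ) (F : Fin 4 → ℤ → ℂ) :
    ‖Lbox N b F x‖ ≤ (1 / ((N : ℝ) + N) ^ 4) * ∑ s : Fin 4 → Fin 2, ‖SB N b x F s‖ := by
  rw [lbox_eq, norm_mul]
  have h0 : ‖(1 / ((N : ℂ) + N) ^ 4)‖ = 1 / ((N : ℝ) + N) ^ 4 := by
    have : (1 / ((N : ℂ) + N) ^ 4) = ((1 / ((N : ℝ) + N) ^ 4 : ℝ) : ℂ) := by push_cast; ring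
    rw [this, Complex.norm_real, Real.norm_of_nonneg (by positivity)]
  rw [h0]
  refine mul_le_mul_of_nonneg_left ?_ (by positivity)
  refine (norm_sum_le _ _).trans (Finset.sum_le_sum fun s _ => ?_)
  rw [norm_mul, norm_prod]
  have : ∏ i, ‖(if s i = 0 then (1 : ℂ) else -1)‖ = 1 :=
    Finset.prod_eq_one fun i _ => by split_ifs <;> simp
  rw [this, one_mul]

theorem sum_fin_Ico {M : Type*} [AddCommMonoid M] (N : ℕ) (o : ℤ) (g : ℤ → M) :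
    ∑ v : Fin N, g (((v : ℕ) : ℤ) + o) = ∑ z ∈ Ico o (o + N), g z := by
  rw [Finset.sum_fin_eq_sum_range]
  symm
  refine Finset.sum_bij (fun z _ => (z - o).toNat) ?_ ?_ ?_ ?_
  · intro z hz
    rw [mem_Ico] at hz
    rw [mem_range]
    omega
  · intro z hz z' hz' h
    rw [mem_Ico] at hz hz'
    omega
  · intro k hk
    rw [mem_range] at hk
    exact ⟨o + k, by rw [mem_Ico]; omega, by omega⟩
  · intro z hz
    rw [mem_Ico] at hz
    have h1 : (z - o).toNat < N := by omega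
    rw [dif_pos h1]
    congr 1
    simp only
    omega

/-- the sub-box sum as a nested sum over the four roles -/
theorem SB_eq (N : ℕ) (b x : ℤ) (F : Fin 4 → ℤ → ℂ) (s : Fin 4 → Fin 2) (σ : Equiv.Perm (Fin 4)) :
    SB N b x F s =
      ∑ x0 ∈ Ico ((N : ℤ) * (s (σ 0) : ℕ)) (N * (s (σ 0) : ℕ) + N),
      ∑ x3 ∈ Ico ((N : ℤ) * (s (σ 3) : ℕ)) (N * (s (σ 3) : ℕ) + N),
      ∑ x2 ∈ Ico ((N : ℤ) * (s (σ 2) : ℕ)) (N * (s (σ 2) : ℕ) + N),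
      ∑ x1 ∈ Ico ((N : ℤ) * (s (σ 1) : ℕ)) (N * (s (σ 1) : ℕ) + N),
        ∏ r, F (σ r) (ag b x N σ r ![x0, x1, x2, x3]) := by
  unfold SB
  rw [← Equiv.sum_comp (Equiv.piCongrLeft (fun _ => Fin N) σ)]
  have e4 : ∀ G : (Fin 4 → Fin N) → ℂ, ∑ v, G v =
      ∑ a0 : Fin N, ∑ a3 : Fin N, ∑ a2 : Fin N, ∑ a1 : Fin N, G ![a0, a1, a2, a3] := by
    intro G
    rw [← Equiv.sum_comp (Fin.consEquiv fun _ : Fin 4 => Fin N), Fintype.sum_prod_type]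
    refine Finset.sum_congr rfl fun a0 _ => ?_
    rw [← Equiv.sum_comp (Fin.consEquiv fun _ : Fin 3 => Fin N), Fintype.sum_prod_type]
    have h3 : ∀ a1 : Fin N, ∑ w : Fin 2 → Fin N, G (Fin.cons a0 (Fin.cons a1 w)) =
        ∑ a3 : Fin N, ∑ a2 : Fin N, G ![a0, a1, a2, a3] := by
      intro a1
      rw [← Equiv.sum_comp (finTwoArrowEquiv (Fin N)).symm, Fintype.sum_prod_type, Finset.sum_comm]
      rfl
    have h4 : ∑ a1 : Fin N, ∑ w : Fin 2 → Fin N, G (Fin.cons a0 (Fin.cons a1 w)) =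
        ∑ a3 : Fin N, ∑ a2 : Fin N, ∑ a1 : Fin N, G ![a0, a1, a2, a3] := by
      rw [Finset.sum_congr rfl fun a1 _ => h3 a1, Finset.sum_comm]
      exact Finset.sum_congr rfl fun a3 _ => Finset.sum_comm
    exact h4
  rw [e4]
  rw [← sum_fin_Ico]
  refine Finset.sum_congr rfl fun a0 _ => ?_
  rw [← sum_fin_Ico]
  refine Finset.sum_congr rfl fun a3 _ => ?_
  rw [← sum_fin_Ico]
  refine Finset.sum_congr rfl fun a2 _ => ?_
  rw [← sum_fin_Ico]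
  refine Finset.sum_congr rfl fun a1 _ => ?_
  rw [← Equiv.prod_comp σ]
  refine Finset.prod_congr rfl fun r _ => ?_
  congr 1
  unfold ag
  congr 2
  rw [← Equiv.sum_comp σ]
  refine Finset.sum_congr rfl fun i _ => ?_
  congr 1
  rw [Equiv.piCongrLeft_apply_apply]
  fin_cases i <;> rfl

/-- corner of the sub-box `s` in the role `r` -/
def cn (N : ℕ) (s : Fin 4 → Fin 2) (σ : Equiv.Perm (Fin 4)) (r : Fin 4) : ℤ :=
  (N : ℤ) * ((s (σ r) : Fin 2) : ℕ)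

/-- the letter of role `1` does not see `x₁` -/
theorem ag_one (b x : ℤ) (N : ℕ) (σ : Equiv.Perm (Fin 4)) (x0 x1 x1' x2 x3 : ℤ) :
    ag b x N σ 1 ![x0, x1, x2, x3] = ag b x N σ 1 ![x0, x1', x2, x3] := by
  unfold ag
  simp [Fin.sum_univ_four]

/-- **Cauchy-Schwarz on a sub-box** -/
theorem SB_le (N : ℕ) (b x : ℤ) (F : Fin 4 → ℤ → ℂ) (s : Fin 4 → Fin 2)
    (σ : Equiv.Perm (Fin 4)) :
    ‖SB N b x F s‖ ≤
      Real.sqrt (∑ x0 ∈ Ico (cn N s σ 0) (cn N s σ 0 + N), ∑ x3 ∈ Ico (cn N s σ 3) (cn N s σ 3 + N),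
        ∑ x2 ∈ Ico (cn N s σ 2) (cn N s σ 2 + N), ‖F (σ 1) (ag b x N σ 1 ![x0, 0, x2, x3])‖ ^ 2) *
      Real.sqrt (∑ x0 ∈ Ico (cn N s σ 0) (cn N s σ 0 + N), ∑ x3 ∈ Ico (cn N s σ 3) (cn N s σ 3 + N),
        ∑ x2 ∈ Ico (cn N s σ 2) (cn N s σ 2 + N), ‖∑ x1 ∈ Ico (cn N s σ 1) (cn N s σ 1 + N),
          F (σ 0) (ag b x N σ 0 ![x0, x1, x2, x3]) * F (σ 3) (ag b x N σ 3 ![x0, x1, x2, x3]) *
            F (σ 2) (ag b x N σ 2 ![x0, x1, x2, x3])‖ ^ 2) := by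
  rw [SB_eq N b x F s σ]
  have e : ∀ x0 x3 x2, ∑ x1 ∈ Ico ((N : ℤ) * (s (σ 1) : ℕ)) (N * (s (σ 1) : ℕ) + N),
      ∏ r, F (σ r) (ag b x N σ r ![x0, x1, x2, x3]) =
      F (σ 1) (ag b x N σ 1 ![x0, 0, x2, x3]) * ∑ x1 ∈ Ico (cn N s σ 1) (cn N s σ 1 + N),
          F (σ 0) (ag b x N σ 0 ![x0, x1, x2, x3]) * F (σ 3) (ag b x N σ 3 ![x0, x1, x2, x3]) *
            F (σ 2) (ag b x N σ 2 ![x0, x1, x2, x3]) := by
    intro x0 x3 x2
    rw [Finset.mul_sum]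
    refine Finset.sum_congr rfl fun x1 _ => ?_
    rw [Fin.prod_univ_four, ag_one b x N σ x0 0 x1 x2 x3]
    ring
  simp only [e]
  -- one sum over the triples
  set I0 := Ico (cn N s σ 0) (cn N s σ 0 + N)
  set I3 := Ico (cn N s σ 3) (cn N s σ 3 + N)
  set I2 := Ico (cn N s σ 2) (cn N s σ 2 + N)
  have t : ∀ {M : Type} [AddCommMonoid M] (G : ℤ → ℤ → ℤ → M),
      ∑ x0 ∈ I0, ∑ x3 ∈ I3, ∑ x2 ∈ I2, G x0 x3 x2 =
        ∑ z ∈ I0 ×ˢ I3 ×ˢ I2, G z.1 z.2.1 z.2.2 := by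
    intro M _ G
    rw [Finset.sum_product]
    exact Finset.sum_congr rfl fun x0 _ => by rw [Finset.sum_product]
  rw [t (fun x0 x3 x2 => ‖F (σ 1) (ag b x N σ 1 ![x0, 0, x2, x3])‖ ^ 2),
    t (fun x0 x3 x2 => ‖∑ x1 ∈ Ico (cn N s σ 1) (cn N s σ 1 + N),
          F (σ 0) (ag b x N σ 0 ![x0, x1, x2, x3]) * F (σ 3) (ag b x N σ 3 ![x0, x1, x2, x3]) *
            F (σ 2) (ag b x N σ 2 ![x0, x1, x2, x3])‖ ^ 2)]
  have ht := t (fun x0 x3 x2 => F (σ 1) (ag b x N σ 1 ![x0, 0, x2, x3]) *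
    ∑ x1 ∈ Ico (cn N s σ 1) (cn N s σ 1 + N),
          F (σ 0) (ag b x N σ 0 ![x0, x1, x2, x3]) * F (σ 3) (ag b x N σ 3 ![x0, x1, x2, x3]) *
            F (σ 2) (ag b x N σ 2 ![x0, x1, x2, x3]))
  refine (le_of_eq (congrArg norm ht)).trans ?_
  rw [← Real.sqrt_mul (Finset.sum_nonneg fun _ _ => by positivity)]
  refine Real.le_sqrt_of_sq_le ?_
  refine (pow_le_pow_left₀ (norm_nonneg _) (norm_sum_le _ _) 2).trans ?_
  simp only [norm_mul]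
  exact Finset.sum_mul_sq_le_sq_mul_sq _ _ _

/-- fibre sum of one letter: for fixed `(x₀,x₃)` the argument runs injectively -/
theorem fib_le (N : ℕ) (b x : ℤ) (σ : Equiv.Perm (Fin 4)) (f : ℤ → ℂ) (o0 o2 o3 : ℤ)
    (S : Finset ℤ)
    (hS : ∀ x0 ∈ Ico o0 (o0 + N), ∀ x3 ∈ Ico o3 (o3 + N), ∀ x2 ∈ Ico o2 (o2 + N),
      ag b x N σ 1 ![x0, 0, x2, x3] ∈ S) :
    ∑ x0 ∈ Ico o0 (o0 + N), ∑ x3 ∈ Ico o3 (o3 + N), ∑ x2 ∈ Ico o2 (o2 + N),
      ‖f (ag b x N σ 1 ![x0, 0, x2, x3])‖ ^ 2 ≤ (N : ℝ) ^ 2 * ∑ y ∈ S, ‖f y‖ ^ 2 := by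
  have hne : sl (σ 2) - sl (σ 1) ≠ 0 := by
    have := sl_ne (σ 2) (σ 1) (fun h => by simpa using σ.injective h)
    omega
  have h1 : ∀ x0 ∈ Ico o0 (o0 + N), ∀ x3 ∈ Ico o3 (o3 + N), ∑ x2 ∈ Ico o2 (o2 + N),
      ‖f (ag b x N σ 1 ![x0, 0, x2, x3])‖ ^ 2 ≤ ∑ y ∈ S, ‖f y‖ ^ 2 := by
    intro x0 h0 x3 h3
    have hinj : Set.InjOn (fun x2 => ag b x N σ 1 ![x0, 0, x2, x3])
        (Ico o2 (o2 + N) : Finset ℤ) := by
      intro z _ z' _ h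
      simp only [ag, Fin.sum_univ_four, Matrix.cons_val_zero, Matrix.cons_val_one,
        Matrix.cons_val_two, Matrix.cons_val_three, Matrix.head_cons, Matrix.tail_cons] at h
      have h5 : (sl (σ 2) - sl (σ 1)) * z = (sl (σ 2) - sl (σ 1)) * z' := by
        simp at h
        rcases h with h | h
        · rw [h]
        · exact absurd h (by omega)
      exact mul_left_cancel₀ hne h5
    rw [← Finset.sum_image (f := fun y => ‖f y‖ ^ 2) hinj]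
    refine Finset.sum_le_sum_of_subset_of_nonneg ?_ fun _ _ _ => by positivity
    intro y hy
    rw [Finset.mem_image] at hy
    obtain ⟨x2, h2, rfl⟩ := hy
    exact hS x0 h0 x3 h3 x2 h2
  calc _ ≤ ∑ x0 ∈ Ico o0 (o0 + N), ∑ x3 ∈ Ico o3 (o3 + N), ∑ y ∈ S, ‖f y‖ ^ 2 :=
        Finset.sum_le_sum fun x0 h0 => Finset.sum_le_sum fun x3 h3 => h1 x0 h0 x3 h3
    _ = _ := by
        simp only [Finset.sum_const, Int.card_Ico, nsmul_eq_mul]
        have e0 : (o0 + N - o0).toNat = N := by omega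
        have e3 : (o3 + N - o3).toNat = N := by omega
        rw [e0, e3]
        ring

/-- **ONE BOX**: if the leaf quantity of every sub-box is `≤ Q²` then
`‖Lbox‖ ≤ N⁻³ · (∑_{S} |F_{σ 1}|²)^(1/2) · Q`. -/
theorem one_box (N : ℕ) (hN : 0 < N) (b x : ℤ) (F : Fin 4 → ℤ → ℂ) (σ : Equiv.Perm (Fin 4))
    (S : Finset ℤ) (Q : ℝ) (hQ : 0 ≤ Q)
    (hS : ∀ s : Fin 4 → Fin 2, ∀ x0 ∈ Ico (cn N s σ 0) (cn N s σ 0 + N),
      ∀ x3 ∈ Ico (cn N s σ 3) (cn N s σ 3 + N), ∀ x2 ∈ Ico (cn N s σ 2) (cn N s σ 2 + N),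
      ag b x N σ 1 ![x0, 0, x2, x3] ∈ S)
    (hL : ∀ s : Fin 4 → Fin 2,
      ∑ x0 ∈ Ico (cn N s σ 0) (cn N s σ 0 + N), ∑ x3 ∈ Ico (cn N s σ 3) (cn N s σ 3 + N),
        ∑ x2 ∈ Ico (cn N s σ 2) (cn N s σ 2 + N), ‖∑ x1 ∈ Ico (cn N s σ 1) (cn N s σ 1 + N),
          F (σ 0) (ag b x N σ 0 ![x0, x1, x2, x3]) * F (σ 3) (ag b x N σ 3 ![x0, x1, x2, x3]) *
            F (σ 2) (ag b x N σ 2 ![x0, x1, x2, x3])‖ ^ 2 ≤ Q ^ 2) :
    ‖Lbox N b F x‖ ≤ (1 / (N : ℝ) ^ 3) * Real.sqrt (∑ y ∈ S, ‖F (σ 1) y‖ ^ 2) * Q := by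
  have hN' : (0 : ℝ) < N := by exact_mod_cast hN
  refine (norm_lbox_le N b x F).trans ?_
  have h1 : ∀ s : Fin 4 → Fin 2, ‖SB N b x F s‖ ≤
      (N : ℝ) * Real.sqrt (∑ y ∈ S, ‖F (σ 1) y‖ ^ 2) * Q := by
    intro s
    refine (SB_le N b x F s σ).trans ?_
    refine mul_le_mul ?_ ?_ (Real.sqrt_nonneg _) (by positivity)
    · refine (Real.sqrt_le_sqrt (fib_le N b x σ (F (σ 1)) _ _ _ S (hS s))).trans ?_
      rw [Real.sqrt_mul (by positivity), Real.sqrt_sq hN'.le]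
    · refine (Real.sqrt_le_sqrt (hL s)).trans ?_
      rw [Real.sqrt_sq hQ]
  calc (1 / ((N : ℝ) + N) ^ 4) * ∑ s : Fin 4 → Fin 2, ‖SB N b x F s‖
      ≤ (1 / ((N : ℝ) + N) ^ 4) * ∑ _s : Fin 4 → Fin 2,
        (N : ℝ) * Real.sqrt (∑ y ∈ S, ‖F (σ 1) y‖ ^ 2) * Q :=
        mul_le_mul_of_nonneg_left (Finset.sum_le_sum fun s _ => h1 s) (by positivity)
    _ = (1 / (N : ℝ) ^ 3) * Real.sqrt (∑ y ∈ S, ‖F (σ 1) y‖ ^ 2) * Q := by
        simp only [Finset.sum_const, Finset.card_univ, Fintype.card_fun, Fintype.card_fin,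
          nsmul_eq_mul]
        push_cast
        field_simp
        ring

/-- all arguments of an admissible box lie in the interval of the node -/
theorem ag_mem (m : ℕ) (l b x : ℤ) (hb : b = -1 ∨ b = -7) (hx : x ∈ adm m l)
    (σ : Equiv.Perm (Fin 4)) (r : Fin 4) (z : Fin 4 → ℤ) (h0 : ∀ i, 0 ≤ z i)
    (h1 : ∀ i, z i < 2 * 2 ^ m) : ag b x (2 ^ m) σ r z ∈ iv (m, l) := by
  have hlt : ∀ j, (z (σ.symm j)).toNat < 2 ^ m + 2 ^ m := by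
    intro j
    have a0 := h0 (σ.symm j)
    have a1 := h1 (σ.symm j)
    have : ((z (σ.symm j)).toNat : ℤ) < ((2 ^ m + 2 ^ m : ℕ) : ℤ) := by
      rw [Int.toNat_of_nonneg a0]
      push_cast
      linarith
    exact_mod_cast this
  have h := yv_mem m l b x hb hx (fun j => ⟨(z (σ.symm j)).toNat, hlt j⟩) (σ r)
  have e : yv (2 ^ m) b x (fun j => ⟨(z (σ.symm j)).toNat, hlt j⟩) (σ r) =
      ag b x (2 ^ m) σ r z := by
    unfold yv ag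
    push_cast
    congr 2
    rw [← Equiv.sum_comp σ]
    refine Finset.sum_congr rfl fun i _ => ?_
    simp only [Equiv.symm_apply_apply]
    rw [Int.toNat_of_nonneg (h0 i)]
  rw [e] at h
  exact h

/-- range of the sub-box variables -/
theorem cn_range (N : ℕ) (s : Fin 4 → Fin 2) (σ : Equiv.Perm (Fin 4)) (r : Fin 4) {z : ℤ}
    (hz : z ∈ Ico (cn N s σ r) (cn N s σ r + N)) : 0 ≤ z ∧ z < 2 * N := by
  unfold cn at hz
  rw [mem_Ico] at hz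
  have h2 : ((s (σ r) : Fin 2) : ℕ) < 2 := (s (σ r)).isLt
  have h3 : (((s (σ r) : Fin 2) : ℕ) : ℤ) ≤ 1 := by omega
  have h4 : (0 : ℤ) ≤ (((s (σ r) : Fin 2) : ℕ) : ℤ) := by positivity
  have hN : (0 : ℤ) ≤ N := by positivity
  constructor
  · nlinarith [hz.1]
  · nlinarith [hz.2]

/-- the box version of `ag_mem` -/
theorem ag_mem_box (m : ℕ) (l b x : ℤ) (hb : b = -1 ∨ b = -7) (hx : x ∈ adm m l)
    (σ : Equiv.Perm (Fin 4)) (r : Fin 4) (s : Fin 4 → Fin 2) {x0 x1 x2 x3 : ℤ}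
    (h0 : x0 ∈ Ico (cn (2 ^ m) s σ 0) (cn (2 ^ m) s σ 0 + (2 ^ m : ℕ)))
    (h1 : x1 ∈ Ico (cn (2 ^ m) s σ 1) (cn (2 ^ m) s σ 1 + (2 ^ m : ℕ)))
    (h2 : x2 ∈ Ico (cn (2 ^ m) s σ 2) (cn (2 ^ m) s σ 2 + (2 ^ m : ℕ)))
    (h3 : x3 ∈ Ico (cn (2 ^ m) s σ 3) (cn (2 ^ m) s σ 3 + (2 ^ m : ℕ))) :
    ag b x (2 ^ m) σ r ![x0, x1, x2, x3] ∈ iv (m, l) := by
  have a0 := cn_range (2 ^ m) s σ 0 h0
  have a1 := cn_range (2 ^ m) s σ 1 h1
  have a2 := cn_range (2 ^ m) s σ 2 h2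
  have a3 := cn_range (2 ^ m) s σ 3 h3
  push_cast at a0 a1 a2 a3
  refine ag_mem m l b x hb hx σ r _ ?_ ?_
  · intro i
    fin_cases i
    · exact a0.1
    · exact a1.1
    · exact a2.1
    · exact a3.1
  · intro i
    fin_cases i
    · exact a0.2
    · exact a1.2
    · exact a2.2
    · exact a3.2

/-- **ONE NODE (doc 2539, L6)**: leaf quantity `≤ Q²` on every sub-box of every admissible box of the
node ⊢ `∑_{x ∈ adm p} ‖Lbox‖ ≤ len p · N⁻³ · (∑_{iv p} |F_{σ 1}|²)^(1/2) · Q`. -/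
theorem one_node (m : ℕ) (l b : ℤ) (hb : b = -1 ∨ b = -7) (F : Fin 4 → ℤ → ℂ)
    (σ : Equiv.Perm (Fin 4)) (Q : ℝ) (hQ : 0 ≤ Q)
    (hL : ∀ x ∈ adm m l, ∀ s : Fin 4 → Fin 2,
      ∑ x0 ∈ Ico (cn (2 ^ m) s σ 0) (cn (2 ^ m) s σ 0 + (2 ^ m : ℕ)),
        ∑ x3 ∈ Ico (cn (2 ^ m) s σ 3) (cn (2 ^ m) s σ 3 + (2 ^ m : ℕ)),
        ∑ x2 ∈ Ico (cn (2 ^ m) s σ 2) (cn (2 ^ m) s σ 2 + (2 ^ m : ℕ)),
        ‖∑ x1 ∈ Ico (cn (2 ^ m) s σ 1) (cn (2 ^ m) s σ 1 + (2 ^ m : ℕ)),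
          F (σ 0) (ag b x (2 ^ m) σ 0 ![x0, x1, x2, x3]) *
            F (σ 3) (ag b x (2 ^ m) σ 3 ![x0, x1, x2, x3]) *
            F (σ 2) (ag b x (2 ^ m) σ 2 ![x0, x1, x2, x3])‖ ^ 2 ≤ Q ^ 2) :
    ∑ x ∈ adm m l, ‖Lbox (2 ^ m) b F x‖ ≤
      len (m, l) * ((1 / ((2 : ℝ) ^ m) ^ 3) * Real.sqrt (∑ y ∈ iv (m, l), ‖F (σ 1) y‖ ^ 2) * Q) := by
  have h1 : ∀ x ∈ adm m l, ‖Lbox (2 ^ m) b F x‖ ≤
      (1 / ((2 : ℝ) ^ m) ^ 3) * Real.sqrt (∑ y ∈ iv (m, l), ‖F (σ 1) y‖ ^ 2) * Q := by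
    intro x hx
    have h := one_box (2 ^ m) (by positivity) b x F σ (iv (m, l)) Q hQ ?_ (hL x hx)
    · push_cast at h
      exact h
    · intro s x0 h0 x3 h3 x2 h2
      rw [ag_one b x (2 ^ m) σ x0 0 (cn (2 ^ m) s σ 1) x2 x3]
      refine ag_mem_box m l b x hb hx σ 1 s h0 ?_ h2 h3
      rw [mem_Ico]
      constructor
      · exact le_rfl
      · have : (0 : ℤ) < ((2 ^ m : ℕ) : ℤ) := by positivity
        linarith
  refine (Finset.sum_le_sum h1).trans ?_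
  rw [Finset.sum_const, nsmul_eq_mul]
  refine mul_le_mul_of_nonneg_right ?_ (by positivity)
  have h2 : (adm m l).card ≤ (dI (m + 7) l).card := by
    refine Finset.card_le_card ?_
    intro x hx
    unfold adm at hx
    unfold dI
    rw [mem_Ico] at hx ⊢
    have h3 : (0 : ℤ) < 2 ^ (m + 1) := by positivity
    constructor <;> linarith [hx.1, hx.2]
  have h3 : ((dI (m + 7) l).card : ℝ) = len (m, l) := by
    unfold dI len
    rw [Int.card_Ico]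
    have e : ((l + 1) * 2 ^ (m + 7) - l * 2 ^ (m + 7)).toNat = 2 ^ (m + 7) := by
      have : (l + 1) * (2 : ℤ) ^ (m + 7) - l * 2 ^ (m + 7) = ((2 ^ (m + 7) : ℕ) : ℤ) := by
        push_cast
        ring
      rw [this, Int.toNat_natCast]
    rw [e]
    push_cast
    rfl
  rw [← h3]
  exact_mod_cast h2

end Crest.Agent.R079.OneN354
end

-- ▼ part R079/OneG_354
section

/-! R079, doc 2539 (6) L6 (helper354): NODE GAINS of Step II in the line model = `one_node`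
(OneN_354) with the leaves of 246 (LfB_246) plugged in. -/

set_option autoImplicit false

namespace Crest.Agent.R079.OneG354

open Finset Crest.Agent.R079.Grid Crest.Agent.R079.Growth Crest.Agent.R079.OneN354
  Crest.Agent.R079.OpLev Crest.Agent.R079.R244

/-- corners which make the box absolute -/
def pp (b x : ℤ) (N : ℕ) (j : Fin 4) : ℤ := (![x, 0, 0, b * N - x] : Fin 4 → ℤ) j

theorem sum_pp (b x : ℤ) (N : ℕ) (σ : Equiv.Perm (Fin 4)) :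
    ∑ i, pp b x N (σ i) = b * N := by
  rw [Equiv.sum_comp σ (fun i => pp b x N i)]
  simp [Fin.sum_univ_four, pp]

theorem sum_sl_pp (b x : ℤ) (N : ℕ) (σ : Equiv.Perm (Fin 4)) :
    ∑ i, sl (σ i) * pp b x N (σ i) = x := by
  rw [Equiv.sum_comp σ (fun i => sl i * pp b x N i)]
  simp [Fin.sum_univ_four, pp, sl]

/-- absolute form of the argument of a letter -/
theorem ag_abs (b x : ℤ) (N : ℕ) (σ : Equiv.Perm (Fin 4)) (r : Fin 4) (z : Fin 4 → ℤ) :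
    ag b x N σ r z = ∑ i, (sl (σ i) - sl (σ r)) * (z i + pp b x N (σ i)) := by
  have h1 := sum_pp b x N σ
  have h2 := sum_sl_pp b x N σ
  have h3 : ∑ i, (sl (σ i) - sl (σ r)) * (z i + pp b x N (σ i)) =
      ∑ i, (sl (σ i) - sl (σ r)) * z i + ∑ i, sl (σ i) * pp b x N (σ i) -
        sl (σ r) * ∑ i, pp b x N (σ i) := by
    rw [Finset.mul_sum, ← Finset.sum_add_distrib, ← Finset.sum_sub_distrib]
    refine Finset.sum_congr rfl fun i _ => ?_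
    ring
  rw [h3, h1, h2]
  unfold ag
  ring

theorem ag0 (b x : ℤ) (N : ℕ) (σ : Equiv.Perm (Fin 4)) (x0 x1 x2 x3 : ℤ) :
    ag b x N σ 0 ![x0, x1, x2, x3] = (sl (σ 3) - sl (σ 0)) * (x3 + pp b x N (σ 3)) +
      (sl (σ 2) - sl (σ 0)) * (x2 + pp b x N (σ 2)) +
      (sl (σ 1) - sl (σ 0)) * (x1 + pp b x N (σ 1)) := by
  rw [ag_abs]
  simp [Fin.sum_univ_four]
  ring

theorem ag2 (b x : ℤ) (N : ℕ) (σ : Equiv.Perm (Fin 4)) (x0 x1 x2 x3 : ℤ) :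
    ag b x N σ 2 ![x0, x1, x2, x3] = (sl (σ 0) - sl (σ 2)) * (x0 + pp b x N (σ 0)) +
      (sl (σ 3) - sl (σ 2)) * (x3 + pp b x N (σ 3)) +
      (sl (σ 1) - sl (σ 2)) * (x1 + pp b x N (σ 1)) := by
  rw [ag_abs]
  simp [Fin.sum_univ_four]
  ring

theorem ag3 (b x : ℤ) (N : ℕ) (σ : Equiv.Perm (Fin 4)) (x0 x1 x2 x3 : ℤ) :
    ag b x N σ 3 ![x0, x1, x2, x3] = (sl (σ 0) - sl (σ 3)) * (x0 + pp b x N (σ 0)) +
      (sl (σ 2) - sl (σ 3)) * (x2 + pp b x N (σ 2)) +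
      (sl (σ 1) - sl (σ 3)) * (x1 + pp b x N (σ 1)) := by
  rw [ag_abs]
  simp [Fin.sum_univ_four]
  ring

theorem res_of_mem {m : ℕ} {l : ℤ} {f : ℤ → ℂ} {y : ℤ} (h : y ∈ iv (m, l)) :
    res (m, l) f y = f y := by
  unfold res
  rw [if_pos]
  exact h

theorem norm_res_le {m : ℕ} {l : ℤ} {f : ℤ → ℂ} {H : ℝ} (hH : 0 ≤ H)
    (hf : ∀ y ∈ iv (m, l), ‖f y‖ ≤ H) (y : ℤ) : ‖res (m, l) f y‖ ≤ H := by
  unfold res
  split_ifs with h
  · exact hf y h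
  · simpa using hH

theorem res_out {m : ℕ} {l : ℤ} {f : ℤ → ℂ} (y : ℤ) (h : y ∉ iv (m, l)) :
    res (m, l) f y = 0 := by
  unfold res
  rw [if_neg]
  exact h

theorem sum_res (m : ℕ) (l : ℤ) (f : ℤ → ℂ) :
    ∑ y ∈ iv (m, l), ‖res (m, l) f y‖ ^ 2 = ∑ y ∈ iv (m, l), ‖f y‖ ^ 2 :=
  Finset.sum_congr rfl fun y hy => by rw [res_of_mem hy]

/-- the leaf quantity in `Fin n` variables with `res` letters -/
theorem leaf_fin (m : ℕ) (l b : ℤ) (hb : b = -1 ∨ b = -7) (F : Fin 4 → ℤ → ℂ)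
    (σ : Equiv.Perm (Fin 4)) {x : ℤ} (hx : x ∈ adm m l) (s : Fin 4 → Fin 2) :
    ∑ x0 ∈ Ico (cn (2 ^ m) s σ 0) (cn (2 ^ m) s σ 0 + (2 ^ m : ℕ)),
        ∑ x3 ∈ Ico (cn (2 ^ m) s σ 3) (cn (2 ^ m) s σ 3 + (2 ^ m : ℕ)),
        ∑ x2 ∈ Ico (cn (2 ^ m) s σ 2) (cn (2 ^ m) s σ 2 + (2 ^ m : ℕ)),
        ‖∑ x1 ∈ Ico (cn (2 ^ m) s σ 1) (cn (2 ^ m) s σ 1 + (2 ^ m : ℕ)),
          F (σ 0) (ag b x (2 ^ m) σ 0 ![x0, x1, x2, x3]) *
            F (σ 3) (ag b x (2 ^ m) σ 3 ![x0, x1, x2, x3]) *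
            F (σ 2) (ag b x (2 ^ m) σ 2 ![x0, x1, x2, x3])‖ ^ 2 =
    ∑ x0 : Fin (2 ^ m), ∑ x3 : Fin (2 ^ m), ∑ x2 : Fin (2 ^ m), ‖∑ x1 : Fin (2 ^ m),
      res (m, l) (F (σ 0)) (ag b x (2 ^ m) σ 0 ![((x0 : ℕ) : ℤ) + cn (2 ^ m) s σ 0,
        ((x1 : ℕ) : ℤ) + cn (2 ^ m) s σ 1, ((x2 : ℕ) : ℤ) + cn (2 ^ m) s σ 2,
        ((x3 : ℕ) : ℤ) + cn (2 ^ m) s σ 3]) *
      res (m, l) (F (σ 3)) (ag b x (2 ^ m) σ 3 ![((x0 : ℕ) : ℤ) + cn (2 ^ m) s σ 0,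
        ((x1 : ℕ) : ℤ) + cn (2 ^ m) s σ 1, ((x2 : ℕ) : ℤ) + cn (2 ^ m) s σ 2,
        ((x3 : ℕ) : ℤ) + cn (2 ^ m) s σ 3]) *
      res (m, l) (F (σ 2)) (ag b x (2 ^ m) σ 2 ![((x0 : ℕ) : ℤ) + cn (2 ^ m) s σ 0,
        ((x1 : ℕ) : ℤ) + cn (2 ^ m) s σ 1, ((x2 : ℕ) : ℤ) + cn (2 ^ m) s σ 2,
        ((x3 : ℕ) : ℤ) + cn (2 ^ m) s σ 3])‖ ^ 2 := by
  rw [← sum_fin_Ico (2 ^ m) (cn (2 ^ m) s σ 0) (fun x0 =>
    ∑ x3 ∈ Ico (cn (2 ^ m) s σ 3) (cn (2 ^ m) s σ 3 + (2 ^ m : ℕ)),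
        ∑ x2 ∈ Ico (cn (2 ^ m) s σ 2) (cn (2 ^ m) s σ 2 + (2 ^ m : ℕ)),
        ‖∑ x1 ∈ Ico (cn (2 ^ m) s σ 1) (cn (2 ^ m) s σ 1 + (2 ^ m : ℕ)),
          F (σ 0) (ag b x (2 ^ m) σ 0 ![x0, x1, x2, x3]) *
            F (σ 3) (ag b x (2 ^ m) σ 3 ![x0, x1, x2, x3]) *
            F (σ 2) (ag b x (2 ^ m) σ 2 ![x0, x1, x2, x3])‖ ^ 2)]
  refine Finset.sum_congr rfl fun x0 _ => ?_
  rw [← sum_fin_Ico (2 ^ m) (cn (2 ^ m) s σ 3) (fun x3 =>
        ∑ x2 ∈ Ico (cn (2 ^ m) s σ 2) (cn (2 ^ m) s σ 2 + (2 ^ m : ℕ)),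
        ‖∑ x1 ∈ Ico (cn (2 ^ m) s σ 1) (cn (2 ^ m) s σ 1 + (2 ^ m : ℕ)),
          F (σ 0) (ag b x (2 ^ m) σ 0 ![((x0 : ℕ) : ℤ) + cn (2 ^ m) s σ 0, x1, x2, x3]) *
            F (σ 3) (ag b x (2 ^ m) σ 3 ![((x0 : ℕ) : ℤ) + cn (2 ^ m) s σ 0, x1, x2, x3]) *
            F (σ 2) (ag b x (2 ^ m) σ 2 ![((x0 : ℕ) : ℤ) + cn (2 ^ m) s σ 0, x1, x2, x3])‖ ^ 2)]
  refine Finset.sum_congr rfl fun x3 _ => ?_
  rw [← sum_fin_Ico (2 ^ m) (cn (2 ^ m) s σ 2) (fun x2 =>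
        ‖∑ x1 ∈ Ico (cn (2 ^ m) s σ 1) (cn (2 ^ m) s σ 1 + (2 ^ m : ℕ)),
          F (σ 0) (ag b x (2 ^ m) σ 0 ![((x0 : ℕ) : ℤ) + cn (2 ^ m) s σ 0, x1, x2,
            ((x3 : ℕ) : ℤ) + cn (2 ^ m) s σ 3]) *
            F (σ 3) (ag b x (2 ^ m) σ 3 ![((x0 : ℕ) : ℤ) + cn (2 ^ m) s σ 0, x1, x2,
            ((x3 : ℕ) : ℤ) + cn (2 ^ m) s σ 3]) *
            F (σ 2) (ag b x (2 ^ m) σ 2 ![((x0 : ℕ) : ℤ) + cn (2 ^ m) s σ 0, x1, x2,
            ((x3 : ℕ) : ℤ) + cn (2 ^ m) s σ 3])‖ ^ 2)]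
  refine Finset.sum_congr rfl fun x2 _ => ?_
  congr 2
  rw [← sum_fin_Ico (2 ^ m) (cn (2 ^ m) s σ 1) (fun x1 =>
          F (σ 0) (ag b x (2 ^ m) σ 0 ![((x0 : ℕ) : ℤ) + cn (2 ^ m) s σ 0, x1,
            ((x2 : ℕ) : ℤ) + cn (2 ^ m) s σ 2, ((x3 : ℕ) : ℤ) + cn (2 ^ m) s σ 3]) *
            F (σ 3) (ag b x (2 ^ m) σ 3 ![((x0 : ℕ) : ℤ) + cn (2 ^ m) s σ 0, x1,
            ((x2 : ℕ) : ℤ) + cn (2 ^ m) s σ 2, ((x3 : ℕ) : ℤ) + cn (2 ^ m) s σ 3]) *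
            F (σ 2) (ag b x (2 ^ m) σ 2 ![((x0 : ℕ) : ℤ) + cn (2 ^ m) s σ 0, x1,
            ((x2 : ℕ) : ℤ) + cn (2 ^ m) s σ 2, ((x3 : ℕ) : ℤ) + cn (2 ^ m) s σ 3]))]
  refine Finset.sum_congr rfl fun x1 _ => ?_
  have hi : ∀ (v : Fin (2 ^ m)) (r : Fin 4), ((v : ℕ) : ℤ) + cn (2 ^ m) s σ r ∈
      Ico (cn (2 ^ m) s σ r) (cn (2 ^ m) s σ r + (2 ^ m : ℕ)) := by
    intro v r
    rw [mem_Ico]
    have h1 : ((v : ℕ) : ℤ) < ((2 ^ m : ℕ) : ℤ) := by exact_mod_cast v.isLt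
    have h2 : (0 : ℤ) ≤ ((v : ℕ) : ℤ) := by positivity
    constructor <;> linarith
  have hm : ∀ r, ag b x (2 ^ m) σ r ![((x0 : ℕ) : ℤ) + cn (2 ^ m) s σ 0,
        ((x1 : ℕ) : ℤ) + cn (2 ^ m) s σ 1, ((x2 : ℕ) : ℤ) + cn (2 ^ m) s σ 2,
        ((x3 : ℕ) : ℤ) + cn (2 ^ m) s σ 3] ∈ iv (m, l) := fun r =>
    ag_mem_box m l b x hb hx σ r s (hi x0 0) (hi x1 1) (hi x2 2) (hi x3 3)
  rw [res_of_mem (hm 0), res_of_mem (hm 3), res_of_mem (hm 2)]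

theorem ne_of_perm (σ : Equiv.Perm (Fin 4)) {i j : Fin 4} (h : i ≠ j) : σ i ≠ σ j :=
  fun e => h (σ.injective e)

/-- **(LB1) at a sub-box**: `σ 0` leveled, `σ 3` bounded, `σ 2` arbitrary -/
theorem leaf_box (m : ℕ) (l b : ℤ) (hb : b = -1 ∨ b = -7) (F : Fin 4 → ℤ → ℂ)
    (σ : Equiv.Perm (Fin 4)) (κ : ℕ) (t : ℝ) (ht : 0 ≤ t) (hO : OLev κ (σ 0) (m, l) (F (σ 0)) t)
    (H : ℝ) (hH : 0 < H) (hF3 : ∀ y ∈ iv (m, l), ‖F (σ 3) y‖ ≤ H) {x : ℤ} (hx : x ∈ adm m l)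
    (s : Fin 4 → Fin 2) :
    ∑ x0 ∈ Ico (cn (2 ^ m) s σ 0) (cn (2 ^ m) s σ 0 + (2 ^ m : ℕ)),
        ∑ x3 ∈ Ico (cn (2 ^ m) s σ 3) (cn (2 ^ m) s σ 3 + (2 ^ m : ℕ)),
        ∑ x2 ∈ Ico (cn (2 ^ m) s σ 2) (cn (2 ^ m) s σ 2 + (2 ^ m : ℕ)),
        ‖∑ x1 ∈ Ico (cn (2 ^ m) s σ 1) (cn (2 ^ m) s σ 1 + (2 ^ m : ℕ)),
          F (σ 0) (ag b x (2 ^ m) σ 0 ![x0, x1, x2, x3]) *
            F (σ 3) (ag b x (2 ^ m) σ 3 ![x0, x1, x2, x3]) *
            F (σ 2) (ag b x (2 ^ m) σ 2 ![x0, x1, x2, x3])‖ ^ 2 ≤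
    (∑ y ∈ iv (m, l), ‖F (σ 2) y‖ ^ 2) * ((2 ^ m : ℝ) ^ 3 * H ^ 2 * t *
      Real.sqrt (2 ^ m * ∑ y ∈ iv (m, l), ‖F (σ 0) y‖ ^ 2)) := by
  rw [leaf_fin m l b hb F σ hx s]
  set c : Fin 4 → ℤ := fun r => cn (2 ^ m) s σ r + pp b x (2 ^ m) (σ r) with hc
  have hne : sl (σ 1) - sl (σ 2) ≠ 0 := by
    have := sl_ne (σ 1) (σ 2) (ne_of_perm σ (by decide))
    omega
  have key := LfB.leaf_olev (k := σ 0) (p := (m, l)) (f := F (σ 0)) (s := t) hO ht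
    (j := σ 3) (e := σ 2) (e' := σ 1)
    (ne_of_perm σ (by decide)) (ne_of_perm σ (by decide)) (ne_of_perm σ (by decide))
    (ne_of_perm σ (by decide)) (ne_of_perm σ (by decide)) (ne_of_perm σ (by decide))
    (r := 0) (Nat.zero_le _) (n := 2 ^ m) (by simp) (c 3) (c 2) (c 1)
    (fun x0 z z' => res (m, l) (F (σ 3)) ((sl (σ 0) - sl (σ 3)) * (c 0 + ((x0 : ℕ) : ℤ)) +
      (sl (σ 2) - sl (σ 3)) * z + (sl (σ 1) - sl (σ 3)) * z'))
    (fun x0 x1 x3 => res (m, l) (F (σ 2)) ((sl (σ 0) - sl (σ 2)) * (c 0 + ((x0 : ℕ) : ℤ)) +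
      (sl (σ 3) - sl (σ 2)) * (c 3 + ((x3 : ℕ) : ℤ)) +
      (sl (σ 1) - sl (σ 2)) * (c 1 + ((x1 : ℕ) : ℤ))))
    H hH (fun _ _ _ => norm_res_le hH.le hF3 _) (∑ y ∈ iv (m, l), ‖F (σ 0) y‖ ^ 2) le_rfl
    (∑ y ∈ iv (m, l), ‖F (σ 2) y‖ ^ 2)
    (fun x0 x3 => by
      rw [← sum_res m l (F (σ 2))]
      exact LfB.fib_le (2 ^ m) (c 1) _ hne (res (m, l) (F (σ 2))) (iv (m, l)) (fun y hy => res_out y hy)
        ((sl (σ 0) - sl (σ 2)) * (c 0 + ((x0 : ℕ) : ℤ)) +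
          (sl (σ 3) - sl (σ 2)) * (c 3 + ((x3 : ℕ) : ℤ))))
  push_cast at key
  refine le_trans (le_of_eq ?_) key
  refine Finset.sum_congr rfl fun x0 _ => Finset.sum_congr rfl fun x3 _ =>
    Finset.sum_congr rfl fun x2 _ => ?_
  congr 2
  refine Finset.sum_congr rfl fun x1 _ => ?_
  rw [ag0, ag2, ag3]
  simp only [hc]
  refine congrArg₂ (· * ·) (congrArg₂ (· * ·) (congrArg _ ?_) (congrArg _ ?_)) (congrArg _ ?_) <;>
    ring


/-- numbers -/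
theorem num (n a0 a1 a2 H t : ℝ) (hn : 0 < n) (h0 : 0 ≤ a0) (h1 : 0 ≤ a1) (h2 : 0 ≤ a2)
    (hH : 0 ≤ H) (ht : 0 ≤ t) :
    1 / n ^ 3 * Real.sqrt (128 * n * a1 ^ 2) *
      Real.sqrt ((128 * n * a2 ^ 2) * (n ^ 3 * H ^ 2 * t * Real.sqrt (n * (128 * n * a0 ^ 2)))) ≤
    512 * H * Real.sqrt (t * a0) * a1 * a2 := by
  have e1 : Real.sqrt (n * (128 * n * a0 ^ 2)) ≤ 12 * n * a0 := by
    refine Real.sqrt_le_iff.2 ⟨by positivity, ?_⟩
    have : 0 ≤ n ^ 2 * a0 ^ 2 := by positivity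
    nlinarith
  have e2 : Real.sqrt (128 * n * a1 ^ 2) *
      Real.sqrt ((128 * n * a2 ^ 2) * (n ^ 3 * H ^ 2 * t * Real.sqrt (n * (128 * n * a0 ^ 2)))) ≤
      (512 * n ^ 3 * H * a1 * a2) * Real.sqrt (t * a0) := by
    rw [← Real.sqrt_mul (by positivity)]
    refine Real.sqrt_le_iff.2 ⟨by positivity, ?_⟩
    rw [mul_pow, Real.sq_sqrt (by positivity)]
    have h3 : n ^ 3 * H ^ 2 * t * Real.sqrt (n * (128 * n * a0 ^ 2)) ≤
        n ^ 3 * H ^ 2 * t * (12 * n * a0) := mul_le_mul_of_nonneg_left e1 (by positivity)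
    have h4 : 128 * n * a1 ^ 2 * ((128 * n * a2 ^ 2) *
        (n ^ 3 * H ^ 2 * t * Real.sqrt (n * (128 * n * a0 ^ 2)))) ≤
        128 * n * a1 ^ 2 * ((128 * n * a2 ^ 2) * (n ^ 3 * H ^ 2 * t * (12 * n * a0))) := by
      refine mul_le_mul_of_nonneg_left (mul_le_mul_of_nonneg_left h3 (by positivity)) (by positivity)
    refine h4.trans ?_
    have h5 : 0 ≤ n ^ 6 * H ^ 2 * a1 ^ 2 * a2 ^ 2 * (t * a0) := by positivity
    nlinarith
  have hn3 : 0 < n ^ 3 := by positivity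
  calc 1 / n ^ 3 * Real.sqrt (128 * n * a1 ^ 2) *
      Real.sqrt ((128 * n * a2 ^ 2) * (n ^ 3 * H ^ 2 * t * Real.sqrt (n * (128 * n * a0 ^ 2))))
      = 1 / n ^ 3 * (Real.sqrt (128 * n * a1 ^ 2) *
      Real.sqrt ((128 * n * a2 ^ 2) * (n ^ 3 * H ^ 2 * t *
        Real.sqrt (n * (128 * n * a0 ^ 2))))) := by ring
    _ ≤ 1 / n ^ 3 * ((512 * n ^ 3 * H * a1 * a2) * Real.sqrt (t * a0)) :=
        mul_le_mul_of_nonneg_left e2 (by positivity)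
    _ = 512 * H * Real.sqrt (t * a0) * a1 * a2 := by
        field_simp

theorem sum_iv (m : ℕ) (l : ℤ) (X : ℤ → ℂ) :
    ∑ y ∈ iv (m, l), ‖X y‖ ^ 2 = 128 * (2 : ℝ) ^ m * av (m, l) X ^ 2 := by
  unfold av av2 iv
  rw [Real.sq_sqrt (by positivity)]
  rw [pow_add]
  field_simp
  norm_num

theorem av_nonneg' (p : Nd) (X : ℤ → ℂ) : 0 ≤ av p X := by
  unfold av av2
  positivity

/-- **NODE GAIN, leaf (LB1)**: `σ 0` leveled (`OLev t`), `σ 3` bounded by `H`, `σ 1`, `σ 2` arbitrary: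
`∑_{x ∈ adm p} ‖Lbox‖ ≤ 512 |p| H (t av_p F_{σ0})^{1/2} av_p F_{σ1} av_p F_{σ2}`. -/
theorem node_olev (m : ℕ) (l b : ℤ) (hb : b = -1 ∨ b = -7) (F : Fin 4 → ℤ → ℂ)
    (σ : Equiv.Perm (Fin 4)) (κ : ℕ) (t : ℝ) (ht : 0 ≤ t) (hO : OLev κ (σ 0) (m, l) (F (σ 0)) t)
    (H : ℝ) (hH : 0 < H) (hF3 : ∀ y ∈ iv (m, l), ‖F (σ 3) y‖ ≤ H) :
    ∑ x ∈ adm m l, ‖Lbox (2 ^ m) b F x‖ ≤
      len (m, l) * (512 * H * Real.sqrt (t * av (m, l) (F (σ 0))) * av (m, l) (F (σ 1)) *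
        av (m, l) (F (σ 2))) := by
  have h0 := av_nonneg' (m, l) (F (σ 0))
  have h1 := av_nonneg' (m, l) (F (σ 1))
  have h2 := av_nonneg' (m, l) (F (σ 2))
  have h := one_node m l b hb F σ (Real.sqrt ((128 * (2 : ℝ) ^ m * av (m, l) (F (σ 2)) ^ 2) *
    (((2 : ℝ) ^ m) ^ 3 * H ^ 2 * t * Real.sqrt ((2 : ℝ) ^ m *
      (128 * (2 : ℝ) ^ m * av (m, l) (F (σ 0)) ^ 2))))) (Real.sqrt_nonneg _) ?_
  · refine h.trans ?_
    rw [sum_iv m l (F (σ 1))]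
    refine mul_le_mul_of_nonneg_left ?_ (by unfold len; positivity)
    exact num ((2 : ℝ) ^ m) _ _ _ H t (by positivity) h0 h1 h2 hH.le ht
  · intro x hx s
    rw [Real.sq_sqrt (by positivity)]
    have h3 := leaf_box m l b hb F σ κ t ht hO H hH hF3 hx s
    rw [sum_iv m l (F (σ 2)), sum_iv m l (F (σ 0))] at h3
    exact h3


/-- **one shape for all**: four distinct slots `k` (leveled), `h` (bounded), `i`, `j` (arbitrary) -/
theorem node_gain (m : ℕ) (l b : ℤ) (hb : b = -1 ∨ b = -7) (F : Fin 4 → ℤ → ℂ)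
    (κ : ℕ) (k h i j : Fin 4) (h1 : k ≠ h) (h2 : k ≠ i) (h3 : k ≠ j) (h4 : h ≠ i) (h5 : h ≠ j)
    (h6 : i ≠ j) (t : ℝ) (ht : 0 ≤ t) (hO : OLev κ k (m, l) (F k) t)
    (H : ℝ) (hH : 0 < H) (hF : ∀ y ∈ iv (m, l), ‖F h y‖ ≤ H) :
    ∑ x ∈ adm m l, ‖Lbox (2 ^ m) b F x‖ ≤
      len (m, l) * (512 * H * Real.sqrt (t * av (m, l) (F k)) * av (m, l) (F i) *
        av (m, l) (F j)) := by
  have hinj : Function.Injective (![k, i, j, h] : Fin 4 → Fin 4) := by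
    intro u v huv
    fin_cases u <;> fin_cases v <;> simp_all
  let σ : Equiv.Perm (Fin 4) := Equiv.ofBijective _ (Finite.injective_iff_bijective.1 hinj)
  exact node_olev m l b hb F σ κ t ht hO H hH hF

end Crest.Agent.R079.OneG354
end

-- ▼ part R079/BadN_360

/-! R079, RULE (S), leaf [S8] of note 781 (helper360):
* `node_bad`   : one node, slot `m` = (op-leveled letter) + (small letter), slot `3` in local `L^q3`;
* `abs_qb`     : frozen slot, region-wide, with absolute values;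
* `ruleS_of_good` : `RuleS` from its core on the GOOD nodes and for `G` bounded by `t^(-CG)`. -/

set_option autoImplicit false
set_option linter.unusedVariables false

namespace Crest.Agent.R079.BadN360

open Finset Crest.Agent.R079.Grid Crest.Agent.R079.Growth Crest.Agent.R079.QRed
  Crest.Agent.R079.Glue Crest.Agent.R079.TRec Crest.Agent.R079.TWin Crest.Agent.R079.Ero526
  Crest.Agent.R079.OpLev

/-! ### low and tall parts of a letter -/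

open Classical in
/-- low part -/
noncomputable def lo (H : ℝ) (G : Fn) : Fn := fun y => if ‖G y‖ ≤ H then G y else 0

open Classical in
/-- tall part -/
noncomputable def hi (H : ℝ) (G : Fn) : Fn := fun y => if ‖G y‖ ≤ H then 0 else G y

theorem lo_add_hi (H : ℝ) (G : Fn) (y : ℤ) : G y = lo H G y + hi H G y := by
  unfold lo hi
  split_ifs <;> simp

theorem norm_lo_le {H : ℝ} (hH : 0 ≤ H) (G : Fn) (y : ℤ) : ‖lo H G y‖ ≤ H := by
  unfold lo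
  split_ifs with h
  · exact h
  · simpa using hH

theorem norm_lo_le' (H : ℝ) (G : Fn) (y : ℤ) : ‖lo H G y‖ ≤ ‖G y‖ := by
  unfold lo
  split_ifs with h
  · exact le_rfl
  · simp


theorem aq_mono {q : ℝ} (hq : 0 < q) {p : Nd} {f g : Fn} (h : ∀ y ∈ iv p, ‖f y‖ ≤ ‖g y‖) :
    aq q p f ≤ aq q p g := by
  unfold aq Lq853.avq
  refine Real.rpow_le_rpow (mul_nonneg (by positivity)
    (Finset.sum_nonneg fun y _ => Real.rpow_nonneg (norm_nonneg _) _)) ?_ (by positivity)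
  refine mul_le_mul_of_nonneg_left (Finset.sum_le_sum fun y hy => ?_) (by positivity)
  exact Real.rpow_le_rpow (norm_nonneg _) (h y hy) hq.le

theorem aq_lo {q : ℝ} (hq : 0 < q) (H : ℝ) (p : Nd) (G : Fn) : aq q p (lo H G) ≤ aq q p G :=
  aq_mono hq fun y _ => norm_lo_le' H G y

theorem av_mono {p : Nd} {f g : Fn} (h : ∀ y ∈ iv p, ‖f y‖ ≤ ‖g y‖) : av p f ≤ av p g := by
  unfold av av2
  refine Real.sqrt_le_sqrt (mul_le_mul_of_nonneg_left (Finset.sum_le_sum fun y hy => ?_)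
    (by positivity))
  exact pow_le_pow_left₀ (norm_nonneg _) (h y hy) 2

theorem av_lo (H : ℝ) (p : Nd) (G : Fn) : av p (lo H G) ≤ av p G :=
  av_mono fun y _ => norm_lo_le' H G y

/-- the tall part is small in `L²` -/
theorem av_hi {q : ℝ} (hq : 2 < q) {H : ℝ} (hH : 0 < H) {p : Nd} {G : Fn} (hG : aq q p G ≤ 1) :
    av p (hi H G) ≤ H ^ (-((q - 2) / 2)) := by
  have hq0 : 0 < q := by linarith
  have h1 : (1 / 2 ^ (p.1 + 7) : ℝ) * ∑ y ∈ dI (p.1 + 7) p.2, ‖G y‖ ^ q ≤ 1 := by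
    have h0 : 0 ≤ (1 / 2 ^ (p.1 + 7) : ℝ) * ∑ y ∈ dI (p.1 + 7) p.2, ‖G y‖ ^ q :=
      mul_nonneg (by positivity)
        (Finset.sum_nonneg fun y _ => Real.rpow_nonneg (norm_nonneg _) _)
    by_contra hcon
    push Not at hcon
    have := Real.one_lt_rpow hcon (show 0 < 1 / q by positivity)
    unfold aq Lq853.avq at hG
    linarith
  have h2 : ∀ y, ‖hi H G y‖ ^ 2 ≤ H ^ (-(q - 2)) * ‖G y‖ ^ q := by
    intro y
    unfold hi
    split_ifs with h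
    · simp only [norm_zero]
      have : 0 ≤ H ^ (-(q - 2)) * ‖G y‖ ^ q := by positivity
      simpa using this
    · push Not at h
      have hg : 0 < ‖G y‖ := hH.trans h
      have e : ‖G y‖ ^ q = ‖G y‖ ^ (q - 2) * ‖G y‖ ^ 2 := by
        rw [← Real.rpow_natCast (‖G y‖) 2, ← Real.rpow_add hg]
        congr 1
        push_cast
        ring
      rw [e, ← mul_assoc, Real.rpow_neg hH.le, ← div_eq_inv_mul]
      refine le_mul_of_one_le_left (by positivity) ?_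
      rw [one_le_div (by positivity)]
      exact Real.rpow_le_rpow hH.le h.le (by linarith)
  unfold av av2
  have h3 : (1 / 2 ^ (p.1 + 7) : ℝ) * ∑ y ∈ dI (p.1 + 7) p.2, ‖hi H G y‖ ^ 2 ≤
      (H ^ (-((q - 2) / 2))) ^ 2 := by
    have e : (H ^ (-((q - 2) / 2))) ^ 2 = H ^ (-(q - 2)) := by
      rw [← Real.rpow_natCast, ← Real.rpow_mul hH.le]
      congr 1
      push_cast
      ring
    rw [e]
    calc _ ≤ (1 / 2 ^ (p.1 + 7) : ℝ) * ∑ y ∈ dI (p.1 + 7) p.2, H ^ (-(q - 2)) * ‖G y‖ ^ q :=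
          mul_le_mul_of_nonneg_left (Finset.sum_le_sum fun y _ => h2 y) (by positivity)
      _ = H ^ (-(q - 2)) * ((1 / 2 ^ (p.1 + 7) : ℝ) * ∑ y ∈ dI (p.1 + 7) p.2, ‖G y‖ ^ q) := by
          rw [← Finset.mul_sum]; ring
      _ ≤ H ^ (-(q - 2)) * 1 := mul_le_mul_of_nonneg_left h1 (by positivity)
      _ = _ := mul_one _
  calc _ ≤ Real.sqrt ((H ^ (-((q - 2) / 2))) ^ 2) := Real.sqrt_le_sqrt h3
    _ = _ := Real.sqrt_sq (by positivity)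

/-! ### linearity of `Lbox` in one slot -/

theorem Lbox_upd_add (N : ℕ) (bb x : ℤ) (F : Fin 4 → ℤ → ℂ) (i : Fin 4) (X Y : ℤ → ℂ) :
    Lbox N bb (Function.update F i (fun y => X y + Y y)) x =
      Lbox N bb (Function.update F i X) x + Lbox N bb (Function.update F i Y) x := by
  have h := Qb247.Lbox_update_sum N bb x F i 2 ![X, Y] ![1, 1]
  simpa [Fin.sum_univ_two] using h

/-- splitting one slot of a node -/
theorem node_split {bb : ℤ} (hb : bb = -1 ∨ bb = -7) {p : Nd} {F : Fin 4 → Fn} {i : Fin 4} {X Y : Fn}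
    (h : ∀ y ∈ iv p, F i y = X y + Y y) :
    ∑ x ∈ adm p.1 p.2, ‖Lbox (2 ^ p.1) bb F x‖ ≤
      ∑ x ∈ adm p.1 p.2, ‖Lbox (2 ^ p.1) bb (Function.update F i X) x‖ +
      ∑ x ∈ adm p.1 p.2, ‖Lbox (2 ^ p.1) bb (Function.update F i Y) x‖ := by
  rw [← Finset.sum_add_distrib]
  refine Finset.sum_le_sum fun x hx => ?_
  rw [Qb247.Lbox_congr p.1 p.2 bb x hb hx F (Function.update F i (fun y => X y + Y y)) ?_,
    Lbox_upd_add]
  · exact norm_add_le _ _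
  · intro j y hy
    by_cases hj : j = i
    · subst hj
      rw [Function.update_self]
      exact h y hy
    · rw [Function.update_of_ne hj]

/-- the trivial bound, `av` form -/
theorem node_triv {bb : ℤ} (hb : bb = -1 ∨ bb = -7) (p : Nd) (F : Fin 4 → Fn) :
    ∑ x ∈ adm p.1 p.2, ‖Lbox (2 ^ p.1) bb F x‖ ≤ 64 * len p * ∏ j, av p (F j) :=
  sum_norm_Lbox_le p.1 p.2 bb hb F

/-- product of four numbers in `[0,1]` except one -/
theorem prod_le_one_of {a : Fin 4 → ℝ} (h0 : ∀ j, 0 ≤ a j) (i : Fin 4) {s : ℝ}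
    (hi : a i ≤ s) (h1 : ∀ j, j ≠ i → a j ≤ 1) : ∏ j, a j ≤ s := by
  rw [← Finset.mul_prod_erase Finset.univ a (Finset.mem_univ i)]
  have h2 : ∏ j ∈ Finset.univ.erase i, a j ≤ 1 :=
    Finset.prod_le_one (fun j _ => h0 j) fun j hj => h1 j (Finset.ne_of_mem_erase hj)
  have h3 : 0 ≤ ∏ j ∈ Finset.univ.erase i, a j := Finset.prod_nonneg fun j _ => h0 j
  calc a i * ∏ j ∈ Finset.univ.erase i, a j ≤ s * 1 := mul_le_mul hi h2 h3 ((h0 i).trans hi)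
    _ = s := mul_one _

/-- **ONE NODE** (bad nodes of RULE (S)): the slot `m` is an op-leveled letter plus a small letter, the
slot `3` is only in local `L^q3`, the two others arbitrary. -/
theorem node_bad {bb : ℤ} (hb : bb = -1 ∨ bb = -7) {m : Fin 4} (hm : m ≠ 3) {p : Nd} {F : Fin 4 → Fn}
    {X E : Fn} {κ : ℕ} {s sE H q3 : ℝ} (hs : 0 ≤ s) (hH : 0 < H) (hq : 2 < q3)
    (hP : ∀ y ∈ iv p, F m y = X y + E y) (hO : OLev κ m p X s) (hX : av p X ≤ 2)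
    (hE : av p E ≤ sE) (hG : aq q3 p (F 3) ≤ 1) (hF : ∀ j, j ≠ 3 → av p (F j) ≤ 1) :
    ∑ x ∈ adm p.1 p.2, ‖Lbox (2 ^ p.1) bb F x‖ ≤
      (512 * H * Real.sqrt (2 * s) + 64 * sE + 64 * H ^ (-((q3 - 2) / 2))) * len p := by
  have hlen : 0 < len p := Growth.len_pos p
  have hav0 : ∀ f : Fn, 0 ≤ av p f := fun f => OneG354.av_nonneg' p f
  have hG1 : av p (F 3) ≤ 1 := (TWL649.av_le_aq hq.le p (F 3)).trans hG
  have h3m : (3 : Fin 4) ≠ m := fun e => hm e.symm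
  -- tall part of the slot 3
  have e1 := node_split hb (p := p) (F := F) (i := 3) (X := lo H (F 3)) (Y := hi H (F 3))
    (fun y _ => lo_add_hi H (F 3) y)
  have e2 : ∑ x ∈ adm p.1 p.2, ‖Lbox (2 ^ p.1) bb (Function.update F 3 (hi H (F 3))) x‖ ≤
      64 * H ^ (-((q3 - 2) / 2)) * len p := by
    refine (node_triv hb p _).trans ?_
    have := prod_le_one_of (a := fun j => av p (Function.update F 3 (hi H (F 3)) j))
      (fun j => hav0 _) 3 (s := H ^ (-((q3 - 2) / 2)))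
      (by rw [Function.update_self]; exact av_hi hq hH hG)
      (fun j hj => by rw [Function.update_of_ne hj]; exact hF j hj)
    calc _ ≤ 64 * len p * H ^ (-((q3 - 2) / 2)) :=
          mul_le_mul_of_nonneg_left this (by positivity)
      _ = _ := by ring
  -- low part: split the slot `m`
  set F' : Fin 4 → Fn := Function.update F 3 (lo H (F 3)) with hF'
  have hF'm : F' m = F m := by rw [hF', Function.update_of_ne hm]
  have hF'3 : F' 3 = lo H (F 3) := by rw [hF', Function.update_self]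
  have e3 := node_split hb (p := p) (F := F') (i := m) (X := X) (Y := E)
    (fun y hy => by rw [hF'm]; exact hP y hy)
  have hlo1 : av p (lo H (F 3)) ≤ 1 := (av_lo H p (F 3)).trans hG1
  have e4 : ∑ x ∈ adm p.1 p.2, ‖Lbox (2 ^ p.1) bb (Function.update F' m E) x‖ ≤
      64 * sE * len p := by
    refine (node_triv hb p _).trans ?_
    have := prod_le_one_of (a := fun j => av p (Function.update F' m E j))
      (fun j => hav0 _) m (s := sE)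
      (by rw [Function.update_self]; exact hE)
      (fun j hj => by
        rw [Function.update_of_ne hj]
        by_cases h3 : j = 3
        · rw [h3, hF'3]; exact hlo1
        · rw [hF', Function.update_of_ne h3]; exact hF j h3)
    calc _ ≤ 64 * len p * sE := mul_le_mul_of_nonneg_left this (by positivity)
      _ = _ := by ring
  have e5 : ∑ x ∈ adm p.1 p.2, ‖Lbox (2 ^ p.1) bb (Function.update F' m X) x‖ ≤
      512 * H * Real.sqrt (2 * s) * len p := by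
    -- the two other slots
    obtain ⟨i, j, him, hi3, hjm, hj3, hij⟩ :
        ∃ i j : Fin 4, i ≠ m ∧ i ≠ 3 ∧ j ≠ m ∧ j ≠ 3 ∧ i ≠ j := by
      fin_cases m
      · exact ⟨1, 2, by decide, by decide, by decide, by decide, by decide⟩
      · exact ⟨0, 2, by decide, by decide, by decide, by decide, by decide⟩
      · exact ⟨0, 1, by decide, by decide, by decide, by decide, by decide⟩
      · exact absurd rfl hm
    have hn := OneG354.node_gain p.1 p.2 bb hb (Function.update F' m X) κ m 3 i j hm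
      (fun e => him e.symm) (fun e => hjm e.symm) (fun e => hi3 e.symm) (fun e => hj3 e.symm) hij s hs
      (by rw [Function.update_self]; exact hO) H hH
      (fun y _ => by
        rw [Function.update_of_ne h3m, hF'3]
        exact norm_lo_le hH.le _ _)
    rw [Function.update_self, Function.update_of_ne him, Function.update_of_ne hjm,
      hF', Function.update_of_ne hi3, Function.update_of_ne hj3] at hn
    refine hn.trans ?_
    have h1 : Real.sqrt (s * av (p.1, p.2) X) ≤ Real.sqrt (2 * s) :=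
      Real.sqrt_le_sqrt (by
        have := mul_le_mul_of_nonneg_left hX hs
        linarith)
    have h2 : av (p.1, p.2) (F i) ≤ 1 := hF i hi3
    have h3 : av (p.1, p.2) (F j) ≤ 1 := hF j hj3
    have h4 : 512 * H * Real.sqrt (s * av (p.1, p.2) X) * av (p.1, p.2) (F i) *
        av (p.1, p.2) (F j) ≤ 512 * H * Real.sqrt (2 * s) * 1 * 1 := by
      refine mul_le_mul (mul_le_mul (mul_le_mul_of_nonneg_left h1 (by positivity)) h2 (hav0 _)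
        (by positivity)) h3 (hav0 _) (by positivity)
    calc _ ≤ len p * (512 * H * Real.sqrt (2 * s) * 1 * 1) :=
          mul_le_mul_of_nonneg_left h4 hlen.le
      _ = _ := by ring
  calc _ ≤ _ := e1
    _ ≤ (512 * H * Real.sqrt (2 * s) * len p + 64 * sE * len p) +
        64 * H ^ (-((q3 - 2) / 2)) * len p := add_le_add (e3.trans (add_le_add e5 e4)) e2
    _ = _ := by ring

/-! ### frozen slot, absolute values, region-wide -/

/-- **(Qb) with absolute values**: the slot `i` is on `iv J` a combination of unit atoms of mass `t` -/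
theorem abs_qb : ∃ K : ℝ, 0 ≤ K ∧ ∀ bb, (bb = -1 ∨ bb = -7) → ∀ R J, IsRegion R J →
    ∀ (F : Fin 4 → Fn) (A : Fin 4 → ℝ), (∀ j, 0 ≤ A j) → (∀ j, ∀ p ∈ R, av p (F j) ≤ A j) →
    ∀ (i : Fin 4) (t : ℝ), Rep i J (F i) t →
      ∑ p ∈ R, ∑ x ∈ adm p.1 p.2, ‖Lbox (2 ^ p.1) bb F x‖ ≤
        K * t * (∏ j : Fin 3, A (i.succAbove j)) * len J := by
  obtain ⟨K, hK, hF⟩ := frozenAtom
  refine ⟨K, hK, ?_⟩
  intro bb hbb R J hR F A hA0 hav i t hrep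
  obtain ⟨n, φ, c, hφ, hFi, hc⟩ := hrep
  have h1 : ∀ p ∈ R, ∀ x ∈ adm p.1 p.2, ‖Lbox (2 ^ p.1) bb F x‖ ≤
      ∑ k, ‖c k‖ * ‖Lbox (2 ^ p.1) bb (Function.update F i (φ k)) x‖ := by
    intro p hp x hx
    rw [Qb247.Lbox_congr p.1 p.2 bb x hbb hx F
      (Function.update F i (fun y => ∑ k, c k * φ k y)) ?_, Qb247.Lbox_update_sum]
    · refine (norm_sum_le _ _).trans (le_of_eq (Finset.sum_congr rfl fun k _ => norm_mul _ _))
    · intro j y hy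
      by_cases hj : j = i
      · subst hj
        rw [Function.update_self]
        exact hFi y (hR.1 p hp hy)
      · rw [Function.update_of_ne hj]
  have hP : 0 ≤ ∏ j : Fin 3, A (i.succAbove j) := Finset.prod_nonneg fun j _ => hA0 _
  have hlen : 0 ≤ len J := by unfold len; positivity
  set B : ℝ := K * (∏ j : Fin 3, A (i.succAbove j)) * len J with hB
  have hB0 : 0 ≤ B := by positivity
  have h2 : ∀ k, ∑ p ∈ R, ∑ x ∈ adm p.1 p.2,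
      ‖Lbox (2 ^ p.1) bb (Function.update F i (φ k)) x‖ ≤ B := by
    intro k
    obtain ⟨κ, T, a, b, c', hκ, hφk, hle⟩ := hφ k
    have h3 := hF bb hbb R J hR i κ hκ T a b c' (Function.update F i (φ k))
      (fun j => A (i.succAbove j)) (fun j => hA0 _) (fun j p hp => by
        rw [Function.update_of_ne (Fin.succAbove_ne i j)]
        exact hav _ p hp) (by rw [Function.update_self, hφk])
    refine h3.trans ?_
    have e2 : K * (κ * 2 ^ (J.1 + 7) * (∏ j : Fin 3, A (i.succAbove j)) *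
        (n3 (T 0) (T 1) a * n3 (T 1) (T 2) b * n3 (T 2) (T 0) c') ^ (1 / 3 : ℝ)) =
        B * (κ * (n3 (T 0) (T 1) a * n3 (T 1) (T 2) b * n3 (T 2) (T 0) c') ^ (1 / 3 : ℝ)) := by
      rw [hB]; unfold len; ring
    rw [e2]
    calc _ ≤ B * 1 := mul_le_mul_of_nonneg_left hle hB0
      _ = B := mul_one _
  calc ∑ p ∈ R, ∑ x ∈ adm p.1 p.2, ‖Lbox (2 ^ p.1) bb F x‖
      ≤ ∑ p ∈ R, ∑ x ∈ adm p.1 p.2,
          ∑ k, ‖c k‖ * ‖Lbox (2 ^ p.1) bb (Function.update F i (φ k)) x‖ :=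
        Finset.sum_le_sum fun p hp => Finset.sum_le_sum fun x hx => h1 p hp x hx
    _ = ∑ k, ‖c k‖ * ∑ p ∈ R, ∑ x ∈ adm p.1 p.2,
          ‖Lbox (2 ^ p.1) bb (Function.update F i (φ k)) x‖ := by
        have e1 : ∀ p ∈ R, ∑ x ∈ adm p.1 p.2,
            ∑ k, ‖c k‖ * ‖Lbox (2 ^ p.1) bb (Function.update F i (φ k)) x‖ =
            ∑ k, ∑ x ∈ adm p.1 p.2,
              ‖c k‖ * ‖Lbox (2 ^ p.1) bb (Function.update F i (φ k)) x‖ :=
          fun p _ => Finset.sum_comm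
        rw [Finset.sum_congr rfl e1, Finset.sum_comm]
        refine Finset.sum_congr rfl fun k _ => ?_
        rw [Finset.mul_sum]
        refine Finset.sum_congr rfl fun p _ => ?_
        rw [Finset.mul_sum]
    _ ≤ ∑ k, ‖c k‖ * B :=
        Finset.sum_le_sum fun k _ => mul_le_mul_of_nonneg_left (h2 k) (norm_nonneg _)
    _ = (∑ k, ‖c k‖) * B := by rw [Finset.sum_mul]
    _ ≤ t * B := mul_le_mul_of_nonneg_right hc hB0
    _ = K * t * (∏ j : Fin 3, A (i.succAbove j)) * len J := by rw [hB]; ring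

/-- restriction of a representation -/
theorem rep_mono {i : Fin 4} {I J : Nd} {P : Fn} {t : ℝ} (h : Rep i I P t) (hJ : iv J ⊆ iv I) :
    Rep i J P t := by
  obtain ⟨n, φ, c, h1, h2, h3⟩ := h
  exact ⟨n, φ, c, h1, fun y hy => h2 y (hJ hy), h3⟩

/-- **TALL WORDS OF THE SLOT 3** next to a frozen letter -/
theorem tall_words : ∃ K : ℝ, 0 ≤ K ∧ ∀ bb, (bb = -1 ∨ bb = -7) → ∀ R J, IsRegion R J →
    ∀ (F : Fin 4 → Fn) (m : Fin 4), m ≠ 3 → (∀ j, j ≠ 3 → ∀ p ∈ R, av p (F j) ≤ 1) →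
    ∀ q3 H M : ℝ, 2 < q3 → 0 < H → (∀ p ∈ R, aq q3 p (F 3) ≤ 1) → Rep m J (F m) M →
      ∑ p ∈ R, ∑ x ∈ adm p.1 p.2,
        ‖Lbox (2 ^ p.1) bb (Function.update F 3 (hi H (F 3))) x‖ ≤
        K * M * H ^ (-((q3 - 2) / 2)) * len J := by
  obtain ⟨K, hK, hq⟩ := abs_qb
  refine ⟨K, hK, ?_⟩
  intro bb hbb R J hR F m hm hF q3 H M hq3 hH hG hrep
  have hav := hq bb hbb R J hR (Function.update F 3 (hi H (F 3)))
    (fun j => if j = 3 then H ^ (-((q3 - 2) / 2)) else 1)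
    (fun j => by split_ifs <;> positivity)
    (fun j p hp => by
      by_cases hj : j = 3
      · subst hj
        rw [Function.update_self, if_pos rfl]
        exact av_hi hq3 hH (hG p hp)
      · rw [Function.update_of_ne hj, if_neg hj]
        exact hF j hj p hp) m M (by rw [Function.update_of_ne hm]; exact hrep)
  refine hav.trans (le_of_eq ?_)
  have : (∏ j : Fin 3, (if m.succAbove j = 3 then H ^ (-((q3 - 2) / 2)) else (1 : ℝ))) =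
      H ^ (-((q3 - 2) / 2)) := by
    fin_cases m
    · simp [Fin.prod_univ_three, Fin.succAbove]
    · simp [Fin.prod_univ_three, Fin.succAbove]
    · simp [Fin.prod_univ_three, Fin.succAbove]
    · exact absurd rfl hm
  rw [this]

/-! ### RULE (S) from its core on the good nodes, `G` bounded -/




/-- numbers of the bad nodes -/
theorem bad_num {t s1 gm q3 cS A : ℝ} (ht : 0 < t) (ht1 : t ≤ 1) (hA : 0 ≤ A)
    (h1 : cS ≤ gm / 4) (h2 : cS ≤ s1) (h3 : cS ≤ gm * (q3 - 2) / 8) :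
    512 * t ^ (-(gm / 4)) * Real.sqrt (2 * (A * t ^ gm)) + 64 * t ^ s1 +
      64 * (t ^ (-(gm / 4))) ^ (-((q3 - 2) / 2)) ≤ (512 * Real.sqrt (2 * A) + 128) * t ^ cS := by
  have e1 : Real.sqrt (2 * (A * t ^ gm)) = Real.sqrt (2 * A) * t ^ (gm / 2) := by
    rw [← mul_assoc, Real.sqrt_mul (by positivity), Real.sqrt_eq_rpow (t ^ gm),
      ← Real.rpow_mul ht.le]
    congr 2
    ring
  have e2 : t ^ (-(gm / 4)) * t ^ (gm / 2) = t ^ (gm / 4) := by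
    rw [← Real.rpow_add ht]
    congr 1
    ring
  have e3 : (t ^ (-(gm / 4))) ^ (-((q3 - 2) / 2)) = t ^ (gm * (q3 - 2) / 8) := by
    rw [← Real.rpow_mul ht.le]
    congr 1
    ring
  have f1 : t ^ (gm / 4) ≤ t ^ cS := Real.rpow_le_rpow_of_exponent_ge ht ht1 h1
  have f2 : t ^ s1 ≤ t ^ cS := Real.rpow_le_rpow_of_exponent_ge ht ht1 h2
  have f3 : t ^ (gm * (q3 - 2) / 8) ≤ t ^ cS := Real.rpow_le_rpow_of_exponent_ge ht ht1 h3
  rw [e1, e3]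
  have e4 : 512 * t ^ (-(gm / 4)) * (Real.sqrt (2 * A) * t ^ (gm / 2)) =
      512 * Real.sqrt (2 * A) * t ^ (gm / 4) := by rw [← e2]; ring
  rw [e4]
  have g1 : 512 * Real.sqrt (2 * A) * t ^ (gm / 4) ≤ 512 * Real.sqrt (2 * A) * t ^ cS :=
    mul_le_mul_of_nonneg_left f1 (by positivity)
  nlinarith


end Crest.Agent.R079.BadN360
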