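import Crest.Agent.R079.CKh_217
import Crest.Agent.R079.KC_996
import Crest.Agent.R079.KLb_446
import Crest.Agent.R079.KLa_446
import Crest.Agent.R079.CKl_37

-- ▼ part R079/CKi_217
section

/-! R079 (helper217), CELLKILL part 3 (note 1095 (5)): ONE LAYER at one frozen value, from the ragged
corner on `ℤ` (`CornerZ` of KLdef_446). -/

set_option autoImplicit false

namespace Crest.Agent.R079.CKi217

open Finset Crest.Agent.R079.Grid Crest.Agent.R079.Glue Crest.Agent.R079.Growth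
  Crest.Agent.R079.QRed Crest.Agent.R079.KLx446 Crest.Agent.R079.CKh217 Crest.Agent.R079.KC996

/-- coefficients: `α, β, γ` of the killer letter, `β2, γ2` of the strips -/
structure Geo (α β γ β2 γ2 : ℤ) : Prop where
  cof : Cof α β γ
  b0 : β2 ≠ 0
  g0 : γ2 ≠ 0
  b3 : |β2| ≤ 3
  g3 : |γ2| ≤ 3

/-- strip coordinate -/
def vv (β2 γ2 s' q u : ℤ) : ℤ := β2 * q + γ2 * u - s'

theorem vv_lip {β2 γ2 : ℤ} (hb : |β2| ≤ 3) (hg : |γ2| ≤ 3) (s' : ℤ) {q u q' u' d : ℤ}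
    (h1 : |q - q'| ≤ d) (h2 : |u - u'| ≤ d) : |vv β2 γ2 s' q u - vv β2 γ2 s' q' u'| ≤ 6 * d := by
  have e : vv β2 γ2 s' q u - vv β2 γ2 s' q' u' = β2 * (q - q') + γ2 * (u - u') := by
    unfold vv; ring
  rw [e]
  have a1 : |β2 * (q - q')| ≤ 3 * d := by
    rw [abs_mul]
    exact mul_le_mul hb h1 (abs_nonneg _) (by norm_num)
  have a2 : |γ2 * (u - u')| ≤ 3 * d := by
    rw [abs_mul]
    exact mul_le_mul hg h2 (abs_nonneg _) (by norm_num)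
  exact (abs_add_le _ _).trans (by linarith)

/-- the alive predicate of a layer: `Om`, domain, `ρ < 128 · 2^m`, and a further predicate -/
def alK (R : Finset Nd) (α β γ w β2 γ2 s' x0 x1 y0 y1 : ℤ) (g : ℤ → ℝ) (γt : ℝ)
    (Pr : ℕ → ℤ → ℤ → Prop) (m : ℕ) (q u : ℤ) : Prop :=
  (Om R α β γ w m q u ∧ Dm2 x0 x1 y0 y1 m q u) ∧
    (¬ Pv g γt (vv β2 γ2 s' q u) (128 * 2 ^ m) ∧ Pr m q u)

/-- `Pr` has no exits -/
def NoEx (Pr : ℕ → ℤ → ℤ → Prop) : Prop :=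
  ∀ (m k' : ℕ) (q u : ℤ) (a b : ℕ), 1 ≤ k' → k' ≤ 6 → a < 2 ^ k' → b < 2 ^ k' → Pr (m + k') q u →
    Pr m (q + a * 2 ^ m) (u + b * 2 ^ m)

theorem noEx_true : NoEx fun _ _ _ => True := fun _ _ _ _ _ _ _ _ _ _ _ => trivial

theorem noEx_strip {β2 γ2 : ℤ} (hb : |β2| ≤ 3) (hg : |γ2| ≤ 3) (s' : ℤ) (g : ℤ → ℝ) (γt : ℝ) :
    NoEx fun m q u => Pv g γt (vv β2 γ2 s' q u) (127 * 2 ^ m) := by
  intro m k' q u a b hk hk6 ha hb' h
  have hm0 : (0 : ℤ) < 2 ^ m := by positivity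
  have ha' : (a : ℤ) + 1 ≤ 2 ^ k' := by exact_mod_cast ha
  have hb'' : (b : ℤ) + 1 ≤ 2 ^ k' := by exact_mod_cast hb'
  have ha0 : (0 : ℤ) ≤ a := by positivity
  have hb0 : (0 : ℤ) ≤ b := by positivity
  have h1 : |q - (q + a * 2 ^ m)| ≤ (2 ^ k' - 1) * 2 ^ m := by
    rw [show q - (q + (a : ℤ) * 2 ^ m) = -((a : ℤ) * 2 ^ m) by ring, abs_neg, abs_of_nonneg
      (by positivity)]
    exact mul_le_mul_of_nonneg_right (by linarith) hm0.le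
  have h2 : |u - (u + b * 2 ^ m)| ≤ (2 ^ k' - 1) * 2 ^ m := by
    rw [show u - (u + (b : ℤ) * 2 ^ m) = -((b : ℤ) * 2 ^ m) by ring, abs_neg, abs_of_nonneg
      (by positivity)]
    exact mul_le_mul_of_nonneg_right (by linarith) hm0.le
  refine (h.lip (vv_lip hb hg s' h1 h2)).anti ?_
  have e : (2 : ℤ) ^ (m + k') = 2 ^ k' * 2 ^ m := by rw [pow_add]; ring
  rw [e]
  have h3 : (2 : ℤ) ≤ 2 ^ k' := by
    calc (2 : ℤ) = 2 ^ 1 := by norm_num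
      _ ≤ 2 ^ k' := pow_le_pow_right₀ (by norm_num) hk
  nlinarith

/-- an exit needs `k' ≥ 1` -/
theorem exit_pos {al : ℕ → ℤ → ℤ → Prop} {k' m : ℕ} {q p : ℤ} (h : ExitZ al k' m q p) : 1 ≤ k' := by
  rcases Nat.eq_zero_or_pos k' with h0 | h0
  · exfalso
    subst h0
    obtain ⟨h1, a, b, ha, hb, h2⟩ := h
    simp only [pow_zero, Nat.lt_one_iff] at ha hb
    subst ha hb
    apply h2
    simpa using h1
  · exact h0

/-- exits of a layer -/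
theorem exit_alK {R : Finset Nd} {α β γ w β2 γ2 s' x0 x1 y0 y1 : ℤ} {g : ℤ → ℝ} {γt : ℝ}
    {Pr : ℕ → ℤ → ℤ → Prop} (hb : |β2| ≤ 3) (hg : |γ2| ≤ 3) (hPr : NoEx Pr) {k' m : ℕ} {q p : ℤ}
    (hk : k' ≤ 6) (h : ExitZ (alK R α β γ w β2 γ2 s' x0 x1 y0 y1 g γt Pr) k' m q p) :
    (ExitZ (Om R α β γ w) k' m q p ∨ (Pv g γt (vv β2 γ2 s' q p) (65 * 2 ^ m) ∧
      ¬ Pv g γt (vv β2 γ2 s' q p) (8192 * 2 ^ m))) ∧ Dm2 x0 x1 y0 y1 (m + k') q p := by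
  have hk1 := exit_pos h
  refine ⟨?_, h.1.1.2⟩
  obtain ⟨h1, a, b, ha, hb', h2⟩ := h
  have hm0 : (0 : ℤ) < 2 ^ m := by positivity
  have ha' : (a : ℤ) + 1 ≤ 2 ^ k' := by exact_mod_cast ha
  have hb'' : (b : ℤ) + 1 ≤ 2 ^ k' := by exact_mod_cast hb'
  have ha0 : (0 : ℤ) ≤ a := by positivity
  have hb0 : (0 : ℤ) ≤ b := by positivity
  have h64 : (2 : ℤ) ^ k' ≤ 64 := by
    calc (2 : ℤ) ^ k' ≤ 2 ^ 6 := pow_le_pow_right₀ (by norm_num) hk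
      _ = 64 := by norm_num
  have e : (2 : ℤ) ^ (m + k') = 2 ^ k' * 2 ^ m := by rw [pow_add]; ring
  by_cases hO : Om R α β γ w m (q + a * 2 ^ m) (p + b * 2 ^ m)
  swap
  · exact Or.inl ⟨h1.1.1, a, b, ha, hb', hO⟩
  have hD : Dm2 x0 x1 y0 y1 m (q + a * 2 ^ m) (p + b * 2 ^ m) := by
    by_contra hc
    exact exit_dom ⟨h1.1.2, a, b, ha, hb', hc⟩
  have hP := hPr m k' q p a b hk1 hk ha hb' h1.2.2
  have hv : Pv g γt (vv β2 γ2 s' (q + a * 2 ^ m) (p + b * 2 ^ m)) (128 * 2 ^ m) := by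
    by_contra hc
    exact h2 ⟨⟨hO, hD⟩, hc, hP⟩
  refine Or.inr ⟨?_, ?_⟩
  · have g1 : |q + a * 2 ^ m - q| ≤ 63 * 2 ^ m := by
      rw [show q + (a : ℤ) * 2 ^ m - q = (a : ℤ) * 2 ^ m by ring, abs_of_nonneg (by positivity)]
      exact mul_le_mul_of_nonneg_right (by linarith) hm0.le
    have g2 : |p + b * 2 ^ m - p| ≤ 63 * 2 ^ m := by
      rw [show p + (b : ℤ) * 2 ^ m - p = (b : ℤ) * 2 ^ m by ring, abs_of_nonneg (by positivity)]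
      exact mul_le_mul_of_nonneg_right (by linarith) hm0.le
    exact (hv.lip (vv_lip hb hg s' g1 g2)).anti (by linarith)
  · intro hc
    refine h1.2.1 (hc.anti ?_)
    rw [e]
    nlinarith

open Classical in
/-- few scales -/
theorem pv_scales {g : ℤ → ℝ} {γt : ℝ} (v : ℤ) (M : ℕ) :
    ((range M).filter fun m => Pv g γt v (65 * 2 ^ m) ∧
      ¬ Pv g γt v (8192 * 2 ^ m)).card ≤ 7 := by
  rcases ((range M).filter fun m => Pv g γt v (65 * 2 ^ m) ∧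
      ¬ Pv g γt v (8192 * 2 ^ m)).eq_empty_or_nonempty with h | h
  · rw [h]; simp
  · obtain ⟨m0, hm0, hmin⟩ := Finset.exists_min_image _ (fun m => m) h
    have hsub : ((range M).filter fun m => Pv g γt v (65 * 2 ^ m) ∧
      ¬ Pv g γt v (8192 * 2 ^ m)) ⊆ Finset.Ico m0 (m0 + 7) := by
      intro m hm
      rw [Finset.mem_Ico]
      refine ⟨hmin m hm, ?_⟩
      by_contra hc
      push Not at hc
      rw [Finset.mem_filter] at hm hm0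
      refine hm0.2.2 (hm.2.1.anti ?_)
      have h1 : (2 : ℤ) ^ (m0 + 7) ≤ 2 ^ m := pow_le_pow_right₀ (by norm_num) hc
      have h2 : (2 : ℤ) ^ (m0 + 7) = 128 * 2 ^ m0 := by rw [pow_add]; ring
      have h3 : (0 : ℤ) < 2 ^ m0 := by positivity
      linarith
    refine (Finset.card_le_card hsub).trans ?_
    rw [Nat.card_Ico]
    omega

/-! ### counting -/

open Classical in
theorem ind_restrict {A : ℤ → ℤ → Prop} {Q P Q' P' : Finset ℤ}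
    (h : ∀ q p, A q p → q ∈ Q' ∧ p ∈ P') :
    ∑ q ∈ Q, ∑ p ∈ P, (if A q p then (1 : ℝ) else 0) ≤
      ∑ q ∈ Q', ∑ p ∈ P', (if A q p then (1 : ℝ) else 0) := by
  have h0 : ∀ q p, (0 : ℝ) ≤ if A q p then (1 : ℝ) else 0 := fun q p => by split_ifs <;> norm_num
  have h1 : ∀ q, ∑ p ∈ P, (if A q p then (1 : ℝ) else 0) ≤
      if q ∈ Q' then ∑ p ∈ P', (if A q p then (1 : ℝ) else 0) else 0 := by
    intro q
    by_cases hq : q ∈ Q'
    · rw [if_pos hq]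
      calc ∑ p ∈ P, (if A q p then (1 : ℝ) else 0)
          = ∑ p ∈ P.filter (fun p => p ∈ P'), (if A q p then (1 : ℝ) else 0) := by
            rw [Finset.sum_filter]
            refine Finset.sum_congr rfl fun p _ => ?_
            by_cases hp : p ∈ P'
            · rw [if_pos hp]
            · rw [if_neg hp, if_neg fun hA => hp (h q p hA).2]
        _ ≤ _ := Finset.sum_le_sum_of_subset_of_nonneg
            (fun p hp => (Finset.mem_filter.1 hp).2) fun p _ _ => h0 q p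
    · rw [if_neg hq]
      refine le_of_eq (Finset.sum_eq_zero fun p _ => ?_)
      rw [if_neg fun hA => hq (h q p hA).1]
  calc ∑ q ∈ Q, ∑ p ∈ P, (if A q p then (1 : ℝ) else 0)
      ≤ ∑ q ∈ Q, (if q ∈ Q' then ∑ p ∈ P', (if A q p then (1 : ℝ) else 0) else 0) :=
        Finset.sum_le_sum fun q _ => h1 q
    _ = ∑ q ∈ Q.filter (fun q => q ∈ Q'), ∑ p ∈ P', (if A q p then (1 : ℝ) else 0) := by
        rw [Finset.sum_filter]
    _ ≤ _ := Finset.sum_le_sum_of_subset_of_nonneg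
        (fun q hq => (Finset.mem_filter.1 hq).2) fun q _ _ => Finset.sum_nonneg fun p _ => h0 q p

theorem dm2_mem {x0 x1 y0 y1 : ℤ} {m : ℕ} {q u : ℤ} (h : Dm2 x0 x1 y0 y1 m q u) :
    q ∈ Icc x0 x1 ∧ u ∈ Icc y0 y1 := by
  have hm0 : (0 : ℤ) < 2 ^ m := by positivity
  obtain ⟨h1, h2, h3, h4⟩ := h
  rw [Finset.mem_Icc, Finset.mem_Icc]
  exact ⟨⟨h1, by linarith⟩, ⟨h3, by linarith⟩⟩

/-- the local exit constant -/
noncomputable def C1L : ℝ := KD 31 + 7 * (2 * 31 + 1) ^ 2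

open Classical in
theorem ex_alK_local {R : Finset Nd} {J : Nd} (hR : IsRegion R J)
    {α β γ w β2 γ2 s' x0 x1 y0 y1 : ℤ} (hG : Geo α β γ β2 γ2) {g : ℤ → ℝ} {γt : ℝ}
    {Pr : ℕ → ℤ → ℤ → Prop} (hPr : NoEx Pr) {k' : ℕ} (hk : k' ≤ 6) (L : ℕ) (c d : ℤ) :
    ∑ m ∈ range (L + 1), ∑ q ∈ Icc (c - (31 : ℕ) * 2 ^ L) (c + (31 : ℕ) * 2 ^ L),
      ∑ p ∈ Icc (d - (31 : ℕ) * 2 ^ L) (d + (31 : ℕ) * 2 ^ L),
        (if ExitZ (alK R α β γ w β2 γ2 s' x0 x1 y0 y1 g γt Pr) k' m q p then (1 : ℝ) else 0) ≤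
      C1L * 4 ^ L := by
  refine (count_or (B := fun m q p => ExitZ (Om R α β γ w) k' m q p)
    (C := fun m q p => Pv g γt (vv β2 γ2 s' q p) (65 * 2 ^ m) ∧
      ¬ Pv g γt (vv β2 γ2 s' q p) (8192 * 2 ^ m))
    (fun m q p h => (exit_alK hG.b3 hG.g3 hPr hk h).1) _ _ _).trans ?_
  have h1 := ex_local hR hG.cof w hk 31 L c d
  have h2 := scale_count_local (A := fun m q p => Pv g γt (vv β2 γ2 s' q p) (65 * 2 ^ m) ∧
      ¬ Pv g γt (vv β2 γ2 s' q p) (8192 * 2 ^ m)) (κ := 7) (D := 31) (L := L) (c := c) (d := d)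
      (fun q p => by convert pv_scales (g := g) (γt := γt) (vv β2 γ2 s' q p) (L + 1))
  refine (add_le_add h1 h2).trans (le_of_eq ?_)
  unfold C1L
  push_cast
  ring

open Classical in
theorem ex_alK_global {R : Finset Nd} {J : Nd} (hR : IsRegion R J)
    {α β γ w β2 γ2 s' x0 x1 y0 y1 : ℤ} (hG : Geo α β γ β2 γ2) {g : ℤ → ℝ} {γt : ℝ}
    {Pr : ℕ → ℤ → ℤ → Prop} (hPr : NoEx Pr) {k' : ℕ} (hk : k' ≤ 6) (M : ℕ) (Q P : Finset ℤ) :
    ∑ m ∈ range M, ∑ q ∈ Q, ∑ p ∈ P,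
        (if ExitZ (alK R α β γ w β2 γ2 s' x0 x1 y0 y1 g γt Pr) k' m q p then (1 : ℝ) else 0) ≤
      54 * ((Icc x0 x1).card * len J) + 7 * ((Icc x0 x1).card * (Icc y0 y1).card) := by
  have h0 : ∑ m ∈ range M, ∑ q ∈ Q, ∑ p ∈ P,
        (if ExitZ (alK R α β γ w β2 γ2 s' x0 x1 y0 y1 g γt Pr) k' m q p then (1 : ℝ) else 0) ≤
      ∑ m ∈ range M, ∑ q ∈ Icc x0 x1, ∑ p ∈ Icc y0 y1,
        (if ExitZ (alK R α β γ w β2 γ2 s' x0 x1 y0 y1 g γt Pr) k' m q p then (1 : ℝ) else 0) :=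
    Finset.sum_le_sum fun m _ => ind_restrict fun q p h =>
      dm2_mem (exit_alK hG.b3 hG.g3 hPr hk h).2
  refine h0.trans ((count_or (B := fun m q p => ExitZ (Om R α β γ w) k' m q p)
    (C := fun m q p => Pv g γt (vv β2 γ2 s' q p) (65 * 2 ^ m) ∧
      ¬ Pv g γt (vv β2 γ2 s' q p) (8192 * 2 ^ m))
    (fun m q p h => (exit_alK hG.b3 hG.g3 hPr hk h).1) _ _ _).trans ?_)
  have h1 := ex_global hR hG.cof w hk M (Icc x0 x1) (Icc y0 y1)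
  have h2 := scale_count (A := fun m q p => Pv g γt (vv β2 γ2 s' q p) (65 * 2 ^ m) ∧
      ¬ Pv g γt (vv β2 γ2 s' q p) (8192 * 2 ^ m)) (M := M) (κ := 7) (Q := Icc x0 x1)
      (P := Icc y0 y1)
      (fun q _ p _ => by convert pv_scales (g := g) (γt := γt) (vv β2 γ2 s' q p) M)
  exact add_le_add h1 (by exact_mod_cast h2)

open Classical in
theorem ar_alK {R : Finset Nd} {α β γ w β2 γ2 s' x0 x1 y0 y1 : ℤ} {g : ℤ → ℝ} {γt : ℝ}
    {Pr : ℕ → ℤ → ℤ → Prop} (m : ℕ) (Q P : Finset ℤ) :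
    ∑ q ∈ Q, ∑ p ∈ P,
        (if alK R α β γ w β2 γ2 s' x0 x1 y0 y1 g γt Pr m q p then (1 : ℝ) else 0) ≤
      (Icc x0 x1).card * (Icc y0 y1).card := by
  refine (ind_restrict fun q p h => dm2_mem h.1.2).trans ?_
  calc ∑ q ∈ Icc x0 x1, ∑ p ∈ Icc y0 y1,
        (if alK R α β γ w β2 γ2 s' x0 x1 y0 y1 g γt Pr m q p then (1 : ℝ) else 0)
      ≤ ∑ _q ∈ Icc x0 x1, ∑ _p ∈ Icc y0 y1, (1 : ℝ) :=
        Finset.sum_le_sum fun q _ => Finset.sum_le_sum fun p _ => by split_ifs <;> norm_num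
    _ = _ := by simp

/-! ### Schur bound -/

theorem schur_opZ {C : ℤ → ℤ → ℝ} {N : ℕ} {q p : ℤ} {c : ℝ} (hc : 0 ≤ c)
    (h1 : ∀ x ∈ Ico q (q + N), ∑ y ∈ Ico p (p + N), |C x y| ≤ c)
    (h2 : ∀ y ∈ Ico p (p + N), ∑ x ∈ Ico q (q + N), |C x y| ≤ c) : OpZ C N q p c := by
  intro f g
  set X := Ico q (q + (N : ℤ)) with hX
  set Y := Ico p (p + (N : ℤ)) with hY
  have e1 : |∑ x ∈ X, ∑ y ∈ Y, f x * C x y * g y| ≤
      ∑ z ∈ X ×ˢ Y, (|f z.1| * Real.sqrt |C z.1 z.2|) * (|g z.2| * Real.sqrt |C z.1 z.2|) := by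
    rw [← Finset.sum_product' X Y (fun x y => f x * C x y * g y)]
    refine (Finset.abs_sum_le_sum_abs _ _).trans (le_of_eq ?_)
    refine Finset.sum_congr rfl fun z _ => ?_
    rw [abs_mul, abs_mul]
    have : |C z.1 z.2| = Real.sqrt |C z.1 z.2| * Real.sqrt |C z.1 z.2| :=
      (Real.mul_self_sqrt (abs_nonneg _)).symm
    calc |f z.1| * |C z.1 z.2| * |g z.2| =
        |f z.1| * (Real.sqrt |C z.1 z.2| * Real.sqrt |C z.1 z.2|) * |g z.2| := by rw [← this]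
      _ = _ := by ring
  have e2 := Finset.sum_mul_sq_le_sq_mul_sq (X ×ˢ Y) (fun z => |f z.1| * Real.sqrt |C z.1 z.2|)
    (fun z => |g z.2| * Real.sqrt |C z.1 z.2|)
  have e3 : ∑ z ∈ X ×ˢ Y, (|f z.1| * Real.sqrt |C z.1 z.2|) ^ 2 ≤ c * ∑ x ∈ X, f x ^ 2 := by
    have a1 : ∑ z ∈ X ×ˢ Y, (|f z.1| * Real.sqrt |C z.1 z.2|) ^ 2 =
        ∑ x ∈ X, ∑ y ∈ Y, f x ^ 2 * |C x y| := by
      rw [Finset.sum_product' X Y (fun x y => (|f x| * Real.sqrt |C x y|) ^ 2)]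
      refine Finset.sum_congr rfl fun x _ => Finset.sum_congr rfl fun y _ => ?_
      rw [mul_pow, sq_abs, Real.sq_sqrt (abs_nonneg _)]
    rw [a1, Finset.mul_sum]
    refine Finset.sum_le_sum fun x hx => ?_
    rw [← Finset.mul_sum, mul_comm]
    exact mul_le_mul_of_nonneg_right (h1 x hx) (sq_nonneg _)
  have e4 : ∑ z ∈ X ×ˢ Y, (|g z.2| * Real.sqrt |C z.1 z.2|) ^ 2 ≤ c * ∑ y ∈ Y, g y ^ 2 := by
    have a1 : ∑ z ∈ X ×ˢ Y, (|g z.2| * Real.sqrt |C z.1 z.2|) ^ 2 =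
        ∑ y ∈ Y, ∑ x ∈ X, g y ^ 2 * |C x y| := by
      rw [Finset.sum_product' X Y (fun x y => (|g y| * Real.sqrt |C x y|) ^ 2), Finset.sum_comm]
      refine Finset.sum_congr rfl fun x _ => Finset.sum_congr rfl fun y _ => ?_
      rw [mul_pow, sq_abs, Real.sq_sqrt (abs_nonneg _)]
    rw [a1, Finset.mul_sum]
    refine Finset.sum_le_sum fun y hy => ?_
    rw [← Finset.mul_sum, mul_comm]
    exact mul_le_mul_of_nonneg_right (h2 y hy) (sq_nonneg _)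
  have n1 : 0 ≤ ∑ z ∈ X ×ˢ Y, (|f z.1| * Real.sqrt |C z.1 z.2|) ^ 2 :=
    Finset.sum_nonneg fun _ _ => sq_nonneg _
  have n2 : 0 ≤ ∑ x ∈ X, f x ^ 2 := Finset.sum_nonneg fun _ _ => sq_nonneg _
  have n3 : 0 ≤ ∑ y ∈ Y, g y ^ 2 := Finset.sum_nonneg fun _ _ => sq_nonneg _
  calc (∑ x ∈ X, ∑ y ∈ Y, f x * C x y * g y) ^ 2
      = |∑ x ∈ X, ∑ y ∈ Y, f x * C x y * g y| ^ 2 := (sq_abs _).symm
    _ ≤ (∑ z ∈ X ×ˢ Y, (|f z.1| * Real.sqrt |C z.1 z.2|) * (|g z.2| * Real.sqrt |C z.1 z.2|)) ^ 2 :=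
        pow_le_pow_left₀ (abs_nonneg _) e1 2
    _ ≤ _ := e2
    _ ≤ (c * ∑ x ∈ X, f x ^ 2) * (c * ∑ y ∈ Y, g y ^ 2) :=
        mul_le_mul e3 e4 (Finset.sum_nonneg fun _ _ => sq_nonneg _) (by positivity)
    _ = _ := by ring

/-- sums of `g` along a line are sums over an interval -/
theorem line_sum {g : ℤ → ℝ} (hg : ∀ v, 0 ≤ g v) {a c v0 : ℤ} (ha : a ≠ 0) {P : Finset ℤ} {r : ℤ}
    (h : ∀ y ∈ P, |a * y + c - v0| ≤ r) :
    ∑ y ∈ P, g (a * y + c) ≤ ∑ v ∈ Icc (v0 - r) (v0 + r), g v := by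
  classical
  rw [← Finset.sum_image (f := g) (g := fun y => a * y + c) (s := P)]
  · refine Finset.sum_le_sum_of_subset_of_nonneg ?_ fun v _ _ => hg v
    intro v hv
    rw [Finset.mem_image] at hv
    obtain ⟨y, hy, rfl⟩ := hv
    have := abs_le.1 (h y hy)
    rw [Finset.mem_Icc]
    constructor <;> linarith [this.1, this.2]
  · intro y _ y' _ hyy
    have : a * y = a * y' := by simpa using hyy
    exact mul_left_cancel₀ ha this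

theorem opZ_layer {β2 γ2 s' : ℤ} (hb0 : β2 ≠ 0) (hg0 : γ2 ≠ 0) (hb : |β2| ≤ 3) (hg : |γ2| ≤ 3)
    {g : ℤ → ℝ} (hgn : ∀ v, 0 ≤ g v) {γt M0 : ℝ} (hγ : 0 ≤ γt) (hM0 : 0 ≤ M0) {C : ℤ → ℤ → ℝ}
    (hC : ∀ x y, |C x y| ≤ M0 * g (vv β2 γ2 s' x y)) {m : ℕ} {q p : ℤ}
    (h : ¬ Pv g γt (vv β2 γ2 s' q p) (128 * 2 ^ m)) :
    OpZ C (2 ^ m) q p (2 ^ m * (17 * M0 * γt)) := by
  have hS := schur_sum hgn h
  have hm0 : (0 : ℤ) < 2 ^ m := by positivity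
  have hnear : ∀ x ∈ Ico q (q + ((2 ^ m : ℕ) : ℤ)), ∀ y ∈ Ico p (p + ((2 ^ m : ℕ) : ℤ)),
      |vv β2 γ2 s' x y - vv β2 γ2 s' q p| ≤ 7 * 2 ^ m := by
    intro x hx y hy
    rw [Finset.mem_Ico] at hx hy
    push_cast at hx hy
    have := vv_lip hb hg s' (q := x) (u := y) (q' := q) (u' := p) (d := 2 ^ m)
      (by rw [abs_le]; constructor <;> linarith [hx.1, hx.2])
      (by rw [abs_le]; constructor <;> linarith [hy.1, hy.2])
    linarith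
  refine schur_opZ (by positivity) ?_ ?_
  · intro x hx
    calc ∑ y ∈ Ico p (p + ((2 ^ m : ℕ) : ℤ)), |C x y|
        ≤ ∑ y ∈ Ico p (p + ((2 ^ m : ℕ) : ℤ)), M0 * g (γ2 * y + (β2 * x - s')) := by
          refine Finset.sum_le_sum fun y _ => ?_
          have := hC x y
          rwa [show vv β2 γ2 s' x y = γ2 * y + (β2 * x - s') by unfold vv; ring] at this
      _ = M0 * ∑ y ∈ Ico p (p + ((2 ^ m : ℕ) : ℤ)), g (γ2 * y + (β2 * x - s')) := by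
          rw [Finset.mul_sum]
      _ ≤ M0 * (17 * (γt * 2 ^ m)) := by
          refine mul_le_mul_of_nonneg_left (le_trans ?_ hS) hM0
          refine line_sum hgn hg0 fun y hy => ?_
          have := hnear x hx y hy
          rwa [show γ2 * y + (β2 * x - s') = vv β2 γ2 s' x y by unfold vv; ring]
      _ = _ := by ring
  · intro y hy
    calc ∑ x ∈ Ico q (q + ((2 ^ m : ℕ) : ℤ)), |C x y|
        ≤ ∑ x ∈ Ico q (q + ((2 ^ m : ℕ) : ℤ)), M0 * g (β2 * x + (γ2 * y - s')) := by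
          refine Finset.sum_le_sum fun x _ => ?_
          have := hC x y
          rwa [show vv β2 γ2 s' x y = β2 * x + (γ2 * y - s') by unfold vv; ring] at this
      _ = M0 * ∑ x ∈ Ico q (q + ((2 ^ m : ℕ) : ℤ)), g (β2 * x + (γ2 * y - s')) := by
          rw [Finset.mul_sum]
      _ ≤ M0 * (17 * (γt * 2 ^ m)) := by
          refine mul_le_mul_of_nonneg_left (le_trans ?_ hS) hM0
          refine line_sum hgn hb0 fun x hx => ?_
          have := hnear x hx y hy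
          rwa [show β2 * x + (γ2 * y - s') = vv β2 γ2 s' x y by unfold vv; ring]
      _ = _ := by ring

/-! ### one layer -/

open Classical in
/-- **ONE LAYER AT ONE FROZEN VALUE** -/
theorem layer (hCZ : CornerZ) : ∃ K : ℝ, 0 ≤ K ∧ ∀ (R : Finset Nd) (J : Nd), IsRegion R J →
    ∀ (α β γ β2 γ2 s' w x0 x1 y0 y1 : ℤ), Geo α β γ β2 γ2 → ∀ g : ℤ → ℝ, (∀ v, 0 ≤ g v) →
    ∀ γt M0 Hg HA δ : ℝ, 0 < γt → 0 < M0 → (∀ v, g v ≤ Hg) → 0 < HA → 0 < δ →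
    ∀ Pr : ℕ → ℤ → ℤ → Prop, NoEx Pr → ∀ (A B C : ℤ → ℤ → ℝ) (S0 : ℕ),
    (∀ x y, A x y ≠ 0 → |x| ≤ S0 ∧ |y| ≤ S0) → (∀ x y, B x y ≠ 0 → |x| ≤ S0 ∧ |y| ≤ S0) →
    (∀ x y, C x y ≠ 0 → |x| ≤ S0 ∧ |y| ≤ S0) → |x0| ≤ S0 → |x1| ≤ S0 → |y0| ≤ S0 → |y1| ≤ S0 →
    (∀ x y, |A x y| ≤ HA) → (∀ x y, |B x y| ≤ HA) →
    (∀ x y, |C x y| ≤ M0 * g (vv β2 γ2 s' x y)) → ∀ (J0 : ℕ) (Ar : ℝ),
    54 * ((Icc x0 x1).card * len J) + 7 * ((Icc x0 x1).card * (Icc y0 y1).card) ≤ Ar →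
    (M0 * Hg) ^ 2 * Ar ≤ (17 * M0 * γt) ^ 2 * (δ / HA ^ 2 * 2 ^ J0) →
    ∀ l : ℤ, |l| ≤ 7 → ∀ L1 : ℕ,
    ∑ m ∈ range (J.1 + 1), (1 / (2 : ℝ) ^ m) * ∑ i ∈ range (2 ^ m),
      ∑ p0 ∈ Icc (-(L1 : ℤ)) L1, ∑ p1 ∈ Icc (-(L1 : ℤ)) L1,
        (if Al4Z (alK R α β γ w β2 γ2 s' x0 x1 y0 y1 g γt Pr) m
          (l * 2 ^ m + (i : ℤ) - w - p0 - p1) p0 then
          |Lb3r A B C (2 ^ m) p0 p1 (l * 2 ^ m + (i : ℤ) - w - p0 - p1)| else 0) ≤
      K * (2 * J0 + 1) * ((17 * M0 * γt) *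
        √(∑ x ∈ Icc (-(S0 : ℤ)) S0, ∑ y ∈ Icc (-(S0 : ℤ)) S0, A x y ^ 2 + δ) *
        √(∑ x ∈ Icc (-(S0 : ℤ)) S0, ∑ y ∈ Icc (-(S0 : ℤ)) S0, B x y ^ 2 + δ)) := by
  have hK : ∀ l : ℤ, ∃ K : ℝ, 0 ≤ K ∧ (|l| ≤ 7 → _) := fun l => by
    by_cases hl : |l| ≤ 7
    · obtain ⟨K, h0, h1⟩ := hCZ l hl C1L
      exact ⟨K, h0, fun _ => h1⟩
    · exact ⟨0, le_rfl, fun h => absurd h hl⟩
  choose Kl hKl0 hKl using hK
  refine ⟨∑ l ∈ Icc (-7 : ℤ) 7, Kl l, Finset.sum_nonneg fun l _ => hKl0 l, ?_⟩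
  intro R J hR α β γ β2 γ2 s' w x0 x1 y0 y1 hG g hgn γt M0 Hg HA δ hγ hM0 hgH hHA hδ Pr hPr A B C S0
    hA0 hB0 hC0 hx0 hx1 hy0 hy1 hA hB hC J0 Ar hAr hJ0 l hl L1
  set a2 : ℝ := ∑ x ∈ Icc (-(S0 : ℤ)) S0, ∑ y ∈ Icc (-(S0 : ℤ)) S0, A x y ^ 2 + δ with ha2
  set b2 : ℝ := ∑ x ∈ Icc (-(S0 : ℤ)) S0, ∑ y ∈ Icc (-(S0 : ℤ)) S0, B x y ^ 2 + δ with hb2
  have hsA : 0 ≤ ∑ x ∈ Icc (-(S0 : ℤ)) S0, ∑ y ∈ Icc (-(S0 : ℤ)) S0, A x y ^ 2 :=
    Finset.sum_nonneg fun _ _ => Finset.sum_nonneg fun _ _ => sq_nonneg _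
  have hsB : 0 ≤ ∑ x ∈ Icc (-(S0 : ℤ)) S0, ∑ y ∈ Icc (-(S0 : ℤ)) S0, B x y ^ 2 :=
    Finset.sum_nonneg fun _ _ => Finset.sum_nonneg fun _ _ => sq_nonneg _
  set al := alK R α β γ w β2 γ2 s' x0 x1 y0 y1 g γt Pr with hal
  set τ : ℝ := 17 * M0 * γt with hτ
  have hτ0 : 0 < τ := by positivity
  have hpt : ∀ (F : ℤ → ℤ → ℝ) (a : ℝ), (∀ x y, |F x y| ≤ HA) → δ ≤ a → ∀ x y,
      F x y ^ 2 ≤ a / (δ / HA ^ 2) := by
    intro F a hF ha x y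
    rw [le_div_iff₀ (by positivity)]
    have h1 : F x y ^ 2 ≤ HA ^ 2 := by
      rw [← sq_abs]
      exact pow_le_pow_left₀ (abs_nonneg _) (hF x y) 2
    calc F x y ^ 2 * (δ / HA ^ 2) ≤ HA ^ 2 * (δ / HA ^ 2) :=
          mul_le_mul_of_nonneg_right h1 (by positivity)
      _ = δ := by field_simp
      _ ≤ a := ha
  have hcard : (0 : ℝ) ≤ ((Icc x0 x1).card : ℝ) * (Icc y0 y1).card := by positivity
  have hlJ : 0 < len J := by unfold len; positivity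
  have hReg : RegZ C al (J.1 + 1) 6 31 S0 τ C1L := by
    refine ⟨?_, ?_, ?_⟩
    · intro m q p h
      have h1 := dm2_mem h.1.2
      rw [Finset.mem_Icc, Finset.mem_Icc] at h1
      refine ⟨?_, ?_, ?_⟩
      · have h2 := h.1.1 q (Finset.mem_Ico.2 ⟨le_rfl, by
          have : (0 : ℤ) < 2 ^ m := by positivity
          linarith⟩) p (Finset.mem_Ico.2 ⟨le_rfl, by
          have : (0 : ℤ) < 2 ^ m := by positivity
          linarith⟩)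
        have := Rm_level hR h2
        omega
      · have a1 := abs_le.1 hx0
        have a2 := abs_le.1 hx1
        rw [abs_le]; constructor <;> linarith [h1.1.1, h1.1.2, a1.1, a2.2]
      · have a1 := abs_le.1 hy0
        have a2 := abs_le.1 hy1
        rw [abs_le]; constructor <;> linarith [h1.2.1, h1.2.2, a1.1, a2.2]
    · intro m q p h
      exact opZ_layer hG.b0 hG.g0 hG.b3 hG.g3 hgn hγ.le hM0.le hC h.2.1
    · intro k' hk' L c d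
      exact ex_alK_local hR hG hPr hk' L c d
  have hLast : LastZ C al (J.1 + 1) 6 S0 ((M0 * Hg) ^ 2) Ar := by
    refine ⟨?_, ?_, ?_⟩
    · intro m q p _
      have h1 : ∀ x y, C x y ^ 2 ≤ (M0 * Hg) ^ 2 := by
        intro x y
        rw [← sq_abs]
        refine pow_le_pow_left₀ (abs_nonneg _) ?_ 2
        exact (hC x y).trans (mul_le_mul_of_nonneg_left (hgH _) hM0.le)
      calc ∑ x ∈ Ico q (q + (2 : ℤ) ^ m), ∑ y ∈ Ico p (p + (2 : ℤ) ^ m), C x y ^ 2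
          ≤ ∑ _x ∈ Ico q (q + (2 : ℤ) ^ m), ∑ _y ∈ Ico p (p + (2 : ℤ) ^ m), (M0 * Hg) ^ 2 :=
            Finset.sum_le_sum fun x _ => Finset.sum_le_sum fun y _ => h1 x y
        _ = 4 ^ m * (M0 * Hg) ^ 2 := by
            rw [Finset.sum_const, Finset.sum_const, nsmul_eq_mul, nsmul_eq_mul, Int.card_Ico,
              Int.card_Ico]
            have e : ∀ z : ℤ, (z + 2 ^ m - z).toNat = 2 ^ m := by
              intro z
              rw [show z + (2 : ℤ) ^ m - z = ((2 ^ m : ℕ) : ℤ) by push_cast; ring,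
                Int.toNat_natCast]
            have e4 : (4 : ℝ) ^ m = 2 ^ m * 2 ^ m := by
              rw [show (4 : ℝ) = 2 * 2 by norm_num, mul_pow]
            rw [e, e, e4]
            push_cast
            ring
    · intro m
      refine (ar_alK m _ _).trans (le_trans ?_ hAr)
      have : 0 ≤ (54 : ℝ) * (((Icc x0 x1).card : ℝ) * len J) := by positivity
      linarith
    · intro k' hk'
      exact (ex_alK_global hR hG hPr hk' _ _ _).trans hAr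
  have hmain := hKl l hl (J.1 + 1) J0 S0 A B C al w a2 b2 (δ / HA ^ 2) τ ((M0 * Hg) ^ 2) Ar
    (by linarith) (by linarith) (by positivity) hτ0 hA0 hB0 hC0 (by linarith) (by linarith)
    (hpt A a2 hA (by linarith)) (hpt B b2 hB (by linarith)) hReg hLast hJ0 L1
  refine hmain.trans ?_
  have h5 : Kl l ≤ ∑ l ∈ Icc (-7 : ℤ) 7, Kl l :=
    Finset.single_le_sum (fun l _ => hKl0 l) (Finset.mem_Icc.2 (abs_le.1 hl))
  have h6 : 0 ≤ τ * √a2 * √b2 := by positivity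
  have h7 : (0 : ℝ) ≤ 2 * J0 + 1 := by positivity
  exact mul_le_mul_of_nonneg_right (mul_le_mul_of_nonneg_right h5 h7) h6

end Crest.Agent.R079.CKi217
end

-- ▼ part R079/CKj_217
section

/-! R079 (helper217), CELLKILL part 4 (note 1095 (5)): COVER of a frozen word by layers. -/

set_option autoImplicit false

namespace Crest.Agent.R079.CKj217

open Finset Crest.Agent.R079.Grid Crest.Agent.R079.Glue Crest.Agent.R079.Growth
  Crest.Agent.R079.QRed Crest.Agent.R079.KLx446 Crest.Agent.R079.CKh217 Crest.Agent.R079.KC996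
  Crest.Agent.R079.CKi217

/-- the point with shadow `y` and strip value `v` is close to a maximal bad cell whose node is in `R` -/
def Near (g : ℤ → ℝ) (γt : ℝ) (S : Finset ℤ) (R : Finset Nd) (J : Nd) (y v : ℤ) : Prop :=
  ∃ c ∈ Mx g γt S J.1, |v - c.2 * 2 ^ c.1| ≤ 1201 * 2 ^ c.1 ∧ y ∈ Rm R c.1

/-- predicate of the layer `j` -/
def PrJ (β2 γ2 s' : ℤ) (g : ℤ → ℝ) (γ0 : ℝ) : ℕ → ℕ → ℤ → ℤ → Prop
  | 0, _, _, _ => True
  | j + 1, m, q, u => Pv g (γ0 * 2 ^ j) (vv β2 γ2 s' q u) (127 * 2 ^ m)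

open Classical in
/-- kernel of the layer `j`: masked for `j ≥ 1`; `y` = shadow, `v` = strip value -/
noncomputable def kJ (g : ℤ → ℝ) (γ0 : ℝ) (S : Finset ℤ) (R : Finset Nd) (J : Nd)
    (y v : ℤ → ℤ → ℤ) (A : ℤ → ℤ → ℝ) : ℕ → ℤ → ℤ → ℝ
  | 0 => A
  | j + 1 => fun x x' => if Near g (γ0 * 2 ^ j) S R J (y x x') (v x x') then A x x' else 0

theorem noEx_prJ {β2 γ2 : ℤ} (hb : |β2| ≤ 3) (hg : |γ2| ≤ 3) (s' : ℤ) (g : ℤ → ℝ) (γ0 : ℝ) (j : ℕ) :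
    NoEx (PrJ β2 γ2 s' g γ0 j) := by
  cases j with
  | zero => exact noEx_true
  | succ j => exact noEx_strip hb hg s' g _

theorem card_dI (m : ℕ) (l : ℤ) : (dI m l).card = 2 ^ m := by
  unfold dI
  rw [Int.card_Ico]
  rw [show (l + 1) * 2 ^ m - l * 2 ^ m = ((2 ^ m : ℕ) : ℤ) by push_cast; ring]
  exact Int.toNat_natCast _

theorem not_bad_top {g : ℤ → ℝ} {γ0 : ℝ} {N : ℕ} (hN : ∀ v, g v ≤ γ0 * 2 ^ N) (m : ℕ) (l : ℤ) :
    ¬ bad g (γ0 * 2 ^ N) m l := by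
  unfold bad
  push Not
  calc ∑ y ∈ dI m l, g y ≤ ∑ _y ∈ dI m l, γ0 * 2 ^ N := Finset.sum_le_sum fun y _ => hN y
    _ = γ0 * 2 ^ N * 2 ^ m := by
        rw [Finset.sum_const, nsmul_eq_mul, card_dI]
        push_cast
        ring

/-- choice of the layer -/
theorem cover_level {g : ℤ → ℝ} {γ0 : ℝ} {N : ℕ} (hN : ∀ v, g v ≤ γ0 * 2 ^ N) (m : ℕ)
    (v : ℕ → ℕ → ℤ) (hv : ∀ a b a' b', a < 2 → b < 2 → a' < 2 → b' < 2 →
      |v a b - v a' b'| ≤ 6 * 2 ^ m) :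
    ∃ j ≤ N, (∀ a b, a < 2 → b < 2 → ¬ Pv g (γ0 * 2 ^ j) (v a b) (128 * 2 ^ m)) ∧
      ∀ j', j = j' + 1 → ∀ a b, a < 2 → b < 2 → Pv g (γ0 * 2 ^ j') (v a b) (127 * 2 ^ m) := by
  classical
  have hex : ∃ j, ∀ a b, a < 2 → b < 2 → ¬ Pv g (γ0 * 2 ^ j) (v a b) (128 * 2 ^ m) := by
    refine ⟨N, fun a b _ _ h => ?_⟩
    obtain ⟨m', l, hb, _⟩ := h
    exact not_bad_top hN m' l hb
  refine ⟨Nat.find hex, Nat.find_min' hex ?_, Nat.find_spec hex, ?_⟩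
  · intro a b _ _ h
    obtain ⟨m', l, hb, _⟩ := h
    exact not_bad_top hN m' l hb
  · intro j' hj' a b ha hb
    have h1 := Nat.find_min hex (m := j') (by omega)
    push Not at h1
    obtain ⟨a', b', ha', hb', h2⟩ := h1
    have h3 := h2.lip (hv a' b' a b ha' hb' ha hb)
    exact h3.anti (by
      have : (0 : ℤ) < 2 ^ m := by positivity
      linarith)

/-- near a bad cell -/
theorem near_of_pv {g : ℤ → ℝ} (hg : ∀ v, 0 ≤ g v) {S : Finset ℤ} (hS : ∀ y, y ∉ S → g y = 0)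
    {γt : ℝ} (hγ : 0 ≤ γt) {R : Finset Nd} {J : Nd} (hR : IsRegion R J)
    (hM : ∑ y ∈ S, g y ≤ γt * 2 ^ J.1) {y v v' : ℤ} {m : ℕ}
    (h : Pv g γt v' (125 * 2 ^ m)) (hvv : |v' - v| ≤ 42 * 2 ^ m) (hy : y ∈ Rm R m) :
    Near g γt S R J y v := by
  have hm0 : (0 : ℤ) < 2 ^ m := by positivity
  have h1 : Pv g γt v (118 * 2 ^ m) := by
    have := h.lip (v' := v) (d := 7 * 2 ^ m) (by linarith)
    exact this.anti (by linarith)
  obtain ⟨c, hc, hd⟩ := h1.mx hg hS hγ hM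
  have hc0 : (0 : ℤ) < 2 ^ c.1 := by positivity
  have habs : 0 ≤ |v - c.2 * 2 ^ c.1| := abs_nonneg _
  refine ⟨c, hc, by linarith, ?_⟩
  have hmc : m ≤ c.1 := by
    by_contra hcon
    push Not at hcon
    have h2 : (2 : ℤ) ^ (c.1 + 1) ≤ 2 ^ m := pow_le_pow_right₀ (by norm_num) hcon
    rw [pow_succ] at h2
    linarith
  have hcJ : c.1 ≤ J.1 := by
    classical
    unfold Mx at hc
    rw [Finset.mem_filter] at hc
    have h2 := hc.1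
    unfold Cand at h2
    rw [Finset.mem_image] at h2
    obtain ⟨z, hz, hz2⟩ := h2
    rw [Finset.mem_product, Finset.mem_range] at hz
    have : c.1 = z.1 := by rw [← hz2]
    omega
  exact Rm_mono' hR hmc hcJ hy

section

variable {k k0 k1 k2 : Fin 4} {R : Finset Nd} {J : Nd}

/-- strip value of the letter with shadow `y` -/
def vy (k k1 : Fin 4) (s' z1 y : ℤ) : ℤ := y - (sl k1 - sl k) * z1 - s'

theorem box_zero {A B C : ℤ → ℤ → ℝ} {N : ℕ} {p0 p1 p2 : ℤ}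
    (h : Lb3r A B C N p0 p1 p2 ≠ 0) : ∃ i0 i1 i2 : ℕ, i0 < N + N ∧ i1 < N + N ∧ i2 < N + N ∧
      A (p0 + i0) (p1 + i1) ≠ 0 ∧ B (p1 + i1) (p2 + i2) ≠ 0 ∧ C (p2 + i2) (p0 + i0) ≠ 0 := by
  by_contra hc
  push Not at hc
  apply h
  unfold Lb3r
  rw [Finset.sum_eq_zero, mul_zero]
  intro i0 _
  refine Finset.sum_eq_zero fun i1 _ => Finset.sum_eq_zero fun i2 _ => ?_
  by_cases h1 : A (p0 + ((i0 : ℕ) : ℤ)) (p1 + ((i1 : ℕ) : ℤ)) = 0
  · rw [h1]; ring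
  · by_cases h2 : B (p1 + ((i1 : ℕ) : ℤ)) (p2 + ((i2 : ℕ) : ℤ)) = 0
    · rw [h2]; ring
    · rw [hc i0 i1 i2 i0.2 i1.2 i2.2 h1 h2]; ring

theorem box_congr {A B C A' B' : ℤ → ℤ → ℝ} {N : ℕ} {p0 p1 p2 : ℤ}
    (hA : ∀ i0 i1 : ℕ, i0 < N + N → i1 < N + N → A (p0 + i0) (p1 + i1) = A' (p0 + i0) (p1 + i1))
    (hB : ∀ i1 i2 : ℕ, i1 < N + N → i2 < N + N → B (p1 + i1) (p2 + i2) = B' (p1 + i1) (p2 + i2)) :
    Lb3r A B C N p0 p1 p2 = Lb3r A' B' C N p0 p1 p2 := by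
  unfold Lb3r
  congr 1
  refine Finset.sum_congr rfl fun i0 _ => Finset.sum_congr rfl fun i1 _ =>
    Finset.sum_congr rfl fun i2 _ => ?_
  rw [hA i0 i1 i0.2 i1.2, hB i1 i2 i1.2 i2.2]

/-- the coefficients are admissible -/
theorem geo (h : D4 k k0 k1 k2) :
    Geo (sl k - sl k1) (sl k2 - sl k1) (sl k0 - sl k1) (sl k2 - sl k) (sl k0 - sl k) := by
  obtain ⟨h0, h1, h2, h01, h02, h12⟩ := h
  have inj : ∀ a b : Fin 4, a ≠ b → sl a - sl b ≠ 0 := by decide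
  have le3 : ∀ a b : Fin 4, |sl a - sl b| ≤ 3 := by decide
  refine ⟨⟨inj _ _ h1, inj _ _ (Ne.symm h12), inj _ _ h01, ?_, ?_, ?_, le3 _ _, le3 _ _, le3 _ _⟩,
    inj _ _ (Ne.symm h2), inj _ _ (Ne.symm h0), le3 _ _, le3 _ _⟩
  · intro hc
    exact inj _ _ h0 (by linarith)
  · intro hc
    exact inj _ _ h2 (by linarith)
  · intro hc
    exact inj _ _ (Ne.symm h02) (by linarith)

/-- **COVER** of one box by a layer -/
theorem cover (h : D4 k k0 k1 k2) (hR : IsRegion R J) {g : ℤ → ℝ} (hg : ∀ v, 0 ≤ g v)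
    {S : Finset ℤ} (hS : ∀ y, y ∉ S → g y = 0) {γ0 : ℝ} (hγ0 : 0 ≤ γ0)
    (hM : ∑ y ∈ S, g y ≤ γ0 * 2 ^ J.1) {N : ℕ} (hN : ∀ v, g v ≤ γ0 * 2 ^ N) {x0 x1 y0 y1 : ℤ}
    (A B C : ℤ → ℤ → ℝ)
    (hC : ∀ x y, C x y ≠ 0 → x0 + 2 * 2 ^ J.1 ≤ x ∧ x + 2 * 2 ^ J.1 ≤ x1 ∧
      y0 + 2 * 2 ^ J.1 ≤ y ∧ y + 2 * 2 ^ J.1 ≤ y1)
    (s' w l : ℤ) (hl : |l| ≤ 7) {m : ℕ} (hm : m ≤ J.1) {i : ℤ} (hi0 : 0 ≤ i) (hi : i < 2 ^ m)
    {p0 p1 p2 : ℤ} (hp2 : p2 = l * 2 ^ m + i - w - p0 - p1) (hGd : Gd k k0 k1 k2 R m w p0 p1 p2)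
    (hne : Lb3r A B C (2 ^ m) p0 p1 p2 ≠ 0) :
    ∃ j ≤ N, Al4Z (alK R (sl k - sl k1) (sl k2 - sl k1) (sl k0 - sl k1) w (sl k2 - sl k)
        (sl k0 - sl k) s' x0 x1 y0 y1 g (γ0 * 2 ^ j)
        (PrJ (sl k2 - sl k) (sl k0 - sl k) s' g γ0 j)) m p2 p0 ∧
      Lb3r A B C (2 ^ m) p0 p1 p2 =
        Lb3r (kJ g γ0 S R J (fun z0 z1 => sha k k2 k0 k1 w z0 z1)
            (fun z0 z1 => vy k k1 s' z1 (sha k k2 k0 k1 w z0 z1)) A j)
          (kJ g γ0 S R J (fun z1 z2 => sha k k0 k1 k2 w z1 z2)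
            (fun z1 z2 => vy k k1 s' z1 (sha k k0 k1 k2 w z1 z2)) B j) C (2 ^ m) p0 p1 p2 := by
  have hGeo := geo h
  have hb3 := hGeo.b3
  have hg3 := hGeo.g3
  have hm0 : (0 : ℤ) < 2 ^ m := by positivity
  set β2 := sl k2 - sl k with hβ2
  set γ2 := sl k0 - sl k with hγ2
  have habs : ∀ a a' : ℕ, a < 2 → a' < 2 → |(a : ℤ) * 2 ^ m - a' * 2 ^ m| ≤ 2 ^ m := by
    intro a a' ha ha'
    rw [abs_le]
    have c1 : (a : ℤ) ≤ 1 := by exact_mod_cast Nat.lt_succ_iff.1 ha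
    have c2 : (a' : ℤ) ≤ 1 := by exact_mod_cast Nat.lt_succ_iff.1 ha'
    have c3 : (0 : ℤ) ≤ a := by positivity
    have c4 : (0 : ℤ) ≤ a' := by positivity
    constructor <;> nlinarith
  obtain ⟨j, hj, h1, h2⟩ := cover_level hN m
    (fun a b => vv β2 γ2 s' (p2 + a * 2 ^ m) (p0 + b * 2 ^ m)) (by
      intro a b a' b' ha hb ha' hb'
      refine vv_lip hb3 hg3 s' ?_ ?_
      · rw [show p2 + (a : ℤ) * 2 ^ m - (p2 + a' * 2 ^ m) = (a : ℤ) * 2 ^ m - a' * 2 ^ m by ring]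
        exact habs a a' ha ha'
      · rw [show p0 + (b : ℤ) * 2 ^ m - (p0 + b' * 2 ^ m) = (b : ℤ) * 2 ^ m - b' * 2 ^ m by ring]
        exact habs b b' hb hb')
  obtain ⟨i0, i1, i2, hi0', hi1', hi2', _, _, hCne⟩ := box_zero hne
  have hdom := hC _ _ hCne
  have h2J : (2 : ℤ) ^ m ≤ 2 ^ J.1 := pow_le_pow_right₀ (by norm_num) hm
  have b0 : (i0 : ℤ) < 2 * 2 ^ m := by
    have : i0 < 2 * 2 ^ m := by omega
    exact_mod_cast this
  have b2 : (i2 : ℤ) < 2 * 2 ^ m := by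
    have : i2 < 2 * 2 ^ m := by omega
    exact_mod_cast this
  have n0 : (0 : ℤ) ≤ i0 := by positivity
  have n2 : (0 : ℤ) ≤ i2 := by positivity
  refine ⟨j, hj, ?_, ?_⟩
  · intro a b ha hb
    have c1 : (a : ℤ) ≤ 1 := by exact_mod_cast Nat.lt_succ_iff.1 ha
    have c2 : (b : ℤ) ≤ 1 := by exact_mod_cast Nat.lt_succ_iff.1 hb
    have c3 : (0 : ℤ) ≤ a := by positivity
    have c4 : (0 : ℤ) ≤ b := by positivity
    have e1 : (a : ℤ) * 2 ^ m ≤ 2 ^ m := by nlinarith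
    have e2 : (b : ℤ) * 2 ^ m ≤ 2 ^ m := by nlinarith
    have e3 : 0 ≤ (a : ℤ) * 2 ^ m := by positivity
    have e4 : 0 ≤ (b : ℤ) * 2 ^ m := by positivity
    refine ⟨⟨?_, ?_⟩, h1 a b ha hb, ?_⟩
    · intro x hx y hy
      rw [Finset.mem_Ico] at hx hy
      have hpow : (2 : ℤ) ^ (m + 1) = 2 * 2 ^ m := by rw [pow_succ]; ring
      have := (hGd (y - p0) 0 (x - p2) (by linarith) (by rw [hpow]; linarith) le_rfl
        (by rw [hpow]; linarith) (by linarith) (by rw [hpow]; linarith)).2.2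
      unfold sha at this
      convert this using 1
      ring
    · refine ⟨?_, ?_, ?_, ?_⟩
      · linarith [hdom.1]
      · linarith [hdom.2.1]
      · linarith [hdom.2.2.1]
      · linarith [hdom.2.2.2]
    · cases j with
      | zero => trivial
      | succ j => exact h2 j rfl a b ha hb
  · cases j with
    | zero => rfl
    | succ j =>
      have hPv := h2 j rfl 0 0 (by norm_num) (by norm_num)
      simp only [Nat.cast_zero, zero_mul, add_zero] at hPv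
      have hγj : 0 ≤ γ0 * 2 ^ j := by positivity
      have hl2 : -(7 * 2 ^ m) ≤ l * 2 ^ m ∧ l * 2 ^ m ≤ 7 * 2 ^ m := by
        have hl' := abs_le.1 hl
        constructor
        · have := mul_le_mul_of_nonneg_right hl'.1 hm0.le
          linarith
        · exact mul_le_mul_of_nonneg_right hl'.2 hm0.le
      have hMj : ∑ y ∈ S, g y ≤ γ0 * 2 ^ j * 2 ^ J.1 := by
        refine hM.trans (mul_le_mul_of_nonneg_right ?_ (by positivity))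
        exact le_mul_of_one_le_right hγ0 (one_le_pow₀ (by norm_num))
      -- points of the box
      have hpt : ∀ a b c : ℕ, a < 2 ^ m + 2 ^ m → b < 2 ^ m + 2 ^ m → c < 2 ^ m + 2 ^ m →
          Pv g (γ0 * 2 ^ j) (vv β2 γ2 s' (p2 + c) (p0 + a)) (125 * 2 ^ m) ∧
          |(l * 2 ^ m + i + a + b + c : ℤ)| ≤ 14 * 2 ^ m := by
        intro a b c ha hb hc
        have ha' : (a : ℤ) < 2 * 2 ^ m := by
          have : a < 2 * 2 ^ m := by omega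
          exact_mod_cast this
        have hb' : (b : ℤ) < 2 * 2 ^ m := by
          have : b < 2 * 2 ^ m := by omega
          exact_mod_cast this
        have hc' : (c : ℤ) < 2 * 2 ^ m := by
          have : c < 2 * 2 ^ m := by omega
          exact_mod_cast this
        have na : (0 : ℤ) ≤ a := by positivity
        have nb : (0 : ℤ) ≤ b := by positivity
        have nc : (0 : ℤ) ≤ c := by positivity
        constructor
        · have hd := vv_lip hb3 hg3 s' (q := p2) (u := p0) (q' := p2 + c) (u' := p0 + a)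
            (d := 2 * 2 ^ m) (by rw [abs_le]; constructor <;> linarith)
            (by rw [abs_le]; constructor <;> linarith)
          exact (hPv.lip hd).anti (by linarith)
        · rw [abs_le]
          constructor <;> linarith [hl2.1, hl2.2]
      refine box_congr ?_ ?_
      · intro a b ha hb
        have hsh := (hGd a b 0 (by positivity) (by
          have : a < 2 ^ (m + 1) := by rw [pow_succ]; omega
          exact_mod_cast this) (by positivity) (by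
          have : b < 2 ^ (m + 1) := by rw [pow_succ]; omega
          exact_mod_cast this) le_rfl (by positivity)).1
        have hk := hpt a b 0 ha hb (by positivity)
        unfold kJ
        simp only
        rw [if_pos]
        refine near_of_pv hg hS hγj hR hMj hk.1 ?_ hsh
        have e : vv β2 γ2 s' (p2 + ((0 : ℕ) : ℤ)) (p0 + a) -
            vy k k1 s' (p1 + b) (sha k k2 k0 k1 w (p0 + a) (p1 + b)) =
            β2 * (l * 2 ^ m + i + a + b + ((0 : ℕ) : ℤ)) := by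
          unfold vv vy sha
          rw [hβ2, hγ2, hp2]
          push_cast
          ring
        rw [e, abs_mul]
        calc |β2| * |(l * 2 ^ m + i + a + b + ((0 : ℕ) : ℤ) : ℤ)| ≤ 3 * (14 * 2 ^ m) :=
              mul_le_mul hb3 hk.2 (abs_nonneg _) (by norm_num)
          _ = 42 * 2 ^ m := by ring
      · intro b c hb hc
        have hsh := (hGd 0 b c le_rfl (by positivity) (by positivity) (by
          have : b < 2 ^ (m + 1) := by rw [pow_succ]; omega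
          exact_mod_cast this) (by positivity) (by
          have : c < 2 ^ (m + 1) := by rw [pow_succ]; omega
          exact_mod_cast this)).2.1
        have hk := hpt 0 b c (by positivity) hb hc
        unfold kJ
        simp only
        rw [if_pos]
        refine near_of_pv hg hS hγj hR hMj hk.1 ?_ hsh
        have e : vv β2 γ2 s' (p2 + c) (p0 + ((0 : ℕ) : ℤ)) -
            vy k k1 s' (p1 + b) (sha k k0 k1 k2 w (p1 + b) (p2 + c)) =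
            γ2 * (l * 2 ^ m + i + ((0 : ℕ) : ℤ) + b + c) := by
          unfold vv vy sha
          rw [hβ2, hγ2, hp2]
          push_cast
          ring
        rw [e, abs_mul]
        calc |γ2| * |(l * 2 ^ m + i + ((0 : ℕ) : ℤ) + b + c : ℤ)| ≤ 3 * (14 * 2 ^ m) :=
              mul_le_mul hg3 hk.2 (abs_nonneg _) (by norm_num)
          _ = 42 * 2 ^ m := by ring

open Classical in
/-- the sum of one layer -/
noncomputable def LSum (al : ℕ → ℤ → ℤ → Prop) (A B C : ℤ → ℤ → ℝ) (M L1 : ℕ) (l w : ℤ) : ℝ :=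
  ∑ m ∈ range M, (1 / (2 : ℝ) ^ m) * ∑ i ∈ range (2 ^ m),
    ∑ p0 ∈ Icc (-(L1 : ℤ)) L1, ∑ p1 ∈ Icc (-(L1 : ℤ)) L1,
      (if Al4Z al m (l * 2 ^ m + (i : ℤ) - w - p0 - p1) p0 then
        |Lb3r A B C (2 ^ m) p0 p1 (l * 2 ^ m + (i : ℤ) - w - p0 - p1)| else 0)

open Classical in
/-- **THE WORD IS COVERED BY THE LAYERS** -/
theorem tw_le_layers (h : D4 k k0 k1 k2) (hR : IsRegion R J) {g : ℤ → ℝ} (hg : ∀ v, 0 ≤ g v)
    {S : Finset ℤ} (hS : ∀ y, y ∉ S → g y = 0) {γ0 : ℝ} (hγ0 : 0 ≤ γ0)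
    (hM : ∑ y ∈ S, g y ≤ γ0 * 2 ^ J.1) {N : ℕ} (hN : ∀ v, g v ≤ γ0 * 2 ^ N) {x0 x1 y0 y1 : ℤ}
    (A B C : ℤ → ℤ → ℝ)
    (hC : ∀ x y, C x y ≠ 0 → x0 + 2 * 2 ^ J.1 ≤ x ∧ x + 2 * 2 ^ J.1 ≤ x1 ∧
      y0 + 2 * 2 ^ J.1 ≤ y ∧ y + 2 * 2 ^ J.1 ≤ y1)
    (s' w l : ℤ) (hl : |l| ≤ 7) (L1 : ℕ) :
    Tw (fun m p0 p1 p2 => Gd k k0 k1 k2 R m w p0 p1 p2) A B C (J.1 + 1) L1 l w ≤
      ∑ j ∈ range (N + 1), LSum (alK R (sl k - sl k1) (sl k2 - sl k1) (sl k0 - sl k1) w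
        (sl k2 - sl k) (sl k0 - sl k) s' x0 x1 y0 y1 g (γ0 * 2 ^ j)
        (PrJ (sl k2 - sl k) (sl k0 - sl k) s' g γ0 j))
        (kJ g γ0 S R J (fun z0 z1 => sha k k2 k0 k1 w z0 z1)
            (fun z0 z1 => vy k k1 s' z1 (sha k k2 k0 k1 w z0 z1)) A j)
        (kJ g γ0 S R J (fun z1 z2 => sha k k0 k1 k2 w z1 z2)
            (fun z1 z2 => vy k k1 s' z1 (sha k k0 k1 k2 w z1 z2)) B j) C (J.1 + 1) L1 l w := by
  unfold Tw LSum
  rw [Finset.sum_comm]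
  refine Finset.sum_le_sum fun m hm => ?_
  rw [Finset.mem_range] at hm
  rw [← Finset.mul_sum]
  refine mul_le_mul_of_nonneg_left ?_ (by positivity)
  conv_rhs => rw [Finset.sum_comm]
  refine Finset.sum_le_sum fun i hi => ?_
  rw [Finset.mem_range] at hi
  conv_rhs => rw [Finset.sum_comm]
  refine Finset.sum_le_sum fun p0 _ => ?_
  conv_rhs => rw [Finset.sum_comm]
  refine Finset.sum_le_sum fun p1 _ => ?_
  have hnn : ∀ j ∈ range (N + 1), (0 : ℝ) ≤ (if Al4Z (alK R (sl k - sl k1) (sl k2 - sl k1)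
        (sl k0 - sl k1) w (sl k2 - sl k) (sl k0 - sl k) s' x0 x1 y0 y1 g (γ0 * 2 ^ j)
        (PrJ (sl k2 - sl k) (sl k0 - sl k) s' g γ0 j)) m
        (l * 2 ^ m + (i : ℤ) - w - p0 - p1) p0 then
        |Lb3r (kJ g γ0 S R J (fun z0 z1 => sha k k2 k0 k1 w z0 z1)
            (fun z0 z1 => vy k k1 s' z1 (sha k k2 k0 k1 w z0 z1)) A j)
        (kJ g γ0 S R J (fun z1 z2 => sha k k0 k1 k2 w z1 z2)
            (fun z1 z2 => vy k k1 s' z1 (sha k k0 k1 k2 w z1 z2)) B j) C (2 ^ m) p0 p1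
            (l * 2 ^ m + (i : ℤ) - w - p0 - p1)| else 0) := fun j _ => by
    split_ifs
    · exact abs_nonneg _
    · exact le_rfl
  split_ifs with hG
  · by_cases hz : Lb3r A B C (2 ^ m) p0 p1 (l * 2 ^ m + (i : ℤ) - w - p0 - p1) = 0
    · rw [hz, abs_zero]
      exact Finset.sum_nonneg hnn
    · obtain ⟨j, hj, ha, he⟩ := cover h hR hg hS hγ0 hM hN A B C hC s' w l hl (m := m) (by omega)
        (i := (i : ℤ)) (by positivity) (by exact_mod_cast hi) rfl hG hz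
      refine le_trans (le_of_eq ?_) (Finset.single_le_sum hnn (Finset.mem_range.2 (Nat.lt_succ_of_le hj)))
      rw [if_pos ha, ← he]
  · exact Finset.sum_nonneg hnn

end

end Crest.Agent.R079.CKj217
end

-- ▼ part R079/CKk_217

/-! R079 (helper217), CELLKILL part 5 (note 1095 (5)): ENERGIES of the layers and the sum over the
frozen value, for one shift `s'`. -/

set_option autoImplicit false

namespace Crest.Agent.R079.CKk217

open Finset Crest.Agent.R079.Grid Crest.Agent.R079.Glue Crest.Agent.R079.Growth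
  Crest.Agent.R079.QRed Crest.Agent.R079.KLx446 Crest.Agent.R079.CKh217 Crest.Agent.R079.KC996
  Crest.Agent.R079.CKi217 Crest.Agent.R079.CKj217 Crest.Agent.R079.CKgx37

/-! ### energy near the bad cells -/

theorem sum_iv_le {p : Nd} {F : Fn} (h : av p F ≤ 1) : ∑ y ∈ iv p, ‖F y‖ ^ 2 ≤ len p := by
  have h1 := QVar181.av_sq p F
  have hl := Growth.len_pos p
  have h2 : av p F ^ 2 ≤ 1 := by
    have h0 : 0 ≤ av p F := Cell37.av_nonneg' _ _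
    nlinarith
  rw [h1] at h2
  rw [one_div, inv_mul_le_iff₀ hl, mul_one] at h2
  exact h2

open Classical in
/-- energy of `F` near a point on the nodes of level `n` -/
theorem cell_energy {R : Finset Nd} {F : Fn} (hF : ∀ p ∈ R, av p F ≤ 1) (n : ℕ) (z : ℤ)
    (Y : Finset ℤ) :
    ∑ η ∈ Y, (if |η - z| ≤ 1201 * 2 ^ n ∧ η ∈ Rm R n then ‖F η‖ ^ 2 else 0) ≤ 2560 * 2 ^ n := by
  have hn0 : (0 : ℤ) < 2 ^ n := by positivity
  have hN : (0 : ℤ) < 2 ^ (n + 7) := by positivity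
  have hN' : (2 : ℤ) ^ (n + 7) = 128 * 2 ^ n := by rw [pow_add]; ring
  set q0 : ℤ := (z - 1201 * 2 ^ n) / 2 ^ (n + 7) with hq0
  rw [← Finset.sum_filter]
  set Q : Finset ℤ := (Icc q0 (q0 + 19)).filter fun q => (n, q) ∈ R with hQ
  have hsub : Y.filter (fun η => |η - z| ≤ 1201 * 2 ^ n ∧ η ∈ Rm R n) ⊆ Q.biUnion fun q => iv (n, q) := by
    intro η hη
    rw [Finset.mem_filter] at hη
    obtain ⟨_, h1, h2⟩ := hη
    rw [mem_Rm] at h2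
    rw [Finset.mem_biUnion]
    refine ⟨η / 2 ^ (n + 7), ?_, ?_⟩
    · rw [hQ, Finset.mem_filter, Finset.mem_Icc]
      have h3 := abs_le.1 h1
      refine ⟨⟨?_, ?_⟩, h2⟩
      · exact Int.ediv_le_ediv hN (by linarith)
      · have h4 : η ≤ (z - 1201 * 2 ^ n) + 19 * 2 ^ (n + 7) := by
          rw [hN']
          linarith
        have h5 := Int.ediv_le_ediv hN h4
        rwa [Int.add_mul_ediv_right _ _ hN.ne'] at h5
    · unfold iv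
      exact L0e.mem_dI.2 rfl
  calc ∑ η ∈ Y.filter (fun η => |η - z| ≤ 1201 * 2 ^ n ∧ η ∈ Rm R n), ‖F η‖ ^ 2
      ≤ ∑ η ∈ Q.biUnion fun q => iv (n, q), ‖F η‖ ^ 2 :=
        Finset.sum_le_sum_of_subset_of_nonneg hsub fun _ _ _ => by positivity
    _ = ∑ q ∈ Q, ∑ η ∈ iv (n, q), ‖F η‖ ^ 2 :=
        Finset.sum_biUnion fun a _ b _ hab => L0e.dI_disj hab
    _ ≤ ∑ _q ∈ Q, 128 * (2 : ℝ) ^ n := by
        refine Finset.sum_le_sum fun q hq => ?_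
        rw [hQ, Finset.mem_filter] at hq
        refine (sum_iv_le (hF _ hq.2)).trans (le_of_eq ?_)
        unfold len
        rw [pow_add]
        norm_num
        ring
    _ = (Q.card : ℝ) * (128 * 2 ^ n) := by rw [Finset.sum_const, nsmul_eq_mul]
    _ ≤ 20 * (128 * 2 ^ n) := by
        refine mul_le_mul_of_nonneg_right ?_ (by positivity)
        have h1 : Q.card ≤ 20 := by
          refine (Finset.card_filter_le _ _).trans ?_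
          rw [Int.card_Icc]
          have : (q0 + 19 + 1 - q0).toNat = 20 := by
            rw [show q0 + 19 + 1 - q0 = ((20 : ℕ) : ℤ) by push_cast; ring, Int.toNat_natCast]
          omega
        exact_mod_cast h1
    _ = 2560 * 2 ^ n := by ring

open Classical in
/-- **energy near the maximal bad cells** -/
theorem near_energy {R : Finset Nd} {J : Nd} {F : Fn} (hF : ∀ p ∈ R, av p F ≤ 1) (g : ℤ → ℝ) (γt : ℝ)
    (S : Finset ℤ) (t : ℤ) (Y : Finset ℤ) :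
    ∑ η ∈ Y, (if Near g γt S R J η (η - t) then ‖F η‖ ^ 2 else 0) ≤
      2560 * ∑ c ∈ Mx g γt S J.1, (2 : ℝ) ^ c.1 := by
  have h1 : ∀ η ∈ Y, (if Near g γt S R J η (η - t) then ‖F η‖ ^ 2 else 0) ≤
      ∑ c ∈ Mx g γt S J.1, (if |η - (t + c.2 * 2 ^ c.1)| ≤ 1201 * 2 ^ c.1 ∧ η ∈ Rm R c.1 then
        ‖F η‖ ^ 2 else 0) := by
    intro η _
    have h0 : ∀ c ∈ Mx g γt S J.1, (0 : ℝ) ≤ (if |η - (t + c.2 * 2 ^ c.1)| ≤ 1201 * 2 ^ c.1 ∧
        η ∈ Rm R c.1 then ‖F η‖ ^ 2 else 0) := fun c _ => by split_ifs <;> positivity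
    split_ifs with hN
    · obtain ⟨c, hc, h2, h3⟩ := hN
      refine le_trans (le_of_eq ?_) (Finset.single_le_sum h0 hc)
      have h2' : |η - (t + c.2 * 2 ^ c.1)| ≤ 1201 * 2 ^ c.1 := by
        rwa [show η - (t + c.2 * 2 ^ c.1) = η - t - c.2 * 2 ^ c.1 by ring]
      rw [if_pos ⟨h2', h3⟩]
    · exact Finset.sum_nonneg h0
  refine (Finset.sum_le_sum h1).trans ?_
  rw [Finset.sum_comm, Finset.mul_sum]
  exact Finset.sum_le_sum fun c _ => cell_energy hF c.1 _ Y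

/-! ### sum over the frozen value -/

open Classical in
theorem energy {Wf X T T1 : Finset ℤ} {E : ℤ → ℤ → ℤ → ℝ} {θ : ℤ → ℝ} {Q : ℤ → ℤ → ℝ} {ρ : ℤ} {e : ℝ}
    {σ : ℤ → ℤ → ℤ} (hρ : ρ ≠ 0) (hθ : ∀ z1, 0 ≤ θ z1)
    (hQ : ∀ z1 (Y : Finset ℤ), ∑ η ∈ Y, Q z1 η ≤ e) (he : 0 ≤ e)
    (hE : ∀ w z z1, E w z z1 ≤ if z ∈ T ∧ z1 ∈ T1 then θ z1 * Q z1 (ρ * w + σ z z1) else 0) :
    ∑ w ∈ Wf, ∑ z ∈ X, ∑ z1 ∈ X, E w z z1 ≤ T.card * (∑ z1 ∈ T1, θ z1) * e := by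
  have h1 : ∑ w ∈ Wf, ∑ z ∈ X, ∑ z1 ∈ X, E w z z1 ≤
      ∑ z ∈ X, ∑ z1 ∈ X, (if z ∈ T then (if z1 ∈ T1 then θ z1 * e else 0) else 0) := by
    rw [Finset.sum_comm]
    refine Finset.sum_le_sum fun z _ => ?_
    rw [Finset.sum_comm]
    refine Finset.sum_le_sum fun z1 _ => ?_
    refine (Finset.sum_le_sum fun w _ => hE w z z1).trans ?_
    by_cases h : z ∈ T
    · by_cases h' : z1 ∈ T1
      · rw [if_pos h, if_pos h']
        simp only [if_pos (show z ∈ T ∧ z1 ∈ T1 from ⟨h, h'⟩)]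
        rw [← Finset.mul_sum]
        refine mul_le_mul_of_nonneg_left ?_ (hθ z1)
        rw [← Finset.sum_image (s := Wf) (g := fun w => ρ * w + σ z z1) (f := Q z1) (by
          intro x _ y _ hxy
          have hxy' : ρ * x + σ z z1 = ρ * y + σ z z1 := hxy
          exact mul_left_cancel₀ hρ (add_right_cancel hxy'))]
        exact hQ z1 _
      · rw [if_pos h, if_neg h']
        simp [h']
    · rw [if_neg h]
      simp [h]
  refine h1.trans ?_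
  have hte : ∀ z1, 0 ≤ θ z1 * e := fun z1 => mul_nonneg (hθ z1) he
  have h2 : ∀ z ∈ X, ∑ z1 ∈ X, (if z ∈ T then (if z1 ∈ T1 then θ z1 * e else 0) else 0) ≤
      if z ∈ T then (∑ z1 ∈ T1, θ z1) * e else 0 := by
    intro z _
    split_ifs with h
    · rw [← Finset.sum_filter, Finset.sum_mul]
      refine Finset.sum_le_sum_of_subset_of_nonneg ?_ fun z1 _ _ => hte z1
      intro z1 hz1
      exact (Finset.mem_filter.1 hz1).2
    · simp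
  refine (Finset.sum_le_sum h2).trans ?_
  rw [← Finset.sum_filter, Finset.sum_const, nsmul_eq_mul, mul_assoc]
  refine mul_le_mul_of_nonneg_right ?_ (mul_nonneg (Finset.sum_nonneg fun z1 _ => hθ z1) he)
  have : (X.filter fun z => z ∈ T) ⊆ T := fun z hz => (Finset.mem_filter.1 hz).2
  exact_mod_cast Finset.card_le_card this

/-- number of `w` with `ρ w` in an interval -/
theorem card_W1 {ρ e : ℤ} (hρ : ρ ≠ 0) (L : ℕ) (Wf : Finset ℤ) :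
    (Wf.filter fun w => |ρ * w - e| ≤ 37 * (L : ℤ)).card ≤ 74 * L + 1 := by
  have h1 : ((Wf.filter fun w => |ρ * w - e| ≤ 37 * (L : ℤ)).image fun w => ρ * w) ⊆
      Icc (e - 37 * (L : ℤ)) (e + 37 * (L : ℤ)) := by
    intro y hy
    rw [Finset.mem_image] at hy
    obtain ⟨w, hw, rfl⟩ := hy
    rw [Finset.mem_filter] at hw
    have := abs_le.1 hw.2
    rw [Finset.mem_Icc]
    constructor <;> linarith [this.1, this.2]
  have h2 := Finset.card_le_card h1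
  rw [Finset.card_image_of_injective _ (fun x y hxy => mul_left_cancel₀ hρ hxy), Int.card_Icc] at h2
  refine h2.trans (le_of_eq ?_)
  rw [show e + 37 * (L : ℤ) + 1 - (e - 37 * (L : ℤ)) = ((74 * L + 1 : ℕ) : ℤ) by push_cast; ring,
    Int.toNat_natCast]


/-! ### one shift -/

open Classical in
/-- weight of the layer energies -/
noncomputable def eJ (L : ℝ) : ℕ → ℝ
  | 0 => L
  | j + 1 => 20 * L / 2 ^ j

theorem eJ_nonneg {L : ℝ} (hL : 0 ≤ L) (j : ℕ) : 0 ≤ eJ L j := by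
  cases j with
  | zero => exact hL
  | succ j => unfold eJ; positivity

theorem eJ_mul {L : ℝ} (hL : 0 ≤ L) (j : ℕ) : 2 ^ j * eJ L j ≤ 40 * L := by
  cases j with
  | zero => unfold eJ; simp only [pow_zero, one_mul]; linarith
  | succ j =>
    unfold eJ
    refine le_of_eq ?_
    rw [pow_succ]
    field_simp
    ring

section

variable {k k0 k1 k2 : Fin 4} {R : Finset Nd} {J : Nd}

open Classical in
/-- the masked line function -/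
noncomputable def QJ (g : ℤ → ℝ) (γ0 : ℝ) (S : Finset ℤ) (R : Finset Nd) (J : Nd) (F : Fn) (δ' s' : ℤ) :
    ℕ → ℤ → ℤ → ℝ
  | 0, _, η => ‖F η‖ ^ 2
  | j + 1, z1, η => if Near g (γ0 * 2 ^ j) S R J η (η - (δ' * z1 + s')) then ‖F η‖ ^ 2 else 0

theorem QJ_sum {F : Fn} (hF : ∀ p ∈ R, av p F ≤ 1) (hJ : J ∈ R) (hs : ∀ y, y ∉ iv J → F y = 0)
    {g : ℤ → ℝ} (hg : ∀ v, 0 ≤ g v) {S : Finset ℤ} (hS : ∀ y, y ∉ S → g y = 0) {γ0 : ℝ}
    (hγ0 : 0 < γ0) (hM : ∑ y ∈ S, g y ≤ γ0 * 2 ^ J.1) (δ' s' : ℤ) (j : ℕ) (z1 : ℤ) (Y : Finset ℤ) :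
    ∑ η ∈ Y, QJ g γ0 S R J F δ' s' j z1 η ≤ eJ (len J) j := by
  classical
  cases j with
  | zero =>
    unfold QJ eJ
    calc ∑ η ∈ Y, ‖F η‖ ^ 2 = ∑ η ∈ Y, (if η ∈ iv J then ‖F η‖ ^ 2 else 0) := by
          refine Finset.sum_congr rfl fun η _ => ?_
          split_ifs with h
          · rfl
          · rw [hs η h, norm_zero]; ring
      _ = ∑ η ∈ Y.filter (fun η => η ∈ iv J), ‖F η‖ ^ 2 := by rw [Finset.sum_filter]
      _ ≤ ∑ η ∈ iv J, ‖F η‖ ^ 2 := Finset.sum_le_sum_of_subset_of_nonneg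
          (fun η hη => (Finset.mem_filter.1 hη).2) fun _ _ _ => by positivity
      _ ≤ len J := sum_iv_le (hF J hJ)
  | succ j =>
    unfold QJ eJ
    refine (near_energy hF g (γ0 * 2 ^ j) S (δ' * z1 + s') Y).trans ?_
    have h1 := mx_total (γ := γ0 * 2 ^ j) (M0 := J.1) hg hS
    have h2 : (0 : ℝ) < γ0 * 2 ^ j := by positivity
    have h3 : ∑ c ∈ Mx g (γ0 * 2 ^ j) S J.1, (2 : ℝ) ^ c.1 ≤ 2 ^ J.1 / 2 ^ j := by
      rw [le_div_iff₀ (by positivity)]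
      have h4 : γ0 * ((∑ c ∈ Mx g (γ0 * 2 ^ j) S J.1, (2 : ℝ) ^ c.1) * 2 ^ j) ≤ γ0 * 2 ^ J.1 := by
        calc γ0 * ((∑ c ∈ Mx g (γ0 * 2 ^ j) S J.1, (2 : ℝ) ^ c.1) * 2 ^ j) =
            γ0 * 2 ^ j * ∑ c ∈ Mx g (γ0 * 2 ^ j) S J.1, (2 : ℝ) ^ c.1 := by ring
          _ ≤ _ := h1.trans hM
      exact le_of_mul_le_mul_left h4 hγ0
    calc 2560 * ∑ c ∈ Mx g (γ0 * 2 ^ j) S J.1, (2 : ℝ) ^ c.1 ≤ 2560 * (2 ^ J.1 / 2 ^ j) := by gcongr
      _ = 20 * len J / 2 ^ j := by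
          unfold len
          rw [pow_add]
          ring

theorem kJ_sq {g : ℤ → ℝ} {γ0 : ℝ} {S : Finset ℤ} {A : ℤ → ℤ → ℝ} {y v : ℤ → ℤ → ℤ} {x x' : ℤ}
    {b : Prop} [Decidable b] {θ1 : ℝ} {F : Fn} {δ' s' z1 : ℤ}
    (hA : A x x' ^ 2 ≤ if b then θ1 * ‖F (y x x')‖ ^ 2 else 0)
    (hv : v x x' = y x x' - (δ' * z1 + s')) (j : ℕ) :
    (kJ g γ0 S R J y v A j x x') ^ 2 ≤
      if b then θ1 * QJ g γ0 S R J F δ' s' j z1 (y x x') else 0 := by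
  cases j with
  | zero => exact hA
  | succ j =>
    by_cases h1 : Near g (γ0 * 2 ^ j) S R J (y x x') (y x x' - (δ' * z1 + s'))
    · have e1 : kJ g γ0 S R J y v A (j + 1) x x' = A x x' := by
        unfold kJ; simp only; rw [hv, if_pos h1]
      have e2 : QJ g γ0 S R J F δ' s' (j + 1) z1 (y x x') = ‖F (y x x')‖ ^ 2 := by
        unfold QJ; simp only; rw [if_pos h1]
      rw [e1, e2]
      exact hA
    · have e1 : kJ g γ0 S R J y v A (j + 1) x x' = 0 := by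
        unfold kJ; simp only; rw [hv, if_neg h1]
      have e2 : QJ g γ0 S R J F δ' s' (j + 1) z1 (y x x') = 0 := by
        unfold QJ; simp only; rw [if_neg h1]
      rw [e1, e2]
      split_ifs <;> simp

theorem abs_kJ {g : ℤ → ℝ} {γ0 : ℝ} {S : Finset ℤ} {A : ℤ → ℤ → ℝ} {y v : ℤ → ℤ → ℤ} (j : ℕ)
    (x x' : ℤ) : |kJ g γ0 S R J y v A j x x'| ≤ |A x x'| := by
  cases j with
  | zero => exact le_rfl
  | succ j =>
    unfold kJ
    simp only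
    split_ifs
    · exact le_rfl
    · rw [abs_zero]; exact abs_nonneg _

theorem kJ_ne {g : ℤ → ℝ} {γ0 : ℝ} {S : Finset ℤ} {A : ℤ → ℤ → ℝ} {y v : ℤ → ℤ → ℤ} {j : ℕ}
    {x x' : ℤ} (h : kJ g γ0 S R J y v A j x x' ≠ 0) : A x x' ≠ 0 := by
  intro h0
  apply h
  have := abs_kJ (R := R) (J := J) (g := g) (γ0 := γ0) (S := S) (A := A) (y := y) (v := v) j x x'
  rw [h0, abs_zero] at this
  exact abs_eq_zero.1 (le_antisymm this (abs_nonneg _))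

/-- size of a frozen kernel -/
theorem fr4_sq {T T' : Finset ℤ} {a : ℤ → ℤ → ℂ} {F : ℤ → ℂ} {α β γ w z z' : ℤ} {θ1 : ℝ} (σ : Bool)
    (ha : ‖a z z'‖ ^ 2 ≤ θ1) :
    (pr σ (fr4 T T' a F α β γ w z z')) ^ 2 ≤
      if z ∈ T ∧ z' ∈ T' then θ1 * ‖F (α * w + β * z + γ * z')‖ ^ 2 else 0 := by
  unfold fr4
  split_ifs with h
  · rw [← sq_abs]
    calc |pr σ (a z z' * F (α * w + β * z + γ * z'))| ^ 2
        ≤ ‖a z z' * F (α * w + β * z + γ * z')‖ ^ 2 :=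
          pow_le_pow_left₀ (abs_nonneg _) (abs_pr_le σ _) 2
      _ = ‖a z z'‖ ^ 2 * ‖F (α * w + β * z + γ * z')‖ ^ 2 := by rw [norm_mul, mul_pow]
      _ ≤ _ := mul_le_mul_of_nonneg_right ha (by positivity)
  · rw [pr_zero]; simp

theorem tw_zero {Gm : ℕ → ℤ → ℤ → ℤ → Prop} {A B C : ℤ → ℤ → ℝ} {M L1 : ℕ} {l w : ℤ}
    (hB : ∀ x y, B x y = 0) : Tw Gm A B C M L1 l w = 0 := by
  classical
  unfold Tw
  refine Finset.sum_eq_zero fun m _ => ?_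
  rw [Finset.sum_eq_zero, mul_zero]
  intro i _
  refine Finset.sum_eq_zero fun p0 _ => Finset.sum_eq_zero fun p1 _ => ?_
  split_ifs
  · rw [abs_eq_zero]
    by_contra hc
    obtain ⟨i0, i1, i2, _, _, _, _, h, _⟩ := box_zero hc
    exact h (hB _ _)
  · rfl

/-- energies of the first kernel -/
theorem EA_sum (h : D4 k k0 k1 k2) (hJ : J ∈ R) {F : Fin 4 → Fn} (hF : ∀ p ∈ R, av p (F k2) ≤ 1)
    (hs : ∀ y, y ∉ iv J → F k2 y = 0) {g : ℤ → ℝ} (hg : ∀ v, 0 ≤ g v) {S : Finset ℤ}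
    (hS : ∀ y, y ∉ S → g y = 0) {γ0 : ℝ} (hγ0 : 0 < γ0) (hM : ∑ y ∈ S, g y ≤ γ0 * 2 ^ J.1)
    {θ : ℤ → ℝ} (hθ : ∀ z, 0 ≤ θ z) {a : ℤ → ℤ → ℂ} (ha : ∀ z0 z1, ‖a z0 z1‖ ^ 2 ≤ θ z1)
    (T0 T1 Wf X : Finset ℤ) (s' : ℤ) (σ0 : Bool) (j : ℕ) :
    ∑ w ∈ Wf, ∑ x ∈ X, ∑ y ∈ X, (kJ g γ0 S R J (fun z0 z1 => sha k k2 k0 k1 w z0 z1)
      (fun z0 z1 => vy k k1 s' z1 (sha k k2 k0 k1 w z0 z1))
      (fun z z' => pr σ0 (kA k k0 k1 k2 T0 T1 a F w z z')) j x y) ^ 2 ≤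
      T0.card * (∑ z1 ∈ T1, θ z1) * eJ (len J) j := by
  have hρ2 : sl k - sl k2 ≠ 0 := by
    have := sl_ne0 k k2 h.h2
    intro hc; apply this; linarith
  refine energy (Q := fun z1 η => QJ g γ0 S R J (F k2) (sl k1 - sl k) s' j z1 η) (ρ := sl k - sl k2)
      (σ := fun z z1 => (sl k0 - sl k2) * z + (sl k1 - sl k2) * z1) hρ2 hθ
      (fun z1 Y => QJ_sum hF hJ hs hg hS hγ0 hM _ _ _ _ _) (eJ_nonneg (Growth.len_pos J).le j) ?_
  intro w z z1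
  have h2 := kJ_sq (R := R) (J := J) (g := g) (γ0 := γ0) (S := S)
    (A := fun z z' => pr σ0 (kA k k0 k1 k2 T0 T1 a F w z z'))
    (y := fun z0 z1 => sha k k2 k0 k1 w z0 z1)
    (v := fun z0 z1 => vy k k1 s' z1 (sha k k2 k0 k1 w z0 z1)) (x := z) (x' := z1) (F := F k2)
    (δ' := sl k1 - sl k) (s' := s') (z1 := z1) (b := z ∈ T0 ∧ z1 ∈ T1) (θ1 := θ z1)
    (fr4_sq σ0 (ha z z1)) (by unfold vy; ring) j
  refine h2.trans (le_of_eq ?_)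
  unfold sha
  rw [add_assoc]

/-- energies of the second kernel -/
theorem EB_sum (h : D4 k k0 k1 k2) (hJ : J ∈ R) {F : Fin 4 → Fn} (hF : ∀ p ∈ R, av p (F k0) ≤ 1)
    (hs : ∀ y, y ∉ iv J → F k0 y = 0) {g : ℤ → ℝ} (hg : ∀ v, 0 ≤ g v) {S : Finset ℤ}
    (hS : ∀ y, y ∉ S → g y = 0) {γ0 : ℝ} (hγ0 : 0 < γ0) (hM : ∑ y ∈ S, g y ≤ γ0 * 2 ^ J.1)
    {θ : ℤ → ℝ} (hθ : ∀ z, 0 ≤ θ z) {b : ℤ → ℤ → ℂ} (hb : ∀ z1 z2, ‖b z1 z2‖ ^ 2 ≤ θ z1)
    (T1 T2 Wf X : Finset ℤ) (s' : ℤ) (σ0 : Bool) (j : ℕ) :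
    ∑ w ∈ Wf, ∑ x ∈ X, ∑ y ∈ X, (kJ g γ0 S R J (fun z1 z2 => sha k k0 k1 k2 w z1 z2)
      (fun z1 z2 => vy k k1 s' z1 (sha k k0 k1 k2 w z1 z2))
      (fun z z' => pr σ0 (kB k k0 k1 k2 T1 T2 b F w z z')) j x y) ^ 2 ≤
      T2.card * (∑ z1 ∈ T1, θ z1) * eJ (len J) j := by
  have hρ0 : sl k - sl k0 ≠ 0 := by
    have := sl_ne0 k k0 h.h0
    intro hc; apply this; linarith
  have hcomm : ∀ w ∈ Wf, ∑ x ∈ X, ∑ y ∈ X, (kJ g γ0 S R J (fun z1 z2 => sha k k0 k1 k2 w z1 z2)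
      (fun z1 z2 => vy k k1 s' z1 (sha k k0 k1 k2 w z1 z2))
      (fun z z' => pr σ0 (kB k k0 k1 k2 T1 T2 b F w z z')) j x y) ^ 2 =
      ∑ y ∈ X, ∑ x ∈ X, (kJ g γ0 S R J (fun z1 z2 => sha k k0 k1 k2 w z1 z2)
      (fun z1 z2 => vy k k1 s' z1 (sha k k0 k1 k2 w z1 z2))
      (fun z z' => pr σ0 (kB k k0 k1 k2 T1 T2 b F w z z')) j x y) ^ 2 := fun w _ => Finset.sum_comm
  rw [Finset.sum_congr rfl hcomm]
  refine energy (E := fun w y x => (kJ g γ0 S R J (fun z1 z2 => sha k k0 k1 k2 w z1 z2)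
      (fun z1 z2 => vy k k1 s' z1 (sha k k0 k1 k2 w z1 z2))
      (fun z z' => pr σ0 (kB k k0 k1 k2 T1 T2 b F w z z')) j x y) ^ 2)
      (Q := fun z1 η => QJ g γ0 S R J (F k0) (sl k1 - sl k) s' j z1 η) (ρ := sl k - sl k0)
      (σ := fun z z1 => (sl k1 - sl k0) * z1 + (sl k2 - sl k0) * z) hρ0 hθ
      (fun z1 Y => QJ_sum hF hJ hs hg hS hγ0 hM _ _ _ _ _) (eJ_nonneg (Growth.len_pos J).le j) ?_
  intro w z z1
  have h2 := kJ_sq (R := R) (J := J) (g := g) (γ0 := γ0) (S := S)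
    (A := fun z z' => pr σ0 (kB k k0 k1 k2 T1 T2 b F w z z'))
    (y := fun z1 z2 => sha k k0 k1 k2 w z1 z2)
    (v := fun z1 z2 => vy k k1 s' z1 (sha k k0 k1 k2 w z1 z2)) (x := z1) (x' := z) (F := F k0)
    (δ' := sl k1 - sl k) (s' := s') (z1 := z1) (b := z1 ∈ T1 ∧ z ∈ T2) (θ1 := θ z1)
    (fr4_sq σ0 (hb z1 z)) (by unfold vy; ring) j
  refine h2.trans (le_of_eq ?_)
  unfold sha
  rw [add_assoc]
  by_cases hc : z ∈ T2 ∧ z1 ∈ T1
  · rw [if_pos hc, if_pos (And.comm.1 hc)]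
  · rw [if_neg hc, if_neg (fun h' => hc (And.comm.1 h'))]

theorem lenN_pow (J : Nd) : (lenN J : ℤ) = 128 * 2 ^ J.1 := by
  unfold lenN
  push_cast
  rw [pow_add]
  ring

/-- first kernel of the layer `j` -/
noncomputable def AJ (k k0 k1 k2 : Fin 4) (R : Finset Nd) (J : Nd) (F : Fin 4 → Fn) (a : ℤ → ℤ → ℂ)
    (c : ℤ → ℂ) (γ0 : ℝ) (S : Finset ℤ) (s' : ℤ) (σ0 : Bool) (j : ℕ) (w : ℤ) : ℤ → ℤ → ℝ :=
  kJ (fun v => ‖c v‖) γ0 S R J (fun z0 z1 => sha k k2 k0 k1 w z0 z1)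
    (fun z0 z1 => vy k k1 s' z1 (sha k k2 k0 k1 w z0 z1))
    (fun z z' => pr σ0 (kA k k0 k1 k2 (T0x k k0 J) (T6x J) a F w z z')) j

/-- second kernel of the layer `j` -/
noncomputable def BJ (k k0 k1 k2 : Fin 4) (R : Finset Nd) (J : Nd) (F : Fin 4 → Fn) (b : ℤ → ℤ → ℂ)
    (c : ℤ → ℂ) (γ0 : ℝ) (S : Finset ℤ) (s' : ℤ) (σ1 : Bool) (j : ℕ) (w : ℤ) : ℤ → ℤ → ℝ :=
  kJ (fun v => ‖c v‖) γ0 S R J (fun z1 z2 => sha k k0 k1 k2 w z1 z2)
    (fun z1 z2 => vy k k1 s' z1 (sha k k0 k1 k2 w z1 z2))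
    (fun z z' => pr σ1 (kB k k0 k1 k2 (T6x J) (T6x J) b F w z z')) j

theorem card_T0x (k k0 : Fin 4) (J : Nd) : ((T0x k k0 J).card : ℝ) = 80 * len J := by
  unfold T0x
  rw [Int.card_Ico, ← lenN_cast]
  rw [show (J.2 * 2 ^ (J.1 + 7) / (sl k0 - sl k) + 40 * (lenN J : ℤ) -
    (J.2 * 2 ^ (J.1 + 7) / (sl k0 - sl k) - 40 * (lenN J : ℤ))) = ((80 * lenN J : ℕ) : ℤ) by
    push_cast; ring, Int.toNat_natCast]
  push_cast
  ring

theorem card_T6x (J : Nd) : ((T6x J).card : ℝ) = 6 * len J := by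
  unfold T6x
  rw [Int.card_Ico, ← lenN_cast]
  rw [show (6 * (lenN J : ℤ) - 0) = ((6 * lenN J : ℕ) : ℤ) by push_cast; ring, Int.toNat_natCast]
  push_cast
  ring

/-- position of the box of the coordinate `z0` -/
def q0 (k k0 : Fin 4) (J : Nd) : ℤ := J.2 * 2 ^ (J.1 + 7) / (sl k0 - sl k)

/-- size of the coordinates -/
def S0 (k k0 : Fin 4) (J : Nd) : ℕ := (q0 k k0 J).natAbs + 41 * lenN J

theorem S0_eq (k k0 : Fin 4) (J : Nd) : ((S0 k k0 J : ℕ) : ℤ) = |q0 k k0 J| + 41 * (lenN J : ℤ) := by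
  unfold S0
  rw [Nat.cast_add, Int.natCast_natAbs, Nat.cast_mul]
  rfl

theorem mem_T0x' {k k0 : Fin 4} {J : Nd} {z : ℤ} (hz : z ∈ T0x k k0 J) :
    q0 k k0 J - 40 * (lenN J : ℤ) ≤ z ∧ z < q0 k k0 J + 40 * (lenN J : ℤ) := by
  unfold T0x at hz
  rw [Finset.mem_Ico] at hz
  exact hz

theorem mem_T6x' {J : Nd} {z : ℤ} (hz : z ∈ T6x J) : 0 ≤ z ∧ z < 6 * (lenN J : ℤ) := by
  unfold T6x at hz
  rw [Finset.mem_Ico] at hz
  exact hz

theorem abs_T0x {k k0 : Fin 4} {J : Nd} {z : ℤ} (hz : z ∈ T0x k k0 J) : |z| ≤ S0 k k0 J := by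
  have h1 := mem_T0x' hz
  have h2 := neg_abs_le (q0 k k0 J)
  have h3 := le_abs_self (q0 k k0 J)
  have h4 : (0 : ℤ) ≤ (lenN J : ℤ) := by positivity
  rw [S0_eq, abs_le]
  constructor <;> linarith [h1.1, h1.2]

theorem abs_T6x {k k0 : Fin 4} {J : Nd} {z : ℤ} (hz : z ∈ T6x J) : |z| ≤ S0 k k0 J := by
  have h1 := mem_T6x' hz
  have h2 := abs_nonneg (q0 k k0 J)
  have h4 : (0 : ℤ) ≤ (lenN J : ℤ) := by positivity
  rw [S0_eq, abs_le]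
  constructor <;> linarith [h1.1, h1.2]

/-- the third kernel -/
theorem C_le {F : Fin 4 → Fn} {M3 : ℝ} (hM : 0 ≤ M3) (hb : ∀ y, ‖F k1 y‖ ≤ M3) (T2 T0 : Finset ℤ)
    (c : ℤ → ℂ) (s' w : ℤ) (σ : Bool) (x y : ℤ) :
    |pr σ (kC k k0 k1 k2 T2 T0 (gc k k0 k2 c s') F w x y)| ≤
      M3 * ‖c (vv (sl k2 - sl k) (sl k0 - sl k) s' x y)‖ := by
  refine (abs_pr_le _ _).trans ?_
  unfold kC fr4
  split_ifs
  · rw [norm_mul, mul_comm]
    unfold gc vv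
    rw [show (sl k0 - sl k) * y + (sl k2 - sl k) * x - s' = (sl k2 - sl k) * x + (sl k0 - sl k) * y - s'
      by ring]
    exact mul_le_mul_of_nonneg_right (hb _) (norm_nonneg _)
  · rw [norm_zero]; positivity

theorem fr4_ne {T T' : Finset ℤ} {a : ℤ → ℤ → ℂ} {F : ℤ → ℂ} {α β γ w z z' : ℤ} {σ : Bool}
    (h : pr σ (fr4 T T' a F α β γ w z z') ≠ 0) : z ∈ T ∧ z' ∈ T' := by
  by_contra hc
  apply h
  unfold fr4
  rw [if_neg hc, pr_zero]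

theorem abs_of_sq {H Θm θ1 x : ℝ} {F : Fn} (hF : ∀ y, ‖F y‖ ≤ H) (hH : 0 < H) (hΘ : 0 < Θm)
    (hθ : θ1 ≤ Θm) {b : Prop} [Decidable b] {y : ℤ}
    (h : x ^ 2 ≤ if b then θ1 * ‖F y‖ ^ 2 else 0) : |x| ≤ √Θm * H := by
  refine abs_le_of_sq_le_sq ?_ (mul_pos (Real.sqrt_pos.2 hΘ) hH).le
  rw [mul_pow, Real.sq_sqrt hΘ.le]
  refine h.trans ?_
  split_ifs
  · exact mul_le_mul hθ (pow_le_pow_left₀ (norm_nonneg _) (hF y) 2) (by positivity) hΘ.le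
  · positivity

open Classical in
/-- **ONE SHIFT, ONE FROZEN VALUE** -/
theorem one_w (hCZ : CornerZ) : ∃ K : ℝ, 0 ≤ K ∧ ∀ (k k0 k1 k2 : Fin 4), D4 k k0 k1 k2 →
    ∀ (R : Finset Nd) (J : Nd), IsRegion R J → ∀ (F : Fin 4 → Fn) (Hx M3 : ℝ),
    0 < Hx → 0 < M3 →
    (∀ y, ‖F k0 y‖ ≤ Hx) → (∀ y, ‖F k2 y‖ ≤ Hx) → (∀ y, ‖F k1 y‖ ≤ M3) →
    ∀ (θ : ℤ → ℝ) (Θm : ℝ), (∀ z, θ z ≤ Θm) → 0 < Θm →
    ∀ (a b : ℤ → ℤ → ℂ), (∀ z0 z1, ‖a z0 z1‖ ^ 2 ≤ θ z1) → (∀ z1 z2, ‖b z1 z2‖ ^ 2 ≤ θ z1) →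
    ∀ (c : ℤ → ℂ) (S : Finset ℤ) (γ0 : ℝ) (N : ℕ), (∀ v, v ∉ S → c v = 0) → 0 < γ0 →
    ∑ v ∈ S, ‖c v‖ ≤ γ0 * 2 ^ J.1 → (∀ v, ‖c v‖ ≤ γ0 * 2 ^ N) → ∀ Hg : ℝ, (∀ v, ‖c v‖ ≤ Hg) →
    ∀ (δ : ℝ) (J0 : ℕ), 0 < δ →
    Hg ^ 2 * (6000 * len J ^ 2) ≤ 289 * γ0 ^ 2 * (δ / (Θm * Hx ^ 2) * 2 ^ J0) →
    ∀ (s' l : ℤ), |l| ≤ 7 → ∀ (σ0 σ1 σ2 : Bool) (w : ℤ) (L1 : ℕ),
    Tw (fun m p0 p1 p2 => Gd k k0 k1 k2 R m w p0 p1 p2)
        (fun z z' => pr σ0 (kA k k0 k1 k2 (T0x k k0 J) (T6x J) a F w z z'))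
        (fun z z' => pr σ1 (kB k k0 k1 k2 (T6x J) (T6x J) b F w z z'))
        (fun z z' => pr σ2 (kC k k0 k1 k2 (T6x J) (T0x k k0 J) (gc k k0 k2 c s') F w z z'))
        (J.1 + 1) L1 l w ≤
      ∑ j ∈ range (N + 1), K * (2 * J0 + 1) * ((17 * M3 * (γ0 * 2 ^ j)) *
        √(∑ x ∈ Icc (-(S0 k k0 J : ℤ)) (S0 k k0 J), ∑ y ∈ Icc (-(S0 k k0 J : ℤ)) (S0 k k0 J),
          AJ k k0 k1 k2 R J F a c γ0 S s' σ0 j w x y ^ 2 + δ) *
        √(∑ x ∈ Icc (-(S0 k k0 J : ℤ)) (S0 k k0 J), ∑ y ∈ Icc (-(S0 k k0 J : ℤ)) (S0 k k0 J),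
          BJ k k0 k1 k2 R J F b c γ0 S s' σ1 j w x y ^ 2 + δ)) := by
  obtain ⟨K0, hK0, hlay⟩ := layer hCZ
  refine ⟨K0, hK0, ?_⟩
  intro k k0 k1 k2 h R J hR F Hx M3 hHx hM3 hb0 hb2 hb1 θ Θm hθm hΘm a b ha hb
    c S γ0 N hcS hγ0 hcM hcN Hg hcH δ J0 hδ hJ0 s' l hl σ0 σ1 σ2 w L1
  have hGeo := geo h
  have hLr : (lenN J : ℝ) = len J := lenN_cast J
  have hLz : (lenN J : ℤ) = 128 * 2 ^ J.1 := lenN_pow J
  have hL128 : (128 : ℤ) ≤ (lenN J : ℤ) := by exact_mod_cast lenN_ge J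
  have h2J : (0 : ℤ) < 2 ^ J.1 := by positivity
  have hL0 : 0 < len J := Growth.len_pos J
  have hL1 : (128 : ℝ) ≤ len J := by rw [← hLr]; exact_mod_cast lenN_ge J
  have hgn : ∀ v, 0 ≤ ‖c v‖ := fun v => norm_nonneg _
  have hgS : ∀ v, v ∉ S → ‖c v‖ = 0 := fun v hv => by rw [hcS v hv, norm_zero]
  have hHA0 : 0 < √Θm * Hx := mul_pos (Real.sqrt_pos.2 hΘm) hHx
  have habsq0 := abs_nonneg (q0 k k0 J)
  refine (tw_le_layers h hR (g := fun v => ‖c v‖) hgn hgS hγ0.le hcM hcN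
    (x0 := -(lenN J : ℤ)) (x1 := 7 * (lenN J : ℤ)) (y0 := q0 k k0 J - 41 * (lenN J : ℤ))
    (y1 := q0 k k0 J + 41 * (lenN J : ℤ)) _ _ _ (fun x y hne => ?_) s' w l hl L1).trans ?_
  · obtain ⟨hx, hy⟩ := fr4_ne hne
    have h1 := mem_T6x' hx
    have h2 := mem_T0x' hy
    refine ⟨?_, ?_, ?_, ?_⟩ <;> linarith [h1.1, h1.2, h2.1, h2.2]
  · refine Finset.sum_le_sum fun j hj => ?_
    refine hlay R J hR _ _ _ _ _ s' w _ _ _ _ hGeo (fun v => ‖c v‖) hgn (γ0 * 2 ^ j) M3 Hg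
      (√Θm * Hx) δ (by positivity) hM3 hcH hHA0 hδ _ (noEx_prJ hGeo.b3 hGeo.g3 s' _ γ0 j) _ _ _
      (S0 k k0 J) ?_ ?_ ?_ ?_ ?_ ?_ ?_ ?_ ?_ (fun x y => C_le hM3.le hb1 _ _ c s' w σ2 x y) J0
      (6000 * len J ^ 2) ?_ ?_ l hl L1
    · intro x y hne
      obtain ⟨hx, hy⟩ := fr4_ne (kJ_ne hne)
      exact ⟨abs_T0x hx, abs_T6x hy⟩
    · intro x y hne
      obtain ⟨hx, hy⟩ := fr4_ne (kJ_ne hne)
      exact ⟨abs_T6x hx, abs_T6x hy⟩
    · intro x y hne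
      obtain ⟨hx, hy⟩ := fr4_ne hne
      exact ⟨abs_T6x hx, abs_T0x hy⟩
    · rw [S0_eq, abs_neg, abs_of_nonneg (by linarith)]
      linarith
    · rw [S0_eq, abs_of_nonneg (by linarith)]
      linarith
    · rw [S0_eq, abs_le]
      have h2 := neg_abs_le (q0 k k0 J)
      have h3 := le_abs_self (q0 k k0 J)
      constructor <;> linarith
    · rw [S0_eq, abs_le]
      have h2 := neg_abs_le (q0 k k0 J)
      have h3 := le_abs_self (q0 k k0 J)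
      constructor <;> linarith
    · intro x y
      exact (abs_kJ j x y).trans (abs_of_sq hb2 hHx hΘm (hθm y) (fr4_sq σ0 (ha x y)))
    · intro x y
      exact (abs_kJ j x y).trans (abs_of_sq hb0 hHx hΘm (hθm x) (fr4_sq σ1 (hb x y)))
    · have e1 : ((Icc (-(lenN J : ℤ)) (7 * (lenN J : ℤ))).card : ℝ) = 8 * len J + 1 := by
        rw [Int.card_Icc, ← hLr]
        rw [show 7 * (lenN J : ℤ) + 1 - -(lenN J : ℤ) = ((8 * lenN J + 1 : ℕ) : ℤ) by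
          push_cast; ring, Int.toNat_natCast]
        push_cast; ring
      have e2 : ((Icc (q0 k k0 J - 41 * (lenN J : ℤ)) (q0 k k0 J + 41 * (lenN J : ℤ))).card : ℝ) =
          82 * len J + 1 := by
        rw [Int.card_Icc, ← hLr]
        rw [show q0 k k0 J + 41 * (lenN J : ℤ) + 1 - (q0 k k0 J - 41 * (lenN J : ℤ)) =
          ((82 * lenN J + 1 : ℕ) : ℤ) by push_cast; ring, Int.toNat_natCast]
        push_cast; ring
      rw [e1, e2]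
      nlinarith
    · have h1 : (√Θm * Hx) ^ 2 = Θm * Hx ^ 2 := by rw [mul_pow, Real.sq_sqrt hΘm.le]
      rw [h1]
      have h2 : γ0 ^ 2 ≤ (γ0 * 2 ^ j) ^ 2 := by
        have : γ0 ≤ γ0 * 2 ^ j := le_mul_of_one_le_right hγ0.le (one_le_pow₀ (by norm_num))
        exact pow_le_pow_left₀ hγ0.le this 2
      have h3 : 0 ≤ δ / (Θm * Hx ^ 2) * 2 ^ J0 := by positivity
      calc (M3 * Hg) ^ 2 * (6000 * len J ^ 2) = M3 ^ 2 * (Hg ^ 2 * (6000 * len J ^ 2)) := by ring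
        _ ≤ M3 ^ 2 * (289 * γ0 ^ 2 * (δ / (Θm * Hx ^ 2) * 2 ^ J0)) := by gcongr
        _ ≤ M3 ^ 2 * (289 * (γ0 * 2 ^ j) ^ 2 * (δ / (Θm * Hx ^ 2) * 2 ^ J0)) := by gcongr
        _ = _ := by ring

end

end Crest.Agent.R079.CKk217
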