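import Crest.Agent.R079.PLDefs_931
import Crest.Agent.R072.Node

-- ▼ part R079/PLLat_931
section

/-! R079, LABELLED lattice potentials, (PL1): one scale estimate for an abstract pair of trace
potentials on boxes with LABELS (functions with values in `Matrix β α ℝ`).  Label version of
helper491's `PotLat_491` (proofs copied).  helper931. -/

set_option autoImplicit false
set_option linter.unusedVariables false
set_option linter.unusedSectionVars false

namespace Crest.Agent.R079.PotL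

open Matrix Finset Crest.Agent.R072
open Crest.Agent.R072.Lattice (sum_sub_left' sum_add_right' sum_shift sum_range_mul_aux)
open scoped MatrixOrder

variable {Q : ℕ} [NeZero Q] {α β γ : Type*} [Fintype α] [DecidableEq α] [Fintype β] [Fintype γ]

theorem W_nonneg {P : TPot α} (h : GoodPot P.F) (X : ZMod Q → ZMod Q → Matrix β α ℝ)
    (Z : ZMod Q → ZMod Q → Matrix γ α ℝ) (a r : ℕ) (n : ZMod Q) :
    0 ≤ W P X Z a r n :=
  Finset.sum_nonneg fun _ _ => Finset.sum_nonneg fun _ _ =>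
    h.nonneg _ _ (abar_add_posSemidef _ _ _ _ _ _ _ _)

theorem EW_nonneg {P : TPot α} (h : GoodPot P.E) (X : ZMod Q → ZMod Q → Matrix β α ℝ) (a r : ℕ) :
    0 ≤ EW P X a r :=
  Finset.sum_nonneg fun _ _ => Finset.sum_nonneg fun _ _ => h.nonneg _ _ (abar_posSemidef _ _ _ _ _)

theorem EE_nonneg {P : TPot α} (h : GoodPot P.E) (X : ZMod Q → ZMod Q → Matrix β α ℝ)
    (Z : ZMod Q → ZMod Q → Matrix γ α ℝ) (N : ℕ) :
    0 ≤ EE P X Z N := add_nonneg (EW_nonneg h _ _ _) (EW_nonneg h _ _ _)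

theorem GW_nonneg {P : TPot α} (h : GoodPot P.F) (X : ZMod Q → ZMod Q → Matrix β α ℝ)
    (Z : ZMod Q → ZMod Q → Matrix γ α ℝ) (N : ℕ) (n : ZMod Q) :
    0 ≤ GW P X Z N n :=
  Finset.sum_nonneg fun _ _ => Finset.sum_nonneg fun _ _ =>
    h.split _ _ (abar_add_posSemidef _ _ _ _ _ _ _ _)

theorem bl_nonneg {f : ZMod Q → ℝ} (h : ∀ n, 0 ≤ f n) (N : ℕ) (l : ℤ) : 0 ≤ bl f N l :=
  mul_nonneg (by positivity) (Finset.sum_nonneg fun _ _ => h _)

theorem Vb_nonneg {P : TPot α} (h : GoodPot P.F) (X : ZMod Q → ZMod Q → Matrix β α ℝ)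
    (Z : ZMod Q → ZMod Q → Matrix γ α ℝ) (N : ℕ) :
    0 ≤ Vb P X Z N := bl_nonneg (fun n => W_nonneg h X Z N N n) N _

/-- (C1) -/
theorem W_double_a {P : TPot α} (hF : GoodPot P.F) (X : ZMod Q → ZMod Q → Matrix β α ℝ)
    (Z : ZMod Q → ZMod Q → Matrix γ α ℝ) {a r : ℕ}
    (ha : 0 < a) (n : ZMod Q) :
    W P X Z (a + a) r n ≤ W P X Z a r (n + a) := by
  have key : ∀ p q : ZMod Q, P.F r (abar X (a + a) r q p + abar Z (a + a) r (n - p - q) p) ≤
      (1 / 2) * P.F r (abar X a r q p + abar Z a r (n + a - p - q) p) +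
      (1 / 2) * P.F r (abar X a r (q + a) p + abar Z a r (n + a - p - (q + a)) p) := by
    intro p q
    have e : abar X (a + a) r q p + abar Z (a + a) r (n - p - q) p =
        (1 / 2 : ℝ) • ((abar X a r q p + abar Z a r (n + a - p - q) p) +
          (abar X a r (q + a) p + abar Z a r (n + a - p - (q + a)) p)) := by
      rw [abar_double X ha, abar_double Z ha, ← smul_add]
      congr 1
      have e1 : n + a - p - q = n - p - q + a := by ring
      have e2 : n + a - p - (q + a) = n - p - q := by ring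
      rw [e1, e2]
      abel
    rw [e]
    exact hF.mid r _ _ (abar_add_posSemidef X Z a r q p (n + a - p - q) p)
      (abar_add_posSemidef X Z a r (q + a) p (n + a - p - (q + a)) p)
  unfold W
  refine Finset.sum_le_sum fun p _ => ?_
  refine (Finset.sum_le_sum fun q _ => key p q).trans ?_
  rw [Finset.sum_add_distrib, ← Finset.mul_sum, ← Finset.mul_sum,
    sum_add_right' (fun q => P.F r (abar X a r q p + abar Z a r (n + a - p - q) p)) a]
  linarith

theorem gam_abar (G : (r : ℕ) → Matrix (Fin r × α) (Fin r × α) ℝ → ℝ) (X : ZMod Q → ZMod Q → Matrix β α ℝ)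
    (Z : ZMod Q → ZMod Q → Matrix γ α ℝ)
    {a r : ℕ} (hr : 0 < r) (q q' p : ZMod Q) :
    gam G r (abar X a (r + r) q p + abar Z a (r + r) q' p) =
      G r (abar X a r q p + abar Z a r q' p) +
      G r (abar X a r q (p + r) + abar Z a r q' (p + r)) -
      2 * G (r + r) (abar X a (r + r) q p + abar Z a (r + r) q' p) := by
  have e1 : (2 : ℝ) • (abar X a (r + r) q p + abar Z a (r + r) q' p).submatrix
      (Prod.map (Fin.castAdd r) id) (Prod.map (Fin.castAdd r) id) =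
        abar X a r q p + abar Z a r q' p := by
    rw [Matrix.submatrix_add, Pi.add_apply, Pi.add_apply, smul_add, abar_submatrix_castAdd X hr,
      abar_submatrix_castAdd Z hr]
  have e2 : (2 : ℝ) • (abar X a (r + r) q p + abar Z a (r + r) q' p).submatrix
      (Prod.map (Fin.natAdd r) id) (Prod.map (Fin.natAdd r) id) =
        abar X a r q (p + r) + abar Z a r q' (p + r) := by
    rw [Matrix.submatrix_add, Pi.add_apply, Pi.add_apply, smul_add, abar_submatrix_natAdd X hr,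
      abar_submatrix_natAdd Z hr]
  unfold gam blkA blkB
  rw [e1, e2]

theorem gam_abar_single (G : (r : ℕ) → Matrix (Fin r × α) (Fin r × α) ℝ → ℝ) (X : ZMod Q → ZMod Q → Matrix β α ℝ)
    {a r : ℕ} (hr : 0 < r) (q p : ZMod Q) :
    gam G r (abar X a (r + r) q p) =
      G r (abar X a r q p) + G r (abar X a r q (p + r)) - 2 * G (r + r) (abar X a (r + r) q p) := by
  unfold gam blkA blkB
  rw [abar_submatrix_castAdd X hr, abar_submatrix_natAdd X hr]

/-- (C2) -/
theorem GW_eq (P : TPot α) (X : ZMod Q → ZMod Q → Matrix β α ℝ)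
    (Z : ZMod Q → ZMod Q → Matrix γ α ℝ) {N : ℕ} (hN : 0 < N) (n : ZMod Q) :
    GW P X Z N n = W P X Z (N + N) N n + W P X Z (N + N) N (n + N) -
      2 * W P X Z (N + N) (N + N) n := by
  unfold GW W
  simp only [gam_abar P.F X Z hN, Finset.sum_sub_distrib, Finset.sum_add_distrib, Finset.mul_sum]
  congr 2
  rw [← sum_add_right' (fun p => ∑ q : ZMod Q, P.F N (abar X (N + N) N q p +
    abar Z (N + N) N (n + N - p - q) p)) N]
  refine Finset.sum_congr rfl fun p _ => Finset.sum_congr rfl fun q _ => ?_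
  have e : n + N - (p + N) - q = n - p - q := by ring
  rw [e]

theorem GW_le {P : TPot α} (hF : GoodPot P.F) (X : ZMod Q → ZMod Q → Matrix β α ℝ)
    (Z : ZMod Q → ZMod Q → Matrix γ α ℝ) {N : ℕ} (hN : 0 < N)
    (n : ZMod Q) :
    GW P X Z N n ≤ W P X Z N N (n + N) + W P X Z N N (n + 2 * N) -
      2 * W P X Z (N + N) (N + N) n := by
  have h1 := GW_eq P X Z hN n
  have h2 := W_double_a hF X Z (a := N) (r := N) hN n
  have h3 := W_double_a hF X Z (a := N) (r := N) hN (n + N)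
  have e : n + N + N = n + 2 * (N : ZMod Q) := by ring
  rw [e] at h3
  linarith

theorem EW_double_a {P : TPot α} (hE : GoodPot P.E) (X : ZMod Q → ZMod Q → Matrix β α ℝ) {a r : ℕ}
    (ha : 0 < a) : EW P X (a + a) r ≤ EW P X a r := by
  unfold EW
  refine Finset.sum_le_sum fun p _ => ?_
  have key : ∀ q : ZMod Q, P.E r (abar X (a + a) r q p) ≤ (1 / 2) * P.E r (abar X a r q p) +
      (1 / 2) * P.E r (abar X a r (q + a) p) := by
    intro q
    rw [abar_double X ha]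
    exact hE.mid r _ _ (abar_posSemidef X a r q p) (abar_posSemidef X a r (q + a) p)
  refine (Finset.sum_le_sum fun q _ => key q).trans ?_
  rw [Finset.sum_add_distrib, ← Finset.mul_sum, ← Finset.mul_sum,
    sum_add_right' (fun q => P.E r (abar X a r q p)) a]
  linarith

theorem EW_double_r {P : TPot α} (hE : GoodPot P.E) (X : ZMod Q → ZMod Q → Matrix β α ℝ) {a r : ℕ}
    (hr : 0 < r) : EW P X a (r + r) ≤ EW P X a r := by
  have key : ∀ p q : ZMod Q, P.E (r + r) (abar X a (r + r) q p) ≤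
      (1 / 2) * P.E r (abar X a r q p) + (1 / 2) * P.E r (abar X a r q (p + r)) := by
    intro p q
    have h1 := hE.split r _ (abar_posSemidef X a (r + r) q p)
    rw [gam_abar_single P.E X hr] at h1
    linarith
  unfold EW
  refine (Finset.sum_le_sum fun p _ => Finset.sum_le_sum fun q _ => key p q).trans ?_
  simp only [Finset.sum_add_distrib, ← Finset.mul_sum]
  rw [sum_add_right' (fun p => ∑ q : ZMod Q, P.E r (abar X a r q p)) r]
  linarith

theorem EW_pow_r {P : TPot α} (hE : GoodPot P.E) (X : ZMod Q → ZMod Q → Matrix β α ℝ) {a r : ℕ}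
    (hr : 0 < r) (κ : ℕ) : EW P X a (2 ^ κ * r) ≤ EW P X a r := by
  induction κ with
  | zero => simp
  | succ κ ih =>
    have h := EW_double_r hE X (a := a) (r := 2 ^ κ * r) (by positivity)
    have e : 2 ^ (κ + 1) * r = 2 ^ κ * r + 2 ^ κ * r := by ring
    rw [e]
    exact h.trans ih

theorem EW_pow {P : TPot α} (hE : GoodPot P.E) (X : ZMod Q → ZMod Q → Matrix β α ℝ) {N : ℕ}
    (hN : 0 < N) (κ : ℕ) : EW P X (2 ^ κ * N) (2 ^ κ * N) ≤ EW P X N N := by
  induction κ with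
  | zero => simp
  | succ κ ih =>
    have e : 2 ^ (κ + 1) * N = 2 ^ κ * N + 2 ^ κ * N := by ring
    rw [e]
    exact ((EW_double_r hE X (by positivity)).trans (EW_double_a hE X (by positivity))).trans ih

/-! ### Bregman remainder of an abstract potential -/

section breg

variable {G : (r : ℕ) → Matrix (Fin r × α) (Fin r × α) ℝ → ℝ}

/-- supporting functional -/
noncomputable def spf (h : GoodPot G) (r : ℕ) (Z : Matrix (Fin r × α) (Fin r × α) ℝ)
    (hZ : Z.PosSemidef) : Matrix (Fin r × α) (Fin r × α) ℝ →ₗ[ℝ] ℝ := Classical.choose (h.supp r Z hZ)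

/-- Bregman remainder at `Z` -/
noncomputable def bz (h : GoodPot G) (r : ℕ) (Z : Matrix (Fin r × α) (Fin r × α) ℝ)
    (hZ : Z.PosSemidef) (X : Matrix (Fin r × α) (Fin r × α) ℝ) : ℝ :=
  G r X - G r Z - spf h r Z hZ (X - Z)

theorem bz_nonneg (h : GoodPot G) {r : ℕ} {Z : Matrix (Fin r × α) (Fin r × α) ℝ}
    (hZ : Z.PosSemidef) {X : Matrix (Fin r × α) (Fin r × α) ℝ} (hX : X.PosSemidef) :
    0 ≤ bz h r Z hZ X := by
  have := Classical.choose_spec (h.supp r Z hZ) X hX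
  unfold bz spf
  linarith

theorem mgap_le_bz (h : GoodPot G) {r : ℕ} {Z : Matrix (Fin r × α) (Fin r × α) ℝ}
    (hZ : Z.PosSemidef) {X Y : Matrix (Fin r × α) (Fin r × α) ℝ} (hX : X.PosSemidef)
    (hY : Y.PosSemidef) : mgap G r X Y ≤ bz h r Z hZ X + bz h r Z hZ Y := by
  have h1 := bz_nonneg h hZ (X := (1 / 2 : ℝ) • (X + Y)) ((hX.add hY).smul (by norm_num))
  have e : spf h r Z hZ (X - Z) + spf h r Z hZ (Y - Z) =
      2 * spf h r Z hZ ((1 / 2 : ℝ) • (X + Y) - Z) := by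
    rw [← map_add, ← smul_eq_mul, ← map_smul]
    congr 1
    rw [smul_sub, smul_smul]
    norm_num
    rw [two_smul]
    abel
  unfold bz at h1 ⊢
  unfold mgap
  linarith

theorem bz_mid_le (h : GoodPot G) {r : ℕ} {Z : Matrix (Fin r × α) (Fin r × α) ℝ}
    (hZ : Z.PosSemidef) {X Y : Matrix (Fin r × α) (Fin r × α) ℝ} (hX : X.PosSemidef)
    (hY : Y.PosSemidef) :
    bz h r Z hZ ((1 / 2 : ℝ) • (X + Y)) ≤ (bz h r Z hZ X + bz h r Z hZ Y) / 2 := by
  have h1 := h.mid r X Y hX hY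
  have e : spf h r Z hZ (X - Z) + spf h r Z hZ (Y - Z) =
      2 * spf h r Z hZ ((1 / 2 : ℝ) • (X + Y) - Z) := by
    rw [← map_add, ← smul_eq_mul, ← map_smul]
    congr 1
    rw [smul_sub, smul_smul]
    norm_num
    rw [two_smul]
    abel
  unfold bz
  linarith

theorem sum_bz_avg (h : GoodPot G) {r K : ℕ} (hK : 0 < K) (x : ℕ → Matrix (Fin r × α) (Fin r × α) ℝ)
    {Z : Matrix (Fin r × α) (Fin r × α) ℝ} (hZ : Z.PosSemidef)
    (hz : Z = (1 / (K : ℝ)) • ∑ i ∈ range K, x i) :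
    ∑ i ∈ range K, bz h r Z hZ (x i) = ∑ i ∈ range K, G r (x i) - K * G r Z := by
  have hK' : (K : ℝ) ≠ 0 := by positivity
  unfold bz
  rw [Finset.sum_sub_distrib, Finset.sum_sub_distrib, ← map_sum, Finset.sum_sub_distrib,
    Finset.sum_const, Finset.card_range, Finset.sum_const, Finset.card_range]
  have e : ∑ i ∈ range K, x i - K • Z = 0 := by
    rw [hz, ← Nat.cast_smul_eq_nsmul ℝ, smul_smul, mul_one_div_cancel hK', one_smul, sub_self]
  rw [e, map_zero, nsmul_eq_mul]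
  ring

theorem mgap_comm (G : (r : ℕ) → Matrix (Fin r × α) (Fin r × α) ℝ → ℝ) (r : ℕ)
    (X Y : Matrix (Fin r × α) (Fin r × α) ℝ) : mgap G r X Y = mgap G r Y X := by
  unfold mgap
  rw [add_comm X Y]
  ring

end breg

/-! ### shifts -/

section shift

variable {G : (r : ℕ) → Matrix (Fin r × α) (Fin r × α) ℝ → ℝ}

/-- Bregman remainder of the `i`-th block, summed over all positions -/
noncomputable def SB (h : GoodPot G) (X : ZMod Q → ZMod Q → Matrix β α ℝ) (K N r : ℕ) (p : ZMod Q) (i : ℕ) :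
    ℝ :=
  ∑ q : ZMod Q, bz h r (abar X (K * N) r q p) (abar_posSemidef X (K * N) r q p)
    (abar X N r (q + (i : ZMod Q) * N) p)

theorem SB_nonneg (h : GoodPot G) (X : ZMod Q → ZMod Q → Matrix β α ℝ) (K N r : ℕ) (p : ZMod Q) (i : ℕ) :
    0 ≤ SB h X K N r p i :=
  Finset.sum_nonneg fun q _ => bz_nonneg h _ (abar_posSemidef X _ _ _ _)

theorem sum_SB (h : GoodPot G) (X : ZMod Q → ZMod Q → Matrix β α ℝ) {K N r : ℕ} (hK : 0 < K) (hN : 0 < N)
    (p : ZMod Q) :
    ∑ i ∈ range K, SB h X K N r p i =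
      K * (∑ q : ZMod Q, G r (abar X N r q p) - ∑ q : ZMod Q, G r (abar X (K * N) r q p)) := by
  unfold SB
  rw [Finset.sum_comm]
  have h1 : ∀ q : ZMod Q, ∑ i ∈ range K,
      bz h r (abar X (K * N) r q p) (abar_posSemidef X (K * N) r q p)
        (abar X N r (q + (i : ZMod Q) * N) p) =
      ∑ i ∈ range K, G r (abar X N r (q + (i : ZMod Q) * N) p) -
        K * G r (abar X (K * N) r q p) := by
    intro q
    exact sum_bz_avg h hK (fun i => abar X N r (q + (i : ZMod Q) * N) p) _ (abar_mul X hK hN q p)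
  rw [Finset.sum_congr rfl fun q _ => h1 q, Finset.sum_sub_distrib, Finset.sum_comm,
    ← Finset.mul_sum]
  have h2 : ∀ i ∈ range K, ∑ q : ZMod Q, G r (abar X N r (q + (i : ZMod Q) * N) p) =
      ∑ q : ZMod Q, G r (abar X N r q p) := fun i _ =>
    sum_shift (fun q => G r (abar X N r q p)) ((i : ZMod Q) * N)
  rw [Finset.sum_congr rfl h2, Finset.sum_const, Finset.card_range, nsmul_eq_mul]
  ring

theorem sum_SB_shift_le (h : GoodPot G) (X : ZMod Q → ZMod Q → Matrix β α ℝ) (K N r : ℕ) (p : ZMod Q)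
    (L c : ℕ) (hL : L + c ≤ K) :
    ∑ i ∈ range L, SB h X K N r p (i + c) ≤ ∑ i ∈ range K, SB h X K N r p i := by
  have h1 : ∑ i ∈ range L, SB h X K N r p (i + c) =
      ∑ i ∈ Finset.Ico c (L + c), SB h X K N r p i := by
    rw [Finset.sum_Ico_eq_sum_range]
    simp [add_comm]
  rw [h1]
  apply Finset.sum_le_sum_of_subset_of_nonneg
  · intro i hi
    rw [Finset.mem_Ico] at hi
    exact Finset.mem_range.2 (by omega)
  · intro i _ _
    exact SB_nonneg h X K N r p i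

theorem gap_shift_nat (h : GoodPot G) (X : ZMod Q → ZMod Q → Matrix β α ℝ) {N r : ℕ} (hN : 0 < N)
    (s K : ℕ) (hK : 0 < K) (hs : 2 * s ≤ K) (p : ZMod Q) :
    ∑ q : ZMod Q, mgap G r (abar X N r q p) (abar X N r (q + (s : ZMod Q) * N) p) ≤
      4 * (∑ q : ZMod Q, G r (abar X N r q p) - ∑ q : ZMod Q, G r (abar X (K * N) r q p)) := by
  set S := ∑ q : ZMod Q, mgap G r (abar X N r q p) (abar X N r (q + (s : ZMod Q) * N) p) with hG
  set D := ∑ q : ZMod Q, G r (abar X N r q p) - ∑ q : ZMod Q, G r (abar X (K * N) r q p) with hD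
  have hsum : ∑ i ∈ range K, SB h X K N r p i = K * D := sum_SB h X hK hN p
  have hD0 : 0 ≤ D := by
    have h1 : 0 ≤ ∑ i ∈ range K, SB h X K N r p i :=
      Finset.sum_nonneg fun i _ => SB_nonneg h X K N r p i
    rw [hsum] at h1
    have : (0 : ℝ) < K := by exact_mod_cast hK
    exact nonneg_of_mul_nonneg_right h1 this
  have hi : ∀ i : ℕ, S ≤ SB h X K N r p i + SB h X K N r p (i + s) := by
    intro i
    have e1 : S = ∑ q : ZMod Q, mgap G r (abar X N r (q + (i : ZMod Q) * N) p)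
        (abar X N r (q + ((i + s : ℕ) : ZMod Q) * N) p) := by
      rw [hG, ← sum_shift _ ((i : ZMod Q) * (N : ZMod Q))]
      refine Finset.sum_congr rfl fun q _ => ?_
      have : q + (i : ZMod Q) * N + (s : ZMod Q) * N = q + ((i + s : ℕ) : ZMod Q) * N := by
        push_cast; ring
      rw [this]
    rw [e1]
    unfold SB
    rw [← Finset.sum_add_distrib]
    exact Finset.sum_le_sum fun q _ => mgap_le_bz h _ (abar_posSemidef X _ _ _ _)
      (abar_posSemidef X _ _ _ _)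
  have hsum2 : ((K - s : ℕ) : ℝ) * S ≤ 2 * (K * D) := by
    have h1 : ∑ _i ∈ range (K - s), S ≤
        ∑ i ∈ range (K - s), (SB h X K N r p i + SB h X K N r p (i + s)) :=
      Finset.sum_le_sum fun i _ => hi i
    rw [Finset.sum_const, Finset.card_range, nsmul_eq_mul, Finset.sum_add_distrib] at h1
    have h2 := sum_SB_shift_le h X K N r p (K - s) 0 (by omega)
    have h3 := sum_SB_shift_le h X K N r p (K - s) s (by omega)
    simp only [add_zero] at h2
    rw [hsum] at h2 h3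
    linarith
  have hKs : (K : ℝ) ≤ 2 * ((K - s : ℕ) : ℝ) := by
    have : K ≤ 2 * (K - s) := by omega
    exact_mod_cast this
  have hpos : (0 : ℝ) < ((K - s : ℕ) : ℝ) := by
    have : 0 < K - s := by omega
    exact_mod_cast this
  have h5 : ((K - s : ℕ) : ℝ) * S ≤ ((K - s : ℕ) : ℝ) * (4 * D) := by
    nlinarith
  exact le_of_mul_le_mul_left h5 hpos

theorem gap_shift_two_nat (h : GoodPot G) (X : ZMod Q → ZMod Q → Matrix β α ℝ) {N r : ℕ} (hN : 0 < N)
    (s K : ℕ) (hs : 2 * (s + 1) ≤ K) (p : ZMod Q) :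
    ∑ q : ZMod Q, mgap G r (abar X (N + N) r q p) (abar X (N + N) r (q + (s : ZMod Q) * N) p) ≤
      4 * (∑ q : ZMod Q, G r (abar X N r q p) - ∑ q : ZMod Q, G r (abar X (K * N) r q p)) := by
  have hK : 0 < K := by omega
  set S := ∑ q : ZMod Q, mgap G r (abar X (N + N) r q p)
    (abar X (N + N) r (q + (s : ZMod Q) * N) p) with hG
  set D := ∑ q : ZMod Q, G r (abar X N r q p) - ∑ q : ZMod Q, G r (abar X (K * N) r q p) with hD
  have hsum : ∑ i ∈ range K, SB h X K N r p i = K * D := sum_SB h X hK hN p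
  have hD0 : 0 ≤ D := by
    have h1 : 0 ≤ ∑ i ∈ range K, SB h X K N r p i :=
      Finset.sum_nonneg fun i _ => SB_nonneg h X K N r p i
    rw [hsum] at h1
    have : (0 : ℝ) < K := by exact_mod_cast hK
    exact nonneg_of_mul_nonneg_right h1 this
  have hb : ∀ (q : ZMod Q) (i : ℕ),
      bz h r (abar X (K * N) r q p) (abar_posSemidef X (K * N) r q p)
        (abar X (N + N) r (q + (i : ZMod Q) * N) p) ≤
      (bz h r (abar X (K * N) r q p) (abar_posSemidef X (K * N) r q p)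
          (abar X N r (q + (i : ZMod Q) * N) p) +
        bz h r (abar X (K * N) r q p) (abar_posSemidef X (K * N) r q p)
          (abar X N r (q + ((i + 1 : ℕ) : ZMod Q) * N) p)) / 2 := by
    intro q i
    rw [abar_two X hN]
    have : q + (i : ZMod Q) * N + N = q + ((i + 1 : ℕ) : ZMod Q) * N := by
      push_cast; ring
    rw [this]
    exact bz_mid_le h _ (abar_posSemidef X _ _ _ _) (abar_posSemidef X _ _ _ _)
  have hi : ∀ i : ℕ, S ≤ (SB h X K N r p i + SB h X K N r p (i + 1)) / 2 +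
      (SB h X K N r p (i + s) + SB h X K N r p (i + (s + 1))) / 2 := by
    intro i
    have e1 : S = ∑ q : ZMod Q, mgap G r (abar X (N + N) r (q + (i : ZMod Q) * N) p)
        (abar X (N + N) r (q + ((i + s : ℕ) : ZMod Q) * N) p) := by
      rw [hG, ← sum_shift _ ((i : ZMod Q) * (N : ZMod Q))]
      refine Finset.sum_congr rfl fun q _ => ?_
      have : q + (i : ZMod Q) * N + (s : ZMod Q) * N = q + ((i + s : ℕ) : ZMod Q) * N := by
        push_cast; ring
      rw [this]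
    have e2 : (SB h X K N r p i + SB h X K N r p (i + 1)) / 2 +
        (SB h X K N r p (i + s) + SB h X K N r p (i + (s + 1))) / 2 =
        ∑ q : ZMod Q,
          ((bz h r (abar X (K * N) r q p) (abar_posSemidef X (K * N) r q p)
              (abar X N r (q + (i : ZMod Q) * N) p) +
            bz h r (abar X (K * N) r q p) (abar_posSemidef X (K * N) r q p)
              (abar X N r (q + ((i + 1 : ℕ) : ZMod Q) * N) p)) / 2 +
          (bz h r (abar X (K * N) r q p) (abar_posSemidef X (K * N) r q p)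
              (abar X N r (q + ((i + s : ℕ) : ZMod Q) * N) p) +
            bz h r (abar X (K * N) r q p) (abar_posSemidef X (K * N) r q p)
              (abar X N r (q + ((i + s + 1 : ℕ) : ZMod Q) * N) p)) / 2) := by
      unfold SB
      rw [← add_assoc i s 1]
      rw [Finset.sum_add_distrib, ← Finset.sum_div, ← Finset.sum_div, Finset.sum_add_distrib,
        Finset.sum_add_distrib]
    rw [e1, e2]
    refine Finset.sum_le_sum fun q _ => ?_
    refine (mgap_le_bz h (abar_posSemidef X (K * N) r q p) (abar_posSemidef X _ _ _ _)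
      (abar_posSemidef X _ _ _ _)).trans ?_
    exact add_le_add (hb q i) (hb q (i + s))
  have hsum2 : ((K - (s + 1) : ℕ) : ℝ) * S ≤ 2 * (K * D) := by
    have h1 : ∑ _i ∈ range (K - (s + 1)), S ≤
        ∑ i ∈ range (K - (s + 1)), ((SB h X K N r p i + SB h X K N r p (i + 1)) / 2 +
          (SB h X K N r p (i + s) + SB h X K N r p (i + (s + 1))) / 2) :=
      Finset.sum_le_sum fun i _ => hi i
    rw [Finset.sum_const, Finset.card_range, nsmul_eq_mul, Finset.sum_add_distrib,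
      ← Finset.sum_div, ← Finset.sum_div, Finset.sum_add_distrib, Finset.sum_add_distrib] at h1
    have h2 := sum_SB_shift_le h X K N r p (K - (s + 1)) 0 (by omega)
    have h3 := sum_SB_shift_le h X K N r p (K - (s + 1)) 1 (by omega)
    have h4 := sum_SB_shift_le h X K N r p (K - (s + 1)) s (by omega)
    have h5 := sum_SB_shift_le h X K N r p (K - (s + 1)) (s + 1) (by omega)
    simp only [add_zero] at h2
    rw [hsum] at h2 h3 h4 h5
    linarith
  have hKs : (K : ℝ) ≤ 2 * ((K - (s + 1) : ℕ) : ℝ) := by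
    have : K ≤ 2 * (K - (s + 1)) := by omega
    exact_mod_cast this
  have hpos : (0 : ℝ) < ((K - (s + 1) : ℕ) : ℝ) := by
    have : 0 < K - (s + 1) := by omega
    exact_mod_cast this
  have h5 : ((K - (s + 1) : ℕ) : ℝ) * S ≤ ((K - (s + 1) : ℕ) : ℝ) * (4 * D) := by
    nlinarith
  exact le_of_mul_le_mul_left h5 hpos

end shift

/-- (SL) for `N`-averages -/
theorem gap_shift {P : TPot α} (h : GoodPot P.E) (X : ZMod Q → ZMod Q → Matrix β α ℝ) {N r : ℕ}
    (hN : 0 < N) (s : ℤ) (K : ℕ) (hK : 0 < K) (hs : 2 * |s| ≤ K) :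
    ∑ p : ZMod Q, ∑ q : ZMod Q,
      mgap P.E r (abar X N r q p) (abar X N r (q + (s : ZMod Q) * N) p) ≤
      4 * (EW P X N r - EW P X (K * N) r) := by
  have hs' : 2 * s.natAbs ≤ K := by
    have : ((s.natAbs : ℕ) : ℤ) = |s| := Int.natCast_natAbs s
    omega
  unfold EW
  rw [← Finset.sum_sub_distrib, Finset.mul_sum]
  refine Finset.sum_le_sum fun p _ => ?_
  refine le_trans (le_of_eq ?_) (gap_shift_nat h X hN s.natAbs K hK hs' p)
  rcases Int.natAbs_eq s with h' | h'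
  · rw [h']; simp
  · rw [← sum_shift (fun q => mgap P.E r (abar X N r q p) (abar X N r (q + (s : ZMod Q) * N) p))
      ((s.natAbs : ZMod Q) * N)]
    refine Finset.sum_congr rfl fun q _ => ?_
    have e : q + (s.natAbs : ZMod Q) * N + (s : ZMod Q) * N = q := by
      have : (s : ZMod Q) = -((s.natAbs : ℕ) : ZMod Q) := by
        have h2 : (s : ZMod Q) = ((-(s.natAbs : ℤ) : ℤ) : ZMod Q) := congrArg _ h'
        rw [h2, Int.cast_neg, Int.cast_natCast]
      rw [this]; ring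
    rw [e, mgap_comm]

/-- (SL) for `2N`-averages with shifts in `N ℤ` -/
theorem gap_shift_two {P : TPot α} (h : GoodPot P.E) (X : ZMod Q → ZMod Q → Matrix β α ℝ) {N r : ℕ}
    (hN : 0 < N) (s : ℤ) (K : ℕ) (hs : 2 * (|s| + 1) ≤ K) :
    ∑ p : ZMod Q, ∑ q : ZMod Q,
      mgap P.E r (abar X (N + N) r q p) (abar X (N + N) r (q + (s : ZMod Q) * N) p) ≤
      4 * (EW P X N r - EW P X (K * N) r) := by
  have hs' : 2 * (s.natAbs + 1) ≤ K := by
    have : ((s.natAbs : ℕ) : ℤ) = |s| := Int.natCast_natAbs s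
    omega
  unfold EW
  rw [← Finset.sum_sub_distrib, Finset.mul_sum]
  refine Finset.sum_le_sum fun p _ => ?_
  refine le_trans (le_of_eq ?_) (gap_shift_two_nat h X hN s.natAbs K hs' p)
  rcases Int.natAbs_eq s with h' | h'
  · rw [h']; simp
  · rw [← sum_shift (fun q => mgap P.E r (abar X (N + N) r q p)
      (abar X (N + N) r (q + (s : ZMod Q) * N) p)) ((s.natAbs : ZMod Q) * N)]
    refine Finset.sum_congr rfl fun q _ => ?_
    have e : q + (s.natAbs : ZMod Q) * N + (s : ZMod Q) * N = q := by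
      have : (s : ZMod Q) = -((s.natAbs : ℕ) : ZMod Q) := by
        have h2 : (s : ZMod Q) = ((-(s.natAbs : ℤ) : ℤ) : ZMod Q) := congrArg _ h'
        rw [h2, Int.cast_neg, Int.cast_natCast]
      rw [this]; ring
    rw [e, mgap_comm]

/-- general mixed difference estimate for `W` -/
theorem W_mixed_gen {P : TPot α} {c : ℝ} (h : Good P c) (X : ZMod Q → ZMod Q → Matrix β α ℝ)
    (Z : ZMod Q → ZMod Q → Matrix γ α ℝ) (a r : ℕ)
    (n u v : ZMod Q) (ex ez : ℝ)
    (hX : ∑ p : ZMod Q, ∑ q : ZMod Q, mgap P.E r (abar X a r q p) (abar X a r (q + u) p) ≤ 4 * ex)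
    (hZ : ∑ p : ZMod Q, ∑ q : ZMod Q, mgap P.E r (abar Z a r q p) (abar Z a r (q + v) p) ≤
      4 * ez) :
    |W P X Z a r n + W P X Z a r (n + (u + v)) - W P X Z a r (n + u) - W P X Z a r (n + v)| ≤
      4 * c * (ex + ez) := by
  have e00 : W P X Z a r n = ∑ p : ZMod Q, ∑ q : ZMod Q,
      P.F r (abar X a r q p + abar Z a r (n - p - q) p) := rfl
  have e11 : W P X Z a r (n + (u + v)) = ∑ p : ZMod Q, ∑ q : ZMod Q,
      P.F r (abar X a r (q + u) p + abar Z a r (n - p - q + v) p) := by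
    unfold W
    refine Finset.sum_congr rfl fun p _ => ?_
    rw [← sum_shift _ u]
    refine Finset.sum_congr rfl fun q _ => ?_
    have : n + (u + v) - p - (q + u) = n - p - q + v := by ring
    rw [this]
  have e10 : W P X Z a r (n + u) = ∑ p : ZMod Q, ∑ q : ZMod Q,
      P.F r (abar X a r (q + u) p + abar Z a r (n - p - q) p) := by
    unfold W
    refine Finset.sum_congr rfl fun p _ => ?_
    rw [← sum_shift _ u]
    refine Finset.sum_congr rfl fun q _ => ?_
    have : n + u - p - (q + u) = n - p - q := by ring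
    rw [this]
  have e01 : W P X Z a r (n + v) = ∑ p : ZMod Q, ∑ q : ZMod Q,
      P.F r (abar X a r q p + abar Z a r (n - p - q + v) p) := by
    unfold W
    refine Finset.sum_congr rfl fun p _ => Finset.sum_congr rfl fun q _ => ?_
    have : n + v - p - q = n - p - q + v := by ring
    rw [this]
  have hZ' : ∑ p : ZMod Q, ∑ q : ZMod Q,
      mgap P.E r (abar Z a r (n - p - q) p) (abar Z a r (n - p - q + v) p) ≤ 4 * ez := by
    refine le_trans (le_of_eq ?_) hZ
    refine Finset.sum_congr rfl fun p _ => ?_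
    exact Equiv.sum_comp (Equiv.subLeft (n - p))
      (fun q => mgap P.E r (abar Z a r q p) (abar Z a r (q + v) p))
  have hup : ∀ p q : ZMod Q,
      |P.F r (abar X a r q p + abar Z a r (n - p - q) p) +
        P.F r (abar X a r (q + u) p + abar Z a r (n - p - q + v) p) -
        P.F r (abar X a r (q + u) p + abar Z a r (n - p - q) p) -
        P.F r (abar X a r q p + abar Z a r (n - p - q + v) p)| ≤
      c * (mgap P.E r (abar X a r q p) (abar X a r (q + u) p) +
        mgap P.E r (abar Z a r (n - p - q) p) (abar Z a r (n - p - q + v) p)) := by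
    intro p q
    have h1 := h.mixed r _ _ _ _ (abar_posSemidef X a r q p) (abar_posSemidef X a r (q + u) p)
      (abar_posSemidef Z a r (n - p - q) p) (abar_posSemidef Z a r (n - p - q + v) p)
    rw [abs_le] at h1 ⊢
    constructor <;> linarith [h1.1, h1.2]
  rw [e00, e11, e10, e01]
  simp only [← Finset.sum_add_distrib, ← Finset.sum_sub_distrib]
  calc _ ≤ ∑ p : ZMod Q, ∑ q : ZMod Q,
      |P.F r (abar X a r q p + abar Z a r (n - p - q) p) +
        P.F r (abar X a r (q + u) p + abar Z a r (n - p - q + v) p) -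
        P.F r (abar X a r (q + u) p + abar Z a r (n - p - q) p) -
        P.F r (abar X a r q p + abar Z a r (n - p - q + v) p)| :=
        (Finset.abs_sum_le_sum_abs _ _).trans
          (Finset.sum_le_sum fun p _ => Finset.abs_sum_le_sum_abs _ _)
    _ ≤ ∑ p : ZMod Q, ∑ q : ZMod Q,
      c * (mgap P.E r (abar X a r q p) (abar X a r (q + u) p) +
        mgap P.E r (abar Z a r (n - p - q) p) (abar Z a r (n - p - q + v) p)) :=
        Finset.sum_le_sum fun p _ => Finset.sum_le_sum fun q _ => hup p q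
    _ = c * (∑ p : ZMod Q, ∑ q : ZMod Q, mgap P.E r (abar X a r q p) (abar X a r (q + u) p) +
        ∑ p : ZMod Q, ∑ q : ZMod Q,
          mgap P.E r (abar Z a r (n - p - q) p) (abar Z a r (n - p - q + v) p)) := by
        simp only [← Finset.mul_sum, Finset.sum_add_distrib]
    _ ≤ c * (4 * ex + 4 * ez) := mul_le_mul_of_nonneg_left (add_le_add hX hZ') h.c0
    _ = 4 * c * (ex + ez) := by ring

/-- (C4) for `N`-averages -/
theorem W_mixed {P : TPot α} {c : ℝ} (h : Good P c) (X : ZMod Q → ZMod Q → Matrix β α ℝ)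
    (Z : ZMod Q → ZMod Q → Matrix γ α ℝ) {N r : ℕ}
    (hN : 0 < N) (n : ZMod Q)
    (s t : ℤ) (K : ℕ) (hK : 0 < K) (hs : 2 * |s| ≤ K) (ht : 2 * |t| ≤ K) :
    |W P X Z N r n + W P X Z N r (n + (s + t : ℤ) * N) - W P X Z N r (n + (s : ZMod Q) * N) -
        W P X Z N r (n + (t : ZMod Q) * N)| ≤
      4 * c * (EW P X N r - EW P X (K * N) r + (EW P Z N r - EW P Z (K * N) r)) := by
  have h := W_mixed_gen h X Z N r n ((s : ZMod Q) * N) ((t : ZMod Q) * N) _ _
    (gap_shift h.E X hN s K hK hs) (gap_shift h.E Z hN t K hK ht)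
  have e : ((s + t : ℤ) : ZMod Q) * N = (s : ZMod Q) * N + (t : ZMod Q) * N := by
    push_cast; ring
  rw [e]
  exact h

/-- (C4) for `2N`-averages -/
theorem W_mixed_two {P : TPot α} {c : ℝ} (h : Good P c) (X : ZMod Q → ZMod Q → Matrix β α ℝ)
    (Z : ZMod Q → ZMod Q → Matrix γ α ℝ) {N r : ℕ}
    (hN : 0 < N) (n : ZMod Q)
    (s t : ℤ) (K : ℕ) (hs : 2 * (|s| + 1) ≤ K) (ht : 2 * (|t| + 1) ≤ K) :
    |W P X Z (N + N) r n + W P X Z (N + N) r (n + (s + t : ℤ) * N) -
        W P X Z (N + N) r (n + (s : ZMod Q) * N) - W P X Z (N + N) r (n + (t : ZMod Q) * N)| ≤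
      4 * c * (EW P X N r - EW P X (K * N) r + (EW P Z N r - EW P Z (K * N) r)) := by
  have h := W_mixed_gen h X Z (N + N) r n ((s : ZMod Q) * N) ((t : ZMod Q) * N) _ _
    (gap_shift_two h.E X hN s K hs) (gap_shift_two h.E Z hN t K ht)
  have e : ((s + t : ℤ) : ZMod Q) * N = (s : ZMod Q) * N + (t : ZMod Q) * N := by
    push_cast; ring
  rw [e]
  exact h

/-- pointwise (unaveraged) form of the one scale estimate -/
theorem gap_pot_pt {P : TPot α} {c : ℝ} (h : Good P c) (X : ZMod Q → ZMod Q → Matrix β α ℝ)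
    (Z : ZMod Q → ZMod Q → Matrix γ α ℝ) (m κ : ℕ)
    (l : ℤ) (hκ : 2 * |l| + 20 ≤ 2 ^ κ) (i : ZMod Q) :
    GW P X Z (2 ^ m) ((l : ZMod Q) * ((2 ^ m : ℕ) : ZMod Q) + i) ≤
      4 * W P X Z (2 ^ m) (2 ^ m) (((-2 : ℤ) : ZMod Q) * ((2 ^ m : ℕ) : ZMod Q) + i) -
      2 * (W P X Z (2 ^ (m + 1)) (2 ^ (m + 1))
            (((-4 : ℤ) : ZMod Q) * ((2 ^ m : ℕ) : ZMod Q) + i) +
          W P X Z (2 ^ (m + 1)) (2 ^ (m + 1))
            (((-3 : ℤ) : ZMod Q) * ((2 ^ m : ℕ) : ZMod Q) + i)) +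
      16 * c * (EE P X Z (2 ^ m) - EE P X Z (2 ^ (m + κ))) := by
  have hc0 := h.c0
  set N : ℕ := 2 ^ m with hNdef
  have hN : 0 < N := by positivity
  have hN2 : (2 : ℕ) ^ (m + 1) = N + N := by rw [hNdef]; ring
  have hNK : (2 : ℕ) ^ (m + κ) = 2 ^ κ * N := by rw [hNdef]; ring
  rw [hN2, hNK]
  set K : ℕ := 2 ^ κ with hKdef
  have hK : 0 < K := by positivity
  have hκ' : 2 * |l| + 20 ≤ (K : ℤ) := by rw [hKdef]; exact_mod_cast hκ
  have hl1 := le_abs_self l
  have hl2 := neg_abs_le l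
  have h1 := GW_le h.F X Z hN ((l : ZMod Q) * (N : ZMod Q) + i)
  have h2 := GW_le h.F X Z hN (((-7 - l : ℤ) : ZMod Q) * (N : ZMod Q) + i)
  have h2' := GW_nonneg h.F X Z N (((-7 - l : ℤ) : ZMod Q) * (N : ZMod Q) + i)
  set DX := EW P X N N - EW P X (K * N) (K * N) with hDX
  set DZ := EW P Z N N - EW P Z (K * N) (K * N) with hDZ
  have hKN : 0 < K * N := by positivity
  have hEKX : EW P X (K * N) (K * N) ≤ EW P X (K * N) N := EW_pow_r h.E X hN κ
  have hEKZ : EW P Z (K * N) (K * N) ≤ EW P Z (K * N) N := EW_pow_r h.E Z hN κ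
  have hκ1 : 1 ≤ κ := by
    rcases Nat.eq_zero_or_pos κ with h | h
    · exfalso
      have h3 : K = 1 := by rw [hKdef, h]; norm_num
      rw [h3] at hκ'
      push_cast at hκ'
      have := abs_nonneg l
      omega
    · exact h
  have hEK2X : EW P X (K * N) (K * N) ≤ EW P X (K * N) (N + N) := by
    have h3 := EW_pow_r h.E X (a := K * N) (r := N + N) (by omega) (κ - 1)
    have e : 2 ^ (κ - 1) * (N + N) = K * N := by
      rw [hKdef, ← two_mul, ← mul_assoc, ← pow_succ, Nat.sub_add_cancel hκ1]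
    rwa [e] at h3
  have hEK2Z : EW P Z (K * N) (K * N) ≤ EW P Z (K * N) (N + N) := by
    have h3 := EW_pow_r h.E Z (a := K * N) (r := N + N) (by omega) (κ - 1)
    have e : 2 ^ (κ - 1) * (N + N) = K * N := by
      rw [hKdef, ← two_mul, ← mul_assoc, ← pow_succ, Nat.sub_add_cancel hκ1]
    rwa [e] at h3
  have hE2X : EW P X N (N + N) ≤ EW P X N N := EW_double_r h.E X hN
  have hE2Z : EW P Z N (N + N) ≤ EW P Z N N := EW_double_r h.E Z hN
  -- N-scale comparison
  have hA : ∀ j : ℤ, |j| ≤ |l| + 2 →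
      W P X Z N N ((j : ZMod Q) * N + i) + W P X Z N N (((-4 - j : ℤ) : ZMod Q) * N + i) ≤
        2 * W P X Z N N (((-2 : ℤ) : ZMod Q) * N + i) + 4 * c * (DX + DZ) := by
    intro j hj
    have hj1 := le_abs_self j
    have hj2 := neg_abs_le j
    have h3 := W_mixed h X Z (r := N) hN (((-2 : ℤ) : ZMod Q) * N + i) (j + 2) (-2 - j) K hK
      (by rcases abs_cases (j + 2) with h | h <;> omega)
      (by rcases abs_cases (-2 - j) with h | h <;> omega)
    have e1 : ((-2 : ℤ) : ZMod Q) * N + i + ((j + 2 + (-2 - j) : ℤ) : ZMod Q) * N =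
        ((-2 : ℤ) : ZMod Q) * N + i := by
      push_cast; ring
    have e2 : ((-2 : ℤ) : ZMod Q) * N + i + ((j + 2 : ℤ) : ZMod Q) * N =
        (j : ZMod Q) * N + i := by
      push_cast; ring
    have e3 : ((-2 : ℤ) : ZMod Q) * N + i + ((-2 - j : ℤ) : ZMod Q) * N =
        ((-4 - j : ℤ) : ZMod Q) * N + i := by
      push_cast; ring
    rw [e1, e2, e3] at h3
    have h4 := (abs_le.1 h3).1
    have h5 := hEKX
    have h6 := hEKZ
    have h7 : 4 * c * (EW P X N N - EW P X (K * N) N + (EW P Z N N - EW P Z (K * N) N)) ≤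
        4 * c * (DX + DZ) := mul_le_mul_of_nonneg_left (by linarith) (by linarith)
    linarith
  -- 2N-scale comparison
  have hB : W P X Z (N + N) (N + N) (((-4 : ℤ) : ZMod Q) * N + i) +
        W P X Z (N + N) (N + N) (((-3 : ℤ) : ZMod Q) * N + i) - 4 * c * (DX + DZ) ≤
      W P X Z (N + N) (N + N) ((l : ZMod Q) * N + i) +
        W P X Z (N + N) (N + N) (((-7 - l : ℤ) : ZMod Q) * N + i) := by
    have h3 := W_mixed_two h X Z hN (r := N + N) (((-4 : ℤ) : ZMod Q) * N + i)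
      (l + 4) (-3 - l) K
      (by rcases abs_cases (l + 4) with h | h <;> omega)
      (by rcases abs_cases (-3 - l) with h | h <;> omega)
    have e1 : ((-4 : ℤ) : ZMod Q) * N + i + ((l + 4 + (-3 - l) : ℤ) : ZMod Q) * N =
        ((-3 : ℤ) : ZMod Q) * N + i := by
      push_cast; ring
    have e2 : ((-4 : ℤ) : ZMod Q) * N + i + ((l + 4 : ℤ) : ZMod Q) * N =
        (l : ZMod Q) * N + i := by
      push_cast; ring
    have e3 : ((-4 : ℤ) : ZMod Q) * N + i + ((-3 - l : ℤ) : ZMod Q) * N =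
        ((-7 - l : ℤ) : ZMod Q) * N + i := by
      push_cast; ring
    rw [e1, e2, e3] at h3
    have h4 := (abs_le.1 h3).2
    have h5 := hEK2X
    have h6 := hEK2Z
    have h7 := hE2X
    have h8 := hE2Z
    have h9 : 4 * c * (EW P X N (N + N) - EW P X (K * N) (N + N) +
        (EW P Z N (N + N) - EW P Z (K * N) (N + N))) ≤ 4 * c * (DX + DZ) :=
      mul_le_mul_of_nonneg_left (by linarith) (by linarith)
    linarith
  have hA1 := hA (l + 1) (by rcases abs_cases (l + 1) with h | h <;> omega)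
  have hA2 := hA (l + 2) (by rcases abs_cases (l + 2) with h | h <;> omega)
  have f1 : ((l + 1 : ℤ) : ZMod Q) * N + i = (l : ZMod Q) * N + i + N := by push_cast; ring
  have f2 : ((-4 - (l + 1) : ℤ) : ZMod Q) * N + i =
      ((-7 - l : ℤ) : ZMod Q) * N + i + 2 * N := by push_cast; ring
  have f3 : ((l + 2 : ℤ) : ZMod Q) * N + i = (l : ZMod Q) * N + i + 2 * N := by push_cast; ring
  have f4 : ((-4 - (l + 2) : ℤ) : ZMod Q) * N + i =
      ((-7 - l : ℤ) : ZMod Q) * N + i + N := by push_cast; ring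
  rw [f1, f2] at hA1
  rw [f3, f4] at hA2
  have hEE : EE P X Z N - EE P X Z (K * N) = DX + DZ := by
    unfold EE; rw [hDX, hDZ]; ring
  rw [hEE]
  linarith

theorem Vb_double (P : TPot α) (X : ZMod Q → ZMod Q → Matrix β α ℝ)
    (Z : ZMod Q → ZMod Q → Matrix γ α ℝ) {N : ℕ} (hN : 0 < N) :
    (1 / (N : ℝ)) * ∑ i ∈ range N,
      (W P X Z (N + N) (N + N) (((-4 : ℤ) : ZMod Q) * (N : ZMod Q) + (i : ZMod Q)) +
        W P X Z (N + N) (N + N) (((-3 : ℤ) : ZMod Q) * (N : ZMod Q) + (i : ZMod Q))) =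
      2 * Vb P X Z (N + N) := by
  have hN' : (N : ℝ) ≠ 0 := by positivity
  unfold Vb bl
  rw [Finset.sum_range_add, Finset.sum_add_distrib]
  have h1 : ∀ i ∈ range N,
      W P X Z (N + N) (N + N) (((-2 : ℤ) : ZMod Q) * ((N + N : ℕ) : ZMod Q) + (i : ZMod Q)) =
      W P X Z (N + N) (N + N) (((-4 : ℤ) : ZMod Q) * (N : ZMod Q) + (i : ZMod Q)) := by
    intro i _
    congr 1
    push_cast; ring
  have h2 : ∀ i ∈ range N,
      W P X Z (N + N) (N + N) (((-2 : ℤ) : ZMod Q) * ((N + N : ℕ) : ZMod Q) +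
        ((N + i : ℕ) : ZMod Q)) =
      W P X Z (N + N) (N + N) (((-3 : ℤ) : ZMod Q) * (N : ZMod Q) + (i : ZMod Q)) := by
    intro i _
    congr 1
    push_cast; ring
  rw [Finset.sum_congr rfl h1, Finset.sum_congr rfl h2]
  have h3 : (1 / ((N + N : ℕ) : ℝ)) = (1 / 2) * (1 / (N : ℝ)) := by
    push_cast
    field_simp
    norm_num
  rw [h3]
  ring

/-- (PL1), constant 16 -/
theorem gap_pot {P : TPot α} {c : ℝ} (h : Good P c) (X : ZMod Q → ZMod Q → Matrix β α ℝ)
    (Z : ZMod Q → ZMod Q → Matrix γ α ℝ) (m κ : ℕ)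
    (l : ℤ) (hκ : 2 * |l| + 20 ≤ 2 ^ κ) :
    bl (GW P X Z (2 ^ m)) (2 ^ m) l ≤
      4 * (Vb P X Z (2 ^ m) - Vb P X Z (2 ^ (m + 1))) +
        16 * c * (EE P X Z (2 ^ m) - EE P X Z (2 ^ (m + κ))) := by
  have hN : 0 < 2 ^ m := by positivity
  have hN' : ((2 ^ m : ℕ) : ℝ) ≠ 0 := by positivity
  have hV := Vb_double P X Z hN
  have e2 : (2 : ℕ) ^ m + 2 ^ m = 2 ^ (m + 1) := by ring
  rw [e2] at hV
  set D := EE P X Z (2 ^ m) - EE P X Z (2 ^ (m + κ)) with hD
  have h1 : bl (GW P X Z (2 ^ m)) (2 ^ m) l ≤ (1 / ((2 ^ m : ℕ) : ℝ)) *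
      ∑ i ∈ range (2 ^ m), (4 * W P X Z (2 ^ m) (2 ^ m)
          (((-2 : ℤ) : ZMod Q) * ((2 ^ m : ℕ) : ZMod Q) + (i : ZMod Q)) -
        2 * (W P X Z (2 ^ (m + 1)) (2 ^ (m + 1))
            (((-4 : ℤ) : ZMod Q) * ((2 ^ m : ℕ) : ZMod Q) + (i : ZMod Q)) +
          W P X Z (2 ^ (m + 1)) (2 ^ (m + 1))
            (((-3 : ℤ) : ZMod Q) * ((2 ^ m : ℕ) : ZMod Q) + (i : ZMod Q))) +
        16 * c * D) := by
    unfold bl
    refine mul_le_mul_of_nonneg_left (Finset.sum_le_sum fun i _ => ?_) (by positivity)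
    exact gap_pot_pt h X Z m κ l hκ (i : ZMod Q)
  refine h1.trans (le_of_eq ?_)
  rw [Finset.sum_add_distrib, Finset.sum_sub_distrib, ← Finset.mul_sum, ← Finset.mul_sum,
    Finset.sum_const, Finset.card_range, nsmul_eq_mul, mul_add, mul_sub]
  have h2 : (1 / ((2 ^ m : ℕ) : ℝ)) * (2 * ∑ i ∈ range (2 ^ m),
      (W P X Z (2 ^ (m + 1)) (2 ^ (m + 1))
            (((-4 : ℤ) : ZMod Q) * ((2 ^ m : ℕ) : ZMod Q) + (i : ZMod Q)) +
          W P X Z (2 ^ (m + 1)) (2 ^ (m + 1))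
            (((-3 : ℤ) : ZMod Q) * ((2 ^ m : ℕ) : ZMod Q) + (i : ZMod Q)))) =
      2 * (2 * Vb P X Z (2 ^ (m + 1))) := by
    rw [← hV]; ring
  have h3 : (1 / ((2 ^ m : ℕ) : ℝ)) * (((2 ^ m : ℕ) : ℝ) * (16 * c * D)) = 16 * c * D := by
    field_simp
  have h4 : (1 / ((2 ^ m : ℕ) : ℝ)) * (4 * ∑ i ∈ range (2 ^ m), W P X Z (2 ^ m) (2 ^ m)
          (((-2 : ℤ) : ZMod Q) * ((2 ^ m : ℕ) : ZMod Q) + (i : ZMod Q))) =
      4 * Vb P X Z (2 ^ m) := by
    unfold Vb bl; ring
  rw [h2, h3, h4]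
  ring


end Crest.Agent.R079.PotL
end

-- ▼ part R079/PLMask_931
section

/-! R079, LABELLED lattice potentials, (PL2): summation over the scales, functions with LABELS (functions with values in `Matrix β α ℝ`).  Label version of
helper491's `PotMask_491` (proofs copied).  helper931. -/

set_option autoImplicit false
set_option linter.unusedVariables false
set_option linter.unusedSectionVars false

namespace Crest.Agent.R079.PotL

open Matrix Finset Crest.Agent.R072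
open Crest.Agent.R072.Lattice (sum_sub_left' sum_add_right' sum_shift sum_range_mul_aux)
open scoped MatrixOrder

variable {Q : ℕ} [NeZero Q] {α β γ : Type*} [Fintype α] [DecidableEq α] [Fintype β] [Fintype γ]

/-- telescoping along the diagonal -/
theorem tele_diag (v : ℕ → ℕ → ℝ) (M : ℕ) :
    ∑ m ∈ range M, (v (m + 1) m - v (m + 1) (m + 1)) =
      ∑ m ∈ range M, (v (m + 1) m - v m m) + v 0 0 - v M M := by
  induction M with
  | zero => simp
  | succ M ih =>
    rw [Finset.sum_range_succ, ih, Finset.sum_range_succ]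
    ring

theorem tele_diag_kappa (e : ℕ → ℕ → ℝ) (κ M : ℕ) :
    ∑ m ∈ range M, (e (m + 1) m - e (m + 1) (m + κ)) =
      ∑ j ∈ range κ, (∑ m ∈ range M, (e (m + 1) (m + j) - e m (m + j)) + e 0 j - e M (M + j)) := by
  have h1 : ∀ m : ℕ, e (m + 1) m - e (m + 1) (m + κ) =
      ∑ j ∈ range κ, (e (m + 1) (m + j) - e (m + 1) (m + (j + 1))) := by
    intro m
    rw [Finset.sum_range_sub' (fun j => e (m + 1) (m + j)) κ, add_zero]
  simp only [h1]
  rw [Finset.sum_comm]
  refine Finset.sum_congr rfl fun j _ => ?_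
  have h2 := tele_diag (fun a b => e a (b + j)) M
  simp only [zero_add] at h2
  rw [← h2]
  refine Finset.sum_congr rfl fun m _ => ?_
  have e1 : m + (j + 1) = m + 1 + j := by ring
  rw [e1]

theorem EE_pow_le {P : TPot α} (hE : GoodPot P.E) (X : ZMod Q → ZMod Q → Matrix β α ℝ)
    (Z : ZMod Q → ZMod Q → Matrix γ α ℝ) (j : ℕ) :
    EE P X Z (2 ^ j) ≤ EE P X Z 1 := by
  have h1 := EW_pow hE X (N := 1) one_pos j
  have h2 := EW_pow hE Z (N := 1) one_pos j
  rw [mul_one] at h1 h2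
  unfold EE
  linarith

/-- (PL2), constant 16 -/
theorem mask_sum {P : TPot α} {c : ℝ} (h : Good P c) (X : ℕ → ZMod Q → ZMod Q → Matrix β α ℝ)
    (Z : ℕ → ZMod Q → ZMod Q → Matrix γ α ℝ) (κ M : ℕ)
    (l : ℤ) (hκ : 2 * |l| + 20 ≤ 2 ^ κ) :
    ∑ m ∈ range M, bl (GW P (X (m + 1)) (Z (m + 1)) (2 ^ m)) (2 ^ m) l ≤
      4 * ∑ m ∈ range M, (Vb P (X (m + 1)) (Z (m + 1)) (2 ^ m) - Vb P (X m) (Z m) (2 ^ m)) +
      16 * c * ∑ j ∈ range κ, ∑ m ∈ range M,
        (EE P (X (m + 1)) (Z (m + 1)) (2 ^ (m + j)) - EE P (X m) (Z m) (2 ^ (m + j))) +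
      4 * Vb P (X 0) (Z 0) 1 + 16 * c * κ * EE P (X 0) (Z 0) 1 := by
  have hc := h.c0
  have h1 := Finset.sum_le_sum fun m (_ : m ∈ range M) =>
    gap_pot h (X (m + 1)) (Z (m + 1)) m κ l hκ
  refine h1.trans ?_
  rw [Finset.sum_add_distrib, ← Finset.mul_sum, ← Finset.mul_sum]
  have hv := tele_diag (fun a b => Vb P (X a) (Z a) (2 ^ b)) M
  have he := tele_diag_kappa (fun a b => EE P (X a) (Z a) (2 ^ b)) κ M
  rw [Finset.sum_sub_distrib (s := range κ), Finset.sum_add_distrib (s := range κ)] at he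
  rw [hv, he]
  have hV0 := Vb_nonneg h.F (X M) (Z M) (2 ^ M)
  have hE0 : 0 ≤ ∑ j ∈ range κ, EE P (X M) (Z M) (2 ^ (M + j)) :=
    Finset.sum_nonneg fun j _ => EE_nonneg h.E _ _ _
  have hE1 : ∑ j ∈ range κ, EE P (X 0) (Z 0) (2 ^ j) ≤ κ * EE P (X 0) (Z 0) 1 := by
    refine (Finset.sum_le_sum fun j _ => EE_pow_le h.E (X 0) (Z 0) j).trans (le_of_eq ?_)
    rw [Finset.sum_const, Finset.card_range, nsmul_eq_mul]
  have h2 : 16 * c * (∑ j ∈ range κ, EE P (X 0) (Z 0) (2 ^ j)) ≤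
      16 * c * (κ * EE P (X 0) (Z 0) 1) := mul_le_mul_of_nonneg_left hE1 (by linarith)
  have h3 : 0 ≤ 16 * c * ∑ j ∈ range κ, EE P (X M) (Z M) (2 ^ (M + j)) :=
    mul_nonneg (by linarith) hE0
  rw [pow_zero]
  have h4 : 16 * c * (∑ j ∈ range κ, ∑ m ∈ range M,
        (EE P (X (m + 1)) (Z (m + 1)) (2 ^ (m + j)) - EE P (X m) (Z m) (2 ^ (m + j))) +
      ∑ j ∈ range κ, EE P (X 0) (Z 0) (2 ^ j) -
        ∑ j ∈ range κ, EE P (X M) (Z M) (2 ^ (M + j))) =
      16 * c * (∑ j ∈ range κ, ∑ m ∈ range M,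
        (EE P (X (m + 1)) (Z (m + 1)) (2 ^ (m + j)) - EE P (X m) (Z m) (2 ^ (m + j)))) +
      16 * c * (∑ j ∈ range κ, EE P (X 0) (Z 0) (2 ^ j)) -
        16 * c * ∑ j ∈ range κ, EE P (X M) (Z M) (2 ^ (M + j)) := by ring
  rw [h4]
  have h5 : 16 * c * κ * EE P (X 0) (Z 0) 1 = 16 * c * (κ * EE P (X 0) (Z 0) 1) := by ring
  rw [h5]
  linarith


end Crest.Agent.R079.PotL
end

-- ▼ part R079/PLPhi_931

/-! R079, LABELLED line potentials: the instance `phi M = tr M^{3/2}` and the node inequality for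
boxes with labels.  Letters `F0 x0 x1 : Matrix κ0 κ1`, `F1 x1 x2 : Matrix κ1 κ2`,
`F2 x2 x0 : Matrix κ2 κ0`; constants do not see the label types.  helper931. -/

set_option autoImplicit false
set_option linter.unusedVariables false
set_option linter.unusedSectionVars false

namespace Crest.Agent.R079.PotL

open Matrix Finset Crest.Agent.R072
open scoped MatrixOrder

section inst

variable {α : Type*} [Fintype α] [DecidableEq α]

/-- the potential `tr M^{3/2}`, companion itself -/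
noncomputable def phiP (α : Type*) [Fintype α] [DecidableEq α] : TPot α where
  F := fun _ M => phi M
  E := fun _ M => phi M

/-- half box sign, labels do not matter -/
noncomputable def hsL (r : ℕ) (α : Type*) (j : Fin (r + r) × α) : ℝ := hsgn r j.1

theorem hsL_mul_self (r : ℕ) (j : Fin (r + r) × α) : hsL r α j * hsL r α j = 1 :=
  hsgn_mul_self r j.1

/-- `(Fin r × α) ⊕ (Fin r × α) ≃ Fin (r + r) × α` -/
def eqL (r : ℕ) (α : Type*) : (Fin r × α) ⊕ (Fin r × α) ≃ Fin (r + r) × α :=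
  (Equiv.sumProdDistrib (Fin r) (Fin r) α).symm.trans
    (Equiv.prodCongr finSumFinEquiv (Equiv.refl α))

theorem eqL_inl (r : ℕ) (i : Fin r × α) :
    eqL r α (Sum.inl i) = (Fin.castAdd r i.1, i.2) := by
  rcases i with ⟨i, s⟩
  simp [eqL]

theorem eqL_inr (r : ℕ) (i : Fin r × α) :
    eqL r α (Sum.inr i) = (Fin.natAdd r i.1, i.2) := by
  rcases i with ⟨i, s⟩
  simp [eqL]

/-- splitting of `Gam` for the half-box signs into diagonal blocks, with labels -/
theorem Gam_hsL (r : ℕ) {M : Matrix (Fin (r + r) × α) (Fin (r + r) × α) ℝ}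
    (hM : M.PosSemidef) :
    Gam (hsL r α) M = gam (fun _ M => phi M) r M := by
  have hA : (blkA r M).PosSemidef := (hM.submatrix _).smul (by norm_num)
  have hD : (blkB r M).PosSemidef := (hM.submatrix _).smul (by norm_num)
  have e : (M + diagonal (hsL r α) * M * diagonal (hsL r α)).submatrix (eqL r α) (eqL r α) =
      fromBlocks (blkA r M) 0 0 (blkB r M) := by
    ext i j
    rcases i with ⟨i, s⟩ | ⟨i, s⟩ <;> rcases j with ⟨j, t⟩ | ⟨j, t⟩ <;>
      simp [hsL, hsgn, diagonal_mul, mul_diagonal, two_mul, eqL_inl, eqL_inr, blkA, blkB]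
  have hc := psd_conj hM (diagonal (hsL r α))
  rw [diagonal_transpose] at hc
  have e2 := phi_submatrix_equiv (eqL r α) (hM.add hc)
  rw [Gam, ← e2, e, phi_fromBlocks hA hD]
  rfl

theorem goodPot_phi : GoodPot (α := α) (fun _ M => phi M) where
  nonneg := fun r M hM => phi_nonneg hM
  supp := by
    intro r Z hZ
    refine ⟨(3 / 2 : ℝ) • ((Matrix.traceLinearMap (Fin r × α) ℝ ℝ).comp
      (LinearMap.mulLeft ℝ (CFC.sqrt Z))), fun X hX => ?_⟩
    have h := breg_nonneg hZ hX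
    rw [breg] at h
    simp only [LinearMap.smul_apply, LinearMap.comp_apply, LinearMap.mulLeft_apply,
      Matrix.traceLinearMap_apply, smul_eq_mul]
    linarith
  split := by
    intro r M hM
    rw [← Gam_hsL r hM]
    exact Gam_nonneg hM _ (hsL_mul_self r)

theorem good_phiP : Good (phiP α) 4 where
  c0 := by norm_num
  F := goodPot_phi
  E := goodPot_phi
  mixed := by
    intro r a₁ a₂ b₁ b₂ h1 h2 h3 h4
    exact phi_mixed_abs h1 h2 h3 h4

end inst

section box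

variable {Q : ℕ} [NeZero Q] {κ0 κ1 κ2 : Type*} [Fintype κ0] [DecidableEq κ0]
  [Fintype κ1] [DecidableEq κ1] [Fintype κ2] [DecidableEq κ2]

/-- normalised labelled box matrix -/
noncomputable def bm (F : ZMod Q → ZMod Q → Matrix κ0 κ1 ℝ) (r : ℕ) (p q : ZMod Q) :
    Matrix (Fin r × κ0) (Fin r × κ1) ℝ :=
  fun i j => (1 / (r : ℝ)) * F (p + ((i.1 : ℕ) : ZMod Q)) (q + ((j.1 : ℕ) : ZMod Q)) i.2 j.2

theorem bm_mul_transpose (F : ZMod Q → ZMod Q → Matrix κ0 κ1 ℝ) (r : ℕ) (p q : ZMod Q) :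
    bm F r p q * (bm F r p q)ᵀ = abar (fun x y => (F y x)ᵀ) r r q p := by
  ext i j
  simp only [bm, abar, Matrix.mul_apply, Matrix.transpose_apply]
  rw [Finset.sum_range, Finset.mul_sum, Fintype.sum_prod_type]
  refine Finset.sum_congr rfl fun k _ => ?_
  rw [Finset.mul_sum]
  refine Finset.sum_congr rfl fun l _ => ?_
  ring

theorem transpose_mul_bm (F : ZMod Q → ZMod Q → Matrix κ0 κ1 ℝ) (r : ℕ) (p q : ZMod Q) :
    (bm F r p q)ᵀ * bm F r p q = abar F r r p q := by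
  ext i j
  simp only [bm, abar, Matrix.mul_apply, Matrix.transpose_apply]
  rw [Finset.sum_range, Finset.mul_sum, Fintype.sum_prod_type]
  refine Finset.sum_congr rfl fun k _ => ?_
  rw [Finset.mul_sum]
  refine Finset.sum_congr rfl fun l _ => ?_
  ring

/-- the Haar box form with labels: `(1/(2N))³ Σ sgn sgn sgn tr (F0(x0,x1) F1(x1,x2) F2(x2,x0))`
over the box of side `2N` at `(p0, p1, p2)` -/
noncomputable def LboxL (F0 : ZMod Q → ZMod Q → Matrix κ0 κ1 ℝ)
    (F1 : ZMod Q → ZMod Q → Matrix κ1 κ2 ℝ) (F2 : ZMod Q → ZMod Q → Matrix κ2 κ0 ℝ)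
    (N : ℕ) (p0 p1 p2 : ZMod Q) : ℝ :=
  (1 / (((N + N : ℕ) : ℝ) ^ 3)) * ∑ i0 : Fin (N + N), ∑ i1 : Fin (N + N), ∑ i2 : Fin (N + N),
    hsgn N i0 * hsgn N i1 * hsgn N i2 *
      (F0 (p0 + ((i0 : ℕ) : ZMod Q)) (p1 + ((i1 : ℕ) : ZMod Q)) *
        F1 (p1 + ((i1 : ℕ) : ZMod Q)) (p2 + ((i2 : ℕ) : ZMod Q)) *
        F2 (p2 + ((i2 : ℕ) : ZMod Q)) (p0 + ((i0 : ℕ) : ZMod Q))).trace

theorem LboxL_eq_trace (F0 : ZMod Q → ZMod Q → Matrix κ0 κ1 ℝ)
    (F1 : ZMod Q → ZMod Q → Matrix κ1 κ2 ℝ) (F2 : ZMod Q → ZMod Q → Matrix κ2 κ0 ℝ)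
    (N : ℕ) (p0 p1 p2 : ZMod Q) :
    LboxL F0 F1 F2 N p0 p1 p2 =
      (diagonal (hsL N κ0) * bm F0 (N + N) p0 p1 * diagonal (hsL N κ1) *
        bm F1 (N + N) p1 p2 * diagonal (hsL N κ2) * bm F2 (N + N) p2 p0).trace := by
  have hR : (diagonal (hsL N κ0) * bm F0 (N + N) p0 p1 * diagonal (hsL N κ1) *
        bm F1 (N + N) p1 p2 * diagonal (hsL N κ2) * bm F2 (N + N) p2 p0).trace =
      ∑ i0 : Fin (N + N), ∑ i1 : Fin (N + N), ∑ i2 : Fin (N + N),
        ∑ s0 : κ0, ∑ s1 : κ1, ∑ s2 : κ2,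
          hsgn N i0 * bm F0 (N + N) p0 p1 (i0, s0) (i1, s1) * hsgn N i1 *
            bm F1 (N + N) p1 p2 (i1, s1) (i2, s2) * hsgn N i2 *
            bm F2 (N + N) p2 p0 (i2, s2) (i0, s0) := by
    rw [Matrix.trace, Fintype.sum_prod_type]
    refine Finset.sum_congr rfl fun i0 _ => ?_
    have h1 : ∀ s0 : κ0, (diagonal (hsL N κ0) * bm F0 (N + N) p0 p1 * diagonal (hsL N κ1) *
        bm F1 (N + N) p1 p2 * diagonal (hsL N κ2) * bm F2 (N + N) p2 p0).diag (i0, s0) =
        ∑ i1 : Fin (N + N), ∑ i2 : Fin (N + N), ∑ s1 : κ1, ∑ s2 : κ2,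
          hsgn N i0 * bm F0 (N + N) p0 p1 (i0, s0) (i1, s1) * hsgn N i1 *
            bm F1 (N + N) p1 p2 (i1, s1) (i2, s2) * hsgn N i2 *
            bm F2 (N + N) p2 p0 (i2, s2) (i0, s0) := by
      intro s0
      rw [Matrix.diag_apply, Matrix.mul_apply]
      have h2 : ∀ j2 : Fin (N + N) × κ2, (diagonal (hsL N κ0) * bm F0 (N + N) p0 p1 *
          diagonal (hsL N κ1) * bm F1 (N + N) p1 p2 * diagonal (hsL N κ2)) (i0, s0) j2 =
          ∑ j1 : Fin (N + N) × κ1, hsgn N i0 * bm F0 (N + N) p0 p1 (i0, s0) j1 *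
            hsgn N j1.1 * bm F1 (N + N) p1 p2 j1 j2 * hsgn N j2.1 := by
        intro j2
        rw [Matrix.mul_diagonal, Matrix.mul_apply, Finset.sum_mul]
        refine Finset.sum_congr rfl fun j1 _ => ?_
        rw [Matrix.mul_diagonal, Matrix.diagonal_mul]
        rfl
      simp_rw [h2, Finset.sum_mul]
      rw [Finset.sum_comm]
      simp_rw [Fintype.sum_prod_type]
      refine Finset.sum_congr rfl fun i1 _ => ?_
      rw [Finset.sum_comm]
    rw [Finset.sum_congr rfl fun s0 _ => h1 s0, Finset.sum_comm]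
    refine Finset.sum_congr rfl fun i1 _ => ?_
    rw [Finset.sum_comm]
  rw [hR, LboxL, Finset.mul_sum]
  refine Finset.sum_congr rfl fun i0 _ => ?_
  rw [Finset.mul_sum]
  refine Finset.sum_congr rfl fun i1 _ => ?_
  rw [Finset.mul_sum]
  refine Finset.sum_congr rfl fun i2 _ => ?_
  rw [Matrix.trace, Finset.mul_sum, Finset.mul_sum]
  refine Finset.sum_congr rfl fun s0 _ => ?_
  rw [Matrix.diag_apply, Matrix.mul_apply]
  simp_rw [Matrix.mul_apply, Finset.sum_mul, Finset.mul_sum]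
  rw [Finset.sum_comm]
  refine Finset.sum_congr rfl fun s1 _ => Finset.sum_congr rfl fun s2 _ => ?_
  simp only [bm]
  push_cast
  ring

/-- node inequality for one labelled box -/
theorem LboxL_le_node (F0 : ZMod Q → ZMod Q → Matrix κ0 κ1 ℝ)
    (F1 : ZMod Q → ZMod Q → Matrix κ1 κ2 ℝ) (F2 : ZMod Q → ZMod Q → Matrix κ2 κ0 ℝ)
    (N : ℕ) (p0 p1 p2 : ZMod Q) :
    |LboxL F0 F1 F2 N p0 p1 p2| ≤ (Real.pi / 2) *
      (gam (phiP κ1).F N (abar F0 (N + N) (N + N) p0 p1 +
          abar (fun x y => (F1 y x)ᵀ) (N + N) (N + N) p2 p1) +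
        gam (phiP κ2).F N (abar F1 (N + N) (N + N) p1 p2 +
          abar (fun x y => (F2 y x)ᵀ) (N + N) (N + N) p0 p2) +
        gam (phiP κ0).F N (abar F2 (N + N) (N + N) p2 p0 +
          abar (fun x y => (F0 y x)ᵀ) (N + N) (N + N) p1 p0)) := by
  have h := node_ineq (bm F0 (N + N) p0 p1) (bm F1 (N + N) p1 p2)
    (bm F2 (N + N) p2 p0) (hsL N κ0) (hsL N κ1) (hsL N κ2) (hsL_mul_self N) (hsL_mul_self N)
    (hsL_mul_self N)
  rw [← LboxL_eq_trace, bm_mul_transpose, bm_mul_transpose, bm_mul_transpose,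
    transpose_mul_bm, transpose_mul_bm, transpose_mul_bm] at h
  rw [Gam_hsL N (abar_add_posSemidef _ _ _ _ _ _ _ _),
    Gam_hsL N (abar_add_posSemidef _ _ _ _ _ _ _ _),
    Gam_hsL N (abar_add_posSemidef _ _ _ _ _ _ _ _)] at h
  refine h.trans (le_of_eq ?_)
  rw [add_comm (abar (fun x y => (F0 y x)ᵀ) (N + N) (N + N) p1 p0)]
  simp only [phiP]
  ring

/-- node inequality summed over all labelled boxes with `p0 + p1 + p2 = n` -/
theorem LboxL_le (F0 : ZMod Q → ZMod Q → Matrix κ0 κ1 ℝ)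
    (F1 : ZMod Q → ZMod Q → Matrix κ1 κ2 ℝ) (F2 : ZMod Q → ZMod Q → Matrix κ2 κ0 ℝ)
    (N : ℕ) (n : ZMod Q) :
    ∑ p0 : ZMod Q, ∑ p1 : ZMod Q, |LboxL F0 F1 F2 N p0 p1 (n - p0 - p1)| ≤
      (Real.pi / 2) *
        (GW (phiP κ1) F0 (fun x y => (F1 y x)ᵀ) N n +
          GW (phiP κ2) F1 (fun x y => (F2 y x)ᵀ) N n +
          GW (phiP κ0) F2 (fun x y => (F0 y x)ᵀ) N n) := by
  have h1 : ∑ p0 : ZMod Q, ∑ p1 : ZMod Q, |LboxL F0 F1 F2 N p0 p1 (n - p0 - p1)| ≤
      ∑ p0 : ZMod Q, ∑ p1 : ZMod Q, (Real.pi / 2) *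
      (gam (phiP κ1).F N (abar F0 (N + N) (N + N) p0 p1 +
          abar (fun x y => (F1 y x)ᵀ) (N + N) (N + N) (n - p0 - p1) p1) +
        gam (phiP κ2).F N (abar F1 (N + N) (N + N) p1 (n - p0 - p1) +
          abar (fun x y => (F2 y x)ᵀ) (N + N) (N + N) p0 (n - p0 - p1)) +
        gam (phiP κ0).F N (abar F2 (N + N) (N + N) (n - p0 - p1) p0 +
          abar (fun x y => (F0 y x)ᵀ) (N + N) (N + N) p1 p0)) :=
    Finset.sum_le_sum fun p0 _ => Finset.sum_le_sum fun p1 _ => LboxL_le_node F0 F1 F2 N p0 p1 _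
  refine h1.trans (le_of_eq ?_)
  simp_rw [← Finset.mul_sum, Finset.sum_add_distrib]
  congr 1
  refine congrArg₂ (· + ·) (congrArg₂ (· + ·) ?_ ?_) ?_
  · unfold GW
    rw [Finset.sum_comm]
    refine Finset.sum_congr rfl fun p _ => Finset.sum_congr rfl fun q _ => ?_
    rw [sub_right_comm]
  · unfold GW
    rw [Finset.sum_comm (γ := ZMod Q)]
    conv_rhs => rw [Finset.sum_comm]
    refine Finset.sum_congr rfl fun p1 _ => ?_
    rw [← Equiv.sum_comp (Equiv.subLeft (n - p1))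
      (fun p2 => gam (phiP κ2).F N (abar F1 (N + N) (N + N) p1 p2 +
        abar (fun x y => (F2 y x)ᵀ) (N + N) (N + N) (n - p2 - p1) p2))]
    refine Finset.sum_congr rfl fun p0 _ => ?_
    rw [Equiv.subLeft_apply]
    have e1 : n - p1 - p0 = n - p0 - p1 := sub_right_comm _ _ _
    have e2 : n - (n - p0 - p1) - p1 = p0 := by ring
    rw [e1, e2]
  · unfold GW
    refine Finset.sum_congr rfl fun p0 _ => ?_
    rw [← Equiv.sum_comp (Equiv.subLeft (n - p0))
      (fun p2 => gam (phiP κ0).F N (abar F2 (N + N) (N + N) p2 p0 +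
        abar (fun x y => (F0 y x)ᵀ) (N + N) (N + N) (n - p0 - p2) p0))]
    refine Finset.sum_congr rfl fun p1 _ => ?_
    rw [Equiv.subLeft_apply]
    have e2 : n - p0 - (n - p0 - p1) = p1 := by ring
    rw [e2]

end box

section final

variable {Q : ℕ} [NeZero Q] {α β γ : Type*} [Fintype α] [DecidableEq α] [Fintype β] [Fintype γ]

/-- the right hand side of `mask_sum` for `tr M^{3/2}` : only the changes of the letters are paid -/
noncomputable def MS (X : ℕ → ZMod Q → ZMod Q → Matrix β α ℝ)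
    (Z : ℕ → ZMod Q → ZMod Q → Matrix γ α ℝ) (k M : ℕ) : ℝ :=
  4 * ∑ m ∈ range M, (Vb (phiP α) (X (m + 1)) (Z (m + 1)) (2 ^ m) -
      Vb (phiP α) (X m) (Z m) (2 ^ m)) +
    64 * ∑ j ∈ range k, ∑ m ∈ range M,
      (EE (phiP α) (X (m + 1)) (Z (m + 1)) (2 ^ (m + j)) -
        EE (phiP α) (X m) (Z m) (2 ^ (m + j))) +
    4 * Vb (phiP α) (X 0) (Z 0) 1 + 64 * k * EE (phiP α) (X 0) (Z 0) 1

theorem bl_mono {f g : ZMod Q → ℝ} (h : ∀ n, f n ≤ g n) (N : ℕ) (l : ℤ) :
    bl f N l ≤ bl g N l := by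
  unfold bl
  exact mul_le_mul_of_nonneg_left (Finset.sum_le_sum fun i _ => h _) (by positivity)

theorem bl_add (f g : ZMod Q → ℝ) (N : ℕ) (l : ℤ) :
    bl (fun n => f n + g n) N l = bl f N l + bl g N l := by
  unfold bl
  rw [Finset.sum_add_distrib, mul_add]

theorem bl_const_mul (c : ℝ) (f : ZMod Q → ℝ) (N : ℕ) (l : ℤ) :
    bl (fun n => c * f n) N l = c * bl f N l := by
  unfold bl
  rw [← Finset.mul_sum]
  ring

theorem mask_sum_phi (X : ℕ → ZMod Q → ZMod Q → Matrix β α ℝ)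
    (Z : ℕ → ZMod Q → ZMod Q → Matrix γ α ℝ) (k M : ℕ)
    (l : ℤ) (hk : 2 * |l| + 20 ≤ 2 ^ k) :
    ∑ m ∈ range M, bl (GW (phiP α) (X (m + 1)) (Z (m + 1)) (2 ^ m)) (2 ^ m) l ≤
      MS X Z k M := by
  refine (mask_sum good_phiP X Z k M l hk).trans (le_of_eq ?_)
  unfold MS
  ring

end final

section final2

variable {Q : ℕ} [NeZero Q] {κ0 κ1 κ2 : Type*} [Fintype κ0] [DecidableEq κ0]
  [Fintype κ1] [DecidableEq κ1] [Fintype κ2] [DecidableEq κ2]

/-- **The labelled three-letter line sum.**  Letters with labels which may change at every scale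
(`F (m+1)` is used at scale `2^m`); every position of the boxes, block `l` of offsets.  Total price
`π/2` times the changes of the three vertex potentials. -/
theorem box_sum (F0 : ℕ → ZMod Q → ZMod Q → Matrix κ0 κ1 ℝ)
    (F1 : ℕ → ZMod Q → ZMod Q → Matrix κ1 κ2 ℝ) (F2 : ℕ → ZMod Q → ZMod Q → Matrix κ2 κ0 ℝ)
    (k M : ℕ) (l : ℤ) (hk : 2 * |l| + 20 ≤ 2 ^ k) :
    ∑ m ∈ range M, bl (fun n => ∑ p0 : ZMod Q, ∑ p1 : ZMod Q,
        |LboxL (F0 (m + 1)) (F1 (m + 1)) (F2 (m + 1)) (2 ^ m) p0 p1 (n - p0 - p1)|) (2 ^ m) l ≤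
      (Real.pi / 2) *
        (MS F0 (fun m x y => (F1 m y x)ᵀ) k M + MS F1 (fun m x y => (F2 m y x)ᵀ) k M +
          MS F2 (fun m x y => (F0 m y x)ᵀ) k M) := by
  have h1 := mask_sum_phi F0 (fun m x y => (F1 m y x)ᵀ) k M l hk
  have h2 := mask_sum_phi F1 (fun m x y => (F2 m y x)ᵀ) k M l hk
  have h3 := mask_sum_phi F2 (fun m x y => (F0 m y x)ᵀ) k M l hk
  have h0 : ∀ m ∈ range M, bl (fun n => ∑ p0 : ZMod Q, ∑ p1 : ZMod Q,
        |LboxL (F0 (m + 1)) (F1 (m + 1)) (F2 (m + 1)) (2 ^ m) p0 p1 (n - p0 - p1)|) (2 ^ m) l ≤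
      (Real.pi / 2) *
        (bl (GW (phiP κ1) (F0 (m + 1)) (fun x y => (F1 (m + 1) y x)ᵀ) (2 ^ m)) (2 ^ m) l +
          bl (GW (phiP κ2) (F1 (m + 1)) (fun x y => (F2 (m + 1) y x)ᵀ) (2 ^ m)) (2 ^ m) l +
          bl (GW (phiP κ0) (F2 (m + 1)) (fun x y => (F0 (m + 1) y x)ᵀ) (2 ^ m)) (2 ^ m) l) := by
    intro m _
    rw [← bl_add, ← bl_add, ← bl_const_mul]
    exact bl_mono (fun n => LboxL_le _ _ _ _ n) _ _
  refine (Finset.sum_le_sum h0).trans ?_
  rw [← Finset.mul_sum, Finset.sum_add_distrib, Finset.sum_add_distrib]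
  refine mul_le_mul_of_nonneg_left ?_ (by positivity)
  linarith

end final2

end Crest.Agent.R079.PotL
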