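import Crest.Agent.R079.PLEdef_377

-- ▼ part R079/PLE4_377
section

/-! R079, labelled corner in the LINE model, E4: operator norms of box matrices, price of the
moves in `MSf` from trace prices.  helper377. -/

set_option autoImplicit false
set_option linter.unusedVariables false
set_option linter.unusedSectionVars false

namespace Crest.Agent.R079.PotL

open Matrix Finset Crest.Agent.R072
open scoped MatrixOrder

local notation "rt" => CFC.sqrt

section op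

variable {Q : ℕ} [NeZero Q] {α β γ : Type*} [Fintype α] [DecidableEq α] [Fintype β]
  [DecidableEq β] [Fintype γ] [DecidableEq γ]

/-- column bound ⟹ operator norm of the box -/
theorem bm_op_col (X : ZMod Q → ZMod Q → Matrix β α ℝ) {N : ℕ} (hN : 0 < N) {K : ℝ}
    (h : ∀ q y, ColB X N K q y) (q p : ZMod Q) (v : Fin N × α → ℝ) :
    (bm X N q p *ᵥ v) ⬝ᵥ (bm X N q p *ᵥ v) ≤ K ^ 2 * (v ⬝ᵥ v) := by
  have hN' : (0 : ℝ) < N := by exact_mod_cast hN
  -- pointwise: |Σ_j x_j|² ≤ N Σ_j |x_j|²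
  have h1 : ∀ (i : Fin N) (l : β), (bm X N q p *ᵥ v) (i, l) ^ 2 ≤
      (1 / (N : ℝ)) * ∑ j : Fin N, (∑ s : α, X (q + ((i : ℕ) : ZMod Q))
        (p + ((j : ℕ) : ZMod Q)) l s * v (j, s)) ^ 2 := by
    intro i l
    have e : (bm X N q p *ᵥ v) (i, l) = (1 / (N : ℝ)) * ∑ j : Fin N,
        ∑ s : α, X (q + ((i : ℕ) : ZMod Q)) (p + ((j : ℕ) : ZMod Q)) l s * v (j, s) := by
      simp only [Matrix.mulVec, dotProduct, Fintype.sum_prod_type, bm, Finset.mul_sum]
      refine Finset.sum_congr rfl fun j _ => Finset.sum_congr rfl fun s _ => ?_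
      ring
    rw [e, mul_pow]
    have h2 := Finset.sum_mul_sq_le_sq_mul_sq (Finset.univ : Finset (Fin N)) (fun _ => (1 : ℝ))
      (fun j => ∑ s : α, X (q + ((i : ℕ) : ZMod Q)) (p + ((j : ℕ) : ZMod Q)) l s * v (j, s))
    simp only [one_mul, one_pow, Finset.sum_const, Finset.card_univ, Fintype.card_fin,
      nsmul_eq_mul, mul_one] at h2
    calc (1 / (N : ℝ)) ^ 2 * _ ≤ (1 / (N : ℝ)) ^ 2 * (N * _) :=
          mul_le_mul_of_nonneg_left h2 (by positivity)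
      _ = _ := by field_simp
  have h2 : (bm X N q p *ᵥ v) ⬝ᵥ (bm X N q p *ᵥ v) ≤ ∑ i : Fin N, ∑ l : β,
      (1 / (N : ℝ)) * ∑ j : Fin N, (∑ s : α, X (q + ((i : ℕ) : ZMod Q))
        (p + ((j : ℕ) : ZMod Q)) l s * v (j, s)) ^ 2 := by
    rw [dotProduct, Fintype.sum_prod_type]
    refine Finset.sum_le_sum fun i _ => Finset.sum_le_sum fun l _ => ?_
    rw [← sq]
    exact h1 i l
  refine h2.trans ?_
  have h3 : ∑ i : Fin N, ∑ l : β,
      (1 / (N : ℝ)) * ∑ j : Fin N, (∑ s : α, X (q + ((i : ℕ) : ZMod Q))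
        (p + ((j : ℕ) : ZMod Q)) l s * v (j, s)) ^ 2 =
      ∑ j : Fin N, (1 / (N : ℝ)) * ∑ k ∈ range N, ∑ l : β,
        (∑ s : α, X (q + (k : ZMod Q)) (p + ((j : ℕ) : ZMod Q)) l s * v (j, s)) ^ 2 := by
    simp_rw [← Finset.mul_sum]
    congr 1
    rw [show (∑ i : Fin N, ∑ l : β, ∑ j : Fin N, (∑ s : α, X (q + ((i : ℕ) : ZMod Q))
        (p + ((j : ℕ) : ZMod Q)) l s * v (j, s)) ^ 2) = ∑ i : Fin N, ∑ j : Fin N, ∑ l : β,
        (∑ s : α, X (q + ((i : ℕ) : ZMod Q)) (p + ((j : ℕ) : ZMod Q)) l s * v (j, s)) ^ 2 from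
        Finset.sum_congr rfl fun i _ => Finset.sum_comm, Finset.sum_comm]
    refine Finset.sum_congr rfl fun j _ => ?_
    rw [Finset.sum_range]
  rw [h3, dotProduct, Fintype.sum_prod_type, Finset.mul_sum]
  refine Finset.sum_le_sum fun j _ => ?_
  have h4 := h q (p + ((j : ℕ) : ZMod Q)) (fun s => v (j, s))
  refine h4.trans (le_of_eq ?_)
  simp only [sq]

theorem bm_transpose (X : ZMod Q → ZMod Q → Matrix β α ℝ) (N : ℕ) (q p : ZMod Q) :
    (bm X N q p)ᵀ = bm (fun y x => (X x y)ᵀ) N p q := by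
  ext i j
  rfl

/-- row bound ⟹ operator norm of the box -/
theorem bm_op_row (X : ZMod Q → ZMod Q → Matrix β α ℝ) {N : ℕ} (hN : 0 < N) {K : ℝ}
    (h : ∀ q y, ColB (fun y x => (X x y)ᵀ) N K q y) (q p : ZMod Q) (v : Fin N × α → ℝ) :
    (bm X N q p *ᵥ v) ⬝ᵥ (bm X N q p *ᵥ v) ≤ K ^ 2 * (v ⬝ᵥ v) := by
  have hT := bm_op_col (fun y x => (X x y)ᵀ) hN h p q
  rw [← bm_transpose] at hT
  set A := bm X N q p
  set w := A *ᵥ v with hw
  have h1 := hT w
  -- w·w = v · Aᵀ w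
  have e : w ⬝ᵥ w = v ⬝ᵥ (Aᵀ *ᵥ w) := by
    conv_lhs => lhs; rw [hw]
    rw [Matrix.mulVec_transpose, dotProduct_comm, Matrix.dotProduct_mulVec, dotProduct_comm]
  have h2 := Finset.sum_mul_sq_le_sq_mul_sq (Finset.univ : Finset (Fin N × α)) v (Aᵀ *ᵥ w)
  have hv : 0 ≤ v ⬝ᵥ v := by
    rw [dotProduct]; exact Finset.sum_nonneg fun i _ => mul_self_nonneg _
  have hw0 : 0 ≤ w ⬝ᵥ w := by
    rw [dotProduct]; exact Finset.sum_nonneg fun i _ => mul_self_nonneg _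
  have h3 : (w ⬝ᵥ w) * (w ⬝ᵥ w) ≤ (K ^ 2 * (v ⬝ᵥ v)) * (w ⬝ᵥ w) := by
    calc (w ⬝ᵥ w) * (w ⬝ᵥ w) = (v ⬝ᵥ (Aᵀ *ᵥ w)) ^ 2 := by rw [← e]; ring
      _ ≤ (∑ i, v i ^ 2) * ∑ i, (Aᵀ *ᵥ w) i ^ 2 := h2
      _ = (v ⬝ᵥ v) * ((Aᵀ *ᵥ w) ⬝ᵥ (Aᵀ *ᵥ w)) := by simp only [dotProduct, sq]
      _ ≤ (v ⬝ᵥ v) * (K ^ 2 * (w ⬝ᵥ w)) := mul_le_mul_of_nonneg_left h1 hv
      _ = _ := by ring
  rcases eq_or_lt_of_le hw0 with h0 | h0
  · rw [← h0]; positivity
  · exact le_of_mul_le_mul_right h3 h0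

/-- quadratic form of the Gram matrix -/
theorem abar_op (X : ZMod Q → ZMod Q → Matrix β α ℝ) {N : ℕ} (q p : ZMod Q) {K : ℝ}
    (h : ∀ v, (bm X N q p *ᵥ v) ⬝ᵥ (bm X N q p *ᵥ v) ≤ K ^ 2 * (v ⬝ᵥ v)) (v : Fin N × α → ℝ) :
    v ⬝ᵥ (abar X N N q p *ᵥ v) ≤ K ^ 2 * (v ⬝ᵥ v) := by
  rw [← transpose_mul_bm, ← Matrix.mulVec_mulVec, Matrix.dotProduct_mulVec,
    Matrix.vecMul_transpose]
  exact h v

theorem abar_diag (X : ZMod Q → ZMod Q → Matrix β α ℝ) {N : ℕ} (q p : ZMod Q) {K : ℝ}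
    (h : ∀ q y, ColB X N K q y) (j : Fin N) (v : α → ℝ) :
    ∑ s : α, ∑ t : α, v s * abar X N N q p (j, s) (j, t) * v t ≤ K ^ 2 / N * ∑ s : α, v s ^ 2 := by
  rw [abar_quad]
  have h1 := h q (p + ((j : ℕ) : ZMod Q)) v
  calc (1 / (N : ℝ)) * _ ≤ (1 / (N : ℝ)) * (K ^ 2 * ∑ s : α, v s ^ 2) :=
        mul_le_mul_of_nonneg_left h1 (by positivity)
    _ = _ := by ring

end op

section price

variable {Q : ℕ} [NeZero Q] {α β γ : Type*} [Fintype α] [DecidableEq α] [Fintype β]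
  [DecidableEq β] [Fintype γ] [DecidableEq γ]

/-- trace price of the change `D` of the letter `X` over all boxes of side `N`, for every family of
PSD matrices with operator norm `≤ μ²` (and, if `dg`, diagonal blocks `≤ μ²/N`) -/
def TrP (dg : Prop) (X D : ZMod Q → ZMod Q → Matrix β α ℝ) (N : ℕ) (μ c : ℝ) : Prop :=
  ∀ M : ZMod Q → ZMod Q → Matrix (Fin N × α) (Fin N × α) ℝ, (∀ p q, (M p q).PosSemidef) →
    (∀ p q v, v ⬝ᵥ (M p q *ᵥ v) ≤ μ ^ 2 * (v ⬝ᵥ v)) →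
    (dg → ∀ p q (j : Fin N) (v : α → ℝ), ∑ s : α, ∑ t : α, v s * M p q (j, s) (j, t) * v t ≤
      μ ^ 2 / N * ∑ s : α, v s ^ 2) →
    ∑ p, ∑ q, (rt (M p q) * ((bm X N q p)ᵀ * bm D N q p)).trace ≤ c

theorem TrP.add {dg : Prop} {X D D' : ZMod Q → ZMod Q → Matrix β α ℝ} {N : ℕ} {μ c c' : ℝ}
    (h : TrP dg X D N μ c) (h' : TrP dg X D' N μ c') :
    TrP dg X (fun x y => D x y + D' x y) N μ (c + c') := by
  intro M h1 h2 h3
  refine le_trans (le_of_eq ?_) (add_le_add (h M h1 h2 h3) (h' M h1 h2 h3))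
  rw [← Finset.sum_add_distrib]
  refine Finset.sum_congr rfl fun p _ => ?_
  rw [← Finset.sum_add_distrib]
  refine Finset.sum_congr rfl fun q _ => ?_
  have e : bm (fun x y => D x y + D' x y) N q p = bm D N q p + bm D' N q p := by
    ext i j
    simp only [bm, Matrix.add_apply]
    ring
  rw [e, Matrix.mul_add, Matrix.mul_add, trace_add]

theorem TrP.mono {dg : Prop} {X D : ZMod Q → ZMod Q → Matrix β α ℝ} {N : ℕ} {μ c c' : ℝ}
    (h : TrP dg X D N μ c) (hc : c ≤ c') : TrP dg X D N μ c' :=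
  fun M h1 h2 h3 => (h M h1 h2 h3).trans hc

theorem TrP.zero {dg : Prop} {X D : ZMod Q → ZMod Q → Matrix β α ℝ} {N : ℕ} {μ : ℝ}
    (h : ∀ x y, D x y = 0) : TrP dg X D N μ 0 := by
  intro M h1 h2 h3
  have e : ∀ q p, bm D N q p = 0 := by
    intro q p
    ext i j
    simp [bm, h]
  simp [e]

/-- operator norm bounds of a letter on boxes of side `N` -/
structure OpB (dg : Prop) (X : ZMod Q → ZMod Q → Matrix β α ℝ) (N : ℕ) (K : ℝ) : Prop where
  op : ∀ q p (v : Fin N × α → ℝ), (bm X N q p *ᵥ v) ⬝ᵥ (bm X N q p *ᵥ v) ≤ K ^ 2 * (v ⬝ᵥ v)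
  col : dg → ∀ q y, ColB X N K q y

theorem OpB.of_col {dg : Prop} {X : ZMod Q → ZMod Q → Matrix β α ℝ} {N : ℕ} (hN : 0 < N) {K : ℝ}
    (h : ∀ q y, ColB X N K q y) : OpB dg X N K :=
  ⟨fun q p v => bm_op_col X hN h q p v, fun _ => h⟩

theorem OpB.of_row {X : ZMod Q → ZMod Q → Matrix β α ℝ} {N : ℕ} (hN : 0 < N) {K : ℝ}
    (h : ∀ q y, ColB (fun y x => (X x y)ᵀ) N K q y) : OpB False X N K :=
  ⟨fun q p v => bm_op_row X hN h q p v, fun h => h.elim⟩

theorem dot_self_nonneg {n : Type*} [Fintype n] (v : n → ℝ) : 0 ≤ v ⬝ᵥ v := by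
  rw [dotProduct]; exact Finset.sum_nonneg fun i _ => mul_self_nonneg _

theorem W_price {dg : Prop} (X Y : ZMod Q → ZMod Q → Matrix β α ℝ)
    (Z V : ZMod Q → ZMod Q → Matrix γ α ℝ) {N : ℕ} (n : ZMod Q) {KX KZ μ cX cZ : ℝ}
    (hKK : KX ^ 2 + KZ ^ 2 ≤ μ ^ 2) (hX : OpB dg X N KX) (hZ : OpB dg Z N KZ)
    (pX : TrP dg X (fun x y => X x y - Y x y) N μ cX)
    (pZ : TrP dg Z (fun x y => Z x y - V x y) N μ cZ) :
    W (phiP α) X Z N N n - W (phiP α) Y V N N n ≤ 3 * cX + 3 * cZ := by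
  have hsub : ∀ q p, bm (fun x y => X x y - Y x y) N q p = bm X N q p - bm Y N q p := by
    intro q p
    ext i j
    simp only [bm, Matrix.sub_apply]
    ring
  have hsub' : ∀ q p, bm (fun x y => Z x y - V x y) N q p = bm Z N q p - bm V N q p := by
    intro q p
    ext i j
    simp only [bm, Matrix.sub_apply]
    ring
  have hb : ∀ p q : ZMod Q, (phiP α).F N (abar X N N q p + abar Z N N (n - p - q) p) -
      (phiP α).F N (abar Y N N q p + abar V N N (n - p - q) p) ≤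
      3 * (rt (abar X N N q p + abar Z N N (n - p - q) p) *
        ((bm X N q p)ᵀ * (bm X N q p - bm Y N q p))).trace +
      3 * (rt (abar X N N q p + abar Z N N (n - p - q) p) *
        ((bm Z N (n - p - q) p)ᵀ * (bm Z N (n - p - q) p - bm V N (n - p - q) p))).trace := by
    intro p q
    have key := phi_cost2 (bm X N q p) (bm Y N q p) (bm Z N (n - p - q) p) (bm V N (n - p - q) p)
    rw [transpose_mul_bm, transpose_mul_bm, transpose_mul_bm, transpose_mul_bm] at key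
    exact key
  -- bounds of the joint Gram matrix
  have hop : ∀ q p q' (v : Fin N × α → ℝ),
      v ⬝ᵥ ((abar X N N q p + abar Z N N q' p) *ᵥ v) ≤ μ ^ 2 * (v ⬝ᵥ v) := by
    intro q p q' v
    rw [Matrix.add_mulVec, dotProduct_add]
    have h1 := abar_op X q p (hX.op q p) v
    have h2 := abar_op Z q' p (hZ.op q' p) v
    have h3 := mul_le_mul_of_nonneg_right hKK (dot_self_nonneg v)
    linarith
  have hdg : dg → ∀ q p q' (j : Fin N) (v : α → ℝ), ∑ s : α, ∑ t : α,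
      v s * (abar X N N q p + abar Z N N q' p) (j, s) (j, t) * v t ≤
      μ ^ 2 / N * ∑ s : α, v s ^ 2 := by
    intro hd q p q' j v
    have h1 := abar_diag X q p (hX.col hd) j v
    have h2 := abar_diag Z q' p (hZ.col hd) j v
    have e : ∑ s : α, ∑ t : α, v s * (abar X N N q p + abar Z N N q' p) (j, s) (j, t) * v t =
        ∑ s : α, ∑ t : α, v s * abar X N N q p (j, s) (j, t) * v t +
        ∑ s : α, ∑ t : α, v s * abar Z N N q' p (j, s) (j, t) * v t := by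
      rw [← Finset.sum_add_distrib]
      refine Finset.sum_congr rfl fun s _ => ?_
      rw [← Finset.sum_add_distrib]
      refine Finset.sum_congr rfl fun t _ => ?_
      rw [Matrix.add_apply]
      ring
    have h3 : 0 ≤ ∑ s : α, v s ^ 2 := Finset.sum_nonneg fun _ _ => sq_nonneg _
    have h4 : KX ^ 2 / (N : ℝ) + KZ ^ 2 / N ≤ μ ^ 2 / N := by
      rw [← add_div]
      exact div_le_div_of_nonneg_right hKK (Nat.cast_nonneg N)
    have h5 := mul_le_mul_of_nonneg_right h4 h3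
    rw [e]
    linarith
  unfold W
  rw [← Finset.sum_sub_distrib]
  simp only [← Finset.sum_sub_distrib]
  refine (Finset.sum_le_sum fun p _ => Finset.sum_le_sum fun q _ => hb p q).trans ?_
  simp_rw [Finset.sum_add_distrib, ← Finset.mul_sum]
  have k1 := pX (fun p q => abar X N N q p + abar Z N N (n - p - q) p)
    (fun p q => abar_add_posSemidef _ _ _ _ _ _ _ _) (fun p q v => hop q p _ v)
    (fun hd p q j v => hdg hd q p _ j v)
  have k2 := pZ (fun p q => abar X N N (n - p - q) p + abar Z N N q p)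
    (fun p q => abar_add_posSemidef _ _ _ _ _ _ _ _) (fun p q v => hop _ p q v)
    (fun hd p q j v => hdg hd _ p q j v)
  simp only [hsub] at k1
  simp only [hsub'] at k2
  have e3 : ∑ p : ZMod Q, ∑ q : ZMod Q,
      (rt (abar X N N q p + abar Z N N (n - p - q) p) *
        ((bm Z N (n - p - q) p)ᵀ * (bm Z N (n - p - q) p - bm V N (n - p - q) p))).trace =
      ∑ p : ZMod Q, ∑ q : ZMod Q, (rt (abar X N N (n - p - q) p + abar Z N N q p) *
        ((bm Z N q p)ᵀ * (bm Z N q p - bm V N q p))).trace := by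
    refine Finset.sum_congr rfl fun p _ => ?_
    rw [← Equiv.sum_comp (Equiv.subLeft (n - p)) (fun q =>
      (rt (abar X N N (n - p - q) p + abar Z N N q p) *
        ((bm Z N q p)ᵀ * (bm Z N q p - bm V N q p))).trace)]
    refine Finset.sum_congr rfl fun q _ => ?_
    rw [Equiv.subLeft_apply, sub_sub_cancel]
  rw [e3]
  linarith

theorem EW_price {dg : Prop} (X Y : ZMod Q → ZMod Q → Matrix β α ℝ) {N : ℕ} {K μ c : ℝ}
    (hKK : K ^ 2 ≤ μ ^ 2) (hX : OpB dg X N K)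
    (pX : TrP dg X (fun x y => X x y - Y x y) N μ c) :
    EW (phiP α) X N N - EW (phiP α) Y N N ≤ 3 * c := by
  have h0 : ∀ q p, abar (fun _ _ => (0 : Matrix β α ℝ) : ZMod Q → ZMod Q → Matrix β α ℝ)
      N N q p = 0 := by
    intro q p
    ext a b
    simp [abar]
  have hz : OpB dg (fun _ _ => (0 : Matrix β α ℝ) : ZMod Q → ZMod Q → Matrix β α ℝ) N 0 := by
    refine ⟨fun q p v => ?_, fun _ q y v => by simp⟩
    have : bm (fun _ _ => (0 : Matrix β α ℝ) : ZMod Q → ZMod Q → Matrix β α ℝ) N q p = 0 := by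
      ext i j
      simp [bm]
    rw [this]
    simp
  have hw := W_price X Y (fun _ _ => (0 : Matrix β α ℝ) : ZMod Q → ZMod Q → Matrix β α ℝ)
    (fun _ _ => (0 : Matrix β α ℝ)) (0 : ZMod Q) (KX := K) (KZ := 0) (μ := μ) (cX := c) (cZ := 0)
    (by linarith [hKK, show (0 : ℝ) ^ 2 = 0 by norm_num]) hX hz pX
    (TrP.zero (fun x y => by simp))
  unfold W at hw
  simp only [h0, add_zero] at hw
  have : EW (phiP α) X N N - EW (phiP α) Y N N ≤ 3 * c + 3 * 0 := hw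
  linarith

end price

section msf

variable {Q : ℕ} [NeZero Q] {α β γ : Type*} [Fintype α] [DecidableEq α] [Fintype β]
  [DecidableEq β] [Fintype γ] [DecidableEq γ]

/-- **price of moving letters from trace prices** -/
theorem MSf_price {dg : Prop} (X : ℕ → ZMod Q → ZMod Q → Matrix β α ℝ)
    (Z : ℕ → ZMod Q → ZMod Q → Matrix γ α ℝ) (k M : ℕ) {KX KZ μ : ℝ} (cX cZ : ℕ → ℝ)
    (hKK : KX ^ 2 + KZ ^ 2 ≤ μ ^ 2)
    (hX : ∀ m ∈ range M, ∀ j ≤ k, OpB dg (X (m + 1)) (2 ^ (m + j)) KX)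
    (hZ : ∀ m ∈ range M, ∀ j ≤ k, OpB dg (Z (m + 1)) (2 ^ (m + j)) KZ)
    (pX : ∀ m ∈ range M, ∀ j ≤ k,
      TrP dg (X (m + 1)) (fun x y => X (m + 1) x y - X m x y) (2 ^ (m + j)) μ (cX m))
    (pZ : ∀ m ∈ range M, ∀ j ≤ k,
      TrP dg (Z (m + 1)) (fun x y => Z (m + 1) x y - Z m x y) (2 ^ (m + j)) μ (cZ m)) :
    MSf X Z k 0 M ≤ (8 + 64 * k) * EE (phiP α) (X 0) (Z 0) 1 +
      (12 + 192 * k) * ∑ m ∈ range M, (cX m + cZ m) := by
  have h0 := Vb_le_EE (X 0) (Z 0) (N := 1) (by norm_num)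
  have h1 : ∑ m ∈ range M, (Vb (phiP α) (X (m + 1)) (Z (m + 1)) (2 ^ (0 + m)) -
      Vb (phiP α) (X m) (Z m) (2 ^ (0 + m))) ≤ ∑ m ∈ range M, 3 * (cX m + cZ m) := by
    refine Finset.sum_le_sum fun m hm => ?_
    unfold Vb
    have hx := hX m hm 0 (Nat.zero_le _)
    have hz := hZ m hm 0 (Nat.zero_le _)
    have px := pX m hm 0 (Nat.zero_le _)
    have pz := pZ m hm 0 (Nat.zero_le _)
    simp only [add_zero] at hx hz px pz
    simp only [zero_add]
    have h2 : bl (W (phiP α) (X (m + 1)) (Z (m + 1)) (2 ^ m) (2 ^ m)) (2 ^ m) (-2) ≤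
        bl (fun n => W (phiP α) (X m) (Z m) (2 ^ m) (2 ^ m) n + 3 * (cX m + cZ m)) (2 ^ m)
          (-2) :=
      bl_mono (fun n => by
        have := W_price (X (m + 1)) (X m) (Z (m + 1)) (Z m) n hKK hx hz px pz
        linarith) _ _
    rw [bl_add, bl_const _ (by positivity)] at h2
    linarith
  have h2 : ∑ j ∈ range k, ∑ m ∈ range M,
      (EE (phiP α) (X (m + 1)) (Z (m + 1)) (2 ^ (0 + m + j)) -
        EE (phiP α) (X m) (Z m) (2 ^ (0 + m + j))) ≤
      ∑ j ∈ range k, ∑ m ∈ range M, 3 * (cX m + cZ m) := by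
    refine Finset.sum_le_sum fun j hj => Finset.sum_le_sum fun m hm => ?_
    have hj' : j ≤ k := (Finset.mem_range.1 hj).le
    simp only [zero_add]
    have hk1 : KX ^ 2 ≤ μ ^ 2 := by nlinarith [sq_nonneg KZ]
    have hk2 : KZ ^ 2 ≤ μ ^ 2 := by nlinarith [sq_nonneg KX]
    have e1 := EW_price (X (m + 1)) (X m) hk1 (hX m hm j hj') (pX m hm j hj')
    have e2 := EW_price (Z (m + 1)) (Z m) hk2 (hZ m hm j hj') (pZ m hm j hj')
    unfold EE
    linarith
  rw [Finset.sum_const, Finset.card_range, nsmul_eq_mul] at h2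
  rw [← Finset.mul_sum] at h1 h2
  unfold MSf
  simp only [pow_zero] at *
  have hk : (0 : ℝ) ≤ k := Nat.cast_nonneg k
  nlinarith

end msf

end Crest.Agent.R079.PotL
end

-- ▼ part R079/PLE5_377

/-! R079, labelled corner in the LINE model, E5: dyadic cells on `ZMod Q`, extraction records and
their bounds.  helper377. -/

set_option autoImplicit false
set_option linter.unusedVariables false
set_option linter.unusedSectionVars false

namespace Crest.Agent.R079.PotL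

open Matrix Finset Crest.Agent.R072
open scoped MatrixOrder

section cells

variable {Q : ℕ} [NeZero Q]

theorem cel_add {m : ℕ} (h : 2 ^ m ∣ Q) (p : ZMod Q) (k : ℕ) :
    cel m (p + (k : ZMod Q)) = ((p.val + k) / 2 ^ m) % (Q / 2 ^ m) := by
  obtain ⟨c, hc⟩ := h
  have hp : 0 < 2 ^ m := by positivity
  have e : (p + (k : ZMod Q)).val = (p.val + k) % Q := by
    have h1 : p + (k : ZMod Q) = ((p.val + k : ℕ) : ZMod Q) := by
      push_cast
      rw [ZMod.natCast_zmod_val]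
    rw [h1, ZMod.val_natCast]
  unfold cel
  rw [e]
  have h2 : Q / 2 ^ m = c := by
    rw [hc]
    exact Nat.mul_div_cancel_left c hp
  rw [h2]
  have h3 : ∀ a : ℕ, a % Q / 2 ^ m = a / 2 ^ m % c := by
    intro a
    have h4 : a % Q = a % (2 ^ m * c) := congrArg (fun t => a % t) hc
    rw [h4]
    exact Nat.mod_mul_right_div_self _ _ _
  exact h3 _

theorem cel_lt {m : ℕ} (h : 2 ^ m ∣ Q) (p : ZMod Q) : cel m p < Q / 2 ^ m := by
  unfold cel
  exact Nat.div_lt_div_of_lt_of_dvd h (ZMod.val_lt p)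

theorem cel_succ {m : ℕ} {x y : ZMod Q} (h : cel m x = cel m y) : cel (m + 1) x = cel (m + 1) y := by
  unfold cel at *
  rw [pow_succ, ← Nat.div_div_eq_div_mul, ← Nat.div_div_eq_div_mul, h]

/-- window of length `2^m` at `p` meets at most two cells of length `2^(m+1)` -/
theorem cel_window {m : ℕ} (h : 2 ^ (m + 1) ∣ Q) (p : ZMod Q) {k : ℕ} (hk : k < 2 ^ m) :
    cel (m + 1) (p + (k : ZMod Q)) = cel (m + 1) p ∨
      cel (m + 1) (p + (k : ZMod Q)) = cel (m + 1) (p + ((2 ^ m : ℕ) : ZMod Q)) := by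
  have h0 : cel (m + 1) p = (p.val / 2 ^ (m + 1)) % (Q / 2 ^ (m + 1)) := by
    have := cel_add h p 0
    simpa using this
  rw [cel_add h, cel_add h, h0]
  have hp : 0 < 2 ^ (m + 1) := by positivity
  obtain ⟨t, r, hr, ht⟩ : ∃ t r : ℕ, r < 2 ^ (m + 1) ∧ p.val = 2 ^ (m + 1) * t + r :=
    ⟨p.val / 2 ^ (m + 1), p.val % 2 ^ (m + 1), Nat.mod_lt _ hp, (Nat.div_add_mod _ _).symm⟩
  have e2 : 2 ^ (m + 1) = 2 ^ m + 2 ^ m := by ring
  have d0 : (2 ^ (m + 1) * t + r) / 2 ^ (m + 1) = t := by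
    rw [Nat.mul_add_div hp, Nat.div_eq_of_lt hr, add_zero]
  rcases lt_or_ge (r + k) (2 ^ (m + 1)) with hlt | hge
  · left
    rw [ht, add_assoc, Nat.mul_add_div hp, Nat.div_eq_of_lt hlt, add_zero, d0]
  · right
    have g1 : (r + k) / 2 ^ (m + 1) = 1 := by
      rw [Nat.div_eq_iff hp]
      constructor <;> omega
    have g2 : (r + 2 ^ m) / 2 ^ (m + 1) = 1 := by
      rw [Nat.div_eq_iff hp]
      constructor <;> omega
    rw [ht, add_assoc, add_assoc, Nat.mul_add_div hp, Nat.mul_add_div hp, g1, g2]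

theorem natCast_inj_of_lt {a b : ℕ} (ha : a < Q) (hb : b < Q) (h : (a : ZMod Q) = (b : ZMod Q)) :
    a = b := by
  have := congrArg ZMod.val h
  rwa [ZMod.val_natCast, ZMod.val_natCast, Nat.mod_eq_of_lt ha, Nat.mod_eq_of_lt hb] at this

/-- sum over a window `≤` sums over two cells -/
theorem sum_window_le {m : ℕ} (h : 2 ^ (m + 1) ∣ Q) (f : ZMod Q → ℝ) (hf : ∀ y, 0 ≤ f y)
    (p : ZMod Q) :
    ∑ k ∈ range (2 ^ m), f (p + (k : ZMod Q)) ≤
      ∑ y with cel (m + 1) y = cel (m + 1) p, f y +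
        ∑ y with cel (m + 1) y = cel (m + 1) (p + ((2 ^ m : ℕ) : ZMod Q)), f y := by
  classical
  have hQ : 2 ^ m < Q := by
    have h1 := Nat.le_of_dvd (NeZero.pos Q) h
    have h2 : 2 ^ m < 2 ^ (m + 1) := Nat.pow_lt_pow_right (by norm_num) (by omega)
    omega
  have hinj : Set.InjOn (fun k : ℕ => p + (k : ZMod Q)) (range (2 ^ m) : Finset ℕ) := by
    intro a ha b hb hab
    have ha' := Finset.mem_range.1 (Finset.mem_coe.1 ha)
    have hb' := Finset.mem_range.1 (Finset.mem_coe.1 hb)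
    have : (a : ZMod Q) = (b : ZMod Q) := add_left_cancel hab
    exact natCast_inj_of_lt (ha'.trans hQ) (hb'.trans hQ) this
  have e : ∑ k ∈ range (2 ^ m), f (p + (k : ZMod Q)) =
      ∑ y ∈ (range (2 ^ m)).image (fun k : ℕ => p + (k : ZMod Q)), f y :=
    (Finset.sum_image hinj).symm
  rw [e]
  have hsub : (range (2 ^ m)).image (fun k : ℕ => p + (k : ZMod Q)) ⊆
      (univ.filter fun y => cel (m + 1) y = cel (m + 1) p) ∪
      (univ.filter fun y => cel (m + 1) y = cel (m + 1) (p + ((2 ^ m : ℕ) : ZMod Q))) := by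
    intro y hy
    obtain ⟨k, hk, rfl⟩ := Finset.mem_image.1 hy
    rw [Finset.mem_union, Finset.mem_filter, Finset.mem_filter]
    rcases cel_window h p (Finset.mem_range.1 hk) with h1 | h1
    · exact Or.inl ⟨Finset.mem_univ _, h1⟩
    · exact Or.inr ⟨Finset.mem_univ _, h1⟩
  refine (Finset.sum_le_sum_of_subset_of_nonneg hsub fun y _ _ => hf y).trans ?_
  have hu := Finset.sum_union_inter (s₁ := univ.filter fun y => cel (m + 1) y = cel (m + 1) p)
    (s₂ := univ.filter fun y => cel (m + 1) y = cel (m + 1) (p + ((2 ^ m : ℕ) : ZMod Q)))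
    (f := f)
  have hi : 0 ≤ ∑ y ∈ (univ.filter fun y => cel (m + 1) y = cel (m + 1) p) ∩
      (univ.filter fun y => cel (m + 1) y = cel (m + 1) (p + ((2 ^ m : ℕ) : ZMod Q))), f y :=
    Finset.sum_nonneg fun y _ => hf y
  linarith

/-- the points `y - r + t` of the cell of `y` -/
theorem cel_pt {m : ℕ} (h : 2 ^ m ∣ Q) (y : ZMod Q) {t : ℕ} (ht : t < 2 ^ m) :
    cel m (((2 ^ m * (y.val / 2 ^ m) + t : ℕ) : ZMod Q)) = cel m y := by
  have hp : 0 < 2 ^ m := by positivity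
  have h1 := cel_add h (0 : ZMod Q) (2 ^ m * (y.val / 2 ^ m) + t)
  rw [zero_add, ZMod.val_zero, zero_add, Nat.mul_add_div hp, Nat.div_eq_of_lt ht, add_zero] at h1
  rw [h1]
  have h2 := cel_lt h y
  unfold cel at *
  exact Nat.mod_eq_of_lt h2

/-- number of points of a cell -/
theorem card_cel {m : ℕ} (h : 2 ^ m ∣ Q) (y : ZMod Q) :
    (univ.filter fun y' : ZMod Q => cel m y' = cel m y).card = 2 ^ m := by
  classical
  have hp : 0 < 2 ^ m := by positivity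
  have hlt := cel_lt h y
  have hbase : ∀ t < 2 ^ m, 2 ^ m * (y.val / 2 ^ m) + t < Q := by
    intro t ht
    obtain ⟨c, hc⟩ := h
    have h2 : Q / 2 ^ m = c := by
      rw [hc]
      exact Nat.mul_div_cancel_left c hp
    unfold cel at hlt
    rw [h2] at hlt
    calc 2 ^ m * (y.val / 2 ^ m) + t < 2 ^ m * (y.val / 2 ^ m) + 2 ^ m := by omega
      _ = 2 ^ m * (y.val / 2 ^ m + 1) := by ring
      _ ≤ 2 ^ m * c := Nat.mul_le_mul_left _ hlt
      _ = Q := hc.symm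
  have e : (univ.filter fun y' : ZMod Q => cel m y' = cel m y) =
      (range (2 ^ m)).image (fun t : ℕ => ((2 ^ m * (y.val / 2 ^ m) + t : ℕ) : ZMod Q)) := by
    ext z
    rw [Finset.mem_filter, Finset.mem_image]
    constructor
    · rintro ⟨_, hz⟩
      refine ⟨z.val % 2 ^ m, Finset.mem_range.2 (Nat.mod_lt _ hp), ?_⟩
      have : 2 ^ m * (y.val / 2 ^ m) + z.val % 2 ^ m = z.val := by
        unfold cel at hz
        rw [← hz]
        exact Nat.div_add_mod _ _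
      rw [this, ZMod.natCast_zmod_val]
    · rintro ⟨t, ht, rfl⟩
      exact ⟨Finset.mem_univ _, cel_pt h y (Finset.mem_range.1 ht)⟩
  rw [e, Finset.card_image_of_injOn, Finset.card_range]
  intro a ha b hb hab
  have ha' := Finset.mem_range.1 (Finset.mem_coe.1 ha)
  have hb' := Finset.mem_range.1 (Finset.mem_coe.1 hb)
  have := natCast_inj_of_lt (hbase a ha') (hbase b hb') hab
  omega

/-- forward window -/
theorem cel_fwd {m : ℕ} (h : 2 ^ m ∣ Q) (y : ZMod Q) : ∃ s : Finset ℕ, s ⊆ range (2 * 2 ^ m) ∧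
    2 ^ m ≤ s.card ∧ ∀ i ∈ s, cel m (y - ((2 ^ m : ℕ) : ZMod Q) + (i : ZMod Q)) = cel m y := by
  have hp : 0 < 2 ^ m := by positivity
  set r := y.val % 2 ^ m with hr
  have hrlt : r < 2 ^ m := Nat.mod_lt _ hp
  have hy : y.val = 2 ^ m * (y.val / 2 ^ m) + r := (Nat.div_add_mod _ _).symm
  refine ⟨Finset.Ico (2 ^ m - r) (2 * 2 ^ m - r), ?_, ?_, ?_⟩
  · intro i hi
    rw [Finset.mem_Ico] at hi
    rw [Finset.mem_range]
    omega
  · rw [Nat.card_Ico]
    omega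
  · intro i hi
    rw [Finset.mem_Ico] at hi
    have e : y - ((2 ^ m : ℕ) : ZMod Q) + (i : ZMod Q) =
        ((2 ^ m * (y.val / 2 ^ m) + (i - (2 ^ m - r)) : ℕ) : ZMod Q) := by
      have h1 : (y : ZMod Q) = ((2 ^ m * (y.val / 2 ^ m) + r : ℕ) : ZMod Q) := by
        rw [← hy, ZMod.natCast_zmod_val]
      have h2 : 2 ^ m * (y.val / 2 ^ m) + r + i =
          2 ^ m * (y.val / 2 ^ m) + (i - (2 ^ m - r)) + 2 ^ m := by omega
      have h3 : ((2 ^ m * (y.val / 2 ^ m) + r + i : ℕ) : ZMod Q) =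
          ((2 ^ m * (y.val / 2 ^ m) + (i - (2 ^ m - r)) + 2 ^ m : ℕ) : ZMod Q) := by rw [h2]
      rw [Nat.cast_add _ i, Nat.cast_add _ (2 ^ m)] at h3
      rw [← h1] at h3
      rw [sub_add_eq_add_sub, h3, add_sub_cancel_right]
    rw [e]
    exact cel_pt h y (by omega)

/-- backward window -/
theorem cel_bwd {m : ℕ} (h : 2 ^ m ∣ Q) (y : ZMod Q) : ∃ s : Finset ℕ, s ⊆ range (2 * 2 ^ m) ∧
    2 ^ m ≤ s.card ∧ ∀ i ∈ s, cel m (y + ((2 ^ m : ℕ) : ZMod Q) - (i : ZMod Q)) = cel m y := by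
  have hp : 0 < 2 ^ m := by positivity
  set r := y.val % 2 ^ m with hr
  have hrlt : r < 2 ^ m := Nat.mod_lt _ hp
  have hy : y.val = 2 ^ m * (y.val / 2 ^ m) + r := (Nat.div_add_mod _ _).symm
  refine ⟨Finset.Ico (r + 1) (r + 1 + 2 ^ m), ?_, ?_, ?_⟩
  · intro i hi
    rw [Finset.mem_Ico] at hi
    rw [Finset.mem_range]
    omega
  · rw [Nat.card_Ico]
    omega
  · intro i hi
    rw [Finset.mem_Ico] at hi
    have e : y + ((2 ^ m : ℕ) : ZMod Q) - (i : ZMod Q) =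
        ((2 ^ m * (y.val / 2 ^ m) + (r + 2 ^ m - i) : ℕ) : ZMod Q) := by
      have h1 : (y : ZMod Q) = ((2 ^ m * (y.val / 2 ^ m) + r : ℕ) : ZMod Q) := by
        rw [← hy, ZMod.natCast_zmod_val]
      have h2 : 2 ^ m * (y.val / 2 ^ m) + r + 2 ^ m =
          2 ^ m * (y.val / 2 ^ m) + (r + 2 ^ m - i) + i := by omega
      have h3 : ((2 ^ m * (y.val / 2 ^ m) + r + 2 ^ m : ℕ) : ZMod Q) =
          ((2 ^ m * (y.val / 2 ^ m) + (r + 2 ^ m - i) + i : ℕ) : ZMod Q) := by rw [h2]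
      rw [Nat.cast_add _ (2 ^ m), Nat.cast_add _ i] at h3
      rw [← h1] at h3
      rw [h3, add_sub_cancel_right]
    rw [e]
    exact cel_pt h y (by omega)

end cells

section rec

variable {Q : ℕ} [NeZero Q] {κ lam ν : Type*} [Fintype κ] [DecidableEq κ] [Fintype lam]
  [DecidableEq lam] [Fintype ν] [DecidableEq ν]

/-- extraction record for the row labels of the letter `F x y` (cells in `y`, row `x` fixed) -/
structure Ext (F : ZMod Q → ZMod Q → Matrix κ lam ℝ) (M : ℕ) (δ n : ℝ)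
    (q : ℕ → ZMod Q → ZMod Q → Matrix κ κ ℝ) : Prop where
  pr : ∀ m x y, IsPr (q m x y)
  cell : ∀ m ≤ M, ∀ x y y', cel m y = cel m y' → q m x y = q m x y'
  mono : ∀ m < M, ∀ x y, q m x y * q (m + 1) x y = q m x y
  bnd : ∀ m ≤ M, ∀ x y (v : κ → ℝ), ∑ y' with cel m y' = cel m y,
    v ⬝ᵥ ((q m x y * (F x y' * (F x y')ᵀ) * q m x y) *ᵥ v) ≤ 2 ^ m * δ * (v ⬝ᵥ v)
  cnt : ∑ x, ∑ y, ((q M x y).trace - (q 0 x y).trace) ≤ n

/-- record of the low rank projections in front of the op-small letter `F2 x2 x0`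
(row label `κ` at `x2`; third variable `z = - x0 - x2`) -/
structure RExt (F2 : ZMod Q → ZMod Q → Matrix κ ν ℝ) (M C : ℕ) (τ n : ℝ)
    (q q' R : ℕ → ZMod Q → ZMod Q → Matrix κ κ ℝ) : Prop where
  pr : ∀ m x z, IsPr (R m x z)
  cell : ∀ m ≤ M, ∀ x z z', cel m z = cel m z' → R m x z = R m x z'
  mono : ∀ m < M, ∀ x z, R (m + 1) x z * R m x z = R (m + 1) x z
  nbr : ∀ m ≤ M, ∀ x z (t : ℤ), |t| ≤ C * 2 ^ m →
    (q m x (z + (t : ZMod Q)) - q' m x (z + (t : ZMod Q))) * R m x z =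
      q m x (z + (t : ZMod Q)) - q' m x (z + (t : ZMod Q))
  leaf : ∑ x, ∑ x0, hs2 (R 0 x (-x0 - x) * F2 x x0) ≤ τ ^ 2 * n
  cnt : ∑ x, ∑ z, ((R 0 x z).trace - (R M x z).trace) ≤ n

end rec

end Crest.Agent.R079.PotL
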