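import Crest.Agent.R079.PLEdef_377
import Crest.Agent.R079.PLE5_377

-- ▼ part R079/PLE3L_664
section

/-! R079, [E3L] of doc 2517: cost of a change of the letter on the LEFT (row labels) side, finite
rank projections, absolute value form.  helper664. -/

set_option autoImplicit false
set_option linter.unusedVariables false
set_option linter.unusedSectionVars false

namespace Crest.Agent.R079.PotL

open Matrix Finset Crest.Agent.R072
open scoped MatrixOrder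

local notation "rt" => CFC.sqrt

namespace E3L

theorem pr_hs {κ : Type*} [Fintype κ] [DecidableEq κ] {P : Matrix κ κ ℝ} (hP : IsPr P) :
    ∑ l, ∑ l', P l l' ^ 2 = P.trace := by
  have h : P.trace = (P * P).trace := by rw [hP.idem]
  rw [h, Matrix.trace]
  refine Finset.sum_congr rfl fun l _ => ?_
  rw [Matrix.diag_apply, Matrix.mul_apply]
  refine Finset.sum_congr rfl fun l' _ => ?_
  have : P l' l = P l l' := by
    have := congrFun (congrFun hP.symm l) l'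
    rwa [Matrix.transpose_apply] at this
  rw [this, sq]


theorem row_quad {k : Type*} [Fintype k] [DecidableEq k] {M : Matrix k k ℝ} (hM : M.PosSemidef)
    (v : k → ℝ) : ∑ j, (∑ i, v i * rt M i j) ^ 2 = v ⬝ᵥ M *ᵥ v := by
  have h1 : v ⬝ᵥ M *ᵥ v = (v ᵥ* rt M) ⬝ᵥ (v ᵥ* rt M) := by
    have hT : (rt M)ᵀ = rt M := rt_transpose M
    calc v ⬝ᵥ M *ᵥ v = v ⬝ᵥ (rt M * rt M) *ᵥ v := by rw [rt_mul_rt hM]
      _ = v ⬝ᵥ rt M *ᵥ (rt M *ᵥ v) := by rw [Matrix.mulVec_mulVec]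
      _ = (v ᵥ* rt M) ⬝ᵥ (rt M *ᵥ v) := by rw [Matrix.dotProduct_mulVec]
      _ = (v ᵥ* rt M) ⬝ᵥ (v ᵥ* rt M) := by
          conv_lhs => rw [← hT]
          rw [Matrix.mulVec_transpose, hT]
  rw [h1, dotProduct]
  refine Finset.sum_congr rfl fun j _ => ?_
  rw [sq]
  rfl

section
variable {Q : ℕ} [NeZero Q] {α β : Type*} [Fintype α] [DecidableEq α] [Fintype β] [DecidableEq β]

/-- one projection against one row of boxes -/
theorem proj_row (X : ZMod Q → ZMod Q → Matrix β α ℝ) {N : ℕ} (hN : 0 < N)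
    {M : Matrix (Fin N × α) (Fin N × α) ℝ} (hM : M.PosSemidef) {μ K : ℝ}
    (hμ : ∀ v, v ⬝ᵥ M *ᵥ v ≤ μ ^ 2 * (v ⬝ᵥ v)) (q p : ZMod Q) (i : Fin N)
    (hK : ColB (fun x y => (X y x)ᵀ) N K p (q + ((i : ℕ) : ZMod Q))) {P : Matrix β β ℝ}
    (hP : IsPr P) :
    ∑ l : β, ∑ j, (∑ l' : β, P l l' * (bm X N q p * rt M) (i, l') j) ^ 2 ≤
      μ ^ 2 * (K ^ 2 / N) * P.trace := by
  have hN' : (0 : ℝ) < N := by exact_mod_cast hN
  -- the rows
  have e1 : ∀ (l : β) (j : Fin N × α), ∑ l' : β, P l l' * (bm X N q p * rt M) (i, l') j =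
      ∑ k, (∑ l' : β, P l l' * bm X N q p (i, l') k) * rt M k j := by
    intro l j
    simp only [Matrix.mul_apply, Finset.mul_sum, Finset.sum_mul]
    rw [Finset.sum_comm]
    refine Finset.sum_congr rfl fun k _ => Finset.sum_congr rfl fun l' _ => ?_
    ring
  have h1 : ∀ l : β, ∑ j, (∑ l' : β, P l l' * (bm X N q p * rt M) (i, l') j) ^ 2 ≤
      μ ^ 2 * ∑ k, (∑ l' : β, P l l' * bm X N q p (i, l') k) ^ 2 := by
    intro l
    simp_rw [e1]
    rw [row_quad hM]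
    refine (hμ _).trans (le_of_eq ?_)
    congr 1
    rw [dotProduct]
    exact Finset.sum_congr rfl fun k _ => (sq _).symm
  have h2 : ∀ l : β, ∑ k, (∑ l' : β, P l l' * bm X N q p (i, l') k) ^ 2 ≤
      K ^ 2 / N * ∑ l' : β, P l l' ^ 2 := by
    intro l
    have h := hK (fun l' => P l l')
    have e2 : ∑ k, (∑ l' : β, P l l' * bm X N q p (i, l') k) ^ 2 =
        (1 / (N : ℝ)) * ((1 / (N : ℝ)) * ∑ k ∈ range N, ∑ a : α,
          (∑ s : β, (X (q + ((i : ℕ) : ZMod Q)) (p + (k : ZMod Q)))ᵀ a s * P l s) ^ 2) := by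
      rw [Fintype.sum_prod_type, Finset.sum_range, Finset.mul_sum, Finset.mul_sum]
      refine Finset.sum_congr rfl fun k _ => ?_
      rw [Finset.mul_sum, Finset.mul_sum]
      refine Finset.sum_congr rfl fun a _ => ?_
      have : ∑ l' : β, P l l' * bm X N q p (i, l') (k, a) = (1 / (N : ℝ)) *
          ∑ s : β, (X (q + ((i : ℕ) : ZMod Q)) (p + ((k : ℕ) : ZMod Q)))ᵀ a s * P l s := by
        rw [Finset.mul_sum]
        refine Finset.sum_congr rfl fun s _ => ?_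
        simp only [bm, Matrix.transpose_apply]
        ring
      rw [this]
      ring
    rw [e2]
    calc (1 / (N : ℝ)) * _ ≤ (1 / (N : ℝ)) * (K ^ 2 * ∑ s : β, P l s ^ 2) :=
          mul_le_mul_of_nonneg_left h (by positivity)
      _ = K ^ 2 / N * ∑ l' : β, P l l' ^ 2 := by ring
  calc ∑ l : β, ∑ j, (∑ l' : β, P l l' * (bm X N q p * rt M) (i, l') j) ^ 2
      ≤ ∑ l : β, μ ^ 2 * (K ^ 2 / N * ∑ l' : β, P l l' ^ 2) :=
        Finset.sum_le_sum fun l _ => (h1 l).trans (mul_le_mul_of_nonneg_left (h2 l) (sq_nonneg μ))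
    _ = μ ^ 2 * (K ^ 2 / N) * P.trace := by
        rw [← pr_hs hP, Finset.mul_sum]
        refine Finset.sum_congr rfl fun l _ => ?_
        ring

/-- moving window: a piecewise constant family, all `y` of the box -/
theorem pc_row {π : ZMod Q → ZMod Q → Matrix β β ℝ} {L N : ℕ} (hL : 0 < L)
    (hpc : PC2 π L) (x p : ZMod Q) (f : Matrix β β ℝ → Fin N → ℝ)
    (hf : ∀ P j, 0 ≤ f P j) :
    ∑ j : Fin N, f (π x (p + ((j : ℕ) : ZMod Q))) j ≤
      (1 / (L : ℝ)) * ∑ m ∈ range (N + 2 * L), ∑ j : Fin N,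
        f (π x (p - (L : ZMod Q) + (m : ZMod Q))) j := by
  have hL' : (0 : ℝ) < L := by exact_mod_cast hL
  have h1 : ∀ j : Fin N, (L : ℝ) * f (π x (p + ((j : ℕ) : ZMod Q))) j ≤
      ∑ i ∈ range (2 * L), f (π x (p + ((j : ℕ) : ZMod Q) - (L : ZMod Q) + (i : ZMod Q))) j := by
    intro j
    obtain ⟨s, hs, hc, he⟩ := hpc x (p + ((j : ℕ) : ZMod Q))
    calc (L : ℝ) * f (π x (p + ((j : ℕ) : ZMod Q))) j
        ≤ (s.card : ℝ) * f (π x (p + ((j : ℕ) : ZMod Q))) j :=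
          mul_le_mul_of_nonneg_right (by exact_mod_cast hc) (hf _ _)
      _ = ∑ i ∈ s, f (π x (p + ((j : ℕ) : ZMod Q) - (L : ZMod Q) + (i : ZMod Q))) j := by
          rw [Finset.sum_congr rfl fun i hi => by rw [he i hi], Finset.sum_const, nsmul_eq_mul]
      _ ≤ _ := Finset.sum_le_sum_of_subset_of_nonneg hs fun _ _ _ => hf _ _
  have h2 : ∀ j : Fin N, ∑ i ∈ range (2 * L),
      f (π x (p + ((j : ℕ) : ZMod Q) - (L : ZMod Q) + (i : ZMod Q))) j ≤
      ∑ m ∈ range (N + 2 * L), f (π x (p - (L : ZMod Q) + (m : ZMod Q))) j := by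
    intro j
    have e : ∑ i ∈ range (2 * L),
        f (π x (p + ((j : ℕ) : ZMod Q) - (L : ZMod Q) + (i : ZMod Q))) j =
        ∑ m ∈ (range (2 * L)).image (fun i => (j : ℕ) + i),
          f (π x (p - (L : ZMod Q) + (m : ZMod Q))) j := by
      rw [Finset.sum_image (fun a _ b _ h => by simpa using h)]
      refine Finset.sum_congr rfl fun i _ => ?_
      have : p + ((j : ℕ) : ZMod Q) - (L : ZMod Q) + (i : ZMod Q) =
          p - (L : ZMod Q) + (((j : ℕ) + i : ℕ) : ZMod Q) := by push_cast; ring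
      rw [this]
    rw [e]
    refine Finset.sum_le_sum_of_subset_of_nonneg ?_ fun _ _ _ => hf _ _
    intro m hm
    rw [Finset.mem_image] at hm
    obtain ⟨i, hi, rfl⟩ := hm
    rw [Finset.mem_range] at hi ⊢
    have := j.2
    omega
  have h3 : (L : ℝ) * ∑ j : Fin N, f (π x (p + ((j : ℕ) : ZMod Q))) j ≤
      ∑ m ∈ range (N + 2 * L), ∑ j : Fin N, f (π x (p - (L : ZMod Q) + (m : ZMod Q))) j := by
    rw [Finset.mul_sum, Finset.sum_comm]
    exact Finset.sum_le_sum fun j _ => (h1 j).trans (h2 j)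
  calc ∑ j : Fin N, f (π x (p + ((j : ℕ) : ZMod Q))) j
      = (1 / (L : ℝ)) * ((L : ℝ) * ∑ j : Fin N, f (π x (p + ((j : ℕ) : ZMod Q))) j) := by
        field_simp
    _ ≤ _ := mul_le_mul_of_nonneg_left h3 (by positivity)

/-- one box -/
theorem box_one (X D : ZMod Q → ZMod Q → Matrix β α ℝ) (π : ZMod Q → ZMod Q → Matrix β β ℝ)
    (hπ : ∀ x y, IsPr (π x y)) (hD : ∀ x y, π x y * D x y = D x y) {L N : ℕ} (hL : 0 < L)
    (hN : 0 < N) (hpc : PC2 π L)
    {M : Matrix (Fin N × α) (Fin N × α) ℝ} (hM : M.PosSemidef)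
    {μ K θ : ℝ} (hθ : 0 < θ) (hμ : ∀ v, v ⬝ᵥ M *ᵥ v ≤ μ ^ 2 * (v ⬝ᵥ v))
    (hK : ∀ q y, ColB (fun x y => (X y x)ᵀ) N K q y) (q p : ZMod Q) :
    (rt M * ((bm X N q p)ᵀ * bm D N q p)).trace ≤
      (θ / 2 * μ ^ 2 * (K ^ 2 / N) * (1 / L)) * ∑ i : Fin N, ∑ m ∈ range (N + 2 * L),
        (π (q + ((i : ℕ) : ZMod Q)) (p - (L : ZMod Q) + (m : ZMod Q))).trace +
      (1 / (2 * θ)) * ((1 / (N : ℝ) ^ 2) * ∑ i : Fin N, ∑ j : Fin N,
        hs2 (D (q + ((i : ℕ) : ZMod Q)) (p + ((j : ℕ) : ZMod Q)))) := by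
  have hN' : (0 : ℝ) < N := by exact_mod_cast hN
  have hL' : (0 : ℝ) < L := by exact_mod_cast hL
  set Y := bm X N q p * rt M with hY
  rw [trace_eq_sum (bm X N q p) (bm D N q p) (rt_transpose M), ← hY]
  -- energy of a projection at block (i, j)
  set f : Fin N → Matrix β β ℝ → Fin N → ℝ := fun i P j =>
    ∑ l : β, ∑ s : α, (∑ l' : β, P l l' * Y (i, l') (j, s)) ^ 2 with hf
  have hf0 : ∀ i P j, 0 ≤ f i P j := fun i P j =>
    Finset.sum_nonneg fun _ _ => Finset.sum_nonneg fun _ _ => sq_nonneg _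
  -- one block
  have hblk : ∀ i j : Fin N, ∑ l : β, ∑ s : α, Y (i, l) (j, s) * bm D N q p (i, l) (j, s) ≤
      θ / 2 * f i (π (q + ((i : ℕ) : ZMod Q)) (p + ((j : ℕ) : ZMod Q))) j +
      (1 / (2 * θ)) * ((1 / (N : ℝ) ^ 2) * hs2 (D (q + ((i : ℕ) : ZMod Q))
        (p + ((j : ℕ) : ZMod Q)))) := by
    intro i j
    set x := q + ((i : ℕ) : ZMod Q) with hx
    set y := p + ((j : ℕ) : ZMod Q) with hy
    have hsym : ∀ l l', π x y l' l = π x y l l' := fun l l' => by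
      have := congrFun (congrFun (hπ x y).symm l) l'
      rwa [Matrix.transpose_apply] at this
    have e0 : ∀ l s, bm D N q p (i, l) (j, s) = (1 / (N : ℝ)) * ∑ l', π x y l l' * D x y l' s := by
      intro l s
      have := congrFun (congrFun (hD x y) l) s
      rw [Matrix.mul_apply] at this
      rw [this]
      rfl
    have e1 : ∑ l : β, ∑ s : α, Y (i, l) (j, s) * bm D N q p (i, l) (j, s) =
        ∑ l : β, ∑ s : α, (∑ l' : β, π x y l l' * Y (i, l') (j, s)) *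
          ((1 / (N : ℝ)) * D x y l s) := by
      simp_rw [e0]
      have c1 : ∀ l s, Y (i, l) (j, s) * ((1 / (N : ℝ)) * ∑ l', π x y l l' * D x y l' s) =
          ∑ l', Y (i, l) (j, s) * (π x y l l' * ((1 / (N : ℝ)) * D x y l' s)) := by
        intro l s
        rw [Finset.mul_sum, Finset.mul_sum]
        exact Finset.sum_congr rfl fun l' _ => by ring
      simp_rw [c1]
      calc ∑ l : β, ∑ s : α, ∑ l', Y (i, l) (j, s) * (π x y l l' * ((1 / (N : ℝ)) * D x y l' s))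
          = ∑ s : α, ∑ l : β, ∑ l', Y (i, l) (j, s) * (π x y l l' * ((1 / (N : ℝ)) * D x y l' s)) :=
            Finset.sum_comm
        _ = ∑ s : α, ∑ l', ∑ l : β, Y (i, l) (j, s) * (π x y l l' * ((1 / (N : ℝ)) * D x y l' s)) :=
            Finset.sum_congr rfl fun _ _ => Finset.sum_comm
        _ = ∑ l', ∑ s : α, ∑ l : β, Y (i, l) (j, s) * (π x y l l' * ((1 / (N : ℝ)) * D x y l' s)) :=
            Finset.sum_comm
        _ = _ := by
            refine Finset.sum_congr rfl fun l' _ => Finset.sum_congr rfl fun s _ => ?_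
            rw [Finset.sum_mul]
            refine Finset.sum_congr rfl fun l _ => ?_
            rw [hsym l' l]
            ring
    rw [e1]
    have e2 : θ / 2 * f i (π x y) j + (1 / (2 * θ)) * ((1 / (N : ℝ) ^ 2) * hs2 (D x y)) =
        ∑ l : β, ∑ s : α, (θ / 2 * (∑ l' : β, π x y l l' * Y (i, l') (j, s)) ^ 2 +
          (1 / (2 * θ)) * ((1 / (N : ℝ)) * D x y l s) ^ 2) := by
      simp only [hf, hs2, Finset.sum_add_distrib, ← Finset.mul_sum]
      congr 1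
      congr 1
      rw [Finset.mul_sum]
      refine Finset.sum_congr rfl fun l _ => ?_
      rw [Finset.mul_sum]
      refine Finset.sum_congr rfl fun s _ => ?_
      ring
    rw [e2]
    refine Finset.sum_le_sum fun l _ => Finset.sum_le_sum fun s _ => ?_
    set a := ∑ l' : β, π x y l l' * Y (i, l') (j, s)
    set b := (1 / (N : ℝ)) * D x y l s
    have h : 0 ≤ (1 / (2 * θ)) * (θ * a - b) ^ 2 := by positivity
    have e3 : (1 / (2 * θ)) * (θ * a - b) ^ 2 = θ / 2 * a ^ 2 + (1 / (2 * θ)) * b ^ 2 - a * b := by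
      field_simp
      ring
    linarith
  -- sum over the blocks
  have hsum : ∑ i : Fin N × β, ∑ j : Fin N × α, Y i j * bm D N q p i j =
      ∑ i : Fin N, ∑ j : Fin N, ∑ l : β, ∑ s : α, Y (i, l) (j, s) * bm D N q p (i, l) (j, s) := by
    rw [Fintype.sum_prod_type]
    refine Finset.sum_congr rfl fun i _ => ?_
    simp_rw [Fintype.sum_prod_type]
    rw [Finset.sum_comm]
  rw [hsum]
  have hrow : ∀ i : Fin N, ∑ j : Fin N, f i (π (q + ((i : ℕ) : ZMod Q)) (p + ((j : ℕ) : ZMod Q))) j ≤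
      (1 / (L : ℝ)) * ∑ m ∈ range (N + 2 * L), μ ^ 2 * (K ^ 2 / N) *
        (π (q + ((i : ℕ) : ZMod Q)) (p - (L : ZMod Q) + (m : ZMod Q))).trace := by
    intro i
    refine (pc_row hL hpc _ p (f i) (hf0 i)).trans ?_
    refine mul_le_mul_of_nonneg_left (Finset.sum_le_sum fun m _ => ?_) (by positivity)
    have h := proj_row X hN hM hμ q p i (hK p _)
      (hπ (q + ((i : ℕ) : ZMod Q)) (p - (L : ZMod Q) + (m : ZMod Q)))
    refine le_trans (le_of_eq ?_) h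
    simp only [hf]
    rw [Finset.sum_comm]
    refine Finset.sum_congr rfl fun l _ => ?_
    rw [Fintype.sum_prod_type]
  calc ∑ i : Fin N, ∑ j : Fin N, ∑ l : β, ∑ s : α, Y (i, l) (j, s) * bm D N q p (i, l) (j, s)
      ≤ ∑ i : Fin N, ∑ j : Fin N,
        (θ / 2 * f i (π (q + ((i : ℕ) : ZMod Q)) (p + ((j : ℕ) : ZMod Q))) j +
        (1 / (2 * θ)) * ((1 / (N : ℝ) ^ 2) * hs2 (D (q + ((i : ℕ) : ZMod Q))
          (p + ((j : ℕ) : ZMod Q))))) :=
        Finset.sum_le_sum fun i _ => Finset.sum_le_sum fun j _ => hblk i j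
    _ = θ / 2 * ∑ i : Fin N, ∑ j : Fin N,
          f i (π (q + ((i : ℕ) : ZMod Q)) (p + ((j : ℕ) : ZMod Q))) j +
        (1 / (2 * θ)) * ((1 / (N : ℝ) ^ 2) * ∑ i : Fin N, ∑ j : Fin N,
        hs2 (D (q + ((i : ℕ) : ZMod Q)) (p + ((j : ℕ) : ZMod Q)))) := by
        simp only [Finset.sum_add_distrib, ← Finset.mul_sum]
    _ ≤ θ / 2 * ∑ i : Fin N, ((1 / (L : ℝ)) * ∑ m ∈ range (N + 2 * L), μ ^ 2 * (K ^ 2 / N) *
        (π (q + ((i : ℕ) : ZMod Q)) (p - (L : ZMod Q) + (m : ZMod Q))).trace) +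
        (1 / (2 * θ)) * ((1 / (N : ℝ) ^ 2) * ∑ i : Fin N, ∑ j : Fin N,
        hs2 (D (q + ((i : ℕ) : ZMod Q)) (p + ((j : ℕ) : ZMod Q)))) := by
        have := Finset.sum_le_sum fun i (_ : i ∈ Finset.univ) => hrow i
        have h2 := mul_le_mul_of_nonneg_left this (by positivity : 0 ≤ θ / 2)
        linarith
    _ = _ := by
        simp only [← Finset.mul_sum]
        ring

end
end E3L

section
variable {Q : ℕ} [NeZero Q] {α β : Type*} [Fintype α] [DecidableEq α] [Fintype β] [DecidableEq β]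

/-- [E3L] -/
theorem costL (X D : ZMod Q → ZMod Q → Matrix β α ℝ) (π : ZMod Q → ZMod Q → Matrix β β ℝ)
    (hπ : ∀ x y, IsPr (π x y)) (hD : ∀ x y, π x y * D x y = D x y) {L N : ℕ} (hL : 0 < L)
    (hN : 0 < N) (hpc : PC2 π L)
    (M : ZMod Q → ZMod Q → Matrix (Fin N × α) (Fin N × α) ℝ) (hM : ∀ p q, (M p q).PosSemidef)
    {μ K KD θ : ℝ} (hθ : 0 < θ) (hμ : ∀ p q v, v ⬝ᵥ (M p q) *ᵥ v ≤ μ ^ 2 * (v ⬝ᵥ v))
    (hK : ∀ q y, ColB (fun x y => (X y x)ᵀ) N K q y)
    (hE : ∑ x, ∑ y, hs2 (D x y) ≤ KD ^ 2 * ∑ x, ∑ y, (π x y).trace) :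
    ∑ p, ∑ q, (rt (M p q) * ((bm X N q p)ᵀ * bm D N q p)).trace ≤
      (θ / 2 * μ ^ 2 * K ^ 2 * ((N + 2 * L : ℝ) / L) + KD ^ 2 / (2 * θ)) *
        ∑ x, ∑ y, (π x y).trace := by
  have hN' : (0 : ℝ) < N := by exact_mod_cast hN
  have hL' : (0 : ℝ) < L := by exact_mod_cast hL
  set T : ℝ := ∑ x, ∑ y, (π x y).trace with hT
  have h1 := Finset.sum_le_sum fun p (_ : p ∈ (Finset.univ : Finset (ZMod Q))) =>
    Finset.sum_le_sum fun q (_ : q ∈ (Finset.univ : Finset (ZMod Q))) =>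
      E3L.box_one X D π hπ hD hL hN hpc (hM p q) hθ (hμ p q) hK q p
  refine h1.trans ?_
  simp only [Finset.sum_add_distrib, ← Finset.mul_sum]
  have e1 := sum_box_avg (fun x y => hs2 (D x y)) hN
  simp only [← Finset.mul_sum] at e1
  rw [e1]
  have e2 : ∑ p : ZMod Q, ∑ q : ZMod Q, ∑ i : Fin N, ∑ m ∈ range (N + 2 * L),
      (π (q + ((i : ℕ) : ZMod Q)) (p - (L : ZMod Q) + (m : ZMod Q))).trace =
      (N : ℝ) * ((N : ℝ) + 2 * L) * T := by
    have c1 : ∑ p : ZMod Q, ∑ q : ZMod Q, ∑ i : Fin N, ∑ m ∈ range (N + 2 * L),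
        (π (q + ((i : ℕ) : ZMod Q)) (p - (L : ZMod Q) + (m : ZMod Q))).trace =
        ∑ i : Fin N, ∑ m ∈ range (N + 2 * L), ∑ p : ZMod Q, ∑ q : ZMod Q,
        (π (q + ((i : ℕ) : ZMod Q)) (p - (L : ZMod Q) + (m : ZMod Q))).trace := by
      calc ∑ p : ZMod Q, ∑ q : ZMod Q, ∑ i : Fin N, ∑ m ∈ range (N + 2 * L),
            (π (q + ((i : ℕ) : ZMod Q)) (p - (L : ZMod Q) + (m : ZMod Q))).trace
          = ∑ p : ZMod Q, ∑ i : Fin N, ∑ q : ZMod Q, ∑ m ∈ range (N + 2 * L),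
            (π (q + ((i : ℕ) : ZMod Q)) (p - (L : ZMod Q) + (m : ZMod Q))).trace :=
            Finset.sum_congr rfl fun _ _ => Finset.sum_comm
        _ = ∑ i : Fin N, ∑ p : ZMod Q, ∑ q : ZMod Q, ∑ m ∈ range (N + 2 * L),
            (π (q + ((i : ℕ) : ZMod Q)) (p - (L : ZMod Q) + (m : ZMod Q))).trace := Finset.sum_comm
        _ = ∑ i : Fin N, ∑ p : ZMod Q, ∑ m ∈ range (N + 2 * L), ∑ q : ZMod Q,
            (π (q + ((i : ℕ) : ZMod Q)) (p - (L : ZMod Q) + (m : ZMod Q))).trace :=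
            Finset.sum_congr rfl fun _ _ => Finset.sum_congr rfl fun _ _ => Finset.sum_comm
        _ = _ := Finset.sum_congr rfl fun _ _ => Finset.sum_comm
    rw [c1]
    have c2 : ∀ (i : Fin N) (m : ℕ), ∑ p : ZMod Q, ∑ q : ZMod Q,
        (π (q + ((i : ℕ) : ZMod Q)) (p - (L : ZMod Q) + (m : ZMod Q))).trace = T := by
      intro i m
      rw [Finset.sum_comm, hT]
      have : ∀ q : ZMod Q, ∑ p : ZMod Q,
          (π (q + ((i : ℕ) : ZMod Q)) (p - (L : ZMod Q) + (m : ZMod Q))).trace =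
          ∑ p : ZMod Q, (π (q + ((i : ℕ) : ZMod Q)) p).trace := by
        intro q
        have := Lattice.sum_add_right' (fun p => (π (q + ((i : ℕ) : ZMod Q)) p).trace)
          (-(L : ZMod Q) + (m : ZMod Q))
        rw [← this]
        refine Finset.sum_congr rfl fun p _ => ?_
        congr 2
        ring
      simp_rw [this]
      exact Lattice.sum_add_right' (fun q => ∑ p : ZMod Q, (π q p).trace) _
    simp_rw [c2]
    rw [Finset.sum_const, Finset.sum_const, Finset.card_univ, Fintype.card_fin, Finset.card_range,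
      nsmul_eq_mul, nsmul_eq_mul]
    push_cast
    ring
  rw [e2]
  have h3 : (1 / (2 * θ)) * ∑ x, ∑ y, hs2 (D x y) ≤ (1 / (2 * θ)) * (KD ^ 2 * T) :=
    mul_le_mul_of_nonneg_left hE (by positivity)
  refine (add_le_add_right h3 _).trans (le_of_eq ?_)
  field_simp
end
end Crest.Agent.R079.PotL
end

-- ▼ part R079/PLE3R_396
section

/-! R079, labelled corner `(oo-,2+,2+)` in the LINE model (377's doc 2517), leaf E3R `costR`.
helper396. -/

set_option autoImplicit false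
set_option linter.unusedVariables false
set_option linter.unusedSectionVars false

namespace Crest.Agent.R079.PotL

open Matrix Finset Crest.Agent.R072
open scoped MatrixOrder

local notation "rt" => CFC.sqrt

section aux

variable {ι J α β : Type*} [Fintype ι] [DecidableEq ι] [Fintype J] [DecidableEq J]
  [Fintype α] [DecidableEq α] [Fintype β] [DecidableEq β]

/-- weighted AM-GM for the label pairing -/
theorem pair_le (A E : Matrix β α ℝ) {θ : ℝ} (hθ : 0 < θ) :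
    ∑ l : β, ∑ s : α, A l s * E l s ≤ θ / 2 * hs2 A + 1 / (2 * θ) * hs2 E := by
  unfold hs2
  rw [Finset.mul_sum, Finset.mul_sum, ← Finset.sum_add_distrib]
  refine Finset.sum_le_sum fun l _ => ?_
  rw [Finset.mul_sum, Finset.mul_sum, ← Finset.sum_add_distrib]
  refine Finset.sum_le_sum fun s _ => ?_
  have h : 0 ≤ (θ * A l s - E l s) ^ 2 / (2 * θ) := by positivity
  have e : (θ * A l s - E l s) ^ 2 / (2 * θ) =
      θ / 2 * A l s ^ 2 + 1 / (2 * θ) * E l s ^ 2 - A l s * E l s := by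
    field_simp
    ring
  linarith

theorem pair_right (A E : Matrix β α ℝ) {P : Matrix α α ℝ} (hP : Pᵀ = P) (hE : E * P = E) :
    ∑ l : β, ∑ s : α, A l s * E l s = ∑ l : β, ∑ s : α, (A * P) l s * E l s := by
  have h : ∀ B C : Matrix β α ℝ, ∑ l : β, ∑ s : α, B l s * C l s = (Bᵀ * C).trace := by
    intro B C
    rw [Matrix.trace, Finset.sum_comm]
    refine Finset.sum_congr rfl fun j _ => ?_
    rw [Matrix.diag_apply, Matrix.mul_apply]
    rfl
  rw [h, h, transpose_mul, hP, Matrix.mul_assoc]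
  conv_lhs => rw [← hE]
  rw [← Matrix.mul_assoc, Matrix.trace_mul_comm]


theorem pr_sum_sq {P : Matrix α α ℝ} (hP : IsPr P) : ∑ t : α, ∑ s : α, P s t ^ 2 = P.trace := by
  conv_rhs => rw [← hP.idem]
  rw [Matrix.trace]
  refine Finset.sum_congr rfl fun t _ => ?_
  rw [Matrix.diag_apply, Matrix.mul_apply]
  refine Finset.sum_congr rfl fun s _ => ?_
  have := congrFun (congrFun hP.symm t) s
  rw [Matrix.transpose_apply] at this
  rw [← this]
  have h2 := congrFun (congrFun hP.symm s) t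
  rw [Matrix.transpose_apply] at h2
  rw [sq]


/-- the column block of `√M` applied to `v` -/
theorem rt_col_sq {M : Matrix (J × α) (J × α) ℝ} (hM : M.PosSemidef) (j : J) (v : α → ℝ) :
    ∑ k, (∑ s : α, rt M k (j, s) * v s) ^ 2 = ∑ s : α, ∑ t : α, v s * M (j, s) (j, t) * v t := by
  have hMM := rt_mul_rt hM
  have hT := rt_transpose M
  have e : ∀ s t : α, M (j, s) (j, t) = ∑ k, rt M k (j, s) * rt M k (j, t) := by
    intro s t
    conv_lhs => rw [← hMM]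
    rw [Matrix.mul_apply]
    refine Finset.sum_congr rfl fun k _ => ?_
    congr 1
    have := congrFun (congrFun hT k) (j, s)
    rw [Matrix.transpose_apply] at this
    exact this
  simp_rw [e, Finset.mul_sum, Finset.sum_mul]
  have e2 : ∀ k, (∑ s : α, rt M k (j, s) * v s) ^ 2 =
      ∑ s : α, ∑ t : α, v s * (rt M k (j, s) * rt M k (j, t)) * v t := by
    intro k
    rw [sq, Finset.sum_mul]
    refine Finset.sum_congr rfl fun s _ => ?_
    rw [Finset.mul_sum]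
    refine Finset.sum_congr rfl fun t _ => ?_
    ring
  simp_rw [e2]
  rw [Finset.sum_comm]
  refine Finset.sum_congr rfl fun s _ => ?_
  rw [Finset.sum_comm]

/-- **right block bound**: `Σ_i |(X √M)(i,j) P|² ≤ ξ² c tr P` -/
theorem right_block (X : Matrix (ι × β) (J × α) ℝ) {M : Matrix (J × α) (J × α) ℝ}
    (hM : M.PosSemidef) (j : J) {P : Matrix α α ℝ} (hP : IsPr P) {ξ c : ℝ}
    (hξ : ∀ v, (X *ᵥ v) ⬝ᵥ (X *ᵥ v) ≤ ξ ^ 2 * (v ⬝ᵥ v))
    (hK : ∀ v : α → ℝ, ∑ s : α, ∑ t : α, v s * M (j, s) (j, t) * v t ≤ c * ∑ s : α, v s ^ 2) :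
    ∑ i : ι, hs2 (blk (X * rt M) i j * P) ≤ ξ ^ 2 * c * P.trace := by
  set u : α → (J × α → ℝ) := fun t k => ∑ s : α, rt M k (j, s) * P s t with hu
  have h1 : ∀ (i : ι) (l : β) (t : α), (blk (X * rt M) i j * P) l t = (X *ᵥ u t) (i, l) := by
    intro i l t
    rw [Matrix.mul_apply]
    simp only [blk, Matrix.mul_apply, Matrix.mulVec, dotProduct, hu]
    simp_rw [Finset.sum_mul, Finset.mul_sum]
    rw [Finset.sum_comm]
    refine Finset.sum_congr rfl fun k _ => Finset.sum_congr rfl fun s _ => ?_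
    ring
  have h2 : ∑ i : ι, hs2 (blk (X * rt M) i j * P) = ∑ t : α, (X *ᵥ u t) ⬝ᵥ (X *ᵥ u t) := by
    unfold hs2
    simp_rw [h1]
    have c1 : ∑ i : ι, ∑ l : β, ∑ s : α, (X *ᵥ u s) (i, l) ^ 2 =
        ∑ s : α, ∑ i : ι, ∑ l : β, (X *ᵥ u s) (i, l) ^ 2 := by
      rw [Finset.sum_comm]
      calc _ = ∑ l : β, ∑ s : α, ∑ i : ι, (X *ᵥ u s) (i, l) ^ 2 :=
            Finset.sum_congr rfl fun _ _ => Finset.sum_comm
        _ = ∑ s : α, ∑ l : β, ∑ i : ι, (X *ᵥ u s) (i, l) ^ 2 := Finset.sum_comm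
        _ = _ := Finset.sum_congr rfl fun _ _ => Finset.sum_comm
    rw [c1]
    refine Finset.sum_congr rfl fun t _ => ?_
    rw [dotProduct, Fintype.sum_prod_type]
    refine Finset.sum_congr rfl fun i _ => Finset.sum_congr rfl fun l _ => ?_
    rw [sq]
  rw [h2]
  calc ∑ t : α, (X *ᵥ u t) ⬝ᵥ (X *ᵥ u t) ≤ ∑ t : α, ξ ^ 2 * (u t ⬝ᵥ u t) :=
        Finset.sum_le_sum fun t _ => hξ _
    _ ≤ ∑ t : α, ξ ^ 2 * (c * ∑ s : α, P s t ^ 2) := by
        refine Finset.sum_le_sum fun t _ => mul_le_mul_of_nonneg_left ?_ (sq_nonneg _)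
        have e : u t ⬝ᵥ u t = ∑ k, (∑ s : α, rt M k (j, s) * P s t) ^ 2 := by
          rw [dotProduct]
          refine Finset.sum_congr rfl fun k _ => ?_
          rw [sq]
        rw [e, rt_col_sq hM j (fun s => P s t)]
        exact hK _
    _ = ξ ^ 2 * c * P.trace := by
        rw [← pr_sum_sq hP, Finset.mul_sum]
        refine Finset.sum_congr rfl fun t _ => ?_
        ring

end aux

section lat

variable {Q : ℕ} [NeZero Q] {α β : Type*} [Fintype α] [DecidableEq α] [Fintype β] [DecidableEq β]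

/-- piecewise constancy, averaged: a nonnegative function of `π` at a point of the box is at most
the sum over the fattened box divided by `L` -/
theorem pc_avg {κ : Type*} {π : ZMod Q → ZMod Q → Matrix κ κ ℝ} {L : ℕ} (hL : 0 < L)
    (hpc : PC2 π L) {N : ℕ} (x p : ZMod Q) (j : ℕ) (hj : j < N) (f : Matrix κ κ ℝ → ℝ)
    (hf : ∀ y, 0 ≤ f (π x y)) :
    f (π x (p + (j : ZMod Q))) ≤ (1 / (L : ℝ)) *
      ∑ r ∈ range (N + 2 * L), f (π x (p - (L : ZMod Q) + (r : ZMod Q))) := by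
  obtain ⟨s, hs, hc, he⟩ := hpc x (p + (j : ZMod Q))
  have hL' : (0 : ℝ) < L := by exact_mod_cast hL
  have h1 : ∑ i ∈ s, f (π x (p + (j : ZMod Q) - (L : ZMod Q) + (i : ZMod Q))) =
      s.card * f (π x (p + (j : ZMod Q))) := by
    rw [Finset.sum_congr rfl fun i hi => by rw [he i hi], Finset.sum_const, nsmul_eq_mul]
  have h2 : ∑ i ∈ s, f (π x (p + (j : ZMod Q) - (L : ZMod Q) + (i : ZMod Q))) ≤
      ∑ r ∈ range (N + 2 * L), f (π x (p - (L : ZMod Q) + (r : ZMod Q))) := by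
    have h3 : ∑ i ∈ s, f (π x (p + (j : ZMod Q) - (L : ZMod Q) + (i : ZMod Q))) =
        ∑ r ∈ s.map (addLeftEmbedding j), f (π x (p - (L : ZMod Q) + (r : ZMod Q))) := by
      rw [Finset.sum_map]
      refine Finset.sum_congr rfl fun i _ => ?_
      congr 2
      simp only [addLeftEmbedding_apply]
      push_cast
      ring
    rw [h3]
    refine Finset.sum_le_sum_of_subset_of_nonneg ?_ fun r _ _ => hf _
    intro r hr
    rw [Finset.mem_map] at hr
    obtain ⟨i, hi, rfl⟩ := hr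
    have := Finset.mem_range.1 (hs hi)
    rw [Finset.mem_range, addLeftEmbedding_apply]
    omega
  rw [h1] at h2
  have h4 : (L : ℝ) * f (π x (p + (j : ZMod Q))) ≤ s.card * f (π x (p + (j : ZMod Q))) :=
    mul_le_mul_of_nonneg_right (by exact_mod_cast hc) (hf _)
  rw [one_div, ← div_eq_inv_mul, le_div_iff₀ hL']
  linarith

theorem sum_shift2 (f : ZMod Q → ZMod Q → ℝ) (a b : ZMod Q) :
    ∑ p : ZMod Q, ∑ q : ZMod Q, f (q + a) (p + b) = ∑ x : ZMod Q, ∑ y : ZMod Q, f x y := by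
  rw [Finset.sum_comm]
  have : ∀ q : ZMod Q, ∑ p : ZMod Q, f (q + a) (p + b) = ∑ p : ZMod Q, f (q + a) p := fun q =>
    Lattice.sum_add_right' (fun p => f (q + a) p) _
  simp_rw [this]
  exact Lattice.sum_add_right' (fun q => ∑ p : ZMod Q, f q p) _

theorem hs2_blk_bm (D : ZMod Q → ZMod Q → Matrix β α ℝ) (N : ℕ) (q p : ZMod Q) (i j : Fin N) :
    hs2 (blk (bm D N q p) i j) = 1 / (N : ℝ) ^ 2 *
      hs2 (D (q + ((i : ℕ) : ZMod Q)) (p + ((j : ℕ) : ZMod Q))) := by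
  unfold hs2 blk bm
  rw [Finset.mul_sum]
  refine Finset.sum_congr rfl fun l _ => ?_
  rw [Finset.mul_sum]
  refine Finset.sum_congr rfl fun s _ => ?_
  ring

/-- the energy of the difference letter, summed over all boxes -/
theorem sum_hs2_bm (D : ZMod Q → ZMod Q → Matrix β α ℝ) {N : ℕ} (hN : 0 < N) :
    ∑ p : ZMod Q, ∑ q : ZMod Q, ∑ i : Fin N, ∑ j : Fin N, hs2 (blk (bm D N q p) i j) =
      ∑ x, ∑ y, hs2 (D x y) := by
  have h := sum_box_avg (fun x y => hs2 (D x y)) hN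
  rw [← h]
  refine Finset.sum_congr rfl fun p _ => Finset.sum_congr rfl fun q _ => ?_
  rw [Finset.mul_sum]
  refine Finset.sum_congr rfl fun i _ => ?_
  rw [Finset.mul_sum]
  exact Finset.sum_congr rfl fun j _ => hs2_blk_bm D N q p i j

/-- **E3R** -/
theorem costR (X D : ZMod Q → ZMod Q → Matrix β α ℝ) (π : ZMod Q → ZMod Q → Matrix α α ℝ)
    (hπ : ∀ x y, IsPr (π x y)) (hD : ∀ x y, D x y * π x y = D x y) {L N : ℕ} (hL : 0 < L)
    (hN : 0 < N) (hpc : PC1 π L)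
    (M : ZMod Q → ZMod Q → Matrix (Fin N × α) (Fin N × α) ℝ) (hM : ∀ p q, (M p q).PosSemidef)
    {ξ K KD θ : ℝ} (hθ : 0 < θ)
    (hξ : ∀ p q v, (bm X N q p *ᵥ v) ⬝ᵥ (bm X N q p *ᵥ v) ≤ ξ ^ 2 * (v ⬝ᵥ v))
    (hK : ∀ p q (j : Fin N) (v : α → ℝ), ∑ s : α, ∑ t : α, v s * M p q (j, s) (j, t) * v t ≤
        K ^ 2 / N * ∑ s : α, v s ^ 2)
    (hE : ∑ x, ∑ y, hs2 (D x y) ≤ KD ^ 2 * ∑ x, ∑ y, (π x y).trace) :
    ∑ p, ∑ q, (rt (M p q) * ((bm X N q p)ᵀ * bm D N q p)).trace ≤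
      (θ / 2 * ξ ^ 2 * K ^ 2 * ((N + 2 * L : ℝ) / L) + KD ^ 2 / (2 * θ)) *
        ∑ x, ∑ y, (π x y).trace := by
  have hN' : (0 : ℝ) < N := by exact_mod_cast hN
  have hL' : (0 : ℝ) < L := by exact_mod_cast hL
  -- one box
  have hbox : ∀ p q : ZMod Q, (rt (M p q) * ((bm X N q p)ᵀ * bm D N q p)).trace ≤
      θ / 2 * ((1 / (L : ℝ)) * ∑ j : Fin N, ∑ r ∈ range (N + 2 * L),
        ξ ^ 2 * (K ^ 2 / N) * (π (q - (L : ZMod Q) + (r : ZMod Q))
          (p + ((j : ℕ) : ZMod Q))).trace) +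
      1 / (2 * θ) * ∑ i : Fin N, ∑ j : Fin N, hs2 (blk (bm D N q p) i j) := by
    intro p q
    rw [trace_eq_sum _ _ (rt_transpose _), Fintype.sum_prod_type]
    have e1 : ∀ i : Fin N, ∑ l : β, ∑ k : Fin N × α, (bm X N q p * rt (M p q)) (i, l) k *
        bm D N q p (i, l) k ≤ ∑ j : Fin N, (θ / 2 * hs2 (blk (bm X N q p * rt (M p q)) i j *
          π (q + ((i : ℕ) : ZMod Q)) (p + ((j : ℕ) : ZMod Q))) +
          1 / (2 * θ) * hs2 (blk (bm D N q p) i j)) := by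
      intro i
      simp_rw [Fintype.sum_prod_type]
      rw [Finset.sum_comm]
      refine Finset.sum_le_sum fun j _ => ?_
      have hDE : blk (bm D N q p) i j * π (q + ((i : ℕ) : ZMod Q)) (p + ((j : ℕ) : ZMod Q)) =
          blk (bm D N q p) i j := by
        have e : blk (bm D N q p) i j = (1 / (N : ℝ)) •
            D (q + ((i : ℕ) : ZMod Q)) (p + ((j : ℕ) : ZMod Q)) := by
          ext l s
          simp only [blk, bm, Matrix.smul_apply, smul_eq_mul]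
        rw [e, Matrix.smul_mul, hD]
      have h1 := pair_right (blk (bm X N q p * rt (M p q)) i j) (blk (bm D N q p) i j)
        (hπ (q + ((i : ℕ) : ZMod Q)) (p + ((j : ℕ) : ZMod Q))).symm hDE
      have h2 := pair_le (blk (bm X N q p * rt (M p q)) i j *
        π (q + ((i : ℕ) : ZMod Q)) (p + ((j : ℕ) : ZMod Q))) (blk (bm D N q p) i j) hθ
      rw [← h1] at h2
      exact h2
    refine (Finset.sum_le_sum fun i _ => e1 i).trans ?_
    have e2 : ∑ i : Fin N, ∑ j : Fin N, (θ / 2 * hs2 (blk (bm X N q p * rt (M p q)) i j *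
          π (q + ((i : ℕ) : ZMod Q)) (p + ((j : ℕ) : ZMod Q))) +
          1 / (2 * θ) * hs2 (blk (bm D N q p) i j)) =
        θ / 2 * ∑ i : Fin N, ∑ j : Fin N, hs2 (blk (bm X N q p * rt (M p q)) i j *
          π (q + ((i : ℕ) : ZMod Q)) (p + ((j : ℕ) : ZMod Q))) +
        1 / (2 * θ) * ∑ i : Fin N, ∑ j : Fin N, hs2 (blk (bm D N q p) i j) := by
      simp_rw [Finset.sum_add_distrib, ← Finset.mul_sum]
    rw [e2]
    refine add_le_add (mul_le_mul_of_nonneg_left ?_ (by positivity)) le_rfl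
    rw [Finset.sum_comm, Finset.mul_sum]
    refine Finset.sum_le_sum fun j _ => ?_
    calc ∑ i : Fin N, hs2 (blk (bm X N q p * rt (M p q)) i j *
          π (q + ((i : ℕ) : ZMod Q)) (p + ((j : ℕ) : ZMod Q)))
        ≤ ∑ i : Fin N, (1 / (L : ℝ)) * ∑ r ∈ range (N + 2 * L),
            hs2 (blk (bm X N q p * rt (M p q)) i j *
              π (q - (L : ZMod Q) + (r : ZMod Q)) (p + ((j : ℕ) : ZMod Q))) := by
          refine Finset.sum_le_sum fun i _ => ?_
          exact pc_avg (π := fun y x => π x y) hL hpc (p + ((j : ℕ) : ZMod Q)) q (i : ℕ) i.2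
            (fun P => hs2 (blk (bm X N q p * rt (M p q)) i j * P)) (fun _ => hs2_nonneg _)
      _ = (1 / (L : ℝ)) * ∑ r ∈ range (N + 2 * L), ∑ i : Fin N,
            hs2 (blk (bm X N q p * rt (M p q)) i j *
              π (q - (L : ZMod Q) + (r : ZMod Q)) (p + ((j : ℕ) : ZMod Q))) := by
          rw [← Finset.mul_sum, Finset.sum_comm]
      _ ≤ (1 / (L : ℝ)) * ∑ r ∈ range (N + 2 * L), ξ ^ 2 * (K ^ 2 / N) *
            (π (q - (L : ZMod Q) + (r : ZMod Q)) (p + ((j : ℕ) : ZMod Q))).trace := by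
          refine mul_le_mul_of_nonneg_left (Finset.sum_le_sum fun r _ => ?_) (by positivity)
          exact right_block (bm X N q p) (hM p q) j (hπ _ _) (hξ p q) (hK p q j)
  refine (Finset.sum_le_sum fun p _ => Finset.sum_le_sum fun q _ => hbox p q).trans ?_
  simp_rw [Finset.sum_add_distrib, ← Finset.mul_sum]
  rw [sum_hs2_bm D hN]
  have hT : ∑ p : ZMod Q, ∑ q : ZMod Q, ∑ j : Fin N, ∑ r ∈ range (N + 2 * L),
      (π (q - (L : ZMod Q) + (r : ZMod Q)) (p + ((j : ℕ) : ZMod Q))).trace =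
      (N * (N + 2 * L : ℝ)) * ∑ x, ∑ y, (π x y).trace := by
    have c1 : ∑ p : ZMod Q, ∑ q : ZMod Q, ∑ j : Fin N, ∑ r ∈ range (N + 2 * L),
        (π (q - (L : ZMod Q) + (r : ZMod Q)) (p + ((j : ℕ) : ZMod Q))).trace =
        ∑ j : Fin N, ∑ r ∈ range (N + 2 * L), ∑ p : ZMod Q, ∑ q : ZMod Q,
        (π (q - (L : ZMod Q) + (r : ZMod Q)) (p + ((j : ℕ) : ZMod Q))).trace := by
      calc _ = ∑ p : ZMod Q, ∑ j : Fin N, ∑ q : ZMod Q, ∑ r ∈ range (N + 2 * L),
            (π (q - (L : ZMod Q) + (r : ZMod Q)) (p + ((j : ℕ) : ZMod Q))).trace :=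
            Finset.sum_congr rfl fun _ _ => Finset.sum_comm
        _ = ∑ j : Fin N, ∑ p : ZMod Q, ∑ q : ZMod Q, ∑ r ∈ range (N + 2 * L),
            (π (q - (L : ZMod Q) + (r : ZMod Q)) (p + ((j : ℕ) : ZMod Q))).trace :=
            Finset.sum_comm
        _ = ∑ j : Fin N, ∑ p : ZMod Q, ∑ r ∈ range (N + 2 * L), ∑ q : ZMod Q,
            (π (q - (L : ZMod Q) + (r : ZMod Q)) (p + ((j : ℕ) : ZMod Q))).trace :=
            Finset.sum_congr rfl fun _ _ => Finset.sum_congr rfl fun _ _ => Finset.sum_comm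
        _ = _ := Finset.sum_congr rfl fun _ _ => Finset.sum_comm
    rw [c1]
    have h1 : ∀ (j : Fin N) (r : ℕ), ∑ p : ZMod Q, ∑ q : ZMod Q,
        (π (q - (L : ZMod Q) + (r : ZMod Q)) (p + ((j : ℕ) : ZMod Q))).trace =
        ∑ x, ∑ y, (π x y).trace := by
      intro j r
      have := sum_shift2 (fun x y => (π x y).trace) (-(L : ZMod Q) + (r : ZMod Q))
        ((j : ℕ) : ZMod Q)
      rw [← this]
      refine Finset.sum_congr rfl fun p _ => Finset.sum_congr rfl fun q _ => ?_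
      congr 2
      ring
    simp_rw [h1]
    rw [Finset.sum_const, Finset.sum_const, Finset.card_range, Finset.card_univ,
      Fintype.card_fin, nsmul_eq_mul, nsmul_eq_mul]
    push_cast
    ring
  rw [hT]
  have hθ2 : 1 / (2 * θ) * ∑ x, ∑ y, hs2 (D x y) ≤
      1 / (2 * θ) * (KD ^ 2 * ∑ x, ∑ y, (π x y).trace) :=
    mul_le_mul_of_nonneg_left hE (by positivity)
  refine (add_le_add le_rfl hθ2).trans (le_of_eq ?_)
  field_simp

end lat

end Crest.Agent.R079.PotL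
end

-- ▼ part R079/PLE4a_664
section

/-! R079, [E4a] (doc 2517): leaf value of `phi` on one label matrix with an operator norm bound.
helper664. -/

set_option autoImplicit false
set_option linter.unusedVariables false
set_option linter.unusedSectionVars false

namespace Crest.Agent.R079.PotL

open Matrix Finset Crest.Agent.R072
open scoped MatrixOrder

local notation "rt" => CFC.sqrt

/-- `tr M^{3/2} ≤ K tr M` if `M ≤ K²` -/
theorem phi_le_mul_trace {k : Type*} [Fintype k] [DecidableEq k] {M : Matrix k k ℝ}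
    (hM : M.PosSemidef) {K : ℝ} (hK0 : 0 ≤ K) (hK : ∀ v, v ⬝ᵥ M *ᵥ v ≤ K ^ 2 * (v ⬝ᵥ v)) :
    phi M ≤ K * M.trace := by
  have h1 : (K ^ 2 • (1 : Matrix k k ℝ)).PosSemidef := PosSemidef.one.smul (sq_nonneg K)
  have h2 : (K ^ 2 • (1 : Matrix k k ℝ) - M).PosSemidef := by
    rw [Matrix.posSemidef_iff_dotProduct_mulVec]
    refine ⟨h1.isHermitian.sub hM.isHermitian, fun v => ?_⟩
    rw [star_trivial, sub_mulVec, dotProduct_sub, smul_mulVec, one_mulVec, dotProduct_smul,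
      smul_eq_mul]
    have := hK v
    linarith
  have h3 : rt (K ^ 2 • (1 : Matrix k k ℝ)) = K • (1 : Matrix k k ℝ) := by
    apply rt_unique (PosSemidef.one.smul hK0)
    rw [smul_mul_smul_comm, mul_one, sq]
  have h4 := rt_mono' hM h1 h2
  rw [h3] at h4
  have h5 := trace_mul_le_trace_mul hM h4
  rw [mul_smul_comm, mul_one, trace_smul, smul_eq_mul, trace_mul_comm] at h5
  exact h5

section
variable {Q : ℕ} [NeZero Q] {α β : Type*} [Fintype α] [DecidableEq α] [Fintype β] [DecidableEq β]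

/-- the quadratic form of the Gram matrix of a box -/
theorem abar_quad_bm (X : ZMod Q → ZMod Q → Matrix β α ℝ) (N : ℕ) (q p : ZMod Q)
    (v : Fin N × α → ℝ) :
    v ⬝ᵥ (abar X N N q p) *ᵥ v = (bm X N q p *ᵥ v) ⬝ᵥ (bm X N q p *ᵥ v) := by
  rw [← transpose_mul_bm, ← mulVec_mulVec, dotProduct_mulVec, vecMul_transpose]


/-- [E4a] -/
theorem leaf_phi (X : ZMod Q → ZMod Q → Matrix β α ℝ) (q p : ZMod Q) {K : ℝ} (hK0 : 0 ≤ K)
    (hK : ∀ v, (X q p *ᵥ v) ⬝ᵥ (X q p *ᵥ v) ≤ K ^ 2 * (v ⬝ᵥ v)) :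
    phi (abar X 1 1 q p) ≤ K * hs2 (X q p) := by
  have hM := abar_posSemidef X 1 1 q p
  have h1 : ∀ v, v ⬝ᵥ (abar X 1 1 q p) *ᵥ v ≤ K ^ 2 * (v ⬝ᵥ v) := by
    intro v
    rw [abar_quad_bm]
    set w : α → ℝ := fun s => v (0, s) with hw
    have e1 : ∀ i : Fin 1 × β, (bm X 1 q p *ᵥ v) i = (X q p *ᵥ w) i.2 := by
      intro i
      simp only [Matrix.mulVec, dotProduct, bm, Fintype.sum_prod_type, Fin.sum_univ_one]
      have h0 : i.1 = 0 := Subsingleton.elim _ _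
      simp [h0, hw]
    have e2 : (bm X 1 q p *ᵥ v) ⬝ᵥ (bm X 1 q p *ᵥ v) = (X q p *ᵥ w) ⬝ᵥ (X q p *ᵥ w) := by
      simp only [dotProduct, e1, Fintype.sum_prod_type, Fin.sum_univ_one]
    have e3 : v ⬝ᵥ v = w ⬝ᵥ w := by
      simp only [dotProduct, Fintype.sum_prod_type, Fin.sum_univ_one, hw]
    rw [e2, e3]
    exact hK w
  refine (phi_le_mul_trace hM hK0 h1).trans (le_of_eq ?_)
  congr 1
  simp only [Matrix.trace, Matrix.diag_apply, abar, Fintype.sum_prod_type, Fin.sum_univ_one,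
    hs2]
  rw [Finset.sum_comm]
  refine Finset.sum_congr rfl fun l _ => ?_
  simp [sq]

end
end Crest.Agent.R079.PotL
end

-- ▼ part R079/PLF1_664
section

/-! R079, labelled corner in the LINE model, doc 2524 [F1]: operator bounds of the compressed
letters (`Ext.colT`, `Ext.colT2`, `Ext.leaf`).  helper664. -/

set_option autoImplicit false
set_option linter.unusedVariables false
set_option linter.unusedSectionVars false

namespace Crest.Agent.R079.PotL

open Matrix Finset Crest.Agent.R072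
open scoped MatrixOrder

section

variable {Q : ℕ} [NeZero Q] {κ lam ν : Type*} [Fintype κ] [DecidableEq κ] [Fintype lam]
  [DecidableEq lam] [Fintype ν] [DecidableEq ν]

namespace F1

/-- `v·(P F Fᵀ P) v = |(P F)ᵀ v|²` -/
theorem quad_eq (P : Matrix κ κ ℝ) (hP : Pᵀ = P) (F : Matrix κ lam ℝ) (v : κ → ℝ) :
    v ⬝ᵥ ((P * (F * Fᵀ) * P) *ᵥ v) = ((P * F)ᵀ *ᵥ v) ⬝ᵥ ((P * F)ᵀ *ᵥ v) := by
  have e : P * (F * Fᵀ) * P = (P * F) * (P * F)ᵀ := by
    rw [Matrix.transpose_mul, hP]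
    simp only [Matrix.mul_assoc]
  rw [e, ← Matrix.mulVec_mulVec, Matrix.dotProduct_mulVec, ← Matrix.mulVec_transpose]

theorem quad_nonneg (A : Matrix κ lam ℝ) (v : κ → ℝ) : 0 ≤ (Aᵀ *ᵥ v) ⬝ᵥ (Aᵀ *ᵥ v) := by
  rw [dotProduct]
  exact Finset.sum_nonneg fun i _ => mul_self_nonneg _

theorem letter_eq (c : ℝ) (A : Matrix κ lam ℝ) (v : κ → ℝ) :
    ∑ l : lam, (∑ s : κ, (c • A)ᵀ l s * v s) ^ 2 = c ^ 2 * ((Aᵀ *ᵥ v) ⬝ᵥ (Aᵀ *ᵥ v)) := by
  rw [dotProduct, Finset.mul_sum]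
  refine Finset.sum_congr rfl fun l _ => ?_
  have e : ∑ s : κ, (c • A)ᵀ l s * v s = c * (Aᵀ *ᵥ v) l := by
    rw [Matrix.mulVec, dotProduct, Finset.mul_sum]
    refine Finset.sum_congr rfl fun s _ => ?_
    simp only [Matrix.transpose_apply, Matrix.smul_apply, smul_eq_mul]
    ring
  rw [e]
  ring

/-- one window of length `2^m` -/
theorem colT0 {F : ZMod Q → ZMod Q → Matrix κ lam ℝ} {M : ℕ} {δ n : ℝ}
    {q : ℕ → ZMod Q → ZMod Q → Matrix κ κ ℝ} (h : Ext F M δ n q) (hQ : 2 ^ M ∣ Q) (hδ : 0 ≤ δ)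
    {m : ℕ} (hm : m < M) (p x : ZMod Q) (c : ℝ) :
    ColB (fun y x => (c • (q (m + 1) x y * F x y))ᵀ) (2 ^ m) (2 * |c| * √δ) p x := by
  intro v
  have hQ' : 2 ^ (m + 1) ∣ Q := (pow_dvd_pow 2 hm).trans hQ
  have hp : (0 : ℝ) < 2 ^ m := by positivity
  have hs : √δ ^ 2 = δ := Real.sq_sqrt hδ
  have hv : ∑ s : κ, v s ^ 2 = v ⬝ᵥ v := by
    rw [dotProduct]
    exact Finset.sum_congr rfl fun s _ => by ring
  have hcell : ∀ z : ZMod Q, ∑ y with cel (m + 1) y = cel (m + 1) z,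
      c ^ 2 * (((q (m + 1) x y * F x y)ᵀ *ᵥ v) ⬝ᵥ ((q (m + 1) x y * F x y)ᵀ *ᵥ v)) ≤
        c ^ 2 * (2 ^ (m + 1) * δ * (v ⬝ᵥ v)) := by
    intro z
    rw [← Finset.mul_sum]
    refine mul_le_mul_of_nonneg_left ?_ (sq_nonneg c)
    refine le_trans (le_of_eq ?_) (h.bnd (m + 1) hm x z v)
    refine Finset.sum_congr rfl fun y hy => ?_
    rw [h.cell (m + 1) hm x y z (Finset.mem_filter.1 hy).2,
      quad_eq _ (h.pr (m + 1) x z).symm]
  have hw := sum_window_le hQ'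
    (fun y => c ^ 2 * (((q (m + 1) x y * F x y)ᵀ *ᵥ v) ⬝ᵥ ((q (m + 1) x y * F x y)ᵀ *ᵥ v)))
    (fun y => mul_nonneg (sq_nonneg c) (quad_nonneg _ v)) p
  have h1 := hcell p
  have h2 := hcell (p + ((2 ^ m : ℕ) : ZMod Q))
  have e1 : ∑ k ∈ range (2 ^ m), ∑ l : lam, (∑ s : κ,
      (fun y x => (c • (q (m + 1) x y * F x y))ᵀ) (p + (k : ZMod Q)) x l s * v s) ^ 2 =
      ∑ k ∈ range (2 ^ m), c ^ 2 * (((q (m + 1) x (p + (k : ZMod Q)) *
        F x (p + (k : ZMod Q)))ᵀ *ᵥ v) ⬝ᵥ ((q (m + 1) x (p + (k : ZMod Q)) *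
        F x (p + (k : ZMod Q)))ᵀ *ᵥ v)) :=
    Finset.sum_congr rfl fun k _ => letter_eq c _ v
  rw [e1, hv]
  have hcast : ((2 ^ m : ℕ) : ℝ) = 2 ^ m := by push_cast; ring
  rw [hcast]
  have h3 : ∑ k ∈ range (2 ^ m), c ^ 2 * (((q (m + 1) x (p + (k : ZMod Q)) *
        F x (p + (k : ZMod Q)))ᵀ *ᵥ v) ⬝ᵥ ((q (m + 1) x (p + (k : ZMod Q)) *
        F x (p + (k : ZMod Q)))ᵀ *ᵥ v)) ≤ 2 ^ m * (4 * c ^ 2 * δ * (v ⬝ᵥ v)) := by
    refine hw.trans ?_
    refine (add_le_add h1 h2).trans (le_of_eq ?_)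
    rw [pow_succ]
    ring
  calc (1 / (2 : ℝ) ^ m) * _ ≤ (1 / (2 : ℝ) ^ m) * (2 ^ m * (4 * c ^ 2 * δ * (v ⬝ᵥ v))) :=
        mul_le_mul_of_nonneg_left h3 (by positivity)
    _ = 4 * c ^ 2 * δ * (v ⬝ᵥ v) := by field_simp
    _ = (2 * |c| * √δ) ^ 2 * (v ⬝ᵥ v) := by
        rw [mul_pow, mul_pow, sq_abs, hs]
        ring

end F1

theorem Ext.colT {F : ZMod Q → ZMod Q → Matrix κ lam ℝ} {M : ℕ} {δ n : ℝ}
    {q : ℕ → ZMod Q → ZMod Q → Matrix κ κ ℝ} (h : Ext F M δ n q) (hQ : 2 ^ M ∣ Q) (hδ : 0 ≤ δ)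
    {m : ℕ} (hm : m < M) (j : ℕ) (p x : ZMod Q) (c : ℝ) :
    ColB (fun y x => (c • (q (m + 1) x y * F x y))ᵀ) (2 ^ (m + j)) (2 * |c| * √δ) p x := by
  revert p x
  induction j with
  | zero => exact fun p x => F1.colT0 h hQ hδ hm p x c
  | succ j ih =>
    have hp : 0 < 2 ^ (m + j) := by positivity
    have e : 2 ^ (m + (j + 1)) = 2 ^ (m + j) + 2 ^ (m + j) := by ring
    rw [e]
    exact ColB_double hp ih

theorem Ext.colT2 {F : ZMod Q → ZMod Q → Matrix κ lam ℝ} {M : ℕ} {δ n δ' n' : ℝ}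
    {q q' : ℕ → ZMod Q → ZMod Q → Matrix κ κ ℝ} (h : Ext F M δ n q) (h' : Ext F M δ' n' q')
    (hQ : 2 ^ M ∣ Q) (hδ : 0 ≤ δ) (hδ' : 0 ≤ δ')
    {m : ℕ} (hm : m < M) (j : ℕ) (p x : ZMod Q) (c : ℝ) :
    ColB (fun y x => (c • ((q (m + 1) x y - q' (m + 1) x y) * F x y))ᵀ) (2 ^ (m + j))
      (|c| * √(8 * (δ + δ'))) p x := by
  intro v
  have hA := h.colT hQ hδ hm j p x c v
  have hB := h'.colT hQ hδ' hm j p x c v
  have hv : 0 ≤ ∑ s : κ, v s ^ 2 := Finset.sum_nonneg fun s _ => sq_nonneg _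
  have hs : √(8 * (δ + δ')) ^ 2 = 8 * (δ + δ') := Real.sq_sqrt (by positivity)
  have h1 : √δ ^ 2 = δ := Real.sq_sqrt hδ
  have h2 : √δ' ^ 2 = δ' := Real.sq_sqrt hδ'
  have hN : (0 : ℝ) ≤ 1 / ((2 ^ (m + j) : ℕ) : ℝ) := by positivity
  have hpt : ∑ k ∈ range (2 ^ (m + j)), ∑ l : lam, (∑ s : κ,
      (fun y x => (c • ((q (m + 1) x y - q' (m + 1) x y) * F x y))ᵀ) (p + (k : ZMod Q)) x l s *
        v s) ^ 2 ≤
      2 * ∑ k ∈ range (2 ^ (m + j)), ∑ l : lam, (∑ s : κ,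
        (fun y x => (c • (q (m + 1) x y * F x y))ᵀ) (p + (k : ZMod Q)) x l s * v s) ^ 2 +
      2 * ∑ k ∈ range (2 ^ (m + j)), ∑ l : lam, (∑ s : κ,
        (fun y x => (c • (q' (m + 1) x y * F x y))ᵀ) (p + (k : ZMod Q)) x l s * v s) ^ 2 := by
    rw [Finset.mul_sum, Finset.mul_sum, ← Finset.sum_add_distrib]
    refine Finset.sum_le_sum fun k _ => ?_
    rw [Finset.mul_sum, Finset.mul_sum, ← Finset.sum_add_distrib]
    refine Finset.sum_le_sum fun l _ => ?_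
    have e : ∑ s : κ, (fun y x => (c • ((q (m + 1) x y - q' (m + 1) x y) * F x y))ᵀ)
        (p + (k : ZMod Q)) x l s * v s =
        ∑ s : κ, (fun y x => (c • (q (m + 1) x y * F x y))ᵀ) (p + (k : ZMod Q)) x l s * v s -
        ∑ s : κ, (fun y x => (c • (q' (m + 1) x y * F x y))ᵀ) (p + (k : ZMod Q)) x l s * v s := by
      rw [← Finset.sum_sub_distrib]
      refine Finset.sum_congr rfl fun s _ => ?_
      simp only [Matrix.transpose_apply, Matrix.smul_apply, smul_eq_mul, Matrix.sub_mul,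
        Matrix.sub_apply]
      ring
    rw [e]
    nlinarith [sq_nonneg (∑ s : κ, (fun y x => (c • (q (m + 1) x y * F x y))ᵀ)
      (p + (k : ZMod Q)) x l s * v s + ∑ s : κ, (fun y x => (c • (q' (m + 1) x y * F x y))ᵀ)
      (p + (k : ZMod Q)) x l s * v s)]
  refine (mul_le_mul_of_nonneg_left hpt hN).trans ?_
  rw [mul_pow, sq_abs, hs]
  rw [mul_pow, mul_pow, sq_abs, h1] at hA
  rw [mul_pow, mul_pow, sq_abs, h2] at hB
  linarith

theorem Ext.leaf {F : ZMod Q → ZMod Q → Matrix κ lam ℝ} {M : ℕ} {δ n : ℝ}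
    {q : ℕ → ZMod Q → ZMod Q → Matrix κ κ ℝ} (h : Ext F M δ n q) (x y : ZMod Q) (v : κ → ℝ) :
    ((q 0 x y * F x y)ᵀ *ᵥ v) ⬝ᵥ ((q 0 x y * F x y)ᵀ *ᵥ v) ≤ δ * (v ⬝ᵥ v) := by
  have h1 := h.bnd 0 (Nat.zero_le _) x y v
  rw [pow_zero, one_mul] at h1
  refine le_trans ?_ h1
  have h2 : ∀ y' : ZMod Q, 0 ≤ v ⬝ᵥ ((q 0 x y * (F x y' * (F x y')ᵀ) * q 0 x y) *ᵥ v) := by
    intro y'
    rw [F1.quad_eq _ (h.pr 0 x y).symm]
    exact F1.quad_nonneg _ _
  have h3 := Finset.single_le_sum (s := univ.filter fun y' => cel 0 y' = cel 0 y)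
    (f := fun y' => v ⬝ᵥ ((q 0 x y * (F x y' * (F x y')ᵀ) * q 0 x y) *ᵥ v))
    (fun y' _ => h2 y') (Finset.mem_filter.2 ⟨Finset.mem_univ y, rfl⟩)
  refine le_trans (le_of_eq ?_) h3
  exact (F1.quad_eq _ (h.pr 0 x y).symm _ v).symm

end

end Crest.Agent.R079.PotL
end

-- ▼ part R079/PLF2_396

/-! R079, labelled corner `(oo-,2+,2+)` in the LINE model (377's doc 2524), leaf F2:
`IsPr.sub`, `Ext.pc`, `Ext.energy`.  helper396. -/

set_option autoImplicit false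
set_option linter.unusedVariables false
set_option linter.unusedSectionVars false

namespace Crest.Agent.R079.PotL

open Matrix Finset Crest.Agent.R072
open scoped MatrixOrder

section
variable {Q : ℕ} [NeZero Q] {κ lam ν : Type*} [Fintype κ] [DecidableEq κ] [Fintype lam]
  [DecidableEq lam] [Fintype ν] [DecidableEq ν]

theorem IsPr.sub {a b : Matrix κ κ ℝ} (ha : IsPr a) (hb : IsPr b) (h : b * a = b) :
    IsPr (a - b) := by
  have h2 : a * b = b := by
    have := congrArg Matrix.transpose h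
    rwa [transpose_mul, ha.symm, hb.symm] at this
  refine ⟨by rw [transpose_sub, ha.symm, hb.symm], ?_⟩
  rw [Matrix.sub_mul, Matrix.mul_sub, Matrix.mul_sub, ha.idem, hb.idem, h, h2, sub_self, sub_zero]

theorem Ext.pc {F : ZMod Q → ZMod Q → Matrix κ lam ℝ} {M : ℕ} {δ n : ℝ}
    {q : ℕ → ZMod Q → ZMod Q → Matrix κ κ ℝ} (h : Ext F M δ n q) (hQ : 2 ^ M ∣ Q)
    {m : ℕ} (hm : m < M) : PC2 (fun x y => q (m + 1) x y - q m x y) (2 ^ m) := by
  intro x y
  have hd : 2 ^ m ∣ Q := (pow_dvd_pow 2 hm.le).trans hQ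
  obtain ⟨s, hs, hc, he⟩ := cel_fwd hd y
  refine ⟨s, hs, hc, fun i hi => ?_⟩
  have h1 := he i hi
  have h2 := h.cell m hm.le x _ y h1
  have h3 := h.cell (m + 1) hm x _ y (cel_succ h1)
  show q (m + 1) x _ - q m x _ = q (m + 1) x y - q m x y
  rw [h2, h3]

/-- double counting over cells -/
theorem sum_cel {m : ℕ} (h : 2 ^ m ∣ Q) (f : ZMod Q → ℝ) :
    ∑ y : ZMod Q, ∑ y' : ZMod Q with cel m y' = cel m y, f y' = 2 ^ m * ∑ y : ZMod Q, f y := by
  classical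
  have e : ∀ y : ZMod Q, ∑ y' with cel m y' = cel m y, f y' =
      ∑ y' : ZMod Q, if cel m y' = cel m y then f y' else 0 := fun y => Finset.sum_filter _ _
  simp_rw [e]
  rw [Finset.sum_comm, Finset.mul_sum]
  refine Finset.sum_congr rfl fun y' _ => ?_
  have e2 : ∑ y : ZMod Q, (if cel m y' = cel m y then f y' else 0) =
      ∑ y : ZMod Q with cel m y = cel m y', f y' := by
    rw [Finset.sum_filter]
    refine Finset.sum_congr rfl fun y _ => ?_
    by_cases hh : cel m y' = cel m y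
    · rw [if_pos hh, if_pos hh.symm]
    · rw [if_neg hh, if_neg (fun k => hh k.symm)]
  rw [e2, Finset.sum_const, card_cel h, nsmul_eq_mul]
  push_cast
  ring

theorem hs2_mul_cols (P : Matrix κ κ ℝ) (hP : Pᵀ = P) (A : Matrix κ lam ℝ) :
    hs2 (P * A) = ∑ t : κ, (fun s => P s t) ⬝ᵥ ((A * Aᵀ) *ᵥ (fun s => P s t)) := by
  have h1 : ∀ (v : κ → ℝ), v ⬝ᵥ ((A * Aᵀ) *ᵥ v) = ∑ l : lam, (∑ s : κ, v s * A s l) ^ 2 := by
    intro v
    rw [← Matrix.mulVec_mulVec, Matrix.dotProduct_mulVec]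
    simp only [dotProduct, Matrix.vecMul, Matrix.mulVec, Matrix.transpose_apply]
    refine Finset.sum_congr rfl fun l _ => ?_
    rw [sq]
    congr 1
    refine Finset.sum_congr rfl fun s _ => ?_
    ring
  unfold hs2
  refine Finset.sum_congr rfl fun t _ => ?_
  rw [h1]
  refine Finset.sum_congr rfl fun l _ => ?_
  congr 1
  rw [Matrix.mul_apply]
  refine Finset.sum_congr rfl fun s _ => ?_
  have := congrFun (congrFun hP t) s
  rw [Matrix.transpose_apply] at this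
  rw [this]

theorem psd_quad_nonneg (A : Matrix κ lam ℝ) (v : κ → ℝ) : 0 ≤ v ⬝ᵥ ((A * Aᵀ) *ᵥ v) := by
  rw [← Matrix.mulVec_mulVec, Matrix.dotProduct_mulVec, ← Matrix.mulVec_transpose]
  exact Finset.sum_nonneg fun _ _ => mul_self_nonneg _

theorem quad_fix (U A : Matrix κ κ ℝ) (v : κ → ℝ) (hU : Uᵀ = U) (hv : U *ᵥ v = v) :
    v ⬝ᵥ ((U * A * U) *ᵥ v) = v ⬝ᵥ (A *ᵥ v) := by
  have h1 : (U * A * U) *ᵥ v = U *ᵥ (A *ᵥ (U *ᵥ v)) := by
    rw [Matrix.mulVec_mulVec, Matrix.mulVec_mulVec]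
  have h2 : v ⬝ᵥ (U *ᵥ (A *ᵥ v)) = (U *ᵥ v) ⬝ᵥ (A *ᵥ v) := by
    rw [Matrix.dotProduct_mulVec, ← Matrix.mulVec_transpose, hU]
  rw [h1, hv, h2, hv]

theorem Ext.energy {F : ZMod Q → ZMod Q → Matrix κ lam ℝ} {M : ℕ} {δ n : ℝ}
    {q : ℕ → ZMod Q → ZMod Q → Matrix κ κ ℝ} (h : Ext F M δ n q) (hQ : 2 ^ M ∣ Q) (hδ : 0 ≤ δ)
    {m : ℕ} (hm : m < M) :
    ∑ x, ∑ y, hs2 ((q (m + 1) x y - q m x y) * F x y) ≤
      2 * δ * ∑ x, ∑ y, (q (m + 1) x y - q m x y).trace := by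
  classical
  have hd : 2 ^ m ∣ Q := (pow_dvd_pow 2 hm.le).trans hQ
  rw [Finset.mul_sum]
  refine Finset.sum_le_sum fun x _ => ?_
  have hpos : (0 : ℝ) < 2 ^ m := by positivity
  have key : 2 ^ m * ∑ y, hs2 ((q (m + 1) x y - q m x y) * F x y) ≤
      ∑ y, 2 ^ (m + 1) * δ * (q (m + 1) x y - q m x y).trace := by
    rw [← sum_cel hd]
    refine Finset.sum_le_sum fun y _ => ?_
    set P := q (m + 1) x y - q m x y with hPdef
    have hP : IsPr P := (h.pr (m + 1) x y).sub (h.pr m x y) (h.mono m hm x y)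
    have hqP : q (m + 1) x y * P = P := by
      have h2 : q (m + 1) x y * q m x y = q m x y := by
        have := congrArg Matrix.transpose (h.mono m hm x y)
        rwa [transpose_mul, (h.pr (m + 1) x y).symm, (h.pr m x y).symm] at this
      rw [hPdef, Matrix.mul_sub, (h.pr (m + 1) x y).idem, h2]
    have e1 : ∀ y' ∈ (univ.filter fun y' => cel m y' = cel m y),
        hs2 ((q (m + 1) x y' - q m x y') * F x y') = ∑ t : κ, (fun s => P s t) ⬝ᵥ
          ((q (m + 1) x y * (F x y' * (F x y')ᵀ) * q (m + 1) x y) *ᵥ (fun s => P s t)) := by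
      intro y' hy'
      have hc := (Finset.mem_filter.1 hy').2
      rw [h.cell m hm.le x y' y hc, h.cell (m + 1) hm x y' y (cel_succ hc), ← hPdef,
        hs2_mul_cols P hP.symm]
      refine Finset.sum_congr rfl fun t _ => ?_
      have hcol : q (m + 1) x y *ᵥ (fun s => P s t) = fun s => P s t := by
        funext s
        have := congrFun (congrFun hqP s) t
        rw [Matrix.mul_apply] at this
        exact this
      exact (quad_fix (q (m + 1) x y) (F x y' * (F x y')ᵀ) (fun s => P s t)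
        (h.pr (m + 1) x y).symm hcol).symm
    rw [Finset.sum_congr rfl e1, Finset.sum_comm]
    calc ∑ t : κ, ∑ y' with cel m y' = cel m y, (fun s => P s t) ⬝ᵥ
          ((q (m + 1) x y * (F x y' * (F x y')ᵀ) * q (m + 1) x y) *ᵥ (fun s => P s t))
        ≤ ∑ t : κ, 2 ^ (m + 1) * δ * ((fun s => P s t) ⬝ᵥ (fun s => P s t)) := by
          refine Finset.sum_le_sum fun t _ => ?_
          refine le_trans ?_ (h.bnd (m + 1) hm x y (fun s => P s t))
          refine Finset.sum_le_sum_of_subset_of_nonneg ?_ ?_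
          · intro y' hy'
            rw [Finset.mem_filter] at hy' ⊢
            exact ⟨hy'.1, cel_succ hy'.2⟩
          · intro y' _ _
            have e : q (m + 1) x y * (F x y' * (F x y')ᵀ) * q (m + 1) x y =
                (q (m + 1) x y * F x y') * (q (m + 1) x y * F x y')ᵀ := by
              rw [transpose_mul, (h.pr (m + 1) x y).symm]
              simp only [Matrix.mul_assoc]
            rw [e]
            exact psd_quad_nonneg _ _
      _ = 2 ^ (m + 1) * δ * P.trace := by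
          rw [← pr_sum_sq hP, Finset.mul_sum]
          refine Finset.sum_congr rfl fun t _ => ?_
          congr 1
          rw [dotProduct]
          refine Finset.sum_congr rfl fun s _ => ?_
          rw [sq]
  rw [← Finset.mul_sum] at key
  have e3 : (2 : ℝ) ^ (m + 1) * δ * ∑ y, (q (m + 1) x y - q m x y).trace =
      2 ^ m * (2 * δ * ∑ y, (q (m + 1) x y - q m x y).trace) := by
    rw [pow_succ]
    ring
  rw [e3] at key
  exact le_of_mul_le_mul_left key hpos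

end

end Crest.Agent.R079.PotL
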