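import Crest.Agent.R079.PLEdef_377
import Crest.Agent.R079.PLE5_377
import Crest.Agent.R079.PLF2_396_Mg
import Crest.Agent.R079.PLF4_303
import Crest.Agent.R079.PLE1_653
import Crest.Agent.R079.CRa_371

-- ▼ part R079/PLF5b_517
section

/-! R079, labelled corner in the LINE model: [F5b] `LboxL_insert`, `box_nbr` of doc 2524 (377).
helper517. -/

set_option autoImplicit false
set_option linter.unusedVariables false
set_option linter.unusedSectionVars false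

namespace Crest.Agent.R079.PotL

open Matrix Finset Crest.Agent.R072
open scoped MatrixOrder

section
variable {Q : ℕ} [NeZero Q] {κ0 κ1 κ2 : Type*} [Fintype κ0] [DecidableEq κ0]
  [Fintype κ1] [DecidableEq κ1] [Fintype κ2] [DecidableEq κ2]

/-- letters differ by factors `a b c` and a projection that is invisible inside the box -/
theorem LboxL_insert (F0 : ZMod Q → ZMod Q → Matrix κ0 κ1 ℝ)
    (F1 : ZMod Q → ZMod Q → Matrix κ1 κ2 ℝ) (F2 : ZMod Q → ZMod Q → Matrix κ2 κ0 ℝ)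
    (S : ZMod Q → ZMod Q → Matrix κ2 κ2 ℝ) (R : ZMod Q → ZMod Q → Matrix κ2 κ2 ℝ)
    (N : ℕ) (p0 p1 p2 : ZMod Q) (a b c : ℝ) (habc : a * b * c = 1)
    (h : ∀ i0 i1 i2 : Fin (N + N), S (p2 + ((i2 : ℕ) : ZMod Q)) (p1 + ((i1 : ℕ) : ZMod Q)) *
      R (p2 + ((i2 : ℕ) : ZMod Q)) (-(p0 + ((i0 : ℕ) : ZMod Q)) - (p2 + ((i2 : ℕ) : ZMod Q))) =
        S (p2 + ((i2 : ℕ) : ZMod Q)) (p1 + ((i1 : ℕ) : ZMod Q))) :
    LboxL (fun x y => a • F0 x y) (fun x y => b • (F1 x y * S y x))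
      (fun x y => c • (R x (-y - x) * F2 x y)) N p0 p1 p2 =
      LboxL F0 (fun x y => F1 x y * S y x) F2 N p0 p1 p2 := by
  unfold LboxL
  congr 1
  refine Finset.sum_congr rfl fun i0 _ => Finset.sum_congr rfl fun i1 _ =>
    Finset.sum_congr rfl fun i2 _ => ?_
  congr 1
  set x0 := p0 + ((i0 : ℕ) : ZMod Q)
  set x1 := p1 + ((i1 : ℕ) : ZMod Q)
  set x2 := p2 + ((i2 : ℕ) : ZMod Q)
  have hS : S x2 x1 * R x2 (-x0 - x2) = S x2 x1 := h i0 i1 i2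
  have e : (a • F0 x0 x1) * (b • (F1 x1 x2 * S x2 x1)) * (c • (R x2 (-x0 - x2) * F2 x2 x0)) =
      F0 x0 x1 * (F1 x1 x2 * S x2 x1) * F2 x2 x0 := by
    simp only [Matrix.smul_mul, Matrix.mul_smul, smul_smul]
    have e1 : F0 x0 x1 * (F1 x1 x2 * S x2 x1) * (R x2 (-x0 - x2) * F2 x2 x0) =
        F0 x0 x1 * (F1 x1 x2 * (S x2 x1 * R x2 (-x0 - x2))) * F2 x2 x0 := by
      simp only [Matrix.mul_assoc]
    rw [e1, hS, show c * (b * a) = a * b * c by ring, habc, one_smul]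
  rw [e]

/-- the window: `x1 = z + t`, `|t| ≤ C 2^(m+1)` inside a box of half side `2^m` and block `l` -/
theorem box_nbr {m : ℕ} (l : ℤ) (i : ℕ) (hi : i < 2 ^ m) (i0 i1 i2 : Fin (2 ^ m + 2 ^ m))
    (p0 p1 : ZMod Q) :
    ∃ t : ℤ, |t| ≤ (l.natAbs + 4 : ℕ) * 2 ^ (m + 1) ∧
      p1 + ((i1 : ℕ) : ZMod Q) = -(p0 + ((i0 : ℕ) : ZMod Q)) -
        (((l : ZMod Q) * ((2 ^ m : ℕ) : ZMod Q) + (i : ZMod Q)) - p0 - p1 +
          ((i2 : ℕ) : ZMod Q)) + (t : ZMod Q) := by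
  refine ⟨(i0 : ℕ) + (i1 : ℕ) + (i2 : ℕ) + i + l * 2 ^ m, ?_, ?_⟩
  · have h0 : ((i0 : ℕ) : ℤ) ≤ 2 * 2 ^ m := by
      have := i0.isLt
      have h2 : ((i0 : ℕ) : ℤ) < ((2 ^ m + 2 ^ m : ℕ) : ℤ) := by exact_mod_cast this
      push_cast at h2
      linarith
    have h1 : ((i1 : ℕ) : ℤ) ≤ 2 * 2 ^ m := by
      have := i1.isLt
      have h2 : ((i1 : ℕ) : ℤ) < ((2 ^ m + 2 ^ m : ℕ) : ℤ) := by exact_mod_cast this
      push_cast at h2
      linarith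
    have h2 : ((i2 : ℕ) : ℤ) ≤ 2 * 2 ^ m := by
      have := i2.isLt
      have h2 : ((i2 : ℕ) : ℤ) < ((2 ^ m + 2 ^ m : ℕ) : ℤ) := by exact_mod_cast this
      push_cast at h2
      linarith
    have h3 : ((i : ℕ) : ℤ) ≤ 2 ^ m := by exact_mod_cast hi.le
    have hp : (0 : ℤ) ≤ 2 ^ m := by positivity
    have hl : |l * 2 ^ m| = (l.natAbs : ℤ) * 2 ^ m := by
      rw [abs_mul, abs_of_nonneg hp, Int.natCast_natAbs]
    have hsum : |((i0 : ℕ) : ℤ) + (i1 : ℕ) + (i2 : ℕ) + i| ≤ 8 * 2 ^ m := by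
      rw [abs_of_nonneg (by positivity)]
      linarith
    calc |((i0 : ℕ) : ℤ) + (i1 : ℕ) + (i2 : ℕ) + i + l * 2 ^ m|
        ≤ |((i0 : ℕ) : ℤ) + (i1 : ℕ) + (i2 : ℕ) + i| + |l * 2 ^ m| := abs_add_le _ _
      _ ≤ 8 * 2 ^ m + (l.natAbs : ℤ) * 2 ^ m := by rw [hl]; linarith
      _ ≤ ((l.natAbs + 4 : ℕ) : ℤ) * 2 ^ (m + 1) := by
        push_cast
        rw [pow_succ]
        have : (0 : ℤ) ≤ (l.natAbs : ℤ) * 2 ^ m := by positivity
        push_cast at this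
        linarith
  · push_cast
    ring
end

end Crest.Agent.R079.PotL
end

-- ▼ part R079/PLF6_377
section

/-! R079, labelled corner in the LINE model, F6: one word.  helper377. -/

set_option autoImplicit false
set_option linter.unusedVariables false
set_option linter.unusedSectionVars false

namespace Crest.Agent.R079.PotL

open Matrix Finset Crest.Agent.R072
open scoped MatrixOrder

local notation "rt" => CFC.sqrt

section small

variable {κ lam : Type*} [Fintype κ] [DecidableEq κ] [Fintype lam] [DecidableEq lam]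

theorem op_tr (A : Matrix κ lam ℝ) {K : ℝ}
    (h : ∀ v, (Aᵀ *ᵥ v) ⬝ᵥ (Aᵀ *ᵥ v) ≤ K ^ 2 * (v ⬝ᵥ v)) (v : lam → ℝ) :
    (A *ᵥ v) ⬝ᵥ (A *ᵥ v) ≤ K ^ 2 * (v ⬝ᵥ v) := by
  set w := A *ᵥ v with hw
  have h1 := h w
  have e : w ⬝ᵥ w = v ⬝ᵥ (Aᵀ *ᵥ w) := by
    conv_lhs => lhs; rw [hw]
    rw [Matrix.mulVec_transpose, dotProduct_comm, Matrix.dotProduct_mulVec, dotProduct_comm]
  have h2 := Finset.sum_mul_sq_le_sq_mul_sq (Finset.univ : Finset lam) v (Aᵀ *ᵥ w)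
  have hv := dot_self_nonneg v
  have hw0 := dot_self_nonneg w
  have h3 : (w ⬝ᵥ w) * (w ⬝ᵥ w) ≤ (K ^ 2 * (v ⬝ᵥ v)) * (w ⬝ᵥ w) := by
    calc (w ⬝ᵥ w) * (w ⬝ᵥ w) = (v ⬝ᵥ (Aᵀ *ᵥ w)) ^ 2 := by rw [← e]; ring
      _ ≤ (∑ i, v i ^ 2) * ∑ i, (Aᵀ *ᵥ w) i ^ 2 := h2
      _ = (v ⬝ᵥ v) * ((Aᵀ *ᵥ w) ⬝ᵥ (Aᵀ *ᵥ w)) := by simp only [dotProduct, sq]
      _ ≤ (v ⬝ᵥ v) * (K ^ 2 * (w ⬝ᵥ w)) := mul_le_mul_of_nonneg_left h1 hv
      _ = _ := by ring
  rcases eq_or_lt_of_le hw0 with h0 | h0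
  · rw [← h0]; positivity
  · exact le_of_mul_le_mul_right h3 h0

theorem hs2_smul (c : ℝ) (A : Matrix κ lam ℝ) : hs2 (c • A) = c ^ 2 * hs2 A := by
  unfold hs2
  rw [Finset.mul_sum]
  refine Finset.sum_congr rfl fun l _ => ?_
  rw [Finset.mul_sum]
  refine Finset.sum_congr rfl fun s _ => ?_
  rw [Matrix.smul_apply, smul_eq_mul]
  ring

theorem hs2_eq_trace (A : Matrix κ lam ℝ) : hs2 A = (Aᵀ * A).trace := by
  unfold hs2
  rw [Matrix.trace, Finset.sum_comm]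
  refine Finset.sum_congr rfl fun s _ => ?_
  rw [Matrix.diag_apply, Matrix.mul_apply]
  refine Finset.sum_congr rfl fun l _ => ?_
  rw [Matrix.transpose_apply, sq]

theorem hs2_pr_le {P : Matrix κ κ ℝ} (hP : IsPr P) (A : Matrix κ lam ℝ) :
    hs2 (P * A) ≤ hs2 A := by
  have h1 : hs2 ((1 - P) * A) = hs2 A - hs2 (P * A) := by
    rw [hs2_eq_trace, hs2_eq_trace, hs2_eq_trace, transpose_mul, transpose_mul, transpose_sub,
      transpose_one, hP.symm]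
    have e1 : Aᵀ * (1 - P) * ((1 - P) * A) = Aᵀ * A - Aᵀ * P * (P * A) := by
      have : (1 - P) * (1 - P) = 1 - P := by
        rw [Matrix.sub_mul, Matrix.mul_sub, Matrix.mul_sub, Matrix.one_mul, Matrix.mul_one,
          Matrix.one_mul, hP.idem, sub_self, sub_zero]
      calc Aᵀ * (1 - P) * ((1 - P) * A) = Aᵀ * ((1 - P) * (1 - P)) * A := by
            simp only [Matrix.mul_assoc]
        _ = Aᵀ * (1 - P) * A := by rw [this]
        _ = Aᵀ * A - Aᵀ * P * A := by rw [Matrix.mul_sub, Matrix.mul_one, Matrix.sub_mul]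
        _ = Aᵀ * A - Aᵀ * (P * P) * A := by rw [hP.idem]
        _ = _ := by simp only [Matrix.mul_assoc]
    rw [e1, trace_sub]
  have := hs2_nonneg ((1 - P) * A)
  linarith

theorem hs2_sub_le (A B : Matrix κ lam ℝ) : hs2 (A - B) ≤ 2 * hs2 A + 2 * hs2 B := by
  unfold hs2
  simp_rw [Finset.mul_sum]
  rw [← Finset.sum_add_distrib]
  refine Finset.sum_le_sum fun l _ => ?_
  rw [← Finset.sum_add_distrib]
  refine Finset.sum_le_sum fun s _ => ?_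
  rw [Matrix.sub_apply]
  nlinarith [sq_nonneg (A l s + B l s)]

end small

section trp

variable {Q : ℕ} [NeZero Q] {α β : Type*} [Fintype α] [DecidableEq α] [Fintype β] [DecidableEq β]

theorem TrP_L {dg : Prop} (X D : ZMod Q → ZMod Q → Matrix β α ℝ)
    (π : ZMod Q → ZMod Q → Matrix β β ℝ)
    (hπ : ∀ x y, IsPr (π x y)) (hD : ∀ x y, π x y * D x y = D x y) {L N : ℕ} (hL : 0 < L)
    (hN : 0 < N) (hpc : PC2 π L) {μ K KD : ℝ} (hμ : 0 < μ) (hKD : 0 ≤ KD)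
    (hK : ∀ q y, ColB (fun x y => (X y x)ᵀ) N K q y)
    (hE : ∑ x, ∑ y, hs2 (D x y) ≤ KD * ∑ x, ∑ y, (π x y).trace) :
    TrP dg X D N μ (μ / 2 * (K ^ 2 * ((N + 2 * L : ℝ) / L) + KD) *
      ∑ x, ∑ y, (π x y).trace) := by
  intro M hM h1 h2
  have h := costL X D π hπ hD hL hN hpc M hM (μ := μ) (K := K) (KD := √KD) (θ := 1 / μ)
    (by positivity) h1 hK (by rw [Real.sq_sqrt hKD]; exact hE)
  refine h.trans (le_of_eq ?_)
  rw [Real.sq_sqrt hKD]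
  congr 1
  field_simp

theorem TrP_R (X D : ZMod Q → ZMod Q → Matrix β α ℝ)
    (π : ZMod Q → ZMod Q → Matrix α α ℝ)
    (hπ : ∀ x y, IsPr (π x y)) (hD : ∀ x y, D x y * π x y = D x y) {L N : ℕ} (hL : 0 < L)
    (hN : 0 < N) (hpc : PC1 π L) {μ K KD : ℝ} (hμ : 0 < μ) (hKD : 0 ≤ KD)
    (hK : ∀ q y, ColB X N K q y)
    (hE : ∑ x, ∑ y, hs2 (D x y) ≤ KD * ∑ x, ∑ y, (π x y).trace) :
    TrP True X D N μ (μ / 2 * (K ^ 2 * ((N + 2 * L : ℝ) / L) + KD) *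
      ∑ x, ∑ y, (π x y).trace) := by
  intro M hM h1 h2
  have h := costR X D π hπ hD hL hN hpc M hM (ξ := K) (K := μ) (KD := √KD) (θ := 1 / μ)
    (by positivity) (fun p q v => bm_op_col X hN hK q p v) (h2 trivial)
    (by rw [Real.sq_sqrt hKD]; exact hE)
  refine h.trans (le_of_eq ?_)
  rw [Real.sq_sqrt hKD]
  congr 1
  field_simp

end trp

section letters

variable {Q : ℕ} [NeZero Q] {κ lam ν : Type*} [Fintype κ] [DecidableEq κ] [Fintype lam]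
  [DecidableEq lam] [Fintype ν] [DecidableEq ν]

/-- compressed letter `c (q - q') F` -/
def DL (c : ℝ) (q q' : ℕ → ZMod Q → ZMod Q → Matrix κ κ ℝ) (F : ZMod Q → ZMod Q → Matrix κ lam ℝ)
    (m : ℕ) (x y : ZMod Q) : Matrix κ lam ℝ := c • ((q m x y - q' m x y) * F x y)

/-- the op-small letter with its projection -/
def PL (c : ℝ) (R : ℕ → ZMod Q → ZMod Q → Matrix κ κ ℝ) (F2 : ZMod Q → ZMod Q → Matrix κ ν ℝ)
    (m : ℕ) (x y : ZMod Q) : Matrix κ ν ℝ := c • (R m x (-y - x) * F2 x y)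

variable {F : ZMod Q → ZMod Q → Matrix κ lam ℝ} {M : ℕ} {δ n n' : ℝ}
  {q q' : ℕ → ZMod Q → ZMod Q → Matrix κ κ ℝ}

theorem DL_colT (h : Ext F M δ n q) (h' : Ext F M δ n' q') (hQ : 2 ^ M ∣ Q) (hδ : 0 ≤ δ)
    {m : ℕ} (hm : m < M) (j : ℕ) {c w : ℝ} (hw : w = |c| * √δ) (p x : ZMod Q) :
    ColB (fun y x => (DL c q q' F (m + 1) x y)ᵀ) (2 ^ (m + j)) (4 * w) p x := by
  have h1 := Ext.colT2 h h' hQ hδ hδ hm j p x c
  have e : |c| * √(8 * (δ + δ)) = 4 * w := by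
    have : 8 * (δ + δ) = 4 ^ 2 * δ := by ring
    rw [this, Real.sqrt_mul (by norm_num), Real.sqrt_sq (by norm_num), hw]
    ring
  rw [e] at h1
  exact h1

theorem move_eq (c : ℝ) (q q' : ℕ → ZMod Q → ZMod Q → Matrix κ κ ℝ)
    (F : ZMod Q → ZMod Q → Matrix κ lam ℝ) (m : ℕ) (x y : ZMod Q) :
    DL c q q' F (m + 1) x y - DL c q q' F m x y =
      c • ((q (m + 1) x y - q m x y) * F x y) + (-c) • ((q' (m + 1) x y - q' m x y) * F x y) := by
  unfold DL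
  rw [← smul_sub, neg_smul, ← sub_eq_add_neg, ← smul_sub, ← Matrix.sub_mul, ← Matrix.sub_mul]
  congr 2
  abel

/-- constant of the box geometry -/
def Fk (k : ℕ) : ℝ := 2 ^ k + 2

theorem geo_le {m j k : ℕ} (hj : j ≤ k) :
    (((2 ^ (m + j) : ℕ) : ℝ) + 2 * ((2 ^ m : ℕ) : ℝ)) / ((2 ^ m : ℕ) : ℝ) ≤ Fk k := by
  have hp : (0 : ℝ) < 2 ^ m := by positivity
  push_cast
  rw [div_le_iff₀ hp, pow_add, Fk]
  have h1 : (2 : ℝ) ^ j ≤ 2 ^ k := pow_le_pow_right₀ (by norm_num) hj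
  nlinarith

theorem Fk_pos (k : ℕ) : 0 < Fk k := by unfold Fk; positivity

theorem tr_move_nonneg (h : Ext F M δ n q) {m : ℕ} (hm : m < M) :
    0 ≤ ∑ x, ∑ y, (q (m + 1) x y - q m x y).trace := by
  refine Finset.sum_nonneg fun x _ => Finset.sum_nonneg fun y _ => ?_
  have hp := IsPr.sub (h.pr (m + 1) x y) (h.pr m x y) (h.mono m hm x y)
  have := hs2_nonneg (q (m + 1) x y - q m x y)
  rwa [hs2_eq_trace, hp.symm, hp.idem] at this

/-- trace price of one piece, row side -/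
theorem piece_L {dg : Prop} (h : Ext F M δ n q) (hQ : 2 ^ M ∣ Q) (hδ : 0 ≤ δ)
    {m : ℕ} (hm : m < M) {j k : ℕ} (hj : j ≤ k) {c w μ : ℝ} (hw : w ^ 2 = c ^ 2 * δ) (hμ : 0 < μ)
    (X : ZMod Q → ZMod Q → Matrix κ lam ℝ)
    (hX : ∀ p x, ColB (fun y x => (X x y)ᵀ) (2 ^ (m + j)) (4 * w) p x) :
    TrP dg X (fun x y => c • ((q (m + 1) x y - q m x y) * F x y)) (2 ^ (m + j)) μ
      (μ / 2 * w ^ 2 * (16 * Fk k + 2) * ∑ x, ∑ y, (q (m + 1) x y - q m x y).trace) := by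
  have hpr : ∀ x y, IsPr (q (m + 1) x y - q m x y) := fun x y =>
    IsPr.sub (h.pr (m + 1) x y) (h.pr m x y) (h.mono m hm x y)
  have ht := tr_move_nonneg h hm
  refine (TrP_L X _ (fun x y => q (m + 1) x y - q m x y) hpr ?_ (L := 2 ^ m) (by positivity)
    (by positivity) (h.pc hQ hm) (μ := μ) (K := 4 * w) (KD := 2 * w ^ 2) hμ (by positivity) hX
    ?_).mono ?_
  · intro x y
    rw [Matrix.mul_smul, ← Matrix.mul_assoc, (hpr x y).idem]
  · simp_rw [hs2_smul, ← Finset.mul_sum]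
    have := mul_le_mul_of_nonneg_left (h.energy hQ hδ hm) (sq_nonneg c)
    calc _ ≤ _ := this
      _ = _ := by rw [hw]; ring
  · refine mul_le_mul_of_nonneg_right ?_ ht
    have hg := geo_le (m := m) hj
    have : (4 * w) ^ 2 * ((((2 ^ (m + j) : ℕ) : ℝ) + 2 * ((2 ^ m : ℕ) : ℝ)) / ((2 ^ m : ℕ) : ℝ)) ≤
        (4 * w) ^ 2 * Fk k := mul_le_mul_of_nonneg_left hg (sq_nonneg _)
    have h2 := mul_le_mul_of_nonneg_left (add_le_add this (le_refl (2 * w ^ 2)))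
      (by positivity : 0 ≤ μ / 2)
    refine le_trans h2 (le_of_eq ?_)
    ring

/-- trace price of one piece, column side -/
theorem piece_R (h : Ext F M δ n q) (hQ : 2 ^ M ∣ Q) (hδ : 0 ≤ δ)
    {m : ℕ} (hm : m < M) {j k : ℕ} (hj : j ≤ k) {c w μ : ℝ} (hw : w ^ 2 = c ^ 2 * δ) (hμ : 0 < μ)
    (X : ZMod Q → ZMod Q → Matrix lam κ ℝ)
    (hX : ∀ p x, ColB X (2 ^ (m + j)) (4 * w) p x) :
    TrP True X (fun y x => (c • ((q (m + 1) x y - q m x y) * F x y))ᵀ) (2 ^ (m + j)) μ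
      (μ / 2 * w ^ 2 * (16 * Fk k + 2) * ∑ x, ∑ y, (q (m + 1) x y - q m x y).trace) := by
  have hpr : ∀ x y, IsPr (q (m + 1) x y - q m x y) := fun x y =>
    IsPr.sub (h.pr (m + 1) x y) (h.pr m x y) (h.mono m hm x y)
  have ht := tr_move_nonneg h hm
  have hsw : ∑ y, ∑ x, (q (m + 1) x y - q m x y).trace =
      ∑ x, ∑ y, (q (m + 1) x y - q m x y).trace := Finset.sum_comm
  refine (TrP_R X _ (fun y x => q (m + 1) x y - q m x y) (fun y x => hpr x y) ?_ (L := 2 ^ m)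
    (by positivity) (by positivity) (h.pc hQ hm) (μ := μ) (K := 4 * w) (KD := 2 * w ^ 2) hμ
    (by positivity) hX ?_).mono ?_
  · intro y x
    rw [Matrix.transpose_smul, Matrix.transpose_mul, (hpr x y).symm, Matrix.smul_mul,
      Matrix.mul_assoc, (hpr x y).idem]
  · rw [Finset.sum_comm, hsw]
    simp_rw [hs2_transpose, hs2_smul, ← Finset.mul_sum]
    have := mul_le_mul_of_nonneg_left (h.energy hQ hδ hm) (sq_nonneg c)
    calc _ ≤ _ := this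
      _ = _ := by rw [hw]; ring
  · rw [hsw]
    refine mul_le_mul_of_nonneg_right ?_ ht
    have hg := geo_le (m := m) hj
    have : (4 * w) ^ 2 * ((((2 ^ (m + j) : ℕ) : ℝ) + 2 * ((2 ^ m : ℕ) : ℝ)) / ((2 ^ m : ℕ) : ℝ)) ≤
        (4 * w) ^ 2 * Fk k := mul_le_mul_of_nonneg_left hg (sq_nonneg _)
    have h2 := mul_le_mul_of_nonneg_left (add_le_add this (le_refl (2 * w ^ 2)))
      (by positivity : 0 ≤ μ / 2)
    refine le_trans h2 (le_of_eq ?_)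
    ring

theorem DL_priceL {dg : Prop} (h : Ext F M δ n q) (h' : Ext F M δ n' q') (hQ : 2 ^ M ∣ Q)
    (hδ : 0 ≤ δ) {m : ℕ} (hm : m < M) {j k : ℕ} (hj : j ≤ k) {c w μ : ℝ} (hw : w = |c| * √δ)
    (hμ : 0 < μ) :
    TrP dg (DL c q q' F (m + 1)) (fun x y => DL c q q' F (m + 1) x y - DL c q q' F m x y)
      (2 ^ (m + j)) μ (μ / 2 * w ^ 2 * (16 * Fk k + 2) *
        (∑ x, ∑ y, (q (m + 1) x y - q m x y).trace +
          ∑ x, ∑ y, (q' (m + 1) x y - q' m x y).trace)) := by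
  have hw2 : w ^ 2 = c ^ 2 * δ := by rw [hw, mul_pow, sq_abs, Real.sq_sqrt hδ]
  have hw3 : w ^ 2 = (-c) ^ 2 * δ := by rw [hw2]; ring
  have hc := fun p x => DL_colT h h' hQ hδ hm j hw p x
  have h1 := piece_L (dg := dg) h hQ hδ hm hj hw2 hμ (DL c q q' F (m + 1)) hc
  have h2 := piece_L (dg := dg) h' hQ hδ hm hj hw3 hμ (DL c q q' F (m + 1)) hc
  have h3 := h1.add h2
  rw [← mul_add] at h3
  simp only [move_eq]
  exact h3

theorem DL_priceR (h : Ext F M δ n q) (h' : Ext F M δ n' q') (hQ : 2 ^ M ∣ Q)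
    (hδ : 0 ≤ δ) {m : ℕ} (hm : m < M) {j k : ℕ} (hj : j ≤ k) {c w μ : ℝ} (hw : w = |c| * √δ)
    (hμ : 0 < μ) :
    TrP True (fun y x => (DL c q q' F (m + 1) x y)ᵀ)
      (fun y x => (DL c q q' F (m + 1) x y)ᵀ - (DL c q q' F m x y)ᵀ)
      (2 ^ (m + j)) μ (μ / 2 * w ^ 2 * (16 * Fk k + 2) *
        (∑ x, ∑ y, (q (m + 1) x y - q m x y).trace +
          ∑ x, ∑ y, (q' (m + 1) x y - q' m x y).trace)) := by
  have hw2 : w ^ 2 = c ^ 2 * δ := by rw [hw, mul_pow, sq_abs, Real.sq_sqrt hδ]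
  have hw3 : w ^ 2 = (-c) ^ 2 * δ := by rw [hw2]; ring
  have hc := fun p x => DL_colT h h' hQ hδ hm j hw p x
  have h1 := piece_R h hQ hδ hm hj hw2 hμ (fun y x => (DL c q q' F (m + 1) x y)ᵀ) hc
  have h2 := piece_R h' hQ hδ hm hj hw3 hμ (fun y x => (DL c q q' F (m + 1) x y)ᵀ) hc
  have h3 := h1.add h2
  rw [← mul_add] at h3
  have e : (fun y x => (DL c q q' F (m + 1) x y)ᵀ - (DL c q q' F m x y)ᵀ) =
      (fun y x => (c • ((q (m + 1) x y - q m x y) * F x y))ᵀ +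
        (-c • ((q' (m + 1) x y - q' m x y) * F x y))ᵀ) := by
    funext y x
    rw [← transpose_sub, move_eq, transpose_add]
  rw [e]
  exact h3

theorem DL_op (h : Ext F M δ n q) (h' : Ext F M δ n' q') (hQ : 2 ^ M ∣ Q)
    (hδ : 0 ≤ δ) {m : ℕ} (hm : m < M) (j : ℕ) {c w : ℝ} (hw : w = |c| * √δ) :
    OpB False (DL c q q' F (m + 1)) (2 ^ (m + j)) (4 * w) :=
  OpB.of_row (by positivity) (fun p x => DL_colT h h' hQ hδ hm j hw p x)

theorem DLt_op (h : Ext F M δ n q) (h' : Ext F M δ n' q') (hQ : 2 ^ M ∣ Q)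
    (hδ : 0 ≤ δ) {m : ℕ} (hm : m < M) (j : ℕ) {c w : ℝ} (hw : w = |c| * √δ) :
    OpB True (fun y x => (DL c q q' F (m + 1) x y)ᵀ) (2 ^ (m + j)) (4 * w) :=
  OpB.of_col (by positivity) (fun p x => DL_colT h h' hQ hδ hm j hw p x)

/-- leaf energy of a compressed letter, both orientations -/
theorem DL_leaf (h : Ext F M δ n q) (h' : Ext F M δ n' q') (hδ : 0 ≤ δ) {c w : ℝ}
    (hw : w = |c| * √δ) :
    EW (phiP lam) (DL c q q' F 0) 1 1 ≤ 8 * w * c ^ 2 * ∑ x, ∑ y, hs2 (F x y) ∧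
    EW (phiP κ) (fun y x => (DL c q q' F 0 x y)ᵀ) 1 1 ≤
      8 * w * c ^ 2 * ∑ x, ∑ y, hs2 (F x y) := by
  have hw0 : 0 ≤ w := by rw [hw]; positivity
  have hw2 : w ^ 2 = c ^ 2 * δ := by rw [hw, mul_pow, sq_abs, Real.sq_sqrt hδ]
  have hT : ∀ x y (v : κ → ℝ), ((DL c q q' F 0 x y)ᵀ *ᵥ v) ⬝ᵥ ((DL c q q' F 0 x y)ᵀ *ᵥ v) ≤
      (2 * w) ^ 2 * (v ⬝ᵥ v) := by
    intro x y v
    have h1 := h.leaf x y v
    have h2 := h'.leaf x y v
    set a := (q 0 x y * F x y)ᵀ *ᵥ v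
    set b := (q' 0 x y * F x y)ᵀ *ᵥ v
    have e : (DL c q q' F 0 x y)ᵀ *ᵥ v = c • (a - b) := by
      unfold DL
      rw [transpose_smul, Matrix.sub_mul, transpose_sub, Matrix.smul_mulVec, Matrix.sub_mulVec]
    have e2 : (c • (a - b)) ⬝ᵥ (c • (a - b)) ≤ c ^ 2 * (2 * (a ⬝ᵥ a) + 2 * (b ⬝ᵥ b)) := by
      rw [smul_dotProduct, dotProduct_smul, smul_eq_mul, smul_eq_mul, ← mul_assoc, ← sq]
      refine mul_le_mul_of_nonneg_left ?_ (sq_nonneg c)
      simp only [dotProduct, Finset.mul_sum, ← Finset.sum_add_distrib]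
      refine Finset.sum_le_sum fun i _ => ?_
      rw [Pi.sub_apply]
      nlinarith [sq_nonneg (a i + b i)]
    rw [e]
    refine e2.trans ?_
    have hc : 0 ≤ c ^ 2 := sq_nonneg c
    calc c ^ 2 * (2 * (a ⬝ᵥ a) + 2 * (b ⬝ᵥ b)) ≤
          c ^ 2 * (2 * (δ * (v ⬝ᵥ v)) + 2 * (δ * (v ⬝ᵥ v))) :=
          mul_le_mul_of_nonneg_left (by linarith) hc
      _ = 4 * (c ^ 2 * δ) * (v ⬝ᵥ v) := by ring
      _ = _ := by rw [← hw2]; ring
  have hs : ∀ x y, hs2 (DL c q q' F 0 x y) ≤ 4 * c ^ 2 * hs2 (F x y) := by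
    intro x y
    unfold DL
    rw [hs2_smul, Matrix.sub_mul]
    have h1 := hs2_sub_le (q 0 x y * F x y) (q' 0 x y * F x y)
    have h2 := hs2_pr_le (h.pr 0 x y) (F x y)
    have h3 := hs2_pr_le (h'.pr 0 x y) (F x y)
    calc c ^ 2 * _ ≤ c ^ 2 * (4 * hs2 (F x y)) :=
          mul_le_mul_of_nonneg_left (by linarith) (sq_nonneg c)
      _ = _ := by ring
  have h2w : (0 : ℝ) ≤ 2 * w := by positivity
  constructor
  · unfold EW
    rw [Finset.sum_comm, Finset.mul_sum]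
    refine Finset.sum_le_sum fun x _ => ?_
    rw [Finset.mul_sum]
    refine Finset.sum_le_sum fun y _ => ?_
    have h1 := leaf_phi (DL c q q' F 0) x y h2w (fun v => op_tr _ (hT x y) v)
    refine h1.trans ?_
    calc 2 * w * hs2 (DL c q q' F 0 x y) ≤ 2 * w * (4 * c ^ 2 * hs2 (F x y)) :=
          mul_le_mul_of_nonneg_left (hs x y) h2w
      _ = _ := by ring
  · unfold EW
    rw [Finset.mul_sum]
    refine Finset.sum_le_sum fun x _ => ?_
    rw [Finset.mul_sum]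
    refine Finset.sum_le_sum fun y _ => ?_
    have h1 := leaf_phi (fun y x => (DL c q q' F 0 x y)ᵀ) y x h2w (fun v => hT x y v)
    refine h1.trans ?_
    simp only [hs2_transpose]
    calc 2 * w * hs2 (DL c q q' F 0 x y) ≤ 2 * w * (4 * c ^ 2 * hs2 (F x y)) :=
          mul_le_mul_of_nonneg_left (hs x y) h2w
      _ = _ := by ring

end letters

section small_letter

variable {Q : ℕ} [NeZero Q] {κ ν : Type*} [Fintype κ] [DecidableEq κ] [Fintype ν] [DecidableEq ν]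
  {F2 : ZMod Q → ZMod Q → Matrix κ ν ℝ} {M C : ℕ} {τ n : ℝ}
  {q q' R : ℕ → ZMod Q → ZMod Q → Matrix κ κ ℝ}

theorem PL_op (h : RExt F2 M C τ n q q' R) (hτ : 0 ≤ τ)
    (hF2 : ∀ x x0 (v : κ → ℝ), ((F2 x x0)ᵀ *ᵥ v) ⬝ᵥ ((F2 x x0)ᵀ *ᵥ v) ≤ τ ^ 2 * (v ⬝ᵥ v))
    (m : ℕ) {N : ℕ} (hN : 0 < N) (c : ℝ) : OpB True (PL c R F2 m) N (|c| * τ) :=
  OpB.of_col hN (fun p x => h.col hτ hF2 m N p x c)

theorem PLt_op (h : RExt F2 M C τ n q q' R) (hτ : 0 ≤ τ)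
    (hF2 : ∀ x x0 (v : κ → ℝ), ((F2 x x0)ᵀ *ᵥ v) ⬝ᵥ ((F2 x x0)ᵀ *ᵥ v) ≤ τ ^ 2 * (v ⬝ᵥ v))
    (m : ℕ) {N : ℕ} (hN : 0 < N) (c : ℝ) :
    OpB True (fun y x => (PL c R F2 m x y)ᵀ) N (|c| * τ) :=
  OpB.of_col hN (fun p x => h.colT hτ hF2 m N p x c)

theorem moveP_eq (c : ℝ) (R : ℕ → ZMod Q → ZMod Q → Matrix κ κ ℝ)
    (F2 : ZMod Q → ZMod Q → Matrix κ ν ℝ) (m : ℕ) (x y : ZMod Q) :
    PL c R F2 (m + 1) x y - PL c R F2 m x y =
      (-c) • ((R m x (-y - x) - R (m + 1) x (-y - x)) * F2 x y) := by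
  unfold PL
  rw [neg_smul, ← smul_neg, ← smul_sub, ← Matrix.sub_mul, ← Matrix.neg_mul, neg_sub]

theorem PL_prsub (h : RExt F2 M C τ n q q' R) {m : ℕ} (hm : m < M) (x z : ZMod Q) :
    IsPr (R m x z - R (m + 1) x z) :=
  IsPr.sub (h.pr m x z) (h.pr (m + 1) x z) (h.mono m hm x z)

theorem PL_trnn (h : RExt F2 M C τ n q q' R) {m : ℕ} (hm : m < M) :
    0 ≤ ∑ x, ∑ x0, (R m x (-x0 - x) - R (m + 1) x (-x0 - x)).trace := by
  refine Finset.sum_nonneg fun x _ => Finset.sum_nonneg fun y _ => ?_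
  have hp := PL_prsub h hm x (-y - x)
  have := hs2_nonneg (R m x (-y - x) - R (m + 1) x (-y - x))
  rwa [hs2_eq_trace, hp.symm, hp.idem] at this

theorem PL_priceL {dg : Prop} (h : RExt F2 M C τ n q q' R) (hQ : 2 ^ M ∣ Q) (hτ : 0 ≤ τ)
    (hF2 : ∀ x x0 (v : κ → ℝ), ((F2 x x0)ᵀ *ᵥ v) ⬝ᵥ ((F2 x x0)ᵀ *ᵥ v) ≤ τ ^ 2 * (v ⬝ᵥ v))
    {m : ℕ} (hm : m < M) {j k : ℕ} (hj : j ≤ k) {c w μ : ℝ} (hw : w = |c| * τ) (hμ : 0 < μ) :
    TrP dg (PL c R F2 (m + 1)) (fun x y => PL c R F2 (m + 1) x y - PL c R F2 m x y)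
      (2 ^ (m + j)) μ (μ / 2 * w ^ 2 * (16 * Fk k + 2) *
        ∑ x, ∑ x0, (R m x (-x0 - x) - R (m + 1) x (-x0 - x)).trace) := by
  have hw2 : w ^ 2 = c ^ 2 * τ ^ 2 := by rw [hw, mul_pow, sq_abs]
  have ht := PL_trnn h hm
  simp only [moveP_eq]
  refine (TrP_L (PL c R F2 (m + 1)) _ (fun x y => R m x (-y - x) - R (m + 1) x (-y - x))
    (fun x y => PL_prsub h hm x _) ?_ (L := 2 ^ m) (by positivity)
    (by positivity) (h.pc hQ hm) (μ := μ) (K := w) (KD := w ^ 2) hμ (by positivity) ?_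
    ?_).mono ?_
  · intro x y
    rw [Matrix.mul_smul, ← Matrix.mul_assoc, (PL_prsub h hm x _).idem]
  · intro p x
    have := h.colT hτ hF2 (m + 1) (2 ^ (m + j)) p x c
    rw [← hw] at this
    exact this
  · simp_rw [hs2_smul, ← Finset.mul_sum]
    have := mul_le_mul_of_nonneg_left (h.energy hτ hF2 hm) (sq_nonneg (-c))
    calc _ ≤ _ := this
      _ = _ := by rw [hw2]; ring
  · refine mul_le_mul_of_nonneg_right ?_ ht
    have hg := geo_le (m := m) hj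
    have h0 := Fk_pos k
    have : w ^ 2 * ((((2 ^ (m + j) : ℕ) : ℝ) + 2 * ((2 ^ m : ℕ) : ℝ)) / ((2 ^ m : ℕ) : ℝ)) ≤
        w ^ 2 * Fk k := mul_le_mul_of_nonneg_left hg (sq_nonneg _)
    have h3 : w ^ 2 * Fk k + w ^ 2 ≤ w ^ 2 * (16 * Fk k + 2) := by nlinarith [sq_nonneg w]
    calc _ ≤ μ / 2 * (w ^ 2 * Fk k + w ^ 2) :=
          mul_le_mul_of_nonneg_left (add_le_add this (le_refl (w ^ 2))) (by positivity)
      _ ≤ μ / 2 * (w ^ 2 * (16 * Fk k + 2)) := mul_le_mul_of_nonneg_left h3 (by positivity)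
      _ = _ := by ring

theorem PL_priceR (h : RExt F2 M C τ n q q' R) (hQ : 2 ^ M ∣ Q) (hτ : 0 ≤ τ)
    (hF2 : ∀ x x0 (v : κ → ℝ), ((F2 x x0)ᵀ *ᵥ v) ⬝ᵥ ((F2 x x0)ᵀ *ᵥ v) ≤ τ ^ 2 * (v ⬝ᵥ v))
    {m : ℕ} (hm : m < M) {j k : ℕ} (hj : j ≤ k) {c w μ : ℝ} (hw : w = |c| * τ) (hμ : 0 < μ) :
    TrP True (fun y x => (PL c R F2 (m + 1) x y)ᵀ)
      (fun y x => (PL c R F2 (m + 1) x y)ᵀ - (PL c R F2 m x y)ᵀ)
      (2 ^ (m + j)) μ (μ / 2 * w ^ 2 * (16 * Fk k + 2) *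
        ∑ x, ∑ x0, (R m x (-x0 - x) - R (m + 1) x (-x0 - x)).trace) := by
  have hw2 : w ^ 2 = c ^ 2 * τ ^ 2 := by rw [hw, mul_pow, sq_abs]
  have ht := PL_trnn h hm
  have hsw : ∑ x0, ∑ x, (R m x (-x0 - x) - R (m + 1) x (-x0 - x)).trace =
      ∑ x, ∑ x0, (R m x (-x0 - x) - R (m + 1) x (-x0 - x)).trace := Finset.sum_comm
  have e : (fun y x => (PL c R F2 (m + 1) x y)ᵀ - (PL c R F2 m x y)ᵀ) =
      (fun y x => ((-c) • ((R m x (-y - x) - R (m + 1) x (-y - x)) * F2 x y))ᵀ) := by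
    funext y x
    rw [← transpose_sub, moveP_eq]
  rw [e]
  refine (TrP_R (fun y x => (PL c R F2 (m + 1) x y)ᵀ) _
    (fun y x => R m x (-y - x) - R (m + 1) x (-y - x))
    (fun y x => PL_prsub h hm x _) ?_ (L := 2 ^ m) (by positivity)
    (by positivity) (h.pc hQ hm) (μ := μ) (K := w) (KD := w ^ 2) hμ (by positivity) ?_
    ?_).mono ?_
  · intro y x
    rw [Matrix.transpose_smul, Matrix.transpose_mul, (PL_prsub h hm x _).symm, Matrix.smul_mul,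
      Matrix.mul_assoc, (PL_prsub h hm x _).idem]
  · intro p x
    have := h.colT hτ hF2 (m + 1) (2 ^ (m + j)) p x c
    rw [← hw] at this
    exact this
  · rw [Finset.sum_comm, hsw]
    simp_rw [hs2_transpose, hs2_smul, ← Finset.mul_sum]
    have := mul_le_mul_of_nonneg_left (h.energy hτ hF2 hm) (sq_nonneg (-c))
    calc _ ≤ _ := this
      _ = _ := by rw [hw2]; ring
  · rw [hsw]
    refine mul_le_mul_of_nonneg_right ?_ ht
    have hg := geo_le (m := m) hj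
    have h0 := Fk_pos k
    have : w ^ 2 * ((((2 ^ (m + j) : ℕ) : ℝ) + 2 * ((2 ^ m : ℕ) : ℝ)) / ((2 ^ m : ℕ) : ℝ)) ≤
        w ^ 2 * Fk k := mul_le_mul_of_nonneg_left hg (sq_nonneg _)
    have h3 : w ^ 2 * Fk k + w ^ 2 ≤ w ^ 2 * (16 * Fk k + 2) := by nlinarith [sq_nonneg w]
    calc _ ≤ μ / 2 * (w ^ 2 * Fk k + w ^ 2) :=
          mul_le_mul_of_nonneg_left (add_le_add this (le_refl (w ^ 2))) (by positivity)
      _ ≤ μ / 2 * (w ^ 2 * (16 * Fk k + 2)) := mul_le_mul_of_nonneg_left h3 (by positivity)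
      _ = _ := by ring

theorem PL_leaf (h : RExt F2 M C τ n q q' R) (hτ : 0 ≤ τ)
    (hF2 : ∀ x x0 (v : κ → ℝ), ((F2 x x0)ᵀ *ᵥ v) ⬝ᵥ ((F2 x x0)ᵀ *ᵥ v) ≤ τ ^ 2 * (v ⬝ᵥ v))
    {c w : ℝ} (hw : w = |c| * τ) :
    EW (phiP ν) (PL c R F2 0) 1 1 ≤ w ^ 3 * n ∧
    EW (phiP κ) (fun y x => (PL c R F2 0 x y)ᵀ) 1 1 ≤ w ^ 3 * n := by
  have hw0 : 0 ≤ w := by rw [hw]; positivity
  have hw2 : w ^ 2 = c ^ 2 * τ ^ 2 := by rw [hw, mul_pow, sq_abs]
  have hT : ∀ x y (v : κ → ℝ), ((PL c R F2 0 x y)ᵀ *ᵥ v) ⬝ᵥ ((PL c R F2 0 x y)ᵀ *ᵥ v) ≤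
      w ^ 2 * (v ⬝ᵥ v) := by
    intro x y v
    have h1 := hF2 x y (R 0 x (-y - x) *ᵥ v)
    have hR := h.pr 0 x (-y - x)
    have h2 : (R 0 x (-y - x) *ᵥ v) ⬝ᵥ (R 0 x (-y - x) *ᵥ v) ≤ v ⬝ᵥ v := by
      have e1 : (R 0 x (-y - x) *ᵥ v) ⬝ᵥ (R 0 x (-y - x) *ᵥ v) =
          v ⬝ᵥ (R 0 x (-y - x) *ᵥ v) := by
        rw [Matrix.dotProduct_mulVec, Matrix.vecMul_mulVec, hR.symm, hR.idem, ← Matrix.dotProduct_mulVec]
      have e2 := dot_self_nonneg (v - R 0 x (-y - x) *ᵥ v)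
      rw [sub_dotProduct, dotProduct_sub, dotProduct_sub, dotProduct_comm (R 0 x (-y - x) *ᵥ v) v,
        e1] at e2
      linarith
    have e : (PL c R F2 0 x y)ᵀ *ᵥ v = c • ((F2 x y)ᵀ *ᵥ (R 0 x (-y - x) *ᵥ v)) := by
      unfold PL
      rw [transpose_smul, transpose_mul, hR.symm, Matrix.smul_mulVec, Matrix.mulVec_mulVec]
    rw [e, smul_dotProduct, dotProduct_smul, smul_eq_mul, smul_eq_mul, ← mul_assoc, ← sq, hw2]
    have hc : 0 ≤ c ^ 2 := sq_nonneg c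
    have ht : 0 ≤ τ ^ 2 := sq_nonneg τ
    calc c ^ 2 * _ ≤ c ^ 2 * (τ ^ 2 * (v ⬝ᵥ v)) :=
          mul_le_mul_of_nonneg_left (h1.trans (mul_le_mul_of_nonneg_left h2 ht)) hc
      _ = _ := by ring
  have hsum : ∑ x, ∑ y, w * hs2 (PL c R F2 0 x y) ≤ w ^ 3 * n := by
    unfold PL
    simp_rw [hs2_smul, ← mul_assoc, ← Finset.mul_sum]
    have := mul_le_mul_of_nonneg_left h.leaf (by positivity : 0 ≤ w * c ^ 2)
    calc _ ≤ _ := this
      _ = w * (c ^ 2 * τ ^ 2) * n := by ring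
      _ = _ := by rw [← hw2]; ring
  constructor
  · refine le_trans ?_ hsum
    unfold EW
    rw [Finset.sum_comm]
    exact Finset.sum_le_sum fun x _ => Finset.sum_le_sum fun y _ =>
      leaf_phi (PL c R F2 0) x y hw0 (fun v => op_tr _ (hT x y) v)
  · refine le_trans ?_ hsum
    unfold EW
    refine Finset.sum_le_sum fun x _ => Finset.sum_le_sum fun y _ => ?_
    have h1 := leaf_phi (fun y x => (PL c R F2 0 x y)ᵀ) y x hw0 (fun v => hT x y v)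
    simp only [hs2_transpose] at h1
    exact h1

end small_letter

section word

variable {Q : ℕ} [NeZero Q] {κ0 κ1 κ2 : Type*} [Fintype κ0] [DecidableEq κ0]
  [Fintype κ1] [DecidableEq κ1] [Fintype κ2] [DecidableEq κ2]

theorem tele_cnt {κ lam : Type*} [Fintype κ] [DecidableEq κ] [Fintype lam] [DecidableEq lam]
    {F : ZMod Q → ZMod Q → Matrix κ lam ℝ} {M : ℕ} {δ n : ℝ}
    {q : ℕ → ZMod Q → ZMod Q → Matrix κ κ ℝ} (h : Ext F M δ n q) :
    ∑ m ∈ range M, ∑ x, ∑ y, (q (m + 1) x y - q m x y).trace ≤ n := by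
  refine le_trans (le_of_eq ?_) h.cnt
  rw [Finset.sum_comm]
  refine Finset.sum_congr rfl fun x _ => ?_
  rw [Finset.sum_comm]
  refine Finset.sum_congr rfl fun y _ => ?_
  simp_rw [trace_sub]
  exact Finset.sum_range_sub (fun m => (q m x y).trace) M

theorem bl_congr {f g : ZMod Q → ℝ} {N : ℕ} {l : ℤ}
    (h : ∀ i ∈ range N, f ((l : ZMod Q) * (N : ZMod Q) + (i : ZMod Q)) =
      g ((l : ZMod Q) * (N : ZMod Q) + (i : ZMod Q))) : bl f N l = bl g N l := by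
  unfold bl
  rw [Finset.sum_congr rfl h]

theorem box_letters (F0 : ZMod Q → ZMod Q → Matrix κ0 κ1 ℝ)
    (F1 : ZMod Q → ZMod Q → Matrix κ1 κ2 ℝ) (F2 : ZMod Q → ZMod Q → Matrix κ2 κ0 ℝ)
    {M : ℕ} {l : ℤ} {n τ a b c : ℝ} (habc : a * b * c = 1)
    {qA qA' : ℕ → ZMod Q → ZMod Q → Matrix κ0 κ0 ℝ}
    {qB qB' R : ℕ → ZMod Q → ZMod Q → Matrix κ2 κ2 ℝ}
    (hB : ∀ m x y, IsPr (qB m x y)) (hB' : ∀ m x y, IsPr (qB' m x y))
    (hR : RExt F2 M (l.natAbs + 4) τ n qB qB' R) {m : ℕ} (hm : m + 1 ≤ M) {i : ℕ}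
    (hi : i < 2 ^ m) (p0 p1 : ZMod Q) :
    LboxL (fun x y => (qA (m + 1) x y - qA' (m + 1) x y) * F0 x y)
      (fun x y => F1 x y * (qB (m + 1) y x - qB' (m + 1) y x)) F2 (2 ^ m) p0 p1
        (((l : ZMod Q) * ((2 ^ m : ℕ) : ZMod Q) + (i : ZMod Q)) - p0 - p1) =
    LboxL (DL a qA qA' F0 (m + 1))
      (fun x y => (DL b qB qB' (fun x y => (F1 y x)ᵀ) (m + 1) y x)ᵀ) (PL c R F2 (m + 1)) (2 ^ m)
        p0 p1 (((l : ZMod Q) * ((2 ^ m : ℕ) : ZMod Q) + (i : ZMod Q)) - p0 - p1) := by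
  have h1 := LboxL_insert (fun x y => (qA (m + 1) x y - qA' (m + 1) x y) * F0 x y) F1 F2
    (fun x y => qB (m + 1) x y - qB' (m + 1) x y) (R (m + 1)) (2 ^ m) p0 p1
    (((l : ZMod Q) * ((2 ^ m : ℕ) : ZMod Q) + (i : ZMod Q)) - p0 - p1) a b c habc (by
      intro i0 i1 i2
      obtain ⟨t, ht, he⟩ := box_nbr l i hi i0 i1 i2 p0 p1
      have h2 := hR.nbr (m + 1) hm
        (((l : ZMod Q) * ((2 ^ m : ℕ) : ZMod Q) + (i : ZMod Q)) - p0 - p1 +
          ((i2 : ℕ) : ZMod Q))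
        (-(p0 + ((i0 : ℕ) : ZMod Q)) -
          (((l : ZMod Q) * ((2 ^ m : ℕ) : ZMod Q) + (i : ZMod Q)) - p0 - p1 +
            ((i2 : ℕ) : ZMod Q))) t ht
      rw [← he] at h2
      exact h2)
  rw [← h1]
  have e1 : (fun x y => b • (F1 x y * (qB (m + 1) y x - qB' (m + 1) y x))) =
      (fun x y => (DL b qB qB' (fun x y => (F1 y x)ᵀ) (m + 1) y x)ᵀ) := by
    funext x y
    simp only [DL]
    rw [transpose_smul, transpose_mul, transpose_transpose, transpose_sub,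
      (hB (m + 1) y x).symm, (hB' (m + 1) y x).symm]
  rw [e1]
  rfl

/-- constant of one word -/
noncomputable def Cw (k : ℕ) : ℝ :=
  (Real.pi / 2) * ((8 + 64 * k) * 16 + (12 + 192 * k) * (6 * (16 * Fk k + 2)))

set_option maxHeartbeats 1600000 in
/-- **one word**: two compressed letters, op-small third letter with its low rank projection -/
theorem word_sum (F0 : ZMod Q → ZMod Q → Matrix κ0 κ1 ℝ)
    (F1 : ZMod Q → ZMod Q → Matrix κ1 κ2 ℝ) (F2 : ZMod Q → ZMod Q → Matrix κ2 κ0 ℝ)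
    {M : ℕ} (hQ : 2 ^ M ∣ Q) (k : ℕ) (l : ℤ) (hk : 2 * |l| + 20 ≤ 2 ^ k)
    {δA δB nA nA' nB nB' nR τ : ℝ} (hδA : 0 < δA) (hδB : 0 < δB) (hτ : 0 < τ)
    {qA qA' : ℕ → ZMod Q → ZMod Q → Matrix κ0 κ0 ℝ}
    (hA : Ext F0 M δA nA qA) (hA' : Ext F0 M δA nA' qA')
    {qB qB' R : ℕ → ZMod Q → ZMod Q → Matrix κ2 κ2 ℝ}
    (hB : Ext (fun x y => (F1 y x)ᵀ) M δB nB qB) (hB' : Ext (fun x y => (F1 y x)ᵀ) M δB nB' qB')
    (hR : RExt F2 M (l.natAbs + 4) τ nR qB qB' R)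
    (hF2 : ∀ x x0 (v : κ2 → ℝ), ((F2 x x0)ᵀ *ᵥ v) ⬝ᵥ ((F2 x x0)ᵀ *ᵥ v) ≤ τ ^ 2 * (v ⬝ᵥ v)) :
    ∑ m ∈ range M, bl (fun n => ∑ p0 : ZMod Q, ∑ p1 : ZMod Q,
        |LboxL (fun x y => (qA (m + 1) x y - qA' (m + 1) x y) * F0 x y)
          (fun x y => F1 x y * (qB (m + 1) y x - qB' (m + 1) y x)) F2 (2 ^ m) p0 p1
            (n - p0 - p1)|) (2 ^ m) l ≤
      Cw k * (τ * √δA * √δB) * ((∑ x, ∑ y, hs2 (F0 x y)) / δA + (∑ x, ∑ y, hs2 (F1 x y)) / δB +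
        nA + nA' + nB + nB' + nR) := by
  set W3 : ℝ := τ * √δA * √δB with hW3
  have hsA : 0 < √δA := Real.sqrt_pos.2 hδA
  have hsB : 0 < √δB := Real.sqrt_pos.2 hδB
  have hW3p : 0 < W3 := by positivity
  set w : ℝ := W3 ^ ((1 : ℝ) / 3) with hw
  have hwp : 0 < w := Real.rpow_pos_of_pos hW3p _
  have hw3 : w ^ 3 = W3 := by
    rw [hw, ← Real.rpow_natCast, ← Real.rpow_mul hW3p.le]
    norm_num
  set a : ℝ := w / √δA with ha
  set b : ℝ := w / √δB with hb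
  set c : ℝ := w / τ with hc
  have hap : 0 < a := by positivity
  have hbp : 0 < b := by positivity
  have hcp : 0 < c := by positivity
  have wa : w = |a| * √δA := by rw [abs_of_pos hap, ha]; field_simp
  have wb : w = |b| * √δB := by rw [abs_of_pos hbp, hb]; field_simp
  have wc : w = |c| * τ := by rw [abs_of_pos hcp, hc]; field_simp
  have habc : a * b * c = 1 := by
    rw [ha, hb, hc]
    have : w / √δA * (w / √δB) * (w / τ) = w ^ 3 / (τ * √δA * √δB) := by field_simp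
    rw [this, hw3, hW3]
    exact div_self (by positivity)
  have wa2 : w * a ^ 2 = W3 / δA := by
    rw [ha, div_pow, Real.sq_sqrt hδA.le, ← hw3]; ring
  have wb2 : w * b ^ 2 = W3 / δB := by
    rw [hb, div_pow, Real.sq_sqrt hδB.le, ← hw3]; ring
  set G : ZMod Q → ZMod Q → Matrix κ2 κ1 ℝ := fun x y => (F1 y x)ᵀ with hG
  set A := DL a qA qA' F0 with hAdef
  set B : ℕ → ZMod Q → ZMod Q → Matrix κ1 κ2 ℝ := fun m x y => (DL b qB qB' G m y x)ᵀ with hBdef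
  set P := PL c R F2 with hPdef
  -- the letters of the box sum
  have hlet : ∀ m ∈ range M, bl (fun n => ∑ p0 : ZMod Q, ∑ p1 : ZMod Q,
        |LboxL (fun x y => (qA (m + 1) x y - qA' (m + 1) x y) * F0 x y)
          (fun x y => F1 x y * (qB (m + 1) y x - qB' (m + 1) y x)) F2 (2 ^ m) p0 p1
            (n - p0 - p1)|) (2 ^ m) l =
      bl (fun n => ∑ p0 : ZMod Q, ∑ p1 : ZMod Q,
        |LboxL (A (m + 1)) (B (m + 1)) (P (m + 1)) (2 ^ (0 + m)) p0 p1 (n - p0 - p1)|)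
          (2 ^ (0 + m)) l := by
    intro m hm
    rw [zero_add]
    refine bl_congr fun i hi => ?_
    refine Finset.sum_congr rfl fun p0 _ => Finset.sum_congr rfl fun p1 _ => ?_
    exact congrArg abs (box_letters F0 F1 F2 habc hB.pr hB'.pr hR (Finset.mem_range.1 hm)
      (Finset.mem_range.1 hi) p0 p1)
  rw [Finset.sum_congr rfl hlet]
  refine (box_sum_from A B P k 0 M l hk).trans ?_
  -- prices
  set μ : ℝ := 6 * w with hμ
  have hμp : 0 < μ := by positivity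
  set Pc : ℝ := μ / 2 * w ^ 2 * (16 * Fk k + 2) with hPc
  have hFk := Fk_pos k
  have hPcp : 0 ≤ Pc := by positivity
  set tA : ℕ → ℝ := fun m => ∑ x, ∑ y, (qA (m + 1) x y - qA m x y).trace +
    ∑ x, ∑ y, (qA' (m + 1) x y - qA' m x y).trace with htA
  set tB : ℕ → ℝ := fun m => ∑ x, ∑ y, (qB (m + 1) x y - qB m x y).trace +
    ∑ x, ∑ y, (qB' (m + 1) x y - qB' m x y).trace with htB
  set tR : ℕ → ℝ := fun m => ∑ x, ∑ x0, (R m x (-x0 - x) - R (m + 1) x (-x0 - x)).trace with htR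
  have sA : ∑ m ∈ range M, tA m ≤ nA + nA' := by
    rw [htA, Finset.sum_add_distrib]
    exact add_le_add (tele_cnt hA) (tele_cnt hA')
  have sB : ∑ m ∈ range M, tB m ≤ nB + nB' := by
    rw [htB, Finset.sum_add_distrib]
    exact add_le_add (tele_cnt hB) (tele_cnt hB')
  have sR : ∑ m ∈ range M, tR m ≤ nR := hR.cnt'
  have nnA : 0 ≤ nA := le_trans (Finset.sum_nonneg fun m hm => tr_move_nonneg hA
    (Finset.mem_range.1 hm)) (tele_cnt hA)
  have nnA' : 0 ≤ nA' := le_trans (Finset.sum_nonneg fun m hm => tr_move_nonneg hA'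
    (Finset.mem_range.1 hm)) (tele_cnt hA')
  have nnB : 0 ≤ nB := le_trans (Finset.sum_nonneg fun m hm => tr_move_nonneg hB
    (Finset.mem_range.1 hm)) (tele_cnt hB)
  have nnB' : 0 ≤ nB' := le_trans (Finset.sum_nonneg fun m hm => tr_move_nonneg hB'
    (Finset.mem_range.1 hm)) (tele_cnt hB')
  have nnR : 0 ≤ nR := le_trans (Finset.sum_nonneg fun m hm => PL_trnn hR
    (Finset.mem_range.1 hm)) sR
  -- vertex 1
  have v1 := MSf_price (dg := False) A (DL b qB qB' G) k M (KX := 4 * w) (KZ := 4 * w) (μ := μ)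
    (fun m => Pc * tA m) (fun m => Pc * tB m) (by rw [hμ]; nlinarith [sq_nonneg w])
    (fun m hm j _ => DL_op hA hA' hQ hδA.le (Finset.mem_range.1 hm) j wa)
    (fun m hm j _ => DL_op hB hB' hQ hδB.le (Finset.mem_range.1 hm) j wb)
    (fun m hm j hj => DL_priceL hA hA' hQ hδA.le (Finset.mem_range.1 hm) hj wa hμp)
    (fun m hm j hj => DL_priceL hB hB' hQ hδB.le (Finset.mem_range.1 hm) hj wb hμp)
  -- vertex 2
  have v2 := MSf_price (dg := True) B (fun m x y => (P m y x)ᵀ) k M (KX := 4 * w) (KZ := w)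
    (μ := μ) (fun m => Pc * tB m) (fun m => Pc * tR m) (by rw [hμ]; nlinarith [sq_nonneg w])
    (fun m hm j _ => DLt_op hB hB' hQ hδB.le (Finset.mem_range.1 hm) j wb)
    (fun m hm j _ => by
      have := PLt_op hR hτ.le hF2 (m + 1) (N := 2 ^ (m + j)) (by positivity) c
      rw [← wc] at this
      exact this)
    (fun m hm j hj => DL_priceR hB hB' hQ hδB.le (Finset.mem_range.1 hm) hj wb hμp)
    (fun m hm j hj => PL_priceR hR hQ hτ.le hF2 (Finset.mem_range.1 hm) hj wc hμp)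
  -- vertex 0
  have v0 := MSf_price (dg := True) P (fun m x y => (A m y x)ᵀ) k M (KX := w) (KZ := 4 * w)
    (μ := μ) (fun m => Pc * tR m) (fun m => Pc * tA m) (by rw [hμ]; nlinarith [sq_nonneg w])
    (fun m hm j _ => by
      have := PL_op hR hτ.le hF2 (m + 1) (N := 2 ^ (m + j)) (by positivity) c
      rw [← wc] at this
      exact this)
    (fun m hm j _ => DLt_op hA hA' hQ hδA.le (Finset.mem_range.1 hm) j wa)
    (fun m hm j hj => PL_priceL hR hQ hτ.le hF2 (Finset.mem_range.1 hm) hj wc hμp)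
    (fun m hm j hj => DL_priceR hA hA' hQ hδA.le (Finset.mem_range.1 hm) hj wa hμp)
  have eB : (fun (m : ℕ) (x y : ZMod Q) => (B m y x)ᵀ) = DL b qB qB' G := by
    funext m x y
    exact transpose_transpose _
  rw [eB]
  -- leaf energies
  obtain ⟨lA1, lA2⟩ := DL_leaf hA hA' hδA.le wa
  obtain ⟨lB1, lB2⟩ := DL_leaf hB hB' hδB.le wb
  obtain ⟨lP1, lP2⟩ := PL_leaf hR hτ.le hF2 wc
  have sG : ∑ x, ∑ y, hs2 (G x y) = ∑ x, ∑ y, hs2 (F1 x y) := by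
    simp only [hG, hs2_transpose]
    rw [Finset.sum_comm]
  set a2 := ∑ x, ∑ y, hs2 (F0 x y) with ha2
  set b2 := ∑ x, ∑ y, hs2 (F1 x y) with hb2
  have ha20 : 0 ≤ a2 := Finset.sum_nonneg fun _ _ => Finset.sum_nonneg fun _ _ => hs2_nonneg _
  have hb20 : 0 ≤ b2 := Finset.sum_nonneg fun _ _ => Finset.sum_nonneg fun _ _ => hs2_nonneg _
  have qA2 : 8 * w * a ^ 2 * a2 = 8 * W3 * (a2 / δA) := by
    have : 8 * w * a ^ 2 * a2 = 8 * (w * a ^ 2) * a2 := by ring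
    rw [this, wa2]; ring
  have qB2 : 8 * w * b ^ 2 * b2 = 8 * W3 * (b2 / δB) := by
    have : 8 * w * b ^ 2 * b2 = 8 * (w * b ^ 2) * b2 := by ring
    rw [this, wb2]; ring
  rw [sG, qB2] at lB1 lB2
  rw [qA2] at lA1 lA2
  rw [hw3] at lP1 lP2
  have E1 : EE (phiP κ1) (A 0) (DL b qB qB' G 0) 1 ≤ 8 * W3 * (a2 / δA) + 8 * W3 * (b2 / δB) :=
    add_le_add lA1 lB1
  have E2 : EE (phiP κ2) (B 0) (fun x y => (P 0 y x)ᵀ) 1 ≤ 8 * W3 * (b2 / δB) + W3 * nR :=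
    add_le_add lB2 lP2
  have E0 : EE (phiP κ0) (P 0) (fun x y => (A 0 y x)ᵀ) 1 ≤ W3 * nR + 8 * W3 * (a2 / δA) :=
    add_le_add lP1 lA2
  have S1 : ∑ m ∈ range M, (Pc * tA m + Pc * tB m) ≤ Pc * (nA + nA' + nB + nB') := by
    rw [Finset.sum_add_distrib, ← Finset.mul_sum, ← Finset.mul_sum, ← mul_add]
    exact mul_le_mul_of_nonneg_left (by linarith) hPcp
  have S2 : ∑ m ∈ range M, (Pc * tB m + Pc * tR m) ≤ Pc * (nB + nB' + nR) := by
    rw [Finset.sum_add_distrib, ← Finset.mul_sum, ← Finset.mul_sum, ← mul_add]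
    exact mul_le_mul_of_nonneg_left (by linarith) hPcp
  have S0 : ∑ m ∈ range M, (Pc * tR m + Pc * tA m) ≤ Pc * (nA + nA' + nR) := by
    rw [Finset.sum_add_distrib, ← Finset.mul_sum, ← Finset.mul_sum, ← mul_add]
    exact mul_le_mul_of_nonneg_left (by linarith) hPcp
  have hk0 : (0 : ℝ) ≤ k := Nat.cast_nonneg k
  set T : ℝ := a2 / δA + b2 / δB + nA + nA' + nB + nB' + nR with hT
  have ta : 0 ≤ a2 / δA := by positivity
  have tb : 0 ≤ b2 / δB := by positivity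
  have hE : EE (phiP κ1) (A 0) (DL b qB qB' G 0) 1 + EE (phiP κ2) (B 0) (fun x y => (P 0 y x)ᵀ) 1 +
      EE (phiP κ0) (P 0) (fun x y => (A 0 y x)ᵀ) 1 ≤ 16 * (W3 * T) := by
    have h1 : W3 * (a2 / δA) + W3 * (b2 / δB) + W3 * nR ≤ W3 * T := by
      rw [← mul_add, ← mul_add]
      exact mul_le_mul_of_nonneg_left (by rw [hT]; linarith) hW3p.le
    have h2 : 0 ≤ W3 * nR := by positivity
    linarith
  have hPc2 : Pc = 3 * W3 * (16 * Fk k + 2) := by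
    rw [hPc, hμ, ← hw3]; ring
  have hS : ∑ m ∈ range M, (Pc * tA m + Pc * tB m) + ∑ m ∈ range M, (Pc * tB m + Pc * tR m) +
      ∑ m ∈ range M, (Pc * tR m + Pc * tA m) ≤ 6 * (16 * Fk k + 2) * (W3 * T) := by
    have h1 : Pc * (nA + nA' + nB + nB') + Pc * (nB + nB' + nR) + Pc * (nA + nA' + nR) ≤
        2 * Pc * T := by
      have : Pc * (nA + nA' + nB + nB') + Pc * (nB + nB' + nR) + Pc * (nA + nA' + nR) =
          2 * Pc * (nA + nA' + nB + nB' + nR) := by ring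
      rw [this]
      exact mul_le_mul_of_nonneg_left (by rw [hT]; linarith) (by positivity)
    have h2 : 2 * Pc * T = 6 * (16 * Fk k + 2) * (W3 * T) := by rw [hPc2]; ring
    linarith
  have hc1 : (0 : ℝ) ≤ 8 + 64 * k := by positivity
  have hc2 : (0 : ℝ) ≤ 12 + 192 * k := by positivity
  have m1 := mul_le_mul_of_nonneg_left hE hc1
  have m2 := mul_le_mul_of_nonneg_left hS hc2
  have fin : MSf A (DL b qB qB' G) k 0 M + MSf B (fun m x y => (P m y x)ᵀ) k 0 M +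
      MSf P (fun m x y => (A m y x)ᵀ) k 0 M ≤
      ((8 + 64 * k) * 16 + (12 + 192 * k) * (6 * (16 * Fk k + 2))) * (W3 * T) := by
    calc _ ≤ (8 + 64 * (k : ℝ)) * (EE (phiP κ1) (A 0) (DL b qB qB' G 0) 1 +
          EE (phiP κ2) (B 0) (fun x y => (P 0 y x)ᵀ) 1 +
          EE (phiP κ0) (P 0) (fun x y => (A 0 y x)ᵀ) 1) +
        (12 + 192 * (k : ℝ)) * (∑ m ∈ range M, (Pc * tA m + Pc * tB m) +
          ∑ m ∈ range M, (Pc * tB m + Pc * tR m) +
          ∑ m ∈ range M, (Pc * tR m + Pc * tA m)) := by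
          linarith [v1, v2, v0]
      _ ≤ (8 + 64 * (k : ℝ)) * (16 * (W3 * T)) +
          (12 + 192 * (k : ℝ)) * (6 * (16 * Fk k + 2) * (W3 * T)) := add_le_add m1 m2
      _ = _ := by ring
  have hpi : (0 : ℝ) ≤ Real.pi / 2 := by positivity
  refine (mul_le_mul_of_nonneg_left fin hpi).trans (le_of_eq ?_)
  unfold Cw
  ring

end word

end Crest.Agent.R079.PotL
end

-- ▼ part R079/PLE2c_476
section

/-! R079, doc 2517 [E2]: Cuculescu projections on dyadic cells, over the spectral cut as a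
hypothesis `CutH`.  helper476. -/

set_option autoImplicit false
set_option linter.unusedVariables false
set_option linter.unusedSectionVars false

namespace Crest.Agent.R079.PotL

open Matrix Finset Crest.Agent.R072
open scoped MatrixOrder

namespace E2c
section
variable {Q : ℕ} [NeZero Q] {κ : Type*} [Fintype κ] [DecidableEq κ]




theorem isPr_one : IsPr (1 : Matrix κ κ ℝ) := ⟨by simp, by simp⟩



variable (G : ZMod Q → Matrix κ κ ℝ)





end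
end E2c
end Crest.Agent.R079.PotL
end

-- ▼ part R079/PLE2n_517
section

/-! R079, labelled corner in the LINE model: [E2'] `exists_nbr` of doc 2517 (377), over
`exists_join` as hypothesis.  helper517. -/

set_option autoImplicit false

namespace Crest.Agent.R079.PotL

open Matrix Finset Crest.Agent.R072
open scoped MatrixOrder

/-- statement of [E1] `exists_join` for the index type `κ` -/
def JoinS (κ : Type*) [Fintype κ] [DecidableEq κ] : Prop :=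
  ∀ R p : Matrix κ κ ℝ, IsPr R → IsPr p →
    ∃ R' : Matrix κ κ ℝ, IsPr R' ∧ R * R' = R ∧ p * R' = p ∧
      ∀ p' : Matrix κ κ ℝ, IsPr p' → p' * p = p' → p' * R = p' →
        R'.trace - R.trace ≤ p.trace - p'.trace

theorem isPr_zero517 {κ : Type*} [Fintype κ] : IsPr (0 : Matrix κ κ ℝ) :=
  ⟨by simp, by simp⟩

theorem join_fin517 {κ : Type*} [Fintype κ] [DecidableEq κ] (hJ : JoinS κ) {σ : Type*}
    (s : Finset σ) (R : Matrix κ κ ℝ) (p : σ → Matrix κ κ ℝ) (hR : IsPr R) (hp : ∀ i, IsPr (p i)) :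
    ∃ R' : Matrix κ κ ℝ, IsPr R' ∧ R * R' = R ∧ (∀ i ∈ s, p i * R' = p i) ∧
      ∀ p' : σ → Matrix κ κ ℝ, (∀ i ∈ s, IsPr (p' i) ∧ p' i * p i = p' i ∧ p' i * R = p' i) →
        R'.trace - R.trace ≤ ∑ i ∈ s, ((p i).trace - (p' i).trace) := by
  classical
  induction s using Finset.induction_on with
  | empty => exact ⟨R, hR, hR.idem, by simp, fun p' _ => by simp⟩
  | insert a s ha ih =>
    obtain ⟨R1, h1, h2, h3, h4⟩ := ih
    obtain ⟨R', g1, g2, g3, g4⟩ := hJ R1 (p a) h1 (hp a)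
    refine ⟨R', g1, ?_, ?_, ?_⟩
    · calc R * R' = R * R1 * R' := by rw [h2]
        _ = R * (R1 * R') := by rw [Matrix.mul_assoc]
        _ = R := by rw [g2, h2]
    · intro i hi
      rcases Finset.mem_insert.mp hi with rfl | hi
      · exact g3
      · calc p i * R' = p i * R1 * R' := by rw [h3 i hi]
          _ = p i * (R1 * R') := by rw [Matrix.mul_assoc]
          _ = p i := by rw [g2, h3 i hi]
    · intro p' hp'
      rw [Finset.sum_insert ha]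
      have e1 := h4 p' (fun i hi => hp' i (Finset.mem_insert_of_mem hi))
      obtain ⟨k1, k2, k3⟩ := hp' a (Finset.mem_insert_self a s)
      have e2 := g4 (p' a) k1 k2 (by
        calc p' a * R1 = p' a * R * R1 := by rw [k3]
          _ = p' a * (R * R1) := by rw [Matrix.mul_assoc]
          _ = p' a := by rw [h2, k3])
      linarith

section cells
variable {Q : ℕ} [NeZero Q]

theorem cel_int517 {M m : ℕ} (hQ : 2 ^ M ∣ Q) (hm : m ≤ M) (z : ℤ) :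
    ((cel m (z : ZMod Q) : ℕ) : ℤ) = z / 2 ^ m % ((Q / 2 ^ m : ℕ) : ℤ) := by
  obtain ⟨k, hk⟩ : 2 ^ m ∣ Q := (pow_dvd_pow 2 hm).trans hQ
  have h1 : (((z : ZMod Q).val : ℕ) : ℤ) = z % Q := ZMod.val_intCast z
  have h2 : Q / 2 ^ m = k := by
    rw [hk]; exact Nat.mul_div_cancel_left k (by positivity)
  unfold cel
  rw [h2]
  push_cast
  rw [h1]
  have h3 : (Q : ℤ) = 2 ^ m * (k : ℤ) := by exact_mod_cast hk
  rw [h3]
  have hp : (0 : ℤ) < 2 ^ m := by positivity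
  have e1 : z % (2 ^ m * (k : ℤ)) = z + 2 ^ m * (-(k * (z / (2 ^ m * (k : ℤ))))) := by
    have := Int.emod_def z (2 ^ m * (k : ℤ))
    rw [this]; ring
  rw [e1, Int.add_mul_ediv_left _ _ hp.ne', Int.emod_def, Int.ediv_ediv_of_nonneg hp.le]
  ring

theorem cel_congr517 {M m : ℕ} (hQ : 2 ^ M ∣ Q) (hm : m ≤ M) {z z' : ℤ}
    (h : z / 2 ^ m = z' / 2 ^ m) : cel m (z : ZMod Q) = cel m (z' : ZMod Q) := by
  have h1 := cel_int517 (Q := Q) hQ hm z
  have h2 := cel_int517 (Q := Q) hQ hm z'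
  rw [h] at h1
  exact_mod_cast h1.trans h2.symm

omit [NeZero Q] in
theorem cel_succ517 (m : ℕ) (x : ZMod Q) : cel (m + 1) x = cel m x / 2 := by
  unfold cel
  rw [pow_succ, Nat.div_div_eq_div_mul]

omit [NeZero Q] in
theorem cel_up517 {m : ℕ} {x y : ZMod Q} (h : cel m x = cel m y) : cel (m + 1) x = cel (m + 1) y := by
  rw [cel_succ517, cel_succ517, h]

/-- canonical point of the cell number `a + s` -/
def rp517 (Q : ℕ) (m a : ℕ) (s : ℤ) : ZMod Q := (((a : ℤ) + s) * 2 ^ m : ℤ)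

theorem cel_rp517 {M m : ℕ} (hQ : 2 ^ M ∣ Q) (hm : m ≤ M) (x : ZMod Q) (t : ℤ) :
    cel m (x + (t : ZMod Q)) =
      cel m (rp517 Q m (cel m x) (((x.val : ℤ) + t) / 2 ^ m - (cel m x : ℤ))) := by
  have hx : x + (t : ZMod Q) = (((x.val : ℤ) + t : ℤ) : ZMod Q) := by
    push_cast
    rw [ZMod.natCast_zmod_val]
  rw [hx]
  unfold rp517
  apply cel_congr517 hQ hm
  have hp : (0 : ℤ) < 2 ^ m := by positivity
  rw [Int.mul_ediv_cancel _ hp.ne']
  ring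

/-- same cell, shift by `s` cells -/
theorem cel_rp_shift517 {M m : ℕ} (hQ : 2 ^ M ∣ Q) (hm : m ≤ M) (x : ZMod Q) (s : ℤ) :
    cel m (rp517 Q m (cel m x) s) = cel m (x + ((s * 2 ^ m : ℤ) : ZMod Q)) := by
  rw [cel_rp517 hQ hm x (s * 2 ^ m)]
  have hp : (0 : ℤ) < 2 ^ m := by positivity
  have : ((x.val : ℤ) + s * 2 ^ m) / 2 ^ m - (cel m x : ℤ) = s := by
    rw [Int.add_mul_ediv_right _ _ hp.ne']
    unfold cel
    push_cast
    ring
  rw [this]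

end cells

section nbr
variable {Q : ℕ} [NeZero Q] {κ ι : Type*} [Fintype κ] [DecidableEq κ] [Fintype ι]

/-- the shift number `c ∈ [-C, C]` -/
def sh517 (C : ℕ) (c : Fin (2 * C + 1)) : ℤ := (c : ℕ) - (C : ℤ)

theorem exists_sh517 {C : ℕ} {z : ℤ} (h1 : -(C : ℤ) ≤ z) (h2 : z ≤ C) :
    ∃ c : Fin (2 * C + 1), sh517 C c = z := by
  refine ⟨⟨(z + C).toNat, by omega⟩, ?_⟩
  unfold sh517
  simp only
  omega

theorem exists_step517 (hJ : JoinS κ) {M m : ℕ} (hQ : 2 ^ M ∣ Q) (hm : m ≤ M) (C : ℕ)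
    (p : ι → ZMod Q → Matrix κ κ ℝ) (hp : ∀ f x, IsPr (p f x))
    (hc : ∀ f x y, cel m x = cel m y → p f x = p f y)
    (S : ZMod Q → Matrix κ κ ℝ) (hS : ∀ x, IsPr (S x))
    (hSc : ∀ x y, cel m x = cel m y → S x = S y) :
    ∃ R : ZMod Q → Matrix κ κ ℝ, (∀ x, IsPr (R x)) ∧ (∀ x y, cel m x = cel m y → R x = R y) ∧
      (∀ x, S x * R x = S x) ∧
      (∀ f x, ∀ t : ℤ, |t| ≤ C * 2 ^ m → p f (x + (t : ZMod Q)) * R x = p f (x + (t : ZMod Q))) ∧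
      (∀ p' : ι → ZMod Q → Matrix κ κ ℝ, (∀ f x, IsPr (p' f x)) →
        (∀ f x y, cel m x = cel m y → p' f x = p' f y) → (∀ f x, p' f x * p f x = p' f x) →
        (∀ f x, ∀ c : Fin (2 * C + 1), p' f (x + ((sh517 C c * 2 ^ m : ℤ) : ZMod Q)) * S x =
          p' f (x + ((sh517 C c * 2 ^ m : ℤ) : ZMod Q))) →
        ∑ x, (R x).trace ≤ ∑ x, (S x).trace +
          (2 * C + 1) * (∑ f, ∑ x, (p f x).trace - ∑ f, ∑ x, (p' f x).trace)) := by
  classical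
  have key : ∀ a : ℕ, ∀ x : ZMod Q, cel m x = a → ∃ R' : Matrix κ κ ℝ, IsPr R' ∧ S x * R' = S x ∧
      (∀ i ∈ (univ : Finset (ι × Fin (2 * C + 1))),
        p i.1 (rp517 Q m a (sh517 C i.2)) * R' = p i.1 (rp517 Q m a (sh517 C i.2))) ∧
      ∀ p' : ι × Fin (2 * C + 1) → Matrix κ κ ℝ, (∀ i ∈ (univ : Finset (ι × Fin (2 * C + 1))),
        IsPr (p' i) ∧ p' i * p i.1 (rp517 Q m a (sh517 C i.2)) = p' i ∧ p' i * S x = p' i) →
        R'.trace - (S x).trace ≤ ∑ i ∈ (univ : Finset (ι × Fin (2 * C + 1))),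
          ((p i.1 (rp517 Q m a (sh517 C i.2))).trace - (p' i).trace) := by
    intro a x _
    exact join_fin517 hJ univ (S x)
      (fun i : ι × Fin (2 * C + 1) => p i.1 (rp517 Q m a (sh517 C i.2))) (hS x)
      (fun i => hp _ _)
  -- choose one matrix per cell number
  have key2 : ∀ a : ℕ, ∃ R' : Matrix κ κ ℝ, ∀ x : ZMod Q, cel m x = a → IsPr R' ∧ S x * R' = S x ∧
      (∀ i ∈ (univ : Finset (ι × Fin (2 * C + 1))),
        p i.1 (rp517 Q m a (sh517 C i.2)) * R' = p i.1 (rp517 Q m a (sh517 C i.2))) ∧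
      ∀ p' : ι × Fin (2 * C + 1) → Matrix κ κ ℝ, (∀ i ∈ (univ : Finset (ι × Fin (2 * C + 1))),
        IsPr (p' i) ∧ p' i * p i.1 (rp517 Q m a (sh517 C i.2)) = p' i ∧ p' i * S x = p' i) →
        R'.trace - (S x).trace ≤ ∑ i ∈ (univ : Finset (ι × Fin (2 * C + 1))),
          ((p i.1 (rp517 Q m a (sh517 C i.2))).trace - (p' i).trace) := by
    intro a
    by_cases h : ∃ x : ZMod Q, cel m x = a
    · obtain ⟨x0, hx0⟩ := h
      obtain ⟨R', h1, h2, h3, h4⟩ := key a x0 hx0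
      refine ⟨R', fun x hx => ?_⟩
      have : S x = S x0 := hSc _ _ (hx.trans hx0.symm)
      rw [this]
      exact ⟨h1, h2, h3, h4⟩
    · exact ⟨0, fun x hx => absurd ⟨x, hx⟩ h⟩
  choose R0 hR0 using key2
  have hpt : ∀ f (x : ZMod Q) (t : ℤ), p f (x + (t : ZMod Q)) =
      p f (rp517 Q m (cel m x) (((x.val : ℤ) + t) / 2 ^ m - (cel m x : ℤ))) :=
    fun f x t => hc f _ _ (cel_rp517 hQ hm x t)
  refine ⟨fun x => R0 (cel m x), fun x => (hR0 _ x rfl).1, ?_, fun x => (hR0 _ x rfl).2.1, ?_, ?_⟩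
  · intro x y h; simp only [h]
  · intro f x t ht
    have hp2 : (0 : ℤ) < 2 ^ m := by positivity
    have hx : ((cel m x : ℕ) : ℤ) = (x.val : ℤ) / 2 ^ m := by unfold cel; push_cast; rfl
    obtain ⟨c, hcc⟩ : ∃ c : Fin (2 * C + 1),
        sh517 C c = ((x.val : ℤ) + t) / 2 ^ m - (cel m x : ℤ) := by
      obtain ⟨t1, t2⟩ := abs_le.mp ht
      have hd1 : ((x.val : ℤ) - C * 2 ^ m) / 2 ^ m ≤ ((x.val : ℤ) + t) / 2 ^ m :=
        Int.ediv_le_ediv hp2 (by linarith)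
      have hd2 : ((x.val : ℤ) + t) / 2 ^ m ≤ ((x.val : ℤ) + C * 2 ^ m) / 2 ^ m :=
        Int.ediv_le_ediv hp2 (by linarith)
      rw [Int.add_mul_ediv_right _ _ hp2.ne'] at hd2
      rw [sub_eq_add_neg, ← neg_mul, Int.add_mul_ediv_right _ _ hp2.ne'] at hd1
      apply exists_sh517 <;> rw [hx] <;> linarith
    rw [hpt f x t, ← hcc]
    exact (hR0 _ x rfl).2.2.1 (f, c) (Finset.mem_univ _)
  · intro p' hp' hc' hpp hpS
    have hq : ∀ f (x : ZMod Q) (c : Fin (2 * C + 1)),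
        p f (rp517 Q m (cel m x) (sh517 C c)) = p f (x + ((sh517 C c * 2 ^ m : ℤ) : ZMod Q)) :=
      fun f x c => hc f _ _ (cel_rp_shift517 hQ hm x _)
    have h1 : ∀ x : ZMod Q, (R0 (cel m x)).trace - (S x).trace ≤
        ∑ i : ι × Fin (2 * C + 1), ((p i.1 (x + ((sh517 C i.2 * 2 ^ m : ℤ) : ZMod Q))).trace -
          (p' i.1 (x + ((sh517 C i.2 * 2 ^ m : ℤ) : ZMod Q))).trace) := by
      intro x
      have := (hR0 _ x rfl).2.2.2
        (fun i => p' i.1 (x + ((sh517 C i.2 * 2 ^ m : ℤ) : ZMod Q))) (by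
          intro i _
          refine ⟨hp' _ _, ?_, hpS _ _ _⟩
          rw [hq]
          exact hpp _ _)
      refine this.trans (le_of_eq (Finset.sum_congr rfl fun i _ => ?_))
      rw [hq]
    have h2 : ∑ x : ZMod Q, ((R0 (cel m x)).trace - (S x).trace) ≤
        ∑ x : ZMod Q, ∑ i : ι × Fin (2 * C + 1),
          ((p i.1 (x + ((sh517 C i.2 * 2 ^ m : ℤ) : ZMod Q))).trace -
          (p' i.1 (x + ((sh517 C i.2 * 2 ^ m : ℤ) : ZMod Q))).trace) :=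
      Finset.sum_le_sum fun x _ => h1 x
    have h3 : ∑ x : ZMod Q, ∑ i : ι × Fin (2 * C + 1),
          ((p i.1 (x + ((sh517 C i.2 * 2 ^ m : ℤ) : ZMod Q))).trace -
          (p' i.1 (x + ((sh517 C i.2 * 2 ^ m : ℤ) : ZMod Q))).trace) =
        (2 * C + 1) * (∑ f, ∑ x, (p f x).trace - ∑ f, ∑ x, (p' f x).trace) := by
      rw [Finset.sum_comm, Fintype.sum_prod_type]
      rw [Finset.sum_congr rfl fun f _ => Finset.sum_congr rfl fun c _ =>
        (show ∑ x : ZMod Q, ((p f (x + ((sh517 C c * 2 ^ m : ℤ) : ZMod Q))).trace -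
          (p' f (x + ((sh517 C c * 2 ^ m : ℤ) : ZMod Q))).trace) =
          ∑ x : ZMod Q, ((p f x).trace - (p' f x).trace) from
          Equiv.sum_comp (Equiv.addRight ((sh517 C c * 2 ^ m : ℤ) : ZMod Q))
            (fun x => (p f x).trace - (p' f x).trace))]
      simp only [Finset.sum_const, Finset.card_univ, Fintype.card_fin, nsmul_eq_mul,
        Finset.sum_sub_distrib, ← Finset.mul_sum]
      push_cast
      ring
    rw [Finset.sum_sub_distrib] at h2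
    linarith

theorem exists_nbr517 (hJ : JoinS κ) {M : ℕ}
    (hQ : 2 ^ M ∣ Q) (C : ℕ) (p : ι → ℕ → ZMod Q → Matrix κ κ ℝ) (hp : ∀ f m x, IsPr (p f m x))
    (hc : ∀ f, ∀ m ≤ M, ∀ x y, cel m x = cel m y → p f m x = p f m y)
    (hm : ∀ f, ∀ m < M, ∀ x, p f (m + 1) x * p f m x = p f (m + 1) x) :
    ∃ R : ℕ → ZMod Q → Matrix κ κ ℝ, (∀ m x, IsPr (R m x)) ∧
      (∀ m ≤ M, ∀ x y, cel m x = cel m y → R m x = R m y) ∧
      (∀ m < M, ∀ x, R (m + 1) x * R m x = R (m + 1) x) ∧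
      (∀ f, ∀ m ≤ M, ∀ x, ∀ t : ℤ, |t| ≤ C * 2 ^ m →
        p f m (x + (t : ZMod Q)) * R m x = p f m (x + (t : ZMod Q))) ∧
      ∑ x, (R 0 x).trace ≤ (2 * C + 1) * ∑ f, ∑ x, (p f 0 x).trace := by
  classical
  let P : ℕ → (ZMod Q → Matrix κ κ ℝ) → Prop := fun n S =>
    (∀ x, IsPr (S x)) ∧ (∀ x y, cel (M - n) x = cel (M - n) y → S x = S y) ∧
    (∀ f x, ∀ t : ℤ, |t| ≤ C * 2 ^ (M - n) →
      p f (M - n) (x + (t : ZMod Q)) * S x = p f (M - n) (x + (t : ZMod Q))) ∧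
    ∑ x, (S x).trace ≤ (2 * C + 1) * ∑ f, ∑ x, (p f (M - n) x).trace
  have base : ∃ S, P 0 S := by
    obtain ⟨R, h1, h2, _, h4, h5⟩ := exists_step517 hJ hQ (le_refl M) C (fun f => p f M)
      (fun f x => hp f M x) (fun f x y h => hc f M le_rfl x y h) (fun _ => 0)
      (fun _ => isPr_zero517) (fun _ _ _ => rfl)
    refine ⟨R, h1, h2, h4, ?_⟩
    have := h5 (fun _ _ => 0) (fun _ _ => isPr_zero517) (fun _ _ _ _ => rfl) (fun _ _ => by simp)
      (fun _ _ _ => by simp)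
    simpa using this
  have step : ∀ n S, P n S → ∃ S', P (n + 1) S' ∧ ∀ x, S x * S' x = S x := by
    intro n S hS
    rcases lt_or_ge n M with hn | hn
    · obtain ⟨k1, k2, k3, k4⟩ := hS
      have em : M - n = M - (n + 1) + 1 := by omega
      set m := M - (n + 1) with hmdef
      rw [em] at k2 k3 k4
      have hmM : m < M := by omega
      obtain ⟨R, h1, h2, h3, h4, h5⟩ := exists_step517 hJ hQ hmM.le C (fun f => p f m)
        (fun f x => hp f m x) (fun f x y h => hc f m hmM.le x y h) S k1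
        (fun x y h => k2 x y (cel_up517 h))
      refine ⟨R, ⟨h1, h2, h4, ?_⟩, h3⟩
      have := h5 (fun f => p f (m + 1)) (fun f x => hp f (m + 1) x)
        (fun f x y h => hc f (m + 1) hmM x y (cel_up517 h)) (fun f x => hm f m hmM x)
        (fun f x c => k3 f x _ (by
          have hp2 : (0 : ℤ) < 2 ^ m := by positivity
          have hc1 : |sh517 C c| ≤ (C : ℤ) := by
            unfold sh517
            rw [abs_le]
            omega
          rw [abs_mul, abs_of_pos hp2, pow_succ]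
          nlinarith [mul_nonneg (Int.natCast_nonneg C) hp2.le]))
      calc ∑ x, (R x).trace ≤ _ := this
        _ ≤ _ := by linarith
    · refine ⟨S, ?_, fun x => (hS.1 x).idem⟩
      have e : M - (n + 1) = M - n := by omega
      simp only [P, e]
      exact hS
  obtain ⟨S0, hS0⟩ := base
  choose! F hF using step
  let T : ℕ → ZMod Q → Matrix κ κ ℝ := fun n => Nat.rec S0 (fun k S => F k S) n
  have hT : ∀ n, P n (T n) := by
    intro n
    induction n with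
    | zero => exact hS0
    | succ k ih => exact (hF k (T k) ih).1
  refine ⟨fun m => T (M - m), fun m x => (hT _).1 x, ?_, ?_, ?_, ?_⟩
  · intro m hmM x y h
    have := (hT (M - m)).2.1 x y
    rw [Nat.sub_sub_self hmM] at this
    exact this h
  · intro m hmM x
    have e : M - m = M - (m + 1) + 1 := by omega
    show T (M - (m + 1)) x * T (M - m) x = T (M - (m + 1)) x
    rw [e]
    exact (hF (M - (m + 1)) (T (M - (m + 1))) (hT _)).2 x
  · intro f m hmM x t ht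
    have := (hT (M - m)).2.2.1 f x t
    rw [Nat.sub_sub_self hmM] at this
    exact this ht
  · have := (hT M).2.2.2
    rw [Nat.sub_self] at this
    exact this

end nbr

end Crest.Agent.R079.PotL
end

-- ▼ part R079/PLE2x_517
section

/-! R079, labelled corner in the LINE model: [E2'] `exists_nbr` of doc 2517 (377), verbatim.  helper517. -/

set_option autoImplicit false

namespace Crest.Agent.R079.PotL

open Matrix Finset Crest.Agent.R072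
open scoped MatrixOrder

theorem exists_nbr {Q : ℕ} [NeZero Q] {κ ι : Type*} [Fintype κ] [DecidableEq κ] [Fintype ι] {M : ℕ}
    (hQ : 2 ^ M ∣ Q) (C : ℕ) (p : ι → ℕ → ZMod Q → Matrix κ κ ℝ) (hp : ∀ f m x, IsPr (p f m x))
    (hc : ∀ f, ∀ m ≤ M, ∀ x y, cel m x = cel m y → p f m x = p f m y)
    (hm : ∀ f, ∀ m < M, ∀ x, p f (m + 1) x * p f m x = p f (m + 1) x) :
    ∃ R : ℕ → ZMod Q → Matrix κ κ ℝ, (∀ m x, IsPr (R m x)) ∧
      (∀ m ≤ M, ∀ x y, cel m x = cel m y → R m x = R m y) ∧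
      (∀ m < M, ∀ x, R (m + 1) x * R m x = R (m + 1) x) ∧
      (∀ f, ∀ m ≤ M, ∀ x, ∀ t : ℤ, |t| ≤ C * 2 ^ m →
        p f m (x + (t : ZMod Q)) * R m x = p f m (x + (t : ZMod Q))) ∧
      ∑ x, (R 0 x).trace ≤ (2 * C + 1) * ∑ f, ∑ x, (p f 0 x).trace :=
  exists_nbr517 (fun R p hR hp => exists_join R p hR hp) hQ C p hp hc hm

end Crest.Agent.R079.PotL
end

-- ▼ part R079/PLF3_476
section

/-! R079, doc 2524 (377), [F3]: existence of the extraction records `Ext`, `RExt`.  helper476. -/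

set_option autoImplicit false
set_option linter.unusedVariables false
set_option linter.unusedSectionVars false

namespace Crest.Agent.R079.PotL

open Matrix Finset Crest.Agent.R072
open scoped MatrixOrder

namespace F3476

section mat

variable {κ lam : Type*} [Fintype κ] [DecidableEq κ] [Fintype lam] [DecidableEq lam]

theorem isPr_one : IsPr (1 : Matrix κ κ ℝ) := ⟨by simp, by simp⟩

theorem isPr_zero : IsPr (0 : Matrix κ κ ℝ) := ⟨by simp, by simp⟩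

theorem tr_nn {P : Matrix κ κ ℝ} (hP : IsPr P) : 0 ≤ P.trace := by
  rw [← F4303.pr_sum_sq' hP]
  exact Finset.sum_nonneg fun _ _ => Finset.sum_nonneg fun _ _ => sq_nonneg _

theorem isPr_compl {P : Matrix κ κ ℝ} (hP : IsPr P) : IsPr (1 - P) :=
  F4303.pr_sub isPr_one hP (Matrix.mul_one _)

theorem mul_swap {a b : Matrix κ κ ℝ} (ha : IsPr a) (hb : IsPr b) (h : a * b = a) : b * a = a := by
  have := congrArg Matrix.transpose h
  rwa [transpose_mul, ha.symm, hb.symm] at this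





end mat

end F3476

section
variable {Q : ℕ} [NeZero Q] {κ lam ν : Type*} [Fintype κ] [DecidableEq κ] [Fintype lam]
  [DecidableEq lam] [Fintype ν] [DecidableEq ν]

open F3476



theorem ext_zero (F : ZMod Q → ZMod Q → Matrix κ lam ℝ) {M : ℕ} {δ : ℝ} (hδ : 0 ≤ δ) :
    Ext F M δ 0 (fun _ _ _ => (0 : Matrix κ κ ℝ)) := by
  refine ⟨fun _ _ _ => isPr_zero, fun _ _ _ _ _ _ => rfl, fun _ _ _ _ => Matrix.zero_mul _,
    ?_, ?_⟩
  · intro m hm x y v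
    have hv : 0 ≤ v ⬝ᵥ v := F4303.dot_nn v
    simp only [Matrix.zero_mul, Matrix.zero_mulVec, dotProduct_zero, Finset.sum_const_zero]
    positivity
  · simp

theorem exists_rext {F F' : ZMod Q → ZMod Q → Matrix κ lam ℝ} (F2 : ZMod Q → ZMod Q → Matrix κ ν ℝ)
    {M : ℕ} (hQ : 2 ^ M ∣ Q) (C : ℕ) {τ δ n δ' n' a : ℝ} (hτ : 0 ≤ τ)
    (hF2 : ∀ x x0 (v : κ → ℝ), ((F2 x x0)ᵀ *ᵥ v) ⬝ᵥ ((F2 x x0)ᵀ *ᵥ v) ≤ τ ^ 2 * (v ⬝ᵥ v))
    {q q' : ℕ → ZMod Q → ZMod Q → Matrix κ κ ℝ} (h : Ext F M δ n q) (h' : Ext F' M δ' n' q')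
    (ha : ∑ x, ∑ y, (1 - q 0 x y).trace ≤ a) (ha' : ∑ x, ∑ y, (1 - q' 0 x y).trace ≤ a) :
    ∃ R, RExt F2 M C τ ((2 * C + 1) * (2 * a)) q q' R := by
  have H := fun x : ZMod Q => exists_nbr (ι := Bool) hQ C
    (fun b m z => bif b then 1 - q m x z else 1 - q' m x z)
    (fun b m z => by
      cases b
      · exact isPr_compl (h'.pr m x z)
      · exact isPr_compl (h.pr m x z))
    (fun b m hm z z' hz => by
      cases b
      · simp only [cond_false]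
        rw [h'.cell m hm x z z' hz]
      · simp only [cond_true]
        rw [h.cell m hm x z z' hz])
    (fun b m hm z => by
      cases b
      · simp only [cond_false]
        have e := mul_swap (h'.pr m x z) (h'.pr (m + 1) x z) (h'.mono m hm x z)
        rw [Matrix.sub_mul, Matrix.mul_sub, Matrix.mul_sub, e]
        simp
      · simp only [cond_true]
        have e := mul_swap (h.pr m x z) (h.pr (m + 1) x z) (h.mono m hm x z)
        rw [Matrix.sub_mul, Matrix.mul_sub, Matrix.mul_sub, e]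
        simp)
  choose R h1 h2 h3 h4 h5 using H
  have key : ∑ x, ∑ z, (R x 0 z).trace ≤ (2 * C + 1) * (2 * a) := by
    calc ∑ x, ∑ z, (R x 0 z).trace
        ≤ ∑ x, (2 * (C : ℝ) + 1) * (∑ z, (1 - q 0 x z).trace + ∑ z, (1 - q' 0 x z).trace) := by
          refine Finset.sum_le_sum fun x _ => ?_
          have := h5 x
          simpa only [Fintype.sum_bool, cond_true, cond_false] using this
      _ = (2 * C + 1) * (∑ x, ∑ z, (1 - q 0 x z).trace + ∑ x, ∑ z, (1 - q' 0 x z).trace) := by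
          rw [← Finset.mul_sum, Finset.sum_add_distrib]
      _ ≤ (2 * C + 1) * (2 * a) := by
          refine mul_le_mul_of_nonneg_left (by linarith) (by positivity)
  refine ⟨fun m x z => R x m z, ⟨fun m x z => h1 x m z, fun m hm x z z' hz => h2 x m hm z z' hz,
    fun m hm x z => h3 x m hm z, ?_, ?_, ?_⟩⟩
  · intro m hm x z t ht
    have e1 := h4 x true m hm z t ht
    have e2 := h4 x false m hm z t ht
    simp only [cond_true, cond_false] at e1 e2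
    show (q m x (z + (t : ZMod Q)) - q' m x (z + (t : ZMod Q))) * R x m z = _
    have e3 : q m x (z + (t : ZMod Q)) - q' m x (z + (t : ZMod Q)) =
        (1 - q' m x (z + (t : ZMod Q))) - (1 - q m x (z + (t : ZMod Q))) := by abel
    rw [e3, Matrix.sub_mul, e1, e2]
  · calc ∑ x, ∑ x0, hs2 (R x 0 (-x0 - x) * F2 x x0)
        ≤ ∑ x, ∑ x0, τ ^ 2 * (R x 0 (-x0 - x)).trace :=
          Finset.sum_le_sum fun x _ => Finset.sum_le_sum fun x0 _ =>
            F4303.hs_pr_le (h1 x 0 _) (hF2 x x0)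
      _ = ∑ x, τ ^ 2 * ∑ z, (R x 0 z).trace := by
          refine Finset.sum_congr rfl fun x _ => ?_
          rw [← Finset.mul_sum]
          congr 1
          exact Fintype.sum_equiv ((Equiv.neg (ZMod Q)).trans (Equiv.subRight x)) _ _
            (fun x0 => by simp)
      _ = τ ^ 2 * ∑ x, ∑ z, (R x 0 z).trace := by rw [← Finset.mul_sum]
      _ ≤ τ ^ 2 * ((2 * C + 1) * (2 * a)) := mul_le_mul_of_nonneg_left key (sq_nonneg _)
  · refine le_trans ?_ key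
    refine Finset.sum_le_sum fun x _ => Finset.sum_le_sum fun z _ => ?_
    have h0 := tr_nn (h1 x M z)
    show (R x 0 z).trace - (R x M z).trace ≤ _
    linarith

theorem rext_one (F2 : ZMod Q → ZMod Q → Matrix κ ν ℝ) (M C : ℕ) {τ n : ℝ} (hn : 0 ≤ n)
    (h : ∑ x, ∑ x0, hs2 (F2 x x0) ≤ τ ^ 2 * n) (q q' : ℕ → ZMod Q → ZMod Q → Matrix κ κ ℝ) :
    RExt F2 M C τ n q q' (fun _ _ _ => (1 : Matrix κ κ ℝ)) := by
  refine ⟨fun _ _ _ => isPr_one, fun _ _ _ _ _ _ => rfl, fun _ _ _ _ => Matrix.mul_one _,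
    fun _ _ _ _ _ _ => Matrix.mul_one _, ?_, ?_⟩
  · simpa only [Matrix.one_mul] using h
  · simpa using hn

end
end Crest.Agent.R079.PotL
end

-- ▼ part R079/PLF7_377
section

/-! R079, labelled corner `(oo-,2+,2+)` in the LINE model, F7: level sum (`cornerL`).
helper377. -/

set_option autoImplicit false
set_option linter.unusedVariables false
set_option linter.unusedSectionVars false

namespace Crest.Agent.R079.PotL

open Matrix Finset Crest.Agent.R072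
open scoped MatrixOrder

section

variable {Q : ℕ} [NeZero Q] {κ lam : Type*} [Fintype κ] [DecidableEq κ] [Fintype lam]
  [DecidableEq lam]

theorem Ext.up {F : ZMod Q → ZMod Q → Matrix κ lam ℝ} {M : ℕ} {δ δ' n n' : ℝ}
    {q : ℕ → ZMod Q → ZMod Q → Matrix κ κ ℝ} (h : Ext F M δ n q) (hd : δ ≤ δ') (hn : n ≤ n') :
    Ext F M δ' n' q :=
  ⟨h.pr, h.cell, h.mono, fun m hm x y v => (h.bnd m hm x y v).trans
    (mul_le_mul_of_nonneg_right (mul_le_mul_of_nonneg_left hd (by positivity))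
      (dot_self_nonneg v)), h.cnt.trans hn⟩



end

section

variable {Q : ℕ} [NeZero Q] {κ0 κ1 κ2 : Type*} [Fintype κ0] [DecidableEq κ0]
  [Fintype κ1] [DecidableEq κ1] [Fintype κ2] [DecidableEq κ2]

/-- box sum of a word with letters `A m`, `B m` (moving) and `F2` -/
noncomputable def SW (A : ℕ → ZMod Q → ZMod Q → Matrix κ0 κ1 ℝ)
    (B : ℕ → ZMod Q → ZMod Q → Matrix κ1 κ2 ℝ) (F2 : ZMod Q → ZMod Q → Matrix κ2 κ0 ℝ)
    (M : ℕ) (l : ℤ) : ℝ :=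
  ∑ m ∈ range M, bl (fun n => ∑ p0 : ZMod Q, ∑ p1 : ZMod Q,
    |LboxL (A (m + 1)) (B (m + 1)) F2 (2 ^ m) p0 p1 (n - p0 - p1)|) (2 ^ m) l



/-- constant of one word -/
noncomputable def Ck (k : ℕ) (l : ℤ) : ℝ := Cw k * (44 + 8 * (l.natAbs : ℝ))

theorem Cw_nonneg (k : ℕ) : 0 ≤ Cw k := by
  unfold Cw
  have := Fk_pos k
  have := Real.pi_pos
  positivity


theorem word_fin {F0 : ZMod Q → ZMod Q → Matrix κ0 κ1 ℝ}
    {F1 : ZMod Q → ZMod Q → Matrix κ1 κ2 ℝ} {k : ℕ} {l : ℤ}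
    {a2 b2 r τ n X : ℝ} (ha2 : 0 < a2) (hb2 : 0 < b2) (hr : 0 < r) (hτ : 0 < τ)
    (hA : ∑ x, ∑ y, hs2 (F0 x y) ≤ a2) (hB : ∑ x, ∑ y, hs2 (F1 x y) ≤ b2)
    (hX : X ≤ Cw k * (τ * √(a2 / r) * √(b2 / r)) * ((∑ x, ∑ y, hs2 (F0 x y)) / (a2 / r) +
      (∑ x, ∑ y, hs2 (F1 x y)) / (b2 / r) + n)) (hn : n ≤ (42 + 8 * (l.natAbs : ℝ)) * r) :
    X ≤ Ck k l * (τ * √a2 * √b2) := by
  have h1 : (∑ x, ∑ y, hs2 (F0 x y)) / (a2 / r) ≤ r := by
    rw [div_le_iff₀ (by positivity)]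
    calc _ ≤ a2 := hA
      _ = r * (a2 / r) := by field_simp
  have h2 : (∑ x, ∑ y, hs2 (F1 x y)) / (b2 / r) ≤ r := by
    rw [div_le_iff₀ (by positivity)]
    calc _ ≤ b2 := hB
      _ = r * (b2 / r) := by field_simp
  have h3 : τ * √(a2 / r) * √(b2 / r) = τ * √a2 * √b2 / r := by
    rw [Real.sqrt_div ha2.le, Real.sqrt_div hb2.le]
    have : √r * √r = r := Real.mul_self_sqrt hr.le
    have hs : 0 < √r := Real.sqrt_pos.2 hr
    field_simp
    rw [Real.sq_sqrt hr.le]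
  refine hX.trans ?_
  rw [h3]
  have h0 : 0 ≤ Cw k * (τ * √a2 * √b2 / r) := mul_nonneg (Cw_nonneg k) (by positivity)
  calc _ ≤ Cw k * (τ * √a2 * √b2 / r) * (r + r + (42 + 8 * (l.natAbs : ℝ)) * r) :=
        mul_le_mul_of_nonneg_left (by linarith) h0
    _ = _ := by unfold Ck; field_simp; ring

theorem word_I (F0 : ZMod Q → ZMod Q → Matrix κ0 κ1 ℝ)
    (F1 : ZMod Q → ZMod Q → Matrix κ1 κ2 ℝ) (F2 : ZMod Q → ZMod Q → Matrix κ2 κ0 ℝ)
    {M : ℕ} (hQ : 2 ^ M ∣ Q) (k : ℕ) (l : ℤ) (hk : 2 * |l| + 20 ≤ 2 ^ k)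
    {a2 b2 r τ : ℝ} (ha2 : 0 < a2) (hb2 : 0 < b2) (hr : 0 < r) (hτ : 0 < τ)
    (hA : ∑ x, ∑ y, hs2 (F0 x y) ≤ a2) (hB : ∑ x, ∑ y, hs2 (F1 x y) ≤ b2)
    {q : ℕ → ZMod Q → ZMod Q → Matrix κ0 κ0 ℝ} (hq : Ext F0 M (a2 / r) (2 * r) q)
    {p p' : ℕ → ZMod Q → ZMod Q → Matrix κ2 κ2 ℝ}
    (hp : Ext (fun x y => (F1 y x)ᵀ) M (b2 / r) r p)
    (hp' : Ext (fun x y => (F1 y x)ᵀ) M (b2 / r) (2 * r) p')
    (cp : ∑ x, ∑ y, (1 - p 0 x y).trace ≤ 2 * r) (cp' : ∑ x, ∑ y, (1 - p' 0 x y).trace ≤ 2 * r)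
    (hF2 : ∀ x x0 (v : κ2 → ℝ), ((F2 x x0)ᵀ *ᵥ v) ⬝ᵥ ((F2 x x0)ᵀ *ᵥ v) ≤ τ ^ 2 * (v ⬝ᵥ v)) :
    SW (fun m x y => q m x y * F0 x y) (fun m x y => F1 x y * (p m y x - p' m y x)) F2 M l ≤
      Ck k l * (τ * √a2 * √b2) := by
  obtain ⟨R, hR⟩ := exists_rext F2 hQ (l.natAbs + 4) hτ.le hF2 hp hp' cp cp'
  have hz := ext_zero F0 (M := M) (δ := a2 / r) (by positivity)
  have h := word_sum F0 F1 F2 hQ k l hk (by positivity : 0 < a2 / r) (by positivity : 0 < b2 / r)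
    hτ hq hz hp hp' hR hF2
  simp only [sub_zero] at h
  refine word_fin (n := 2 * r + 0 + r + 2 * r + (2 * ((l.natAbs + 4 : ℕ) : ℝ) + 1) * (2 * (2 * r)))
    ha2 hb2 hr hτ hA hB ?_ ?_
  · refine h.trans (le_of_eq ?_)
    ring
  · push_cast
    linarith

theorem word_last (F0 : ZMod Q → ZMod Q → Matrix κ0 κ1 ℝ)
    (F1 : ZMod Q → ZMod Q → Matrix κ1 κ2 ℝ) (F2 : ZMod Q → ZMod Q → Matrix κ2 κ0 ℝ)
    {M : ℕ} (hQ : 2 ^ M ∣ Q) (k : ℕ) (l : ℤ) (hk : 2 * |l| + 20 ≤ 2 ^ k)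
    {a2 b2 r τ : ℝ} (ha2 : 0 < a2) (hb2 : 0 < b2) (hr : 0 < r) (hτ : 0 < τ)
    (hA : ∑ x, ∑ y, hs2 (F0 x y) ≤ a2) (hB : ∑ x, ∑ y, hs2 (F1 x y) ≤ b2)
    {q : ℕ → ZMod Q → ZMod Q → Matrix κ0 κ0 ℝ} (hq : Ext F0 M (a2 / r) r q)
    {p : ℕ → ZMod Q → ZMod Q → Matrix κ2 κ2 ℝ}
    (hp : Ext (fun x y => (F1 y x)ᵀ) M (b2 / r) r p)
    (hF2 : ∀ x x0 (v : κ2 → ℝ), ((F2 x x0)ᵀ *ᵥ v) ⬝ᵥ ((F2 x x0)ᵀ *ᵥ v) ≤ τ ^ 2 * (v ⬝ᵥ v))
    (hJ : ∑ x, ∑ y, hs2 (F2 x y) ≤ τ ^ 2 * r) :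
    SW (fun m x y => q m x y * F0 x y) (fun m x y => F1 x y * p m y x) F2 M l ≤
      Ck k l * (τ * √a2 * √b2) := by
  have hz := ext_zero F0 (M := M) (δ := a2 / r) (by positivity)
  have hz' := ext_zero (fun x y => (F1 y x)ᵀ) (M := M) (δ := b2 / r) (by positivity)
  have hR := rext_one F2 M (l.natAbs + 4) hr.le hJ p (fun _ _ _ => 0)
  have h := word_sum F0 F1 F2 hQ k l hk (by positivity : 0 < a2 / r) (by positivity : 0 < b2 / r)
    hτ hq hz hp hz' hR hF2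
  simp only [sub_zero] at h
  refine word_fin (n := r + 0 + r + 0 + r) ha2 hb2 hr hτ hA hB ?_ ?_
  · refine h.trans (le_of_eq ?_)
    ring
  · have : 0 ≤ (l.natAbs : ℝ) * r := by positivity
    linarith



end

end Crest.Agent.R079.PotL
end

-- ▼ part R079/CRdef_253

/-! R079, RAGGED CORNER (CR) in the line model (text of record: note 833 of helper371), literals of
team T3.  Scalar real letters on `ZMod Q`:  `A(x0,x1)`, `B(x1,x2)`, `C(x2,x0)` (killer).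
A box of the killer = window of side `L` at `(q, p)`: rows `x2 ∈ q + [0,L)`, columns
`x0 ∈ p + [0,L)`, ALL translates.  helper253.

L3 (360) : `Extr`, existence `ExistsExtr`, trivial record `ExtrTriv`.
L3b (138): `FlOfExtr` (function letters of a word have good operator bounds and cheap moves).
L4 (279) : `ExistsSpc` (window spaces).          L4b (804): `KilOfSpc`, `RegOfDead` (counting).
L5 (250, 87): comparison of scales (typed in CRdef2_253 against CRb_371).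
L6 (253): word, ladder, last word, `CornerR`.    L7 (446): wrapper.  -/

set_option autoImplicit false
set_option linter.unusedVariables false
set_option linter.unusedSectionVars false

namespace Crest.Agent.R079.CRdefx253

open Matrix Finset Crest.Agent.R072
open Crest.Agent.R079.PotL (bl cel IsPr hs2)
open scoped MatrixOrder

/-- kernels -/
abbrev Mx (Q : ℕ) : Type := Matrix (ZMod Q) (ZMod Q) ℝ

section gen

variable {m n : Type*} [Fintype m] [Fintype n]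

/-- operator norm at most `c` -/
def OpLe (A : Matrix m n ℝ) (c : ℝ) : Prop :=
  0 ≤ c ∧ ∀ v : n → ℝ, ∑ i, (∑ j, A i j * v j) ^ 2 ≤ c ^ 2 * ∑ j, v j ^ 2

/-- trace norm at most `c` (by duality) -/
def TrN (E : Matrix m n ℝ) (c : ℝ) : Prop :=
  ∀ K : Matrix n m ℝ, OpLe K 1 → |(K * E).trace| ≤ c

end gen

variable {Q : ℕ} [NeZero Q]

/-- `x` is in the window `p + [0, L)` -/
def win (L : ℕ) (p x : ZMod Q) : Prop := (x - p).val < L

instance (L : ℕ) (p x : ZMod Q) : Decidable (win L p x) := inferInstanceAs (Decidable (_ < _))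

/-- restriction to the window -/
noncomputable def I1 (L : ℕ) (p : ZMod Q) : Mx Q := diagonal fun x => if win L p x then 1 else 0

/-- the part of the kernel in the box of side `L` at `(q, p)` -/
noncomputable def box (F : Mx Q) (L : ℕ) (q p : ZMod Q) : Mx Q := I1 L q * F * I1 L p

/-- `a` steps of length `2^m` -/
def st (m a : ℕ) : ZMod Q := ((a * 2 ^ m : ℕ) : ZMod Q)

/-- `(q, p)` is within `D 2^L` of `(c, d)` -/
def near (D L : ℕ) (c d q p : ZMod Q) : Prop :=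
  (∃ s : ℤ, |s| ≤ D * 2 ^ L ∧ q = c + (s : ZMod Q)) ∧ ∃ t : ℤ, |t| ≤ D * 2 ^ L ∧ p = d + (t : ZMod Q)

/-- exit: box of scale `m + k'` alive, one of its sub boxes of scale `m` dead -/
def Exit (al : ℕ → ZMod Q → ZMod Q → Prop) (k' m : ℕ) (q p : ZMod Q) : Prop :=
  al (m + k') q p ∧ ∃ a < 2 ^ k', ∃ b < 2 ^ k', ¬ al m (q + st m a) (p + st m b)

/-- the four half boxes of the box of side `2^(m+1)` at `(q, p)` are alive -/
def Al4 (al : ℕ → ZMod Q → ZMod Q → Prop) (m : ℕ) (q p : ZMod Q) : Prop :=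
  ∀ a < 2, ∀ b < 2, al m (q + st m a) (p + st m b)

open Classical in
/-- region: alive boxes, local operator norm at most `τ`, exits have bounded density -/
structure Reg (C : Mx Q) (al : ℕ → ZMod Q → ZMod Q → Prop) (M k D : ℕ) (τ C1 : ℝ) : Prop where
  op : ∀ m < M, ∀ q p, al m q p → OpLe (box C (2 ^ m) q p) (2 ^ m * τ)
  ex : ∀ k' ≤ k, ∀ L ≤ M, ∀ c d : ZMod Q, ∑ m ∈ range (L + 1), ∑ q : ZMod Q, ∑ p : ZMod Q,
    (if m + k' < M ∧ near D L c d q p ∧ Exit al k' m q p then (1 : ℝ) else 0) ≤ C1 * 4 ^ L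

open Classical in
/-- what the last word needs: local mean square of `C` at most `E0` on the alive boxes, at most `Ar`
alive boxes of each scale, at most `Ar` exits -/
structure Last (C : Mx Q) (al : ℕ → ZMod Q → ZMod Q → Prop) (M k : ℕ) (E0 Ar : ℝ) : Prop where
  hs : ∀ m < M, ∀ q p, al m q p → hs2 (box C (2 ^ m) q p) ≤ 4 ^ m * E0
  ar : ∀ m < M, ∑ q : ZMod Q, ∑ p : ZMod Q, (if al m q p then (1 : ℝ) else 0) ≤ Ar
  ex : ∀ k' ≤ k, ∑ m ∈ range M, ∑ q : ZMod Q, ∑ p : ZMod Q,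
    (if m + k' < M ∧ Exit al k' m q p then (1 : ℝ) else 0) ≤ Ar

/-- region given by dead aligned cells (downward closed); alive = the window meets no dead cell -/
structure Dead (dd : ℕ → ZMod Q → ZMod Q → Prop) (M : ℕ) : Prop where
  cell : ∀ m u v u' v', cel m u = cel m u' → cel m v = cel m v' → dd m u v → dd m u' v'
  down : ∀ m, m + 1 < M → ∀ u v, dd (m + 1) u v → dd m u v

/-- alive windows of a dead cell structure -/
def alD (dd : ℕ → ZMod Q → ZMod Q → Prop) (m : ℕ) (q p : ZMod Q) : Prop :=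
  ∀ u v, win (2 ^ m) q u → win (2 ^ m) p v → ¬ dd m u v

/-- the Haar box form -/
noncomputable def Tb (A B C : Mx Q) (N : ℕ) (p0 p1 p2 : ZMod Q) : ℝ :=
  (1 / (((N + N : ℕ) : ℝ) ^ 3)) * ∑ i0 : Fin (N + N), ∑ i1 : Fin (N + N), ∑ i2 : Fin (N + N),
    hsgn N i0 * hsgn N i1 * hsgn N i2 *
      (A (p0 + ((i0 : ℕ) : ZMod Q)) (p1 + ((i1 : ℕ) : ZMod Q)) *
        B (p1 + ((i1 : ℕ) : ZMod Q)) (p2 + ((i2 : ℕ) : ZMod Q)) *
        C (p2 + ((i2 : ℕ) : ZMod Q)) (p0 + ((i0 : ℕ) : ZMod Q)))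

open Classical in
/-- sum over the scales `m < M`, the offsets of block `l`, and all boxes of side `2^(m+1)` whose four
half boxes on the killer face are alive -/
noncomputable def SA (al : ℕ → ZMod Q → ZMod Q → Prop) (A B : ℕ → Mx Q) (C : Mx Q) (M : ℕ) (l : ℤ) :
    ℝ :=
  ∑ m ∈ range M, bl (fun n => ∑ p0 : ZMod Q, ∑ p1 : ZMod Q,
    if Al4 al m (n - p0 - p1) p0 then |Tb (A m) (B m) C (2 ^ m) p0 p1 (n - p0 - p1)| else 0)
      (2 ^ m) l

/-- **THE RAGGED CORNER**, final statement. -/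
def CornerR : Prop := ∀ (k : ℕ) (l : ℤ), 2 * |l| + 20 ≤ 2 ^ k → ∀ C1 : ℝ, ∃ K : ℝ, 0 ≤ K ∧
  ∀ (Q : ℕ) [NeZero Q] (M M' J : ℕ) (A B C : Mx Q) (al : ℕ → ZMod Q → ZMod Q → Prop)
    (a2 b2 r τ E0 Ar : ℝ), 2 ^ M ∣ Q → M' + k < M → 0 < a2 → 0 < b2 → 0 < r → 0 < τ →
    ∑ x, ∑ y, A x y ^ 2 ≤ a2 → ∑ x, ∑ y, B x y ^ 2 ≤ b2 →
    (∀ x y, A x y ^ 2 ≤ a2 / r) → (∀ x y, B x y ^ 2 ≤ b2 / r) →
    Reg C al M k (l.natAbs + 24) τ C1 → Last C al M k E0 Ar → E0 * Ar ≤ τ ^ 2 * (r * 2 ^ J) →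
    SA al (fun _ => A) (fun _ => B) C M' l ≤ K * (2 * J + 1) * (τ * √a2 * √b2)

/-! ### L3: extraction -/

/-- extraction record of `B(x1, x2)`: projections act on the second variable; `S m x y` belongs to
the aligned cell of side `2^m` of `(x, y)` and lives on the second side of that cell -/
structure Extr (B : Mx Q) (M : ℕ) (dl n : ℝ) (Y : ℕ → Mx Q) (S : ℕ → ZMod Q → ZMod Q → Mx Q) :
    Prop where
  pr : ∀ m (x y : ZMod Q), IsPr (S m x y)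
  cell : ∀ m (x y x' y' : ZMod Q), cel m x = cel m x' → cel m y = cel m y' → S m x y = S m x' y'
  supp : ∀ m (x y u v : ZMod Q), S m x y u v ≠ 0 → cel m u = cel m y ∧ cel m v = cel m y
  topY : ∀ m, M ≤ m → Y m = B
  topS : ∀ m, M ≤ m → ∀ x y : ZMod Q, S m x y = 0
  step : ∀ m (x y : ZMod Q), Y m x y = Y (m + 1) x y - ∑ u, Y (m + 1) x u * S m x y u y
  op : ∀ m < M, ∀ (x y : ZMod Q) (v : ZMod Q → ℝ), (∀ u, cel m u ≠ cel m y → v u = 0) →
    ∑ x' with cel m x' = cel m x, (∑ u, Y m x' u * v u) ^ 2 ≤ dl * 4 ^ m * ∑ u, v u ^ 2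
  hs : ∀ m, ∑ x, ∑ y, Y m x y ^ 2 ≤ ∑ x, ∑ y, Y (m + 1) x y ^ 2
  count : ∑ m ∈ range M, ∑ x : ZMod Q, ∑ y : ZMod Q, (S m x y).trace ≤ n

def ExistsExtr : Prop := ∀ (Q : ℕ) [NeZero Q] (B : Mx Q) (M : ℕ) (dl : ℝ), 2 ^ M ∣ Q → 0 < dl →
  ∃ Y S, Extr B M dl ((∑ x, ∑ y, B x y ^ 2) / dl) Y S

def ExtrTriv : Prop := ∀ (Q : ℕ) [NeZero Q] (B : Mx Q) (M : ℕ) (dl : ℝ), 2 ^ M ∣ Q → 0 ≤ dl →
  (∀ x y, B x y ^ 2 ≤ dl) → Extr B M dl 0 (fun _ => B) (fun _ _ _ => 0)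

/-- function letters moving with the scale; normalised to operator norm `1` -/
structure Fl (k M : ℕ) (n : ℝ) (X : ℕ → Mx Q) : Prop where
  op : ∀ m k', k' ≤ k → m + k' < M → ∀ q p, OpLe (box (X m) (2 ^ (m + k')) q p) (2 ^ (m + k'))
  mv : ∀ k' ≤ k, ∃ v : ℕ → ZMod Q → ZMod Q → ℝ, (∀ m q p, 0 ≤ v m q p) ∧
    (∀ m, m + k' < M → ∀ q p, TrN (box (X (m + k')) (2 ^ (m + k')) q p -
      box (X m) (2 ^ (m + k')) q p) (2 ^ (m + k') * v m q p)) ∧
    ∑ m ∈ range M, ∑ q : ZMod Q, ∑ p : ZMod Q, (if m + k' < M then v m q p else 0) ≤ n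
  en : ∀ m < M, ∑ x, ∑ y, X m x y ^ 2 ≤ n

/-- (L3b) one extracted letter, and the band between two levels, are function letters (up to a
constant `c` depending on `k`), also transposed.  `dl ≤ 1` normalisation. -/
def FlOfExtr : Prop := ∀ k : ℕ, ∃ c : ℝ, 0 < c ∧ ∀ (Q : ℕ) [NeZero Q] (B : Mx Q) (M : ℕ)
  (n : ℝ) (Y Y' : ℕ → Mx Q) (S S' : ℕ → ZMod Q → ZMod Q → Mx Q), 2 ^ M ∣ Q →
  Extr B M 1 n Y S → Extr B M 1 n Y' S' → ∑ x, ∑ y, B x y ^ 2 ≤ n →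
    Fl k M (c⁻¹ * n) (fun m => c • Y m) ∧ Fl k M (c⁻¹ * n) (fun m => c • (Y m - Y' m)) ∧
    Fl k M (c⁻¹ * n) (fun m => c • (Y m)ᵀ) ∧ Fl k M (c⁻¹ * n) (fun m => c • (Y m - Y' m)ᵀ)

/-! ### L4: window spaces -/

open Classical in
/-- spaces of the windows (rows `x2 ∈ q + [0, 2^m)`, partner window of `x0` at `p`) -/
structure Spc (B : Mx Q) (M D : ℕ) (Y Y' : ℕ → Mx Q) (S S' : ℕ → ZMod Q → ZMod Q → Mx Q)
    (R : ℕ → ZMod Q → ZMod Q → Mx Q) : Prop where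
  pr : ∀ m q p, IsPr (R m q p)
  supp : ∀ m q p u v, R m q p u v ≠ 0 → win (2 ^ m) q u ∧ win (2 ^ m) q v
  nest : ∀ m k', m + k' < M → ∀ q p, ∀ a < 2 ^ k', ∀ b < 2 ^ k',
    R (m + k') q p * I1 (2 ^ m) (q + st m a) = R (m + k') q p * R m (q + st m a) (p + st m b)
  fix : ∀ m < M, ∀ x q p : ZMod Q, (∃ t : ℤ, |t| ≤ D * 2 ^ m ∧ x = -q - p + (t : ZMod Q)) →
    ∀ y, win (2 ^ m) q y → ∑ u, (Y m - Y' m) x u * R m q p u y = (Y m - Y' m) x y
  tr : ∀ m < M, ∀ q p, (R m q p).trace ≤ ∑ m' ∈ Ico m M, ∑ x : ZMod Q, ∑ y : ZMod Q,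
    (if near (D + 16) m' y (-x - y) q p then ((S m' x y).trace + (S' m' x y).trace) / 4 ^ m' else 0)

def ExistsSpc : Prop := ∀ (Q : ℕ) [NeZero Q] (B : Mx Q) (M D : ℕ) (dl dl' n n' : ℝ)
  (Y Y' : ℕ → Mx Q) (S S' : ℕ → ZMod Q → ZMod Q → Mx Q), 2 ^ M ∣ Q → Extr B M dl n Y S →
  Extr B M dl' n' Y' S' → ∃ R, Spc B M D Y Y' S S' R

/-! ### the killer (input of L5); covers both kinds of words -/

open Classical in
/-- box letters `R m q p * box C (2^m) q p` on the alive boxes, `0` on the others; normalised to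
operator norm `1`; `w` = weight of a box -/
structure Kil (C : Mx Q) (al : ℕ → ZMod Q → ZMod Q → Prop) (R : ℕ → ZMod Q → ZMod Q → Mx Q)
    (w : ℕ → ZMod Q → ZMod Q → ℝ) (k M : ℕ) (n : ℝ) : Prop where
  pr : ∀ m q p, IsPr (R m q p)
  supp : ∀ m q p u v, R m q p u v ≠ 0 → win (2 ^ m) q u ∧ win (2 ^ m) q v
  nest : ∀ m k', m + k' < M → ∀ q p, ∀ a < 2 ^ k', ∀ b < 2 ^ k',
    R (m + k') q p * I1 (2 ^ m) (q + st m a) = R (m + k') q p * R m (q + st m a) (p + st m b)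
  op : ∀ m < M, ∀ q p, al m q p → OpLe (box C (2 ^ m) q p) (2 ^ m)
  hs : ∀ m k', m + k' < M → ∀ q p, al (m + k') q p → ∀ a < 2 ^ k', ∀ b < 2 ^ k',
    hs2 (R (m + k') q p * box C (2 ^ m) (q + st m a) (p + st m b)) ≤ 4 ^ (m + k') * w (m + k') q p
  w0 : ∀ m q p, 0 ≤ w m q p
  sw : ∀ m < M, ∑ q : ZMod Q, ∑ p : ZMod Q, (if al m q p then w m q p else 0) ≤ n
  sx : ∀ k' ≤ k, ∑ m ∈ range M, ∑ q : ZMod Q, ∑ p : ZMod Q,
    (if m + k' < M ∧ Exit al k' m q p then w (m + k') q p else 0) ≤ n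

/-- the rows of the band are fixed by the window projections -/
def FixB (R : ℕ → ZMod Q → ZMod Q → Mx Q) (Bd : ℕ → Mx Q) (M D : ℕ) : Prop :=
  ∀ m < M, ∀ x q p : ZMod Q, (∃ t : ℤ, |t| ≤ D * 2 ^ m ∧ x = -q - p + (t : ZMod Q)) →
    ∀ y, win (2 ^ m) q y → ∑ u, Bd m x u * R m q p u y = Bd m x y

/-- (L4b) compressed killer of a band: weight = trace of the space -/
def KilOfSpc : Prop := ∀ (k D : ℕ) (C1 : ℝ), ∃ K : ℝ, 0 ≤ K ∧ ∀ (Q : ℕ) [NeZero Q] (B C : Mx Q)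
  (M : ℕ) (dl dl' n : ℝ) (Y Y' : ℕ → Mx Q) (S S' R : ℕ → ZMod Q → ZMod Q → Mx Q)
  (al : ℕ → ZMod Q → ZMod Q → Prop), 2 ^ M ∣ Q → Extr B M dl n Y S → Extr B M dl' n Y' S' →
  Spc B M D Y Y' S S' R → Reg C al M k (D + 16) 1 C1 →
    Kil C al R (fun m q p => (R m q p).trace) k M (K * n)

/-- (L4c) uncompressed killer of the last word: weight constant -/
def KilLast : Prop := ∀ (Q : ℕ) [NeZero Q] (C : Mx Q) (M k D : ℕ) (C1 E0 Ar : ℝ)
  (al : ℕ → ZMod Q → ZMod Q → Prop), 2 ^ M ∣ Q → 0 ≤ E0 → Reg C al M k D 1 C1 →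
  Last C al M k E0 Ar → Kil C al (fun m q _ => I1 (2 ^ m) q) (fun _ _ _ => E0) k M (E0 * Ar)


end Crest.Agent.R079.CRdefx253
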