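import Crest.Agent.R079.PLPhi_931

-- ▼ part R079/PLCost_931
section

/-! R079, LABELLED line potentials: the COST of moving letters (label cost lemma, operator norm of
the diagonal block of the Gram matrix, Hilbert-Schmidt norm on the letter), summation from a leaf
scale `2^m0`, and the moving word.  helper931. -/

set_option autoImplicit false
set_option linter.unusedVariables false
set_option linter.unusedSectionVars false

namespace Crest.Agent.R079.PotL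

open Matrix Finset Crest.Agent.R072
open scoped MatrixOrder

local notation "rt" => CFC.sqrt

section mat

variable {m n : Type*} [Fintype m] [DecidableEq m] [Fintype n] [DecidableEq n]

theorem psd_tms (X : Matrix m n ℝ) : (Xᵀ * X).PosSemidef := by
  have := posSemidef_conjTranspose_mul_self X
  rwa [conjTranspose_eq_transpose_of_trivial] at this

/-- **label cost, matrix form**: `phi(old) - phi(new) ≤ 3 tr(√M_old X_oldᵀ (X_old - X_new))`. -/
theorem phi_cost (X Y : Matrix m n ℝ) {G : Matrix n n ℝ} (hG : G.PosSemidef) :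
    phi (Xᵀ * X + G) - phi (Yᵀ * Y + G) ≤
      3 * (rt (Xᵀ * X + G) * (Xᵀ * (X - Y))).trace := by
  have hX : (Xᵀ * X + G).PosSemidef := (psd_tms X).add hG
  have hY : (Yᵀ * Y + G).PosSemidef := (psd_tms Y).add hG
  have h := phi_sub_le hX hY
  set S := rt (Xᵀ * X + G) with hS
  have hSp : S.PosSemidef := rt_psd _
  have hSt : Sᵀ = S := rt_transpose _
  have e : Xᵀ * X + G - (Yᵀ * Y + G) =
      Xᵀ * (X - Y) + (Xᵀ * (X - Y))ᵀ - (X - Y)ᵀ * (X - Y) := by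
    rw [transpose_mul, transpose_transpose, transpose_sub]
    simp only [Matrix.mul_sub, Matrix.sub_mul]
    abel
  rw [e, Matrix.mul_sub, Matrix.mul_add, trace_sub, trace_add] at h
  have h1 : (S * (Xᵀ * (X - Y))ᵀ).trace = (S * (Xᵀ * (X - Y))).trace := by
    rw [← trace_transpose (S * (Xᵀ * (X - Y))ᵀ), transpose_mul, transpose_transpose, hSt,
      trace_mul_comm]
  have h2 : 0 ≤ (S * ((X - Y)ᵀ * (X - Y))).trace := trace_mul_nonneg hSp (psd_tms (X - Y))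
  rw [h1] at h
  linarith

/-- label cost, both letters move -/
theorem phi_cost2 {m' : Type*} [Fintype m'] [DecidableEq m'] (X Y : Matrix m n ℝ)
    (Z V : Matrix m' n ℝ) :
    phi (Xᵀ * X + Zᵀ * Z) - phi (Yᵀ * Y + Vᵀ * V) ≤
      3 * (rt (Xᵀ * X + Zᵀ * Z) * (Xᵀ * (X - Y))).trace +
      3 * (rt (Xᵀ * X + Zᵀ * Z) * (Zᵀ * (Z - V))).trace := by
  have hX : (Xᵀ * X + Zᵀ * Z).PosSemidef := (psd_tms X).add (psd_tms Z)
  have hY : (Yᵀ * Y + Vᵀ * V).PosSemidef := (psd_tms Y).add (psd_tms V)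
  have h := phi_sub_le hX hY
  set S := rt (Xᵀ * X + Zᵀ * Z) with hS
  have hSp : S.PosSemidef := rt_psd _
  have hSt : Sᵀ = S := rt_transpose _
  have e : Xᵀ * X + Zᵀ * Z - (Yᵀ * Y + Vᵀ * V) =
      (Xᵀ * (X - Y) + (Xᵀ * (X - Y))ᵀ - (X - Y)ᵀ * (X - Y)) +
      (Zᵀ * (Z - V) + (Zᵀ * (Z - V))ᵀ - (Z - V)ᵀ * (Z - V)) := by
    rw [transpose_mul, transpose_transpose, transpose_sub, transpose_mul, transpose_transpose,
      transpose_sub]
    simp only [Matrix.mul_sub, Matrix.sub_mul]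
    abel
  have hl : ∀ A B A' B' : Matrix n n ℝ, (S * ((A + Aᵀ - B) + (A' + A'ᵀ - B'))).trace =
      ((S * A).trace + (S * Aᵀ).trace - (S * B).trace) +
      ((S * A').trace + (S * A'ᵀ).trace - (S * B').trace) := by
    intro A B A' B'
    simp only [Matrix.mul_add, Matrix.mul_sub, trace_add, trace_sub]
  rw [e, hl] at h
  have h1 : (S * (Xᵀ * (X - Y))ᵀ).trace = (S * (Xᵀ * (X - Y))).trace := by
    rw [← trace_transpose (S * (Xᵀ * (X - Y))ᵀ), transpose_mul, transpose_transpose, hSt,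
      trace_mul_comm]
  have h1' : (S * (Zᵀ * (Z - V))ᵀ).trace = (S * (Zᵀ * (Z - V))).trace := by
    rw [← trace_transpose (S * (Zᵀ * (Z - V))ᵀ), transpose_mul, transpose_transpose, hSt,
      trace_mul_comm]
  have h2 : 0 ≤ (S * ((X - Y)ᵀ * (X - Y))).trace := trace_mul_nonneg hSp (psd_tms (X - Y))
  have h2' : 0 ≤ (S * ((Z - V)ᵀ * (Z - V))).trace := trace_mul_nonneg hSp (psd_tms (Z - V))
  rw [h1, h1'] at h
  linarith

theorem trace_eq_sum (X D : Matrix m n ℝ) {S : Matrix n n ℝ} (hS : Sᵀ = S) :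
    (S * (Xᵀ * D)).trace = ∑ i : m, ∑ j : n, (X * S) i j * D i j := by
  have h1 : (S * (Xᵀ * D)).trace = ((X * S)ᵀ * D).trace := by
    rw [transpose_mul, hS, Matrix.mul_assoc]
  rw [h1, Matrix.trace, Finset.sum_comm]
  refine Finset.sum_congr rfl fun j _ => ?_
  rw [Matrix.diag_apply, Matrix.mul_apply]
  rfl

end mat

section blk

variable {ι J α β : Type*} [Fintype ι] [DecidableEq ι] [Fintype J] [DecidableEq J]
  [Fintype α] [DecidableEq α] [Fintype β] [DecidableEq β]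

/-- squared Hilbert-Schmidt norm of a label matrix -/
noncomputable def hs2 (A : Matrix β α ℝ) : ℝ := ∑ l : β, ∑ s : α, A l s ^ 2

/-- Hilbert-Schmidt norm of a label matrix -/
noncomputable def hsn (A : Matrix β α ℝ) : ℝ := Real.sqrt (hs2 A)

theorem hs2_nonneg (A : Matrix β α ℝ) : 0 ≤ hs2 A :=
  Finset.sum_nonneg fun _ _ => Finset.sum_nonneg fun _ _ => sq_nonneg _

theorem hsn_nonneg (A : Matrix β α ℝ) : 0 ≤ hsn A := Real.sqrt_nonneg _

theorem hsn_sq (A : Matrix β α ℝ) : hsn A ^ 2 = hs2 A := Real.sq_sqrt (hs2_nonneg A)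

theorem hsn_zero : hsn (0 : Matrix β α ℝ) = 0 := by simp [hsn, hs2]

theorem hs2_transpose (A : Matrix β α ℝ) : hs2 Aᵀ = hs2 A := by
  unfold hs2
  rw [Finset.sum_comm]
  rfl

theorem hsn_transpose (A : Matrix β α ℝ) : hsn Aᵀ = hsn A := by
  unfold hsn
  rw [hs2_transpose]

theorem hsn_smul {c : ℝ} (hc : 0 ≤ c) (A : Matrix β α ℝ) : hsn (c • A) = c * hsn A := by
  unfold hsn
  have : hs2 (c • A) = c ^ 2 * hs2 A := by
    unfold hs2
    rw [Finset.mul_sum]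
    refine Finset.sum_congr rfl fun l _ => ?_
    rw [Finset.mul_sum]
    refine Finset.sum_congr rfl fun s _ => ?_
    rw [Matrix.smul_apply, smul_eq_mul]
    ring
  rw [this, Real.sqrt_mul (sq_nonneg c), Real.sqrt_sq hc]

theorem hs_cs (A B : Matrix β α ℝ) : ∑ l : β, ∑ s : α, A l s * B l s ≤ hsn A * hsn B := by
  have h := Finset.sum_mul_sq_le_sq_mul_sq (Finset.univ : Finset (β × α))
    (fun z => A z.1 z.2) (fun z => B z.1 z.2)
  rw [Fintype.sum_prod_type, Fintype.sum_prod_type, Fintype.sum_prod_type] at h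
  have h2 : (∑ l : β, ∑ s : α, A l s * B l s) ^ 2 ≤ (hsn A * hsn B) ^ 2 := by
    rw [mul_pow, hsn_sq, hsn_sq]
    exact h
  exact le_of_sq_le_sq h2 (mul_nonneg (hsn_nonneg _) (hsn_nonneg _))
where
  le_of_sq_le_sq {a b : ℝ} (h : a ^ 2 ≤ b ^ 2) (hb : 0 ≤ b) : a ≤ b := by
    exact le_trans (le_abs_self a) (by
      have := sq_le_sq.1 h
      rwa [abs_of_nonneg hb] at this)

/-- the block `(i, j)` of a matrix with labels -/
def blk (X : Matrix (ι × β) (J × α) ℝ) (i : ι) (j : J) : Matrix β α ℝ :=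
  fun l s => X (i, l) (j, s)



end blk

section lat

variable {Q : ℕ} [NeZero Q] {α β γ : Type*} [Fintype α] [DecidableEq α] [Fintype β]
  [DecidableEq β] [Fintype γ] [DecidableEq γ]

/-- average over a row: `E_{x1 ∈ [p, p+N)} |X(x0, x1)|²_HS ≤ R²` -/
def RowB (X : ZMod Q → ZMod Q → Matrix β α ℝ) (N : ℕ) (R : ℝ) (x p : ZMod Q) : Prop :=
  (1 / (N : ℝ)) * ∑ k ∈ range N, hs2 (X x (p + (k : ZMod Q))) ≤ R ^ 2

/-- operator norm of the column: `|E_{x0 ∈ [q, q+N)} XᵀX (x1)|_op ≤ K²` -/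
def ColB (X : ZMod Q → ZMod Q → Matrix β α ℝ) (N : ℕ) (K : ℝ) (q y : ZMod Q) : Prop :=
  ∀ v : α → ℝ, (1 / (N : ℝ)) * ∑ k ∈ range N, ∑ l : β,
    (∑ s : α, X (q + (k : ZMod Q)) y l s * v s) ^ 2 ≤ K ^ 2 * ∑ s : α, v s ^ 2

theorem abar_quad (X : ZMod Q → ZMod Q → Matrix β α ℝ) (N : ℕ) (q p : ZMod Q) (j : Fin N)
    (v : α → ℝ) :
    ∑ s : α, ∑ t : α, v s * abar X N N q p (j, s) (j, t) * v t =
      (1 / (N : ℝ)) * ((1 / (N : ℝ)) * ∑ k ∈ range N, ∑ l : β,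
        (∑ s : α, X (q + (k : ZMod Q)) (p + ((j : ℕ) : ZMod Q)) l s * v s) ^ 2) := by
  have e : ∀ (k : ℕ) (l : β), (∑ s : α, X (q + (k : ZMod Q)) (p + ((j : ℕ) : ZMod Q)) l s *
      v s) ^ 2 = ∑ s : α, ∑ t : α, v s * (X (q + (k : ZMod Q)) (p + ((j : ℕ) : ZMod Q)) l s *
        X (q + (k : ZMod Q)) (p + ((j : ℕ) : ZMod Q)) l t) * v t := by
    intro k l
    rw [sq, Finset.sum_mul]
    refine Finset.sum_congr rfl fun s _ => ?_
    rw [Finset.mul_sum]
    refine Finset.sum_congr rfl fun t _ => ?_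
    ring
  simp_rw [e]
  have e2 : ∑ k ∈ range N, ∑ l : β, ∑ s : α, ∑ t : α,
      v s * (X (q + (k : ZMod Q)) (p + ((j : ℕ) : ZMod Q)) l s *
        X (q + (k : ZMod Q)) (p + ((j : ℕ) : ZMod Q)) l t) * v t =
      ∑ s : α, ∑ t : α, v s * (∑ k ∈ range N, ∑ l : β,
        X (q + (k : ZMod Q)) (p + ((j : ℕ) : ZMod Q)) l s *
        X (q + (k : ZMod Q)) (p + ((j : ℕ) : ZMod Q)) l t) * v t := by
    simp_rw [Finset.mul_sum, Finset.sum_mul]
    have c1 : ∀ f : ℕ → β → α → α → ℝ, ∑ k ∈ range N, ∑ l : β, ∑ s : α, ∑ t : α, f k l s t =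
        ∑ s : α, ∑ t : α, ∑ k ∈ range N, ∑ l : β, f k l s t := by
      intro f
      calc ∑ k ∈ range N, ∑ l : β, ∑ s : α, ∑ t : α, f k l s t
          = ∑ k ∈ range N, ∑ s : α, ∑ l : β, ∑ t : α, f k l s t :=
            Finset.sum_congr rfl fun k _ => Finset.sum_comm
        _ = ∑ s : α, ∑ k ∈ range N, ∑ l : β, ∑ t : α, f k l s t := Finset.sum_comm
        _ = ∑ s : α, ∑ k ∈ range N, ∑ t : α, ∑ l : β, f k l s t :=
            Finset.sum_congr rfl fun s _ => Finset.sum_congr rfl fun k _ => Finset.sum_comm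
        _ = ∑ s : α, ∑ t : α, ∑ k ∈ range N, ∑ l : β, f k l s t :=
            Finset.sum_congr rfl fun s _ => Finset.sum_comm
    exact c1 _
  rw [e2, ← mul_assoc, Finset.mul_sum]
  refine Finset.sum_congr rfl fun s _ => ?_
  rw [Finset.mul_sum]
  refine Finset.sum_congr rfl fun t _ => ?_
  simp only [abar]
  rw [one_div_mul_one_div]
  ring




theorem sum_box_avg (f : ZMod Q → ZMod Q → ℝ) {N : ℕ} (hN : 0 < N) :
    ∑ p : ZMod Q, ∑ q : ZMod Q, (1 / (N : ℝ) ^ 2) * ∑ i : Fin N, ∑ j : Fin N,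
      f (q + ((i : ℕ) : ZMod Q)) (p + ((j : ℕ) : ZMod Q)) = ∑ x : ZMod Q, ∑ y : ZMod Q, f x y := by
  have hN' : (0 : ℝ) < N := by exact_mod_cast hN
  have c1 : ∀ g : ZMod Q → ZMod Q → Fin N → Fin N → ℝ,
      ∑ p : ZMod Q, ∑ q : ZMod Q, ∑ i : Fin N, ∑ j : Fin N, g p q i j =
      ∑ i : Fin N, ∑ j : Fin N, ∑ p : ZMod Q, ∑ q : ZMod Q, g p q i j := by
    intro g
    calc ∑ p : ZMod Q, ∑ q : ZMod Q, ∑ i : Fin N, ∑ j : Fin N, g p q i j
        = ∑ p : ZMod Q, ∑ i : Fin N, ∑ q : ZMod Q, ∑ j : Fin N, g p q i j :=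
          Finset.sum_congr rfl fun _ _ => Finset.sum_comm
      _ = ∑ i : Fin N, ∑ p : ZMod Q, ∑ q : ZMod Q, ∑ j : Fin N, g p q i j := Finset.sum_comm
      _ = ∑ i : Fin N, ∑ p : ZMod Q, ∑ j : Fin N, ∑ q : ZMod Q, g p q i j :=
          Finset.sum_congr rfl fun _ _ => Finset.sum_congr rfl fun _ _ => Finset.sum_comm
      _ = ∑ i : Fin N, ∑ j : Fin N, ∑ p : ZMod Q, ∑ q : ZMod Q, g p q i j :=
          Finset.sum_congr rfl fun _ _ => Finset.sum_comm
  simp_rw [← Finset.mul_sum]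
  rw [c1]
  have h1 : ∀ i j : Fin N, ∑ p : ZMod Q, ∑ q : ZMod Q,
      f (q + ((i : ℕ) : ZMod Q)) (p + ((j : ℕ) : ZMod Q)) = ∑ x : ZMod Q, ∑ y : ZMod Q, f x y := by
    intro i j
    rw [Finset.sum_comm]
    have : ∀ q : ZMod Q, ∑ p : ZMod Q, f (q + ((i : ℕ) : ZMod Q)) (p + ((j : ℕ) : ZMod Q)) =
        ∑ p : ZMod Q, f (q + ((i : ℕ) : ZMod Q)) p := fun q =>
      Lattice.sum_add_right' (fun p => f (q + ((i : ℕ) : ZMod Q)) p) _
    simp_rw [this]
    exact Lattice.sum_add_right' (fun q => ∑ p : ZMod Q, f q p) _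
  simp_rw [h1]
  rw [Finset.sum_const, Finset.sum_const, Finset.card_univ, Fintype.card_fin, nsmul_eq_mul,
    nsmul_eq_mul]
  field_simp





/-- uniform box hypotheses at side `N` -/
structure UB (X : ZMod Q → ZMod Q → Matrix β α ℝ) (Z : ZMod Q → ZMod Q → Matrix γ α ℝ)
    (X' : ZMod Q → ZMod Q → Matrix β α ℝ) (Z' : ZMod Q → ZMod Q → Matrix γ α ℝ)
    (N : ℕ) (R R' K₁ K₂ : ℝ) : Prop where
  rowX : X ≠ X' → ∀ x p, RowB X N R x p
  rowZ : Z ≠ Z' → ∀ x p, RowB Z N R' x p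
  colX : ∀ q y, ColB X N K₁ q y
  colZ : ∀ q y, ColB Z N K₂ q y



theorem bl_const (c : ℝ) {N : ℕ} (hN : 0 < N) (l : ℤ) : bl (fun _ : ZMod Q => c) N l = c := by
  have hN' : (N : ℝ) ≠ 0 := by exact_mod_cast hN.ne'
  unfold bl
  rw [Finset.sum_const, Finset.card_range, nsmul_eq_mul]
  field_simp



theorem RowB_double {X : ZMod Q → ZMod Q → Matrix β α ℝ} {N : ℕ} (hN : 0 < N) {R : ℝ}
    (h : ∀ x p, RowB X N R x p) : ∀ x p, RowB X (N + N) R x p := by
  intro x p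
  have hN' : (N : ℝ) ≠ 0 := by exact_mod_cast hN.ne'
  have h1 := h x p
  have h2 := h x (p + (N : ZMod Q))
  unfold RowB at *
  rw [Finset.sum_range_add]
  simp only [Nat.cast_add, ← add_assoc]
  have e : (1 / ((N : ℝ) + N)) = (1 / 2) * (1 / (N : ℝ)) := by field_simp; norm_num
  rw [e]
  nlinarith

theorem ColB_double {X : ZMod Q → ZMod Q → Matrix β α ℝ} {N : ℕ} (hN : 0 < N) {K : ℝ}
    (h : ∀ q y, ColB X N K q y) : ∀ q y, ColB X (N + N) K q y := by
  intro q y v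
  have hN' : (N : ℝ) ≠ 0 := by exact_mod_cast hN.ne'
  have h1 := h q y v
  have h2 := h (q + (N : ZMod Q)) y v
  rw [Finset.sum_range_add]
  simp only [Nat.cast_add, ← add_assoc]
  have e : (1 / ((N : ℝ) + N)) = (1 / 2) * (1 / (N : ℝ)) := by field_simp; norm_num
  rw [e]
  nlinarith

theorem UB.pow {X X' : ZMod Q → ZMod Q → Matrix β α ℝ} {Z Z' : ZMod Q → ZMod Q → Matrix γ α ℝ}
    {a : ℕ} {R R' K₁ K₂ : ℝ} (h : UB X Z X' Z' (2 ^ a) R R' K₁ K₂) (j : ℕ) :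
    UB X Z X' Z' (2 ^ (a + j)) R R' K₁ K₂ := by
  induction j with
  | zero => exact h
  | succ j ih =>
    have hp : 0 < 2 ^ (a + j) := by positivity
    have e : 2 ^ (a + (j + 1)) = 2 ^ (a + j) + 2 ^ (a + j) := by ring
    rw [e]
    exact ⟨fun hne => RowB_double hp (ih.rowX hne), fun hne => RowB_double hp (ih.rowZ hne),
      ColB_double hp ih.colX, ColB_double hp ih.colZ⟩

end lat

end Crest.Agent.R079.PotL
end

-- ▼ part R079/PLMove_931
section

/-! R079, LABELLED line potentials: summation from a leaf scale `2^m0` and the MOVING WORD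
(three letters with labels, letters change with the scale, price = leaf `S₃` energies + L1-variation
of the moving letters).  helper931. -/

set_option autoImplicit false
set_option linter.unusedVariables false
set_option linter.unusedSectionVars false

namespace Crest.Agent.R079.PotL

open Matrix Finset Crest.Agent.R072
open scoped MatrixOrder

section sum

variable {Q : ℕ} [NeZero Q] {α β γ : Type*} [Fintype α] [DecidableEq α] [Fintype β]
  [DecidableEq β] [Fintype γ] [DecidableEq γ]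

theorem EE_pow_from {P : TPot α} (hE : GoodPot P.E) (X : ZMod Q → ZMod Q → Matrix β α ℝ)
    (Z : ZMod Q → ZMod Q → Matrix γ α ℝ) (m0 j : ℕ) :
    EE P X Z (2 ^ (m0 + j)) ≤ EE P X Z (2 ^ m0) := by
  have hp : 0 < 2 ^ m0 := by positivity
  have h1 := EW_pow hE X (N := 2 ^ m0) hp j
  have h2 := EW_pow hE Z (N := 2 ^ m0) hp j
  have e : 2 ^ (m0 + j) = 2 ^ j * 2 ^ m0 := by ring
  unfold EE
  rw [e]
  linarith

/-- (PL2) from a leaf scale -/
theorem mask_sum_from {P : TPot α} {c : ℝ} (h : Good P c)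
    (X : ℕ → ZMod Q → ZMod Q → Matrix β α ℝ)
    (Z : ℕ → ZMod Q → ZMod Q → Matrix γ α ℝ) (κ m0 M : ℕ)
    (l : ℤ) (hκ : 2 * |l| + 20 ≤ 2 ^ κ) :
    ∑ m ∈ range M, bl (GW P (X (m + 1)) (Z (m + 1)) (2 ^ (m0 + m))) (2 ^ (m0 + m)) l ≤
      4 * ∑ m ∈ range M, (Vb P (X (m + 1)) (Z (m + 1)) (2 ^ (m0 + m)) -
        Vb P (X m) (Z m) (2 ^ (m0 + m))) +
      16 * c * ∑ j ∈ range κ, ∑ m ∈ range M,
        (EE P (X (m + 1)) (Z (m + 1)) (2 ^ (m0 + m + j)) -
          EE P (X m) (Z m) (2 ^ (m0 + m + j))) +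
      4 * Vb P (X 0) (Z 0) (2 ^ m0) + 16 * c * κ * EE P (X 0) (Z 0) (2 ^ m0) := by
  have hc := h.c0
  have h1 := Finset.sum_le_sum fun m (_ : m ∈ range M) =>
    gap_pot h (X (m + 1)) (Z (m + 1)) (m0 + m) κ l hκ
  refine h1.trans ?_
  rw [Finset.sum_add_distrib, ← Finset.mul_sum, ← Finset.mul_sum]
  have hv := tele_diag (fun a b => Vb P (X a) (Z a) (2 ^ (m0 + b))) M
  have he := tele_diag_kappa (fun a b => EE P (X a) (Z a) (2 ^ (m0 + b))) κ M
  simp only [← add_assoc] at hv he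
  rw [Finset.sum_sub_distrib (s := range κ), Finset.sum_add_distrib (s := range κ)] at he
  rw [hv, he]
  have hV0 := Vb_nonneg h.F (X M) (Z M) (2 ^ (m0 + M))
  have hE0 : 0 ≤ ∑ j ∈ range κ, EE P (X M) (Z M) (2 ^ (m0 + M + j)) :=
    Finset.sum_nonneg fun j _ => EE_nonneg h.E _ _ _
  have hE1 : ∑ j ∈ range κ, EE P (X 0) (Z 0) (2 ^ (m0 + j)) ≤ κ * EE P (X 0) (Z 0) (2 ^ m0) := by
    refine (Finset.sum_le_sum fun j _ => EE_pow_from h.E (X 0) (Z 0) m0 j).trans (le_of_eq ?_)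
    rw [Finset.sum_const, Finset.card_range, nsmul_eq_mul]
  have h2 : 16 * c * (∑ j ∈ range κ, EE P (X 0) (Z 0) (2 ^ (m0 + j))) ≤
      16 * c * (κ * EE P (X 0) (Z 0) (2 ^ m0)) := mul_le_mul_of_nonneg_left hE1 (by linarith)
  have h3 : 0 ≤ 16 * c * ∑ j ∈ range κ, EE P (X M) (Z M) (2 ^ (m0 + M + j)) :=
    mul_nonneg (by linarith) hE0
  simp only [add_zero]
  have h4 : 16 * c * (∑ j ∈ range κ, ∑ m ∈ range M,
        (EE P (X (m + 1)) (Z (m + 1)) (2 ^ (m0 + m + j)) - EE P (X m) (Z m) (2 ^ (m0 + m + j))) +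
      ∑ j ∈ range κ, EE P (X 0) (Z 0) (2 ^ (m0 + j)) -
        ∑ j ∈ range κ, EE P (X M) (Z M) (2 ^ (m0 + M + j))) =
      16 * c * (∑ j ∈ range κ, ∑ m ∈ range M,
        (EE P (X (m + 1)) (Z (m + 1)) (2 ^ (m0 + m + j)) - EE P (X m) (Z m) (2 ^ (m0 + m + j)))) +
      16 * c * (∑ j ∈ range κ, EE P (X 0) (Z 0) (2 ^ (m0 + j))) -
        16 * c * ∑ j ∈ range κ, EE P (X M) (Z M) (2 ^ (m0 + M + j)) := by ring
  rw [h4]
  have h5 : 16 * c * κ * EE P (X 0) (Z 0) (2 ^ m0) = 16 * c * (κ * EE P (X 0) (Z 0) (2 ^ m0)) := by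
    ring
  rw [h5]
  linarith

/-- right hand side of `mask_sum_from` for `tr M^{3/2}` -/
noncomputable def MSf (X : ℕ → ZMod Q → ZMod Q → Matrix β α ℝ)
    (Z : ℕ → ZMod Q → ZMod Q → Matrix γ α ℝ) (k m0 M : ℕ) : ℝ :=
  4 * ∑ m ∈ range M, (Vb (phiP α) (X (m + 1)) (Z (m + 1)) (2 ^ (m0 + m)) -
      Vb (phiP α) (X m) (Z m) (2 ^ (m0 + m))) +
    64 * ∑ j ∈ range k, ∑ m ∈ range M,
      (EE (phiP α) (X (m + 1)) (Z (m + 1)) (2 ^ (m0 + m + j)) -
        EE (phiP α) (X m) (Z m) (2 ^ (m0 + m + j))) +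
    4 * Vb (phiP α) (X 0) (Z 0) (2 ^ m0) + 64 * k * EE (phiP α) (X 0) (Z 0) (2 ^ m0)

theorem mask_sum_from_phi (X : ℕ → ZMod Q → ZMod Q → Matrix β α ℝ)
    (Z : ℕ → ZMod Q → ZMod Q → Matrix γ α ℝ) (k m0 M : ℕ)
    (l : ℤ) (hk : 2 * |l| + 20 ≤ 2 ^ k) :
    ∑ m ∈ range M, bl (GW (phiP α) (X (m + 1)) (Z (m + 1)) (2 ^ (m0 + m))) (2 ^ (m0 + m)) l ≤
      MSf X Z k m0 M := by
  refine (mask_sum_from good_phiP X Z k m0 M l hk).trans (le_of_eq ?_)
  unfold MSf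
  ring

/-- joint potential `≤ 2 ×` own potentials -/
theorem W_le_EE (X : ZMod Q → ZMod Q → Matrix β α ℝ) (Z : ZMod Q → ZMod Q → Matrix γ α ℝ)
    (N : ℕ) (n : ZMod Q) : W (phiP α) X Z N N n ≤ 2 * EE (phiP α) X Z N := by
  unfold W EE EW
  have h1 : ∀ p q : ZMod Q, (phiP α).F N (abar X N N q p + abar Z N N (n - p - q) p) ≤
      2 * (phiP α).E N (abar X N N q p) + 2 * (phiP α).E N (abar Z N N (n - p - q) p) := by
    intro p q
    have h := phi_add_le (abar_posSemidef X N N q p) (abar_posSemidef Z N N (n - p - q) p)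
    have h2 : Real.sqrt 2 ≤ 2 := by
      rw [Real.sqrt_le_left (by norm_num)]
      norm_num
    have h3 : 0 ≤ phi (abar X N N q p) + phi (abar Z N N (n - p - q) p) :=
      add_nonneg (phi_nonneg (abar_posSemidef _ _ _ _ _)) (phi_nonneg (abar_posSemidef _ _ _ _ _))
    simp only [phiP]
    nlinarith
  refine (Finset.sum_le_sum fun p _ => Finset.sum_le_sum fun q _ => h1 p q).trans (le_of_eq ?_)
  simp_rw [Finset.sum_add_distrib, ← Finset.mul_sum]
  have e3 : ∑ p : ZMod Q, ∑ q : ZMod Q, (phiP α).E N (abar Z N N (n - p - q) p) =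
      ∑ p : ZMod Q, ∑ q : ZMod Q, (phiP α).E N (abar Z N N q p) := by
    refine Finset.sum_congr rfl fun p _ => ?_
    rw [← Equiv.sum_comp (Equiv.subLeft (n - p)) (fun q => (phiP α).E N (abar Z N N q p))]
    rfl
  rw [e3]
  ring

theorem Vb_le_EE (X : ZMod Q → ZMod Q → Matrix β α ℝ) (Z : ZMod Q → ZMod Q → Matrix γ α ℝ)
    {N : ℕ} (hN : 0 < N) : Vb (phiP α) X Z N ≤ 2 * EE (phiP α) X Z N := by
  unfold Vb
  refine (bl_mono (fun n => W_le_EE X Z N n) _ _).trans (le_of_eq ?_)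
  exact bl_const _ hN _



end sum

section final

variable {Q : ℕ} [NeZero Q] {κ0 κ1 κ2 : Type*} [Fintype κ0] [DecidableEq κ0]
  [Fintype κ1] [DecidableEq κ1] [Fintype κ2] [DecidableEq κ2]

/-- the labelled three-letter line sum from a leaf scale -/
theorem box_sum_from (F0 : ℕ → ZMod Q → ZMod Q → Matrix κ0 κ1 ℝ)
    (F1 : ℕ → ZMod Q → ZMod Q → Matrix κ1 κ2 ℝ) (F2 : ℕ → ZMod Q → ZMod Q → Matrix κ2 κ0 ℝ)
    (k m0 M : ℕ) (l : ℤ) (hk : 2 * |l| + 20 ≤ 2 ^ k) :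
    ∑ m ∈ range M, bl (fun n => ∑ p0 : ZMod Q, ∑ p1 : ZMod Q,
        |LboxL (F0 (m + 1)) (F1 (m + 1)) (F2 (m + 1)) (2 ^ (m0 + m)) p0 p1 (n - p0 - p1)|)
          (2 ^ (m0 + m)) l ≤
      (Real.pi / 2) *
        (MSf F0 (fun m x y => (F1 m y x)ᵀ) k m0 M + MSf F1 (fun m x y => (F2 m y x)ᵀ) k m0 M +
          MSf F2 (fun m x y => (F0 m y x)ᵀ) k m0 M) := by
  have h1 := mask_sum_from_phi F0 (fun m x y => (F1 m y x)ᵀ) k m0 M l hk
  have h2 := mask_sum_from_phi F1 (fun m x y => (F2 m y x)ᵀ) k m0 M l hk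
  have h3 := mask_sum_from_phi F2 (fun m x y => (F0 m y x)ᵀ) k m0 M l hk
  have h0 : ∀ m ∈ range M, bl (fun n => ∑ p0 : ZMod Q, ∑ p1 : ZMod Q,
        |LboxL (F0 (m + 1)) (F1 (m + 1)) (F2 (m + 1)) (2 ^ (m0 + m)) p0 p1 (n - p0 - p1)|)
          (2 ^ (m0 + m)) l ≤
      (Real.pi / 2) *
        (bl (GW (phiP κ1) (F0 (m + 1)) (fun x y => (F1 (m + 1) y x)ᵀ) (2 ^ (m0 + m)))
            (2 ^ (m0 + m)) l +
          bl (GW (phiP κ2) (F1 (m + 1)) (fun x y => (F2 (m + 1) y x)ᵀ) (2 ^ (m0 + m)))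
            (2 ^ (m0 + m)) l +
          bl (GW (phiP κ0) (F2 (m + 1)) (fun x y => (F0 (m + 1) y x)ᵀ) (2 ^ (m0 + m)))
            (2 ^ (m0 + m)) l) := by
    intro m _
    rw [← bl_add, ← bl_add, ← bl_const_mul]
    exact bl_mono (fun n => LboxL_le _ _ _ _ n) _ _
  refine (Finset.sum_le_sum h0).trans ?_
  rw [← Finset.mul_sum, Finset.sum_add_distrib, Finset.sum_add_distrib]
  refine mul_le_mul_of_nonneg_left ?_ (by positivity)
  linarith


end final

end Crest.Agent.R079.PotL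
end

-- ▼ part R079/PLEdef_377

/-! R079, labelled corner `(oo-,2+,2+)` of R072 in the LINE model from the `(3,3,3)` potentials
(396's doc 2490, absolute-value form): definitions.  helper377. -/

set_option autoImplicit false
set_option linter.unusedVariables false
set_option linter.unusedSectionVars false

namespace Crest.Agent.R079.PotL

open Matrix Finset Crest.Agent.R072
open scoped MatrixOrder

/-- orthogonal projection matrix -/
structure IsPr {κ : Type*} [Fintype κ] (P : Matrix κ κ ℝ) : Prop where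
  symm : Pᵀ = P
  idem : P * P = P

section
variable {Q : ℕ} [NeZero Q] {κ : Type*}

/-- index of the dyadic cell of length `2^m` -/
def cel (m : ℕ) (x : ZMod Q) : ℕ := x.val / 2 ^ m

/-- piecewise constant at length `L` in the second variable -/
def PC2 (π : ZMod Q → ZMod Q → Matrix κ κ ℝ) (L : ℕ) : Prop :=
  ∀ x y, ∃ s : Finset ℕ, s ⊆ range (2 * L) ∧ L ≤ s.card ∧
    ∀ i ∈ s, π x (y - (L : ZMod Q) + (i : ZMod Q)) = π x y

/-- piecewise constant at length `L` in the first variable -/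
def PC1 (π : ZMod Q → ZMod Q → Matrix κ κ ℝ) (L : ℕ) : Prop := PC2 (fun y x => π x y) L

end

end Crest.Agent.R079.PotL
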