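import Crest.Agent.R079.CRwb_253
import Crest.Agent.R079.CRc_360
import Crest.Agent.R079.CRdef2_253
import Crest.Agent.R079.CRf_250
import Crest.Agent.R079.CRn_371
import Crest.Agent.R079.CRdef_253
import Crest.Agent.R079.PLEdef_377
import Crest.Agent.R079.CRe_250
import Crest.Agent.R079.CRL3b_138
import Crest.Agent.R079.CRL4c_138_Mg

-- ▼ part R079/CRbr_253
section

/-! R079, RAGGED CORNER (CR): bridge between the extraction record of `CRc_360` and `CRdef_253`.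
helper253. -/

set_option autoImplicit false
set_option linter.unusedVariables false
set_option linter.unusedSectionVars false

namespace Crest.Agent.R079.CRbrx253

open Matrix Finset Crest.Agent.R079.CRdefx253
open Crest.Agent.R079.PotL (cel IsPr)

variable {Q : ℕ} [NeZero Q]

theorem extr_of (B : Mx Q) (M : ℕ) (dl n : ℝ) (Y : ℕ → Mx Q) (S : ℕ → ZMod Q → ZMod Q → Mx Q)
    (h : PotL.CR.Extr B M dl n Y S) : Extr B M dl n Y S := by
  refine ⟨h.pr, h.cell, h.supp, h.top, h.stop, h.step, fun m hm x y v hv => ?_, h.hs, h.count⟩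
  exact h.op m hm (cel m x) (cel m y) v fun u hu => by
    by_contra hne
    exact hu (hv u hne)



theorem existsExtr : ExistsExtr := by
  intro Q _ B M dl hQ hdl
  obtain ⟨Y, S, h⟩ := PotL.CR.exists_extr B (M := M) (fun m hm => (pow_dvd_pow 2 hm.le).trans hQ) hdl
  exact ⟨Y, S, extr_of _ _ _ _ _ _ h⟩

theorem extrTriv : ExtrTriv := by
  intro Q _ B M dl hQ _ hB
  exact extr_of _ _ _ _ _ _
    (PotL.CR.extr_triv B (M := M) (fun m hm => (pow_dvd_pow 2 hm.le).trans hQ) hB)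

end Crest.Agent.R079.CRbrx253
end

-- ▼ part R079/CRv0_250
section

/-! R079, RAGGED CORNER (note 833 of helper371), leaf L5-0 : `Vert0` (own variable = columns of the killer).
Bridges from `Fl`, `Kil` (CRdef_253) to the comparison lemmas of CRe_250 / CRf_250.  helper250. -/

set_option autoImplicit false
set_option linter.unusedVariables false
set_option linter.unusedSectionVars false

namespace Crest.Agent.R079.CRv0x250

open Matrix Finset Crest.Agent.R072 Crest.Agent.R079.CR371 Crest.Agent.R079.CRdefx253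
open Crest.Agent.R079.CRex250
open Crest.Agent.R079.PotL (bl cel IsPr hs2 hsn hs2_nonneg hsn_nonneg hsn_sq hsn_smul phi_cost psd_tms
  bl_mono bl_add bl_const)
open scoped MatrixOrder

section norms

open scoped Matrix.Norms.L2Operator

variable {m n : Type*} [Fintype m] [DecidableEq m] [Fintype n] [DecidableEq n]

theorem dot_eq_sq (A : Matrix m n ℝ) (v : n → ℝ) :
    (A *ᵥ v) ⬝ᵥ (A *ᵥ v) = ∑ i, (∑ j, A i j * v j) ^ 2 := by
  unfold dotProduct mulVec dotProduct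
  exact Finset.sum_congr rfl fun i _ => by ring

theorem dot_self_eq (v : n → ℝ) : v ⬝ᵥ v = ∑ j, v j ^ 2 := by
  unfold dotProduct
  exact Finset.sum_congr rfl fun i _ => by ring

theorem nrm_of_OpLe {A : Matrix m n ℝ} {c : ℝ} (h : OpLe A c) : ‖A‖ ≤ c := by
  refine nrm_le_of_dot h.1 fun v => ?_
  rw [dot_eq_sq, dot_self_eq]
  exact h.2 v

theorem OpLe_of_nrm {A : Matrix m n ℝ} {c : ℝ} (h : ‖A‖ ≤ c) : OpLe A c := by
  refine ⟨(norm_nonneg _).trans h, fun v => ?_⟩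
  have h1 := dot_mulVec_le A v
  rw [dot_eq_sq, dot_self_eq] at h1
  refine h1.trans (mul_le_mul_of_nonneg_right (pow_le_pow_left₀ (norm_nonneg _) h 2) ?_)
  exact Finset.sum_nonneg fun j _ => sq_nonneg _

/-- trace norm duality with any operator -/
theorem TrN_le {E : Matrix m n ℝ} {c : ℝ} (h : TrN E c) (K : Matrix n m ℝ) :
    |(K * E).trace| ≤ ‖K‖ * c := by
  have hc : 0 ≤ c := by
    have := h 0 (OpLe_of_nrm (by rw [norm_zero]; norm_num))
    rw [Matrix.zero_mul, trace_zero, abs_zero] at this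
    exact this
  rcases eq_or_lt_of_le (norm_nonneg K) with h0 | h0
  · have : K = 0 := norm_eq_zero.1 h0.symm
    rw [this, Matrix.zero_mul, trace_zero, abs_zero, norm_zero, zero_mul]
  · have h1 := h (‖K‖⁻¹ • K) (OpLe_of_nrm (by
      rw [norm_smul, norm_inv, norm_norm, inv_mul_cancel₀ h0.ne']))
    rw [Matrix.smul_mul, trace_smul, smul_eq_mul, abs_mul, abs_of_pos (inv_pos.2 h0)] at h1
    have h2 := mul_le_mul_of_nonneg_left h1 h0.le
    rwa [← mul_assoc, mul_inv_cancel₀ h0.ne', one_mul] at h2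

/-- norm of a Gram matrix -/
theorem nrm_gram_le {L : Matrix m n ℝ} {N : ℝ} (hN : 0 < N) (h : ‖L‖ ≤ N) :
    ‖(1 / N ^ 2) • (Lᵀ * L)‖ ≤ 1 := by
  rw [norm_smul, nrm_gram, Real.norm_of_nonneg (by positivity)]
  rw [one_div, inv_mul_le_iff₀ (by positivity), mul_one]
  exact pow_le_pow_left₀ (norm_nonneg _) h 2

/-- **price of a function letter**, in trace norm -/
theorem phi_fl {X Y : Matrix m n ℝ} {G : Matrix n n ℝ} (hG : G.PosSemidef) {ω v c : ℝ}
    (hc : 0 < c) (hX : ‖X‖ ≤ c) (hω : ‖(1 / c ^ 2) • (Xᵀ * X) + G‖ ≤ ω) (hE : TrN (X - Y) (c * v)) :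
    phi ((1 / c ^ 2) • (Xᵀ * X) + G) ≤ phi ((1 / c ^ 2) • (Yᵀ * Y) + G) + 3 * Real.sqrt ω * v := by
  have e : ∀ Z : Matrix m n ℝ, (1 / c ^ 2) • (Zᵀ * Z) = ((1 / c) • Z)ᵀ * ((1 / c) • Z) := by
    intro Z
    rw [transpose_smul, Matrix.smul_mul, Matrix.mul_smul, smul_smul, ← sq, _root_.one_div_pow]
  rw [e] at hω
  rw [e, e]
  have h1 := phi_cost ((1 / c) • X) ((1 / c) • Y) hG
  set M := ((1 / c) • X)ᵀ * ((1 / c) • X) + G with hM
  have hMp : M.PosSemidef := (psd_tms _).add hG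
  have h2 : (CFC.sqrt M * (((1 / c) • X)ᵀ * ((1 / c) • X - (1 / c) • Y))).trace =
      (1 / c) * (CFC.sqrt M * ((1 / c) • X)ᵀ * (X - Y)).trace := by
    rw [← smul_sub, Matrix.mul_smul, Matrix.mul_smul, trace_smul, smul_eq_mul, Matrix.mul_assoc]
  have h3 := (le_abs_self _).trans (TrN_le hE (CFC.sqrt M * ((1 / c) • X)ᵀ))
  have hcv : 0 ≤ c * v := by
    have := hE 0 (OpLe_of_nrm (by rw [norm_zero]; norm_num))
    rwa [Matrix.zero_mul, trace_zero, abs_zero] at this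
  have h4 : ‖CFC.sqrt M * ((1 / c) • X)ᵀ‖ ≤ Real.sqrt ω := by
    refine (l2_opNorm_mul _ _).trans ?_
    rw [nrm_rt hMp, nrm_t, norm_smul, Real.norm_of_nonneg (by positivity)]
    have h5 : 1 / c * ‖X‖ ≤ 1 := by
      rw [one_div, inv_mul_le_iff₀ hc, mul_one]; exact hX
    calc √‖M‖ * (1 / c * ‖X‖) ≤ √‖M‖ * 1 := mul_le_mul_of_nonneg_left h5 (Real.sqrt_nonneg _)
      _ ≤ √ω := by rw [mul_one]; exact Real.sqrt_le_sqrt hω
  rw [h2] at h1
  have h6 : (CFC.sqrt M * ((1 / c) • X)ᵀ * (X - Y)).trace ≤ Real.sqrt ω * (c * v) :=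
    h3.trans (mul_le_mul_of_nonneg_right h4 hcv)
  have h7 : (1 / c) * (CFC.sqrt M * ((1 / c) • X)ᵀ * (X - Y)).trace ≤ Real.sqrt ω * v := by
    have := mul_le_mul_of_nonneg_left h6 (show (0 : ℝ) ≤ 1 / c by positivity)
    refine this.trans (le_of_eq ?_)
    field_simp
  linarith

end norms

section bridge

open scoped Matrix.Norms.L2Operator

variable {Q : ℕ} [NeZero Q]

theorem box_eq_rs (C : Mx Q) (N : ℕ) (q p : ZMod Q) : box C N q p = rs N C q p := rfl

theorem st_eq (m a : ℕ) : (st m a : ZMod Q) = (a : ZMod Q) * ((2 ^ m : ℕ) : ZMod Q) := by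
  unfold st
  push_cast
  ring


theorem fl_RSup (X : ℕ → Mx Q) (m : ℕ) : RSup (2 ^ m) (fl X m) :=
  RSup_of_mul fun q p => rs_row (2 ^ m) (X m) q p

theorem AB_fl (X : ℕ → Mx Q) (m j : ℕ) (hQ : 2 ^ j * 2 ^ m ≤ Q) (q p : ZMod Q) :
    AB (2 ^ m) (fl X m) j q p = rs (2 ^ j * 2 ^ m) (X m) q p := by
  rw [rs_sum (by positivity) hQ]
  rfl

theorem gr_fl (X : ℕ → Mx Q) (m j : ℕ) (hQ : 2 ^ j * 2 ^ m ≤ Q) (q p : ZMod Q) :
    gr (2 ^ m) (fl X m) j j q p = (1 / ((2 ^ (m + j) : ℝ)) ^ 2) •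
      ((box (X m) (2 ^ (m + j)) q p)ᵀ * box (X m) (2 ^ (m + j)) q p) := by
  rw [gr_eq (by positivity) (fl_RSup X m) j hQ, AB_fl X m j hQ, ← box_eq_rs]
  have e : 2 ^ j * 2 ^ m = 2 ^ (m + j) := by rw [pow_add, mul_comm]
  rw [e]
  push_cast
  rfl

theorem gr_fl0 (X : ℕ → Mx Q) (m : ℕ) (q p : ZMod Q) :
    gr (2 ^ m) (fl X m) 0 0 q p = (1 / ((2 ^ m : ℝ)) ^ 2) •
      ((box (X m) (2 ^ m) q p)ᵀ * box (X m) (2 ^ m) q p) := by
  rw [gr_zero]
  push_cast
  rfl

variable {C : Mx Q} {al : ℕ → ZMod Q → ZMod Q → Prop} {R : ℕ → ZMod Q → ZMod Q → Mx Q}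
  {w : ℕ → ZMod Q → ZMod Q → ℝ} {k M : ℕ} {n : ℝ}

theorem kl_eq (C : Mx Q) (al : ℕ → ZMod Q → ZMod Q → Prop) (R : ℕ → ZMod Q → ZMod Q → Mx Q)
    (m : ℕ) : kl C al R m = kL (2 ^ m) (R m) (al m) C := rfl

theorem kil_PB (h : Kil C al R w k M n) (m : ℕ) : PB (2 ^ m) (R m) := by
  refine ⟨h.pr m, fun q p => ?_⟩
  ext x y
  unfold Eb
  rw [diagonal_mul]
  unfold ind
  split_ifs with h1
  · rw [one_mul]
  · rw [zero_mul]
    by_contra h2
    exact h1 (h.supp m q p x y (Ne.symm h2)).1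

theorem kil_Nst (h : Kil C al R w k M n) {m j : ℕ} (hm : m + j < M) :
    Nst (2 ^ m) (2 ^ j) (R m) (R (m + j)) (al m) (al (m + j)) := by
  intro q p ha s hs t ht _
  have h1 := congrArg Matrix.transpose (h.nest m j hm q p s hs t ht)
  rw [transpose_mul, transpose_mul, (h.pr _ _ _).symm, (h.pr _ _ _).symm, st_eq, st_eq] at h1
  have h2 : (I1 (2 ^ m) (q + (s : ZMod Q) * ((2 ^ m : ℕ) : ZMod Q)))ᵀ =
      Eb (2 ^ m) (q + (s : ZMod Q) * ((2 ^ m : ℕ) : ZMod Q)) := (Eb_isPr _ _).symm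
  rw [h2] at h1
  exact h1.symm

theorem kil_Wt (h : Kil C al R w k M n) {m j : ℕ} (hm : m + j < M) :
    Wt (2 ^ m) (2 ^ j) (R (m + j)) (al (m + j)) C (w (m + j)) := by
  refine ⟨h.w0 (m + j), fun q p ha s hs t ht => ?_⟩
  have h1 := h.hs m j hm q p ha s hs t ht
  rw [st_eq, st_eq, box_eq_rs] at h1
  refine h1.trans (le_of_eq ?_)
  congr 1
  push_cast
  rw [pow_add, mul_pow, ← pow_mul, ← pow_mul, mul_comm j, mul_comm m, pow_mul, pow_mul]
  norm_num
  ring

open Classical in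
theorem xc_eq (m j : ℕ) (q p : ZMod Q) :
    xc (2 ^ m) (2 ^ j) (w (m + j)) (al m) (al (m + j)) q p =
      if Exit al j m q p then w (m + j) q p else 0 := by
  unfold xc Exit
  simp only [st_eq]

theorem kl_nrm (h : Kil C al R w k M n) {m : ℕ} (hm : m < M) (q p : ZMod Q) :
    ‖kl C al R m q p‖ ≤ 2 ^ m := by
  rw [kl_eq]
  exact nrm_kL (kil_PB h m) (by positivity) (fun q p ha => nrm_of_OpLe (h.op m hm q p ha)) q p

theorem gr_kl_nrm (h : Kil C al R w k M n) {m : ℕ} (hm : m < M) (q p : ZMod Q) :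
    ‖gr (2 ^ m) (kl C al R m) 0 0 q p‖ ≤ 1 := by
  rw [gr_zero]
  push_cast
  exact nrm_gram_le (by positivity) (kl_nrm h hm q p)

theorem gr_fl_nrm {X : ℕ → Mx Q} (h : Fl k M n X) {m j : ℕ} (hj : j ≤ k) (hm : m + j < M)
    (hQ : 2 ^ j * 2 ^ m ≤ Q) (q p : ZMod Q) : ‖gr (2 ^ m) (fl X m) j j q p‖ ≤ 1 := by
  rw [gr_fl X m j hQ]
  exact nrm_gram_le (by positivity) (nrm_of_OpLe (h.op m j hj hm q p))

theorem gr_fl_nrm0 {X : ℕ → Mx Q} (h : Fl k M n X) {m : ℕ} (hm : m < M) (q p : ZMod Q) :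
    ‖gr (2 ^ m) (fl X m) 0 0 q p‖ ≤ 1 := by
  rw [gr_fl0 X m]
  exact nrm_gram_le (by positivity) (nrm_of_OpLe (by simpa using h.op m 0 (Nat.zero_le _) hm q p))

/-- function letter going up, pointwise -/
theorem fl_step {X : ℕ → Mx Q} (h : Fl k M n X) {m j : ℕ} (hj : j ≤ k) (hm : m + j < M)
    (hQ : 2 ^ j * 2 ^ m ≤ Q) {v : ℝ} (q p : ZMod Q)
    (hv : TrN (box (X (m + j)) (2 ^ (m + j)) q p - box (X m) (2 ^ (m + j)) q p)
      (2 ^ (m + j) * v)) {G : Mx Q} (hG : G.PosSemidef) {ω : ℝ}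
    (hω : ‖gr (2 ^ (m + j)) (fl X (m + j)) 0 0 q p + G‖ ≤ ω) :
    phi (gr (2 ^ (m + j)) (fl X (m + j)) 0 0 q p + G) ≤
      phi (gr (2 ^ m) (fl X m) j j q p + G) + 3 * Real.sqrt ω * v := by
  rw [gr_fl0] at hω ⊢
  rw [gr_fl X m j hQ]
  exact phi_fl hG (by positivity) (nrm_of_OpLe (by
    simpa using h.op (m + j) 0 (Nat.zero_le _) hm q p)) hω hv

/-- killer going up, own variable = columns, pointwise -/
theorem kl_step (h : Kil C al R w k M n) {m j : ℕ} (hm : m + j < M)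
    (hQ : 2 ^ j * 2 ^ m ≤ Q) (q p : ZMod Q) {G : Mx Q} (hG : G.PosSemidef) {ω : ℝ}
    (hω0 : 0 ≤ ω) (hω : ‖gr (2 ^ (m + j)) (kl C al R (m + j)) 0 0 q p + G‖ ≤ ω) :
    phi (gr (2 ^ (m + j)) (kl C al R (m + j)) 0 0 q p + G) ≤
      phi (gr (2 ^ m) (kl C al R m) j j q p + G) +
        (9 / 2) * Real.sqrt ω * 16 ^ j *
          xc (2 ^ m) (2 ^ j) (w (m + j)) (al m) (al (m + j)) q p := by
  have e : 2 ^ (m + j) = 2 ^ j * 2 ^ m := by rw [pow_add, mul_comm]
  rw [kl_eq, kl_eq] at *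
  have h1 := kil_PB h (m + j)
  rw [e] at hω h1 ⊢
  exact kil_col (by positivity) hQ (kil_PB h m) h1 (kil_Nst h hm) (kil_Wt h hm) hω0 q p hG hω

end bridge

section sums

open scoped Matrix.Norms.L2Operator

variable {Q : ℕ} [NeZero Q]

theorem sum_ind_le (N : ℕ) (x : ZMod Q) : ∑ q : ZMod Q, ind N q x ≤ N := by
  unfold ind
  rw [Finset.sum_ite, Finset.sum_const_zero, add_zero, Finset.sum_const, nsmul_eq_mul, mul_one]
  have h1 : (Finset.univ.filter fun q : ZMod Q => (x - q).val < N).card ≤ (range N).card := by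
    refine Finset.card_le_card_of_injOn (fun q => (x - q).val) ?_ ?_
    · intro q hq
      simp only [Finset.coe_filter, Finset.mem_univ, true_and, Set.mem_setOf_eq] at hq
      simpa using hq
    · intro q _ q' _ h
      have := ZMod.val_injective Q h
      exact sub_right_inj.1 this
  rw [Finset.card_range] at h1
  exact_mod_cast h1

theorem hs2_rs (N : ℕ) (C : Mx Q) (q p : ZMod Q) :
    hs2 (rs N C q p) = ∑ x, ∑ y, ind N q x * ind N p y * C x y ^ 2 := by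
  unfold hs2 rs Eb
  refine Finset.sum_congr rfl fun x _ => Finset.sum_congr rfl fun y _ => ?_
  rw [mul_diagonal, diagonal_mul]
  have h1 := ind_sq N q x
  have h2 := ind_sq N p y
  calc (ind N q x * C x y * ind N p y) ^ 2 =
      (ind N q x * ind N q x) * (ind N p y * ind N p y) * C x y ^ 2 := by ring
    _ = _ := by rw [h1, h2]

theorem sum_hs2_rs (N : ℕ) (C : Mx Q) :
    ∑ q : ZMod Q, ∑ p : ZMod Q, hs2 (rs N C q p) ≤ (N : ℝ) ^ 2 * ∑ x, ∑ y, C x y ^ 2 := by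
  have h0 : ∀ x : ZMod Q, 0 ≤ ∑ q : ZMod Q, ind N q x := fun x =>
    Finset.sum_nonneg fun q _ => by unfold ind; split_ifs <;> norm_num
  calc ∑ q : ZMod Q, ∑ p : ZMod Q, hs2 (rs N C q p)
      = ∑ x, ∑ y, (∑ q : ZMod Q, ind N q x) * (∑ p : ZMod Q, ind N p y) * C x y ^ 2 := by
        simp_rw [hs2_rs]
        have c1 : ∀ f : ZMod Q → ZMod Q → ZMod Q → ZMod Q → ℝ,
            ∑ q, ∑ p, ∑ x, ∑ y, f q p x y = ∑ x, ∑ y, ∑ q, ∑ p, f q p x y := by
          intro f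
          calc ∑ q, ∑ p, ∑ x, ∑ y, f q p x y = ∑ q, ∑ x, ∑ p, ∑ y, f q p x y :=
                Finset.sum_congr rfl fun q _ => Finset.sum_comm
            _ = ∑ x, ∑ q, ∑ p, ∑ y, f q p x y := Finset.sum_comm
            _ = ∑ x, ∑ q, ∑ y, ∑ p, f q p x y :=
                Finset.sum_congr rfl fun x _ => Finset.sum_congr rfl fun q _ => Finset.sum_comm
            _ = ∑ x, ∑ y, ∑ q, ∑ p, f q p x y :=
                Finset.sum_congr rfl fun x _ => Finset.sum_comm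
        rw [c1]
        refine Finset.sum_congr rfl fun x _ => Finset.sum_congr rfl fun y _ => ?_
        rw [Finset.sum_mul_sum, Finset.sum_mul]
        refine Finset.sum_congr rfl fun q _ => ?_
        rw [Finset.sum_mul]
    _ ≤ ∑ x, ∑ y, (N : ℝ) * N * C x y ^ 2 := by
        refine Finset.sum_le_sum fun x _ => Finset.sum_le_sum fun y _ => ?_
        refine mul_le_mul_of_nonneg_right ?_ (sq_nonneg _)
        exact mul_le_mul (sum_ind_le N x) (sum_ind_le N y) (h0 y) (Nat.cast_nonneg _)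
    _ = _ := by
        rw [Finset.mul_sum]
        refine Finset.sum_congr rfl fun x _ => ?_
        rw [Finset.mul_sum]
        refine Finset.sum_congr rfl fun y _ => ?_
        ring

theorem trace_gr0 (N : ℕ) (L : Lt Q (ZMod Q)) (q p : ZMod Q) :
    (gr N L 0 0 q p).trace = (1 / (N : ℝ) ^ 2) * hs2 (L q p) := by
  rw [gr_zero, trace_smul, smul_eq_mul, ← PotL.hs2_transpose, hs2_eq, transpose_transpose]

/-- total trace of a function letter -/
theorem sum_trace_fl (X : ℕ → Mx Q) (m : ℕ) :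
    ∑ q : ZMod Q, ∑ p : ZMod Q, (gr (2 ^ m) (fl X m) 0 0 q p).trace ≤ ∑ x, ∑ y, X m x y ^ 2 := by
  have h := sum_hs2_rs (2 ^ m) (X m)
  calc ∑ q : ZMod Q, ∑ p : ZMod Q, (gr (2 ^ m) (fl X m) 0 0 q p).trace
      = (1 / ((2 ^ m : ℕ) : ℝ) ^ 2) * ∑ q : ZMod Q, ∑ p : ZMod Q, hs2 (rs (2 ^ m) (X m) q p) := by
        rw [Finset.mul_sum]
        refine Finset.sum_congr rfl fun q _ => ?_
        rw [Finset.mul_sum]
        refine Finset.sum_congr rfl fun p _ => ?_
        rw [trace_gr0]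
        rfl
    _ ≤ (1 / ((2 ^ m : ℕ) : ℝ) ^ 2) * (((2 ^ m : ℕ) : ℝ) ^ 2 * ∑ x, ∑ y, X m x y ^ 2) :=
        mul_le_mul_of_nonneg_left h (by positivity)
    _ = _ := by
        have : ((2 ^ m : ℕ) : ℝ) ≠ 0 := by positivity
        field_simp

variable {C : Mx Q} {al : ℕ → ZMod Q → ZMod Q → Prop} {R : ℕ → ZMod Q → ZMod Q → Mx Q}
  {w : ℕ → ZMod Q → ZMod Q → ℝ} {k M : ℕ} {n : ℝ}

/-- total trace of the killer letters -/
theorem sum_trace_kl (h : Kil C al R w k M n) {m : ℕ} (hm : m < M) :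
    ∑ q : ZMod Q, ∑ p : ZMod Q, (gr (2 ^ m) (kl C al R m) 0 0 q p).trace ≤ n := by
  classical
  refine le_trans (Finset.sum_le_sum fun q _ => Finset.sum_le_sum fun p _ => ?_) (h.sw m hm)
  rw [trace_gr0]
  unfold kl
  split_ifs with ha
  · have h1 := h.hs m 0 hm q p ha 0 (by norm_num) 0 (by norm_num)
    have e : (st m 0 : ZMod Q) = 0 := by unfold st; simp
    rw [e, add_zero, add_zero, add_zero] at h1
    have e4 : ((4 : ℝ) ^ m) = ((2 ^ m : ℕ) : ℝ) ^ 2 := by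
      push_cast
      rw [← pow_mul, mul_comm, pow_mul]
      norm_num
    rw [e4] at h1
    have h2 : (0 : ℝ) < ((2 ^ m : ℕ) : ℝ) ^ 2 := by positivity
    rw [one_div, inv_mul_le_iff₀ h2]
    exact h1
  · have : hs2 (0 : Matrix (ZMod Q) (ZMod Q) ℝ) = 0 := by simp [hs2]
    rw [this, mul_zero]

/-- the size of `phi` -/
theorem phi_le_trace {M : Mx Q} (hM : M.PosSemidef) {ω : ℝ} (h : ‖M‖ ≤ ω) :
    phi M ≤ Real.sqrt ω * M.trace :=
  (phi_le_nrm hM).trans (mul_le_mul_of_nonneg_right (Real.sqrt_le_sqrt h) hM.trace_nonneg)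

/-- reindexing of the partner box -/
theorem sum_refl (f : ZMod Q → ZMod Q → ℝ) (t : ZMod Q) :
    ∑ p : ZMod Q, ∑ q : ZMod Q, f (t - p - q) p = ∑ q : ZMod Q, ∑ p : ZMod Q, f q p := by
  rw [Finset.sum_comm (s := (Finset.univ : Finset (ZMod Q))) (t := (Finset.univ : Finset (ZMod Q)))
    (f := fun q p => f q p)]
  refine Finset.sum_congr rfl fun p _ => ?_
  exact Equiv.sum_comp (Equiv.subLeft (t - p)) (fun q => f q p)

/-- joint potential at the bottom -/
theorem VJ_bot {X Z : ℕ → Lt Q (ZMod Q)} {m : ℕ} {a b : ℝ}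
    (hX1 : ∀ q p, ‖gr (2 ^ m) (X m) 0 0 q p‖ ≤ 1) (hZ1 : ∀ q p, ‖gr (2 ^ m) (Z m) 0 0 q p‖ ≤ 1)
    (hX : ∑ q : ZMod Q, ∑ p : ZMod Q, (gr (2 ^ m) (X m) 0 0 q p).trace ≤ a)
    (hZ : ∑ q : ZMod Q, ∑ p : ZMod Q, (gr (2 ^ m) (Z m) 0 0 q p).trace ≤ b) :
    VJ X Z m 0 ≤ Real.sqrt 2 * (a + b) := by
  unfold VJ VV
  have hpos : 0 < 2 ^ 0 * 2 ^ m := by positivity
  refine le_trans (bl_mono (g := fun _ => Real.sqrt 2 * (a + b)) ?_ _ _)
    (le_of_eq (bl_const _ hpos _))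
  intro t
  unfold WW
  have h1 : ∀ p q : ZMod Q, phi (gr (2 ^ m) (X m) 0 0 q p + gr (2 ^ m) (Z m) 0 0 (t - p - q) p) ≤
      Real.sqrt 2 * (gr (2 ^ m) (X m) 0 0 q p).trace +
      Real.sqrt 2 * (gr (2 ^ m) (Z m) 0 0 (t - p - q) p).trace := by
    intro p q
    rw [← mul_add, ← trace_add]
    refine phi_le_trace ((gr_psd _ _ _ _ _ _).add (gr_psd _ _ _ _ _ _)) ?_
    refine (norm_add_le _ _).trans ?_
    have := hX1 q p
    have := hZ1 (t - p - q) p
    linarith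
  refine (Finset.sum_le_sum fun p _ => Finset.sum_le_sum fun q _ => h1 p q).trans ?_
  simp only [Finset.sum_add_distrib, ← Finset.mul_sum]
  rw [sum_refl (fun q p => (gr (2 ^ m) (Z m) 0 0 q p).trace) t]
  rw [Finset.sum_comm (s := (Finset.univ : Finset (ZMod Q))) (t := (Finset.univ : Finset (ZMod Q)))
    (f := fun p q => (gr (2 ^ m) (X m) 0 0 q p).trace), ← mul_add]
  exact mul_le_mul_of_nonneg_left (add_le_add hX hZ) (Real.sqrt_nonneg _)

/-- own potential at the bottom -/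
theorem EO_bot {L : Lt Q (ZMod Q)} {N : ℕ} {a : ℝ} (hL1 : ∀ q p, ‖gr N L 0 0 q p‖ ≤ 1)
    (hL : ∑ q : ZMod Q, ∑ p : ZMod Q, (gr N L 0 0 q p).trace ≤ a) :
    EO (gr N L) 0 0 ≤ a := by
  unfold EO
  refine le_trans (Finset.sum_le_sum fun p _ => Finset.sum_le_sum fun q _ =>
    phi_le_trace (gr_psd _ _ _ _ _ _) (hL1 q p)) ?_
  rw [Finset.sum_comm]
  simp only [Real.sqrt_one, one_mul]
  exact hL

/-- joint potential, one scale up -/
theorem VJ_step {X Z : ℕ → Lt Q (ZMod Q)} {m : ℕ} (cX cZ : ZMod Q → ZMod Q → ℝ)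
    (h : ∀ q q' p, phi (gr (2 ^ (m + 1)) (X (m + 1)) 0 0 q p +
        gr (2 ^ (m + 1)) (Z (m + 1)) 0 0 q' p) ≤
      phi (gr (2 ^ m) (X m) 1 1 q p + gr (2 ^ m) (Z m) 1 1 q' p) + cX q p + cZ q' p) :
    VJ X Z (m + 1) 0 - VJ X Z m 1 ≤
      ∑ q : ZMod Q, ∑ p : ZMod Q, cX q p + ∑ q : ZMod Q, ∑ p : ZMod Q, cZ q p := by
  rw [sub_le_iff_le_add']
  unfold VJ VV
  have e : 2 ^ 0 * 2 ^ (m + 1) = 2 ^ 1 * 2 ^ m := by rw [pow_succ]; ring
  rw [e]
  have hpos : 0 < 2 ^ 1 * 2 ^ m := by positivity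
  rw [← bl_const (Q := Q) (∑ q : ZMod Q, ∑ p : ZMod Q, cX q p + ∑ q : ZMod Q, ∑ p : ZMod Q, cZ q p)
    hpos (-2), ← bl_add]
  refine bl_mono (fun t => ?_) _ _
  unfold WW
  refine (Finset.sum_le_sum fun p _ => Finset.sum_le_sum fun q _ => h q (t - p - q) p).trans ?_
  simp only [Finset.sum_add_distrib]
  rw [sum_refl cZ t]
  rw [Finset.sum_comm (s := (Finset.univ : Finset (ZMod Q))) (t := (Finset.univ : Finset (ZMod Q)))
    (f := fun p q => cX q p)]
  linarith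

/-- own potential, `j` scales up -/
theorem EO_step {X : ℕ → Lt Q (ZMod Q)} {m j : ℕ} (c : ZMod Q → ZMod Q → ℝ)
    (h : ∀ q p, phi (gr (2 ^ (m + j)) (X (m + j)) 0 0 q p) ≤
      phi (gr (2 ^ m) (X m) j j q p) + c q p) :
    EO (gr (2 ^ (m + j)) (X (m + j))) 0 0 - EO (gr (2 ^ m) (X m)) j j ≤
      ∑ q : ZMod Q, ∑ p : ZMod Q, c q p := by
  rw [sub_le_iff_le_add']
  unfold EO
  refine (Finset.sum_le_sum fun p _ => Finset.sum_le_sum fun q _ => h q p).trans ?_
  simp only [Finset.sum_add_distrib]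
  rw [Finset.sum_comm (s := (Finset.univ : Finset (ZMod Q))) (t := (Finset.univ : Finset (ZMod Q)))
    (f := fun p q => c q p)]

end sums

section final

open scoped Matrix.Norms.L2Operator

variable {Q : ℕ} [NeZero Q]

theorem pow_le_Q {M i : ℕ} (hQ : 2 ^ M ∣ Q) (hi : i ≤ M) : 2 ^ i ≤ Q :=
  (Nat.pow_le_pow_right (by norm_num) hi).trans
    (Nat.le_of_dvd (Nat.pos_of_ne_zero (NeZero.ne Q)) hQ)

theorem pow_mul_le_Q {M m j : ℕ} (hQ : 2 ^ M ∣ Q) (hi : m + j ≤ M) : 2 ^ j * 2 ^ m ≤ Q := by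
  rw [← pow_add, add_comm]
  exact pow_le_Q hQ hi

theorem sum_trunc (f : ℕ → ZMod Q → ZMod Q → ℝ) (hf : ∀ m q p, 0 ≤ f m q p) {M1 M j : ℕ}
    (h : ∀ m < M1, m + j < M) :
    ∑ m ∈ range M1, ∑ q : ZMod Q, ∑ p : ZMod Q, f m q p ≤
      ∑ m ∈ range M, ∑ q : ZMod Q, ∑ p : ZMod Q, (if m + j < M then f m q p else 0) := by
  have h1 : ∑ m ∈ range M1, ∑ q : ZMod Q, ∑ p : ZMod Q, f m q p =
      ∑ m ∈ range M1, ∑ q : ZMod Q, ∑ p : ZMod Q, (if m + j < M then f m q p else 0) := by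
    refine Finset.sum_congr rfl fun m hm => ?_
    rw [Finset.mem_range] at hm
    simp only [h m hm, if_true]
  rw [h1]
  refine Finset.sum_le_sum_of_subset_of_nonneg ?_ ?_
  · intro m hm
    rw [Finset.mem_range] at hm ⊢
    have := h m hm
    omega
  · intro m _ _
    refine Finset.sum_nonneg fun q _ => Finset.sum_nonneg fun p _ => ?_
    split_ifs
    · exact hf m q p
    · exact le_rfl

open Classical in
theorem xc_nonneg {N K : ℕ} {w : ZMod Q → ZMod Q → ℝ} {al al' : ZMod Q → ZMod Q → Prop}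
    (hw : ∀ q p, 0 ≤ w q p) (q p : ZMod Q) : 0 ≤ xc N K w al al' q p := by
  unfold xc
  split_ifs
  · exact hw q p
  · exact le_rfl

/-- total weight of the exits -/
theorem sum_xc {C : Mx Q} {al : ℕ → ZMod Q → ZMod Q → Prop} {R : ℕ → ZMod Q → ZMod Q → Mx Q}
    {w : ℕ → ZMod Q → ZMod Q → ℝ} {k M : ℕ} {n : ℝ} (h : Kil C al R w k M n) {M1 j : ℕ}
    (hj : j ≤ k) (hM : ∀ m < M1, m + j < M) :
    ∑ m ∈ range M1, ∑ q : ZMod Q, ∑ p : ZMod Q,
      xc (2 ^ m) (2 ^ j) (w (m + j)) (al m) (al (m + j)) q p ≤ n := by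
  classical
  refine (sum_trunc _ (fun m q p => xc_nonneg (h.w0 (m + j)) q p) hM).trans
    (le_trans (le_of_eq ?_) (h.sx j hj))
  refine Finset.sum_congr rfl fun m _ => Finset.sum_congr rfl fun q _ =>
    Finset.sum_congr rfl fun p _ => ?_
  rw [xc_eq, ite_and]

theorem sum_smul3 (c : ℝ) (f : ℕ → ZMod Q → ZMod Q → ℝ) (M1 : ℕ) :
    ∑ m ∈ range M1, ∑ q : ZMod Q, ∑ p : ZMod Q, c * f m q p =
      c * ∑ m ∈ range M1, ∑ q : ZMod Q, ∑ p : ZMod Q, f m q p := by
  simp only [← Finset.mul_sum]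

/-- **assembly of the price of a word** at a vertex whose letters go up at prices `cX`, `cZ` -/
theorem WP_le (X Z : ℕ → Lt Q (ZMod Q)) (k M' : ℕ) {a b x1 z1 xk zk : ℝ}
    (cX cZ dX dZ : ℕ → ZMod Q → ZMod Q → ℝ)
    (h0 : VJ X Z 0 0 ≤ a)
    (h1 : ∀ m < M' - 1, ∀ q q' p, phi (gr (2 ^ (m + 1)) (X (m + 1)) 0 0 q p +
        gr (2 ^ (m + 1)) (Z (m + 1)) 0 0 q' p) ≤
      phi (gr (2 ^ m) (X m) 1 1 q p + gr (2 ^ m) (Z m) 1 1 q' p) + cX m q p + cZ m q' p)
    (h2 : ∀ m < k, VO X Z m 0 ≤ b)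
    (h3 : ∀ m < M' - k, ∀ q p, phi (gr (2 ^ (m + k)) (X (m + k)) 0 0 q p) ≤
      phi (gr (2 ^ m) (X m) k k q p) + dX m q p)
    (h4 : ∀ m < M' - k, ∀ q p, phi (gr (2 ^ (m + k)) (Z (m + k)) 0 0 q p) ≤
      phi (gr (2 ^ m) (Z m) k k q p) + dZ m q p)
    (sX : ∑ m ∈ range (M' - 1), ∑ q : ZMod Q, ∑ p : ZMod Q, cX m q p ≤ x1)
    (sZ : ∑ m ∈ range (M' - 1), ∑ q : ZMod Q, ∑ p : ZMod Q, cZ m q p ≤ z1)
    (tX : ∑ m ∈ range (M' - k), ∑ q : ZMod Q, ∑ p : ZMod Q, dX m q p ≤ xk)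
    (tZ : ∑ m ∈ range (M' - k), ∑ q : ZMod Q, ∑ p : ZMod Q, dZ m q p ≤ zk) :
    WP X Z k M' ≤ 4 * a + 4 * (x1 + z1) + 64 * (k * b) + 64 * (xk + zk) := by
  unfold WP
  have e1 : ∑ m ∈ range (M' - 1), (VJ X Z (m + 1) 0 - VJ X Z m 1) ≤ x1 + z1 := by
    refine le_trans (Finset.sum_le_sum fun m hm => VJ_step (cX m) (cZ m) (h1 m ?_)) ?_
    · exact Finset.mem_range.1 hm
    · rw [Finset.sum_add_distrib]
      exact add_le_add sX sZ
  have e2 : ∑ m ∈ range k, VO X Z m 0 ≤ k * b := by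
    refine (Finset.sum_le_sum fun m hm => h2 m (Finset.mem_range.1 hm)).trans (le_of_eq ?_)
    rw [Finset.sum_const, Finset.card_range, nsmul_eq_mul]
  have e3 : ∑ m ∈ range (M' - k), (VO X Z (m + k) 0 - VO X Z m k) ≤ xk + zk := by
    refine le_trans (Finset.sum_le_sum (g := fun m =>
      ∑ q : ZMod Q, ∑ p : ZMod Q, dX m q p + ∑ q : ZMod Q, ∑ p : ZMod Q, dZ m q p)
      fun m hm => ?_) ?_
    · have hm' := Finset.mem_range.1 hm
      have a1 := EO_step (X := X) (dX m) (h3 m hm')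
      have a2 := EO_step (X := Z) (dZ m) (h4 m hm')
      unfold VO EB
      linarith
    · rw [Finset.sum_add_distrib]
      exact add_le_add tX tZ
  linarith

/-- **(L5-0) vertex 0** -/
theorem vert0 : Vert0 := by
  intro k hk
  refine ⟨4 * (Real.sqrt 2 * 2) + 4 * (3 * Real.sqrt 2 + (9 / 2) * Real.sqrt 2 * 16 ^ 1) +
    64 * (k * 2) + 64 * (3 + (9 / 2) * 16 ^ k), by positivity, ?_⟩
  intro Q _ M M' n X C al R w hQ hM hX hC
  obtain ⟨v1, v10, v11, v12⟩ := hX.mv 1 hk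
  obtain ⟨vk, vk0, vk1, vk2⟩ := hX.mv k le_rfl
  have hM0 : 0 < M := by omega
  have trX : ∀ m < M, ∑ q : ZMod Q, ∑ p : ZMod Q, (gr (2 ^ m) (fl X m) 0 0 q p).trace ≤ n :=
    fun m hm => (sum_trace_fl X m).trans (hX.en m hm)
  have trZ : ∀ m < M, ∑ q : ZMod Q, ∑ p : ZMod Q, (gr (2 ^ m) (kl C al R m) 0 0 q p).trace ≤ n :=
    fun m hm => sum_trace_kl hC hm
  have n1 : ∀ m < M, ∀ q p, ‖gr (2 ^ m) (fl X m) 0 0 q p‖ ≤ 1 := fun m hm => gr_fl_nrm0 hX hm
  have n2 : ∀ m < M, ∀ q p, ‖gr (2 ^ m) (kl C al R m) 0 0 q p‖ ≤ 1 := fun m hm =>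
    gr_kl_nrm hC hm
  have hW := WP_le (fl X) (kl C al R) k M' (a := Real.sqrt 2 * (n + n)) (b := n + n)
    (x1 := 3 * Real.sqrt 2 * n) (z1 := (9 / 2) * Real.sqrt 2 * 16 ^ 1 * n)
    (xk := 3 * n) (zk := (9 / 2) * 16 ^ k * n)
    (fun m q p => 3 * Real.sqrt 2 * v1 m q p)
    (fun m q p => (9 / 2) * Real.sqrt 2 * 16 ^ 1 *
      xc (2 ^ m) (2 ^ 1) (w (m + 1)) (al m) (al (m + 1)) q p)
    (fun m q p => 3 * vk m q p)
    (fun m q p => (9 / 2) * 16 ^ k *
      xc (2 ^ m) (2 ^ k) (w (m + k)) (al m) (al (m + k)) q p) ?_ ?_ ?_ ?_ ?_ ?_ ?_ ?_ ?_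
  · refine hW.trans (le_of_eq ?_)
    ring
  · exact VJ_bot (n1 0 hM0) (n2 0 hM0) (trX 0 hM0) (trZ 0 hM0)
  · intro m hm q q' p
    have hm1 : m + 1 < M := by omega
    have hQ1 : 2 ^ 1 * 2 ^ m ≤ Q := pow_mul_le_Q hQ (by omega)
    have s1 := fl_step hX hk hm1 hQ1 q p (v11 m hm1 q p)
      (G := gr (2 ^ (m + 1)) (kl C al R (m + 1)) 0 0 q' p) (gr_psd _ _ _ _ _ _) (ω := 2)
      ((norm_add_le _ _).trans (by
        have := n1 (m + 1) hm1 q p
        have := n2 (m + 1) hm1 q' p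
        linarith))
    have s2 := kl_step hC hm1 hQ1 q' p (G := gr (2 ^ m) (fl X m) 1 1 q p) (gr_psd _ _ _ _ _ _)
      (ω := 2) (by norm_num) ((norm_add_le _ _).trans (by
        have := gr_fl_nrm hX hk hm1 hQ1 q p
        have := n2 (m + 1) hm1 q' p
        linarith))
    rw [add_comm (gr (2 ^ (m + 1)) (kl C al R (m + 1)) 0 0 q' p),
      add_comm (gr (2 ^ m) (kl C al R m) 1 1 q' p)] at s2
    linarith
  · intro m hm
    have hm1 : m < M := by omega
    unfold VO EB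
    exact add_le_add (EO_bot (n1 m hm1) (trX m hm1)) (EO_bot (n2 m hm1) (trZ m hm1))
  · intro m hm q p
    have hm1 : m + k < M := by omega
    have hQ1 : 2 ^ k * 2 ^ m ≤ Q := pow_mul_le_Q hQ (by omega)
    have s1 := fl_step hX le_rfl hm1 hQ1 q p (vk1 m hm1 q p) (G := 0) PosSemidef.zero (ω := 1)
      (by rw [add_zero]; exact n1 (m + k) hm1 q p)
    rwa [add_zero, add_zero, Real.sqrt_one, mul_one] at s1
  · intro m hm q p
    have hm1 : m + k < M := by omega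
    have hQ1 : 2 ^ k * 2 ^ m ≤ Q := pow_mul_le_Q hQ (by omega)
    have s1 := kl_step hC hm1 hQ1 q p (G := 0) PosSemidef.zero (ω := 1) (by norm_num)
      (by rw [add_zero]; exact n2 (m + k) hm1 q p)
    rwa [add_zero, add_zero, Real.sqrt_one, mul_one] at s1
  · rw [sum_smul3]
    refine mul_le_mul_of_nonneg_left ?_ (by positivity)
    exact (sum_trunc v1 v10 (fun m hm => by omega)).trans v12
  · rw [sum_smul3]
    refine mul_le_mul_of_nonneg_left ?_ (by positivity)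
    exact sum_xc hC hk (fun m hm => by omega)
  · rw [sum_smul3]
    refine mul_le_mul_of_nonneg_left ?_ (by positivity)
    exact (sum_trunc vk vk0 (fun m hm => by omega)).trans vk2
  · rw [sum_smul3]
    refine mul_le_mul_of_nonneg_left ?_ (by positivity)
    exact sum_xc hC le_rfl (fun m hm => by omega)

end final

end Crest.Agent.R079.CRv0x250
end

-- ▼ part R079/CRx_371
section

/-! R079, RAGGED CORNER (CR): kernel letters, the bare box form `Tb` of CRdef_253 as the form `TB` of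
the letters, and EXACTNESS of the compressed killer (the rows of the band lie in the window spaces).
helper371. -/

set_option autoImplicit false
set_option linter.unusedVariables false
set_option linter.unusedSectionVars false
set_option linter.unusedSimpArgs false

namespace Crest.Agent.R079.CR371

open Matrix Crest.Agent.R072
open Finset hiding box
open Crest.Agent.R079.PotL (bl bl_mono bl_add bl_const_mul cel IsPr hs2)
open Crest.Agent.R079.CRdefx253
open scoped MatrixOrder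

section windows

variable {Q : ℕ} [NeZero Q]

/-- sums over windows -/
theorem sum_win {L : ℕ} (hL : L ≤ Q) (p : ZMod Q) (f : ZMod Q → ℝ) :
    ∑ x : ZMod Q, ind L p x * f x = ∑ i : Fin L, f (p + ((i : ℕ) : ZMod Q)) := by
  have h1 : ∀ x : ZMod Q, ind L p x * f x = if (x - p).val < L then f x else 0 := by
    intro x
    unfold ind
    split_ifs <;> simp
  rw [Finset.sum_congr rfl fun x _ => h1 x, ← Finset.sum_filter]
  symm
  refine Finset.sum_bij (fun (i : Fin L) _ => p + ((i : ℕ) : ZMod Q)) ?_ ?_ ?_ ?_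
  · intro i _
    rw [Finset.mem_filter]
    refine ⟨Finset.mem_univ _, ?_⟩
    rw [add_sub_cancel_left, ZMod.val_natCast, Nat.mod_eq_of_lt (by omega)]
    exact i.2
  · intro i _ j _ h
    have h2 : ((i : ℕ) : ZMod Q) = ((j : ℕ) : ZMod Q) := add_left_cancel h
    have h3 := congrArg ZMod.val h2
    rw [ZMod.val_natCast, ZMod.val_natCast, Nat.mod_eq_of_lt (by omega),
      Nat.mod_eq_of_lt (by omega)] at h3
    exact Fin.ext h3
  · intro x hx
    rw [Finset.mem_filter] at hx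
    refine ⟨⟨(x - p).val, hx.2⟩, Finset.mem_univ _, ?_⟩
    simp
  · intro i _
    rfl

theorem I1_eq (L : ℕ) (p : ZMod Q) : I1 L p = diagonal (ind L p) := by
  unfold I1 ind win
  rfl

theorem box_apply (F : Mx Q) (L : ℕ) (q p x y : ZMod Q) :
    box F L q p x y = ind L q x * F x y * ind L p y := by
  unfold box
  rw [I1_eq, I1_eq, mul_diagonal, diagonal_mul]

/-- kernel letters -/
noncomputable def kl (N : ℕ) (K : Mx Q) : Lt Q (ZMod Q) := fun q p => box K N q p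

theorem kl_sup (N : ℕ) (K : Mx Q) : Sup N (kl N K) := by
  constructor
  · intro q p x y hy
    unfold kl
    rw [box_apply]
    have : ind N p y = 0 := by
      unfold ind
      rw [if_neg (by omega)]
    rw [this, mul_zero]
  · intro q p x y hx
    unfold kl
    rw [box_apply]
    have : ind N q x = 0 := by
      unfold ind
      rw [if_neg (by omega)]
    rw [this, zero_mul, zero_mul]


theorem DB_kl {N : ℕ} (hN : 2 * N ≤ Q) (K : Mx Q) (q p : ZMod Q) :
    DB N (kl N K) q p = box K (N + N) q p := by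
  rw [DB_eq]
  unfold kl
  ext x y
  simp only [Matrix.add_apply, box_apply]
  rw [← two_mul N, ind_two N hN, ind_two N hN]
  ring

/-- trace of the signed product as a triple sum -/
theorem tr_box {N : ℕ} (hN : 2 * N ≤ Q) (A B C : Mx Q) (p0 p1 p2 : ZMod Q) :
    (diagonal (sg N p0) * box A (N + N) p0 p1 * diagonal (sg N p1) * box B (N + N) p1 p2 *
      diagonal (sg N p2) * box C (N + N) p2 p0).trace =
    ∑ i0 : Fin (N + N), ∑ i1 : Fin (N + N), ∑ i2 : Fin (N + N),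
    hsgn N i0 * hsgn N i1 * hsgn N i2 *
      (A (p0 + ((i0 : ℕ) : ZMod Q)) (p1 + ((i1 : ℕ) : ZMod Q)) *
        B (p1 + ((i1 : ℕ) : ZMod Q)) (p2 + ((i2 : ℕ) : ZMod Q)) *
        C (p2 + ((i2 : ℕ) : ZMod Q)) (p0 + ((i0 : ℕ) : ZMod Q))) := by
  have hs : ∀ (p : ZMod Q) (i : Fin (N + N)), sg N p (p + ((i : ℕ) : ZMod Q)) = hsgn N i := by
    intro p i
    have hi := i.2
    unfold sg hsgn
    rw [add_sub_cancel_left, ZMod.val_natCast, Nat.mod_eq_of_lt (by omega)]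
    by_cases h : (i : ℕ) < N
    · rw [if_pos h, if_neg (by omega)]
    · rw [if_neg h, if_pos (by omega)]
  have h1 : (diagonal (sg N p0) * box A (N + N) p0 p1 * diagonal (sg N p1) *
      box B (N + N) p1 p2 * diagonal (sg N p2) * box C (N + N) p2 p0).trace =
      ∑ x0 : ZMod Q, ind (N + N) p0 x0 * ∑ x1 : ZMod Q, ind (N + N) p1 x1 *
        ∑ x2 : ZMod Q, ind (N + N) p2 x2 * (sg N p0 x0 * sg N p1 x1 * sg N p2 x2 *
          (A x0 x1 * B x1 x2 * C x2 x0)) := by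
    have e1 : ∀ x0 x2 : ZMod Q, (diagonal (sg N p0) * box A (N + N) p0 p1 * diagonal (sg N p1) *
        box B (N + N) p1 p2 * diagonal (sg N p2)) x0 x2 =
        ∑ x1 : ZMod Q, sg N p0 x0 * (ind (N + N) p0 x0 * A x0 x1 * ind (N + N) p1 x1) *
          sg N p1 x1 * (ind (N + N) p1 x1 * B x1 x2 * ind (N + N) p2 x2) * sg N p2 x2 := by
      intro x0 x2
      rw [mul_diagonal, Matrix.mul_apply, Finset.sum_mul]
      refine Finset.sum_congr rfl fun x1 _ => ?_
      rw [mul_diagonal, diagonal_mul, box_apply, box_apply]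
    unfold Matrix.trace
    refine Finset.sum_congr rfl fun x0 _ => ?_
    rw [Matrix.diag_apply, Matrix.mul_apply]
    simp_rw [e1, box_apply, Finset.sum_mul, Finset.mul_sum]
    rw [Finset.sum_comm]
    refine Finset.sum_congr rfl fun x1 _ => Finset.sum_congr rfl fun x2 _ => ?_
    have a0 := ind_sq (N + N) p0 x0
    have a1 := ind_sq (N + N) p1 x1
    have a2 := ind_sq (N + N) p2 x2
    calc _ = (ind (N + N) p0 x0 * ind (N + N) p0 x0) * (ind (N + N) p1 x1 * ind (N + N) p1 x1) *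
          (ind (N + N) p2 x2 * ind (N + N) p2 x2) * (sg N p0 x0 * sg N p1 x1 * sg N p2 x2 *
          (A x0 x1 * B x1 x2 * C x2 x0)) := by ring
      _ = _ := by rw [a0, a1, a2]; ring
  rw [h1]
  rw [sum_win (by omega) p0 (fun x0 => ∑ x1 : ZMod Q, ind (N + N) p1 x1 *
        ∑ x2 : ZMod Q, ind (N + N) p2 x2 * (sg N p0 x0 * sg N p1 x1 * sg N p2 x2 *
          (A x0 x1 * B x1 x2 * C x2 x0)))]
  refine Finset.sum_congr rfl fun i0 _ => ?_
  rw [sum_win (by omega) p1 (fun x1 => ∑ x2 : ZMod Q, ind (N + N) p2 x2 *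
    (sg N p0 (p0 + ((i0 : ℕ) : ZMod Q)) * sg N p1 x1 * sg N p2 x2 *
          (A (p0 + ((i0 : ℕ) : ZMod Q)) x1 * B x1 x2 * C x2 (p0 + ((i0 : ℕ) : ZMod Q)))))]
  refine Finset.sum_congr rfl fun i1 _ => ?_
  rw [sum_win (by omega) p2]
  refine Finset.sum_congr rfl fun i2 _ => ?_
  rw [hs, hs, hs]

/-- bare form -/
theorem TB_kl {N : ℕ} (hN : 2 * N ≤ Q) (A B C : Mx Q) (p0 p1 p2 : ZMod Q) :
    TB N (kl N A) (kl N B) (kl N C) p0 p1 p2 = Tb A B C N p0 p1 p2 := by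
  unfold TB Tb
  rw [DB_kl hN, DB_kl hN, DB_kl hN, tr_box hN]

/-! ### exactness -/

open Classical in
/-- the killer letter: compressed on the alive boxes, zero on the others -/
noncomputable def klR (N : ℕ) (R : ZMod Q → ZMod Q → Mx Q) (C : Mx Q)
    (al : ZMod Q → ZMod Q → Prop) : Lt Q (ZMod Q) :=
  fun q p => if al q p then R q p * box C N q p else 0

/-- support of a window space -/
def SupR (N : ℕ) (R : ZMod Q → ZMod Q → Mx Q) : Prop :=
  ∀ q p u v, R q p u v ≠ 0 → win N q u ∧ win N q v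

theorem klR_sup {N : ℕ} {R : ZMod Q → ZMod Q → Mx Q} (hR : SupR N R) (C : Mx Q)
    (al : ZMod Q → ZMod Q → Prop) : Sup N (klR N R C al) := by
  constructor
  · intro q p x y hy
    unfold klR
    split_ifs
    · rw [Matrix.mul_apply]
      refine Finset.sum_eq_zero fun z _ => ?_
      rw [box_apply]
      have : ind N p y = 0 := by
        unfold ind
        rw [if_neg (by omega)]
      rw [this, mul_zero, mul_zero]
    · rfl
  · intro q p x y hx
    unfold klR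
    split_ifs
    · rw [Matrix.mul_apply]
      refine Finset.sum_eq_zero fun z _ => ?_
      have : R q p x z = 0 := by
        by_contra h
        have := (hR q p x z h).1
        unfold win at this
        omega
      rw [this, zero_mul]
    · rfl


theorem ind_not_win {L : ℕ} {p x : ZMod Q} (h : ¬ win L p x) : ind L p x = 0 := by
  exact if_neg h

/-- one block -/
theorem exact1 {N : ℕ} {R : ZMod Q → ZMod Q → Mx Q} (hR : SupR N R) (Bd C : Mx Q)
    (p1 p2 q p : ZMod Q) (s : ℝ)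
    (hs : ∀ u, win N q u → sg N p2 u = s ∧ ind (N + N) p2 u = 1)
    (hfix : ∀ x, win (N + N) p1 x → ∀ y, win N q y → ∑ u, Bd x u * R q p u y = Bd x y) :
    box Bd (N + N) p1 p2 * diagonal (sg N p2) * (R q p * box C N q p) =
      box Bd (N + N) p1 p2 * diagonal (sg N p2) * box C N q p := by
  ext x z
  rw [Matrix.mul_apply, Matrix.mul_apply]
  have h1 : ∀ u, (box Bd (N + N) p1 p2 * diagonal (sg N p2)) x u * (R q p * box C N q p) u z =
      ∑ y, ind (N + N) p1 x * s * (Bd x u * R q p u y) * (ind N q y * C y z * ind N p z) := by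
    intro u
    rw [mul_diagonal, box_apply, Matrix.mul_apply, Finset.mul_sum]
    refine Finset.sum_congr rfl fun y _ => ?_
    rw [box_apply]
    by_cases h : R q p u y = 0
    · rw [h]; ring
    · obtain ⟨e1, e2⟩ := hs u (hR q p u y h).1
      rw [e1, e2]
      ring
  rw [Finset.sum_congr rfl fun u _ => h1 u, Finset.sum_comm]
  refine Finset.sum_congr rfl fun y _ => ?_
  rw [mul_diagonal, box_apply, box_apply]
  by_cases hy : win N q y
  · obtain ⟨e1, e2⟩ := hs y hy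
    rw [e1, e2, ← Finset.sum_mul, ← Finset.mul_sum]
    by_cases hx : win (N + N) p1 x
    · rw [hfix x hx y hy]
      ring
    · rw [ind_not_win hx]
      ring
  · rw [ind_not_win hy]
    simp

theorem win_lo {N : ℕ} {p u : ZMod Q} (h : win N p u) : sg N p u = 1 ∧ ind (N + N) p u = 1 := by
  unfold win at h
  constructor
  · unfold sg
    rw [if_neg (by omega)]
  · unfold ind
    rw [if_pos (by omega)]

theorem win_hi {N : ℕ} (hN : 2 * N ≤ Q) {p u : ZMod Q} (h : win N (p + (N : ZMod Q)) u) :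
    sg N p u = -1 ∧ ind (N + N) p u = 1 := by
  have hd : (u - p).val < Q := ZMod.val_lt _
  unfold win at h
  rw [val_sub_add u p N (by omega)] at h
  by_cases h2 : N ≤ (u - p).val
  · rw [if_pos h2] at h
    constructor
    · unfold sg
      rw [if_pos ⟨h2, by omega⟩]
    · unfold ind
      rw [if_pos (by omega)]
  · rw [if_neg h2] at h
    omega

/-- the compressed killer gives the same box form -/
theorem TB_exact {N : ℕ} (hN : 2 * N ≤ Q) {R : ZMod Q → ZMod Q → Mx Q} (hR : SupR N R)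
    (LA : Lt Q (ZMod Q)) (Bd C : Mx Q) (al : ZMod Q → ZMod Q → Prop) (p0 p1 p2 : ZMod Q)
    (hal : ∀ a < 2, ∀ b < 2, al (p2 + ((a * N : ℕ) : ZMod Q)) (p0 + ((b * N : ℕ) : ZMod Q)))
    (hfix : ∀ a < 2, ∀ b < 2, ∀ x, win (N + N) p1 x → ∀ y, win N (p2 + ((a * N : ℕ) : ZMod Q)) y →
      ∑ u, Bd x u * R (p2 + ((a * N : ℕ) : ZMod Q)) (p0 + ((b * N : ℕ) : ZMod Q)) u y = Bd x y) :
    TB N LA (kl N Bd) (klR N R C al) p0 p1 p2 = TB N LA (kl N Bd) (kl N C) p0 p1 p2 := by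
  have key : DB N (kl N Bd) p1 p2 * diagonal (sg N p2) * DB N (klR N R C al) p2 p0 =
      DB N (kl N Bd) p1 p2 * diagonal (sg N p2) * DB N (kl N C) p2 p0 := by
    have e0 : ∀ x : ZMod Q, x + ((0 * N : ℕ) : ZMod Q) = x := by intro x; simp
    have e1 : ∀ x : ZMod Q, x + ((1 * N : ℕ) : ZMod Q) = x + (N : ZMod Q) := by intro x; simp
    have a00 := hal 0 (by norm_num) 0 (by norm_num)
    have a01 := hal 0 (by norm_num) 1 (by norm_num)
    have a10 := hal 1 (by norm_num) 0 (by norm_num)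
    have a11 := hal 1 (by norm_num) 1 (by norm_num)
    have f00 := hfix 0 (by norm_num) 0 (by norm_num)
    have f01 := hfix 0 (by norm_num) 1 (by norm_num)
    have f10 := hfix 1 (by norm_num) 0 (by norm_num)
    have f11 := hfix 1 (by norm_num) 1 (by norm_num)
    simp only [e0, e1] at a00 a01 a10 a11 f00 f01 f10 f11
    rw [DB_kl hN, DB_eq, DB_eq]
    have k : ∀ q p, al q p → klR N R C al q p = R q p * box C N q p := by
      intro q p h
      unfold klR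
      rw [if_pos h]
    rw [k _ _ a00, k _ _ a01, k _ _ a10, k _ _ a11]
    simp only [mul_add]
    rw [exact1 hR Bd C p1 p2 p2 p0 1 (fun u hu => win_lo hu) f00,
      exact1 hR Bd C p1 p2 p2 (p0 + (N : ZMod Q)) 1 (fun u hu => win_lo hu) f01,
      exact1 hR Bd C p1 p2 (p2 + (N : ZMod Q)) p0 (-1) (fun u hu => win_hi hN hu) f10,
      exact1 hR Bd C p1 p2 (p2 + (N : ZMod Q)) (p0 + (N : ZMod Q)) (-1)
        (fun u hu => win_hi hN hu) f11]
    rfl
  unfold TB
  congr 2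
  have e : ∀ K : Mx Q, diagonal (sg N p0) * DB N LA p0 p1 * diagonal (sg N p1) *
      DB N (kl N Bd) p1 p2 * diagonal (sg N p2) * K = diagonal (sg N p0) * DB N LA p0 p1 *
      diagonal (sg N p1) * (DB N (kl N Bd) p1 p2 * diagonal (sg N p2) * K) := by
    intro K
    simp only [mul_assoc]
  rw [e, e, key]

end windows

section word

variable {Q : ℕ} [NeZero Q]

/-- the box form of the compressed killer equals the bare one on the boxes of block `l` with four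
alive half boxes on the killer face -/
theorem TB_fix {M D m : ℕ} (hm : m < M) (hQ : 2 * 2 ^ m ≤ Q) {R : ℕ → ZMod Q → ZMod Q → Mx Q}
    (hR : SupR (2 ^ m) (R m)) (A : Mx Q) (Bd : ℕ → Mx Q) (C : Mx Q)
    (al : ℕ → ZMod Q → ZMod Q → Prop) (hF : FixB R Bd M D) (l : ℤ) (hD : l.natAbs + 5 ≤ D)
    (i : ℕ) (hi : i < 2 ^ m) (p0 p1 p2 : ZMod Q)
    (hsum : p0 + p1 + p2 = (l : ZMod Q) * ((2 ^ m : ℕ) : ZMod Q) + (i : ZMod Q))
    (hal : Al4 al m p2 p0) :
    TB (2 ^ m) (kl (2 ^ m) A) (kl (2 ^ m) (Bd m)) (klR (2 ^ m) (R m) C (al m)) p0 p1 p2 =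
      Tb A (Bd m) C (2 ^ m) p0 p1 p2 := by
  rw [← TB_kl hQ]
  refine TB_exact hQ hR _ _ _ _ _ _ _ ?_ ?_
  · exact hal
  · intro a ha b hb x hx y hy
    refine hF m hm x _ _ ?_ y hy
    have hx' : ((x - p1).val : ZMod Q) = x - p1 := ZMod.natCast_zmod_val _
    unfold win at hx
    set N : ℕ := 2 ^ m with hN
    have hcast : ((2 : ℤ) ^ m) = (N : ℤ) := by rw [hN]; push_cast; rfl
    refine ⟨l * (N : ℤ) + (i : ℤ) + ((x - p1).val : ℤ) + (a : ℤ) * N + (b : ℤ) * N, ?_, ?_⟩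
    · rw [hcast]
      have h1 : |l * (N : ℤ)| = (l.natAbs : ℤ) * N := by
        rw [abs_mul, Int.abs_eq_natAbs, Nat.abs_cast]
      have h2 : (0 : ℤ) ≤ N := by positivity
      have ha' : (a : ℤ) ≤ 1 := by omega
      have hb' : (b : ℤ) ≤ 1 := by omega
      have h3 : (a : ℤ) * N ≤ N := by nlinarith
      have h4 : (b : ℤ) * N ≤ N := by nlinarith
      have h5 : 0 ≤ (a : ℤ) * N := by positivity
      have h6 : 0 ≤ (b : ℤ) * N := by positivity
      have h7 : (i : ℤ) ≤ N := by omega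
      have h8 : ((x - p1).val : ℤ) ≤ 2 * N := by omega
      have h9 : ((l.natAbs : ℤ) + 5) * N ≤ (D : ℤ) * N := by
        apply mul_le_mul_of_nonneg_right _ h2
        exact_mod_cast hD
      rw [abs_le] at *
      obtain ⟨g1, g2⟩ := abs_le.1 (le_of_eq h1)
      constructor <;> nlinarith
    · push_cast
      rw [hx']
      have : (l : ZMod Q) * (N : ZMod Q) + (i : ZMod Q) = p0 + p1 + p2 := hsum.symm
      linear_combination -this


end word

end Crest.Agent.R079.CR371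
end

-- ▼ part R079/CRy_371
section

/-! R079, RAGGED CORNER (CR): the literal `Exact` of CRdef2_253.  helper371. -/

set_option autoImplicit false
set_option linter.unusedVariables false
set_option linter.unusedSectionVars false

namespace Crest.Agent.R079.CR371y

open Matrix Crest.Agent.R072
open Crest.Agent.R079.CRdefx253 (Mx win box st Al4 Kil FixB Tb fl Exact)
open Crest.Agent.R079.CR371 (TB Lt Sup TB_fix SupR klR)

variable {Q : ℕ} [NeZero Q]

theorem fl_eq (X : ℕ → Mx Q) (m : ℕ) : fl X m = CR371.kl (2 ^ m) (X m) := rfl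

theorem kl_eq (C : Mx Q) (al : ℕ → ZMod Q → ZMod Q → Prop) (R : ℕ → ZMod Q → ZMod Q → Mx Q)
    (m : ℕ) : CRdefx253.kl C al R m = klR (2 ^ m) (R m) C (al m) := rfl

/-- supports of the letters -/
theorem fl_sup (X : ℕ → Mx Q) (m : ℕ) : Sup (2 ^ m) (fl X m) := by
  rw [fl_eq]
  exact CR371.kl_sup _ _

theorem kl_sup (C : Mx Q) (al : ℕ → ZMod Q → ZMod Q → Prop) (R : ℕ → ZMod Q → ZMod Q → Mx Q)
    (m : ℕ) (hR : SupR (2 ^ m) (R m)) : Sup (2 ^ m) (CRdefx253.kl C al R m) := by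
  rw [kl_eq]
  exact CR371.klR_sup hR _ _

theorem exact_of : Exact := by
  intro Q _ M k n A B C al R w l D hQ hD hK hF m hm i hi p0 p1 p2 hsum hal
  have hQ' : 2 ^ M ≤ Q := Nat.le_of_dvd (Nat.pos_of_ne_zero (NeZero.ne Q)) hQ
  have h2 : 2 * 2 ^ m ≤ Q := by
    refine le_trans ?_ hQ'
    rw [← pow_succ']
    exact Nat.pow_le_pow_right (by norm_num) (by omega)
  have h := TB_fix (M := M) (D := D) (m := m) (by omega) h2 (R := R)
    (fun q p u v h => hK.supp m q p u v h) (A m) B C al hF l (by omega) i hi p0 p1 p2 hsum hal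
  rw [← h]
  rfl

end Crest.Agent.R079.CR371y
end

-- ▼ part R079/CRm_371
section

/-! R079, RAGGED CORNER (CR): the mirror symmetry (exchange of the variables `x0`, `x2`).
helper371. -/

set_option autoImplicit false
set_option linter.unusedVariables false
set_option linter.unusedSectionVars false

namespace Crest.Agent.R079.CR371m

open Matrix Crest.Agent.R072
open Crest.Agent.R079.PotL (bl cel IsPr hs2)
open Crest.Agent.R079.CRdefx253 (Mx win I1 box st near Exit Al4 OpLe Reg Last Dead alD Tb SA)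

variable {Q : ℕ} [NeZero Q]






section op

open scoped Matrix.Norms.L2Operator

variable {m n : Type*} [Fintype m] [DecidableEq m] [Fintype n] [DecidableEq n]

theorem opLe_iff (A : Matrix m n ℝ) (c : ℝ) : OpLe A c ↔ ‖A‖ ≤ c := by
  constructor
  · rintro ⟨hc, h⟩
    refine CR371.nrm_le_of_dot hc fun v => ?_
    have := h v
    simpa [dotProduct, mulVec, ← sq] using this
  · intro h
    refine ⟨(norm_nonneg A).trans h, fun v => ?_⟩
    have h1 := CR371.dot_mulVec_le A v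
    have h2 : ‖A‖ ^ 2 ≤ c ^ 2 := pow_le_pow_left₀ (norm_nonneg A) h 2
    have h3 : 0 ≤ ∑ j, v j ^ 2 := Finset.sum_nonneg fun _ _ => sq_nonneg _
    have h4 : (A *ᵥ v) ⬝ᵥ (A *ᵥ v) = ∑ i, (∑ j, A i j * v j) ^ 2 := by
      simp [dotProduct, mulVec, ← sq]
    have h5 : v ⬝ᵥ v = ∑ j, v j ^ 2 := by simp [dotProduct, ← sq]
    rw [h4, h5] at h1
    nlinarith


end op






end Crest.Agent.R079.CR371m
end

-- ▼ part R079/CRv1_371
section

/-! R079, RAGGED CORNER (CR), L5-1: the vertex with two function letters, literal `Vert1` of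
CRdef2_253.  helper371. -/

set_option autoImplicit false
set_option linter.unusedVariables false
set_option linter.unusedSectionVars false
set_option linter.unusedSimpArgs false

namespace Crest.Agent.R079.CRv1x371

open Matrix Finset Crest.Agent.R072 Crest.Agent.R079.CR371
open Crest.Agent.R079.CRex250 (AB gr_eq rs rs_sum)
open Crest.Agent.R079.CRdefx253 (Mx OpLe TrN Fl fl Vert1)
open Crest.Agent.R079.CR371m (opLe_iff)
open Crest.Agent.R079.PotL (bl)
open scoped MatrixOrder Matrix.Norms.L2Operator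

section price

variable {m m' n : Type*} [Fintype m] [DecidableEq m] [Fintype m'] [DecidableEq m'] [Fintype n]
  [DecidableEq n]

theorem TrN_le {E : Matrix m n ℝ} {c : ℝ} (hE : TrN E c) {K : Matrix n m ℝ} {s : ℝ}
    (hK : ‖K‖ ≤ s) : |(K * E).trace| ≤ s * c := by
  have hs : 0 ≤ s := (norm_nonneg K).trans hK
  rcases hs.eq_or_lt with h0 | h0
  · have hK0 : K = 0 := by
      rw [← norm_le_zero_iff]
      rw [← h0] at hK
      exact hK
    rw [hK0, Matrix.zero_mul, trace_zero, abs_zero, ← h0, zero_mul]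
  · have h1 : OpLe (s⁻¹ • K) 1 := by
      rw [opLe_iff, norm_smul, norm_inv, Real.norm_of_nonneg hs]
      rw [inv_mul_le_iff₀ h0, mul_one]
      exact hK
    have h2 := hE _ h1
    rw [Matrix.smul_mul, trace_smul, smul_eq_mul, abs_mul, abs_inv, abs_of_pos h0,
      inv_mul_le_iff₀ h0] at h2
    exact h2


/-- price of a change of one Gram matrix -/
theorem gram_price {M : Matrix n n ℝ} (hM : M.PosSemidef) {s : ℝ} (hs : ‖CFC.sqrt M‖ ≤ s)
    {a a' : Matrix m n ℝ} (ha : ‖a‖ ≤ 1) (ha' : ‖a'‖ ≤ 1) {u : ℝ} (hu : TrN (a - a') u) :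
    (CFC.sqrt M * (aᵀ * a - a'ᵀ * a')).trace ≤ 2 * (s * u) := by
  have hs0 : 0 ≤ s := (norm_nonneg _).trans hs
  have e : aᵀ * a - a'ᵀ * a' = aᵀ * (a - a') + (a - a')ᵀ * a' := by
    rw [transpose_sub]
    simp only [Matrix.mul_sub, Matrix.sub_mul]
    abel
  rw [e, Matrix.mul_add, trace_add]
  have h1 : (CFC.sqrt M * (aᵀ * (a - a'))).trace ≤ s * u := by
    rw [← Matrix.mul_assoc]
    refine (le_abs_self _).trans (TrN_le hu ?_)
    refine (l2_opNorm_mul _ _).trans ?_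
    rw [nrm_t]
    calc ‖CFC.sqrt M‖ * ‖a‖ ≤ s * 1 := mul_le_mul hs ha (norm_nonneg _) hs0
      _ = s := mul_one s
  have h2 : (CFC.sqrt M * ((a - a')ᵀ * a')).trace ≤ s * u := by
    have e2 : (CFC.sqrt M * ((a - a')ᵀ * a')).trace = ((CFC.sqrt M * a'ᵀ) * (a - a')).trace := by
      rw [← trace_transpose]
      rw [transpose_mul, transpose_mul, transpose_transpose, rt_transpose, Matrix.mul_assoc,
        trace_mul_comm, Matrix.mul_assoc, trace_mul_comm]
    rw [e2]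
    refine (le_abs_self _).trans (TrN_le hu ?_)
    refine (l2_opNorm_mul _ _).trans ?_
    rw [nrm_t]
    calc ‖CFC.sqrt M‖ * ‖a'‖ ≤ s * 1 := mul_le_mul hs ha' (norm_nonneg _) hs0
      _ = s := mul_one s
  linarith

theorem nrm_gram_le {a : Matrix m n ℝ} (ha : ‖a‖ ≤ 1) : ‖aᵀ * a‖ ≤ 1 := by
  rw [nrm_gram]
  nlinarith [norm_nonneg a]

/-- joint price -/
theorem price_pair {a a' : Matrix m n ℝ} {b b' : Matrix m' n ℝ} (ha : ‖a‖ ≤ 1) (ha' : ‖a'‖ ≤ 1)
    (hb : ‖b‖ ≤ 1) (hb' : ‖b'‖ ≤ 1) {u w : ℝ} (hu : TrN (a - a') u) (hw : TrN (b - b') w) :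
    phi (aᵀ * a + bᵀ * b) ≤ phi (a'ᵀ * a' + b'ᵀ * b') + 6 * (u + w) := by
  have hM : (aᵀ * a + bᵀ * b).PosSemidef := (psd_gram a).add (psd_gram b)
  have hM' : (a'ᵀ * a' + b'ᵀ * b').PosSemidef := (psd_gram a').add (psd_gram b')
  have h := phi_sub_le hM hM'
  have hn : ‖aᵀ * a + bᵀ * b‖ ≤ 4 := by
    refine (norm_add_le _ _).trans ?_
    have h1 := nrm_gram_le ha
    have h2 := nrm_gram_le hb
    linarith
  have hs : ‖CFC.sqrt (aᵀ * a + bᵀ * b)‖ ≤ 2 := by
    rw [nrm_rt hM]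
    refine (Real.sqrt_le_sqrt hn).trans ?_
    rw [show (4 : ℝ) = 2 ^ 2 by norm_num, Real.sqrt_sq (by norm_num)]
  have e : aᵀ * a + bᵀ * b - (a'ᵀ * a' + b'ᵀ * b') =
      (aᵀ * a - a'ᵀ * a') + (bᵀ * b - b'ᵀ * b') := by abel
  rw [e, Matrix.mul_add, trace_add] at h
  have h1 := gram_price hM hs ha ha' hu
  have h2 := gram_price hM hs hb hb' hw
  linarith

end price

section kernel

variable {Q : ℕ} [NeZero Q]

theorem box_eq_rs (F : Mx Q) (L : ℕ) (q p : ZMod Q) : CRdefx253.box F L q p = rs L F q p := rfl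

/-- normalised Gram matrix of a kernel on a window -/
noncomputable def gk (N : ℕ) (K : Mx Q) (q p : ZMod Q) : Mx Q :=
  ((1 / (N : ℝ)) • rs N K q p)ᵀ * ((1 / (N : ℝ)) • rs N K q p)

theorem gk_psd (N : ℕ) (K : Mx Q) (q p : ZMod Q) : (gk N K q p).PosSemidef := psd_gram _

theorem gk_eq (N : ℕ) (K : Mx Q) (q p : ZMod Q) :
    gk N K q p = (1 / (N : ℝ) ^ 2) • ((rs N K q p)ᵀ * rs N K q p) := by
  unfold gk
  rw [transpose_smul, smul_mul_smul_comm, one_div_mul_one_div, sq]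

theorem AB_fl (X : ℕ → Mx Q) (m j : ℕ) (hj : 2 ^ j * 2 ^ m ≤ Q) (q p : ZMod Q) :
    AB (2 ^ m) (fl X m) j q p = rs (2 ^ j * 2 ^ m) (X m) q p := by
  rw [rs_sum (by positivity) hj]
  rfl

theorem gr_fl (X : ℕ → Mx Q) (m j : ℕ) (hj : 2 ^ j * 2 ^ m ≤ Q) (q p : ZMod Q) :
    gr (2 ^ m) (fl X m) j j q p = gk (2 ^ j * 2 ^ m) (X m) q p := by
  rw [gr_eq (by positivity) (CR371y.fl_sup X m).2 j hj, AB_fl X m j hj, gk_eq]

theorem nrm_scaled {N : ℕ} {K : Mx Q} {q p : ZMod Q}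
    (h : OpLe (CRdefx253.box K N q p) (N : ℝ)) : ‖(1 / (N : ℝ)) • rs N K q p‖ ≤ 1 := by
  rw [box_eq_rs, opLe_iff] at h
  rw [norm_smul, Real.norm_of_nonneg (by positivity)]
  rcases Nat.eq_zero_or_pos N with h0 | h0
  · subst h0
    simp
  · have : (0 : ℝ) < N := by exact_mod_cast h0
    rw [one_div, inv_mul_le_iff₀ this, mul_one]
    exact h

theorem TrN_scaled {N : ℕ} (hN : 0 < N) {K K' : Mx Q} {q p : ZMod Q} {v : ℝ}
    (h : TrN (CRdefx253.box K N q p - CRdefx253.box K' N q p) ((N : ℝ) * v)) :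
    TrN ((1 / (N : ℝ)) • rs N K q p - (1 / (N : ℝ)) • rs N K' q p) v := by
  intro Z hZ
  have hN' : (0 : ℝ) < N := by exact_mod_cast hN
  have h1 := h Z hZ
  rw [box_eq_rs, box_eq_rs] at h1
  rw [← smul_sub, Matrix.mul_smul, trace_smul, smul_eq_mul, abs_mul, abs_of_nonneg (by positivity),
    one_div, inv_mul_le_iff₀ hN']
  exact h1

/-- data of one move at side `N` -/
structure Mv (N : ℕ) (K K' : Mx Q) (v : ZMod Q → ZMod Q → ℝ) : Prop where
  op : ∀ q p, OpLe (CRdefx253.box K N q p) (N : ℝ)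
  op' : ∀ q p, OpLe (CRdefx253.box K' N q p) (N : ℝ)
  mv : ∀ q p, TrN (CRdefx253.box K N q p - CRdefx253.box K' N q p) ((N : ℝ) * v q p)

theorem pair_le {N : ℕ} (hN : 0 < N) {K K' L L' : Mx Q} {v w : ZMod Q → ZMod Q → ℝ}
    (hK : Mv N K K' v) (hL : Mv N L L' w) (q q' p : ZMod Q) :
    phi (gk N K q p + gk N L q' p) ≤ phi (gk N K' q p + gk N L' q' p) + 6 * (v q p + w q' p) :=
  price_pair (nrm_scaled (hK.op q p)) (nrm_scaled (hK.op' q p)) (nrm_scaled (hL.op q' p))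
    (nrm_scaled (hL.op' q' p)) (TrN_scaled hN (hK.mv q p)) (TrN_scaled hN (hL.mv q' p))

theorem TrN_zero {m n : Type*} [Fintype m] [Fintype n] : TrN (0 : Matrix m n ℝ) 0 := by
  intro K _
  rw [Matrix.mul_zero, trace_zero, abs_zero]

theorem own_le {N : ℕ} (hN : 0 < N) {K K' : Mx Q} {v : ZMod Q → ZMod Q → ℝ}
    (hK : Mv N K K' v) (q p : ZMod Q) :
    phi (gk N K q p) ≤ phi (gk N K' q p) + 6 * v q p := by
  have h := price_pair (b := (0 : Mx Q)) (b' := (0 : Mx Q)) (w := 0) (nrm_scaled (hK.op q p))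
    (nrm_scaled (hK.op' q p)) (by simp) (by simp) (TrN_scaled hN (hK.mv q p))
    (by rw [sub_zero]; exact TrN_zero)
  simp only [Matrix.mul_zero, add_zero] at h
  exact h

/-- sum over all windows of the mean square -/
theorem sum_ind {N : ℕ} (hN : N ≤ Q) (x : ZMod Q) : ∑ q : ZMod Q, ind N q x = N := by
  have h1 : ∑ q : ZMod Q, ind N q x = ∑ d : ZMod Q, ind N 0 d := by
    rw [← Equiv.sum_comp (Equiv.subLeft x) (fun d => ind N 0 d)]
    refine Finset.sum_congr rfl fun q _ => ?_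
    rw [Equiv.subLeft_apply]
    unfold ind
    rw [sub_zero]
  have h2 := sum_win (Q := Q) hN 0 (fun _ => (1 : ℝ))
  simp only [mul_one] at h2
  rw [h1, h2]
  simp

theorem sum_tr_gk {N : ℕ} (hN0 : 0 < N) (hN : N ≤ Q) (K : Mx Q) :
    ∑ p : ZMod Q, ∑ q : ZMod Q, (gk N K q p).trace = ∑ x, ∑ y, K x y ^ 2 := by
  have hN' : (N : ℝ) ≠ 0 := by positivity
  have h1 : ∀ q p : ZMod Q, (gk N K q p).trace =
      (1 / (N : ℝ) ^ 2) * ∑ y, ∑ x, ind N q x * ind N p y * K x y ^ 2 := by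
    intro q p
    rw [gk_eq, trace_smul, smul_eq_mul]
    congr 1
    unfold Matrix.trace
    refine Finset.sum_congr rfl fun y _ => ?_
    rw [Matrix.diag_apply, Matrix.mul_apply]
    refine Finset.sum_congr rfl fun x _ => ?_
    rw [transpose_apply, ← box_eq_rs, box_apply]
    have a1 := ind_sq N q x
    have a2 := ind_sq N p y
    linear_combination (ind N p y * ind N p y * K x y ^ 2) * a1 + (ind N q x * K x y ^ 2) * a2
  simp_rw [h1, ← Finset.mul_sum]
  have h2 : ∑ p : ZMod Q, ∑ q : ZMod Q, ∑ y, ∑ x, ind N q x * ind N p y * K x y ^ 2 =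
      ∑ y, ∑ x, (∑ p : ZMod Q, ind N p y) * (∑ q : ZMod Q, ind N q x) * K x y ^ 2 := by
    simp_rw [Finset.sum_comm (s := (Finset.univ : Finset (ZMod Q)))
      (t := (Finset.univ : Finset (ZMod Q))) (f := fun q y => ∑ x, ind N q x * ind N _ y * K x y ^ 2)]
    rw [Finset.sum_comm]
    refine Finset.sum_congr rfl fun y _ => ?_
    simp_rw [Finset.sum_comm (s := (Finset.univ : Finset (ZMod Q)))
      (t := (Finset.univ : Finset (ZMod Q))) (f := fun q x => ind N q x * ind N _ y * K x y ^ 2)]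
    rw [Finset.sum_comm]
    refine Finset.sum_congr rfl fun x _ => ?_
    rw [Finset.sum_mul_sum, Finset.sum_mul]
    refine Finset.sum_congr rfl fun p _ => ?_
    rw [Finset.sum_mul]
    refine Finset.sum_congr rfl fun q _ => ?_
    ring
  rw [h2]
  simp_rw [sum_ind hN]
  rw [Finset.sum_comm, Finset.mul_sum]
  refine Finset.sum_congr rfl fun x _ => ?_
  rw [Finset.mul_sum]
  refine Finset.sum_congr rfl fun y _ => ?_
  field_simp

theorem phi_le_two {M : Mx Q} (hM : M.PosSemidef) (h : ‖M‖ ≤ 4) : phi M ≤ 2 * M.trace := by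
  refine (phi_le_nrm hM).trans ?_
  refine mul_le_mul_of_nonneg_right ?_ hM.trace_nonneg
  refine (Real.sqrt_le_sqrt h).trans ?_
  rw [show (4 : ℝ) = 2 ^ 2 by norm_num, Real.sqrt_sq (by norm_num)]

theorem nrm_gk {N : ℕ} {K : Mx Q} (q p : ZMod Q) (h : OpLe (CRdefx253.box K N q p) (N : ℝ)) :
    ‖gk N K q p‖ ≤ 1 := nrm_gram_le (nrm_scaled h)

/-- joint sum at the offset `n` -/
noncomputable def JS (N : ℕ) (K L : Mx Q) (n : ZMod Q) : ℝ :=
  ∑ p : ZMod Q, ∑ q : ZMod Q, phi (gk N K q p + gk N L (n - p - q) p)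

/-- own sum -/
noncomputable def OS (N : ℕ) (K : Mx Q) : ℝ := ∑ p : ZMod Q, ∑ q : ZMod Q, phi (gk N K q p)

theorem sum_refl (n : ZMod Q) (f : ZMod Q → ZMod Q → ℝ) :
    ∑ p : ZMod Q, ∑ q : ZMod Q, f (n - p - q) p = ∑ p : ZMod Q, ∑ q : ZMod Q, f q p := by
  refine Finset.sum_congr rfl fun p _ => ?_
  exact Equiv.sum_comp (Equiv.subLeft (n - p)) (fun q => f q p)

theorem JS_le {N : ℕ} (hN : 0 < N) {K K' L L' : Mx Q} {v w : ZMod Q → ZMod Q → ℝ}
    (hK : Mv N K K' v) (hL : Mv N L L' w) (n : ZMod Q) :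
    JS N K L n ≤ JS N K' L' n + 6 * (∑ q : ZMod Q, ∑ p : ZMod Q, v q p +
      ∑ q : ZMod Q, ∑ p : ZMod Q, w q p) := by
  unfold JS
  have h1 : ∑ p : ZMod Q, ∑ q : ZMod Q, phi (gk N K q p + gk N L (n - p - q) p) ≤
      ∑ p : ZMod Q, ∑ q : ZMod Q, (phi (gk N K' q p + gk N L' (n - p - q) p) +
        6 * (v q p + w (n - p - q) p)) :=
    Finset.sum_le_sum fun p _ => Finset.sum_le_sum fun q _ => pair_le hN hK hL q (n - p - q) p
  refine h1.trans (le_of_eq ?_)
  simp_rw [Finset.sum_add_distrib, ← Finset.mul_sum, Finset.sum_add_distrib]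
  rw [sum_refl n w, Finset.sum_comm (f := fun p q => v q p), Finset.sum_comm (f := fun p q => w q p)]

theorem OS_le {N : ℕ} (hN : 0 < N) {K K' : Mx Q} {v : ZMod Q → ZMod Q → ℝ}
    (hK : Mv N K K' v) : OS N K ≤ OS N K' + 6 * ∑ q : ZMod Q, ∑ p : ZMod Q, v q p := by
  unfold OS
  have h1 : ∑ p : ZMod Q, ∑ q : ZMod Q, phi (gk N K q p) ≤
      ∑ p : ZMod Q, ∑ q : ZMod Q, (phi (gk N K' q p) + 6 * v q p) :=
    Finset.sum_le_sum fun p _ => Finset.sum_le_sum fun q _ => own_le hN hK q p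
  refine h1.trans (le_of_eq ?_)
  simp_rw [Finset.sum_add_distrib, ← Finset.mul_sum]
  rw [Finset.sum_comm (f := fun p q => v q p)]

theorem JS_bot {N : ℕ} (hN0 : 0 < N) (hN : N ≤ Q) {K L : Mx Q}
    (hK : ∀ q p, OpLe (CRdefx253.box K N q p) (N : ℝ))
    (hL : ∀ q p, OpLe (CRdefx253.box L N q p) (N : ℝ)) (n : ZMod Q) :
    JS N K L n ≤ 2 * (∑ x, ∑ y, K x y ^ 2 + ∑ x, ∑ y, L x y ^ 2) := by
  unfold JS
  have h1 : ∑ p : ZMod Q, ∑ q : ZMod Q, phi (gk N K q p + gk N L (n - p - q) p) ≤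
      ∑ p : ZMod Q, ∑ q : ZMod Q, (2 * (gk N K q p).trace + 2 * (gk N L (n - p - q) p).trace) := by
    refine Finset.sum_le_sum fun p _ => Finset.sum_le_sum fun q _ => ?_
    refine (phi_le_two ((gk_psd _ _ _ _).add (gk_psd _ _ _ _)) ?_).trans (le_of_eq ?_)
    · refine (norm_add_le _ _).trans ?_
      have a1 := nrm_gk q p (hK q p)
      have a2 := nrm_gk (n - p - q) p (hL (n - p - q) p)
      linarith
    · rw [trace_add]
      ring
  refine h1.trans (le_of_eq ?_)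
  simp_rw [Finset.sum_add_distrib, ← Finset.mul_sum]
  rw [sum_refl n (fun q p => (gk N L q p).trace), sum_tr_gk hN0 hN, sum_tr_gk hN0 hN]
  ring

theorem OS_bot {N : ℕ} (hN0 : 0 < N) (hN : N ≤ Q) {K : Mx Q}
    (hK : ∀ q p, OpLe (CRdefx253.box K N q p) (N : ℝ)) :
    OS N K ≤ 2 * ∑ x, ∑ y, K x y ^ 2 := by
  unfold OS
  have h1 : ∑ p : ZMod Q, ∑ q : ZMod Q, phi (gk N K q p) ≤
      ∑ p : ZMod Q, ∑ q : ZMod Q, 2 * (gk N K q p).trace := by
    refine Finset.sum_le_sum fun p _ => Finset.sum_le_sum fun q _ => ?_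
    refine phi_le_two (gk_psd _ _ _ _) ?_
    have a1 := nrm_gk q p (hK q p)
    linarith
  refine h1.trans (le_of_eq ?_)
  simp_rw [← Finset.mul_sum]
  rw [sum_tr_gk hN0 hN]

theorem VJ_fl (X Z : ℕ → Mx Q) (m j : ℕ) (hj : 2 ^ j * 2 ^ m ≤ Q) :
    VJ (fl X) (fl Z) m j = bl (JS (2 ^ j * 2 ^ m) (X m) (Z m)) (2 ^ j * 2 ^ m) (-2) := by
  unfold VJ VV
  congr 1
  funext n
  unfold WW JS
  refine Finset.sum_congr rfl fun p _ => Finset.sum_congr rfl fun q _ => ?_
  rw [gr_fl X m j hj, gr_fl Z m j hj]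

theorem VO_fl (X Z : ℕ → Mx Q) (m j : ℕ) (hj : 2 ^ j * 2 ^ m ≤ Q) :
    VO (fl X) (fl Z) m j = OS (2 ^ j * 2 ^ m) (X m) + OS (2 ^ j * 2 ^ m) (Z m) := by
  unfold VO EB EO OS
  simp_rw [gr_fl X m j hj, gr_fl Z m j hj]

theorem bl_le_add {f g : ZMod Q → ℝ} {c : ℝ} {N : ℕ} (hN : 0 < N) (l : ℤ)
    (h : ∀ n, f n ≤ g n + c) : bl f N l ≤ bl g N l + c := by
  have hN' : (0 : ℝ) < N := by exact_mod_cast hN
  have e : bl (fun n => g n + c) N l = bl g N l + c := by
    unfold bl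
    rw [Finset.sum_add_distrib, Finset.sum_const, Finset.card_range, nsmul_eq_mul]
    field_simp
  rw [← e]
  exact PotL.bl_mono h N l

theorem bl_le_const {f : ZMod Q → ℝ} {c : ℝ} {N : ℕ} (hN : 0 < N) (l : ℤ)
    (h : ∀ n, f n ≤ c) : bl f N l ≤ c := by
  have h1 := bl_le_add (g := fun _ => (0 : ℝ)) hN l (fun n => by simpa using h n)
  have h2 : bl (fun _ : ZMod Q => (0 : ℝ)) N l = 0 := by
    unfold bl
    simp
  linarith

end kernel

theorem vert1 : Vert1 := by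
  intro k hk
  refine ⟨16 + 48 + 256 * k + 768, by positivity, ?_⟩
  intro Q _ M M' n X Z hQ hM hX hZ
  have hQ' : 2 ^ M ≤ Q := Nat.le_of_dvd (Nat.pos_of_ne_zero (NeZero.ne Q)) hQ
  have hpow : ∀ a, a ≤ M → 2 ^ a ≤ Q := fun a ha =>
    (Nat.pow_le_pow_right (by norm_num) ha).trans hQ'
  have hn : 0 ≤ n := by
    have h1 := hX.en 0 (by omega)
    have h2 : 0 ≤ ∑ x, ∑ y, X 0 x y ^ 2 := Finset.sum_nonneg fun _ _ =>
      Finset.sum_nonneg fun _ _ => sq_nonneg _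
    linarith
  -- the joint moves
  have hJ : ∑ m ∈ range (M' - 1), (VJ (fl X) (fl Z) (m + 1) 0 - VJ (fl X) (fl Z) m 1) ≤ 12 * n := by
    obtain ⟨v, hv0, hv, hvn⟩ := hX.mv 1 hk
    obtain ⟨w, hw0, hw, hwn⟩ := hZ.mv 1 hk
    have h1 : ∀ m ∈ range (M' - 1), VJ (fl X) (fl Z) (m + 1) 0 - VJ (fl X) (fl Z) m 1 ≤
        6 * (∑ q : ZMod Q, ∑ p : ZMod Q, (if m + 1 < M then v m q p else 0) +
          ∑ q : ZMod Q, ∑ p : ZMod Q, (if m + 1 < M then w m q p else 0)) := by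
      intro m hm
      rw [Finset.mem_range] at hm
      have hmM : m + 1 < M := by omega
      have e0 : 2 ^ 0 * 2 ^ (m + 1) = 2 ^ (m + 1) := by ring
      have e1 : 2 ^ 1 * 2 ^ m = 2 ^ (m + 1) := by ring
      rw [VJ_fl X Z (m + 1) 0 (by rw [e0]; exact hpow _ (by omega)),
        VJ_fl X Z m 1 (by rw [e1]; exact hpow _ (by omega)), e0, e1]
      have mX : Mv (2 ^ (m + 1)) (X (m + 1)) (X m) (v m) := by
        refine ⟨fun q p => ?_, fun q p => ?_, fun q p => ?_⟩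
        · have := hX.op (m + 1) 0 (by omega) (by omega) q p
          simpa using this
        · have := hX.op m 1 hk (by omega) q p
          push_cast
          exact this
        · have := hv m (by omega) q p
          push_cast
          exact this
      have mZ : Mv (2 ^ (m + 1)) (Z (m + 1)) (Z m) (w m) := by
        refine ⟨fun q p => ?_, fun q p => ?_, fun q p => ?_⟩
        · have := hZ.op (m + 1) 0 (by omega) (by omega) q p
          simpa using this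
        · have := hZ.op m 1 hk (by omega) q p
          push_cast
          exact this
        · have := hw m (by omega) q p
          push_cast
          exact this
      have h2 := bl_le_add (N := 2 ^ (m + 1)) (by positivity) (-2)
        (fun n' => JS_le (by positivity) mX mZ n')
      simp only [if_pos hmM]
      linarith
    refine (Finset.sum_le_sum h1).trans ?_
    rw [← Finset.mul_sum, Finset.sum_add_distrib]
    have h3 : ∀ (f : ℕ → ZMod Q → ZMod Q → ℝ), (∀ m q p, 0 ≤ f m q p) →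
        ∑ m ∈ range (M' - 1), ∑ q : ZMod Q, ∑ p : ZMod Q, (if m + 1 < M then f m q p else 0) ≤
        ∑ m ∈ range M, ∑ q : ZMod Q, ∑ p : ZMod Q, (if m + 1 < M then f m q p else 0) := by
      intro f hf
      refine Finset.sum_le_sum_of_subset_of_nonneg
        (Finset.range_subset_range.2 (by omega)) fun m _ _ => ?_
      refine Finset.sum_nonneg fun q _ => Finset.sum_nonneg fun p _ => ?_
      split_ifs
      · exact hf m q p
      · exact le_rfl
    have h4 := h3 v hv0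
    have h5 := h3 w hw0
    linarith
  -- the own moves
  have hO : ∑ m ∈ range (M' - k), (VO (fl X) (fl Z) (m + k) 0 - VO (fl X) (fl Z) m k) ≤ 12 * n := by
    obtain ⟨v, hv0, hv, hvn⟩ := hX.mv k le_rfl
    obtain ⟨w, hw0, hw, hwn⟩ := hZ.mv k le_rfl
    have h1 : ∀ m ∈ range (M' - k), VO (fl X) (fl Z) (m + k) 0 - VO (fl X) (fl Z) m k ≤
        6 * (∑ q : ZMod Q, ∑ p : ZMod Q, (if m + k < M then v m q p else 0) +
          ∑ q : ZMod Q, ∑ p : ZMod Q, (if m + k < M then w m q p else 0)) := by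
      intro m hm
      rw [Finset.mem_range] at hm
      have hmM : m + k < M := by omega
      have e0 : 2 ^ 0 * 2 ^ (m + k) = 2 ^ (m + k) := by ring
      have e1 : 2 ^ k * 2 ^ m = 2 ^ (m + k) := by ring
      rw [VO_fl X Z (m + k) 0 (by rw [e0]; exact hpow _ (by omega)),
        VO_fl X Z m k (by rw [e1]; exact hpow _ (by omega)), e0, e1]
      have mX : Mv (2 ^ (m + k)) (X (m + k)) (X m) (v m) := by
        refine ⟨fun q p => ?_, fun q p => ?_, fun q p => ?_⟩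
        · have := hX.op (m + k) 0 (by omega) (by omega) q p
          simpa using this
        · have := hX.op m k le_rfl (by omega) q p
          push_cast
          exact this
        · have := hv m (by omega) q p
          push_cast
          exact this
      have mZ : Mv (2 ^ (m + k)) (Z (m + k)) (Z m) (w m) := by
        refine ⟨fun q p => ?_, fun q p => ?_, fun q p => ?_⟩
        · have := hZ.op (m + k) 0 (by omega) (by omega) q p
          simpa using this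
        · have := hZ.op m k le_rfl (by omega) q p
          push_cast
          exact this
        · have := hw m (by omega) q p
          push_cast
          exact this
      have h2 := OS_le (N := 2 ^ (m + k)) (by positivity) mX
      have h3 := OS_le (N := 2 ^ (m + k)) (by positivity) mZ
      simp only [if_pos hmM]
      linarith
    refine (Finset.sum_le_sum h1).trans ?_
    rw [← Finset.mul_sum, Finset.sum_add_distrib]
    have h3 : ∀ (f : ℕ → ZMod Q → ZMod Q → ℝ), (∀ m q p, 0 ≤ f m q p) →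
        ∑ m ∈ range (M' - k), ∑ q : ZMod Q, ∑ p : ZMod Q, (if m + k < M then f m q p else 0) ≤
        ∑ m ∈ range M, ∑ q : ZMod Q, ∑ p : ZMod Q, (if m + k < M then f m q p else 0) := by
      intro f hf
      refine Finset.sum_le_sum_of_subset_of_nonneg
        (Finset.range_subset_range.2 (by omega)) fun m _ _ => ?_
      refine Finset.sum_nonneg fun q _ => Finset.sum_nonneg fun p _ => ?_
      split_ifs
      · exact hf m q p
      · exact le_rfl
    have h4 := h3 v hv0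
    have h5 := h3 w hw0
    linarith
  -- the bottom
  have hB : VJ (fl X) (fl Z) 0 0 ≤ 4 * n := by
    have e0 : 2 ^ 0 * 2 ^ 0 = 1 := by norm_num
    rw [VJ_fl X Z 0 0 (by rw [e0]; exact hpow 0 (by omega)), e0]
    refine bl_le_const (by norm_num) _ fun n' => ?_
    have o1 : ∀ q p, OpLe (CRdefx253.box (X 0) 1 q p) ((1 : ℕ) : ℝ) := by
      intro q p
      have := hX.op 0 0 (by omega) (by omega) q p
      simpa using this
    have o2 : ∀ q p, OpLe (CRdefx253.box (Z 0) 1 q p) ((1 : ℕ) : ℝ) := by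
      intro q p
      have := hZ.op 0 0 (by omega) (by omega) q p
      simpa using this
    refine (JS_bot (by norm_num) (hpow 0 (by omega)) o1 o2 n').trans ?_
    have h1 := hX.en 0 (by omega)
    have h2 := hZ.en 0 (by omega)
    linarith
  have hV : ∑ m ∈ range k, VO (fl X) (fl Z) m 0 ≤ k * (4 * n) := by
    have h1 : ∀ m ∈ range k, VO (fl X) (fl Z) m 0 ≤ 4 * n := by
      intro m hm
      rw [Finset.mem_range] at hm
      have e0 : 2 ^ 0 * 2 ^ m = 2 ^ m := by ring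
      rw [VO_fl X Z m 0 (by rw [e0]; exact hpow _ (by omega)), e0]
      have o1 : ∀ q p, OpLe (CRdefx253.box (X m) (2 ^ m) q p) ((2 ^ m : ℕ) : ℝ) := by
        intro q p
        have := hX.op m 0 (by omega) (by omega) q p
        simpa using this
      have o2 : ∀ q p, OpLe (CRdefx253.box (Z m) (2 ^ m) q p) ((2 ^ m : ℕ) : ℝ) := by
        intro q p
        have := hZ.op m 0 (by omega) (by omega) q p
        simpa using this
      have b1 := OS_bot (by positivity) (hpow m (by omega)) o1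
      have b2 := OS_bot (by positivity) (hpow m (by omega)) o2
      have h1 := hX.en m (by omega)
      have h2 := hZ.en m (by omega)
      linarith
    refine (Finset.sum_le_sum h1).trans ?_
    rw [Finset.sum_const, Finset.card_range, nsmul_eq_mul]
  unfold WP
  have hk0 : (0 : ℝ) ≤ k := by positivity
  nlinarith

end Crest.Agent.R079.CRv1x371
end

-- ▼ part R079/CRe_87
section

/-! R079, ragged corner (CR), note 833 of helper371, leaf L5 (C4) (helper87): price of the MOVES of the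
extraction kernels (global index `ZMod Q`, boxes = diagonal indicators `dg (bx Q N q)`).

`tr_move` : sum over all boxes of side `N` of `|tr (Z E_q (mvK Y S) E_p)|`.
`own_move`, `par_move` : price in the potentials, own side = second / first variable of the kernel. -/

set_option autoImplicit false
set_option linter.unusedVariables false
set_option linter.unusedSectionVars false

namespace Crest.Agent.R079.CRe87

open Matrix Finset Crest.Agent.R072 Crest.Agent.R079.PotL Crest.Agent.R079.PotL.CR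
open scoped MatrixOrder

local notation "rt" => CFC.sqrt

section op

variable {l m n : Type*} [Fintype l] [Fintype m] [Fintype n]

/-- operator norm at most `K` -/
def Opn (K : ℝ) (X : Matrix m n ℝ) : Prop := ∀ v, (X *ᵥ v) ⬝ᵥ (X *ᵥ v) ≤ K ^ 2 * (v ⬝ᵥ v)

theorem dsn (v : n → ℝ) : 0 ≤ v ⬝ᵥ v := by
  rw [dotProduct]; exact Finset.sum_nonneg fun i _ => mul_self_nonneg _

theorem cs (u v : n → ℝ) : (u ⬝ᵥ v) ^ 2 ≤ (u ⬝ᵥ u) * (v ⬝ᵥ v) := by
  have h := Finset.sum_mul_sq_le_sq_mul_sq (Finset.univ : Finset n) u v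
  simp only [dotProduct, ← sq]
  exact h

theorem Opn.mul {K L : ℝ} {X : Matrix l m ℝ} {Y : Matrix m n ℝ} (hX : Opn K X) (hY : Opn L Y) :
    Opn (K * L) (X * Y) := by
  intro v
  rw [← mulVec_mulVec]
  have h1 := hX (Y *ᵥ v)
  have h2 := mul_le_mul_of_nonneg_left (hY v) (sq_nonneg K)
  calc _ ≤ _ := h1
    _ ≤ _ := h2
    _ = _ := by ring

theorem Opn.tr {K : ℝ} {X : Matrix m n ℝ} (h : Opn K X) : Opn K Xᵀ := by
  intro w
  set u := Xᵀ *ᵥ w with hu
  have e : u ⬝ᵥ u = w ⬝ᵥ (X *ᵥ u) := by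
    rw [dotProduct_mulVec w, ← mulVec_transpose]
  have h1 := cs w (X *ᵥ u)
  rw [← e] at h1
  have h2 := mul_le_mul_of_nonneg_left (h u) (dsn w)
  rcases eq_or_lt_of_le (dsn u) with h0 | h0
  · rw [← h0]
    exact mul_nonneg (sq_nonneg K) (dsn w)
  · have h3 : (u ⬝ᵥ u) * (u ⬝ᵥ u) ≤ (K ^ 2 * (w ⬝ᵥ w)) * (u ⬝ᵥ u) := by
      calc (u ⬝ᵥ u) * (u ⬝ᵥ u) = (u ⬝ᵥ u) ^ 2 := by ring
        _ ≤ _ := h1
        _ ≤ _ := h2
        _ = _ := by ring
    exact le_of_mul_le_mul_right h3 h0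

theorem Opn.mono {K L : ℝ} {X : Matrix m n ℝ} (h : Opn K X) (hK : 0 ≤ K) (hL : K ≤ L) : Opn L X := by
  intro v
  refine (h v).trans (mul_le_mul_of_nonneg_right ?_ (dsn v))
  exact pow_le_pow_left₀ hK hL 2

theorem Opn.neg {K : ℝ} {X : Matrix m n ℝ} (h : Opn K X) : Opn K (-X) := by
  intro v
  rw [neg_mulVec, neg_dotProduct_neg]
  exact h v

theorem Opn.smul {K : ℝ} {X : Matrix m n ℝ} (h : Opn K X) (c : ℝ) : Opn (c * K) (c • X) := by
  intro v
  rw [smul_mulVec, smul_dotProduct, dotProduct_smul, smul_eq_mul, smul_eq_mul]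
  have := mul_le_mul_of_nonneg_left (h v) (sq_nonneg c)
  calc _ = c ^ 2 * ((X *ᵥ v) ⬝ᵥ (X *ᵥ v)) := by ring
    _ ≤ _ := this
    _ = _ := by ring

theorem Opn.add {K L : ℝ} {X Y : Matrix m n ℝ} (hK : 0 ≤ K) (hL : 0 ≤ L) (hX : Opn K X)
    (hY : Opn L Y) : Opn (K + L) (X + Y) := by
  intro v
  rw [add_mulVec, add_dotProduct, dotProduct_add, dotProduct_add]
  set a := X *ᵥ v
  set b := Y *ᵥ v
  have h1 : a ⬝ᵥ a ≤ K ^ 2 * (v ⬝ᵥ v) := hX v
  have h2 : b ⬝ᵥ b ≤ L ^ 2 * (v ⬝ᵥ v) := hY v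
  have hv := dsn v
  have h3 : (a ⬝ᵥ b) ^ 2 ≤ (K * L * (v ⬝ᵥ v)) ^ 2 := by
    calc (a ⬝ᵥ b) ^ 2 ≤ (a ⬝ᵥ a) * (b ⬝ᵥ b) := cs a b
      _ ≤ (K ^ 2 * (v ⬝ᵥ v)) * (L ^ 2 * (v ⬝ᵥ v)) :=
          mul_le_mul h1 h2 (dsn b) (mul_nonneg (sq_nonneg _) hv)
      _ = _ := by ring
  have h4 : a ⬝ᵥ b ≤ K * L * (v ⬝ᵥ v) :=
    (abs_le_of_sq_le_sq' h3 (mul_nonneg (mul_nonneg hK hL) hv)).2
  have h5 : b ⬝ᵥ a = a ⬝ᵥ b := dotProduct_comm _ _
  rw [h5]
  nlinarith

theorem Opn.sub {K L : ℝ} {X Y : Matrix m n ℝ} (hK : 0 ≤ K) (hL : 0 ≤ L) (hX : Opn K X)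
    (hY : Opn L Y) : Opn (K + L) (X - Y) := by
  rw [sub_eq_add_neg]
  exact hX.add hK hL hY.neg

/-- quadratic form of the Gram matrix -/
theorem Opn.gram {K : ℝ} {X : Matrix m n ℝ} (h : Opn K X) (v : n → ℝ) :
    v ⬝ᵥ ((Xᵀ * X) *ᵥ v) ≤ K ^ 2 * (v ⬝ᵥ v) := by
  rw [← mulVec_mulVec, dotProduct_mulVec, vecMul_transpose]
  exact h v

variable [DecidableEq n]

theorem opn_rt {M : Matrix n n ℝ} (hM : M.PosSemidef) {ω : ℝ}
    (h : ∀ v, v ⬝ᵥ (M *ᵥ v) ≤ ω ^ 2 * (v ⬝ᵥ v)) : Opn ω (rt M) := by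
  intro v
  have h1 : (rt M)ᵀ = rt M := rt_transpose _
  have h2 : (rt M *ᵥ v) ⬝ᵥ (rt M *ᵥ v) = v ⬝ᵥ (M *ᵥ v) := by
    conv_rhs => rw [← rt_mul_rt hM]
    rw [← mulVec_mulVec, dotProduct_mulVec v, ← mulVec_transpose, h1]
  rw [h2]
  exact h v




end op

section moves

variable {Q : ℕ} [NeZero Q]

/-- the kernel `Y S` (cell dependent `S`) -/
def mvK (Y : Matrix (ZMod Q) (ZMod Q) ℝ) (S : ZMod Q → ZMod Q → Matrix (ZMod Q) (ZMod Q) ℝ) :
    Matrix (ZMod Q) (ZMod Q) ℝ := fun x y => ∑ u, Y x u * S x y u y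

/-- an admissible move of scale `m` with normalised size `η` -/
structure MvOK (m : ℕ) (Y : Matrix (ZMod Q) (ZMod Q) ℝ)
    (S : ZMod Q → ZMod Q → Matrix (ZMod Q) (ZMod Q) ℝ) (η : ℝ) : Prop where
  dvd : 2 ^ m ∣ Q
  nn : 0 ≤ η
  pr : ∀ x y, IsPr (S x y)
  cell : ∀ x y x' y', cel m x = cel m x' → cel m y = cel m y' → S x y = S x' y'
  supp : ∀ x y u v, S x y u v ≠ 0 → cel m u = cel m y ∧ cel m v = cel m y
  op : ∀ a b, Opn η (dg (cl Q m a) * Y * dg (cl Q m b))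

variable {m : ℕ} {Y : Matrix (ZMod Q) (ZMod Q) ℝ}
  {S : ZMod Q → ZMod Q → Matrix (ZMod Q) (ZMod Q) ℝ} {η : ℝ}

/-- cellwise decomposition -/
theorem MvOK.dec (h : MvOK m Y S η) : (4 : ℝ) ^ m • mvK Y S =
    ∑ x0, ∑ y0, dg (cl Q m (cel m x0)) * Y * S x0 y0 * dg (cl Q m (cel m y0)) := by
  ext x y
  rw [Matrix.smul_apply, Matrix.sum_apply]
  simp only [Matrix.sum_apply]
  have h1 : ∀ x0 y0, (dg (cl Q m (cel m x0)) * Y * S x0 y0 * dg (cl Q m (cel m y0))) x y =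
      if x0 ∈ cl Q m (cel m x) then (if y0 ∈ cl Q m (cel m y) then mvK Y S x y else 0) else 0 := by
    intro x0 y0
    rw [mul_dg, Matrix.mul_assoc, dg_mul]
    by_cases hx : cel m x0 = cel m x
    · by_cases hy : cel m y0 = cel m y
      · have e1 : x ∈ cl Q m (cel m x0) := mem_cl.2 hx.symm
        have e2 : y ∈ cl Q m (cel m y0) := mem_cl.2 hy.symm
        have e3 : x0 ∈ cl Q m (cel m x) := mem_cl.2 hx
        have e4 : y0 ∈ cl Q m (cel m y) := mem_cl.2 hy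
        rw [if_pos e1, if_pos e2, if_pos e3, if_pos e4, Matrix.mul_apply,
          h.cell x0 y0 x y hx hy]
        rfl
      · have e2 : y ∉ cl Q m (cel m y0) := fun h' => hy (mem_cl.1 h').symm
        have e4 : y0 ∉ cl Q m (cel m y) := fun h' => hy (mem_cl.1 h')
        rw [if_neg e2, if_neg e4, ite_self]
    · have e1 : x ∉ cl Q m (cel m x0) := fun h' => hx (mem_cl.1 h').symm
      have e3 : x0 ∉ cl Q m (cel m x) := fun h' => hx (mem_cl.1 h')
      rw [if_neg e1, if_neg e3, ite_self]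
  simp only [h1]
  have h2 : ∀ (a : ℕ) (z : ZMod Q) (c : ℝ), ∑ x0, (if x0 ∈ cl Q m (cel m z) then c else 0) =
      2 ^ m * c := by
    intro a z c
    rw [Finset.sum_ite_mem, Finset.univ_inter, Finset.sum_const, card_cl h.dvd, nsmul_eq_mul]
    push_cast
    rfl
  have h3 : ∀ x0, ∑ y0, (if x0 ∈ cl Q m (cel m x) then
      (if y0 ∈ cl Q m (cel m y) then mvK Y S x y else 0) else 0) =
      if x0 ∈ cl Q m (cel m x) then 2 ^ m * mvK Y S x y else 0 := by
    intro x0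
    split_ifs
    · exact h2 0 y _
    · simp
  rw [Finset.sum_congr rfl fun x0 _ => h3 x0, h2 0 x, smul_eq_mul, ← mul_assoc, ← mul_pow]
  norm_num



end moves

section price

variable {Q : ℕ} [NeZero Q]






/-- price of one box -/
theorem phi_box {N : ℕ} (hN : 0 < N) (A A' : Matrix (ZMod Q) (ZMod Q) ℝ)
    {b : Matrix (ZMod Q) (ZMod Q) ℝ} (hb : b.PosSemidef) {ρ β : ℝ} (hρ : 0 ≤ ρ) (hβ : 0 ≤ β)
    (hA : Opn (ρ * N) A) (hb' : ∀ v, v ⬝ᵥ (b *ᵥ v) ≤ β ^ 2 * (v ⬝ᵥ v)) :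
    ∃ W : Matrix (ZMod Q) (ZMod Q) ℝ, Wᵀ = W ∧ Opn (ρ + β) W ∧
      phi ((1 / (N : ℝ) ^ 2) • (Aᵀ * A) + b) - phi ((1 / (N : ℝ) ^ 2) • (A'ᵀ * A') + b) ≤
        3 / (N : ℝ) ^ 2 * (W * (Aᵀ * (A - A'))).trace := by
  have hN' : (N : ℝ) ≠ 0 := by positivity
  have e : ∀ B : Matrix (ZMod Q) (ZMod Q) ℝ, (((1 / (N : ℝ)) • B)ᵀ * ((1 / (N : ℝ)) • B)) =
      (1 / (N : ℝ) ^ 2) • (Bᵀ * B) := by
    intro B
    rw [transpose_smul, smul_mul_smul_comm]
    congr 1
    field_simp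
  refine ⟨rt ((1 / (N : ℝ) ^ 2) • (Aᵀ * A) + b), rt_transpose _, ?_, ?_⟩
  · refine opn_rt (((psd_tms A).smul (by positivity)).add hb) fun v => ?_
    rw [add_mulVec, dotProduct_add, smul_mulVec, dotProduct_smul, smul_eq_mul]
    have h1 := hA.gram v
    have h2 := hb' v
    have h3 : 1 / (N : ℝ) ^ 2 * (v ⬝ᵥ ((Aᵀ * A) *ᵥ v)) ≤ ρ ^ 2 * (v ⬝ᵥ v) := by
      calc 1 / (N : ℝ) ^ 2 * (v ⬝ᵥ ((Aᵀ * A) *ᵥ v)) ≤
          1 / (N : ℝ) ^ 2 * ((ρ * N) ^ 2 * (v ⬝ᵥ v)) :=
            mul_le_mul_of_nonneg_left h1 (by positivity)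
        _ = _ := by field_simp
    have h4 : 0 ≤ 2 * ρ * β * (v ⬝ᵥ v) := mul_nonneg (by positivity) (dsn v)
    nlinarith
  · have h := phi_cost ((1 / (N : ℝ)) • A) ((1 / (N : ℝ)) • A') hb
    rw [e, e] at h
    refine h.trans (le_of_eq ?_)
    rw [← smul_sub, transpose_smul, smul_mul_smul_comm, Matrix.mul_smul, trace_smul, smul_eq_mul]
    field_simp

variable {ι : Type*}



end price

section extr

variable {Q : ℕ} [NeZero Q] {B B' : Matrix (ZMod Q) (ZMod Q) ℝ} {M : ℕ} {δ δ' n n' : ℝ}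
  {Y Y' : ℕ → Matrix (ZMod Q) (ZMod Q) ℝ} {S S' : ℕ → ZMod Q → ZMod Q → Matrix (ZMod Q) (ZMod Q) ℝ}







section band

variable (h : Extr B M δ n Y S) (h' : Extr B' M δ' n' Y' S')
include h h'







end band

end extr

end Crest.Agent.R079.CRe87
end

-- ▼ part R079/CRv2_87
section

/-! R079, RAGGED CORNER (CR), leaf L5-2 (literal `Vert2` of CRdef2_253): comparison of scales at the
vertex where the own variable is the row variable of the killer.  helper87. -/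

set_option autoImplicit false
set_option linter.unusedVariables false
set_option linter.unusedSectionVars false
set_option linter.unusedSimpArgs false

namespace Crest.Agent.R079.CRv2x87

open Matrix Crest.Agent.R072
open Crest.Agent.R079.CR371 hiding kl kl_sup
open Finset hiding box
open Crest.Agent.R079.PotL (bl cel IsPr hs2 hsn bl_mono bl_add)
open Crest.Agent.R079.CRdefx253
open Crest.Agent.R079.CRe87 (Opn dsn phi_box opn_rt)
open Crest.Agent.R079.CRex250 (QF phi_row phi_price phi_mono hs2_eq)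
open scoped MatrixOrder

section pure

variable {m n : Type*} [Fintype m] [Fintype n]

theorem opn_of {A : Matrix m n ℝ} {c : ℝ} (h : OpLe A c) : Opn c A := by
  intro v
  have h1 := h.2 v
  simp only [dotProduct, Matrix.mulVec, ← sq]
  exact h1

theorem opLe_of {A : Matrix m n ℝ} {c : ℝ} (hc : 0 ≤ c) (h : Opn c A) : OpLe A c := by
  refine ⟨hc, fun v => ?_⟩
  have h1 := h v
  simp only [dotProduct, Matrix.mulVec, ← sq] at h1
  exact h1

theorem trN_le {K : Matrix n m ℝ} {E : Matrix m n ℝ} {k c : ℝ} (hk : 0 < k) (hK : Opn k K)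
    (hE : TrN E c) : |(K * E).trace| ≤ k * c := by
  have h1 : OpLe ((1 / k) • K) 1 := by
    have h2 := opLe_of (mul_nonneg (by positivity) hk.le) (hK.smul (1 / k))
    rwa [one_div_mul_cancel hk.ne'] at h2
  have h2 := hE _ h1
  rw [Matrix.smul_mul, trace_smul, smul_eq_mul, abs_mul, abs_of_pos (by positivity : 0 < 1 / k)] at h2
  rwa [div_mul_eq_mul_div, one_mul, div_le_iff₀' hk] at h2

end pure

section one

variable {Q : ℕ} [NeZero Q]

/-- move of a function letter in one box -/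
theorem phi_mv {N : ℕ} (hN : 0 < N) {A A' b : Mx Q} (hb : b.PosSemidef) {β v : ℝ} (hβ : 0 ≤ β)
    (hA : Opn N A) (hb' : ∀ v, v ⬝ᵥ (b *ᵥ v) ≤ β ^ 2 * (v ⬝ᵥ v)) (hE : TrN (A - A') (N * v)) :
    phi ((1 / (N : ℝ) ^ 2) • (Aᵀ * A) + b) ≤ phi ((1 / (N : ℝ) ^ 2) • (A'ᵀ * A') + b) +
      3 * (1 + β) * v := by
  have hN' : (0 : ℝ) < N := by exact_mod_cast hN
  obtain ⟨W, hW1, hW2, hW3⟩ := phi_box hN A A' hb (ρ := 1) zero_le_one hβ (by simpa using hA) hb'
  have h1 : Opn ((1 + β) * N) (W * Aᵀ) := hW2.mul hA.tr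
  have h2 := trN_le (by positivity) h1 hE
  rw [Matrix.mul_assoc] at h2
  have h3 := (le_abs_self _).trans h2
  have h4 := mul_le_mul_of_nonneg_left h3 (by positivity : (0 : ℝ) ≤ 3 / (N : ℝ) ^ 2)
  have e : 3 / (N : ℝ) ^ 2 * ((1 + β) * N * (N * v)) = 3 * (1 + β) * v := by
    field_simp
  rw [e] at h4
  linarith

/-- value at the bottom -/
theorem phi_bot {N : ℕ} (hN : 0 < N) {A b : Mx Q} (hb : b.PosSemidef) {β : ℝ} (hβ : 0 ≤ β)
    (hA : Opn N A) (hb' : ∀ v, v ⬝ᵥ (b *ᵥ v) ≤ β ^ 2 * (v ⬝ᵥ v)) :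
    phi ((1 / (N : ℝ) ^ 2) • (Aᵀ * A) + b) ≤
      (1 + β) * (1 / (N : ℝ) ^ 2 * hs2 A + b.trace) := by
  have hN' : (0 : ℝ) < N := by exact_mod_cast hN
  have hM : ((1 / (N : ℝ) ^ 2) • (Aᵀ * A) + b).PosSemidef :=
    ((psd_gram A).smul (by positivity)).add hb
  have h1 : ((1 + β) ^ 2 • (1 : Mx Q) - ((1 / (N : ℝ) ^ 2) • (Aᵀ * A) + b)).PosSemidef := by
    rw [posSemidef_iff_dotProduct_mulVec]
    refine ⟨?_, fun v => ?_⟩
    · exact ((isHermitian_one (α := ℝ) (n := ZMod Q)).smul (IsSelfAdjoint.all _)).sub hM.isHermitian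
    · rw [sub_mulVec, dotProduct_sub, smul_mulVec, one_mulVec, dotProduct_smul, smul_eq_mul,
        star_trivial, add_mulVec, dotProduct_add, smul_mulVec, dotProduct_smul, smul_eq_mul]
      have h1 := hA.gram v
      have h2 := hb' v
      have h3 : 1 / (N : ℝ) ^ 2 * (v ⬝ᵥ ((Aᵀ * A) *ᵥ v)) ≤ v ⬝ᵥ v := by
        calc 1 / (N : ℝ) ^ 2 * (v ⬝ᵥ ((Aᵀ * A) *ᵥ v)) ≤
            1 / (N : ℝ) ^ 2 * ((N : ℝ) ^ 2 * (v ⬝ᵥ v)) :=
              mul_le_mul_of_nonneg_left h1 (by positivity)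
          _ = _ := by field_simp
      have h4 : 0 ≤ 2 * β * (v ⬝ᵥ v) := mul_nonneg (by positivity) (dsn v)
      nlinarith
  have h2 := phi_le_of_le hM (by positivity) h1
  rw [Real.sqrt_sq (by positivity)] at h2
  refine h2.trans (le_of_eq ?_)
  rw [trace_add, trace_smul, smul_eq_mul]
  congr 3
  rw [trace_mul_comm, hs2_eq]

theorem opn_pr {P : Mx Q} (hP : IsPr P) : Opn 1 P := by
  intro v
  have h1 : (P *ᵥ v) ⬝ᵥ (P *ᵥ v) = v ⬝ᵥ (P *ᵥ v) := by
    have h2 : P *ᵥ (P *ᵥ v) = P *ᵥ v := by rw [mulVec_mulVec, hP.idem]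
    conv_rhs => rw [← h2]
    rw [dotProduct_mulVec v, ← mulVec_transpose, hP.symm]
  have h3 := CRe87.cs v (P *ᵥ v)
  rw [← h1] at h3
  rw [one_pow, one_mul]
  rcases eq_or_lt_of_le (dsn (P *ᵥ v)) with h0 | h0
  · rw [← h0]; exact dsn v
  · rw [sq] at h3
    exact le_of_mul_le_mul_right h3 h0

theorem opn_sum {ι : Type*} (s : Finset ι) (A : ι → Mx Q) (c : ℝ) (hc : 0 ≤ c)
    (h : ∀ i ∈ s, Opn c (A i)) : Opn (s.card * c) (∑ i ∈ s, A i) := by
  classical
  induction s using Finset.induction_on with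
  | empty =>
    intro v
    simp
  | insert a s ha ih =>
    rw [Finset.sum_insert ha, Finset.card_insert_of_notMem ha]
    have h1 := (h a (Finset.mem_insert_self a s)).add hc (by positivity)
      (ih fun i hi => h i (Finset.mem_insert_of_mem hi))
    have e : ((s.card + 1 : ℕ) : ℝ) * c = c + s.card * c := by push_cast; ring
    rw [e]
    exact h1

theorem hs2_sum_le {ι : Type*} (s : Finset ι) (A : ι → Mx Q) :
    hs2 (∑ i ∈ s, A i) ≤ s.card * ∑ i ∈ s, hs2 (A i) := by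
  unfold hs2
  have h1 : ∀ x y, (∑ i ∈ s, A i) x y ^ 2 ≤ s.card * ∑ i ∈ s, A i x y ^ 2 := by
    intro x y
    rw [Matrix.sum_apply]
    exact sq_sum_le_card_mul_sum_sq
  refine (Finset.sum_le_sum fun x _ => Finset.sum_le_sum fun y _ => h1 x y).trans (le_of_eq ?_)
  simp only [← Finset.mul_sum]
  congr 1
  rw [Finset.sum_congr rfl fun x _ => Finset.sum_comm, Finset.sum_comm]

theorem hs2_smul (c : ℝ) (A : Mx Q) : hs2 (c • A) = c ^ 2 * hs2 A := by
  unfold hs2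
  simp only [Matrix.smul_apply, smul_eq_mul, mul_pow, Finset.mul_sum]

end one

section asm

variable {Q : ℕ} [NeZero Q]

/-- assembled box of side `2^i N` -/
noncomputable def AB (N i : ℕ) (L : Lt Q (ZMod Q)) (q p : ZMod Q) : Mx Q :=
  ∑ s ∈ range (2 ^ i), RB N L i (q + (s : ZMod Q) * (N : ZMod Q)) p

/-- value in a sub window -/
theorem val_sub_mul {N i s : ℕ} (h : 2 ^ i * N ≤ Q) (hs : s < 2 ^ i) (q x : ZMod Q)
    (hx : (x - (q + (s : ZMod Q) * (N : ZMod Q))).val < N) :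
    (x - q).val = s * N + (x - (q + (s : ZMod Q) * (N : ZMod Q))).val := by
  have h1 : (s + 1) * N ≤ 2 ^ i * N := Nat.mul_le_mul_right N hs
  have h2 : (s + 1) * N = s * N + N := by ring
  have e : (s : ZMod Q) * (N : ZMod Q) = ((s * N : ℕ) : ZMod Q) := by push_cast; ring
  rw [e] at hx ⊢
  rw [val_sub_add x q (s * N) (by omega)] at hx ⊢
  split_ifs at hx ⊢ with h3
  · omega
  · omega

theorem orth_sub {N i s s' : ℕ} {L : Lt Q (ZMod Q)} (hL : RSup N L) (h : 2 ^ i * N ≤ Q)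
    (hs : s < 2 ^ i) (hs' : s' < 2 ^ i) (hne : s ≠ s') (q p : ZMod Q) :
    (RB N L i (q + (s : ZMod Q) * (N : ZMod Q)) p)ᵀ *
      RB N L i (q + (s' : ZMod Q) * (N : ZMod Q)) p = 0 := by
  ext y z
  rw [Matrix.mul_apply, Matrix.zero_apply]
  refine Finset.sum_eq_zero fun x _ => ?_
  rw [transpose_apply]
  by_cases h1 : N ≤ (x - (q + (s : ZMod Q) * (N : ZMod Q))).val
  · rw [RB_rsupp hL i _ p x y h1, zero_mul]
  by_cases h2 : N ≤ (x - (q + (s' : ZMod Q) * (N : ZMod Q))).val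
  · rw [RB_rsupp hL i _ p x z h2, mul_zero]
  exfalso
  push Not at h1 h2
  have e1 := val_sub_mul h hs q x h1
  have e2 := val_sub_mul h hs' q x h2
  have hN : 0 < N := lt_of_le_of_lt (Nat.zero_le _) h1
  have d1 : (x - q).val / N = s := by
    rw [e1, mul_comm, Nat.mul_add_div hN, Nat.div_eq_of_lt h1, add_zero]
  have d2 : (x - q).val / N = s' := by
    rw [e2, mul_comm, Nat.mul_add_div hN, Nat.div_eq_of_lt h2, add_zero]
  exact hne (d1.symm.trans d2)

/-- the Gram array on the diagonal is the Gram matrix of the assembled box -/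
theorem gr_AB {N i : ℕ} {L : Lt Q (ZMod Q)} (hL : RSup N L) (h : 2 ^ i * N ≤ Q) (q p : ZMod Q) :
    gr N L i i q p = (1 / ((2 ^ i * N : ℕ) : ℝ) ^ 2) • ((AB N i L q p)ᵀ * AB N i L q p) := by
  unfold gr
  rw [← sq]
  congr 1
  unfold AB
  rw [Matrix.transpose_sum, Finset.sum_mul_sum]
  refine Finset.sum_congr rfl fun s hs => ?_
  rw [Finset.sum_eq_single s]
  · intro s' hs' hne
    exact orth_sub hL h (Finset.mem_range.1 hs) (Finset.mem_range.1 hs') hne.symm q p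
  · intro hn
    exact absurd hs hn

theorem AB_eq (N i : ℕ) (L : Lt Q (ZMod Q)) (q p : ZMod Q) : AB N i L q p =
    ∑ s ∈ range (2 ^ i), ∑ t ∈ range (2 ^ i),
      L (q + (s : ZMod Q) * (N : ZMod Q)) (p + (t : ZMod Q) * (N : ZMod Q)) := rfl

theorem AB_trL (N i : ℕ) (L : Lt Q (ZMod Q)) (q p : ZMod Q) :
    AB N i (trL L) q p = (AB N i L p q)ᵀ := by
  rw [AB_eq, AB_eq, Matrix.transpose_sum, Finset.sum_comm]
  refine Finset.sum_congr rfl fun s _ => ?_
  rw [Matrix.transpose_sum]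
  rfl

theorem AB_zero (N : ℕ) (L : Lt Q (ZMod Q)) (q p : ZMod Q) : AB N 0 L q p = L q p := by
  rw [AB_eq]
  simp

theorem ind_pow (N i : ℕ) (h : 2 ^ i * N ≤ Q) (p x : ZMod Q) :
    ind (2 ^ i * N) p x = ∑ s ∈ range (2 ^ i), ind N (p + (s : ZMod Q) * (N : ZMod Q)) x := by
  induction i generalizing p with
  | zero => simp
  | succ i ih =>
    have h1 : 2 * (2 ^ i * N) ≤ Q := by
      rw [← mul_assoc, ← pow_succ']
      exact h
    have e : 2 ^ (i + 1) * N = 2 * (2 ^ i * N) := by rw [pow_succ']; ring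
    rw [e, ind_two _ h1, ih (by omega), ih (by omega), pow_succ, mul_two, Finset.sum_range_add]
    congr 1
    refine Finset.sum_congr rfl fun s _ => ?_
    congr 1
    push_cast
    ring

theorem box_split (F : Mx Q) {N i : ℕ} (h : 2 ^ i * N ≤ Q) (q p : ZMod Q) :
    box F (2 ^ i * N) q p = ∑ s ∈ range (2 ^ i), ∑ t ∈ range (2 ^ i),
      box F N (q + (s : ZMod Q) * (N : ZMod Q)) (p + (t : ZMod Q) * (N : ZMod Q)) := by
  ext x y
  rw [box_apply, ind_pow N i h, ind_pow N i h, Matrix.sum_apply, Finset.sum_mul, Finset.sum_mul]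
  refine Finset.sum_congr rfl fun s _ => ?_
  rw [Matrix.sum_apply, Finset.mul_sum]
  refine Finset.sum_congr rfl fun t _ => ?_
  rw [box_apply]

theorem AB_fl (X : ℕ → Mx Q) (m i : ℕ) (h : 2 ^ (m + i) ≤ Q) (q p : ZMod Q) :
    AB (2 ^ m) i (fl X m) q p = box (X m) (2 ^ (m + i)) q p := by
  have e : 2 ^ (m + i) = 2 ^ i * 2 ^ m := by rw [pow_add, mul_comm]
  rw [e] at h ⊢
  rw [box_split _ h, AB_eq]
  rfl

end asm

section killer

variable {Q : ℕ} [NeZero Q] {C : Mx Q} {al : ℕ → ZMod Q → ZMod Q → Prop}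
  {R : ℕ → ZMod Q → ZMod Q → Mx Q} {w : ℕ → ZMod Q → ZMod Q → ℝ} {k M : ℕ} {n : ℝ}

theorem st_eq (m a : ℕ) : (st m a : ZMod Q) = (a : ZMod Q) * ((2 ^ m : ℕ) : ZMod Q) := by
  unfold st
  push_cast
  ring


theorem kl_CSup (hK : Kil C al R w k M n) (m : ℕ) : CSup (2 ^ m) (kl C al R m) :=
  (CR371y.kl_sup C al R m fun q p u v h => hK.supp m q p u v h).1

theorem I1_box (F : Mx Q) (L : ℕ) (q p : ZMod Q) : I1 L q * box F L q p = box F L q p := by
  ext x y
  rw [I1_eq, diagonal_mul, box_apply, ← mul_assoc, ← mul_assoc, ind_sq]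

open Classical in
/-- missing pieces of the killer -/
noncomputable def mis (C : Mx Q) (al : ℕ → ZMod Q → ZMod Q → Prop)
    (R : ℕ → ZMod Q → ZMod Q → Mx Q) (m i : ℕ) (q p : ZMod Q) : Mx Q :=
  ∑ s ∈ range (2 ^ i), ∑ t ∈ range (2 ^ i),
    if al m (q + st m s) (p + st m t) then 0 else
      R m (q + st m s) (p + st m t) * box C (2 ^ m) (q + st m s) (p + st m t)

theorem AB_kl (m i : ℕ) (q p : ZMod Q) : AB (2 ^ m) i (kl C al R m) q p =
    ∑ s ∈ range (2 ^ i), ∑ t ∈ range (2 ^ i), kl C al R m (q + st m s) (p + st m t) := by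
  rw [AB_eq]
  refine Finset.sum_congr rfl fun s _ => Finset.sum_congr rfl fun t _ => ?_
  rw [st_eq, st_eq]

open Classical in
theorem kil_new (hK : Kil C al R w k M n) {m i : ℕ} (hm : m + i < M) (hQ : 2 ^ (m + i) ≤ Q)
    {q p : ZMod Q} (ha : al (m + i) q p) :
    kl C al R (m + i) q p =
      R (m + i) q p * (AB (2 ^ m) i (kl C al R m) q p + mis C al R m i q p) := by
  have e : 2 ^ (m + i) = 2 ^ i * 2 ^ m := by rw [pow_add, mul_comm]
  have h1 : kl C al R (m + i) q p = R (m + i) q p * box C (2 ^ (m + i)) q p := by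
    unfold kl
    rw [if_pos ha]
  have hQ' := hQ
  rw [e] at hQ'
  rw [h1, e, box_split C hQ', AB_kl]
  unfold mis
  rw [← Finset.sum_add_distrib, Finset.mul_sum, Finset.mul_sum]
  refine Finset.sum_congr rfl fun s hs => ?_
  rw [← Finset.sum_add_distrib, Finset.mul_sum, Finset.mul_sum]
  refine Finset.sum_congr rfl fun t ht => ?_
  have hs' := Finset.mem_range.1 hs
  have ht' := Finset.mem_range.1 ht
  rw [← st_eq, ← st_eq]
  have h2 : kl C al R m (q + st m s) (p + st m t) +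
      (if al m (q + st m s) (p + st m t) then 0 else
      R m (q + st m s) (p + st m t) * box C (2 ^ m) (q + st m s) (p + st m t)) =
      R m (q + st m s) (p + st m t) * box C (2 ^ m) (q + st m s) (p + st m t) := by
    unfold kl
    split_ifs
    · rw [add_zero]
    · rw [zero_add]
  rw [h2, ← Matrix.mul_assoc, ← hK.nest m i hm q p s hs' t ht', Matrix.mul_assoc, I1_box]

/-- pieces seen from the big space -/
theorem kil_piece (hK : Kil C al R w k M n) {m i : ℕ} (hm : m + i < M) (q p : ZMod Q) {s t : ℕ}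
    (hs : s < 2 ^ i) (ht : t < 2 ^ i) :
    R (m + i) q p * (R m (q + st m s) (p + st m t) *
      box C (2 ^ m) (q + st m s) (p + st m t)) =
    R (m + i) q p * box C (2 ^ m) (q + st m s) (p + st m t) := by
  rw [← Matrix.mul_assoc, ← hK.nest m i hm q p s hs t ht, Matrix.mul_assoc, I1_box]


theorem hs2_zero : hs2 (0 : Mx Q) = 0 := by
  unfold hs2
  simp

/-- double sums of pieces -/
theorem hs2_dsum (i : ℕ) (A : ℕ → ℕ → Mx Q) {c : ℝ} (hc : ∀ s < 2 ^ i, ∀ t < 2 ^ i, hs2 (A s t) ≤ c) :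
    hs2 (∑ s ∈ range (2 ^ i), ∑ t ∈ range (2 ^ i), A s t) ≤ 16 ^ i * c := by
  rw [← Finset.sum_product']
  refine (hs2_sum_le _ _).trans ?_
  have h1 : ∑ x ∈ range (2 ^ i) ×ˢ range (2 ^ i), hs2 (A x.1 x.2) ≤
      ∑ _x ∈ range (2 ^ i) ×ˢ range (2 ^ i), c := by
    refine Finset.sum_le_sum fun x hx => ?_
    rw [Finset.mem_product, Finset.mem_range, Finset.mem_range] at hx
    exact hc _ hx.1 _ hx.2
  rw [Finset.sum_const, nsmul_eq_mul] at h1
  rw [Finset.card_product, Finset.card_range] at h1 ⊢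
  have h2 : (0 : ℝ) ≤ ((2 ^ i * 2 ^ i : ℕ) : ℝ) := Nat.cast_nonneg _
  refine (mul_le_mul_of_nonneg_left h1 h2).trans (le_of_eq ?_)
  push_cast
  have : (16 : ℝ) ^ i = 2 ^ i * 2 ^ i * (2 ^ i * 2 ^ i) := by
    rw [← mul_pow, ← mul_pow]
    norm_num
  rw [this]
  ring

theorem hs2_old (hK : Kil C al R w k M n) {m i : ℕ} (hm : m + i < M) {q p : ZMod Q}
    (ha : al (m + i) q p) :
    hs2 (R (m + i) q p * AB (2 ^ m) i (kl C al R m) q p) ≤ 16 ^ i * (4 ^ (m + i) * w (m + i) q p) := by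
  rw [AB_kl, Finset.mul_sum, Finset.sum_congr rfl fun s _ => Finset.mul_sum _ _ _]
  refine hs2_dsum i _ fun s hs t ht => ?_
  unfold kl
  split_ifs
  · rw [kil_piece hK hm q p hs ht]
    exact hK.hs m i hm q p ha s hs t ht
  · rw [Matrix.mul_zero, hs2_zero]
    have := hK.w0 (m + i) q p
    positivity

theorem hs2_mis (hK : Kil C al R w k M n) {m i : ℕ} (hm : m + i < M) {q p : ZMod Q}
    (ha : al (m + i) q p) :
    hs2 (R (m + i) q p * mis C al R m i q p) ≤ 16 ^ i * (4 ^ (m + i) * w (m + i) q p) := by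
  unfold mis
  rw [Finset.mul_sum, Finset.sum_congr rfl fun s _ => Finset.mul_sum _ _ _]
  refine hs2_dsum i _ fun s hs t ht => ?_
  split_ifs
  · rw [Matrix.mul_zero, hs2_zero]
    have := hK.w0 (m + i) q p
    positivity
  · rw [kil_piece hK hm q p hs ht]
    exact hK.hs m i hm q p ha s hs t ht

/-- no exit: nothing is missing -/
theorem mis_zero {m i : ℕ} {q p : ZMod Q} (ha : al (m + i) q p) (he : ¬ Exit al i m q p) :
    mis C al R m i q p = 0 := by
  unfold mis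
  refine Finset.sum_eq_zero fun s hs => Finset.sum_eq_zero fun t ht => ?_
  rw [if_pos]
  by_contra hn
  exact he ⟨ha, s, Finset.mem_range.1 hs, t, Finset.mem_range.1 ht, hn⟩

/-- norm of the killer letters -/
theorem opn_kl (hK : Kil C al R w k M n) {m : ℕ} (hm : m < M) (q p : ZMod Q) :
    Opn (((2 ^ m : ℕ) : ℝ)) (kl C al R m q p) := by
  unfold kl
  split_ifs with ha
  · have h1 := (opn_pr (hK.pr m q p)).mul (opn_of (hK.op m hm q p ha))
    rw [one_mul] at h1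
    push_cast
    exact h1
  · intro v
    rw [zero_mulVec, dotProduct_zero]
    exact mul_nonneg (sq_nonneg _) (dsn v)

/-- norm of the assembled killer -/
theorem opn_AB (hK : Kil C al R w k M n) {m i : ℕ} (hm : m < M) (q p : ZMod Q) :
    Opn (2 ^ i * ((2 ^ (m + i) : ℕ) : ℝ)) (AB (2 ^ m) i (kl C al R m) q p) := by
  rw [AB_kl, ← Finset.sum_product']
  have h1 := opn_sum (range (2 ^ i) ×ˢ range (2 ^ i))
    (fun x => kl C al R m (q + st m x.1) (p + st m x.2)) (((2 ^ m : ℕ) : ℝ)) (Nat.cast_nonneg _)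
    fun x _ => opn_kl hK hm _ _
  have e : ((range (2 ^ i) ×ˢ range (2 ^ i)).card : ℝ) * ((2 ^ m : ℕ) : ℝ) =
      2 ^ i * ((2 ^ (m + i) : ℕ) : ℝ) := by
    rw [Finset.card_product, Finset.card_range]
    push_cast
    rw [pow_add]
    ring
  rwa [e] at h1

open Classical in
/-- **the killer goes up**, own variable = rows -/
theorem kil_step (hK : Kil C al R w k M n) {m i : ℕ} (hm : m + i < M) (hQ : 2 ^ (m + i) ≤ Q)
    (q p : ZMod Q) {G : Mx Q} (hG : G.PosSemidef) (hG1 : ∀ v, v ⬝ᵥ (G *ᵥ v) ≤ v ⬝ᵥ v)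
    (hfix : al (m + i) q p → R (m + i) q p * G * R (m + i) q p = G) :
    phi ((1 / ((2 ^ (m + i) : ℕ) : ℝ) ^ 2) • (kl C al R (m + i) q p *
        (kl C al R (m + i) q p)ᵀ) + G) ≤
      phi ((1 / ((2 ^ (m + i) : ℕ) : ℝ) ^ 2) • (AB (2 ^ m) i (kl C al R m) q p *
        (AB (2 ^ m) i (kl C al R m) q p)ᵀ) + G) +
      (if Exit al i m q p then 9 * 16 ^ i * w (m + i) q p else 0) := by
  have hw := hK.w0 (m + i) q p
  set N : ℝ := ((2 ^ (m + i) : ℕ) : ℝ) with hNd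
  have hN : 0 < N := by rw [hNd]; positivity
  set O := AB (2 ^ m) i (kl C al R m) q p with hO
  have hOp : ((1 / N ^ 2) • (O * Oᵀ) + G).PosSemidef :=
    ((CRex250.psd_mt O).smul (by positivity)).add hG
  by_cases ha : al (m + i) q p
  swap
  · have h0 : kl C al R (m + i) q p = 0 := by
      unfold kl
      rw [if_neg ha]
    rw [h0, Matrix.zero_mul, smul_zero, zero_add]
    have h1 : phi G ≤ phi ((1 / N ^ 2) • (O * Oᵀ) + G) := by
      refine phi_mono hG hOp ?_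
      rw [add_sub_cancel_right]
      exact (CRex250.psd_mt O).smul (by positivity)
    have h2 : (0 : ℝ) ≤ (if Exit al i m q p then 9 * 16 ^ i * w (m + i) q p else 0) := by
      split_ifs
      · positivity
      · exact le_rfl
    linarith
  set P := R (m + i) q p with hP
  set D := mis C al R m i q p with hD
  have hPr : IsPr P := hK.pr _ _ _
  have hnew : kl C al R (m + i) q p = P * (O + D) := kil_new hK hm hQ ha
  have hsc : ∀ A B : Mx Q, ((1 / N) • A) * ((1 / N) • B)ᵀ = (1 / N ^ 2) • (A * Bᵀ) := by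
    intro A B
    rw [transpose_smul, smul_mul_smul_comm]
    congr 1
    field_simp
  have e1 : P * ((1 / N) • O + (1 / N) • D) = (1 / N) • kl C al R (m + i) q p := by
    rw [← smul_add, Matrix.mul_smul, hnew]
  have hQF : QF ((P * ((1 / N) • O + (1 / N) • D)) * (P * ((1 / N) • O + (1 / N) • D))ᵀ + G)
      4 := by
    rw [e1, hsc]
    intro v
    rw [add_mulVec, dotProduct_add, smul_mulVec, dotProduct_smul, smul_eq_mul]
    have h1 := ((opn_kl hK hm q p).tr).gram v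
    rw [transpose_transpose] at h1
    have h2 := hG1 v
    have h3 : 1 / N ^ 2 * (v ⬝ᵥ ((kl C al R (m + i) q p * (kl C al R (m + i) q p)ᵀ) *ᵥ v)) ≤
        v ⬝ᵥ v := by
      calc 1 / N ^ 2 * (v ⬝ᵥ ((kl C al R (m + i) q p * (kl C al R (m + i) q p)ᵀ) *ᵥ v)) ≤
          1 / N ^ 2 * (N ^ 2 * (v ⬝ᵥ v)) := mul_le_mul_of_nonneg_left h1 (by positivity)
        _ = _ := by field_simp
    have h4 := dsn v
    linarith
  have key := phi_row hPr ((1 / N) • O) ((1 / N) • D) hG (hfix ha) (by norm_num : (0 : ℝ) ≤ 4) hQF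
  rw [e1, hsc, hsc] at key
  have hs4 : Real.sqrt 4 = 2 := by
    rw [show (4 : ℝ) = 2 ^ 2 by norm_num]
    exact Real.sqrt_sq (by norm_num)
  rw [hs4] at key
  have hX : hs2 (P * ((1 / N) • O)) ≤ 16 ^ i * w (m + i) q p := by
    rw [Matrix.mul_smul, hs2_smul]
    have h1 := hs2_old hK hm ha
    have e2 : (4 : ℝ) ^ (m + i) = N ^ 2 := by
      rw [hNd]
      push_cast
      rw [← pow_mul, mul_comm (m + i) 2, pow_mul]
      norm_num
    rw [e2] at h1
    calc (1 / N) ^ 2 * hs2 (P * O) ≤ (1 / N) ^ 2 * (16 ^ i * (N ^ 2 * w (m + i) q p)) :=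
          mul_le_mul_of_nonneg_left h1 (by positivity)
      _ = _ := by field_simp
  by_cases he : Exit al i m q p
  · rw [if_pos he]
    have hDD : hs2 (P * ((1 / N) • D)) ≤ 16 ^ i * w (m + i) q p := by
      rw [Matrix.mul_smul, hs2_smul]
      have h1 := hs2_mis hK hm ha
      have e2 : (4 : ℝ) ^ (m + i) = N ^ 2 := by
        rw [hNd]
        push_cast
        rw [← pow_mul, mul_comm (m + i) 2, pow_mul]
        norm_num
      rw [e2] at h1
      calc (1 / N) ^ 2 * hs2 (P * D) ≤ (1 / N) ^ 2 * (16 ^ i * (N ^ 2 * w (m + i) q p)) :=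
            mul_le_mul_of_nonneg_left h1 (by positivity)
        _ = _ := by field_simp
    have h5 : 2 * (hsn (P * ((1 / N) • O)) * hsn (P * ((1 / N) • D))) ≤
        hs2 (P * ((1 / N) • O)) + hs2 (P * ((1 / N) • D)) := by
      rw [← PotL.hsn_sq, ← PotL.hsn_sq]
      nlinarith [sq_nonneg (hsn (P * ((1 / N) • O)) - hsn (P * ((1 / N) • D)))]
    nlinarith
  · have hD0 : D = 0 := mis_zero ha he
    rw [if_neg he, add_zero]
    rw [hD0, smul_zero, Matrix.mul_zero, PotL.hsn_zero, hs2_zero] at key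
    linarith

end killer

section grams

variable {Q : ℕ} [NeZero Q] {C : Mx Q} {al : ℕ → ZMod Q → ZMod Q → Prop}
  {R : ℕ → ZMod Q → ZMod Q → Mx Q} {w : ℕ → ZMod Q → ZMod Q → ℝ} {k M : ℕ} {n : ℝ}

theorem gr_fl (X : ℕ → Mx Q) {m i : ℕ} (h : 2 ^ (m + i) ≤ Q) (q p : ZMod Q) :
    gr (2 ^ m) (fl X m) i i q p = (1 / ((2 ^ (m + i) : ℕ) : ℝ) ^ 2) •
      ((box (X m) (2 ^ (m + i)) q p)ᵀ * box (X m) (2 ^ (m + i)) q p) := by
  have e : 2 ^ (m + i) = 2 ^ i * 2 ^ m := by rw [pow_add, mul_comm]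
  rw [gr_AB (CR371y.fl_sup X m).2 (e ▸ h), AB_fl X m i h, e]

theorem gr_fl0 (X : ℕ → Mx Q) {m : ℕ} (h : 2 ^ m ≤ Q) (q p : ZMod Q) :
    gr (2 ^ m) (fl X m) 0 0 q p = (1 / ((2 ^ m : ℕ) : ℝ) ^ 2) •
      ((box (X m) (2 ^ m) q p)ᵀ * box (X m) (2 ^ m) q p) :=
  gr_fl X (i := 0) h q p

theorem gr_kl (hK : Kil C al R w k M n) {m i : ℕ} (h : 2 ^ (m + i) ≤ Q) (q p : ZMod Q) :
    gr (2 ^ m) (trL (kl C al R m)) i i q p = (1 / ((2 ^ (m + i) : ℕ) : ℝ) ^ 2) •
      (AB (2 ^ m) i (kl C al R m) p q * (AB (2 ^ m) i (kl C al R m) p q)ᵀ) := by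
  have e : 2 ^ (m + i) = 2 ^ i * 2 ^ m := by rw [pow_add, mul_comm]
  rw [gr_AB (trL_RSup (kl_CSup hK m)) (e ▸ h), AB_trL, transpose_transpose, e]

theorem gr_kl0 (hK : Kil C al R w k M n) {m : ℕ} (h : 2 ^ m ≤ Q) (q p : ZMod Q) :
    gr (2 ^ m) (trL (kl C al R m)) 0 0 q p = (1 / ((2 ^ m : ℕ) : ℝ) ^ 2) •
      (kl C al R m p q * (kl C al R m p q)ᵀ) := by
  have := gr_kl hK (i := 0) h q p
  rw [AB_zero] at this
  exact this

/-- the new band is fixed by the window projection -/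
theorem box_fix {X : ℕ → Mx Q} (hfix : FixB R X M 8) (hsupp : ∀ m q p u v, R m q p u v ≠ 0 →
    win (2 ^ m) q u ∧ win (2 ^ m) q v) {m : ℕ} (hm : m < M) (hQ : 2 ^ m ≤ Q) {q p q' : ZMod Q}
    {t : ℤ} (ht : |t| ≤ 7 * 2 ^ m) (hq : q = -p - q' + (t : ZMod Q)) :
    box (X m) (2 ^ m) q p * R m p q' = box (X m) (2 ^ m) q p := by
  ext x y
  rw [Matrix.mul_apply, box_apply]
  by_cases hx : win (2 ^ m) q x
  swap
  · have h0 : ind (2 ^ m) q x = 0 := if_neg hx
    rw [h0, zero_mul, zero_mul]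
    refine Finset.sum_eq_zero fun u _ => ?_
    rw [box_apply, h0, zero_mul, zero_mul, zero_mul]
  have h1 : ind (2 ^ m) q x = 1 := if_pos hx
  have h2 : ∀ u, box (X m) (2 ^ m) q p x u * R m p q' u y = X m x u * R m p q' u y := by
    intro u
    rw [box_apply, h1, one_mul]
    by_cases hu : R m p q' u y = 0
    · rw [hu, mul_zero, mul_zero]
    · have h3 : ind (2 ^ m) p u = 1 := if_pos (hsupp m p q' u y hu).1
      rw [h3, mul_one]
  rw [Finset.sum_congr rfl fun u _ => h2 u, h1, one_mul]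
  by_cases hy : win (2 ^ m) p y
  · have h4 : ind (2 ^ m) p y = 1 := if_pos hy
    rw [h4, mul_one]
    refine hfix m hm x p q' ⟨t + ((x - q).val : ℤ), ?_, ?_⟩ y hy
    · have hx' : (x - q).val < 2 ^ m := hx
      have hx2 : ((x - q).val : ℤ) < 2 ^ m := by exact_mod_cast hx'
      have hx3 : (0 : ℤ) ≤ ((x - q).val : ℤ) := Int.natCast_nonneg _
      rw [abs_le] at ht ⊢
      push_cast
      constructor <;> omega
    · push_cast
      rw [ZMod.natCast_zmod_val]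
      rw [show -p - q' + ((t : ZMod Q) + (x - q)) = (-p - q' + (t : ZMod Q)) + (x - q) by ring,
        ← hq]
      ring
  · have h4 : ind (2 ^ m) p y = 0 := if_neg hy
    rw [h4, mul_zero]
    refine Finset.sum_eq_zero fun u _ => ?_
    have : R m p q' u y = 0 := by
      by_contra h
      exact hy (hsupp m p q' u y h).2
    rw [this, mul_zero]

theorem opn_fl {X : ℕ → Mx Q} (hF : Fl k M n X) {m i : ℕ} (hi : i ≤ k) (hm : m + i < M)
    (q p : ZMod Q) : Opn (((2 ^ (m + i) : ℕ) : ℝ)) (box (X m) (2 ^ (m + i)) q p) := by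
  have := opn_of (hF.op m i hi hm q p)
  push_cast
  exact this

open Classical in
/-- exit price -/
noncomputable def ep (al : ℕ → ZMod Q → ZMod Q → Prop) (w : ℕ → ZMod Q → ZMod Q → ℝ) (i m : ℕ)
    (q p : ZMod Q) : ℝ := if Exit al i m q p then w (m + i) q p else 0

open Classical in
/-- **joint step in one pair of windows** -/
theorem joint_pt {X : ℕ → Mx Q} (hF : Fl k M n X) (hK : Kil C al R w k M n)
    (hfix : FixB R X M 8) {m i : ℕ} (hi : i ≤ k) (hm : m + i < M) (hQ : 2 ^ (m + i) ≤ Q)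
    {q p q' : ZMod Q} {v : ℝ} (hv : TrN (box (X (m + i)) (2 ^ (m + i)) q p -
      box (X m) (2 ^ (m + i)) q p) (2 ^ (m + i) * v)) {t : ℤ} (ht : |t| ≤ 7 * 2 ^ (m + i))
    (hq : q = -p - q' + (t : ZMod Q)) :
    phi (gr (2 ^ (m + i)) (fl X (m + i)) 0 0 q p +
        gr (2 ^ (m + i)) (trL (kl C al R (m + i))) 0 0 q' p) ≤
      phi (gr (2 ^ m) (fl X m) i i q p + gr (2 ^ m) (trL (kl C al R m)) i i q' p) +
        3 * (1 + 2 ^ i) * v + 9 * 16 ^ i * ep al w i m p q' := by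
  rw [gr_fl0 X hQ, gr_kl0 hK hQ, gr_fl X hQ, gr_kl hK hQ]
  set N : ℕ := 2 ^ (m + i) with hNd
  have hN : 0 < N := by positivity
  have hNr : (0 : ℝ) < (N : ℝ) := by exact_mod_cast hN
  set A := box (X (m + i)) N q p with hA
  set A' := box (X m) N q p with hA'
  set O := AB (2 ^ m) i (kl C al R m) p q' with hO
  have hAo : Opn (N : ℝ) A := by
    exact opn_fl hF (m := m + i) (i := 0) (Nat.zero_le _) (by omega) q p
  have hG : ((1 / (N : ℝ) ^ 2) • (Aᵀ * A)).PosSemidef := (psd_gram A).smul (by positivity)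
  have hG1 : ∀ v, v ⬝ᵥ (((1 / (N : ℝ) ^ 2) • (Aᵀ * A)) *ᵥ v) ≤ v ⬝ᵥ v := by
    intro v
    rw [smul_mulVec, dotProduct_smul, smul_eq_mul]
    calc 1 / (N : ℝ) ^ 2 * (v ⬝ᵥ ((Aᵀ * A) *ᵥ v)) ≤
        1 / (N : ℝ) ^ 2 * ((N : ℝ) ^ 2 * (v ⬝ᵥ v)) :=
          mul_le_mul_of_nonneg_left (hAo.gram v) (by positivity)
      _ = _ := by field_simp
  have hfx : R (m + i) p q' * ((1 / (N : ℝ) ^ 2) • (Aᵀ * A)) * R (m + i) p q' =
      (1 / (N : ℝ) ^ 2) • (Aᵀ * A) := by
    have h1 : A * R (m + i) p q' = A := box_fix hfix hK.supp hm hQ ht hq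
    have h2 : R (m + i) p q' * Aᵀ = Aᵀ := by
      have := congrArg transpose h1
      rwa [transpose_mul, (hK.pr (m + i) p q').symm] at this
    rw [Matrix.mul_smul, Matrix.smul_mul, ← Matrix.mul_assoc, h2, Matrix.mul_assoc, h1]
  have s1 := kil_step hK hm hQ p q' hG hG1 fun _ => hfx
  have hb : ((1 / (N : ℝ) ^ 2) • (O * Oᵀ)).PosSemidef :=
    (CRex250.psd_mt O).smul (by positivity)
  have hb' : ∀ v, v ⬝ᵥ (((1 / (N : ℝ) ^ 2) • (O * Oᵀ)) *ᵥ v) ≤ (2 ^ i) ^ 2 * (v ⬝ᵥ v) := by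
    intro v
    have h1 := ((opn_AB hK (m := m) (i := i) (by omega) p q').tr).gram v
    rw [transpose_transpose] at h1
    rw [smul_mulVec, dotProduct_smul, smul_eq_mul]
    calc 1 / (N : ℝ) ^ 2 * (v ⬝ᵥ ((O * Oᵀ) *ᵥ v)) ≤
        1 / (N : ℝ) ^ 2 * ((2 ^ i * (N : ℝ)) ^ 2 * (v ⬝ᵥ v)) :=
          mul_le_mul_of_nonneg_left h1 (by positivity)
      _ = _ := by field_simp
  have hv' : TrN (A - A') ((N : ℝ) * v) := by
    have e : (N : ℝ) = 2 ^ (m + i) := by rw [hNd]; push_cast; ring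
    rw [e]
    exact hv
  have s2 := phi_mv hN hb (β := 2 ^ i) (by positivity) hAo hb' hv'
  have e1 : (if Exit al i m p q' then 9 * 16 ^ i * w (m + i) p q' else 0) =
      9 * 16 ^ i * ep al w i m p q' := by
    unfold ep
    split_ifs
    · rfl
    · rw [mul_zero]
  rw [e1] at s1
  have c1 : (1 / (N : ℝ) ^ 2) • (Aᵀ * A) + (1 / (N : ℝ) ^ 2) • (kl C al R (m + i) p q' *
      (kl C al R (m + i) p q')ᵀ) = (1 / (N : ℝ) ^ 2) • (kl C al R (m + i) p q' *
      (kl C al R (m + i) p q')ᵀ) + (1 / (N : ℝ) ^ 2) • (Aᵀ * A) := add_comm _ _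
  have c2 : (1 / (N : ℝ) ^ 2) • (Aᵀ * A) + (1 / (N : ℝ) ^ 2) • (O * Oᵀ) =
      (1 / (N : ℝ) ^ 2) • (O * Oᵀ) + (1 / (N : ℝ) ^ 2) • (Aᵀ * A) := add_comm _ _
  rw [c1]
  rw [c2] at s2
  linarith

/-- own step of the function letter -/
theorem own_fl {X : ℕ → Mx Q} (hF : Fl k M n X) {m i : ℕ} (hi : i ≤ k) (hm : m + i < M)
    (hQ : 2 ^ (m + i) ≤ Q) {q p : ZMod Q} {v : ℝ} (hv : TrN (box (X (m + i)) (2 ^ (m + i)) q p -
      box (X m) (2 ^ (m + i)) q p) (2 ^ (m + i) * v)) :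
    phi (gr (2 ^ (m + i)) (fl X (m + i)) 0 0 q p) ≤ phi (gr (2 ^ m) (fl X m) i i q p) + 3 * v := by
  rw [gr_fl0 X hQ, gr_fl X hQ]
  set N : ℕ := 2 ^ (m + i) with hNd
  have hN : 0 < N := by positivity
  have hAo : Opn (N : ℝ) (box (X (m + i)) N q p) := by
    exact opn_fl hF (m := m + i) (i := 0) (Nat.zero_le _) (by omega) q p
  have hv' : TrN (box (X (m + i)) N q p - box (X m) N q p) ((N : ℝ) * v) := by
    have e : (N : ℝ) = 2 ^ (m + i) := by rw [hNd]; push_cast; ring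
    rw [e]
    exact hv
  have s := phi_mv hN (b := (0 : Mx Q)) PosSemidef.zero (β := 0) le_rfl hAo
    (fun v => by rw [zero_mulVec, dotProduct_zero]; simp) hv'
  rw [add_zero, add_zero, add_zero, mul_one] at s
  exact s

/-- own step of the killer -/
theorem own_kl (hK : Kil C al R w k M n) {m i : ℕ} (hm : m + i < M)
    (hQ : 2 ^ (m + i) ≤ Q) (q' p : ZMod Q) :
    phi (gr (2 ^ (m + i)) (trL (kl C al R (m + i))) 0 0 q' p) ≤
      phi (gr (2 ^ m) (trL (kl C al R m)) i i q' p) + 9 * 16 ^ i * ep al w i m p q' := by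
  rw [gr_kl0 hK hQ, gr_kl hK hQ]
  have s := kil_step hK hm hQ p q' (G := (0 : Mx Q)) PosSemidef.zero
    (fun v => by rw [zero_mulVec, dotProduct_zero]; exact dsn v) (fun _ => by simp)
  rw [add_zero, add_zero] at s
  refine s.trans (le_of_eq ?_)
  unfold ep
  split_ifs
  · rfl
  · rw [mul_zero]

end grams

section sums

variable {Q : ℕ} [NeZero Q] {C : Mx Q} {al : ℕ → ZMod Q → ZMod Q → Prop}
  {R : ℕ → ZMod Q → ZMod Q → Mx Q} {w : ℕ → ZMod Q → ZMod Q → ℝ} {k M : ℕ} {n : ℝ}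

theorem bl_blk {f g : ZMod Q → ℝ} {N : ℕ} (hN : 0 < N) (l : ℤ) (c : ℝ)
    (h : ∀ i < N, f ((l : ZMod Q) * (N : ZMod Q) + (i : ZMod Q)) ≤
      g ((l : ZMod Q) * (N : ZMod Q) + (i : ZMod Q)) + c) : bl f N l ≤ bl g N l + c := by
  have hN' : (0 : ℝ) < N := by exact_mod_cast hN
  unfold bl
  have h1 : ∑ i ∈ range N, f ((l : ZMod Q) * (N : ZMod Q) + (i : ZMod Q)) ≤
      ∑ i ∈ range N, (g ((l : ZMod Q) * (N : ZMod Q) + (i : ZMod Q)) + c) :=
    Finset.sum_le_sum fun i hi => h i (Finset.mem_range.1 hi)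
  rw [Finset.sum_add_distrib, Finset.sum_const, Finset.card_range, nsmul_eq_mul] at h1
  have h2 := mul_le_mul_of_nonneg_left h1 (by positivity : (0 : ℝ) ≤ 1 / N)
  refine h2.trans (le_of_eq ?_)
  rw [mul_add]
  congr 1
  field_simp

theorem ep_nonneg (hK : Kil C al R w k M n) (i m : ℕ) (q p : ZMod Q) : 0 ≤ ep al w i m q p := by
  unfold ep
  split_ifs
  · exact hK.w0 _ _ _
  · exact le_rfl

/-- joint step between two consecutive scales -/
theorem VJ_step {X : ℕ → Mx Q} (hF : Fl k M n X) (hK : Kil C al R w k M n)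
    (hfix : FixB R X M 8) {m : ℕ} (hk : 1 ≤ k) (hm : m + 1 < M) (hQ : 2 ^ (m + 1) ≤ Q)
    {v : ZMod Q → ZMod Q → ℝ} (hv : ∀ q p, TrN (box (X (m + 1)) (2 ^ (m + 1)) q p -
      box (X m) (2 ^ (m + 1)) q p) (2 ^ (m + 1) * v q p)) :
    VJ (fl X) (fun m => trL (kl C al R m)) (m + 1) 0 ≤
      VJ (fl X) (fun m => trL (kl C al R m)) m 1 +
        (9 * ∑ q, ∑ p, v q p + 144 * ∑ q, ∑ p, ep al w 1 m q p) := by
  unfold VJ VV
  have e0 : 2 ^ 0 * 2 ^ (m + 1) = 2 ^ (m + 1) := by ring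
  have e1 : 2 ^ 1 * 2 ^ m = 2 ^ (m + 1) := by ring
  rw [e0, e1]
  have hN : 0 < 2 ^ (m + 1) := by positivity
  refine bl_blk hN (-2) _ fun i0 hi0 => ?_
  set T : ZMod Q := ((-2 : ℤ) : ZMod Q) * ((2 ^ (m + 1) : ℕ) : ZMod Q) + (i0 : ZMod Q) with hT
  have hTz : T = ((-2 * 2 ^ (m + 1) + i0 : ℤ) : ZMod Q) := by
    rw [hT]; push_cast; ring
  have hb : |(-2 * 2 ^ (m + 1) + i0 : ℤ)| ≤ 7 * 2 ^ (m + 1) := by
    have h1 : (i0 : ℤ) < 2 ^ (m + 1) := by exact_mod_cast hi0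
    have h2 : (0 : ℤ) ≤ (i0 : ℤ) := Int.natCast_nonneg _
    rw [abs_le]
    constructor <;> omega
  have hpt : ∀ p q : ZMod Q,
      phi (gr (2 ^ (m + 1)) (fl X (m + 1)) 0 0 q p +
        gr (2 ^ (m + 1)) (trL (kl C al R (m + 1))) 0 0 (T - p - q) p) ≤
      phi (gr (2 ^ m) (fl X m) 1 1 q p + gr (2 ^ m) (trL (kl C al R m)) 1 1 (T - p - q) p) +
        9 * v q p + 144 * ep al w 1 m p (T - p - q) := by
    intro p q
    have h := joint_pt hF hK hfix hk hm hQ (q := q) (p := p) (q' := T - p - q) (hv q p) hb (by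
      rw [← hTz]; ring)
    norm_num at h
    linarith
  have hsum : ∑ p : ZMod Q, ∑ q : ZMod Q, ep al w 1 m p (T - p - q) =
      ∑ q, ∑ p, ep al w 1 m q p := by
    refine Finset.sum_congr rfl fun p _ => ?_
    exact Equiv.sum_comp (Equiv.subLeft (T - p)) (fun q => ep al w 1 m p q)
  have hv' : ∑ p : ZMod Q, ∑ q : ZMod Q, v q p = ∑ q, ∑ p, v q p := Finset.sum_comm
  unfold WW
  refine (Finset.sum_le_sum fun p _ => Finset.sum_le_sum fun q _ => hpt p q).trans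
    (le_of_eq ?_)
  simp only [Finset.sum_add_distrib, ← Finset.mul_sum]
  rw [hsum, hv']
  ring

/-- own step between the scales `m` and `m + i` -/
theorem VO_step {X : ℕ → Mx Q} (hF : Fl k M n X) (hK : Kil C al R w k M n)
    {m i : ℕ} (hi : i ≤ k) (hm : m + i < M) (hQ : 2 ^ (m + i) ≤ Q)
    {v : ZMod Q → ZMod Q → ℝ} (hv : ∀ q p, TrN (box (X (m + i)) (2 ^ (m + i)) q p -
      box (X m) (2 ^ (m + i)) q p) (2 ^ (m + i) * v q p)) :
    VO (fl X) (fun m => trL (kl C al R m)) (m + i) 0 ≤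
      VO (fl X) (fun m => trL (kl C al R m)) m i +
        (3 * ∑ q, ∑ p, v q p + 9 * 16 ^ i * ∑ q, ∑ p, ep al w i m q p) := by
  unfold VO EB EO
  have h1 : ∑ p : ZMod Q, ∑ q : ZMod Q, phi (gr (2 ^ (m + i)) (fl X (m + i)) 0 0 q p) ≤
      ∑ p : ZMod Q, ∑ q : ZMod Q, (phi (gr (2 ^ m) (fl X m) i i q p) + 3 * v q p) :=
    Finset.sum_le_sum fun p _ => Finset.sum_le_sum fun q _ => own_fl hF hi hm hQ (hv q p)
  have h2 : ∑ p : ZMod Q, ∑ q : ZMod Q,
      phi (gr (2 ^ (m + i)) (trL (kl C al R (m + i))) 0 0 q p) ≤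
      ∑ p : ZMod Q, ∑ q : ZMod Q, (phi (gr (2 ^ m) (trL (kl C al R m)) i i q p) +
        9 * 16 ^ i * ep al w i m p q) :=
    Finset.sum_le_sum fun p _ => Finset.sum_le_sum fun q _ => own_kl hK hm hQ q p
  simp only [Finset.sum_add_distrib, ← Finset.mul_sum] at h1 h2
  have hv' : ∑ p : ZMod Q, ∑ q : ZMod Q, v q p = ∑ q, ∑ p, v q p := Finset.sum_comm
  rw [hv'] at h1
  linarith

/-! ### bottom values -/

theorem sum_ind {N : ℕ} (hN : N ≤ Q) (x : ZMod Q) : ∑ q : ZMod Q, ind N q x = N := by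
  have h1 : ∑ q : ZMod Q, ind N q x = ∑ d : ZMod Q, ind N 0 d := by
    rw [← Equiv.sum_comp (Equiv.subLeft x) (fun d => ind N 0 d)]
    refine Finset.sum_congr rfl fun q _ => ?_
    unfold ind
    rw [Equiv.subLeft_apply, sub_zero]
  have h2 := sum_win hN (0 : ZMod Q) (fun _ => (1 : ℝ))
  simp only [mul_one] at h2
  rw [h1, h2, Finset.sum_const, Finset.card_univ, Fintype.card_fin, nsmul_eq_mul, mul_one]

theorem sum_hs_box {N : ℕ} (hN : N ≤ Q) (F : Mx Q) :
    ∑ q, ∑ p, hs2 (box F N q p) = (N : ℝ) ^ 2 * ∑ x, ∑ y, F x y ^ 2 := by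
  have h1 : ∀ q p, hs2 (box F N q p) = ∑ x, ∑ y, ind N q x * ind N p y * F x y ^ 2 := by
    intro q p
    unfold hs2
    refine Finset.sum_congr rfl fun x _ => Finset.sum_congr rfl fun y _ => ?_
    rw [box_apply]
    have a := ind_sq N q x
    have b := ind_sq N p y
    calc (ind N q x * F x y * ind N p y) ^ 2 =
        (ind N q x * ind N q x) * (ind N p y * ind N p y) * F x y ^ 2 := by ring
      _ = _ := by rw [a, b]
  simp only [h1]
  rw [Finset.sum_congr rfl fun q _ => Finset.sum_comm, Finset.sum_comm, Finset.mul_sum]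
  refine Finset.sum_congr rfl fun x _ => ?_
  rw [Finset.sum_congr rfl fun q _ => Finset.sum_comm, Finset.sum_comm, Finset.mul_sum]
  refine Finset.sum_congr rfl fun y _ => ?_
  have e : ∑ q, ∑ p, ind N q x * ind N p y * F x y ^ 2 =
      (∑ q, ind N q x) * (∑ p, ind N p y) * F x y ^ 2 := by
    rw [Finset.sum_mul_sum]
    simp only [Finset.sum_mul]
  rw [e, sum_ind hN, sum_ind hN]
  ring

open Classical in
theorem hs_kl (hK : Kil C al R w k M n) {m : ℕ} (hm : m < M) (q p : ZMod Q) :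
    hs2 (kl C al R m q p) ≤ 4 ^ m * (if al m q p then w m q p else 0) := by
  unfold kl
  split_ifs with ha
  · have h := hK.hs m 0 (by omega) q p ha 0 (by norm_num) 0 (by norm_num)
    have e : (st m 0 : ZMod Q) = 0 := by unfold st; simp
    simp only [e, add_zero] at h
    exact h
  · rw [hs2_zero, mul_zero]

open Classical in
theorem sum_hs_kl (hK : Kil C al R w k M n) {m : ℕ} (hm : m < M) :
    ∑ q, ∑ p, hs2 (kl C al R m q p) ≤ 4 ^ m * n := by
  refine (Finset.sum_le_sum fun q _ => Finset.sum_le_sum fun p _ => hs_kl hK hm q p).trans ?_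
  simp only [← Finset.mul_sum]
  exact mul_le_mul_of_nonneg_left (hK.sw m hm) (by positivity)

theorem phi_own_fl {X : ℕ → Mx Q} (hF : Fl k M n X) {m : ℕ} (hm : m < M) (hQ : 2 ^ m ≤ Q)
    (q p : ZMod Q) {b : Mx Q} (hb : b.PosSemidef) (hb' : ∀ v, v ⬝ᵥ (b *ᵥ v) ≤ 1 ^ 2 * (v ⬝ᵥ v)) :
    phi (gr (2 ^ m) (fl X m) 0 0 q p + b) ≤
      2 * (1 / 4 ^ m * hs2 (box (X m) (2 ^ m) q p) + b.trace) := by
  rw [gr_fl0 X hQ]
  have hAo : Opn (((2 ^ m : ℕ) : ℝ)) (box (X m) (2 ^ m) q p) :=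
    opn_fl hF (m := m) (i := 0) (Nat.zero_le _) (by omega) q p
  have h := phi_bot (N := 2 ^ m) (by positivity) hb zero_le_one hAo hb'
  refine h.trans (le_of_eq ?_)
  have e : (((2 ^ m : ℕ) : ℝ)) ^ 2 = 4 ^ m := by
    push_cast
    rw [← pow_mul, mul_comm m 2, pow_mul]
    norm_num
  rw [e]
  norm_num

/-- `Z Zᵀ` version of the bottom value -/
theorem kl_quad (hK : Kil C al R w k M n) {m : ℕ} (hm : m < M) (hQ : 2 ^ m ≤ Q) (q p : ZMod Q)
    (v : ZMod Q → ℝ) : v ⬝ᵥ (gr (2 ^ m) (trL (kl C al R m)) 0 0 q p *ᵥ v) ≤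
      1 ^ 2 * (v ⬝ᵥ v) := by
  rw [gr_kl0 hK hQ, smul_mulVec, dotProduct_smul, smul_eq_mul]
  have h1 := ((opn_kl hK hm p q).tr).gram v
  rw [transpose_transpose] at h1
  have hN : (0 : ℝ) < ((2 ^ m : ℕ) : ℝ) := by positivity
  calc 1 / ((2 ^ m : ℕ) : ℝ) ^ 2 * (v ⬝ᵥ ((kl C al R m p q * (kl C al R m p q)ᵀ) *ᵥ v)) ≤
      1 / ((2 ^ m : ℕ) : ℝ) ^ 2 * (((2 ^ m : ℕ) : ℝ) ^ 2 * (v ⬝ᵥ v)) :=
        mul_le_mul_of_nonneg_left h1 (by positivity)
    _ = _ := by field_simp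

theorem kl_trace (hK : Kil C al R w k M n) {m : ℕ} (hQ : 2 ^ m ≤ Q) (q p : ZMod Q) :
    (gr (2 ^ m) (trL (kl C al R m)) 0 0 q p).trace = 1 / 4 ^ m * hs2 (kl C al R m p q) := by
  rw [gr_kl0 hK hQ, trace_smul, smul_eq_mul, hs2_eq]
  congr 2
  push_cast
  rw [← pow_mul, mul_comm m 2, pow_mul]
  norm_num

theorem phi_own_kl (hK : Kil C al R w k M n) {m : ℕ} (hm : m < M) (hQ : 2 ^ m ≤ Q) (q p : ZMod Q) :
    phi (gr (2 ^ m) (trL (kl C al R m)) 0 0 q p) ≤ 1 / 4 ^ m * hs2 (kl C al R m p q) := by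
  have hM := gr_psd (2 ^ m) (trL (kl C al R m)) 0 0 q p
  have h := CR371.phi_le_of_le hM zero_le_one (by
    rw [posSemidef_iff_dotProduct_mulVec]
    refine ⟨?_, fun v => ?_⟩
    · exact ((isHermitian_one (α := ℝ) (n := ZMod Q)).smul (IsSelfAdjoint.all _)).sub
        hM.isHermitian
    · rw [sub_mulVec, dotProduct_sub, smul_mulVec, one_mulVec, dotProduct_smul, smul_eq_mul,
        star_trivial]
      have := kl_quad hK hm hQ q p v
      linarith)
  rw [Real.sqrt_one, one_mul, kl_trace hK hQ] at h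
  exact h

theorem VO_bot {X : ℕ → Mx Q} (hF : Fl k M n X) (hK : Kil C al R w k M n) {m : ℕ} (hm : m < M)
    (hQ : 2 ^ m ≤ Q) : VO (fl X) (fun m => trL (kl C al R m)) m 0 ≤ 3 * n := by
  unfold VO EB EO
  have h4 : (0 : ℝ) < 4 ^ m := by positivity
  have h1 : ∑ p : ZMod Q, ∑ q : ZMod Q, phi (gr (2 ^ m) (fl X m) 0 0 q p) ≤ 2 * n := by
    have hpt : ∀ p q : ZMod Q, phi (gr (2 ^ m) (fl X m) 0 0 q p) ≤
        2 * (1 / 4 ^ m * hs2 (box (X m) (2 ^ m) q p)) := by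
      intro p q
      have h := phi_own_fl hF hm hQ q p (b := 0) PosSemidef.zero
        (fun v => by rw [zero_mulVec, dotProduct_zero, one_pow, one_mul]; exact dsn v)
      rw [add_zero, trace_zero, add_zero] at h
      exact h
    refine (Finset.sum_le_sum fun p _ => Finset.sum_le_sum fun q _ => hpt p q).trans ?_
    simp only [← Finset.mul_sum]
    rw [Finset.sum_comm, sum_hs_box hQ]
    have e : (((2 ^ m : ℕ) : ℝ)) ^ 2 = 4 ^ m := by
      push_cast
      rw [← pow_mul, mul_comm m 2, pow_mul]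
      norm_num
    rw [e, ← mul_assoc (1 / (4 : ℝ) ^ m), one_div_mul_cancel h4.ne', one_mul]
    have := hF.en m hm
    linarith
  have h2 : ∑ p : ZMod Q, ∑ q : ZMod Q, phi (gr (2 ^ m) (trL (kl C al R m)) 0 0 q p) ≤ n := by
    refine (Finset.sum_le_sum fun p _ => Finset.sum_le_sum fun q _ =>
      phi_own_kl hK hm hQ q p).trans ?_
    simp only [← Finset.mul_sum]
    have h3 := sum_hs_kl hK hm
    calc 1 / 4 ^ m * ∑ p, ∑ q, hs2 (kl C al R m p q) ≤ 1 / 4 ^ m * (4 ^ m * n) :=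
          mul_le_mul_of_nonneg_left h3 (by positivity)
      _ = n := by rw [← mul_assoc, one_div_mul_cancel h4.ne', one_mul]
  linarith

theorem VJ_bot {X : ℕ → Mx Q} (hF : Fl k M n X) (hK : Kil C al R w k M n) (hM : 0 < M) :
    VJ (fl X) (fun m => trL (kl C al R m)) 0 0 ≤ 4 * n := by
  have hQ1 : 2 ^ 0 ≤ Q := by
    rw [pow_zero]
    exact Nat.one_le_iff_ne_zero.2 (NeZero.ne Q)
  unfold VJ VV
  have e0 : 2 ^ 0 * 2 ^ 0 = 1 := by norm_num
  rw [e0]
  have h := bl_blk (f := WW (gr (2 ^ 0) (fl X 0)) (gr (2 ^ 0) (trL (kl C al R 0))) 0 0)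
    (g := fun _ => (0 : ℝ)) (N := 1) one_pos (-2) (4 * n) fun i hi => by
      generalize ((-2 : ℤ) : ZMod Q) * ((1 : ℕ) : ZMod Q) + (i : ZMod Q) = T
      unfold WW
      have hpt : ∀ p q : ZMod Q, phi (gr (2 ^ 0) (fl X 0) 0 0 q p +
          gr (2 ^ 0) (trL (kl C al R 0)) 0 0 (T - p - q) p) ≤
          2 * (hs2 (box (X 0) (2 ^ 0) q p) + hs2 (kl C al R 0 p (T - p - q))) := by
        intro p q
        have h := phi_own_fl hF hM hQ1 q p (gr_psd _ _ _ _ (T - p - q) p)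
          (fun v => kl_quad hK hM hQ1 (T - p - q) p v)
        rw [kl_trace hK hQ1] at h
        refine h.trans (le_of_eq ?_)
        norm_num
      refine (Finset.sum_le_sum fun p _ => Finset.sum_le_sum fun q _ => hpt p q).trans ?_
      simp only [← Finset.mul_sum, Finset.sum_add_distrib]
      have h1 : ∑ p : ZMod Q, ∑ q : ZMod Q, hs2 (box (X 0) (2 ^ 0) q p) ≤ n := by
        rw [Finset.sum_comm, sum_hs_box hQ1]
        have := hF.en 0 hM
        norm_num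
        exact this
      have h2 : ∑ p : ZMod Q, ∑ q : ZMod Q, hs2 (kl C al R 0 p (T - p - q)) ≤ n := by
        have e : ∑ p : ZMod Q, ∑ q : ZMod Q, hs2 (kl C al R 0 p (T - p - q)) =
            ∑ p, ∑ q, hs2 (kl C al R 0 p q) := by
          refine Finset.sum_congr rfl fun p _ => ?_
          exact Equiv.sum_comp (Equiv.subLeft (T - p)) (fun q => hs2 (kl C al R 0 p q))
        rw [e]
        have := sum_hs_kl hK hM
        rw [pow_zero, one_mul] at this
        exact this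
      rw [zero_add]
      linarith
  refine h.trans (le_of_eq ?_)
  unfold bl
  simp

end sums

/-- **(L5-2)** -/
theorem vert2 : Vert2 := by
  classical
  intro k hk
  refine ⟨16 + 4 * 153 + 192 * k + 64 * (3 + 9 * 16 ^ k), by positivity, ?_⟩
  intro Q _ M M' n X C al R w hQ hM hF hK hfix
  have hQ0 : 0 < Q := Nat.pos_of_ne_zero (NeZero.ne Q)
  have hQm : ∀ m, m ≤ M → 2 ^ m ≤ Q := fun m hm =>
    (Nat.pow_le_pow_right (by norm_num) hm).trans (Nat.le_of_dvd hQ0 hQ)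
  have hn : 0 ≤ n := le_trans (Finset.sum_nonneg fun x _ => Finset.sum_nonneg fun y _ => sq_nonneg _)
    (hF.en 0 (by omega))
  obtain ⟨v1, hv1a, hv1b, hv1c⟩ := hF.mv 1 hk
  obtain ⟨vk, hvka, hvkb, hvkc⟩ := hF.mv k le_rfl
  have hx1 := hK.sx 1 hk
  have hxk := hK.sx k le_rfl
  unfold WP
  -- bottom
  have b1 := VJ_bot hF hK (by omega : 0 < M)
  have b2 : ∑ m ∈ range k, VO (fl X) (fun m => trL (kl C al R m)) m 0 ≤ k * (3 * n) := by
    refine (Finset.sum_le_sum fun m hm => VO_bot hF hK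
      (by have := Finset.mem_range.1 hm; omega) (hQm m (by have := Finset.mem_range.1 hm; omega))).trans
      (le_of_eq ?_)
    rw [Finset.sum_const, Finset.card_range, nsmul_eq_mul]
  -- sums restricted to the scales used
  have rest : ∀ (i M1 : ℕ) (f : ℕ → ZMod Q → ZMod Q → ℝ), (∀ m q p, 0 ≤ f m q p) →
      M1 + i < M + 1 → ∑ m ∈ range M, ∑ q : ZMod Q, ∑ p : ZMod Q,
        (if m + i < M then f m q p else 0) ≤ n →
      (∀ m < M1, m + i < M) → ∑ m ∈ range M1, ∑ q : ZMod Q, ∑ p : ZMod Q, f m q p ≤ n := by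
    intro i M1 f hf h1 h2 h3
    refine le_trans ?_ h2
    have e : ∀ m ∈ range M1, ∑ q : ZMod Q, ∑ p : ZMod Q, f m q p = ∑ q : ZMod Q, ∑ p : ZMod Q,
        (if m + i < M then f m q p else 0) := by
      intro m hm
      have := h3 m (Finset.mem_range.1 hm)
      simp only [if_pos this]
    rw [Finset.sum_congr rfl e]
    refine Finset.sum_le_sum_of_subset_of_nonneg (Finset.range_subset_range.2 (by omega)) ?_
    intro m _ _
    refine Finset.sum_nonneg fun q _ => Finset.sum_nonneg fun p _ => ?_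
    split_ifs
    · exact hf m q p
    · exact le_rfl
  have exr : ∀ (i M1 : ℕ), M1 + i < M + 1 → (∑ m ∈ range M, ∑ q : ZMod Q, ∑ p : ZMod Q,
      (if m + i < M ∧ Exit al i m q p then w (m + i) q p else 0) ≤ n) →
      (∀ m < M1, m + i < M) → ∑ m ∈ range M1, ∑ q : ZMod Q, ∑ p : ZMod Q, ep al w i m q p ≤ n := by
    intro i M1 h1 h2 h3
    refine rest i M1 (fun m => ep al w i m) (fun m q p => ep_nonneg hK i m q p) h1 ?_ h3
    refine le_trans (le_of_eq ?_) h2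
    refine Finset.sum_congr rfl fun m _ => Finset.sum_congr rfl fun q _ =>
      Finset.sum_congr rfl fun p _ => ?_
    unfold ep
    by_cases h4 : m + i < M
    · by_cases h5 : Exit al i m q p
      · rw [if_pos h4, if_pos h5, if_pos ⟨h4, h5⟩]
      · rw [if_pos h4, if_neg h5, if_neg fun h => h5 h.2]
    · rw [if_neg h4, if_neg fun h => h4 h.1]
  -- joint steps
  have j1 : ∑ m ∈ range (M' - 1), (VJ (fl X) (fun m => trL (kl C al R m)) (m + 1) 0 -
      VJ (fl X) (fun m => trL (kl C al R m)) m 1) ≤ 153 * n := by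
    have hst : ∀ m ∈ range (M' - 1), VJ (fl X) (fun m => trL (kl C al R m)) (m + 1) 0 -
        VJ (fl X) (fun m => trL (kl C al R m)) m 1 ≤
        9 * ∑ q, ∑ p, v1 m q p + 144 * ∑ q, ∑ p, ep al w 1 m q p := by
      intro m hm
      have hm' := Finset.mem_range.1 hm
      have := VJ_step hF hK hfix (m := m) hk (by omega) (hQm _ (by omega)) (v := v1 m)
        (fun q p => hv1b m (by omega) q p)
      linarith
    refine (Finset.sum_le_sum hst).trans ?_
    rw [Finset.sum_add_distrib, ← Finset.mul_sum, ← Finset.mul_sum]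
    have r1 := rest 1 (M' - 1) v1 hv1a (by omega) hv1c (fun m hm => by omega)
    have r2 := exr 1 (M' - 1) (by omega) hx1 (fun m hm => by omega)
    linarith
  -- own steps
  have o1 : ∑ m ∈ range (M' - k), (VO (fl X) (fun m => trL (kl C al R m)) (m + k) 0 -
      VO (fl X) (fun m => trL (kl C al R m)) m k) ≤ (3 + 9 * 16 ^ k) * n := by
    have hst : ∀ m ∈ range (M' - k), VO (fl X) (fun m => trL (kl C al R m)) (m + k) 0 -
        VO (fl X) (fun m => trL (kl C al R m)) m k ≤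
        3 * ∑ q, ∑ p, vk m q p + 9 * 16 ^ k * ∑ q, ∑ p, ep al w k m q p := by
      intro m hm
      have hm' := Finset.mem_range.1 hm
      have := VO_step hF hK (m := m) (i := k) le_rfl (by omega) (hQm _ (by omega)) (v := vk m)
        (fun q p => hvkb m (by omega) q p)
      linarith
    refine (Finset.sum_le_sum hst).trans ?_
    rw [Finset.sum_add_distrib, ← Finset.mul_sum, ← Finset.mul_sum]
    have r1 := rest k (M' - k) vk hvka (by omega) hvkc (fun m hm => by omega)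
    have r2 := exr k (M' - k) (by omega) hxk (fun m hm => by omega)
    have h16 : (0 : ℝ) ≤ 9 * 16 ^ k := by positivity
    nlinarith [mul_le_mul_of_nonneg_left r2 h16]
  have e : (16 + 4 * 153 + 192 * (k : ℝ) + 64 * (3 + 9 * 16 ^ k)) * n =
      4 * (4 * n) + 4 * (153 * n) + 64 * (k * (3 * n)) + 64 * ((3 + 9 * 16 ^ k) * n) := by ring
  rw [e]
  linarith

end Crest.Agent.R079.CRv2x87
end

-- ▼ part R079/CRfin_253

/-! R079, RAGGED CORNER (CR): THEOREM `CornerR` (all leaves proved).  helper253. -/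

set_option autoImplicit false

namespace Crest.Agent.R079.CRfinx253

open Crest.Agent.R079.CRdefx253

/-- **the ragged corner** -/
theorem cornerR : CornerR :=
  CRwx253.cornerR_of CRbrx253.existsExtr CRbrx253.extrTriv CRL3bx138.flOfExtr CRdx279.existsSpc
    CRkx279.kilOfSpc CRL4cx138.kilLast CR371y.exact_of CRv0x250.vert0 CRv1x371.vert1 CRv2x87.vert2

end Crest.Agent.R079.CRfinx253
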