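import Crest.Agent.R079.CRdef2_253

-- ▼ part R079/CRw_253
section

/-! R079, RAGGED CORNER (CR), L6: normalised word, mirror, words I, II, last, ladder, `CornerR` from
the leaves L3, L3b, L4, L5, (EX).  helper253. -/

set_option autoImplicit false
set_option linter.unusedVariables false
set_option linter.unusedSectionVars false
set_option linter.unusedSimpArgs false

namespace Crest.Agent.R079.CRwx253

open Matrix Finset Crest.Agent.R072 Crest.Agent.R079.CR371 Crest.Agent.R079.CRdefx253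
open Crest.Agent.R079.PotL (bl cel IsPr hs2 bl_mono bl_add bl_const_mul)
open scoped MatrixOrder

section gen

variable {m n : Type*} [Fintype m] [Fintype n]

theorem OpLe.tr {A : Matrix m n ℝ} {c : ℝ} (h : OpLe A c) : OpLe Aᵀ c := by
  classical
  refine ⟨h.1, fun w => ?_⟩
  have h1 := PotL.F4303.op_transpose (A := Aᵀ) (τ := c) (fun v => ?_) w
  · simpa [mulVec, dotProduct, ← sq] using h1
  · have h2 := h.2 v
    simpa [mulVec, dotProduct, ← sq] using h2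

theorem TrN.tr {E : Matrix m n ℝ} {c : ℝ} (h : TrN E c) : TrN Eᵀ c := by
  intro K hK
  have h1 := h Kᵀ (OpLe.tr hK)
  have e : (K * Eᵀ).trace = (Kᵀ * E).trace := by
    rw [← trace_transpose (K * Eᵀ), transpose_mul, transpose_transpose, trace_mul_comm]
  rw [e]
  exact h1

end gen

variable {Q : ℕ} [NeZero Q]

theorem I1_tr (L : ℕ) (p : ZMod Q) : (I1 L p)ᵀ = I1 L p := by
  unfold I1; rw [diagonal_transpose]

theorem box_tr (F : Mx Q) (L : ℕ) (q p : ZMod Q) : box Fᵀ L q p = (box F L p q)ᵀ := by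
  unfold CRdefx253.box
  rw [transpose_mul, transpose_mul, I1_tr, I1_tr, Matrix.mul_assoc]

theorem box_apply (F : Mx Q) (L : ℕ) (q p x y : ZMod Q) :
    box F L q p x y = if win L q x ∧ win L p y then F x y else 0 := by
  unfold CRdefx253.box I1
  rw [mul_diagonal, diagonal_mul]
  by_cases h1 : win L q x <;> by_cases h2 : win L p y <;> simp [h1, h2]

theorem box_smul (c : ℝ) (F : Mx Q) (L : ℕ) (q p : ZMod Q) : box (c • F) L q p = c • box F L q p := by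
  ext x y
  rw [box_apply, Matrix.smul_apply, Matrix.smul_apply, box_apply]
  split_ifs <;> simp


/-- function letters are symmetric -/
theorem Fl.tr {k M : ℕ} {n : ℝ} {X : ℕ → Mx Q} (h : Fl k M n X) : Fl k M n (fun m => (X m)ᵀ) := by
  refine ⟨fun m k' hk hm q p => ?_, fun k' hk => ?_, fun m hm => ?_⟩
  · rw [box_tr]
    exact OpLe.tr (h.op m k' hk hm p q)
  · obtain ⟨v, v0, h1, h2⟩ := h.mv k' hk
    refine ⟨fun m q p => v m p q, fun m q p => v0 m p q, fun m hm q p => ?_, ?_⟩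
    · rw [box_tr, box_tr, ← transpose_sub]
      exact TrN.tr (h1 m hm p q)
    · refine le_trans (le_of_eq ?_) h2
      exact Finset.sum_congr rfl fun m _ => Finset.sum_comm
  · refine le_trans (le_of_eq ?_) (h.en m hm)
    exact Finset.sum_comm

theorem trL_fl (X : ℕ → Mx Q) (m : ℕ) : trL (fl X m) = fl (fun m => (X m)ᵀ) m := by
  funext q p
  unfold trL fl
  rw [box_tr]

theorem fl_Sup (X : ℕ → Mx Q) (m : ℕ) : Sup (2 ^ m) (fl X m) := by
  constructor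
  · intro q p x y hy
    unfold fl
    rw [box_apply, if_neg]
    rintro ⟨_, h⟩
    unfold win at h
    omega
  · intro q p x y hx
    unfold fl
    rw [box_apply, if_neg]
    rintro ⟨h, _⟩
    unfold win at h
    omega

theorem kl_Sup {C : Mx Q} {al : ℕ → ZMod Q → ZMod Q → Prop} {R : ℕ → ZMod Q → ZMod Q → Mx Q}
    (hR : ∀ m q p u v, R m q p u v ≠ 0 → win (2 ^ m) q u ∧ win (2 ^ m) q v) (m : ℕ) :
    Sup (2 ^ m) (kl C al R m) := by
  constructor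
  · intro q p x y hy
    unfold kl
    split_ifs with h
    · rw [Matrix.mul_apply]
      refine Finset.sum_eq_zero fun u _ => ?_
      rw [box_apply, if_neg, mul_zero]
      rintro ⟨_, h⟩
      unfold win at h
      omega
    · rfl
  · intro q p x y hx
    unfold kl
    split_ifs with h
    · rw [Matrix.mul_apply]
      refine Finset.sum_eq_zero fun u _ => ?_
      by_cases h0 : R m q p x u = 0
      · rw [h0, zero_mul]
      · have := (hR m q p x u h0).1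
        unfold win at this
        omega
    · rfl

theorem bl_mono_on {f g : ZMod Q → ℝ} {N : ℕ} {l : ℤ}
    (h : ∀ i < N, f ((l : ZMod Q) * (N : ZMod Q) + (i : ZMod Q)) ≤
      g ((l : ZMod Q) * (N : ZMod Q) + (i : ZMod Q))) : bl f N l ≤ bl g N l := by
  unfold bl
  exact mul_le_mul_of_nonneg_left (Finset.sum_le_sum fun i hi => h i (Finset.mem_range.1 hi))
    (by positivity)

/-- **the normalised word** -/
theorem word_norm (hX : Exact) (h0 : Vert0) (h1 : Vert1) (h2 : Vert2) (k : ℕ) (l : ℤ)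
    (hk : 2 * |l| + 20 ≤ 2 ^ k) : ∃ K : ℝ, 0 ≤ K ∧ ∀ (Q : ℕ) [NeZero Q] (M M' : ℕ) (n : ℝ)
      (A B : ℕ → Mx Q) (C : Mx Q) (al : ℕ → ZMod Q → ZMod Q → Prop)
      (R : ℕ → ZMod Q → ZMod Q → Mx Q) (w : ℕ → ZMod Q → ZMod Q → ℝ), 2 ^ M ∣ Q → M' + k < M →
      Fl k M n A → Fl k M n B → Kil C al R w k M n → FixB R B M (l.natAbs + 8) →
      SA al A B C M' l ≤ K * n := by
  classical
  have hk1 : 1 ≤ k := by
    rcases Nat.eq_zero_or_pos k with h | h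
    · exfalso
      rw [h] at hk
      have := abs_nonneg l
      omega
    · exact h
  obtain ⟨K0, hK0, H0⟩ := h0 k hk1
  obtain ⟨K1, hK1, H1⟩ := h1 k hk1
  obtain ⟨K2, hK2, H2⟩ := h2 k hk1
  refine ⟨(Real.pi / 2) * (K0 + K1 + K2), by positivity, ?_⟩
  intro Q _ M M' n A B C al R w hQ hM hA hB hK hfix
  have hQ' : 2 ^ M ≤ Q := Nat.le_of_dvd (Nat.pos_of_ne_zero (NeZero.ne Q)) hQ
  have hQk : 2 ^ (M' + k) ≤ Q := (Nat.pow_le_pow_right (by norm_num) hM.le).trans hQ'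
  have hk' : 2 * |l| + 20 ≤ ((2 ^ k : ℕ) : ℤ) := by push_cast; exact hk
  have hsum := word_sum (fl A) (fl B) (kl C al R) k M' l hk' hQk (fun m _ => fl_Sup A m)
    (fun m _ => fl_Sup B m) (fun m _ => kl_Sup hK.supp m)
  have e1 : (fun m => trL (fl A m)) = fl (fun m => (A m)ᵀ) := by
    funext m; exact trL_fl A m
  have e2 : (fun m => trL (fl B m)) = fl (fun m => (B m)ᵀ) := by
    funext m; exact trL_fl B m
  rw [e1, e2] at hsum
  have hfix8 : FixB R B M 8 := by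
    intro m hm x q p ⟨t, ht, hx⟩ y hy
    refine hfix m hm x q p ⟨t, ht.trans ?_, hx⟩ y hy
    push_cast
    have : (0 : ℤ) ≤ 2 ^ m := by positivity
    nlinarith [abs_nonneg l]
  have w0 := H0 Q M M' n (fun m => (A m)ᵀ) C al R w hQ hM (Fl.tr hA) hK
  have w1 := H1 Q M M' n A (fun m => (B m)ᵀ) hQ hM hA (Fl.tr hB)
  have w2 := H2 Q M M' n B C al R w hQ hM hB hK hfix8
  have hSA : SA al A B C M' l ≤ ∑ m ∈ range M', bl (fun n => ∑ p0 : ZMod Q, ∑ p1 : ZMod Q,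
        |TB (2 ^ m) (fl A m) (fl B m) (kl C al R m) p0 p1 (n - p0 - p1)|) (2 ^ m) l := by
    unfold SA
    refine Finset.sum_le_sum fun m hm => ?_
    rw [Finset.mem_range] at hm
    refine bl_mono_on fun i hi => ?_
    refine Finset.sum_le_sum fun p0 _ => Finset.sum_le_sum fun p1 _ => ?_
    split_ifs with hal
    · have := hX Q M k n A B C al R w l (l.natAbs + 8) hQ le_rfl hK hfix m (by omega) i hi p0 p1
        ((l : ZMod Q) * ((2 ^ m : ℕ) : ZMod Q) + (i : ZMod Q) - p0 - p1) (by ring) hal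
      rw [this]
    · exact abs_nonneg _
  refine hSA.trans (hsum.trans ?_)
  have hpi : 0 ≤ Real.pi / 2 := by positivity
  calc _ ≤ (Real.pi / 2) * (K0 * n + K1 * n + K2 * n) :=
        mul_le_mul_of_nonneg_left (by linarith) hpi
    _ = _ := by ring

/-! ### mirror -/

/-- mirrored alive sets -/
def mir (al : ℕ → ZMod Q → ZMod Q → Prop) : ℕ → ZMod Q → ZMod Q → Prop := fun m q p => al m p q

theorem Tb_mirror (A B C : Mx Q) (N : ℕ) (p0 p1 p2 : ZMod Q) :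
    Tb A B C N p0 p1 p2 = Tb Bᵀ Aᵀ Cᵀ N p2 p1 p0 := by
  unfold Tb
  congr 1
  rw [Finset.sum_comm]
  rw [Finset.sum_congr rfl fun i1 _ => Finset.sum_comm]
  rw [Finset.sum_comm]
  refine Finset.sum_congr rfl fun i2 _ => Finset.sum_congr rfl fun i1 _ =>
    Finset.sum_congr rfl fun i0 _ => ?_
  simp only [transpose_apply]
  ring

theorem Al4_mir (al : ℕ → ZMod Q → ZMod Q → Prop) (m : ℕ) (q p : ZMod Q) :
    Al4 (mir al) m q p ↔ Al4 al m p q := by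
  unfold Al4 mir
  exact ⟨fun h a ha b hb => h b hb a ha, fun h a ha b hb => h b hb a ha⟩

theorem SA_mirror (al : ℕ → ZMod Q → ZMod Q → Prop) (A B : ℕ → Mx Q) (C : Mx Q) (M : ℕ) (l : ℤ) :
    SA al A B C M l = SA (mir al) (fun m => (B m)ᵀ) (fun m => (A m)ᵀ) Cᵀ M l := by
  classical
  unfold SA
  refine Finset.sum_congr rfl fun m _ => ?_
  congr 1
  funext n
  rw [sum_third n (fun p0 p1 p2 => if Al4 al m p2 p0 then |Tb (A m) (B m) C (2 ^ m) p0 p1 p2| else 0)]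
  refine Finset.sum_congr rfl fun p2 _ => Finset.sum_congr rfl fun p1 _ => ?_
  rw [Tb_mirror]
  exact if_congr (Al4_mir al m _ _).symm rfl rfl

theorem Exit_mir (al : ℕ → ZMod Q → ZMod Q → Prop) (k' m : ℕ) (q p : ZMod Q) :
    Exit (mir al) k' m q p ↔ Exit al k' m p q := by
  unfold Exit mir
  constructor
  · rintro ⟨h1, a, ha, b, hb, h⟩
    exact ⟨h1, b, hb, a, ha, h⟩
  · rintro ⟨h1, a, ha, b, hb, h⟩
    exact ⟨h1, b, hb, a, ha, h⟩

theorem near_swap (D L : ℕ) (c d q p : ZMod Q) : near D L c d q p ↔ near D L d c p q := by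
  unfold near
  exact and_comm

theorem Reg.mir {C : Mx Q} {al : ℕ → ZMod Q → ZMod Q → Prop} {M k D : ℕ} {τ C1 : ℝ}
    (h : Reg C al M k D τ C1) : Reg Cᵀ (mir al) M k D τ C1 := by
  classical
  refine ⟨fun m hm q p hal => ?_, fun k' hk L hL c d => ?_⟩
  · rw [box_tr]
    exact OpLe.tr (h.op m hm p q hal)
  · refine le_trans (le_of_eq ?_) (h.ex k' hk L hL d c)
    refine Finset.sum_congr rfl fun m _ => ?_
    rw [Finset.sum_comm]
    refine Finset.sum_congr rfl fun q _ => Finset.sum_congr rfl fun p _ => ?_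
    refine if_congr ?_ rfl rfl
    rw [Exit_mir, near_swap]

/-! ### scaling and linearity -/

theorem Tb_smul (a b c : ℝ) (A B C : Mx Q) (N : ℕ) (p0 p1 p2 : ZMod Q) :
    Tb (a • A) (b • B) (c • C) N p0 p1 p2 = a * b * c * Tb A B C N p0 p1 p2 := by
  unfold Tb
  simp only [Matrix.smul_apply, smul_eq_mul, Finset.mul_sum]
  refine Finset.sum_congr rfl fun i0 _ => Finset.sum_congr rfl fun i1 _ =>
    Finset.sum_congr rfl fun i2 _ => ?_
  ring

theorem Tb_sub0 (A A' B C : Mx Q) (N : ℕ) (p0 p1 p2 : ZMod Q) :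
    Tb (A - A') B C N p0 p1 p2 = Tb A B C N p0 p1 p2 - Tb A' B C N p0 p1 p2 := by
  unfold Tb
  simp only [Matrix.sub_apply, sub_mul, mul_sub, Finset.sum_sub_distrib]

theorem Tb_sub1 (A B B' C : Mx Q) (N : ℕ) (p0 p1 p2 : ZMod Q) :
    Tb A (B - B') C N p0 p1 p2 = Tb A B C N p0 p1 p2 - Tb A B' C N p0 p1 p2 := by
  unfold Tb
  simp only [Matrix.sub_apply, sub_mul, mul_sub, Finset.sum_sub_distrib]

theorem SA_smul (al : ℕ → ZMod Q → ZMod Q → Prop) (a b c : ℝ) (A B : ℕ → Mx Q) (C : Mx Q)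
    (M : ℕ) (l : ℤ) (h : 0 ≤ a * b * c) :
    SA al (fun m => a • A m) (fun m => b • B m) (c • C) M l = a * b * c * SA al A B C M l := by
  classical
  unfold SA
  rw [Finset.mul_sum]
  refine Finset.sum_congr rfl fun m _ => ?_
  rw [← bl_const_mul]
  congr 1
  funext n
  rw [Finset.mul_sum]
  refine Finset.sum_congr rfl fun p0 _ => ?_
  rw [Finset.mul_sum]
  refine Finset.sum_congr rfl fun p1 _ => ?_
  rw [Tb_smul, abs_mul, abs_of_nonneg h]
  split_ifs <;> simp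

theorem SA_le3 {al : ℕ → ZMod Q → ZMod Q → Prop} {A A1 A2 A3 B B1 B2 B3 : ℕ → Mx Q} {C : Mx Q}
    {M : ℕ} {l : ℤ}
    (h : ∀ m N p0 p1 p2, Tb (A m) (B m) C N p0 p1 p2 = Tb (A1 m) (B1 m) C N p0 p1 p2 +
      Tb (A2 m) (B2 m) C N p0 p1 p2 + Tb (A3 m) (B3 m) C N p0 p1 p2) :
    SA al A B C M l ≤ SA al A1 B1 C M l + SA al A2 B2 C M l + SA al A3 B3 C M l := by
  classical
  unfold SA
  rw [← Finset.sum_add_distrib, ← Finset.sum_add_distrib]
  refine Finset.sum_le_sum fun m _ => ?_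
  rw [← bl_add, ← bl_add]
  refine bl_mono (fun n => ?_) _ _
  rw [← Finset.sum_add_distrib, ← Finset.sum_add_distrib]
  refine Finset.sum_le_sum fun p0 _ => ?_
  rw [← Finset.sum_add_distrib, ← Finset.sum_add_distrib]
  refine Finset.sum_le_sum fun p1 _ => ?_
  split_ifs
  · rw [h]
    exact abs_add_three _ _ _
  · simp

theorem OpLe.smul {m n : Type*} [Fintype m] [Fintype n] {A : Matrix m n ℝ} {a c : ℝ} (hc : 0 ≤ c)
    (h : OpLe A a) : OpLe (c • A) (c * a) := by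
  refine ⟨mul_nonneg hc h.1, fun v => ?_⟩
  have h1 := h.2 v
  have e : ∀ i, ∑ j, (c • A) i j * v j = c * ∑ j, A i j * v j := by
    intro i
    rw [Finset.mul_sum]
    exact Finset.sum_congr rfl fun j _ => by rw [Matrix.smul_apply, smul_eq_mul]; ring
  simp only [e, mul_pow, ← Finset.mul_sum]
  rw [mul_assoc]
  exact mul_le_mul_of_nonneg_left h1 (sq_nonneg c)

theorem Reg.scale {C : Mx Q} {al : ℕ → ZMod Q → ZMod Q → Prop} {M k D : ℕ} {τ C1 : ℝ}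
    (hτ : 0 < τ) (h : Reg C al M k D τ C1) : Reg (τ⁻¹ • C) al M k D 1 C1 := by
  refine ⟨fun m hm q p hal => ?_, h.ex⟩
  rw [box_smul]
  have := OpLe.smul (inv_nonneg.2 hτ.le) (h.op m hm q p hal)
  have e : τ⁻¹ * (2 ^ m * τ) = 2 ^ m * 1 := by field_simp
  rwa [e] at this

theorem Last.scale {C : Mx Q} {al : ℕ → ZMod Q → ZMod Q → Prop} {M k : ℕ} {E0 Ar : ℝ} (c : ℝ)
    (h : Last C al M k E0 Ar) : Last (c • C) al M k (c ^ 2 * E0) Ar := by
  refine ⟨fun m hm q p hal => ?_, h.ar, h.ex⟩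
  rw [box_smul, PotL.hs2_smul]
  have := h.hs m hm q p hal
  calc _ ≤ c ^ 2 * (4 ^ m * E0) := mul_le_mul_of_nonneg_left this (sq_nonneg c)
    _ = _ := by ring

theorem Last.up {C : Mx Q} {al : ℕ → ZMod Q → ZMod Q → Prop} {M k : ℕ} {E0 E1 Ar : ℝ}
    (h : Last C al M k E0 Ar) (hE : E0 ≤ E1) : Last C al M k E1 Ar :=
  ⟨fun m hm q p hal => (h.hs m hm q p hal).trans (mul_le_mul_of_nonneg_left hE (by positivity)),
    h.ar, h.ex⟩

theorem Extr.up {B : Mx Q} {M : ℕ} {dl dl' n n' : ℝ} {Y : ℕ → Mx Q}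
    {S : ℕ → ZMod Q → ZMod Q → Mx Q} (h : Extr B M dl n Y S) (hd : dl ≤ dl') (hn : n ≤ n') :
    Extr B M dl' n' Y S :=
  ⟨h.pr, h.cell, h.supp, h.topY, h.topS, h.step, fun m hm x y v hv => (h.op m hm x y v hv).trans
    (mul_le_mul_of_nonneg_right (mul_le_mul_of_nonneg_right hd (by positivity))
      (Finset.sum_nonneg fun _ _ => sq_nonneg _)), h.hs, h.count.trans hn⟩

theorem Extr.scale {B : Mx Q} {M : ℕ} {dl n : ℝ} {Y : ℕ → Mx Q}
    {S : ℕ → ZMod Q → ZMod Q → Mx Q} (h : Extr B M dl n Y S) (c : ℝ) :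
    Extr (c • B) M (c ^ 2 * dl) n (fun m => c • Y m) S := by
  refine ⟨h.pr, h.cell, h.supp, fun m hm => by rw [h.topY m hm], h.topS, fun m x y => ?_,
    fun m hm x y v hv => ?_, fun m => ?_, h.count⟩
  · rw [Matrix.smul_apply, h.step m x y, Matrix.smul_apply, smul_eq_mul, smul_eq_mul, mul_sub,
      Finset.mul_sum]
    congr 1
    refine Finset.sum_congr rfl fun u _ => ?_
    rw [Matrix.smul_apply, smul_eq_mul]
    ring
  · have e : ∀ x', ∑ u, (c • Y m) x' u * v u = c * ∑ u, Y m x' u * v u := by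
      intro x'
      rw [Finset.mul_sum]
      exact Finset.sum_congr rfl fun j _ => by rw [Matrix.smul_apply, smul_eq_mul]; ring
    simp only [e, mul_pow, ← Finset.mul_sum]
    calc _ ≤ c ^ 2 * (dl * 4 ^ m * ∑ u, v u ^ 2) :=
          mul_le_mul_of_nonneg_left (h.op m hm x y v hv) (sq_nonneg c)
      _ = _ := by ring
  · have e : ∀ m', ∑ x, ∑ y, (c • Y m') x y ^ 2 = c ^ 2 * ∑ x, ∑ y, Y m' x y ^ 2 := by
      intro m'
      rw [Finset.mul_sum]
      refine Finset.sum_congr rfl fun x _ => ?_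
      rw [Finset.mul_sum]
      refine Finset.sum_congr rfl fun y _ => ?_
      rw [Matrix.smul_apply, smul_eq_mul]
      ring
    show ∑ x, ∑ y, (c • Y m) x y ^ 2 ≤ ∑ x, ∑ y, (c • Y (m + 1)) x y ^ 2
    rw [e, e]
    exact mul_le_mul_of_nonneg_left (h.hs m) (sq_nonneg c)

theorem Fl.up {k M : ℕ} {n n' : ℝ} {X : ℕ → Mx Q} (h : Fl k M n X) (hn : n ≤ n') : Fl k M n' X := by
  refine ⟨h.op, fun k' hk => ?_, fun m hm => (h.en m hm).trans hn⟩
  obtain ⟨v, v0, h1, h2⟩ := h.mv k' hk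
  exact ⟨v, v0, h1, h2.trans hn⟩

theorem Kil.up {C : Mx Q} {al : ℕ → ZMod Q → ZMod Q → Prop} {R : ℕ → ZMod Q → ZMod Q → Mx Q}
    {w : ℕ → ZMod Q → ZMod Q → ℝ} {k M : ℕ} {n n' : ℝ} (h : Kil C al R w k M n) (hn : n ≤ n') :
    Kil C al R w k M n' :=
  ⟨h.pr, h.supp, h.nest, h.op, h.hs, h.w0, fun m hm => (h.sw m hm).trans hn,
    fun k' hk => (h.sx k' hk).trans hn⟩

theorem FixB.smul {R : ℕ → ZMod Q → ZMod Q → Mx Q} {Bd : ℕ → Mx Q} {M D : ℕ} (h : FixB R Bd M D)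
    (c : ℝ) : FixB R (fun m => c • Bd m) M D := by
  intro m hm x q p ht y hy
  have := h m hm x q p ht y hy
  simp only [Matrix.smul_apply, smul_eq_mul, mul_assoc, ← Finset.mul_sum]
  rw [this]

theorem sum_sq_smul (c : ℝ) (A : Mx Q) :
    ∑ x, ∑ y, (c • A) x y ^ 2 = c ^ 2 * ∑ x, ∑ y, A x y ^ 2 := by
  rw [Finset.mul_sum]
  refine Finset.sum_congr rfl fun x _ => ?_
  rw [Finset.mul_sum]
  refine Finset.sum_congr rfl fun y _ => ?_
  rw [Matrix.smul_apply, smul_eq_mul]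
  ring

theorem sum_sq_tr (A : Mx Q) : ∑ x, ∑ y, Aᵀ x y ^ 2 = ∑ x, ∑ y, A x y ^ 2 := by
  rw [Finset.sum_comm]
  rfl

end Crest.Agent.R079.CRwx253
end

-- ▼ part R079/CRwb_253

/-! R079, RAGGED CORNER (CR), L6 (second half): words I and last, ladder, `CornerR` from the leaves.
helper253. -/

set_option autoImplicit false
set_option linter.unusedVariables false
set_option linter.unusedSectionVars false
set_option linter.unusedSimpArgs false

namespace Crest.Agent.R079.CRwx253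

open Matrix Finset Crest.Agent.R072 Crest.Agent.R079.CR371 Crest.Agent.R079.CRdefx253
open Crest.Agent.R079.PotL (bl cel IsPr hs2 bl_mono bl_add bl_const_mul)
open scoped MatrixOrder

/-- **word I** : `A` low (any extraction of `Aᵀ`), band of `B`, killer compressed at vertex 2 -/
theorem word_I (hFl : FlOfExtr) (hS : ExistsSpc) (hK : KilOfSpc) (hX : Exact) (h0 : Vert0)
    (h1 : Vert1) (h2 : Vert2) (k : ℕ) (l : ℤ) (hk : 2 * |l| + 20 ≤ 2 ^ k) (C1 : ℝ) :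
    ∃ K : ℝ, 0 ≤ K ∧ ∀ (Q : ℕ) [NeZero Q] (M M' : ℕ) (A B C : Mx Q)
      (al : ℕ → ZMod Q → ZMod Q → Prop) (YA Y Y' : ℕ → Mx Q) (U S S' : ℕ → ZMod Q → ZMod Q → Mx Q)
      (da db n τ : ℝ), 2 ^ M ∣ Q → M' + k < M → 0 < da → 0 < db → 0 ≤ n → 0 < τ →
      Extr Aᵀ M da n YA U → Extr B M db n Y S → Extr B M db n Y' S' →
      ∑ x, ∑ y, A x y ^ 2 ≤ da * n → ∑ x, ∑ y, B x y ^ 2 ≤ db * n →
      Reg C al M k (l.natAbs + 24) τ C1 →
      SA al (fun m => (YA m)ᵀ) (fun m => Y m - Y' m) C M' l ≤ K * (√da * √db * τ * n) := by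
  obtain ⟨c, hc, Hc⟩ := hFl k
  obtain ⟨K3, hK3, H3⟩ := hK k (l.natAbs + 8) C1
  obtain ⟨K0, hK0, H0⟩ := word_norm hX h0 h1 h2 k l hk
  refine ⟨K0 * (c⁻¹ + K3) * (c⁻¹) ^ 2, by positivity, ?_⟩
  intro Q _ M M' A B C al YA Y Y' U S S' da db n τ hQ hM hda hdb hn hτ EA EB EB' hA hB hR
  have sa : 0 < √da := Real.sqrt_pos.2 hda
  have sb : 0 < √db := Real.sqrt_pos.2 hdb
  have qa : (√da)⁻¹ ^ 2 * da = 1 := by
    rw [inv_pow, Real.sq_sqrt hda.le, inv_mul_cancel₀ hda.ne']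
  have qb : (√db)⁻¹ ^ 2 * db = 1 := by
    rw [inv_pow, Real.sq_sqrt hdb.le, inv_mul_cancel₀ hdb.ne']
  have EA' := Extr.scale EA (√da)⁻¹
  have EB1 := Extr.scale EB (√db)⁻¹
  have EB2 := Extr.scale EB' (√db)⁻¹
  rw [qa] at EA'
  rw [qb] at EB1 EB2
  have hA' : ∑ x, ∑ y, ((√da)⁻¹ • Aᵀ) x y ^ 2 ≤ n := by
    rw [sum_sq_smul, sum_sq_tr]
    calc _ ≤ (√da)⁻¹ ^ 2 * (da * n) := mul_le_mul_of_nonneg_left hA (by positivity)
      _ = n := by rw [← mul_assoc, qa, one_mul]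
  have hB' : ∑ x, ∑ y, ((√db)⁻¹ • B) x y ^ 2 ≤ n := by
    rw [sum_sq_smul]
    calc _ ≤ (√db)⁻¹ ^ 2 * (db * n) := mul_le_mul_of_nonneg_left hB (by positivity)
      _ = n := by rw [← mul_assoc, qb, one_mul]
  obtain ⟨-, -, FA, -⟩ := Hc Q _ M n _ _ U U hQ EA' EA' hA'
  obtain ⟨-, FB, -, -⟩ := Hc Q _ M n _ _ S S' hQ EB1 EB2 hB'
  obtain ⟨R, hR'⟩ := hS Q _ M (l.natAbs + 8) 1 1 n n _ _ S S' hQ EB1 EB2
  have hreg : Reg (τ⁻¹ • C) al M k (l.natAbs + 8 + 16) 1 C1 := Reg.scale hτ hR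
  have hkil := H3 Q _ (τ⁻¹ • C) M 1 1 n _ _ S S' R al hQ EB1 EB2 hR' hreg
  have hfix : FixB R (fun m => c • ((√db)⁻¹ • Y m - (√db)⁻¹ • Y' m)) M (l.natAbs + 8) :=
    FixB.smul hR'.fix c
  have hn1 : c⁻¹ * n ≤ (c⁻¹ + K3) * n := by nlinarith
  have hn2 : K3 * n ≤ (c⁻¹ + K3) * n := by
    have : 0 ≤ c⁻¹ * n := mul_nonneg (inv_nonneg.2 hc.le) hn
    nlinarith
  have hw := H0 Q M M' ((c⁻¹ + K3) * n) _ _ (τ⁻¹ • C) al R _ hQ hM (Fl.up FA hn1)
    (Fl.up FB hn1) (Kil.up hkil hn2) hfix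
  have e1 : (fun m => c • ((√da)⁻¹ • YA m)ᵀ) = fun m => (c * (√da)⁻¹) • (YA m)ᵀ := by
    funext m
    rw [transpose_smul, smul_smul]
  have e2 : (fun m => c • ((√db)⁻¹ • Y m - (√db)⁻¹ • Y' m)) =
      fun m => (c * (√db)⁻¹) • (Y m - Y' m) := by
    funext m
    rw [← smul_sub, smul_smul]
  rw [e1, e2, SA_smul al _ _ _ (fun m => (YA m)ᵀ) (fun m => Y m - Y' m) C M' l (by positivity)] at hw
  set X := SA al (fun m => (YA m)ᵀ) (fun m => Y m - Y' m) C M' l with hXd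
  have e3 : X = (c⁻¹ ^ 2 * (√da * √db * τ)) * (c * (√da)⁻¹ * (c * (√db)⁻¹) * τ⁻¹ * X) := by
    field_simp
  rw [e3]
  calc _ ≤ (c⁻¹ ^ 2 * (√da * √db * τ)) * (K0 * ((c⁻¹ + K3) * n)) :=
        mul_le_mul_of_nonneg_left hw (by positivity)
    _ = _ := by ring

/-- **last word** : killer not compressed -/
theorem word_last (hFl : FlOfExtr) (hKL : KilLast) (hX : Exact) (h0 : Vert0)
    (h1 : Vert1) (h2 : Vert2) (k : ℕ) (l : ℤ) (hk : 2 * |l| + 20 ≤ 2 ^ k) (C1 : ℝ) :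
    ∃ K : ℝ, 0 ≤ K ∧ ∀ (Q : ℕ) [NeZero Q] (M M' : ℕ) (A B C : Mx Q)
      (al : ℕ → ZMod Q → ZMod Q → Prop) (YA Y : ℕ → Mx Q) (U S : ℕ → ZMod Q → ZMod Q → Mx Q)
      (da db n τ E0 Ar : ℝ), 2 ^ M ∣ Q → M' + k < M → 0 < da → 0 < db → 0 ≤ n → 0 < τ →
      Extr Aᵀ M da n YA U → Extr B M db n Y S →
      ∑ x, ∑ y, A x y ^ 2 ≤ da * n → ∑ x, ∑ y, B x y ^ 2 ≤ db * n →
      Reg C al M k (l.natAbs + 24) τ C1 → Last C al M k E0 Ar → E0 * Ar ≤ τ ^ 2 * n →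
      SA al (fun m => (YA m)ᵀ) (fun m => Y m) C M' l ≤ K * (√da * √db * τ * n) := by
  obtain ⟨c, hc, Hc⟩ := hFl k
  obtain ⟨K0, hK0, H0⟩ := word_norm hX h0 h1 h2 k l hk
  refine ⟨K0 * (c⁻¹ + 1) * (c⁻¹) ^ 2, by positivity, ?_⟩
  intro Q _ M M' A B C al YA Y U S da db n τ E0 Ar hQ hM hda hdb hn hτ EA EB hA hB hR hL hE
  have sa : 0 < √da := Real.sqrt_pos.2 hda
  have sb : 0 < √db := Real.sqrt_pos.2 hdb
  have qa : (√da)⁻¹ ^ 2 * da = 1 := by
    rw [inv_pow, Real.sq_sqrt hda.le, inv_mul_cancel₀ hda.ne']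
  have qb : (√db)⁻¹ ^ 2 * db = 1 := by
    rw [inv_pow, Real.sq_sqrt hdb.le, inv_mul_cancel₀ hdb.ne']
  have EA' := Extr.scale EA (√da)⁻¹
  have EB1 := Extr.scale EB (√db)⁻¹
  rw [qa] at EA'
  rw [qb] at EB1
  have hA' : ∑ x, ∑ y, ((√da)⁻¹ • Aᵀ) x y ^ 2 ≤ n := by
    rw [sum_sq_smul, sum_sq_tr]
    calc _ ≤ (√da)⁻¹ ^ 2 * (da * n) := mul_le_mul_of_nonneg_left hA (by positivity)
      _ = n := by rw [← mul_assoc, qa, one_mul]
  have hB' : ∑ x, ∑ y, ((√db)⁻¹ • B) x y ^ 2 ≤ n := by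
    rw [sum_sq_smul]
    calc _ ≤ (√db)⁻¹ ^ 2 * (db * n) := mul_le_mul_of_nonneg_left hB (by positivity)
      _ = n := by rw [← mul_assoc, qb, one_mul]
  obtain ⟨-, -, FA, -⟩ := Hc Q _ M n _ _ U U hQ EA' EA' hA'
  obtain ⟨FB, -, -, -⟩ := Hc Q _ M n _ _ S S hQ EB1 EB1 hB'
  have hreg : Reg (τ⁻¹ • C) al M k (l.natAbs + 24) 1 C1 := Reg.scale hτ hR
  have hlast : Last (τ⁻¹ • C) al M k (τ⁻¹ ^ 2 * max E0 0) Ar :=
    Last.scale τ⁻¹ (Last.up hL (le_max_left _ _))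
  have hkil := hKL Q (τ⁻¹ • C) M k (l.natAbs + 24) C1 (τ⁻¹ ^ 2 * max E0 0) Ar al hQ
    (by positivity) hreg hlast
  have hE' : τ⁻¹ ^ 2 * max E0 0 * Ar ≤ n := by
    rcases le_total E0 0 with h | h
    · rw [max_eq_right h, mul_zero, zero_mul]
      exact hn
    · rw [max_eq_left h, mul_assoc]
      calc _ ≤ τ⁻¹ ^ 2 * (τ ^ 2 * n) := mul_le_mul_of_nonneg_left hE (by positivity)
        _ = n := by field_simp
  have hfix : FixB (fun m q _ => I1 (2 ^ m) q) (fun m => c • ((√db)⁻¹ • Y m)) M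
      (l.natAbs + 8) := by
    intro m hm x q p _ y hy
    have e : ∀ u, (c • ((√db)⁻¹ • Y m)) x u * I1 (2 ^ m) q u y =
        if u = y then (c • ((√db)⁻¹ • Y m)) x u else 0 := by
      intro u
      unfold I1
      rw [diagonal_apply]
      by_cases h : u = y
      · rw [if_pos h, if_pos h, h, if_pos hy, mul_one]
      · rw [if_neg h, if_neg h, mul_zero]
    rw [Finset.sum_congr rfl fun u _ => e u, Finset.sum_ite_eq' univ y, if_pos (mem_univ y)]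
  have hn1 : c⁻¹ * n ≤ (c⁻¹ + 1) * n := by nlinarith
  have hn2 : τ⁻¹ ^ 2 * max E0 0 * Ar ≤ (c⁻¹ + 1) * n := by
    have : 0 ≤ c⁻¹ * n := mul_nonneg (inv_nonneg.2 hc.le) hn
    nlinarith
  have hw := H0 Q M M' ((c⁻¹ + 1) * n) _ _ (τ⁻¹ • C) al _ _ hQ hM (Fl.up FA hn1)
    (Fl.up FB hn1) (Kil.up hkil hn2) hfix
  have e1 : (fun m => c • ((√da)⁻¹ • YA m)ᵀ) = fun m => (c * (√da)⁻¹) • (YA m)ᵀ := by
    funext m
    rw [transpose_smul, smul_smul]
  have e2 : (fun m => c • ((√db)⁻¹ • Y m)) = fun m => (c * (√db)⁻¹) • Y m := by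
    funext m
    rw [smul_smul]
  rw [e1, e2, SA_smul al _ _ _ (fun m => (YA m)ᵀ) (fun m => Y m) C M' l (by positivity)] at hw
  set X := SA al (fun m => (YA m)ᵀ) (fun m => Y m) C M' l with hXd
  have e3 : X = (c⁻¹ ^ 2 * (√da * √db * τ)) * (c * (√da)⁻¹ * (c * (√db)⁻¹) * τ⁻¹ * X) := by
    field_simp
  rw [e3]
  calc _ ≤ (c⁻¹ ^ 2 * (√da * √db * τ)) * (K0 * ((c⁻¹ + 1) * n)) :=
        mul_le_mul_of_nonneg_left hw (by positivity)
    _ = _ := by ring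

/-- **THE RAGGED CORNER** from the leaves -/
theorem cornerR_of (hE : ExistsExtr) (hT : ExtrTriv) (hFl : FlOfExtr) (hS : ExistsSpc)
    (hK : KilOfSpc) (hKL : KilLast) (hX : Exact) (h0 : Vert0) (h1 : Vert1) (h2 : Vert2) :
    CornerR := by
  intro k l hk C1
  obtain ⟨K1, hK1, W1⟩ := word_I hFl hS hK hX h0 h1 h2 k l hk C1
  obtain ⟨K2, hK2, W2⟩ := word_last hFl hKL hX h0 h1 h2 k l hk C1
  refine ⟨2 * (K1 + K2), by positivity, ?_⟩
  intro Q _ M M' J A B C al a2 b2 r τ E0 Ar hQ hM ha hb hr hτ hA hB hA0 hB0 hR hL hEA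
  have hr' : ∀ i : ℕ, 0 < r * 2 ^ i := fun i => by positivity
  have ext : ∀ (F : Mx Q) (f2 : ℝ), 0 < f2 → ∑ x, ∑ y, F x y ^ 2 ≤ f2 →
      (∀ x y, F x y ^ 2 ≤ f2 / r) → ∀ i : ℕ, ∃ (Y : ℕ → Mx Q) (S : ℕ → ZMod Q → ZMod Q → Mx Q),
        Extr F M (f2 / (r * 2 ^ i)) (r * 2 ^ i) Y S ∧ (i = 0 → Y = fun _ => F) := by
    intro F f2 hf hs h0 i
    rcases Nat.eq_zero_or_pos i with hi | hi
    · subst hi
      refine ⟨fun _ => F, fun _ _ _ => 0, Extr.up (hT Q F M (f2 / (r * 2 ^ 0)) hQ (by positivity)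
        (by simpa using h0)) le_rfl (hr' 0).le, fun _ => rfl⟩
    · obtain ⟨Y, S, h⟩ := hE Q F M (f2 / (r * 2 ^ i)) hQ (div_pos hf (hr' i))
      refine ⟨Y, S, Extr.up h le_rfl ?_, fun h => by omega⟩
      rw [div_le_iff₀ (div_pos hf (hr' i))]
      refine hs.trans (le_of_eq ?_)
      field_simp
  choose YA UA hYA hYA0 using ext Aᵀ a2 ha (by rw [sum_sq_tr]; exact hA) (fun x y => hA0 y x)
  choose YB UB hYB hYB0 using ext B b2 hb hB hB0
  set T : ℝ := τ * √a2 * √b2 with hTd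
  have hT0 : 0 ≤ T := by positivity
  set X : ℕ → ℝ := fun i => SA al (fun m => (YA i m)ᵀ) (fun m => YB i m) C M' l with hXd
  have e2 : ∀ i, r * 2 ^ (i + 1) = 2 * (r * 2 ^ i) := fun i => by ring
  have hdiv : ∀ (i : ℕ) {a : ℝ}, 0 < a → a / (r * 2 ^ (i + 1)) ≤ a / (r * 2 ^ i) := by
    intro i a ha
    apply div_le_div_of_nonneg_left ha.le (hr' i)
    rw [e2]
    linarith [hr' i]
  have hdd : ∀ (i : ℕ) (a : ℝ), a / (r * 2 ^ i) * (r * 2 ^ i) = a := by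
    intro i a
    have := (hr' i).ne'
    field_simp
  have hprod : ∀ i : ℕ, √(a2 / (r * 2 ^ i)) * √(b2 / (r * 2 ^ i)) * τ * (r * 2 ^ i) = T := by
    intro i
    rw [Real.sqrt_div ha.le, Real.sqrt_div hb.le, hTd]
    have h3 : √(r * 2 ^ i) * √(r * 2 ^ i) = r * 2 ^ i := Real.mul_self_sqrt (hr' i).le
    have h4 : 0 < √(r * 2 ^ i) := Real.sqrt_pos.2 (hr' i)
    calc _ = √a2 * √b2 * τ * ((r * 2 ^ i) / (√(r * 2 ^ i) * √(r * 2 ^ i))) := by
          field_simp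
      _ = _ := by rw [h3, div_self (hr' i).ne']; ring
  have hprod' : ∀ i : ℕ, √(b2 / (r * 2 ^ i)) * √(a2 / (r * 2 ^ i)) * τ * (r * 2 ^ i) = T := by
    intro i
    rw [mul_comm (√(b2 / (r * 2 ^ i)))]
    exact hprod i
  have hstep : ∀ i, X i ≤ K1 * (2 * T) + K1 * (2 * T) + X (i + 1) := by
    intro i
    have ri := hr' i
    have da : 0 < a2 / (r * 2 ^ i) := by positivity
    have db : 0 < b2 / (r * 2 ^ i) := by positivity
    have hnn : r * 2 ^ i ≤ r * 2 ^ (i + 1) := by rw [e2]; linarith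
    have hAn : ∑ x, ∑ y, A x y ^ 2 ≤ a2 / (r * 2 ^ i) * (r * 2 ^ (i + 1)) := by
      rw [e2]
      have := hdd i a2
      nlinarith
    have hBn : ∑ x, ∑ y, B x y ^ 2 ≤ b2 / (r * 2 ^ i) * (r * 2 ^ (i + 1)) := by
      rw [e2]
      have := hdd i b2
      nlinarith
    have w1 := W1 Q M M' A B C al (YA i) (YB i) (YB (i + 1)) (UA i) (UB i) (UB (i + 1))
      (a2 / (r * 2 ^ i)) (b2 / (r * 2 ^ i)) (r * 2 ^ (i + 1)) τ hQ hM da db (hr' _).le hτ
      (Extr.up (hYA i) le_rfl hnn) (Extr.up (hYB i) le_rfl hnn)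
      (Extr.up (hYB (i + 1)) (hdiv i hb) le_rfl) hAn hBn hR
    have w2 := W1 Q M M' Bᵀ Aᵀ Cᵀ (mir al) (YB (i + 1)) (YA i) (YA (i + 1)) (UB (i + 1)) (UA i)
      (UA (i + 1)) (b2 / (r * 2 ^ i)) (a2 / (r * 2 ^ i)) (r * 2 ^ (i + 1)) τ hQ hM db da (hr' _).le
      hτ (by rw [transpose_transpose]; exact Extr.up (hYB (i + 1)) (hdiv i hb) le_rfl)
      (Extr.up (hYA i) le_rfl hnn) (Extr.up (hYA (i + 1)) (hdiv i ha) le_rfl)
      (by rw [sum_sq_tr]; exact hBn) (by rw [sum_sq_tr]; exact hAn) (Reg.mir hR)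
    have e3 : √(a2 / (r * 2 ^ i)) * √(b2 / (r * 2 ^ i)) * τ * (r * 2 ^ (i + 1)) = 2 * T := by
      rw [e2, ← hprod i]; ring
    have e4 : √(b2 / (r * 2 ^ i)) * √(a2 / (r * 2 ^ i)) * τ * (r * 2 ^ (i + 1)) = 2 * T := by
      rw [e2, ← hprod' i]; ring
    rw [e3] at w1
    rw [e4] at w2
    have hm := SA_mirror al (fun m => (YA i m - YA (i + 1) m)ᵀ) (fun m => YB (i + 1) m) C M' l
    simp only [transpose_transpose] at hm
    rw [← hm] at w2
    refine (SA_le3 (al := al) (A := fun m => (YA i m)ᵀ) (B := fun m => YB i m)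
      (A1 := fun m => (YA i m)ᵀ) (B1 := fun m => YB i m - YB (i + 1) m)
      (A2 := fun m => (YA i m - YA (i + 1) m)ᵀ) (B2 := fun m => YB (i + 1) m)
      (A3 := fun m => (YA (i + 1) m)ᵀ) (B3 := fun m => YB (i + 1) m) ?_).trans
      (add_le_add (add_le_add w1 w2) le_rfl)
    intro m N p0 p1 p2
    rw [transpose_sub, Tb_sub1, Tb_sub0]
    ring
  have hlast : X J ≤ K2 * T := by
    have w := W2 Q M M' A B C al (YA J) (YB J) (UA J) (UB J) (a2 / (r * 2 ^ J))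
      (b2 / (r * 2 ^ J)) (r * 2 ^ J) τ E0 Ar hQ hM (by positivity) (by positivity) (hr' J).le hτ
      (hYA J) (hYB J) (by rw [hdd]; exact hA) (by rw [hdd]; exact hB) hR hL hEA
    rw [hprod] at w
    exact w
  have hind : ∀ i : ℕ, X 0 ≤ 4 * i * (K1 * T) + X i := by
    intro i
    induction i with
    | zero => simp
    | succ i ih =>
      have := hstep i
      push_cast
      linarith
  have h0' : X 0 = SA al (fun _ => A) (fun _ => B) C M' l := by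
    simp only [hXd]
    rw [hYA0 0 rfl, hYB0 0 rfl]
    simp only [transpose_transpose]
  rw [← h0']
  have hJ := hind J
  have hKT : 0 ≤ K1 * T := mul_nonneg hK1 hT0
  have hKT2 : 0 ≤ K2 * T := mul_nonneg hK2 hT0
  have hJ0 : (0 : ℝ) ≤ J := by positivity
  have : 2 * (K1 + K2) * (2 * (J : ℝ) + 1) * T = 4 * J * (K1 * T) + 4 * J * (K2 * T) +
      2 * (K1 * T) + 2 * (K2 * T) := by ring
  rw [this]
  have h5 : 0 ≤ 4 * J * (K2 * T) := by positivity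
  linarith

end Crest.Agent.R079.CRwx253
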