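import Crest.Agent.R079.ClW_59

/-! R079, Step I in the line model (helper59): clip algebra on rectangles and the GLUED clip.

* `DQ_gap`, `DQ_strong`, `cl_firm`, `cl_cl`, `fac` : Pythagoras, strong convexity, firm nonexpansiveness,
  composition of clips, factorisation with PSD majorants, on a rectangle `S × S'`.
* `G P A r n a b` : on the dyadic cell `(n,a,b)` the kernel which is the clip of `A` on every maximal
  subcell with property `P` (threshold `r 2^k` on a subcell of side `2^k`), zero on dead points.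
  `G_op` : operator norm `≤ r 2^n` on the cell (NO geometry of the strips is used);
  `G_dist` : its squared distance to `A` is the recursive sum `ds` of the cell distances;
  `strong_cell` : `DQ (cell) + Σ |cl_cell - G|² ≤ ds` = nested projection inequality top / exits. -/

set_option autoImplicit false

namespace Crest.Agent.R079.ClW59

open Finset Crest.Agent.R079.Grid Crest.Agent.R079.Growth Crest.Agent.R079.QRed
  Crest.Agent.R079.Qh249 Crest.Agent.R079.TWin Crest.Agent.R079.Whit Crest.Agent.R079.HiF881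

/-- squared norm on a rectangle -/
noncomputable def nq (A : ℤ → ℤ → ℂ) (S S' : Finset ℤ) : ℝ := ∑ x ∈ S, ∑ y ∈ S', ‖A x y‖ ^ 2

lemma nq_nonneg (A : ℤ → ℤ → ℂ) (S S' : Finset ℤ) : 0 ≤ nq A S S' :=
  Finset.sum_nonneg fun _ _ => Finset.sum_nonneg fun _ _ => sq_nonneg _


lemma cl_mem (A : ℤ → ℤ → ℂ) {S S' : Finset ℤ} (s : ℝ) (x : {x // x ∈ S}) (y : {y // y ∈ S'}) :
    cl A S S' s x y = clip (fun (x : {x // x ∈ S}) (y : {y // y ∈ S'}) => A x y) s x y := by
  unfold cl
  rw [dif_pos ⟨x.2, y.2⟩]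


/-- Pythagoras with the clip -/
lemma DQ_gap (A : ℤ → ℤ → ℂ) {S S' : Finset ℤ} {s : ℝ} (hs0 : 0 ≤ s) {B : ℤ → ℤ → ℂ}
    (hB : OpS S S' B s) :
    DQ A S S' s + nq (fun x y => cl A S S' s x y - B x y) S S' ≤
      nq (fun x y => A x y - B x y) S S' := by
  have h := clip_dist (fun (x : {x // x ∈ S}) (y : {y // y ∈ S'}) => A x y) hs0 (op_of hB)
  have h2 := hs_sum S S' (fun x y => A x y - B x y)
  have h3 := hs_sum S S' (fun x y => cl A S S' s x y - B x y)
  have e : (fun (x : {x // x ∈ S}) (y : {y // y ∈ S'}) => cl A S S' s x y - B x y) =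
      fun (x : {x // x ∈ S}) (y : {y // y ∈ S'}) =>
        clip (fun (x : {x // x ∈ S}) (y : {y // y ∈ S'}) => A x y) s x y - B x y := by
    funext x y
    rw [cl_mem]
  unfold nq
  rw [← h2, ← h3, e]
  unfold DQ
  exact h





section glued

open Classical in
/-- glued clip of `A` over the maximal subcells with property `P` -/
noncomputable def G (P : ℕ → ℤ → ℤ → Prop) (A : ℤ → ℤ → ℂ) (r : ℝ) : ℕ → ℤ → ℤ → ℤ → ℤ → ℂ
  | 0, a, b => if P 0 a b then cl A (dI 0 a) (dI 0 b) (r * 2 ^ 0) else fun _ _ => 0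
  | n + 1, a, b => if P (n + 1) a b then cl A (dI (n + 1) a) (dI (n + 1) b) (r * 2 ^ (n + 1)) else
      fun x y => if x ∈ dI n (2 * a) then
        (if y ∈ dI n (2 * b) then G P A r n (2 * a) (2 * b) x y
          else G P A r n (2 * a) (2 * b + 1) x y)
        else (if y ∈ dI n (2 * b) then G P A r n (2 * a + 1) (2 * b) x y
          else G P A r n (2 * a + 1) (2 * b + 1) x y)


variable {P : ℕ → ℤ → ℤ → Prop} {A : ℤ → ℤ → ℂ} {r : ℝ}

lemma opS_congr {S S' : Finset ℤ} {B C : ℤ → ℤ → ℂ} {t : ℝ} (h : ∀ x ∈ S, ∀ y ∈ S', B x y = C x y)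
    (hC : OpS S S' C t) : OpS S S' B t := by
  intro f
  refine le_trans (le_of_eq ?_) (hC f)
  refine Finset.sum_congr rfl fun x hx => ?_
  rw [Finset.sum_congr rfl fun y hy => by rw [h x hx y hy]]






end glued

end Crest.Agent.R079.ClW59
private theorem rz_1260d7bf92 : type_of% @_root_.Crest.Agent.R079.ClW59.G.eq_def := @_root_.Crest.Agent.R079.ClW59.G.eq_def -- L154
private theorem rz_98667d82d4 : type_of% @_root_.Crest.Agent.R079.ClW59.G.eq_1 := @_root_.Crest.Agent.R079.ClW59.G.eq_1 -- L154
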