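import Crest.Agent.R079.CelA_159
import Crest.Agent.R079.ClX_59

-- ▼ part R079/PjC_881
section

/-! R079, S1 (c): bridge between the bilinear operator bound `OpC` of CelA_159, the operator bound
`OpS` of ClW_59 and the nearest point of the operator ball on a cell = `cl` (SVD clip) (helper881). -/

set_option autoImplicit false

namespace Crest.Agent.R079.PjC881

open Finset Crest.Agent.R079.Grid Crest.Agent.R079.Growth Crest.Agent.R079.QRed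
  Crest.Agent.R079.Qh249 Crest.Agent.R079.TWin Crest.Agent.R079.Whit Crest.Agent.R079.HiF881
  Crest.Agent.R079.ClW59 Crest.Agent.R079.Cel159

open scoped ComplexConjugate

/-- bilinear bound ⟹ operator bound -/
theorem opS_of_bil {S S' : Finset ℤ} {K : ℤ → ℤ → ℂ} {s : ℝ} (_hs : 0 ≤ s)
    (h : ∀ ξ ζ : ℤ → ℂ, ‖∑ u ∈ S, ∑ v ∈ S', K u v * (ξ u * ζ v)‖ ≤
      s * (Real.sqrt (∑ u ∈ S, ‖ξ u‖ ^ 2) * Real.sqrt (∑ v ∈ S', ‖ζ v‖ ^ 2))) :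
    OpS S S' K s := by
  intro f
  set w : ℤ → ℂ := fun u => ∑ v ∈ S', K u v * f v with hw
  have h1 := h (fun u => conj (w u)) f
  have e1 : ∑ u ∈ S, ∑ v ∈ S', K u v * (conj (w u) * f v)
      = ((∑ u ∈ S, ‖w u‖ ^ 2 : ℝ) : ℂ) := by
    push_cast
    refine Finset.sum_congr rfl fun u _ => ?_
    have e2 : ∑ v ∈ S', K u v * (conj (w u) * f v) = conj (w u) * w u := by
      rw [hw]; simp only [Finset.mul_sum]
      exact Finset.sum_congr rfl fun v _ => by ring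
    rw [e2, conj_mul_self]
    push_cast
    rfl
  have e3 : ∑ u ∈ S, ‖conj (w u)‖ ^ 2 = ∑ u ∈ S, ‖w u‖ ^ 2 :=
    Finset.sum_congr rfl fun u _ => by rw [RCLike.norm_conj]
  rw [e1, e3] at h1
  set T : ℝ := ∑ u ∈ S, ‖w u‖ ^ 2 with hT
  set F : ℝ := ∑ v ∈ S', ‖f v‖ ^ 2 with hF
  have hT0 : 0 ≤ T := Finset.sum_nonneg fun _ _ => sq_nonneg _
  have hF0 : 0 ≤ F := Finset.sum_nonneg fun _ _ => sq_nonneg _
  rw [Complex.norm_real, Real.norm_of_nonneg hT0] at h1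
  have hsT := Real.sq_sqrt hT0
  have hsF := Real.sq_sqrt hF0
  have n1 := Real.sqrt_nonneg T
  have n2 := Real.sqrt_nonneg F
  show T ≤ s ^ 2 * F
  rcases n1.eq_or_lt with h0 | h0
  · have : T = 0 := by rw [← hsT, ← h0]; ring
    rw [this]; positivity
  · have h2 : Real.sqrt T ≤ s * Real.sqrt F := by
      have h3 : Real.sqrt T * Real.sqrt T ≤ (s * Real.sqrt F) * Real.sqrt T := by
        nlinarith
      exact le_of_mul_le_mul_right h3 h0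
    have h4 : Real.sqrt T ^ 2 ≤ (s * Real.sqrt F) ^ 2 := pow_le_pow_left₀ n1 h2 2
    rw [hsT, mul_pow, hsF] at h4
    exact h4

/-- operator bound ⟹ bilinear bound -/
theorem bil_of_opS {S S' : Finset ℤ} {K : ℤ → ℤ → ℂ} {s : ℝ} (hs : 0 ≤ s) (h : OpS S S' K s)
    (ξ ζ : ℤ → ℂ) : ‖∑ u ∈ S, ∑ v ∈ S', K u v * (ξ u * ζ v)‖ ≤
      s * (Real.sqrt (∑ u ∈ S, ‖ξ u‖ ^ 2) * Real.sqrt (∑ v ∈ S', ‖ζ v‖ ^ 2)) := by
  have e1 : ∀ u, ∑ v ∈ S', K u v * (ξ u * ζ v) = ξ u * ∑ v ∈ S', K u v * ζ v := by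
    intro u
    rw [Finset.mul_sum]
    exact Finset.sum_congr rfl fun v _ => by ring
  have h1 : ‖∑ u ∈ S, ∑ v ∈ S', K u v * (ξ u * ζ v)‖
      ≤ ∑ u ∈ S, ‖ξ u‖ * ‖∑ v ∈ S', K u v * ζ v‖ := by
    refine (norm_sum_le _ _).trans (le_of_eq ?_)
    exact Finset.sum_congr rfl fun u _ => by rw [e1, norm_mul]
  refine h1.trans ((Real.sum_mul_le_sqrt_mul_sqrt _ _ _).trans ?_)
  have h2 := h ζ
  have h3 : Real.sqrt (∑ u ∈ S, ‖∑ v ∈ S', K u v * ζ v‖ ^ 2)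
      ≤ s * Real.sqrt (∑ v ∈ S', ‖ζ v‖ ^ 2) := by
    refine (Real.sqrt_le_sqrt h2).trans (le_of_eq ?_)
    rw [Real.sqrt_mul (sq_nonneg s), Real.sqrt_sq hs]
  calc Real.sqrt (∑ u ∈ S, ‖ξ u‖ ^ 2) * Real.sqrt (∑ u ∈ S, ‖∑ v ∈ S', K u v * ζ v‖ ^ 2)
      ≤ Real.sqrt (∑ u ∈ S, ‖ξ u‖ ^ 2) * (s * Real.sqrt (∑ v ∈ S', ‖ζ v‖ ^ 2)) :=
        mul_le_mul_of_nonneg_left h3 (Real.sqrt_nonneg _)
    _ = _ := by ring

/-- cells: `OpC K n a b s ↔ OpS (dI n a) (dI n b) K (s * 2 ^ n)` -/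
theorem opC_iff {K : ℤ → ℤ → ℂ} {n : ℕ} {a b : ℤ} {s : ℝ} (hs : 0 ≤ s) :
    OpC K n a b s ↔ OpS (dI n a) (dI n b) K (s * 2 ^ n) :=
  ⟨fun h => opS_of_bil (by positivity) h, fun h => bil_of_opS (by positivity) h⟩

/-- **nearest point = clip**: a kernel in the ball of a rectangle at minimal distance is `cl A` -/
theorem near_eq_cl {A B : ℤ → ℤ → ℂ} {S S' : Finset ℤ} {s : ℝ} (hs : 0 ≤ s) (hB : OpS S S' B s)
    (hmin : ∀ C, OpS S S' C s → ∑ x ∈ S, ∑ y ∈ S', ‖A x y - B x y‖ ^ 2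
      ≤ ∑ x ∈ S, ∑ y ∈ S', ‖A x y - C x y‖ ^ 2) :
    ∀ x ∈ S, ∀ y ∈ S', B x y = cl A S S' s x y := by
  have h1 := hmin _ (cl_op A S S' hs)
  rw [cl_dist] at h1
  have h2 := DQ_gap A hs hB
  unfold nq at h2
  have h3 : ∑ x ∈ S, ∑ y ∈ S', ‖cl A S S' s x y - B x y‖ ^ 2 ≤ 0 := by linarith
  have h4 : ∑ x ∈ S, ∑ y ∈ S', ‖cl A S S' s x y - B x y‖ ^ 2 = 0 :=
    le_antisymm h3 (Finset.sum_nonneg fun _ _ => Finset.sum_nonneg fun _ _ => sq_nonneg _)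
  intro x hx y hy
  have h5 := (Finset.sum_eq_zero_iff_of_nonneg
    (fun _ _ => Finset.sum_nonneg fun _ _ => sq_nonneg _)).1 h4 x hx
  have h6 := (Finset.sum_eq_zero_iff_of_nonneg (fun _ _ => sq_nonneg _)).1 h5 y hy
  have h7 : cl A S S' s x y - B x y = 0 := by simpa using h6
  exact (sub_eq_zero.1 h7).symm

/-- variational form: `Re ⟨A - B, C - B⟩ ≤ 0` for all `C` in the ball gives minimal distance -/
theorem near_eq_cl_var {A B : ℤ → ℤ → ℂ} {S S' : Finset ℤ} {s : ℝ} (hs : 0 ≤ s)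
    (hB : OpS S S' B s)
    (hvar : ∀ C, OpS S S' C s → ∑ x ∈ S, ∑ y ∈ S',
      ((A x y - B x y) * conj (C x y - B x y)).re ≤ 0) :
    ∀ x ∈ S, ∀ y ∈ S', B x y = cl A S S' s x y := by
  refine near_eq_cl hs hB fun C hC => ?_
  have h1 := hvar C hC
  have h2 : ∀ x y, ‖A x y - C x y‖ ^ 2 = ‖A x y - B x y‖ ^ 2
      - 2 * ((A x y - B x y) * conj (C x y - B x y)).re + ‖C x y - B x y‖ ^ 2 := by
    intro x y
    have e : A x y - C x y = (A x y - B x y) - (C x y - B x y) := by ring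
    rw [e]
    simp only [← Complex.normSq_eq_norm_sq]
    rw [Complex.normSq_sub]
    ring
  have h3 : ∑ x ∈ S, ∑ y ∈ S', ‖A x y - C x y‖ ^ 2
      = ∑ x ∈ S, ∑ y ∈ S', ‖A x y - B x y‖ ^ 2
        - 2 * ∑ x ∈ S, ∑ y ∈ S', ((A x y - B x y) * conj (C x y - B x y)).re
        + ∑ x ∈ S, ∑ y ∈ S', ‖C x y - B x y‖ ^ 2 := by
    simp only [h2, Finset.sum_add_distrib, Finset.sum_sub_distrib, Finset.mul_sum]
  have h4 : 0 ≤ ∑ x ∈ S, ∑ y ∈ S', ‖C x y - B x y‖ ^ 2 :=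
    Finset.sum_nonneg fun _ _ => Finset.sum_nonneg fun _ _ => sq_nonneg _
  rw [h3]
  linarith

end Crest.Agent.R079.PjC881
end

-- ▼ part R079/PjD_881

/-! R079, S1 (c) (helper881): for a band system (ThA_159) whose node `p` splits into disjoint
rectangles (cells) with `Adm r p B ↔ op ≤ r w` on every cell, the projection `Pj` IS the clip on every
cell; hence `comp` (`Pj r (Pj r' A) = Pj r A`, `r ≤ r'`) and `top` of 778's `el_ladder`. -/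

set_option autoImplicit false

namespace Crest.Agent.R079.PjC881

open Finset Crest.Agent.R079.Grid Crest.Agent.R079.Growth Crest.Agent.R079.QRed
  Crest.Agent.R079.Qh249 Crest.Agent.R079.TWin Crest.Agent.R079.HiF881
  Crest.Agent.R079.ClW59 Crest.Agent.R079.ThA159

/-- the node `p` splits into cells `{z c} × S c × T c` with weights `w c` -/
structure Split {κ : Type*} (Bd : Nd → Finset (ℤ × ℤ × ℤ)) (N : Nd → (ℤ × ℤ × ℤ → ℂ) → ℝ) (p : Nd)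
    (cells : Finset κ) (z : κ → ℤ) (S T : κ → Finset ℤ) (w : κ → ℝ) : Prop where
  mem : ∀ ω, ω ∈ Bd p ↔ ∃ c ∈ cells, ω ∈ ({z c} : Finset ℤ) ×ˢ (S c ×ˢ T c)
  dj : ∀ c ∈ cells, ∀ c' ∈ cells, c ≠ c' →
    ∀ ω, ω ∈ ({z c} : Finset ℤ) ×ˢ (S c ×ˢ T c) → ω ∉ ({z c'} : Finset ℤ) ×ˢ (S c' ×ˢ T c')
  w0 : ∀ c ∈ cells, 0 ≤ w c
  adm : ∀ r : ℝ, 0 ≤ r → ∀ B : ℤ × ℤ × ℤ → ℂ, (∀ ω, ω ∉ Bd p → B ω = 0) →
    (N p B ≤ r ↔ ∀ c ∈ cells, OpS (S c) (T c) (fun u v => B (z c, u, v)) (r * w c))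

theorem opS_congr {S T : Finset ℤ} {B B' : ℤ → ℤ → ℂ} {s : ℝ} (h : OpS S T B s)
    (e : ∀ u ∈ S, ∀ v ∈ T, B u v = B' u v) : OpS S T B' s := by
  intro f
  refine le_trans (le_of_eq ?_) (h f)
  refine Finset.sum_congr rfl fun u hu => ?_
  congr 2
  exact Finset.sum_congr rfl fun v hv => by rw [e u hu v hv]


variable {κ : Type*} {Bd : Nd → Finset (ℤ × ℤ × ℤ)} {pos : ℤ × ℤ × ℤ → ℤ}
  {N : Nd → (ℤ × ℤ × ℤ → ℂ) → ℝ} {ν : ℝ} {p : Nd}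
  {cells : Finset κ} {z : κ → ℤ} {S T : κ → Finset ℤ} {w : κ → ℝ}

/-- the projection is the clip on every cell -/
theorem Pj_cell (hB : Bnd Bd pos N ν) (hs : Split Bd N p cells z S T w) {r : ℝ} (hr : 0 ≤ r)
    (A : ℤ × ℤ × ℤ → ℂ) {c : κ} (hc : c ∈ cells) :
    ∀ u ∈ S c, ∀ v ∈ T c, Pj Bd N r p A (z c, u, v)
      = cl (fun u v => A (z c, u, v)) (S c) (T c) (r * w c) u v := by
  classical
  obtain ⟨hP, hmin⟩ := Pj_spec hB hr p A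
  set P : ℤ × ℤ × ℤ → ℂ := Pj Bd N r p A with hPd
  have hop := (hs.adm r hr P hP.1).1 hP.2
  set F : Finset (ℤ × ℤ × ℤ) := ({z c} : Finset ℤ) ×ˢ (S c ×ˢ T c) with hF
  have hFB : F ⊆ Bd p := fun ω hω => (hs.mem ω).2 ⟨c, hc, hω⟩
  refine near_eq_cl (mul_nonneg hr (hs.w0 c hc)) (hop c hc) fun C hC => ?_
  set B' : ℤ × ℤ × ℤ → ℂ := fun ω => if ω ∈ F then C ω.2.1 ω.2.2 else P ω with hB'
  have hsupp : ∀ ω, ω ∉ Bd p → B' ω = 0 := by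
    intro ω hω
    have h1 : ω ∉ F := fun h => hω (hFB h)
    simp only [hB', if_neg h1]
    exact hP.1 ω hω
  have hadm : Adm Bd N r p B' := by
    refine ⟨hsupp, (hs.adm r hr B' hsupp).2 ?_⟩
    intro c' hc'
    by_cases e : c' = c
    · subst e
      refine opS_congr hC fun u hu v hv => ?_
      have h1 : ((z c', u, v) : ℤ × ℤ × ℤ) ∈ F := by
        rw [hF]; simp [hu, hv]
      simp only [hB', if_pos h1]
    · refine opS_congr (hop c' hc') fun u hu v hv => ?_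
      have h1 : ((z c', u, v) : ℤ × ℤ × ℤ) ∈ ({z c'} : Finset ℤ) ×ˢ (S c' ×ˢ T c') := by
        simp [hu, hv]
      have h2 : ((z c', u, v) : ℤ × ℤ × ℤ) ∉ F := hs.dj c' hc' c hc e _ h1
      simp only [hB', if_neg h2]
  have h1 := hmin B' hadm
  unfold dst at h1
  rw [← Finset.sum_sdiff hFB, ← Finset.sum_sdiff hFB (f := fun ω => ‖A ω - B' ω‖ ^ 2)] at h1
  have h2 : ∑ ω ∈ Bd p \ F, ‖A ω - B' ω‖ ^ 2 = ∑ ω ∈ Bd p \ F, ‖A ω - P ω‖ ^ 2 := by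
    refine Finset.sum_congr rfl fun ω hω => ?_
    rw [Finset.mem_sdiff] at hω
    simp only [hB', if_neg hω.2]
  rw [h2] at h1
  have h3 : ∑ ω ∈ F, ‖A ω - P ω‖ ^ 2 ≤ ∑ ω ∈ F, ‖A ω - B' ω‖ ^ 2 := by linarith
  have h4 : ∑ ω ∈ F, ‖A ω - B' ω‖ ^ 2 = ∑ ω ∈ F, ‖A ω - C ω.2.1 ω.2.2‖ ^ 2 := by
    refine Finset.sum_congr rfl fun ω hω => ?_
    simp only [hB', if_pos hω]
  rw [h4] at h3
  rw [hF] at h3
  simp only [Finset.sum_product, Finset.sum_singleton] at h3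
  exact h3



end Crest.Agent.R079.PjC881
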