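import Crest.Agent.R079.CelB_159
import Crest.Agent.R079.ClX_59
import Crest.Agent.R079.PjD_881

-- ▼ part R079/CelC_159
section

/-! R079 (helper159): on a maximal cell the projection of `CelB_159` IS helper881's singular value
clip (helper59's `cl` on rectangles), for product masks. -/

set_option autoImplicit false

namespace Crest.Agent.R079.Cel159

open Finset Crest.Agent.R079.Grid Crest.Agent.R079.Growth Crest.Agent.R079.QRed
  Crest.Agent.R079.Qh249 Crest.Agent.R079.QVar181 Crest.Agent.R079.TWin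
open Crest.Agent.R079.ThA159
open Crest.Agent.R079.Whit (Ins Ins.mono Ins.sub sub0 sub1)
open Crest.Agent.R079.ClW59 (OpS DQ cl nq DQ_gap cl_op cl_dist)

lemma opC_of_opS {K : ℤ → ℤ → ℂ} {n : ℕ} {a b : ℤ} {s : ℝ} (hs : 0 ≤ s)
    (h : OpS (dI n a) (dI n b) K (s * 2 ^ n)) : OpC K n a b s := by
  intro ξ ζ
  have e : ∑ u ∈ dI n a, ∑ v ∈ dI n b, K u v * (ξ u * ζ v)
      = ∑ u ∈ dI n a, ξ u * ∑ v ∈ dI n b, K u v * ζ v := by
    refine Finset.sum_congr rfl fun u _ => ?_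
    rw [Finset.mul_sum]
    exact Finset.sum_congr rfl fun v _ => by ring
  rw [e]
  have h1 : ‖∑ u ∈ dI n a, ξ u * ∑ v ∈ dI n b, K u v * ζ v‖
      ≤ ∑ u ∈ dI n a, ‖ξ u‖ * ‖∑ v ∈ dI n b, K u v * ζ v‖ := by
    refine (norm_sum_le _ _).trans (le_of_eq ?_)
    exact Finset.sum_congr rfl fun u _ => norm_mul _ _
  have h2 := Real.sum_mul_le_sqrt_mul_sqrt (dI n a) (fun u => ‖ξ u‖)
    (fun u => ‖∑ v ∈ dI n b, K u v * ζ v‖)
  have h3 : Real.sqrt (∑ u ∈ dI n a, ‖∑ v ∈ dI n b, K u v * ζ v‖ ^ 2)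
      ≤ s * 2 ^ n * Real.sqrt (∑ v ∈ dI n b, ‖ζ v‖ ^ 2) := by
    have h4 := Real.sqrt_le_sqrt (h ζ)
    rw [Real.sqrt_mul (by positivity), Real.sqrt_sq (by positivity)] at h4
    exact h4
  have h5 := mul_le_mul_of_nonneg_left h3 (Real.sqrt_nonneg (∑ u ∈ dI n a, ‖ξ u‖ ^ 2))
  calc _ ≤ _ := h1
    _ ≤ _ := h2
    _ ≤ _ := h5
    _ = _ := by ring

lemma opS_of_opC {K : ℤ → ℤ → ℂ} {n : ℕ} {a b : ℤ} {s : ℝ}
    (h : OpC K n a b s) : OpS (dI n a) (dI n b) K (s * 2 ^ n) := by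
  intro f
  set g : ℤ → ℂ := fun u => ∑ v ∈ dI n b, K u v * f v with hg
  set G : ℝ := ∑ u ∈ dI n a, ‖g u‖ ^ 2 with hG
  have hG0 : 0 ≤ G := Finset.sum_nonneg fun _ _ => sq_nonneg _
  have h1 := h (fun u => starRingEnd ℂ (g u)) f
  have e : ∑ u ∈ dI n a, ∑ v ∈ dI n b, K u v * (starRingEnd ℂ (g u) * f v) = (G : ℂ) := by
    rw [hG]
    push_cast
    refine Finset.sum_congr rfl fun u _ => ?_
    have e1 : ∑ v ∈ dI n b, K u v * (starRingEnd ℂ (g u) * f v) = starRingEnd ℂ (g u) * g u := by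
      rw [hg]
      simp only
      rw [Finset.mul_sum]
      exact Finset.sum_congr rfl fun v _ => by ring
    rw [e1, mul_comm, Complex.mul_conj, Complex.normSq_eq_norm_sq]
    push_cast
    ring
  rw [e, Complex.norm_real, Real.norm_eq_abs, abs_of_nonneg hG0] at h1
  have e2 : ∑ u ∈ dI n a, ‖starRingEnd ℂ (g u)‖ ^ 2 = G := by
    rw [hG]
    exact Finset.sum_congr rfl fun u _ => by rw [RCLike.norm_conj]
  rw [e2] at h1
  show G ≤ (s * 2 ^ n) ^ 2 * ∑ v ∈ dI n b, ‖f v‖ ^ 2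
  have hF0 : 0 ≤ ∑ v ∈ dI n b, ‖f v‖ ^ 2 := Finset.sum_nonneg fun _ _ => sq_nonneg _
  rcases hG0.eq_or_lt with h0 | hpos
  · rw [← h0]
    positivity
  · have hsq : 0 < Real.sqrt G := Real.sqrt_pos.2 hpos
    have h2 : Real.sqrt G * Real.sqrt G = G := Real.mul_self_sqrt hG0
    have h3 : Real.sqrt G ≤ s * 2 ^ n * Real.sqrt (∑ v ∈ dI n b, ‖f v‖ ^ 2) := by
      have h4 : Real.sqrt G * Real.sqrt G
          ≤ (s * 2 ^ n * Real.sqrt (∑ v ∈ dI n b, ‖f v‖ ^ 2)) * Real.sqrt G := by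
        rw [h2]
        refine h1.trans (le_of_eq ?_)
        ring
      exact le_of_mul_le_mul_right h4 hsq
    calc G = Real.sqrt G ^ 2 := (Real.sq_sqrt hG0).symm
      _ ≤ (s * 2 ^ n * Real.sqrt (∑ v ∈ dI n b, ‖f v‖ ^ 2)) ^ 2 :=
        pow_le_pow_left₀ hsq.le h3 2
      _ = _ := by rw [mul_pow, Real.sq_sqrt hF0]

section inst

variable {Y : ℤ → ℤ → ℤ → ℤ} {k : ℕ} {T₀ T₁ T₂ : Finset ℤ}

open Classical in
/-- restricting a kernel to a product mask does not increase the operator norm of a cell -/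
lemma OpC.mask {K : ℤ → ℤ → ℂ} {n : ℕ} {a b : ℤ} {s : ℝ} (hs : 0 ≤ s) (h : OpC K n a b s)
    (P Q : ℤ → Prop) : OpC (fun u v => if P u ∧ Q v then K u v else 0) n a b s := by
  intro ξ ζ
  have e : ∑ u ∈ dI n a, ∑ v ∈ dI n b, (if P u ∧ Q v then K u v else 0) * (ξ u * ζ v)
      = ∑ u ∈ dI n a, ∑ v ∈ dI n b, K u v * ((if P u then ξ u else 0) *
        (if Q v then ζ v else 0)) := by
    refine Finset.sum_congr rfl fun u _ => Finset.sum_congr rfl fun v _ => ?_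
    by_cases hp : P u <;> by_cases hq : Q v <;> simp [hp, hq]
  rw [e]
  refine (h _ _).trans ?_
  have hm : ∀ (T : Finset ℤ) (R : ℤ → Prop) (φ : ℤ → ℂ),
      Real.sqrt (∑ u ∈ T, ‖if R u then φ u else 0‖ ^ 2) ≤ Real.sqrt (∑ u ∈ T, ‖φ u‖ ^ 2) := by
    intro T R φ
    refine Real.sqrt_le_sqrt (Finset.sum_le_sum fun u _ => ?_)
    split_ifs
    · exact le_rfl
    · rw [norm_zero, zero_pow two_ne_zero]
      exact sq_nonneg _
  refine mul_le_mul_of_nonneg_left ?_ (by positivity)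
  exact mul_le_mul (hm _ _ _) (hm _ _ _) (Real.sqrt_nonneg _) (Real.sqrt_nonneg _)

open Classical in
/-- **bridge**: on a maximal cell the projection is the clip of the masked kernel -/
theorem Pj_eq_cl {ν : ℝ}
    (hB : Bnd (fun p => (T₀ ×ˢ T₁ ×ˢ T₂).filter (fun ω => Y ω.1 ω.2.1 ω.2.2 ∈ iv p))
      (fun ω => Y ω.1 ω.2.1 ω.2.2) (NmP (T₀ ×ˢ T₁ ×ˢ T₂) cf (okc Y k)) ν) {r : ℝ} (hr : 0 ≤ r)
    (p : Nd) (A : ℤ × ℤ × ℤ → ℂ) {z : ℤ} (hz : z ∈ T₀) {n : ℕ} {a b : ℤ}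
    (hM : Mx (Y z) k p n a b) {u v : ℤ} (hu : u ∈ dI n a) (hv : v ∈ dI n b) :
    msk (T₀ ×ˢ T₁ ×ˢ T₂) (Pj (fun p => (T₀ ×ˢ T₁ ×ˢ T₂).filter
      (fun ω => Y ω.1 ω.2.1 ω.2.2 ∈ iv p)) (NmP (T₀ ×ˢ T₁ ×ˢ T₂) cf (okc Y k)) r p A) z u v
      = cl (msk (T₀ ×ˢ T₁ ×ˢ T₂) A z) (dI n a) (dI n b) (r * 2 ^ n) u v := by
  set S : Finset (ℤ × ℤ × ℤ) := T₀ ×ˢ T₁ ×ˢ T₂ with hS
  set P := Pj (fun p => S.filter (fun ω => Y ω.1 ω.2.1 ω.2.2 ∈ iv p)) (NmP S cf (okc Y k)) r p A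
    with hP
  set C : ℤ → ℤ → ℂ := cl (msk S A z) (dI n a) (dI n b) (r * 2 ^ n) with hC
  have hr2 : 0 ≤ r * 2 ^ n := by positivity
  have hmem : ∀ u v, (z, u, v) ∈ S ↔ u ∈ T₁ ∧ v ∈ T₂ := by
    intro u v
    rw [hS, Finset.mem_product, Finset.mem_product]
    exact ⟨fun h => h.2, fun h => ⟨hz, h⟩⟩
  have hCop : OpC C n a b r := opC_of_opS hr (cl_op _ _ _ hr2)
  have hDop : OpC (msk S (fun ω => C ω.2.1 ω.2.2) z) n a b r := by
    refine (hCop.mask hr (fun u => u ∈ T₁) (fun v => v ∈ T₂)).congr fun u _ v _ => ?_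
    unfold msk
    by_cases h : (z, u, v) ∈ S
    · rw [if_pos h, if_pos ((hmem u v).1 h)]
    · rw [if_neg h, if_neg fun h' => h ((hmem u v).2 h')]
  have h1 := Pj_cell hB hr p A hM hDop
  rw [← hP] at h1
  have hPop := opS_of_opC (Pj_op hB hr p A hM)
  rw [← hP] at hPop
  have h2 := DQ_gap (msk S A z) hr2 hPop
  have h3 := cl_dist (msk S A z) (dI n a) (dI n b) (r * 2 ^ n)
  rw [← hC] at h2 h3
  -- sums over the cell
  have hsum : ∀ D : ℤ × ℤ × ℤ → ℂ, ∑ ω ∈ S.filter (fun ω => ω.1 = z ∧ ω.2.1 ∈ dI n a ∧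
      ω.2.2 ∈ dI n b), ‖A ω - D ω‖ ^ 2
      = ∑ u ∈ dI n a, ∑ v ∈ dI n b, if (z, u, v) ∈ S then ‖A (z, u, v) - D (z, u, v)‖ ^ 2 else 0 := by
    intro D
    rw [← Finset.sum_product', ← Finset.sum_filter]
    refine Finset.sum_bij' (fun ω _ => ω.2) (fun q _ => (z, q)) ?_ ?_ ?_ ?_ ?_
    · intro ω hω
      rw [Finset.mem_filter] at hω
      rw [Finset.mem_filter, Finset.mem_product]
      refine ⟨hω.2.2, ?_⟩
      show (z, ω.2) ∈ S
      rw [← hω.2.1]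
      exact hω.1
    · intro q hq
      rw [Finset.mem_filter, Finset.mem_product] at hq
      rw [Finset.mem_filter]
      exact ⟨hq.2, rfl, hq.1⟩
    · intro ω hω
      rw [Finset.mem_filter] at hω
      show (z, ω.2) = ω
      rw [← hω.2.1]
    · intro q _
      rfl
    · intro ω hω
      rw [Finset.mem_filter] at hω
      show ‖A ω - D ω‖ ^ 2 = ‖A (z, ω.2) - D (z, ω.2)‖ ^ 2
      rw [← hω.2.1]
  rw [hsum, hsum] at h1
  have e1 : nq (fun x y => msk S A z x y - msk S P z x y) (dI n a) (dI n b)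
      = ∑ u ∈ dI n a, ∑ v ∈ dI n b, if (z, u, v) ∈ S then ‖A (z, u, v) - P (z, u, v)‖ ^ 2 else 0 := by
    unfold nq
    refine Finset.sum_congr rfl fun u _ => Finset.sum_congr rfl fun v _ => ?_
    show ‖msk S A z u v - msk S P z u v‖ ^ 2 = _
    unfold msk
    by_cases h : (z, u, v) ∈ S
    · rw [if_pos h, if_pos h, if_pos h]
    · rw [if_neg h, if_neg h, if_neg h, sub_zero, norm_zero, zero_pow two_ne_zero]
  have e2 : ∑ u ∈ dI n a, ∑ v ∈ dI n b, (if (z, u, v) ∈ S then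
        ‖A (z, u, v) - C u v‖ ^ 2 else 0)
      ≤ ∑ u ∈ dI n a, ∑ v ∈ dI n b, ‖msk S A z u v - C u v‖ ^ 2 := by
    refine Finset.sum_le_sum fun u _ => Finset.sum_le_sum fun v _ => ?_
    unfold msk
    by_cases h : (z, u, v) ∈ S
    · rw [if_pos h, if_pos h]
    · rw [if_neg h]
      exact sq_nonneg _
  have h4 : nq (fun x y => C x y - msk S P z x y) (dI n a) (dI n b) ≤ 0 := by
    have h5 : ∑ u ∈ dI n a, ∑ v ∈ dI n b, (if (z, u, v) ∈ S then
        ‖A (z, u, v) - P (z, u, v)‖ ^ 2 else 0) ≤ DQ (msk S A z) (dI n a) (dI n b) (r * 2 ^ n) := by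
      refine h1.trans (le_trans ?_ (le_of_eq h3))
      exact e2
    rw [e1] at h2
    linarith
  unfold nq at h4
  have h5 : ∑ u ∈ dI n a, ∑ v ∈ dI n b, ‖C u v - msk S P z u v‖ ^ 2 = 0 :=
    le_antisymm h4 (Finset.sum_nonneg fun _ _ => Finset.sum_nonneg fun _ _ => sq_nonneg _)
  have h6 := (Finset.sum_eq_zero_iff_of_nonneg fun _ _ =>
    Finset.sum_nonneg fun _ _ => sq_nonneg _).1 h5 u hu
  have h7 := (Finset.sum_eq_zero_iff_of_nonneg fun _ _ => sq_nonneg _).1 h6 v hv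
  have h8 : C u v - msk S P z u v = 0 := by
    have := pow_eq_zero_iff (two_ne_zero) |>.1 h7
    exact norm_eq_zero.1 this
  exact (sub_eq_zero.1 h8).symm

end inst

end Crest.Agent.R079.Cel159
end

-- ▼ part R079/CelD_159

/-! R079 (helper159): the Whitney-cell band system `bnd_cell` splits into disjoint rectangles in the
sense of helper881's `PjC881.Split` (product masks). -/

set_option autoImplicit false

namespace Crest.Agent.R079.Cel159

open Finset Crest.Agent.R079.Grid Crest.Agent.R079.Growth Crest.Agent.R079.QRed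
  Crest.Agent.R079.Qh249 Crest.Agent.R079.QVar181 Crest.Agent.R079.TWin
open Crest.Agent.R079.ThA159
open Crest.Agent.R079.Whit (Ins Ins.mono Ins.sub sub0 sub1)
open Crest.Agent.R079.ClW59 (OpS)

variable {Y : ℤ → ℤ → ℤ → ℤ} {k : ℕ} {T₀ T₁ T₂ : Finset ℤ}

open Classical in
/-- scale of the maximal cell of a point -/
noncomputable def sc (Y : ℤ → ℤ → ℤ → ℤ) (k : ℕ) (p : Nd) (ω : ℤ × ℤ × ℤ) : ℕ :=
  Nat.findGreatest (fun n => Ins (Y ω.1) (iv p) n (ω.2.1 / 2 ^ n) (ω.2.2 / 2 ^ n)) (p.1 + k)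

/-- maximal cell of a point -/
noncomputable def mcell (Y : ℤ → ℤ → ℤ → ℤ) (k : ℕ) (p : Nd) (ω : ℤ × ℤ × ℤ) :
    ℤ × ℕ × ℤ × ℤ :=
  (ω.1, sc Y k p ω, ω.2.1 / 2 ^ sc Y k p ω, ω.2.2 / 2 ^ sc Y k p ω)

lemma Mx_mcell {p : Nd} {ω : ℤ × ℤ × ℤ} (h : Y ω.1 ω.2.1 ω.2.2 ∈ iv p) :
    Mx (Y ω.1) k p (sc Y k p ω) (ω.2.1 / 2 ^ sc Y k p ω) (ω.2.2 / 2 ^ sc Y k p ω) := by
  classical
  have h0 : Ins (Y ω.1) (iv p) 0 (ω.2.1 / 2 ^ 0) (ω.2.2 / 2 ^ 0) := by
    intro z hz z' hz'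
    rw [L0e.mem_dI] at hz hz'
    simp only [pow_zero, Int.ediv_one] at hz hz'
    rw [hz, hz']
    exact h
  have h1 : Ins (Y ω.1) (iv p) (sc Y k p ω) (ω.2.1 / 2 ^ sc Y k p ω)
      (ω.2.2 / 2 ^ sc Y k p ω) := by
    unfold sc
    exact Nat.findGreatest_spec
      (P := fun n => Ins (Y ω.1) (iv p) n (ω.2.1 / 2 ^ n) (ω.2.2 / 2 ^ n)) (Nat.zero_le _) h0
  have h2 : sc Y k p ω ≤ p.1 + k := by
    unfold sc
    exact Nat.findGreatest_le _
  refine ⟨h2, h1, ?_⟩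
  by_cases he : sc Y k p ω = p.1 + k
  · exact Or.inl he
  · refine Or.inr fun hi => ?_
    have e : ∀ x : ℤ, x / 2 ^ sc Y k p ω / 2 = x / 2 ^ (sc Y k p ω + 1) := by
      intro x
      rw [pow_succ, Int.ediv_ediv_of_nonneg (by positivity)]
    rw [e, e] at hi
    have h3 : sc Y k p ω + 1 ≤ sc Y k p ω := by
      conv_rhs => unfold sc
      exact Nat.le_findGreatest
        (P := fun n => Ins (Y ω.1) (iv p) n (ω.2.1 / 2 ^ n) (ω.2.2 / 2 ^ n)) (by omega) hi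
    omega

lemma opS_sub {S S' T T' : Finset ℤ} {K : ℤ → ℤ → ℂ} {s : ℝ} (hS : S' ⊆ S) (hT : T' ⊆ T)
    (h : OpS S T K s) : OpS S' T' K s := by
  classical
  intro f
  have h1 := h (fun v => if v ∈ T' then f v else 0)
  have e1 : ∀ u : ℤ, ∑ v ∈ T, K u v * (if v ∈ T' then f v else 0) = ∑ v ∈ T', K u v * f v := by
    intro u
    rw [← Finset.sum_subset hT]
    · exact Finset.sum_congr rfl fun v hv => by rw [if_pos hv]
    · intro v _ hv
      rw [if_neg hv, mul_zero]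
  have e2 : ∑ v ∈ T, ‖if v ∈ T' then f v else 0‖ ^ 2 = ∑ v ∈ T', ‖f v‖ ^ 2 := by
    rw [← Finset.sum_subset hT]
    · exact Finset.sum_congr rfl fun v hv => by rw [if_pos hv]
    · intro v _ hv
      rw [if_neg hv, norm_zero, zero_pow two_ne_zero]
  simp only [e1] at h1
  rw [e2] at h1
  exact (Finset.sum_le_sum_of_subset_of_nonneg hS fun _ _ _ => sq_nonneg _).trans h1

lemma opS_ext {S S' T T' : Finset ℤ} {K K' : ℤ → ℤ → ℂ} {s : ℝ} (hS : S' ⊆ S) (hT : T' ⊆ T)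
    (h : OpS S' T' K s) (e : ∀ u ∈ S', ∀ v ∈ T', K' u v = K u v)
    (e0 : ∀ u ∈ S, ∀ v ∈ T, ¬ (u ∈ S' ∧ v ∈ T') → K' u v = 0) : OpS S T K' s := by
  classical
  intro f
  have e1 : ∀ u ∈ S', ∑ v ∈ T, K' u v * f v = ∑ v ∈ T', K u v * f v := by
    intro u hu
    rw [← Finset.sum_subset hT]
    · exact Finset.sum_congr rfl fun v hv => by rw [e u hu v hv]
    · intro v hv hv'
      rw [e0 u (hS hu) v hv fun hc => hv' hc.2, zero_mul]
  have e2 : ∑ u ∈ S, ‖∑ v ∈ T, K' u v * f v‖ ^ 2 = ∑ u ∈ S', ‖∑ v ∈ T', K u v * f v‖ ^ 2 := by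
    rw [← Finset.sum_subset hS]
    · exact Finset.sum_congr rfl fun u hu => by rw [e1 u hu]
    · intro u hu hu'
      rw [Finset.sum_eq_zero fun v hv => by rw [e0 u hu v hv fun hc => hu' hc.1, zero_mul],
        norm_zero, zero_pow two_ne_zero]
  rw [e2]
  refine (h f).trans ?_
  exact mul_le_mul_of_nonneg_left
    (Finset.sum_le_sum_of_subset_of_nonneg hT fun _ _ _ => sq_nonneg _) (sq_nonneg _)

open Classical in
/-- **the band of a node splits into its maximal cells** -/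
theorem split_cell (p : Nd) :
    PjC881.Split (fun p => (T₀ ×ˢ T₁ ×ˢ T₂).filter (fun ω => Y ω.1 ω.2.1 ω.2.2 ∈ iv p))
      (NmP (T₀ ×ˢ T₁ ×ˢ T₂) cf (okc Y k)) p
      (((T₀ ×ˢ T₁ ×ˢ T₂).filter (fun ω => Y ω.1 ω.2.1 ω.2.2 ∈ iv p)).image (mcell Y k p))
      (fun c => c.1) (fun c => dI c.2.1 c.2.2.1 ∩ T₁) (fun c => dI c.2.1 c.2.2.2 ∩ T₂)
      (fun c => 2 ^ c.2.1) := by
  have hM : ∀ c ∈ ((T₀ ×ˢ T₁ ×ˢ T₂).filter (fun ω => Y ω.1 ω.2.1 ω.2.2 ∈ iv p)).image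
      (mcell Y k p), c.1 ∈ T₀ ∧ Mx (Y c.1) k p c.2.1 c.2.2.1 c.2.2.2 := by
    intro c hc
    obtain ⟨ω, hω, rfl⟩ := Finset.mem_image.1 hc
    rw [Finset.mem_filter, Finset.mem_product] at hω
    exact ⟨hω.1.1, Mx_mcell hω.2⟩
  have hself : ∀ (n : ℕ) (x : ℤ), x ∈ dI n (x / 2 ^ n) := fun n x => by rw [L0e.mem_dI]
  refine ⟨fun ω => ⟨fun hω => ?_, fun hω => ?_⟩, ?_, fun c _ => by positivity, ?_⟩
  · refine ⟨mcell Y k p ω, Finset.mem_image_of_mem _ hω, ?_⟩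
    rw [Finset.mem_filter, Finset.mem_product, Finset.mem_product] at hω
    simp only [Finset.mem_product, Finset.mem_singleton, Finset.mem_inter]
    exact ⟨rfl, ⟨hself _ _, hω.1.2.1⟩, ⟨hself _ _, hω.1.2.2⟩⟩
  · obtain ⟨c, hc, h⟩ := hω
    obtain ⟨h0, hm⟩ := hM c hc
    simp only [Finset.mem_product, Finset.mem_singleton, Finset.mem_inter] at h
    rw [Finset.mem_filter, Finset.mem_product, Finset.mem_product]
    refine ⟨⟨by rw [h.1]; exact h0, h.2.1.2, h.2.2.2⟩, ?_⟩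
    have h1 := hm.2.1 _ h.2.1.1 _ h.2.2.1
    rw [h.1]
    exact h1
  · intro c hc c' hc' hne ω h h'
    obtain ⟨_, hm⟩ := hM c hc
    obtain ⟨_, hm'⟩ := hM c' hc'
    simp only [Finset.mem_product, Finset.mem_singleton, Finset.mem_inter] at h h'
    have hz : c.1 = c'.1 := h.1.symm.trans h'.1
    rw [← hz] at hm'
    obtain ⟨e1, e2, e3⟩ := Mx_eq hm hm' h.2.1.1 h'.2.1.1 h.2.2.1 h'.2.2.1
    exact hne (Prod.ext hz (Prod.ext e1 (Prod.ext e2 e3)))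
  · intro r hr B hB
    rw [N_iff hr]
    constructor
    · intro h c hc
      obtain ⟨h0, hm⟩ := hM c hc
      have h1 := opS_sub (S' := dI c.2.1 c.2.2.1 ∩ T₁) (T' := dI c.2.1 c.2.2.2 ∩ T₂)
        Finset.inter_subset_left Finset.inter_subset_left (opS_of_opC (h _ _ _ _ hm))
      refine PjC881.opS_congr h1 fun u hu v hv => ?_
      unfold msk
      rw [if_pos]
      rw [Finset.mem_product, Finset.mem_product]
      exact ⟨h0, (Finset.mem_inter.1 hu).2, (Finset.mem_inter.1 hv).2⟩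
    · intro h z n a b hm
      refine opC_of_opS hr ?_
      by_cases hex : ∃ u v, u ∈ dI n a ∧ v ∈ dI n b ∧ (z, u, v) ∈ T₀ ×ˢ T₁ ×ˢ T₂
      · obtain ⟨u, v, hu, hv, hs⟩ := hex
        have hω : (z, u, v) ∈ (T₀ ×ˢ T₁ ×ˢ T₂).filter (fun ω => Y ω.1 ω.2.1 ω.2.2 ∈ iv p) :=
          Finset.mem_filter.2 ⟨hs, hm.2.1 u hu v hv⟩
        have hmc := Mx_mcell (Y := Y) (k := k) (p := p) (ω := (z, u, v))
          (Finset.mem_filter.1 hω).2
        obtain ⟨e1, e2, e3⟩ := Mx_eq hm hmc hu (hself _ _) hv (hself _ _)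
        have hc : mcell Y k p (z, u, v) = (z, n, a, b) := by
          unfold mcell
          exact Prod.ext rfl (Prod.ext e1.symm (Prod.ext e2.symm e3.symm))
        have h1 := h (z, n, a, b) (by
          rw [← hc]
          exact Finset.mem_image_of_mem _ hω)
        have hz : z ∈ T₀ := (Finset.mem_product.1 hs).1
        refine opS_ext Finset.inter_subset_left Finset.inter_subset_left h1 ?_ ?_
        · intro u hu v hv
          unfold msk
          rw [if_pos]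
          rw [Finset.mem_product, Finset.mem_product]
          exact ⟨hz, (Finset.mem_inter.1 hu).2, (Finset.mem_inter.1 hv).2⟩
        · intro u hu v hv hn
          unfold msk
          refine if_neg fun hc => hn ?_
          rw [Finset.mem_product, Finset.mem_product] at hc
          exact ⟨Finset.mem_inter.2 ⟨hu, hc.2.1⟩, Finset.mem_inter.2 ⟨hv, hc.2.2⟩⟩
      · intro f
        have e0 : ∀ u ∈ dI n a, ∀ v ∈ dI n b, msk (T₀ ×ˢ T₁ ×ˢ T₂) B z u v = 0 := by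
          intro u hu v hv
          unfold msk
          exact if_neg fun hc => hex ⟨u, v, hu, hv, hc⟩
        rw [Finset.sum_eq_zero fun u hu => by
          rw [Finset.sum_eq_zero fun v hv => by rw [e0 u hu v hv, zero_mul], norm_zero,
            zero_pow two_ne_zero]]
        positivity

end Crest.Agent.R079.Cel159
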