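import Crest.Agent.R079.GlueDefs_569

/-! R079, region version of the (2,4,4) frozen atom theorem, literal Props (architect helper491).

* `Tri24`   (ZMod Q, real, triangular forms, scale dependent functions, only changes are paid):
  LINEAR budget `s (bx A + (bx A)²/H²) + s bx B + s⁻¹ e4 B + s bx C + s⁻¹ e4 C`, loss
  `1 + log (H/s)` (`H ≥ 1` = height of the `S₂` function).
* `Frozen24` (Grid.Lbox): atom in slot `j` (NO bound on the kernels), averaged `S₂` hypotheses for the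
  three edges, `S₄` hypotheses for two edges, height `≤ H` for the third: `≤ K s (1 + log (H/s))`.
The hypotheses are stated at ALL nodes of the region (sum over the frozen variable `w` and over
all positions of the boxes of side `2^(p.1+k)`, function restricted to the node). -/

set_option autoImplicit false

namespace Crest.Agent.R079.R244

open Finset Crest.Agent.R079.Grid Crest.Agent.R079.Pot Crest.Agent.R079.Glue

section tri

variable {Q : ℕ} [NeZero Q]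

/-- `tr (abar X N N q p)²` = fourth power of the normalised Schatten 4 norm of the box -/
noncomputable def e4r (X : ZMod Q → ZMod Q → ℝ) (N : ℕ) (q p : ZMod Q) : ℝ :=
  (1 / (N : ℝ) ^ 4) * ∑ j ∈ range N, ∑ j' ∈ range N,
    (∑ i ∈ range N, X (q + (i : ZMod Q)) (p + (j : ZMod Q)) *
      X (q + (i : ZMod Q)) (p + (j' : ZMod Q))) ^ 2

/-- budget of the `S₂` function, `h = H⁻²` -/
noncomputable def g2 (s h : ℝ) (X : ZMod Q → ZMod Q → ℝ) (N : ℕ) (q p : ZMod Q) : ℝ :=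
  s * (bx X N q p + h * bx X N q p ^ 2)

/-- budget of an `S₄` function -/
noncomputable def g4 (s : ℝ) (X : ZMod Q → ZMod Q → ℝ) (N : ℕ) (q p : ZMod Q) : ℝ :=
  s * bx X N q p + s⁻¹ * e4r X N q p

open Classical in
/-- exit value of the joint potentials, budgets `g A`, `g' B`, `g'' C` -/
noncomputable def V24 (s h : ℝ) (A B C A' B' C' : ZMod Q → ZMod Q → ℝ) (N : ℕ) : ℝ :=
  (1 / (N : ℝ)) * ∑ i ∈ range N, ∑ p0 : ZMod Q, ∑ p1 : ZMod Q,
    if Sees A A' N p0 p1 ∨ Sees B B' N p1 (-(2 * (N : ZMod Q)) + (i : ZMod Q) - p0 - p1) ∨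
        Sees C C' N (-(2 * (N : ZMod Q)) + (i : ZMod Q) - p0 - p1) p0 then
      g2 s h A N p0 p1 +
      g4 s B N p1 (-(2 * (N : ZMod Q)) + (i : ZMod Q) - p0 - p1) +
      g4 s C N (-(2 * (N : ZMod Q)) + (i : ZMod Q) - p0 - p1) p0
    else 0

open Classical in
/-- exit value of an own potential with budget `g` -/
noncomputable def E24 (g : (ZMod Q → ZMod Q → ℝ) → ℕ → ZMod Q → ZMod Q → ℝ)
    (A A' : ZMod Q → ZMod Q → ℝ) (N : ℕ) : ℝ :=
  ∑ q : ZMod Q, ∑ p : ZMod Q, if Sees A A' N q p then g A N q p else 0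

end tri

/-- **(Tri24)**: instance of `tri_path` at the path `x = 4^j`, `y = z = 2^j/s` for
`1/H ≤ 2^j ≤ 1/s`, isotropic (all multiplied by `4`) before and after. -/
def Tri24 : Prop :=
  ∃ K : ℝ, 0 ≤ K ∧ ∃ κ : ℕ, ∀ s : ℝ, 0 < s → s ≤ 1 → ∀ H : ℝ, 1 ≤ H → ∀ l : ℤ, |l| ≤ 7 →
    ∀ (Q : ℕ) [NeZero Q]
    (A B C : ℕ → ZMod Q → ZMod Q → ℝ), A 0 = 0 → B 0 = 0 → C 0 = 0 → ∀ M : ℕ,
    ∑ m ∈ range M, (1 / (2 : ℝ) ^ m) * ∑ i ∈ range (2 ^ m), ∑ p0 : ZMod Q, ∑ p1 : ZMod Q,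
      |Crest.Agent.R072.Lattice.Lbox (A (m + 1)) (B (m + 1)) (C (m + 1)) (2 ^ m) p0 p1
        ((l : ZMod Q) * ((2 ^ m : ℕ) : ZMod Q) + (i : ZMod Q) - p0 - p1)| ≤
    K * (1 + Real.log (H / s)) * ∑ m ∈ range M,
      (V24 s (H ^ 2)⁻¹ (A (m + 1)) (B (m + 1)) (C (m + 1)) (A m) (B m) (C m) (2 ^ m) +
        ∑ k ∈ range κ, (E24 (g2 s (H ^ 2)⁻¹) (A (m + 1)) (A m) (2 ^ (m + k)) +
          E24 (g4 s) (B (m + 1)) (B m) (2 ^ (m + k)) +
          E24 (g4 s) (C (m + 1)) (C m) (2 ^ (m + k))))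

/-- complex version of `e4r` on `ℤ` -/
noncomputable def e4 (X : ℤ → ℤ → ℂ) (N : ℕ) (q p : ℤ) : ℝ :=
  (1 / (N : ℝ) ^ 4) * ∑ j ∈ range N, ∑ j' ∈ range N,
    ‖∑ i ∈ range N, X (q + (i : ℤ)) (p + (j : ℤ)) *
      (starRingEnd ℂ) (X (q + (i : ℤ)) (p + (j' : ℤ)))‖ ^ 2

/-- box average of `‖X‖²` -/
noncomputable def e2 (X : ℤ → ℤ → ℂ) (N : ℕ) (q p : ℤ) : ℝ :=
  (1 / (N : ℝ) ^ 2) * ∑ i ∈ range N, ∑ j ∈ range N, ‖X (q + (i : ℤ)) (p + (j : ℤ))‖ ^ 2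

/-- restriction of a function to the interval of the node `p = (m, l)` -/
noncomputable def res (p : ℕ × ℤ) (f : ℤ → ℂ) (y : ℤ) : ℂ :=
  if y ∈ dI (p.1 + 7) p.2 then f y else 0



/-- unnormalised `ℓ²(ℤ²)` norm squared of a kernel -/
noncomputable def n2 (T T' : Finset ℤ) (a : ℤ → ℤ → ℂ) : ℝ := ∑ z ∈ T, ∑ z' ∈ T', ‖a z z'‖ ^ 2

/-- the three frozen kernels as functions of the slot function (`frAk j T a (F _) w = frA j T a F w`
etc. by `rfl`) -/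
noncomputable def frAk (j : Fin 4) (T : Fin 3 → Finset ℤ) (a : ℤ → ℤ → ℂ) (F : ℤ → ℂ) (w : ℤ) :
    ℤ → ℤ → ℂ :=
  frz j (j.succAbove 2) (j.succAbove 0) (j.succAbove 1) (T 0) (T 1) a F w

noncomputable def frBk (j : Fin 4) (T : Fin 3 → Finset ℤ) (b : ℤ → ℤ → ℂ) (F : ℤ → ℂ) (w : ℤ) :
    ℤ → ℤ → ℂ :=
  frz j (j.succAbove 0) (j.succAbove 1) (j.succAbove 2) (T 1) (T 2) b F w

noncomputable def frCk (j : Fin 4) (T : Fin 3 → Finset ℤ) (c : ℤ → ℤ → ℂ) (F : ℤ → ℂ) (w : ℤ) :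
    ℤ → ℤ → ℂ :=
  frz j (j.succAbove 1) (j.succAbove 2) (j.succAbove 0) (T 2) (T 0) c F w



end Crest.Agent.R079.R244
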