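import Crest.Agent.R079.TWin1_903
import Crest.Agent.R079.R244Defs_491

/-! R079, [AL6'] (931's doc 2514, helper13's 22662): Whitney cell penalties of the line model
(helper159).

* `CF Y T T' φ` : a family of cell functionals `φ n a b g` (cell `dI n a × dI n b`), nonnegative,
  `≤` the sum of the four halves, depending only on `g (Y z z')` on the cell, midpoint convex,
  zero at `0` and zero unless the cell meets `T × T'`.
* `dec V g n a b` : sum of `φ` over the maximal cells below `(n,a,b)` whose `Y`-range lies in `V`.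
* `Pen k p g` : the sum of `dec (iv p) g (p.1 + k) a b` over all cells of scale `p.1 + k`.
* `Pen_glue` : `Pen (m+1,l) ≤ Pen (m,2l) + Pen (m,2l+1)` with the full halving gap of every cell of
  scale `m+1+k` whose range lies in `iv (m+1,l)` (`Pen_glue_gap`).
* `Phi` : weighted sum over a finite index set divided by `len p`; `Phi_full`, `Phi_gl`, ...
* `Q4`, `phi4` : the `S₄` instance, `phi4 c Y n a b g = 2^(2n) e4 (c g∘Y) (2^n) (a 2^n) (b 2^n)`. -/

set_option autoImplicit false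

namespace Crest.Agent.R079.Whit

open Finset Crest.Agent.R079.Grid Crest.Agent.R079.Growth Crest.Agent.R079.QRed
  Crest.Agent.R079.Qh249 Crest.Agent.R079.TWin

/-- cell functionals -/
structure CF (Y : ℤ → ℤ → ℤ) (T T' : Finset ℤ) (φ : ℕ → ℤ → ℤ → Fn → ℝ) : Prop where
  nonneg : ∀ n a b g, 0 ≤ φ n a b g
  halv : ∀ n a b g, φ (n + 1) a b g ≤ φ n (2 * a) (2 * b) g + φ n (2 * a) (2 * b + 1) g +
    φ n (2 * a + 1) (2 * b) g + φ n (2 * a + 1) (2 * b + 1) g
  loc : ∀ n a b (g g' : Fn), (∀ z ∈ dI n a, ∀ z' ∈ dI n b, g (Y z z') = g' (Y z z')) →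
    φ n a b g = φ n a b g'
  conv : ∀ n a b (g g' : Fn), φ n a b (fun y => (g y + g' y) / 2) ≤
    (φ n a b g + φ n a b g') / 2
  zero : ∀ n a b, φ n a b (fun _ => 0) = 0
  supp : ∀ n a b g, φ n a b g ≠ 0 → a ∈ T.image (fun z => z / 2 ^ n) ∧
    b ∈ T'.image (fun z => z / 2 ^ n)

/-- the `Y`-range of the cell lies in `V` -/
def Ins (Y : ℤ → ℤ → ℤ) (V : Finset ℤ) (n : ℕ) (a b : ℤ) : Prop :=
  ∀ z ∈ dI n a, ∀ z' ∈ dI n b, Y z z' ∈ V

open Classical in
/-- sum over the maximal cells below `(n,a,b)` with range in `V` -/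
noncomputable def dec (Y : ℤ → ℤ → ℤ) (φ : ℕ → ℤ → ℤ → Fn → ℝ) (V : Finset ℤ) (g : Fn) :
    ℕ → ℤ → ℤ → ℝ
  | 0, a, b => if Ins Y V 0 a b then φ 0 a b g else 0
  | n + 1, a, b => if Ins Y V (n + 1) a b then φ (n + 1) a b g else
      dec Y φ V g n (2 * a) (2 * b) + dec Y φ V g n (2 * a) (2 * b + 1) +
      dec Y φ V g n (2 * a + 1) (2 * b) + dec Y φ V g n (2 * a + 1) (2 * b + 1)

section cells

variable {Y : ℤ → ℤ → ℤ} {T T' : Finset ℤ} {φ : ℕ → ℤ → ℤ → Fn → ℝ}

lemma sub0 (n : ℕ) (a : ℤ) : dI n (2 * a) ⊆ dI (n + 1) a := by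
  have := L0e.dI_sub n 1 (2 * a)
  rwa [pow_one, show 2 * a / 2 = a by omega] at this

lemma sub1 (n : ℕ) (a : ℤ) : dI n (2 * a + 1) ⊆ dI (n + 1) a := by
  have := L0e.dI_sub n 1 (2 * a + 1)
  rwa [pow_one, show (2 * a + 1) / 2 = a by omega] at this

lemma Ins.mono {V V' : Finset ℤ} (h : V ⊆ V') {n : ℕ} {a b : ℤ} (hi : Ins Y V n a b) :
    Ins Y V' n a b := fun z hz z' hz' => h (hi z hz z' hz')

lemma Ins.sub {V : Finset ℤ} {n n' : ℕ} {a b a' b' : ℤ} (ha : dI n' a' ⊆ dI n a)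
    (hb : dI n' b' ⊆ dI n b) (hi : Ins Y V n a b) : Ins Y V n' a' b' :=
  fun z hz z' hz' => hi z (ha hz) z' (hb hz')













end cells

/-! ### sums over all cells of one scale -/







/-! ### the penalty of a node -/



section pen

variable {Y : ℤ → ℤ → ℤ} {T T' : Finset ℤ} {φ : ℕ → ℤ → ℤ → Fn → ℝ}









end pen

/-! ### the weighted penalty on the windows -/

/-- data of a REL penalty: finitely many kernels with weights -/
structure PD (ι : Type*) where
  Y : ι → ℤ → ℤ → ℤ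
  T : ι → Finset ℤ
  T' : ι → Finset ℤ
  φ : ι → ℕ → ℤ → ℤ → Fn → ℝ
  k : ι → ℕ
  lam : ι → ℝ

/-- admissible data -/
def PD.Ok {ι : Type*} (D : PD ι) : Prop :=
  ∀ i, CF (D.Y i) (D.T i) (D.T' i) (D.φ i) ∧ 0 ≤ D.lam i



section phi

variable {ι : Type*} {s : Finset ι} {D : PD ι}











end phi

/-! ### the `S₄` instance -/
















end Crest.Agent.R079.Whit
private theorem rz_fa1819457d : type_of% @_root_.Crest.Agent.R079.Whit.dec.eq_def := @_root_.Crest.Agent.R079.Whit.dec.eq_def -- L43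
private theorem rz_c28237476e : type_of% @_root_.Crest.Agent.R079.Whit.dec.eq_1 := @_root_.Crest.Agent.R079.Whit.dec.eq_1 -- L43
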