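import Mathlib
import Crest.Agent.R079.Whit_159

-- ▼ part R079/HiF_881
section

/-!
# R079, S1 `(G)` test: the spectral high part as a factorised one-gauge letter (helper881)

`A : m → n → ℂ` a finite complex matrix.  `exists_svd` : an orthonormal basis `X k` (labels `k : n`)
and singular values `s k ≥ 0` with `⟨A X k, A X l⟩ = δ s_k²`.
For `th > 0` the HIGH PART is `Z = ∑_{s k > th} (A X_k) X_k^*`, and `Z = lam • U V` with
`Gram U = Gram V = diag ζ`, `∑ ζ² = 1` (`lam = |Z|_HS`), rows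
`lam th ∑_k |U x k|² ≤ ∑_y |A x y|²`, `lam th ∑_k |V k y|² ≤ ∑_x |A x y|²`,
`⟨A, Z⟩ = lam²`.  Unnormalised (`hiFactor`) and normalised (`hiFactorE`) forms.
-/

open scoped BigOperators ComplexConjugate ComplexOrder

namespace Crest.Agent.R079.HiF881

variable {m n : Type*} [Fintype m] [Fintype n] [DecidableEq n]

/-- Singular value decomposition (right singular vectors). -/
theorem exists_svd (A : m → n → ℂ) :
    ∃ (X : n → n → ℂ) (s : n → ℝ), (∀ k, 0 ≤ s k) ∧
      (∀ k l, ∑ y, conj (X k y) * X l y = if k = l then 1 else 0) ∧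
      (∀ y y', ∑ k, X k y * conj (X k y') = if y = y' then 1 else 0) ∧
      (∀ k l, ∑ x, conj (∑ y, A x y * X k y) * (∑ y, A x y * X l y)
        = if k = l then ((s k : ℂ)) ^ 2 else 0) := by
  classical
  set M : Matrix m n ℂ := Matrix.of A with hM
  have hps : (M.conjTranspose * M).PosSemidef := Matrix.posSemidef_conjTranspose_mul_self M
  have hH : (M.conjTranspose * M).IsHermitian := hps.1
  set U : Matrix n n ℂ := (hH.eigenvectorUnitary : Matrix n n ℂ) with hU
  have hU1 : U.conjTranspose * U = 1 := by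
    have := Unitary.coe_star_mul_self hH.eigenvectorUnitary
    simpa [hU, Matrix.star_eq_conjTranspose] using this
  have hU2 : U * U.conjTranspose = 1 := by
    have := Unitary.coe_mul_star_self hH.eigenvectorUnitary
    simpa [hU, Matrix.star_eq_conjTranspose] using this
  have hnn : ∀ k, 0 ≤ hH.eigenvalues k := fun k => hps.eigenvalues_nonneg k
  have heig : (M.conjTranspose * M) * U
      = U * Matrix.diagonal (fun k => ((hH.eigenvalues k : ℝ) : ℂ)) := by
    ext y l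
    have h := hH.mulVec_eigenvectorBasis l
    have h2 := congrFun h y
    rw [Matrix.mul_diagonal]
    have h3 : ∀ y, U y l = (hH.eigenvectorBasis l) y := fun y => by
      rw [hU]; exact hH.eigenvectorUnitary_apply y l
    rw [Matrix.mul_apply]
    simp only [h3]
    have h4 : ((M.conjTranspose * M).mulVec (⇑(hH.eigenvectorBasis l))) y
        = ∑ j, (M.conjTranspose * M) y j * (hH.eigenvectorBasis l) j := rfl
    rw [← h4, h2]
    simp [Pi.smul_apply, mul_comm]
  refine ⟨fun k y => U y k, fun k => Real.sqrt (hH.eigenvalues k),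
    fun k => Real.sqrt_nonneg _, ?_, ?_, ?_⟩
  · intro k l
    have := congrFun (congrFun hU1 k) l
    rw [Matrix.mul_apply, Matrix.one_apply] at this
    simpa [Matrix.conjTranspose_apply] using this
  · intro y y'
    have := congrFun (congrFun hU2 y) y'
    rw [Matrix.mul_apply, Matrix.one_apply] at this
    simpa [Matrix.conjTranspose_apply] using this
  · intro k l
    have h1 : (M * U).conjTranspose * (M * U)
        = Matrix.diagonal (fun k => ((hH.eigenvalues k : ℝ) : ℂ)) := by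
      rw [Matrix.conjTranspose_mul, Matrix.mul_assoc, ← Matrix.mul_assoc M.conjTranspose, heig,
        ← Matrix.mul_assoc, hU1, Matrix.one_mul]
    have h2 := congrFun (congrFun h1 k) l
    rw [Matrix.mul_apply, Matrix.diagonal_apply] at h2
    simp only [Matrix.conjTranspose_apply, Matrix.mul_apply, hM, Matrix.of_apply] at h2
    have h3 : ((Real.sqrt (hH.eigenvalues k) : ℝ) : ℂ) ^ 2 = ((hH.eigenvalues k : ℝ) : ℂ) := by
      rw [← Complex.ofReal_pow, Real.sq_sqrt (hnn k)]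
    rw [h3]
    simpa using h2

/-! ## the high part and its factors -/

/-- the data of a (right) singular value decomposition of `A` -/
structure SVD (A : m → n → ℂ) (X : n → n → ℂ) (s : n → ℝ) : Prop where
  nn : ∀ k, 0 ≤ s k
  orth : ∀ k l, ∑ y, conj (X k y) * X l y = if k = l then 1 else 0
  comp : ∀ y y', ∑ k, X k y * conj (X k y') = if y = y' then 1 else 0
  gram : ∀ k l, ∑ x, conj (∑ y, A x y * X k y) * (∑ y, A x y * X l y)
        = if k = l then ((s k : ℂ)) ^ 2 else 0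

theorem exists_SVD (A : m → n → ℂ) : ∃ X s, SVD A X s := by
  obtain ⟨X, s, h1, h2, h3, h4⟩ := exists_svd A
  exact ⟨X, s, h1, h2, h3, h4⟩

/-- `A X_k` -/
noncomputable def AX (A : m → n → ℂ) (X : n → n → ℂ) (k : n) (x : m) : ℂ := ∑ y, A x y * X k y

/-- high singular values -/
noncomputable def hi (s : n → ℝ) (th : ℝ) (k : n) : ℝ := if th < s k then s k else 0

/-- HS norm of the high part -/
noncomputable def lam (s : n → ℝ) (th : ℝ) : ℝ := Real.sqrt (∑ k, hi s th k ^ 2)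

/-- normalised labels -/
noncomputable def zet (s : n → ℝ) (th : ℝ) (k : n) : ℝ := hi s th k / lam s th


/-- left factor -/
noncomputable def Uf (A : m → n → ℂ) (X : n → n → ℂ) (s : n → ℝ) (th : ℝ) (x : m) (k : n) : ℂ :=
  if th < s k then (Real.sqrt (zet s th k) : ℂ) * ((s k : ℂ)⁻¹ * AX A X k x) else 0


omit [DecidableEq n] in
theorem lam_nonneg (s : n → ℝ) (th : ℝ) : 0 ≤ lam s th := Real.sqrt_nonneg _


omit [Fintype n] [DecidableEq n] in
theorem hi_nonneg {s : n → ℝ} (hs : ∀ k, 0 ≤ s k) (th : ℝ) (k : n) : 0 ≤ hi s th k := by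
  unfold hi; split_ifs
  · exact hs k
  · exact le_rfl

omit [DecidableEq n] in
theorem hi_le_lam {s : n → ℝ} (_hs : ∀ k, 0 ≤ s k) (th : ℝ) (k : n) : hi s th k ≤ lam s th := by
  apply Real.le_sqrt_of_sq_le
  exact Finset.single_le_sum (f := fun k => hi s th k ^ 2) (fun _ _ => sq_nonneg _)
    (Finset.mem_univ k)

omit [DecidableEq n] in
theorem lam_pos {s : n → ℝ} (hs : ∀ k, 0 ≤ s k) {th : ℝ} (hth : 0 < th) {k : n}
    (hk : th < s k) : 0 < lam s th := by
  have h := hi_le_lam hs th k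
  have : hi s th k = s k := by simp [hi, hk]
  rw [this] at h
  linarith

omit [DecidableEq n] in
theorem zet_nonneg {s : n → ℝ} (hs : ∀ k, 0 ≤ s k) (th : ℝ) (k : n) : 0 ≤ zet s th k :=
  div_nonneg (hi_nonneg hs th k) (lam_nonneg s th)










/-- Parseval in the basis `X` for the row of `A` -/
theorem row_parseval {A : m → n → ℂ} {X : n → n → ℂ} {s : n → ℝ} (h : SVD A X s) (x : m) :
    ∑ k, ‖AX A X k x‖ ^ 2 = ∑ y, ‖A x y‖ ^ 2 := by
  have key : ∑ k, AX A X k x * conj (AX A X k x) = ∑ y, A x y * conj (A x y) := by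
    simp only [AX, map_sum, map_mul, Finset.sum_mul_sum]
    rw [Finset.sum_comm]
    refine Finset.sum_congr rfl fun y _ => ?_
    rw [Finset.sum_comm]
    have : ∀ y', ∑ k, A x y * X k y * (conj (A x y') * conj (X k y'))
        = A x y * conj (A x y') * (if y = y' then 1 else 0) := by
      intro y'
      rw [← h.comp y y', Finset.mul_sum]
      exact Finset.sum_congr rfl fun k _ => by ring
    rw [Finset.sum_congr rfl fun y' _ => this y']
    simp
  have h1 : ∀ z : ℂ, z * conj z = ((‖z‖ ^ 2 : ℝ) : ℂ) := fun z => by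
    rw [Complex.mul_conj, Complex.normSq_eq_norm_sq]
  simp only [h1] at key
  exact_mod_cast key

/-- expansion of `A` in the basis `X` -/
theorem expand {A : m → n → ℂ} {X : n → n → ℂ} {s : n → ℝ} (h : SVD A X s) (x : m) (y : n) :
    A x y = ∑ k, AX A X k x * conj (X k y) := by
  simp only [AX, Finset.sum_mul]
  rw [Finset.sum_comm]
  have : ∀ y', ∑ k, A x y' * X k y' * conj (X k y) = A x y' * (if y' = y then 1 else 0) := by
    intro y'
    rw [← h.comp y' y, Finset.mul_sum]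
    exact Finset.sum_congr rfl fun k _ => by ring
  rw [Finset.sum_congr rfl fun y' _ => this y']
  simp

/-- norms of the columns of a sum `∑ c_k (A X_k) conj (X_k y)` -/
theorem col_parseval_gen {A : m → n → ℂ} {X : n → n → ℂ} {s : n → ℝ} (h : SVD A X s)
    (c : n → ℝ) (y : n) :
    ∑ x, ‖∑ k, (c k : ℂ) * (AX A X k x * conj (X k y))‖ ^ 2
      = ∑ k, c k ^ 2 * s k ^ 2 * ‖X k y‖ ^ 2 := by
  have h1 : ∀ z : ℂ, conj z * z = ((‖z‖ ^ 2 : ℝ) : ℂ) := fun z => by
    rw [mul_comm, Complex.mul_conj, Complex.normSq_eq_norm_sq]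
  have key : ∑ x, conj (∑ k, (c k : ℂ) * (AX A X k x * conj (X k y)))
        * (∑ k, (c k : ℂ) * (AX A X k x * conj (X k y)))
      = ∑ k, (c k : ℂ) ^ 2 * (s k : ℂ) ^ 2 * (conj (X k y) * X k y) := by
    simp only [map_sum, Finset.sum_mul_sum]
    rw [Finset.sum_comm]
    refine Finset.sum_congr rfl fun k _ => ?_
    rw [Finset.sum_comm]
    have : ∀ l, ∑ x, conj ((c k : ℂ) * (AX A X k x * conj (X k y)))
          * ((c l : ℂ) * (AX A X l x * conj (X l y)))
        = ((c k : ℂ) * (c l : ℂ) * (X k y * conj (X l y)))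
            * (if k = l then ((s k : ℂ)) ^ 2 else 0) := by
      intro l
      rw [← h.gram k l, Finset.mul_sum]
      refine Finset.sum_congr rfl fun x _ => ?_
      simp only [AX, map_mul, Complex.conj_ofReal, Complex.conj_conj]
      ring
    rw [Finset.sum_congr rfl fun l _ => this l]
    simp only [mul_ite, mul_zero, Finset.sum_ite_eq, Finset.mem_univ, if_true]
    ring
  simp only [h1] at key
  exact_mod_cast key

/-- norms of the columns of `A` -/
theorem col_parseval {A : m → n → ℂ} {X : n → n → ℂ} {s : n → ℝ} (h : SVD A X s) (y : n) :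
    ∑ k, s k ^ 2 * ‖X k y‖ ^ 2 = ∑ x, ‖A x y‖ ^ 2 := by
  have := col_parseval_gen h (fun _ => 1) y
  simp only [Complex.ofReal_one, one_mul, one_pow] at this
  rw [← this]
  exact Finset.sum_congr rfl fun x _ => by rw [← expand h x y]

/-- rows of the left factor -/
theorem rowU {A : m → n → ℂ} {X : n → n → ℂ} {s : n → ℝ} (h : SVD A X s) {th : ℝ}
    (hth : 0 < th) (x : m) :
    lam s th * th * ∑ k, ‖Uf A X s th x k‖ ^ 2 ≤ ∑ y, ‖A x y‖ ^ 2 := by
  rw [← row_parseval h x, Finset.mul_sum]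
  refine Finset.sum_le_sum fun k _ => ?_
  by_cases hk : th < s k
  · have hl : 0 < lam s th := lam_pos h.nn hth hk
    have hsk : 0 < s k := hth.trans hk
    have hz2 : zet s th k = s k / lam s th := by simp [zet, hi, hk]
    have : ‖Uf A X s th x k‖ ^ 2 = zet s th k * ((s k)⁻¹ ^ 2 * ‖AX A X k x‖ ^ 2) := by
      simp only [Uf, hk, if_true, norm_mul, Complex.norm_real, norm_inv, mul_pow,
        Real.norm_of_nonneg (Real.sqrt_nonneg _), Real.norm_of_nonneg hsk.le,
        Real.sq_sqrt (zet_nonneg h.nn th k)]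
    rw [this, hz2]
    have h2 : lam s th * th * (s k / lam s th * ((s k)⁻¹ ^ 2 * ‖AX A X k x‖ ^ 2))
        = (th / s k) * ‖AX A X k x‖ ^ 2 := by field_simp
    rw [h2]
    have h3 : th / s k ≤ 1 := (div_le_one hsk).2 hk.le
    nlinarith [sq_nonneg ‖AX A X k x‖]
  · simp only [Uf, hk, if_false]
    simp





end Crest.Agent.R079.HiF881
end

-- ▼ part R079/HiP_881
section

/-!
# R079, S1: the leaf test of doc 2538 (3) for a general spectral profile (helper881)

`A : m → n → ℂ`, `SVD A X s` (file `HiF_881`), profile `ψ : n → ℝ`, `ψ ≥ 0`, `ψ k = 0` if `s k = 0`.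
`Pf = ∑ √ψ_k u_k`, `Qf = √ψ_k X_k^*`, `Z = Pf Qf`, left kernel `Pf Pf^*`, right kernel `Qf^* Qf`:
Gram = diag ψ, traces `∑ ψ`, HS² `∑ ψ²`, `⟨A, Z⟩ = ∑ ψ s`, diagonals `≤ C` rows of `A` if
`ψ ≤ C s²`.  `Mul c` = spectral multiplier: rows, columns, HS, op, `S_4`.
`leafTest` : the normalised statement with `ψ = (s - θ)_+ / (2 μ)`, `A = A1 + A2`.
-/

open scoped BigOperators ComplexConjugate

namespace Crest.Agent.R079.HiF881

variable {m n : Type*} [Fintype m] [Fintype n] [DecidableEq n]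

theorem conj_mul_self (z : ℂ) : conj z * z = ((‖z‖ ^ 2 : ℝ) : ℂ) := by
  rw [mul_comm, Complex.mul_conj, Complex.normSq_eq_norm_sq]

theorem mul_conj_self (z : ℂ) : z * conj z = ((‖z‖ ^ 2 : ℝ) : ℂ) := by
  rw [Complex.mul_conj, Complex.normSq_eq_norm_sq]


/-! ## spectral multipliers -/

/-- spectral multiplier of `A` with real coefficients `c` -/
noncomputable def Mul (A : m → n → ℂ) (X : n → n → ℂ) (c : n → ℝ) (x : m) (y : n) : ℂ :=
  ∑ k, (c k : ℂ) * (AX A X k x * conj (X k y))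

section
variable {A : m → n → ℂ} {X : n → n → ℂ} {s : n → ℝ}

theorem Mul_one (h : SVD A X s) (x : m) (y : n) : Mul A X (fun _ => 1) x y = A x y := by
  rw [expand h x y, Mul]
  exact Finset.sum_congr rfl fun k _ => by simp

omit [Fintype m] [DecidableEq n] in
theorem Mul_add (c d : n → ℝ) (x : m) (y : n) :
    Mul A X c x y + Mul A X d x y = Mul A X (fun k => c k + d k) x y := by
  rw [Mul, Mul, Mul, ← Finset.sum_add_distrib]
  exact Finset.sum_congr rfl fun k _ => by push_cast; ring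

/-- columns of a multiplier -/
theorem Mul_col (h : SVD A X s) (c : n → ℝ) (y : n) :
    ∑ x, ‖Mul A X c x y‖ ^ 2 = ∑ k, c k ^ 2 * s k ^ 2 * ‖X k y‖ ^ 2 :=
  col_parseval_gen h c y

/-- rows of a multiplier -/
theorem Mul_row (h : SVD A X s) (c : n → ℝ) (x : m) :
    ∑ y, ‖Mul A X c x y‖ ^ 2 = ∑ k, c k ^ 2 * ‖AX A X k x‖ ^ 2 := by
  have key : ∑ y, conj (Mul A X c x y) * Mul A X c x y
      = ∑ k, (c k : ℂ) ^ 2 * (conj (AX A X k x) * AX A X k x) := by
    simp only [Mul, map_sum, Finset.sum_mul_sum]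
    rw [Finset.sum_comm]
    refine Finset.sum_congr rfl fun k _ => ?_
    rw [Finset.sum_comm]
    have : ∀ l, ∑ y, conj ((c k : ℂ) * (AX A X k x * conj (X k y)))
          * ((c l : ℂ) * (AX A X l x * conj (X l y)))
        = ((c k : ℂ) * (c l : ℂ) * (conj (AX A X k x) * AX A X l x))
            * (if l = k then 1 else 0) := by
      intro l
      rw [← h.orth l k, Finset.mul_sum]
      refine Finset.sum_congr rfl fun y _ => ?_
      simp only [map_mul, Complex.conj_ofReal, Complex.conj_conj]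
      ring
    rw [Finset.sum_congr rfl fun l _ => this l]
    simp only [mul_ite, mul_zero, Finset.sum_ite_eq', Finset.mem_univ, if_true]
    ring
  simp only [conj_mul_self] at key
  exact_mod_cast key

theorem Mul_col_le (h : SVD A X s) {c : n → ℝ} (hc : ∀ k, c k ^ 2 ≤ 1) (y : n) :
    ∑ x, ‖Mul A X c x y‖ ^ 2 ≤ ∑ x, ‖A x y‖ ^ 2 := by
  rw [Mul_col h, ← col_parseval h]
  refine Finset.sum_le_sum fun k _ => ?_
  have h1 : 0 ≤ s k ^ 2 * ‖X k y‖ ^ 2 := by positivity
  calc c k ^ 2 * s k ^ 2 * ‖X k y‖ ^ 2 = c k ^ 2 * (s k ^ 2 * ‖X k y‖ ^ 2) := by ring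
    _ ≤ 1 * (s k ^ 2 * ‖X k y‖ ^ 2) := mul_le_mul_of_nonneg_right (hc k) h1
    _ = _ := one_mul _

theorem Mul_row_le (h : SVD A X s) {c : n → ℝ} (hc : ∀ k, c k ^ 2 ≤ 1) (x : m) :
    ∑ y, ‖Mul A X c x y‖ ^ 2 ≤ ∑ y, ‖A x y‖ ^ 2 := by
  rw [Mul_row h, ← row_parseval h]
  refine Finset.sum_le_sum fun k _ => ?_
  calc c k ^ 2 * ‖AX A X k x‖ ^ 2 ≤ 1 * ‖AX A X k x‖ ^ 2 :=
        mul_le_mul_of_nonneg_right (hc k) (sq_nonneg _)
    _ = _ := one_mul _

theorem sum_X_sq (h : SVD A X s) (k : n) : ∑ y, ‖X k y‖ ^ 2 = 1 := by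
  have h4 := h.orth k k
  simp only [conj_mul_self, if_true] at h4
  exact_mod_cast h4

theorem sum_AX_sq (h : SVD A X s) (k : n) : ∑ x, ‖AX A X k x‖ ^ 2 = s k ^ 2 := by
  have h4 := h.gram k k
  simp only [conj_mul_self, if_true] at h4
  have : ∑ x, ‖∑ y, A x y * X k y‖ ^ 2 = s k ^ 2 := by exact_mod_cast h4
  simpa [AX] using this



/-- operator norm of a multiplier -/
theorem Mul_op (h : SVD A X s) {c : n → ℝ} {M : ℝ} (hc : ∀ k, c k ^ 2 * s k ^ 2 ≤ M ^ 2)
    (f : n → ℂ) :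
    ∑ x, ‖∑ y, Mul A X c x y * f y‖ ^ 2 ≤ M ^ 2 * ∑ y, ‖f y‖ ^ 2 := by
  set d : n → ℂ := fun k => ∑ y, conj (X k y) * f y with hd
  have h1 : ∀ x, ∑ y, Mul A X c x y * f y = ∑ k, (c k : ℂ) * (AX A X k x * d k) := by
    intro x
    simp only [Mul, Finset.sum_mul]
    rw [Finset.sum_comm]
    refine Finset.sum_congr rfl fun k _ => ?_
    rw [hd]
    simp only [Finset.mul_sum]
    exact Finset.sum_congr rfl fun y _ => by ring
  have key : ∑ x, conj (∑ k, (c k : ℂ) * (AX A X k x * d k)) * (∑ k, (c k : ℂ) * (AX A X k x * d k))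
      = ∑ k, (c k : ℂ) ^ 2 * (s k : ℂ) ^ 2 * (conj (d k) * d k) := by
    simp only [map_sum, Finset.sum_mul_sum]
    rw [Finset.sum_comm]
    refine Finset.sum_congr rfl fun k _ => ?_
    rw [Finset.sum_comm]
    have : ∀ l, ∑ x, conj ((c k : ℂ) * (AX A X k x * d k)) * ((c l : ℂ) * (AX A X l x * d l))
        = ((c k : ℂ) * (c l : ℂ) * (conj (d k) * d l))
            * (if k = l then ((s k : ℂ)) ^ 2 else 0) := by
      intro l
      rw [← h.gram k l, Finset.mul_sum]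
      refine Finset.sum_congr rfl fun x _ => ?_
      simp only [AX, map_mul, Complex.conj_ofReal]
      ring
    rw [Finset.sum_congr rfl fun l _ => this l]
    simp only [mul_ite, mul_zero, Finset.sum_ite_eq, Finset.mem_univ, if_true]
    ring
  have key2 : ∑ x, ‖∑ k, (c k : ℂ) * (AX A X k x * d k)‖ ^ 2
      = ∑ k, c k ^ 2 * s k ^ 2 * ‖d k‖ ^ 2 := by
    simp only [conj_mul_self] at key
    exact_mod_cast key
  -- Parseval for f
  have hpar : ∑ k, ‖d k‖ ^ 2 = ∑ y, ‖f y‖ ^ 2 := by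
    have : ∑ k, conj (d k) * d k = ∑ y, conj (f y) * f y := by
      simp only [hd, map_sum, Finset.sum_mul_sum]
      rw [Finset.sum_comm]
      refine Finset.sum_congr rfl fun y _ => ?_
      rw [Finset.sum_comm]
      have h2 : ∀ y', ∑ k, conj (conj (X k y) * f y) * (conj (X k y') * f y')
          = conj (f y) * f y' * (if y = y' then 1 else 0) := by
        intro y'
        rw [← h.comp y y', Finset.mul_sum]
        refine Finset.sum_congr rfl fun k _ => ?_
        simp only [map_mul, Complex.conj_conj]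
        ring
      rw [Finset.sum_congr rfl fun y' _ => h2 y']
      simp
    simp only [conj_mul_self] at this
    exact_mod_cast this
  simp only [h1]
  rw [key2, ← hpar, Finset.mul_sum]
  exact Finset.sum_le_sum fun k _ => mul_le_mul_of_nonneg_right (hc k) (sq_nonneg _)



end

/-! ## factorised test letters -/

/-- left factor of the profile -/
noncomputable def Pf (A : m → n → ℂ) (X : n → n → ℂ) (s ψ : n → ℝ) (x : m) (k : n) : ℂ :=
  (Real.sqrt (ψ k) : ℂ) * ((s k : ℂ)⁻¹ * AX A X k x)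

/-- right factor of the profile -/
noncomputable def Qf (X : n → n → ℂ) (ψ : n → ℝ) (k : n) (y : n) : ℂ :=
  (Real.sqrt (ψ k) : ℂ) * conj (X k y)

section
variable {A : m → n → ℂ} {X : n → n → ℂ} {s ψ : n → ℝ}








/-- rows of the left factor -/
theorem rowP (h : SVD A X s) (hψ : ∀ k, 0 ≤ ψ k) {C : ℝ} (hC : 0 ≤ C)
    (hC2 : ∀ k, ψ k ≤ C * s k ^ 2) (x : m) :
    ∑ k, ‖Pf A X s ψ x k‖ ^ 2 ≤ C * ∑ y, ‖A x y‖ ^ 2 := by
  rw [← row_parseval h x, Finset.mul_sum]
  refine Finset.sum_le_sum fun k _ => ?_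
  have h1 : ‖Pf A X s ψ x k‖ ^ 2 = ψ k * ((s k)⁻¹ ^ 2 * ‖AX A X k x‖ ^ 2) := by
    simp only [Pf, norm_mul, Complex.norm_real, norm_inv, mul_pow,
      Real.norm_of_nonneg (Real.sqrt_nonneg _), Real.norm_of_nonneg (h.nn k),
      Real.sq_sqrt (hψ k)]
  rw [h1]
  by_cases hs : s k = 0
  · simp only [hs, inv_zero]
    have : 0 ≤ C * ‖AX A X k x‖ ^ 2 := by positivity
    simpa using this
  · have hsk : 0 < s k := lt_of_le_of_ne (h.nn k) (Ne.symm hs)
    have h2 : ψ k * ((s k)⁻¹ ^ 2 * ‖AX A X k x‖ ^ 2)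
        ≤ (C * s k ^ 2) * ((s k)⁻¹ ^ 2 * ‖AX A X k x‖ ^ 2) :=
      mul_le_mul_of_nonneg_right (hC2 k) (by positivity)
    have h3 : (C * s k ^ 2) * ((s k)⁻¹ ^ 2 * ‖AX A X k x‖ ^ 2) = C * ‖AX A X k x‖ ^ 2 := by
      field_simp
    linarith

/-- rows of the right factor -/
theorem rowQ (h : SVD A X s) (hψ : ∀ k, 0 ≤ ψ k) {C : ℝ}
    (hC2 : ∀ k, ψ k ≤ C * s k ^ 2) (y : n) :
    ∑ k, ‖Qf X ψ k y‖ ^ 2 ≤ C * ∑ x, ‖A x y‖ ^ 2 := by
  rw [← col_parseval h y, Finset.mul_sum]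
  refine Finset.sum_le_sum fun k _ => ?_
  have h1 : ‖Qf X ψ k y‖ ^ 2 = ψ k * ‖X k y‖ ^ 2 := by
    simp only [Qf, norm_mul, Complex.norm_real, mul_pow, RCLike.norm_conj,
      Real.norm_of_nonneg (Real.sqrt_nonneg _), Real.sq_sqrt (hψ k)]
  rw [h1]
  calc ψ k * ‖X k y‖ ^ 2 ≤ (C * s k ^ 2) * ‖X k y‖ ^ 2 :=
        mul_le_mul_of_nonneg_right (hC2 k) (sq_nonneg _)
    _ = _ := by ring



end

/-! ## the normalised leaf statement (families over the leaf variable `x₀`) -/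

/-- Leaf split of the family `A i` (`i = x₀`) at height `th` in normalised averages, with the
factorised one-gauge test letter `∑_k P i x k * Q i k y` (labels `k : n`), leaf costs `≤ 1`. -/
structure LeafHi {ι : Type*} [Fintype ι] (A : ι → m → n → ℂ) (th : ℝ) (A1 A2 : ι → m → n → ℂ)
    (Λ : ℝ) (P : ι → m → n → ℂ) (Q : ι → n → n → ℂ) : Prop where
  nn : 0 ≤ Λ
  split : ∀ i x y, A1 i x y + A2 i x y = A i x y
  lamPQ : ∀ i x y, (Λ : ℂ) * ∑ k, P i x k * Q i k y = A2 i x y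
  hsA2 : (Fintype.card ι : ℝ)⁻¹ * ∑ i, ((Fintype.card m : ℝ)⁻¹ * (Fintype.card n : ℝ)⁻¹) *
    ∑ x, ∑ y, ‖A2 i x y‖ ^ 2 = Λ ^ 2
  rowA1 : ∀ i x, ∑ y, ‖A1 i x y‖ ^ 2 ≤ ∑ y, ‖A i x y‖ ^ 2
  rowA2 : ∀ i x, ∑ y, ‖A2 i x y‖ ^ 2 ≤ ∑ y, ‖A i x y‖ ^ 2
  colA1 : ∀ i y, ∑ x, ‖A1 i x y‖ ^ 2 ≤ ∑ x, ‖A i x y‖ ^ 2
  colA2 : ∀ i y, ∑ x, ‖A2 i x y‖ ^ 2 ≤ ∑ x, ‖A i x y‖ ^ 2
  opA1 : ∀ i (f : n → ℂ), (Fintype.card m : ℝ)⁻¹ *
      ∑ x, ‖((Fintype.card n : ℝ)⁻¹ : ℂ) * ∑ y, A1 i x y * f y‖ ^ 2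
    ≤ th ^ 2 * ((Fintype.card n : ℝ)⁻¹ * ∑ y, ‖f y‖ ^ 2)
  s4A1 : ∀ i, ((Fintype.card m : ℝ)⁻¹) ^ 2 *
      ∑ x, ∑ x', ‖((Fintype.card n : ℝ)⁻¹ : ℂ) * ∑ y, A1 i x y * conj (A1 i x' y)‖ ^ 2
    ≤ th ^ 2 * (((Fintype.card m : ℝ)⁻¹ * (Fintype.card n : ℝ)⁻¹) * ∑ x, ∑ y, ‖A i x y‖ ^ 2)
  costP : (Fintype.card ι : ℝ)⁻¹ * ∑ i, ((Fintype.card m : ℝ)⁻¹) ^ 2 *
      ∑ x, ∑ x', ‖∑ k, P i x k * conj (P i x' k)‖ ^ 2 ≤ 1
  costQ : (Fintype.card ι : ℝ)⁻¹ * ∑ i, ((Fintype.card n : ℝ)⁻¹) ^ 2 *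
      ∑ y, ∑ y', ‖∑ k, conj (Q i k y) * Q i k y'‖ ^ 2 ≤ 1
  rowP : ∀ i x, Λ * th * ∑ k, ‖P i x k‖ ^ 2 ≤ (Fintype.card n : ℝ)⁻¹ * ∑ y, ‖A i x y‖ ^ 2
  rowQ : ∀ i y, Λ * th * ∑ k, ‖Q i k y‖ ^ 2 ≤ (Fintype.card m : ℝ)⁻¹ * ∑ x, ‖A i x y‖ ^ 2
  test : ((Fintype.card ι : ℝ)⁻¹ : ℂ) * ∑ i, (((Fintype.card m : ℝ)⁻¹ : ℂ)
      * ((Fintype.card n : ℝ)⁻¹ : ℂ)) *
    ∑ x, ∑ y, A i x y * conj (∑ k, P i x k * Q i k y) = (Λ : ℂ)


end Crest.Agent.R079.HiF881
end

-- ▼ part R079/Clip_881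
section

/-!
# R079, S1 (59's 28031 (1)-(3)): the matrix clip (helper881)

`clip A s` has singular values `min (σ, s)`; it is the projection of `A` onto the operator ball
`Op B s : ∀ f, ∑_x |∑_y B x y f y|² ≤ s² ∑ |f|²` in the Hilbert-Schmidt norm; `chi A s = A - clip A s`.
`clip_op`, `clip_proj`, `clip_firm`, `chi_factor` (labels, Gram, rows, PSD majorants), `clip_clip`,
`chi_ladder`.
-/

open scoped BigOperators ComplexConjugate

namespace Crest.Agent.R079.HiF881

variable {m n : Type*} [Fintype m] [Fintype n] [DecidableEq n]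

/-- real Hilbert-Schmidt inner product -/
noncomputable def ip (F G : m → n → ℂ) : ℝ := ∑ x, ∑ y, (F x y * conj (G x y)).re

/-- Hilbert-Schmidt norm squared -/
noncomputable def hs (F : m → n → ℂ) : ℝ := ∑ x, ∑ y, ‖F x y‖ ^ 2

/-- operator norm `≤ s` -/
def Op (B : m → n → ℂ) (s : ℝ) : Prop :=
  ∀ f : n → ℂ, ∑ x, ‖∑ y, B x y * f y‖ ^ 2 ≤ s ^ 2 * ∑ y, ‖f y‖ ^ 2

section ipbasic
omit [DecidableEq n]

theorem ip_self (F : m → n → ℂ) : ip F F = hs F := by
  unfold ip hs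
  refine Finset.sum_congr rfl fun x _ => Finset.sum_congr rfl fun y _ => ?_
  rw [mul_conj_self, Complex.ofReal_re]

theorem ip_comm (F G : m → n → ℂ) : ip F G = ip G F := by
  unfold ip
  refine Finset.sum_congr rfl fun x _ => Finset.sum_congr rfl fun y _ => ?_
  simp [Complex.mul_re, Complex.conj_re, Complex.conj_im]; ring


theorem ip_sub_left (F F' G : m → n → ℂ) : ip (fun x y => F x y - F' x y) G = ip F G - ip F' G := by
  unfold ip
  rw [← Finset.sum_sub_distrib]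
  refine Finset.sum_congr rfl fun x _ => ?_
  rw [← Finset.sum_sub_distrib]
  refine Finset.sum_congr rfl fun y _ => ?_
  rw [sub_mul, Complex.sub_re]


theorem ip_sub_right (F G G' : m → n → ℂ) : ip F (fun x y => G x y - G' x y) = ip F G - ip F G' := by
  rw [ip_comm, ip_sub_left, ip_comm G, ip_comm G']

theorem hs_nonneg (F : m → n → ℂ) : 0 ≤ hs F :=
  Finset.sum_nonneg fun _ _ => Finset.sum_nonneg fun _ _ => sq_nonneg _

theorem hs_sub (F G : m → n → ℂ) :
    hs (fun x y => F x y - G x y) = hs F - 2 * ip F G + hs G := by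
  rw [← ip_self, ip_sub_left, ip_sub_right, ip_sub_right, ip_self, ip_self, ip_comm G F]; ring

theorem hs_eq_zero {F : m → n → ℂ} (h : hs F = 0) (x : m) (y : n) : F x y = 0 := by
  have h1 := (Finset.sum_eq_zero_iff_of_nonneg
    (fun _ _ => Finset.sum_nonneg fun _ _ => sq_nonneg _)).1 h x (Finset.mem_univ _)
  have h2 := (Finset.sum_eq_zero_iff_of_nonneg (fun _ _ => sq_nonneg _)).1 h1 y (Finset.mem_univ _)
  simpa using h2

end ipbasic

section
variable {A : m → n → ℂ} {X : n → n → ℂ} {s : n → ℝ}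

/-- action of a multiplier on `X_k` -/
theorem AX_Mul (h : SVD A X s) (c : n → ℝ) (k : n) (x : m) :
    AX (Mul A X c) X k x = (c k : ℂ) * AX A X k x := by
  have h1 : ∀ y, Mul A X c x y * X k y
      = ∑ l, (c l : ℂ) * AX A X l x * (conj (X l y) * X k y) := by
    intro y
    rw [Mul, Finset.sum_mul]
    exact Finset.sum_congr rfl fun l _ => by ring
  rw [AX, Finset.sum_congr rfl fun y _ => h1 y, Finset.sum_comm]
  have h2 : ∀ l, ∑ y, (c l : ℂ) * AX A X l x * (conj (X l y) * X k y)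
      = (c l : ℂ) * AX A X l x * (if l = k then 1 else 0) := by
    intro l
    rw [← h.orth l k, Finset.mul_sum]
  rw [Finset.sum_congr rfl fun l _ => h2 l]
  simp

/-- a nonnegative multiplier has the same singular vectors -/
theorem SVD.mul (h : SVD A X s) {c : n → ℝ} (hc : ∀ k, 0 ≤ c k) :
    SVD (Mul A X c) X (fun k => c k * s k) where
  nn := fun k => mul_nonneg (hc k) (h.nn k)
  orth := h.orth
  comp := h.comp
  gram := by
    intro k l
    have h1 : ∀ k x, ∑ y, Mul A X c x y * X k y = (c k : ℂ) * AX A X k x := fun k x =>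
      AX_Mul h c k x
    simp only [h1]
    have h2 : ∀ x, conj ((c k : ℂ) * AX A X k x) * ((c l : ℂ) * AX A X l x)
        = ((c k : ℂ) * (c l : ℂ)) * (conj (∑ y, A x y * X k y) * (∑ y, A x y * X l y)) := by
      intro x
      simp only [AX, map_mul, Complex.conj_ofReal]
      ring
    rw [Finset.sum_congr rfl fun x _ => h2 x, ← Finset.mul_sum, h.gram]
    by_cases hkl : k = l
    · subst hkl; simp only [if_true]; push_cast; ring
    · simp [hkl]


omit [DecidableEq n] in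
/-- inner product of a multiplier with a matrix, column by column -/
theorem ip_Mul_gen (c : n → ℝ) (B : m → n → ℂ) :
    ∑ x, ∑ y, Mul A X c x y * conj (B x y)
      = ∑ k, (c k : ℂ) * ∑ x, AX A X k x * conj (∑ y, B x y * X k y) := by
  have h1 : ∀ x, ∑ y, Mul A X c x y * conj (B x y)
      = ∑ k, (c k : ℂ) * (AX A X k x * conj (∑ y, B x y * X k y)) := by
    intro x
    have h2 : ∀ y, Mul A X c x y * conj (B x y)
        = ∑ k, (c k : ℂ) * AX A X k x * conj (B x y * X k y) := by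
      intro y
      rw [Mul, Finset.sum_mul]
      refine Finset.sum_congr rfl fun k _ => ?_
      rw [map_mul]; ring
    rw [Finset.sum_congr rfl fun y _ => h2 y, Finset.sum_comm]
    refine Finset.sum_congr rfl fun k _ => ?_
    rw [map_sum, ← Finset.mul_sum]
    ring
  rw [Finset.sum_congr rfl fun x _ => h1 x, Finset.sum_comm]
  exact Finset.sum_congr rfl fun k _ => by rw [Finset.mul_sum]

/-- inner product of two multipliers -/
theorem ip_Mul (h : SVD A X s) (c d : n → ℝ) :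
    ip (Mul A X c) (Mul A X d) = ∑ k, c k * d k * s k ^ 2 := by
  have h1 : ∑ x, ∑ y, Mul A X c x y * conj (Mul A X d x y)
      = ∑ k, ((c k * d k * s k ^ 2 : ℝ) : ℂ) := by
    rw [ip_Mul_gen]
    refine Finset.sum_congr rfl fun k _ => ?_
    have h2 : ∀ x, AX A X k x * conj (∑ y, Mul A X d x y * X k y)
        = (d k : ℂ) * (conj (AX A X k x) * AX A X k x) := by
      intro x
      have := AX_Mul h d k x
      rw [AX] at this
      rw [this, map_mul, Complex.conj_ofReal]; ring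
    rw [Finset.sum_congr rfl fun x _ => h2 x, ← Finset.mul_sum]
    have h3 : ∑ x, conj (AX A X k x) * AX A X k x = (s k : ℂ) ^ 2 := by
      have := h.gram k k
      simpa [AX] using this
    rw [h3]; push_cast; ring
  have h4 : ip (Mul A X c) (Mul A X d)
      = (∑ x, ∑ y, Mul A X c x y * conj (Mul A X d x y)).re := by
    unfold ip
    simp only [Complex.re_sum]
  rw [h4, h1]
  simp only [Complex.re_sum, Complex.ofReal_re]

/-- inner product of a nonnegative multiplier with an operator-bounded matrix -/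
theorem ip_Mul_Op (h : SVD A X s) {c : n → ℝ} (hc : ∀ k, 0 ≤ c k) {B : m → n → ℂ} {M : ℝ}
    (hM : 0 ≤ M) (hB : Op B M) : ip (Mul A X c) B ≤ ∑ k, c k * (s k * M) := by
  have h4 : ip (Mul A X c) B = (∑ x, ∑ y, Mul A X c x y * conj (B x y)).re := by
    unfold ip
    simp only [Complex.re_sum]
  rw [h4, ip_Mul_gen, Complex.re_sum]
  refine Finset.sum_le_sum fun k _ => ?_
  have h5 : ((c k : ℂ) * ∑ x, AX A X k x * conj (∑ y, B x y * X k y)).re
      = c k * (∑ x, AX A X k x * conj (∑ y, B x y * X k y)).re := by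
    rw [Complex.re_ofReal_mul]
  rw [h5]
  refine mul_le_mul_of_nonneg_left ?_ (hc k)
  have h6 : (∑ x, AX A X k x * conj (∑ y, B x y * X k y)).re
      ≤ ∑ x, ‖AX A X k x‖ * ‖∑ y, B x y * X k y‖ := by
    rw [Complex.re_sum]
    refine Finset.sum_le_sum fun x _ => ?_
    refine (Complex.re_le_norm _).trans ?_
    rw [norm_mul, RCLike.norm_conj]
  refine h6.trans ?_
  refine (Real.sum_mul_le_sqrt_mul_sqrt _ _ _).trans ?_
  rw [sum_AX_sq h k, Real.sqrt_sq (h.nn k)]
  refine mul_le_mul_of_nonneg_left ?_ (h.nn k)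
  have h7 := hB (X k)
  rw [sum_X_sq h k, mul_one] at h7
  calc Real.sqrt (∑ x, ‖∑ y, B x y * X k y‖ ^ 2) ≤ Real.sqrt (M ^ 2) := Real.sqrt_le_sqrt h7
    _ = M := Real.sqrt_sq hM

end

/-! ## the clip -/

/-- multiplier of the clip -/
noncomputable def cc (s : n → ℝ) (th : ℝ) (k : n) : ℝ := if th < s k then th / s k else 1

section
variable {s : n → ℝ} {th : ℝ}

omit [Fintype n] [DecidableEq n] in
theorem cc_nonneg (hs : ∀ k, 0 ≤ s k) (hth : 0 ≤ th) (k : n) : 0 ≤ cc s th k := by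
  unfold cc; split_ifs
  · exact div_nonneg hth (hs k)
  · exact zero_le_one

omit [Fintype n] [DecidableEq n] in
theorem cc_le_one (hth : 0 ≤ th) (k : n) : cc s th k ≤ 1 := by
  unfold cc; split_ifs with h
  · exact (div_le_one (lt_of_le_of_lt hth h)).2 h.le
  · exact le_rfl

omit [Fintype n] [DecidableEq n] in
theorem cc_mul (hth : 0 ≤ th) (k : n) : cc s th k * s k = min (s k) th := by
  unfold cc; split_ifs with h
  · have : s k ≠ 0 := (lt_of_le_of_lt hth h).ne'
    rw [min_eq_right h.le]; field_simp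
  · rw [min_eq_left (not_lt.1 h), one_mul]

end

/-- the clip of `A` at height `th` (singular values `min (σ, th)`) -/
noncomputable def clip (A : m → n → ℂ) (th : ℝ) : m → n → ℂ :=
  Mul A (Classical.choose (exists_SVD A)) (cc (Classical.choose (Classical.choose_spec
    (exists_SVD A))) th)

/-- the part above the clip -/
noncomputable def chi (A : m → n → ℂ) (th : ℝ) : m → n → ℂ := fun x y => A x y - clip A th x y

/-- for one decomposition -/
structure IsClip (A : m → n → ℂ) (th : ℝ) (C : m → n → ℂ) : Prop where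
  op : Op C th
  proj : ∀ B, Op B th → ip (fun x y => A x y - C x y) B ≤ ip (fun x y => A x y - C x y) C

theorem isClip_of (A : m → n → ℂ) {X : n → n → ℂ} {s : n → ℝ} (h : SVD A X s) {th : ℝ}
    (hth : 0 ≤ th) : IsClip A th (Mul A X (cc s th)) := by
  have hsub : (fun x y => A x y - Mul A X (cc s th) x y) = Mul A X (fun k => 1 - cc s th k) := by
    funext x y
    have h1 := Mul_add (A := A) (X := X) (fun k => 1 - cc s th k) (cc s th) x y
    have h2 : (fun k => 1 - cc s th k + cc s th k) = fun _ => (1 : ℝ) := by funext k; ring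
    rw [h2, Mul_one h] at h1
    rw [← h1]; ring
  constructor
  · intro f
    refine Mul_op h (fun k => ?_) f
    have h1 : cc s th k * s k = min (s k) th := cc_mul hth k
    have h2 : 0 ≤ min (s k) th := le_min (h.nn k) hth
    have h3 : min (s k) th ≤ th := min_le_right _ _
    calc cc s th k ^ 2 * s k ^ 2 = (cc s th k * s k) ^ 2 := by ring
      _ = (min (s k) th) ^ 2 := by rw [h1]
      _ ≤ th ^ 2 := by nlinarith
  · intro B hB
    rw [hsub, ip_Mul h]
    refine (ip_Mul_Op h (fun k => sub_nonneg.2 (cc_le_one hth k)) hth hB).trans (le_of_eq ?_)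
    refine Finset.sum_congr rfl fun k _ => ?_
    unfold cc
    split_ifs with hk
    · have : s k ≠ 0 := (lt_of_le_of_lt hth hk).ne'
      field_simp
    · simp

omit [DecidableEq n] in
/-- uniqueness of the projection -/
theorem IsClip.unique {A : m → n → ℂ} {th : ℝ} {C C' : m → n → ℂ} (h : IsClip A th C)
    (h' : IsClip A th C') : C = C' := by
  have h1 := h.proj C' h'.op
  have h2 := h'.proj C h.op
  have h3 : hs (fun x y => C x y - C' x y) ≤ 0 := by
    rw [ip_sub_left, ip_sub_left] at h1 h2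
    rw [hs_sub, ← ip_self C, ← ip_self C']
    rw [ip_comm C' C] at h2
    linarith
  have h4 : hs (fun x y => C x y - C' x y) = 0 := le_antisymm h3 (hs_nonneg _)
  funext x y
  have := hs_eq_zero h4 x y
  exact sub_eq_zero.1 this

theorem isClip (A : m → n → ℂ) {th : ℝ} (hth : 0 ≤ th) : IsClip A th (clip A th) :=
  isClip_of A (Classical.choose_spec (Classical.choose_spec (exists_SVD A))) hth

theorem clip_eq {A : m → n → ℂ} {X : n → n → ℂ} {s : n → ℝ} (h : SVD A X s) {th : ℝ}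
    (hth : 0 ≤ th) : clip A th = Mul A X (cc s th) :=
  (isClip A hth).unique (isClip_of A h hth)

theorem clip_op (A : m → n → ℂ) {th : ℝ} (hth : 0 ≤ th) : Op (clip A th) th := (isClip A hth).op

theorem clip_proj (A : m → n → ℂ) {th : ℝ} (hth : 0 ≤ th) {B : m → n → ℂ} (hB : Op B th) :
    ip (chi A th) B ≤ ip (chi A th) (clip A th) := (isClip A hth).proj B hB

/-- distance form -/
theorem clip_dist (A : m → n → ℂ) {th : ℝ} (hth : 0 ≤ th) {B : m → n → ℂ} (hB : Op B th) :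
    hs (chi A th) + hs (fun x y => clip A th x y - B x y) ≤ hs (fun x y => A x y - B x y) := by
  have h1 := clip_proj A hth hB
  have h2 : (fun x y => A x y - B x y) = fun x y => chi A th x y - (B x y - clip A th x y) := by
    funext x y; simp only [chi]; ring
  have h3 : hs (fun x y => B x y - clip A th x y) = hs (fun x y => clip A th x y - B x y) := by
    rw [hs_sub, hs_sub, ip_comm]; ring
  rw [h2, hs_sub (chi A th) (fun x y => B x y - clip A th x y), ip_sub_right, h3]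
  linarith




theorem chi_eq {A : m → n → ℂ} {X : n → n → ℂ} {s : n → ℝ} (h : SVD A X s) {th : ℝ}
    (hth : 0 ≤ th) : chi A th = Mul A X (fun k => 1 - cc s th k) := by
  funext x y
  have h1 := Mul_add (A := A) (X := X) (fun k => 1 - cc s th k) (cc s th) x y
  have h2 : (fun k => 1 - cc s th k + cc s th k) = fun _ => (1 : ℝ) := by funext k; ring
  rw [h2, Mul_one h] at h1
  rw [chi, clip_eq h hth, ← h1]; ring



/-- factorisation of `chi`: labels `n`, Gram `diag (σ - s)_+`, PSD majorants `A A* / 4s`, `A* A / 4s` -/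
structure ChiFac (A : m → n → ℂ) (s : ℝ) (P : m → n → ℂ) (Q : n → n → ℂ) (ψ : n → ℝ) : Prop where
  nn : ∀ k, 0 ≤ ψ k
  eq : ∀ x y, ∑ k, P x k * Q k y = chi A s x y
  gP : ∀ k l, ∑ x, conj (P x k) * P x l = if k = l then (ψ k : ℂ) else 0
  gQ : ∀ k l, ∑ y, Q k y * conj (Q l y) = if k = l then (ψ k : ℂ) else 0
  rowP : ∀ x, 4 * s * ∑ k, ‖P x k‖ ^ 2 ≤ ∑ y, ‖A x y‖ ^ 2
  rowQ : ∀ y, 4 * s * ∑ k, ‖Q k y‖ ^ 2 ≤ ∑ x, ‖A x y‖ ^ 2
  majP : ∀ f : m → ℂ, 4 * s * ∑ k, ‖∑ x, P x k * f x‖ ^ 2 ≤ ∑ y, ‖∑ x, A x y * f x‖ ^ 2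
  majQ : ∀ f : n → ℂ, 4 * s * ∑ k, ‖∑ y, Q k y * f y‖ ^ 2 ≤ ∑ x, ‖∑ y, A x y * f y‖ ^ 2
  hsψ : ∑ k, ψ k ^ 2 = hs (chi A s)


end Crest.Agent.R079.HiF881
end

-- ▼ part R079/ClW_59

/-! R079, Step I in the line model (helper59, 28031 / post 07:07): the CLIP penalty on Whitney cells.

`OpS S S' B s` : operator norm of the kernel `B` on the rectangle `S × S'` is `≤ s`.
`DQ A S S' s` : squared Hilbert-Schmidt distance of `A` on `S × S'` to that ball (helper881's clip).
`phiC r c Y n a b g` : `DQ` of `c z z' g (Y z z')` on the cell `dI n a × dI n b`, threshold `r 2^n`.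
`CF_phiC` : these are cell functionals in the sense of `Whit_159` (halving inequality = gluing of four
blocks), so `Pen`, `Pen_glue`, `Phi` apply. -/

set_option autoImplicit false

namespace Crest.Agent.R079.ClW59

open Finset Crest.Agent.R079.Grid Crest.Agent.R079.Growth Crest.Agent.R079.QRed
  Crest.Agent.R079.Qh249 Crest.Agent.R079.TWin Crest.Agent.R079.Whit Crest.Agent.R079.HiF881

/-- operator norm on a rectangle -/
def OpS (S S' : Finset ℤ) (B : ℤ → ℤ → ℂ) (s : ℝ) : Prop :=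
  ∀ f : ℤ → ℂ, ∑ x ∈ S, ‖∑ y ∈ S', B x y * f y‖ ^ 2 ≤ s ^ 2 * ∑ y ∈ S', ‖f y‖ ^ 2

/-- squared distance to the operator ball -/
noncomputable def DQ (A : ℤ → ℤ → ℂ) (S S' : Finset ℤ) (s : ℝ) : ℝ :=
  hs (chi (fun (x : {x // x ∈ S}) (y : {y // y ∈ S'}) => A x y) s)

lemma op_of {S S' : Finset ℤ} {B : ℤ → ℤ → ℂ} {s : ℝ} (h : OpS S S' B s) :
    Op (fun (x : {x // x ∈ S}) (y : {y // y ∈ S'}) => B x y) s := by
  classical
  intro f
  have h1 := h (fun y => if hy : y ∈ S' then f ⟨y, hy⟩ else 0)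
  rw [← Finset.sum_coe_sort S, ← Finset.sum_coe_sort S'] at h1
  have e1 : ∀ x : {x // x ∈ S}, ∑ y ∈ S', B x y * (if hy : y ∈ S' then f ⟨y, hy⟩ else 0) =
      ∑ y : {y // y ∈ S'}, B x y * f y := by
    intro x
    rw [← Finset.sum_coe_sort S']
    refine Finset.sum_congr rfl fun y _ => ?_
    rw [dif_pos y.2]
  have e2 : ∑ y : {y // y ∈ S'}, ‖(if hy : (y : ℤ) ∈ S' then f ⟨y, hy⟩ else 0)‖ ^ 2 =
      ∑ y : {y // y ∈ S'}, ‖f y‖ ^ 2 := by
    refine Finset.sum_congr rfl fun y _ => ?_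
    rw [dif_pos y.2]
  rw [e2] at h1
  calc ∑ x : {x // x ∈ S}, ‖∑ y : {y // y ∈ S'}, B x y * f y‖ ^ 2
      = ∑ x : {x // x ∈ S},
          ‖∑ y ∈ S', B x y * (if hy : y ∈ S' then f ⟨y, hy⟩ else 0)‖ ^ 2 :=
        Finset.sum_congr rfl fun x _ => by rw [e1 x]
    _ ≤ _ := h1

lemma of_op {S S' : Finset ℤ} {B : ℤ → ℤ → ℂ} {s : ℝ}
    (h : Op (fun (x : {x // x ∈ S}) (y : {y // y ∈ S'}) => B x y) s) : OpS S S' B s := by
  intro f
  have h1 := h (fun y => f y)
  rw [← Finset.sum_coe_sort S, ← Finset.sum_coe_sort S' (fun y => ‖f y‖ ^ 2)]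
  refine le_trans (le_of_eq ?_) h1
  refine Finset.sum_congr rfl fun x _ => ?_
  rw [← Finset.sum_coe_sort S']

lemma DQ_nonneg (A : ℤ → ℤ → ℂ) (S S' : Finset ℤ) (s : ℝ) : 0 ≤ DQ A S S' s := hs_nonneg _

lemma hs_sum (S S' : Finset ℤ) (A : ℤ → ℤ → ℂ) :
    hs (fun (x : {x // x ∈ S}) (y : {y // y ∈ S'}) => A x y) = ∑ x ∈ S, ∑ y ∈ S', ‖A x y‖ ^ 2 := by
  unfold hs
  rw [← Finset.sum_coe_sort S]
  refine Finset.sum_congr rfl fun x _ => ?_
  rw [← Finset.sum_coe_sort S']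

/-- the distance is at most the distance to any competitor, with the Pythagoras gain -/
lemma DQ_le (A : ℤ → ℤ → ℂ) {S S' : Finset ℤ} {s : ℝ} (hs0 : 0 ≤ s) {B : ℤ → ℤ → ℂ}
    (hB : OpS S S' B s) : DQ A S S' s ≤ ∑ x ∈ S, ∑ y ∈ S', ‖A x y - B x y‖ ^ 2 := by
  have h := clip_dist (fun (x : {x // x ∈ S}) (y : {y // y ∈ S'}) => A x y) hs0 (op_of hB)
  have h2 := hs_sum S S' (fun x y => A x y - B x y)
  have h3 := hs_nonneg (fun (x : {x // x ∈ S}) (y : {y // y ∈ S'}) =>
    clip (fun (x : {x // x ∈ S}) (y : {y // y ∈ S'}) => A x y) s x y - B x y)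
  rw [← h2]
  unfold DQ
  linarith

/-- the clip, extended by zero -/
noncomputable def cl (A : ℤ → ℤ → ℂ) (S S' : Finset ℤ) (s : ℝ) (x y : ℤ) : ℂ :=
  if h : x ∈ S ∧ y ∈ S' then
    clip (fun (x : {x // x ∈ S}) (y : {y // y ∈ S'}) => A x y) s ⟨x, h.1⟩ ⟨y, h.2⟩ else 0

lemma cl_op (A : ℤ → ℤ → ℂ) (S S' : Finset ℤ) {s : ℝ} (hs0 : 0 ≤ s) :
    OpS S S' (cl A S S' s) s := by
  apply of_op
  have e : (fun (x : {x // x ∈ S}) (y : {y // y ∈ S'}) => cl A S S' s x y) =
      clip (fun (x : {x // x ∈ S}) (y : {y // y ∈ S'}) => A x y) s := by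
    funext x y
    unfold cl
    rw [dif_pos ⟨x.2, y.2⟩]
  rw [e]
  exact clip_op _ hs0

lemma cl_dist (A : ℤ → ℤ → ℂ) (S S' : Finset ℤ) (s : ℝ) :
    ∑ x ∈ S, ∑ y ∈ S', ‖A x y - cl A S S' s x y‖ ^ 2 = DQ A S S' s := by
  rw [← hs_sum S S' (fun x y => A x y - cl A S S' s x y)]
  unfold DQ
  congr 1
  funext x y
  unfold cl chi
  rw [dif_pos ⟨x.2, y.2⟩]


lemma opS_zero (S S' : Finset ℤ) (s : ℝ) : OpS S S' (fun _ _ => 0) s := by
  intro f
  simp only [zero_mul, Finset.sum_const_zero, norm_zero, ne_eq, OfNat.ofNat_ne_zero,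
    not_false_eq_true, zero_pow]
  positivity







end Crest.Agent.R079.ClW59
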