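import Crest.Agent.R079.GridDefs_569
import Crest.Agent.R079.TWinB_649
import Crest.Agent.R079.TWin1_903
import Crest.Agent.R079.MBes_71
import Crest.Agent.R079.Static_569

-- ▼ part R079/F2_408
section

/-! R079, doc 2539 (1) (helper142), leaf L1 (helper408): **EXACT 2D FORMULA** for `Grid.Lbox`.

Slots `i` (frozen), `m` (killer), `a`, `b` (arbitrary letters), all distinct.  For fixed `u_i, u_m` the box
average over `u_a, u_b` is the two dimensional form `br` of the kernel `Kk` (product of the letters of the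
slots `i`, `m`) against `Yb` (function of the variable `x_a` only) and `Ya` (function of `x_b` only), after a
translation to `x_m = 0`, `x_i = r ∈ {0, …, |d|-1}`, `d = sl b - sl a`. -/

set_option autoImplicit false

namespace Crest.Agent.R079.F2

open Finset Crest.Agent.R079.Grid

/-- the four slots are distinct -/
def Dst (i m a b : Fin 4) : Prop := i ≠ m ∧ i ≠ a ∧ i ≠ b ∧ m ≠ a ∧ m ≠ b ∧ a ≠ b

instance (i m a b : Fin 4) : Decidable (Dst i m a b) := by unfold Dst; infer_instance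

/-- slope difference of the two arbitrary slots -/
def dd (a b : Fin 4) : ℤ := sl b - sl a

/-- letter of slot `a` as a function of `x_b` -/
def Ya (i a b : Fin 4) (F : Fin 4 → ℤ → ℂ) (r : ℤ) (z : ℤ) : ℂ :=
  F a ((sl i - sl a) * r + dd a b * z)

/-- letter of slot `b` as a function of `x_a` -/
def Yb (i a b : Fin 4) (F : Fin 4 → ℤ → ℂ) (r : ℤ) (z : ℤ) : ℂ :=
  F b ((sl i - sl b) * r - dd a b * z)

/-- the kernel: product of the letters of the slots `i` and `m`, function of `(x_a, x_b)` -/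
def Kk (i m a b : Fin 4) (F : Fin 4 → ℤ → ℂ) (r : ℤ) (z z' : ℤ) : ℂ :=
  F i ((sl a - sl i) * z + (sl b - sl i) * z') *
    F m ((sl i - sl m) * r + (sl a - sl m) * z + (sl b - sl m) * z')

/-- the two dimensional form: boxes `[qa, qa + 2N) × [qb, qb + 2N)` -/
noncomputable def br (i m a b : Fin 4) (F : Fin 4 → ℤ → ℂ) (N : ℕ) (r qa qb : ℤ) : ℂ :=
  (1 / ((N : ℂ) + N) ^ 2) * ∑ ua : Fin (N + N), ∑ ub : Fin (N + N),
    ((hsg N ua * hsg N ub : ℝ) : ℂ) *
      (Yb i a b F r (qa + ((ua : ℕ) : ℤ)) * Kk i m a b F r (qa + ((ua : ℕ) : ℤ)) (qb + ((ub : ℕ) : ℤ)) *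
        Ya i a b F r (qb + ((ub : ℕ) : ℤ)))

/-- base point of the box with data `(q_a = q, r, u_i, u_m)` -/
def xq (i m a b : Fin 4) (bb : ℤ) (N : ℕ) (q r ui um : ℤ) : ℤ :=
  sl b * (bb * N) - dd a b * q + (sl i - sl b) * (r - ui) - (sl m - sl b) * um

/-- the offset `q_a + q_b` -/
def off (bb : ℤ) (N : ℕ) (r ui um : ℤ) : ℤ := bb * N + ui + um - r

lemma univ4 (i m a b : Fin 4) (h : Dst i m a b) : (univ : Finset (Fin 4)) = {i, m, a, b} := by
  revert i m a b; decide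

lemma prod4 {M : Type*} [CommMonoid M] (i m a b : Fin 4) (h : Dst i m a b) (g : Fin 4 → M) :
    ∏ j, g j = g i * g m * g a * g b := by
  obtain ⟨h1, h2, h3, h4, h5, h6⟩ := h
  rw [univ4 i m a b ⟨h1, h2, h3, h4, h5, h6⟩, Finset.prod_insert (by simp [h1, h2, h3]),
    Finset.prod_insert (by simp [h4, h5]), Finset.prod_insert (by simp [h6]), Finset.prod_singleton]
  simp only [mul_assoc]

lemma sum4 {M : Type*} [AddCommMonoid M] (i m a b : Fin 4) (h : Dst i m a b) (g : Fin 4 → M) :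
    ∑ j, g j = g i + g m + g a + g b := by
  obtain ⟨h1, h2, h3, h4, h5, h6⟩ := h
  rw [univ4 i m a b ⟨h1, h2, h3, h4, h5, h6⟩, Finset.sum_insert (by simp [h1, h2, h3]),
    Finset.sum_insert (by simp [h4, h5]), Finset.sum_insert (by simp [h6]), Finset.sum_singleton]
  simp only [add_assoc]

/-- point of the box from its four coordinates -/
def mk {α : Type*} (i m a : Fin 4) (ui um ua ub : α) : Fin 4 → α :=
  fun j => if j = i then ui else if j = m then um else if j = a then ua else ub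

lemma mem4 (i m a b j : Fin 4) (h : Dst i m a b) : j = i ∨ j = m ∨ j = a ∨ j = b := by
  revert i m a b j; decide

/-- Fubini: the sum over the box in the coordinates `(u_i, u_m, u_a, u_b)` -/
lemma sum_box {α : Type*} [Fintype α] [DecidableEq α] (i m a b : Fin 4) (h : Dst i m a b)
    {M : Type*} [AddCommMonoid M] (g : (Fin 4 → α) → M) :
    ∑ u : Fin 4 → α, g u = ∑ ui : α, ∑ um : α, ∑ ua : α, ∑ ub : α, g (mk i m a ui um ua ub) := by
  have h' := h
  obtain ⟨h1, h2, h3, h4, h5, h6⟩ := h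
  let e : (Fin 4 → α) ≃ α × α × α × α :=
    { toFun := fun u => (u i, u m, u a, u b)
      invFun := fun t => mk i m a t.1 t.2.1 t.2.2.1 t.2.2.2
      left_inv := by
        intro u
        funext j
        rcases mem4 i m a b j h' with rfl | rfl | rfl | rfl
        · simp [mk]
        · simp [mk, h1.symm]
        · simp [mk, h2.symm, h4.symm]
        · simp [mk, h3.symm, h5.symm, h6.symm]
      right_inv := by
        rintro ⟨x, y, z, w⟩
        simp [mk, h1.symm, h2.symm, h4.symm, h3.symm, h5.symm, h6.symm] }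
  rw [← e.symm.sum_comp g, Fintype.sum_prod_type]
  refine Finset.sum_congr rfl fun ui _ => ?_
  rw [Fintype.sum_prod_type]
  refine Finset.sum_congr rfl fun um _ => ?_
  rw [Fintype.sum_prod_type]
  rfl

lemma dd_cases (i m a b : Fin 4) (h : Dst i m a b) :
    dd a b = 1 ∨ dd a b = -1 ∨ ((dd a b = 2 ∨ dd a b = -2) ∧ (sl i - sl a) % 2 = 1) ∨
      ((dd a b = 3 ∨ dd a b = -3) ∧ ((sl i - sl a) % 3 = 1 ∨ (sl i - sl a) % 3 = 2)) := by
  revert i m a b; decide

/-- arithmetic: the residue `r` -/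
lemma exists_res (i m a b : Fin 4) (h : Dst i m a b) (c : ℤ) :
    ∃ r : ℕ, r < (dd a b).natAbs ∧ ∃ q : ℤ, dd a b * q = c - (sl i - sl a) * r := by
  generalize hs : sl i - sl a = s
  rcases dd_cases i m a b h with h1 | h1 | ⟨h1, h2⟩ | ⟨h1, h2⟩
  · exact ⟨0, by rw [h1]; decide, c, by rw [h1]; simp⟩
  · exact ⟨0, by rw [h1]; decide, -c, by rw [h1]; simp⟩
  · rw [hs] at h2
    have hc2 : c % 2 = 0 ∨ c % 2 = 1 := by omega
    rcases hc2 with hc | hc
    · refine ⟨0, by rcases h1 with h1 | h1 <;> rw [h1] <;> decide, ?_⟩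
      rcases h1 with h1 | h1 <;> rw [h1]
      · exact ⟨c / 2, by push_cast; omega⟩
      · exact ⟨-(c / 2), by push_cast; omega⟩
    · refine ⟨1, by rcases h1 with h1 | h1 <;> rw [h1] <;> decide, ?_⟩
      rcases h1 with h1 | h1 <;> rw [h1]
      · exact ⟨(c - s) / 2, by push_cast; omega⟩
      · exact ⟨-((c - s) / 2), by push_cast; omega⟩
  · rw [hs] at h2
    have hc3 : c % 3 = 0 ∨ c % 3 = 1 ∨ c % 3 = 2 := by omega
    have key : ∃ r : ℕ, r < 3 ∧ (c - s * r) % 3 = 0 := by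
      rcases h2 with h2 | h2 <;> rcases hc3 with hc | hc | hc
      · exact ⟨0, by norm_num, by push_cast; omega⟩
      · exact ⟨1, by norm_num, by push_cast; omega⟩
      · exact ⟨2, by norm_num, by push_cast; omega⟩
      · exact ⟨0, by norm_num, by push_cast; omega⟩
      · exact ⟨2, by norm_num, by push_cast; omega⟩
      · exact ⟨1, by norm_num, by push_cast; omega⟩
    obtain ⟨r, hr, hr'⟩ := key
    refine ⟨r, by rcases h1 with h1 | h1 <;> rw [h1] <;> simpa using hr, ?_⟩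
    rcases h1 with h1 | h1 <;> rw [h1]
    · exact ⟨(c - s * r) / 3, by omega⟩
    · exact ⟨-((c - s * r) / 3), by omega⟩

/-- **pointwise formula** for fixed `u_i, u_m` -/
lemma br_eq (i m a b : Fin 4) (h : Dst i m a b) (F : Fin 4 → ℤ → ℂ) (N : ℕ) (bb x r q : ℤ)
    (ui um : Fin (N + N)) (hx : xq i m a b bb N q r ui um = x) :
    (1 / ((N : ℂ) + N) ^ 2) * ∑ ua : Fin (N + N), ∑ ub : Fin (N + N),
      ((hsg N ua * hsg N ub : ℝ) : ℂ) * ∏ j, F j (yv N bb x (mk i m a ui um ua ub) j) =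
    br i m a b F N r q (off bb N r ui um - q) := by
  unfold br
  congr 1
  refine Finset.sum_congr rfl fun ua _ => Finset.sum_congr rfl fun ub _ => ?_
  congr 1
  rw [prod4 i m a b h]
  have h' := h
  obtain ⟨h1, h2, h3, h4, h5, h6⟩ := h
  have e1 : mk i m a ui um ua ub i = ui := by simp [mk]
  have e2 : mk i m a ui um ua ub m = um := by simp [mk, h1.symm]
  have e3 : mk i m a ui um ua ub a = ua := by simp [mk, h2.symm, h4.symm]
  have e4 : mk i m a ui um ua ub b = ub := by simp [mk, h3.symm, h5.symm, h6.symm]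
  have ey : ∀ k : Fin 4, yv N bb x (mk i m a ui um ua ub) k =
      x + ((sl i - sl k) * ((ui : ℕ) : ℤ) + (sl m - sl k) * ((um : ℕ) : ℤ) +
        (sl a - sl k) * ((ua : ℕ) : ℤ) + (sl b - sl k) * ((ub : ℕ) : ℤ)) - sl k * (bb * N) := by
    intro k
    unfold yv
    rw [sum4 i m a b h', e1, e2, e3, e4]
  rw [ey i, ey m, ey a, ey b]
  simp only [Ya, Yb, Kk]
  subst hx
  simp only [xq, off, dd]
  have c1 : ∀ (k : Fin 4) (y z : ℤ), y = z → F k y = F k z := fun k y z hyz => by rw [hyz]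
  rw [c1 i _ ((sl a - sl i) * (q + ((ua : ℕ) : ℤ)) +
      (sl b - sl i) * (bb * N + ((ui : ℕ) : ℤ) + ((um : ℕ) : ℤ) - r - q + ((ub : ℕ) : ℤ))) (by ring),
    c1 m _ ((sl i - sl m) * r + (sl a - sl m) * (q + ((ua : ℕ) : ℤ)) +
      (sl b - sl m) * (bb * N + ((ui : ℕ) : ℤ) + ((um : ℕ) : ℤ) - r - q + ((ub : ℕ) : ℤ))) (by ring),
    c1 a _ ((sl i - sl a) * r +
      (sl b - sl a) * (bb * N + ((ui : ℕ) : ℤ) + ((um : ℕ) : ℤ) - r - q + ((ub : ℕ) : ℤ))) (by ring),
    c1 b _ ((sl i - sl b) * r - (sl b - sl a) * (q + ((ua : ℕ) : ℤ))) (by ring)]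
  ring

/-- the data `(r, q)` of a box exist -/
lemma exists_rq (i m a b : Fin 4) (h : Dst i m a b) (bb : ℤ) (N : ℕ) (x ui um : ℤ) :
    ∃ r : ℕ, r < (dd a b).natAbs ∧ ∃ q : ℤ, xq i m a b bb N q r ui um = x := by
  obtain ⟨r, hr, q, hq⟩ := exists_res i m a b h
    (x + (sl i - sl a) * ui + (sl m - sl a) * um - sl a * (bb * N))
  refine ⟨r, hr, off bb N r ui um - q, ?_⟩
  unfold xq off
  have : dd a b * (bb * N + ui + um - r - q) = dd a b * (bb * N + ui + um - r) - dd a b * q := by ring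
  rw [this, hq]
  unfold dd
  ring

/-- **EXACT FORMULA (2539 (1))** -/
theorem Lbox_eq (i m a b : Fin 4) (h : Dst i m a b) (F : Fin 4 → ℤ → ℂ) (N : ℕ) (bb x : ℤ)
    (r : Fin (N + N) → Fin (N + N) → ℕ) (q : Fin (N + N) → Fin (N + N) → ℤ)
    (hq : ∀ ui um, xq i m a b bb N (q ui um) (r ui um) ((ui : ℕ) : ℤ) ((um : ℕ) : ℤ) = x) :
    Lbox N bb F x = (1 / ((N : ℂ) + N) ^ 2) * ∑ ui : Fin (N + N), ∑ um : Fin (N + N),
      ((hsg N ui * hsg N um : ℝ) : ℂ) *
        br i m a b F N (r ui um) (q ui um)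
          (off bb N (r ui um) ((ui : ℕ) : ℤ) ((um : ℕ) : ℤ) - q ui um) := by
  unfold Lbox
  rw [sum_box i m a b h, Finset.mul_sum, Finset.mul_sum]
  refine Finset.sum_congr rfl fun ui _ => ?_
  rw [Finset.mul_sum, Finset.mul_sum]
  refine Finset.sum_congr rfl fun um _ => ?_
  rw [← br_eq i m a b h F N bb x (r ui um) (q ui um) ui um (hq ui um)]
  have h' := h
  obtain ⟨h1, h2, h3, h4, h5, h6⟩ := h
  have e1 : ∀ ua ub, mk i m a ui um ua ub i = ui := by intros; simp [mk]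
  have e2 : ∀ ua ub, mk i m a ui um ua ub m = um := by intros; simp [mk, h1.symm]
  have e3 : ∀ ua ub, mk i m a ui um ua ub a = ua := by intros; simp [mk, h2.symm, h4.symm]
  have e4 : ∀ ua ub, mk i m a ui um ua ub b = ub := by intros; simp [mk, h3.symm, h5.symm, h6.symm]
  simp only [Finset.mul_sum]
  refine Finset.sum_congr rfl fun ua _ => Finset.sum_congr rfl fun ub _ => ?_
  rw [prod4 i m a b h' (fun j => hsg N (mk i m a ui um ua ub j)), e1, e2, e3, e4]
  push_cast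
  ring

lemma norm_hsg (N : ℕ) (u : Fin (N + N)) : ‖(hsg N u : ℂ)‖ = 1 := by
  unfold hsg
  split_ifs <;> simp

/-- **norm form, summed over the base points** -/
theorem sum_norm_Lbox_le (i m a b : Fin 4) (h : Dst i m a b) (F : Fin 4 → ℤ → ℂ) (N : ℕ) (bb : ℤ)
    (S Q : Finset ℤ)
    (hQ : ∀ (ui um : Fin (N + N)) (r : ℕ) (q : ℤ), r < (dd a b).natAbs →
      xq i m a b bb N q r ((ui : ℕ) : ℤ) ((um : ℕ) : ℤ) ∈ S → q ∈ Q) :
    ∑ x ∈ S, ‖Lbox N bb F x‖ ≤
      (1 / ((N : ℝ) + N) ^ 2) * ∑ ui : Fin (N + N), ∑ um : Fin (N + N),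
        ∑ r ∈ range (dd a b).natAbs, ∑ q ∈ Q,
          if xq i m a b bb N q r ((ui : ℕ) : ℤ) ((um : ℕ) : ℤ) ∈ S then
            ‖br i m a b F N r q (off bb N r ((ui : ℕ) : ℤ) ((um : ℕ) : ℤ) - q)‖ else 0 := by
  classical
  have hex : ∀ (x : ℤ) (ui um : Fin (N + N)), ∃ t : ℕ × ℤ, t.1 < (dd a b).natAbs ∧
      xq i m a b bb N t.2 t.1 ((ui : ℕ) : ℤ) ((um : ℕ) : ℤ) = x := by
    intro x ui um
    obtain ⟨r, hr, q, hq⟩ := exists_rq i m a b h bb N x ((ui : ℕ) : ℤ) ((um : ℕ) : ℤ)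
    exact ⟨(r, q), hr, hq⟩
  choose t ht1 ht2 using hex
  have h1 : ∀ x, ‖Lbox N bb F x‖ ≤ (1 / ((N : ℝ) + N) ^ 2) * ∑ ui : Fin (N + N), ∑ um : Fin (N + N),
      ‖br i m a b F N (t x ui um).1 (t x ui um).2
        (off bb N (t x ui um).1 ((ui : ℕ) : ℤ) ((um : ℕ) : ℤ) - (t x ui um).2)‖ := by
    intro x
    rw [Lbox_eq i m a b h F N bb x (fun ui um => (t x ui um).1) (fun ui um => (t x ui um).2)
      (fun ui um => ht2 x ui um), norm_mul]
    have hn : ‖(1 / ((N : ℂ) + N) ^ 2)‖ = 1 / ((N : ℝ) + N) ^ 2 := by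
      rw [norm_div, norm_one, norm_pow]
      congr 2
      rw [← Nat.cast_add, Complex.norm_natCast, Nat.cast_add]
    rw [hn]
    refine mul_le_mul_of_nonneg_left ?_ (by positivity)
    refine (norm_sum_le _ _).trans (Finset.sum_le_sum fun ui _ => ?_)
    refine (norm_sum_le _ _).trans (Finset.sum_le_sum fun um _ => ?_)
    rw [norm_mul, Complex.ofReal_mul, norm_mul, norm_hsg, norm_hsg, one_mul, one_mul]
  refine (Finset.sum_le_sum fun x _ => h1 x).trans ?_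
  rw [← Finset.mul_sum]
  refine mul_le_mul_of_nonneg_left ?_ (by positivity)
  rw [Finset.sum_comm]
  refine Finset.sum_le_sum fun ui _ => ?_
  rw [Finset.sum_comm]
  refine Finset.sum_le_sum fun um _ => ?_
  -- injection `x ↦ (r, q)`
  rw [← Finset.sum_product' (range (dd a b).natAbs) Q (fun r q =>
    if xq i m a b bb N q r ((ui : ℕ) : ℤ) ((um : ℕ) : ℤ) ∈ S then
            ‖br i m a b F N r q (off bb N r ((ui : ℕ) : ℤ) ((um : ℕ) : ℤ) - q)‖ else 0)]
  have hinj : Set.InjOn (fun x => t x ui um) (S : Set ℤ) := by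
    intro x _ y _ hxy
    have hxy' : t x ui um = t y ui um := hxy
    rw [← ht2 x ui um, ← ht2 y ui um, hxy']
  have himg : S.image (fun x => t x ui um) ⊆ range (dd a b).natAbs ×ˢ Q := by
    intro z hz
    rw [Finset.mem_image] at hz
    obtain ⟨x, hx, rfl⟩ := hz
    rw [Finset.mem_product, Finset.mem_range]
    refine ⟨ht1 x ui um, hQ ui um _ _ (ht1 x ui um) ?_⟩
    rw [ht2 x ui um]
    exact hx
  refine le_trans (le_of_eq ?_) (Finset.sum_le_sum_of_subset_of_nonneg himg fun z _ _ => ?_)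
  · rw [Finset.sum_image hinj]
    refine Finset.sum_congr rfl fun x hx => ?_
    rw [if_pos]
    rw [ht2 x ui um]
    exact hx
  · split_ifs
    · exact norm_nonneg _
    · exact le_refl _

end Crest.Agent.R079.F2
end

-- ▼ part R079/Ero_526
section

/-! R079, doc 2539 (5) of helper142, leaf L3 (helper526): COUNTING OF THE ERODED MASKS.

`Alv W m z` : `z` is alive at level `m` (the node of level `m` containing `z` is in `W`);
`Er W C m y` : all points at distance `≤ C 2^(m+7)` of `y` are alive at level `m`;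
positions which see a change of `Er` between the levels `m-1` and `m`: total number `≤ K len I`;
bad nodes (`C1 len p`-neighbourhood not alive at level `p.1`): total length `≤ K len I`. -/

set_option autoImplicit false

namespace Crest.Agent.R079.Ero526

open Finset Crest.Agent.R079.Grid Crest.Agent.R079.Growth Crest.Agent.R079.QRed
open Crest.Agent.R079.Qh249 (mem_iv mem_lf sub_of_level)

/-- `z` is alive at level `m` -/
def Alv (W : Finset Nd) (m : ℕ) (z : ℤ) : Prop := (m, z / 2 ^ (m + 7)) ∈ W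

/-- eroded alive set of level `m` -/
def Er (W : Finset Nd) (C : ℕ) (m : ℕ) (y : ℤ) : Prop :=
  ∀ z : ℤ, |z - y| ≤ C * 2 ^ (m + 7) → Alv W m z

theorem alv_iff {W : Finset Nd} {m : ℕ} {z : ℤ} : Alv W m z ↔ ∃ l, (m, l) ∈ W ∧ z ∈ iv (m, l) := by
  constructor
  · intro h
    exact ⟨_, h, mem_iv.2 rfl⟩
  · rintro ⟨l, h, hz⟩
    have := mem_iv.1 hz
    simp only at this
    unfold Alv
    rw [this]
    exact h

theorem alv_of_mem {W : Finset Nd} {p : Nd} (hp : p ∈ W) {z : ℤ} (hz : z ∈ iv p) :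
    Alv W p.1 z := alv_iff.2 ⟨p.2, hp, hz⟩

theorem alv_mono {W : Finset Nd} {I : Nd} (hW : Full W I) {m m' : ℕ} (h : m ≤ m') (h' : m' ≤ I.1)
    {z : ℤ} (hz : Alv W m z) : Alv W m' z := by
  obtain ⟨l, hl, hzl⟩ := alv_iff.1 hz
  have h1 : z ∈ iv (m', z / 2 ^ (m' + 7)) := mem_iv.2 rfl
  have h2 : z ∈ iv I := hW.reg.1 _ hl hzl
  exact hW.reg.2 _ hl _ (sub_of_level hzl h1 h) (sub_of_level h1 h2 h')

theorem alv_top {W : Finset Nd} {I : Nd} (hW : Full W I) {m : ℕ} {z : ℤ} (hz : Alv W m z) :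
    z ∈ iv I := by
  obtain ⟨l, hl, hzl⟩ := alv_iff.1 hz
  exact hW.reg.1 _ hl hzl

theorem alv_level {W : Finset Nd} {I : Nd} (hW : Full W I) {m : ℕ} {z : ℤ} (hz : Alv W m z) :
    m ≤ I.1 := Qe292.iv_level (hW.reg.1 _ hz)

theorem er_self {W : Finset Nd} {C m : ℕ} {y : ℤ} (h : Er W C m y) : Alv W m y :=
  h y (by rw [sub_self, abs_zero]; positivity)


/-- dead point of the top: it lies in a leaf of larger level -/
theorem dead_leaf {W : Finset Nd} {I : Nd} (hW : Full W I) {m : ℕ} (hm : m ≤ I.1) {z : ℤ}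
    (hz : z ∈ iv I) (hd : ¬ Alv W m z) : ∃ L ∈ lf W, z ∈ iv L ∧ m < L.1 := by
  obtain ⟨L, hL, _, hzL, _⟩ := (Qh249.qh W I hW I hW.top).2 z hz
  refine ⟨L, hL, hzL, ?_⟩
  by_contra hlt
  push Not at hlt
  exact hd (alv_mono hW hlt hm (alv_of_mem (mem_lf.1 hL).1 hzL))

/-- `e` is an end point of `L` -/
def End (L : Nd) (e : ℤ) : Prop := e = L.2 * 2 ^ (L.1 + 7) ∨ e = (L.2 + 1) * 2 ^ (L.1 + 7)

theorem mem_iv' {p : Nd} {y : ℤ} : y ∈ iv p ↔ p.2 * 2 ^ (p.1 + 7) ≤ y ∧ y < (p.2 + 1) * 2 ^ (p.1 + 7) := by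
  unfold iv dI
  rw [Finset.mem_Ico]

theorem end_between {L : Nd} {y z : ℤ} (hz : z ∈ iv L) (hy : y ∉ iv L) :
    ∃ e, End L e ∧ |e - y| ≤ |z - y| := by
  rw [mem_iv'] at hz hy
  by_cases h : L.2 * 2 ^ (L.1 + 7) ≤ y
  · have h2 : (L.2 + 1) * 2 ^ (L.1 + 7) ≤ y := by
      by_contra hc
      exact hy ⟨h, by linarith⟩
    refine ⟨_, Or.inr rfl, ?_⟩
    rw [abs_of_nonpos (by linarith), abs_of_nonpos (by linarith)]
    linarith
  · push Not at h
    refine ⟨_, Or.inl rfl, ?_⟩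
    rw [abs_of_nonneg (by linarith), abs_of_nonneg (by linarith)]
    linarith

theorem end_between' {L : Nd} {y z : ℤ} (hy : y ∈ iv L) (hz : z ∉ iv L) :
    ∃ e, End L e ∧ |e - y| ≤ |z - y| := by
  rw [mem_iv'] at hz hy
  by_cases h : L.2 * 2 ^ (L.1 + 7) ≤ z
  · have h2 : (L.2 + 1) * 2 ^ (L.1 + 7) ≤ z := by
      by_contra hc
      exact hz ⟨h, by linarith⟩
    refine ⟨_, Or.inr rfl, ?_⟩
    rw [abs_of_nonneg (by linarith), abs_of_nonneg (by linarith)]
    linarith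
  · push Not at h
    refine ⟨_, Or.inl rfl, ?_⟩
    rw [abs_of_nonpos (by linarith), abs_of_nonpos (by linarith)]
    linarith

/-- `Q` is near an end point of a leaf (or of the top) of level `≥ m - 1` -/
def NearE (W : Finset Nd) (I : Nd) (C m : ℕ) (Q : ℤ) : Prop :=
  ∃ L ∈ insert I (lf W), m ≤ L.1 + 1 ∧ ∃ e, End L e ∧ |e - Q| ≤ C * 2 ^ (m + 7)

/-- an alive point and a dead point at level `m`: an end point between them -/
theorem near_of_dead {W : Finset Nd} {I : Nd} (hW : Full W I) {m : ℕ} {y z : ℤ}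
    (hy : Alv W m y) (hz : ¬ Alv W m z) :
    ∃ L ∈ insert I (lf W), m ≤ L.1 ∧ ∃ e, End L e ∧ |e - y| ≤ |z - y| := by
  have hm := alv_level hW hy
  by_cases hzI : z ∈ iv I
  · obtain ⟨L, hL, hzL, hmL⟩ := dead_leaf hW hm hzI hz
    refine ⟨L, Finset.mem_insert_of_mem hL, hmL.le, end_between hzL ?_⟩
    intro hyL
    obtain ⟨l, hl, hyl⟩ := alv_iff.1 hy
    have := (mem_lf.1 hL).2 _ hl (sub_of_level hyl hyL hmL.le)
    rw [← this] at hmL
    exact lt_irrefl _ hmL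
  · exact ⟨I, Finset.mem_insert_self _ _, hm, end_between' (alv_top hW hy) hzI⟩

/-- a position which sees a change of the eroded mask is near an end point -/
theorem near_of_change {W : Finset Nd} {I : Nd} (hW : Full W I) {C C1 m : ℕ} (hm1 : 1 ≤ m)
    (hmI : m ≤ I.1) {Q : ℤ}
    (h : ∃ y, |y - Q| ≤ C1 * 2 ^ (m + 7) ∧ ¬ (Er W C m y ↔ Er W C (m - 1) y)) :
    NearE W I (C + C1 + 1) m Q := by
  obtain ⟨y, hyQ, hne⟩ := h
  have hpow : (2 : ℤ) ^ (m - 1 + 7) ≤ 2 ^ (m + 7) := pow_le_pow_right₀ (by norm_num) (by omega)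
  have hp0 : (0 : ℤ) < 2 ^ (m + 7) := by positivity
  have hC0 : (0 : ℤ) ≤ C := by positivity
  by_cases h1 : Er W C m y
  · -- death between `m` and `m - 1`
    have h2 : ¬ Er W C (m - 1) y := fun h2 => hne ⟨fun _ => h2, fun _ => h1⟩
    unfold Er at h2
    push Not at h2
    obtain ⟨z, hz, hzd⟩ := h2
    have hz' : |z - y| ≤ C * 2 ^ (m + 7) := hz.trans (mul_le_mul_of_nonneg_left hpow hC0)
    have hza := h1 z hz'
    obtain ⟨L, hL, hzL, hmL⟩ := dead_leaf hW (by omega : m - 1 ≤ I.1) (alv_top hW hza) hzd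
    obtain ⟨l, hl, hzl⟩ := alv_iff.1 hza
    have e := (mem_lf.1 hL).2 _ hl (sub_of_level hzl hzL (by show m ≤ L.1; omega))
    have hmL' : L.1 = m := by rw [← e]
    refine ⟨L, Finset.mem_insert_of_mem hL, by omega, _, Or.inl rfl, ?_⟩
    rw [mem_iv', hmL'] at hzL
    rw [hmL']
    have h3 : |L.2 * 2 ^ (m + 7) - z| ≤ 2 ^ (m + 7) := by
      rw [abs_of_nonpos (by linarith)]
      linarith
    have : L.2 * 2 ^ (m + 7) - Q = (L.2 * 2 ^ (m + 7) - z) + (z - y) + (y - Q) := by ring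
    rw [this]
    calc |(L.2 * 2 ^ (m + 7) - z) + (z - y) + (y - Q)|
        ≤ |L.2 * 2 ^ (m + 7) - z| + |z - y| + |y - Q| :=
          (abs_add_le _ _).trans (add_le_add_left (abs_add_le _ _) _)
      _ ≤ 2 ^ (m + 7) + C * 2 ^ (m + 7) + C1 * 2 ^ (m + 7) := by linarith
      _ = ((C + C1 + 1 : ℕ) : ℤ) * 2 ^ (m + 7) := by push_cast; ring
  · -- birth
    have h2 : Er W C (m - 1) y := by
      by_contra h2
      exact hne ⟨fun h => absurd h h1, fun h => absurd h h2⟩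
    have hya : Alv W m y := alv_mono hW (by omega) hmI (er_self h2)
    unfold Er at h1
    push Not at h1
    obtain ⟨z, hz, hzd⟩ := h1
    obtain ⟨L, hL, hmL, e, he, hey⟩ := near_of_dead hW hya hzd
    refine ⟨L, hL, by omega, e, he, ?_⟩
    have : e - Q = (e - y) + (y - Q) := by ring
    rw [this]
    calc |(e - y) + (y - Q)| ≤ |e - y| + |y - Q| := abs_add_le _ _
      _ ≤ C * 2 ^ (m + 7) + C1 * 2 ^ (m + 7) := by linarith
      _ ≤ ((C + C1 + 1 : ℕ) : ℤ) * 2 ^ (m + 7) := by push_cast; nlinarith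

open Classical in
/-- **counting**: positions near end points -/
theorem count_near {W : Finset Nd} {I : Nd} (hW : Full W I) (C : ℕ) (P : ℕ → Finset ℤ)
    (hP : ∀ m ≤ I.1, ∀ Q ∈ P m, NearE W I C m Q) :
    ∑ m ∈ range (I.1 + 1), ((P m).card : ℝ) ≤ 16 * (2 * C + 1) * len I := by
  classical
  set S : Finset Nd := insert I (lf W) with hS
  -- the interval of positions near an end point
  let B : Nd → ℕ → Finset ℤ := fun L m =>
    Finset.Icc (L.2 * 2 ^ (L.1 + 7) - C * 2 ^ (m + 7)) (L.2 * 2 ^ (L.1 + 7) + C * 2 ^ (m + 7)) ∪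
    Finset.Icc ((L.2 + 1) * 2 ^ (L.1 + 7) - C * 2 ^ (m + 7))
      ((L.2 + 1) * 2 ^ (L.1 + 7) + C * 2 ^ (m + 7))
  have hsub : ∀ m ≤ I.1, P m ⊆ (S.filter (fun L => m ≤ L.1 + 1)).biUnion (fun L => B L m) := by
    intro m hm Q hQ
    obtain ⟨L, hL, hmL, e, he, heQ⟩ := hP m hm Q hQ
    rw [Finset.mem_biUnion]
    refine ⟨L, Finset.mem_filter.2 ⟨hL, hmL⟩, ?_⟩
    rw [abs_le] at heQ
    simp only [B, Finset.mem_union, Finset.mem_Icc]
    rcases he with rfl | rfl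
    · left; constructor <;> linarith
    · right; constructor <;> linarith
  have hcardI : ∀ (x : ℤ) (m : ℕ), ((Finset.Icc (x - C * 2 ^ (m + 7)) (x + C * 2 ^ (m + 7))).card : ℝ)
      ≤ (2 * C + 1) * 2 ^ (m + 7) := by
    intro x m
    rw [Int.card_Icc]
    have h0 : x + C * 2 ^ (m + 7) + 1 - (x - C * 2 ^ (m + 7)) =
        ((2 * C * 2 ^ (m + 7) + 1 : ℕ) : ℤ) := by push_cast; ring
    rw [h0, Int.toNat_natCast]
    push_cast
    have : (1 : ℝ) ≤ 2 ^ (m + 7) := one_le_pow₀ (by norm_num)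
    linarith
  have hB : ∀ (L : Nd) (m : ℕ), ((B L m).card : ℝ) ≤ 2 * (2 * C + 1) * 2 ^ (m + 7) := by
    intro L m
    have h1 := Finset.card_union_le
      (Finset.Icc (L.2 * 2 ^ (L.1 + 7) - C * 2 ^ (m + 7)) (L.2 * 2 ^ (L.1 + 7) + C * 2 ^ (m + 7)))
      (Finset.Icc ((L.2 + 1) * 2 ^ (L.1 + 7) - C * 2 ^ (m + 7))
        ((L.2 + 1) * 2 ^ (L.1 + 7) + C * 2 ^ (m + 7)))
    have h2 := hcardI (L.2 * 2 ^ (L.1 + 7)) m
    have h3 := hcardI ((L.2 + 1) * 2 ^ (L.1 + 7)) m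
    have h4 : ((B L m).card : ℝ) ≤
        (((Finset.Icc (L.2 * 2 ^ (L.1 + 7) - C * 2 ^ (m + 7))
          (L.2 * 2 ^ (L.1 + 7) + C * 2 ^ (m + 7))).card +
        (Finset.Icc ((L.2 + 1) * 2 ^ (L.1 + 7) - C * 2 ^ (m + 7))
          ((L.2 + 1) * 2 ^ (L.1 + 7) + C * 2 ^ (m + 7))).card : ℕ) : ℝ) := by
      exact_mod_cast h1
    push_cast at h4
    linarith
  have hPm : ∀ m ∈ range (I.1 + 1), ((P m).card : ℝ) ≤
      ∑ L ∈ S, if m ≤ L.1 + 1 then 2 * (2 * (C : ℝ) + 1) * 2 ^ (m + 7) else 0 := by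
    intro m hm
    have hm' : m ≤ I.1 := by have := Finset.mem_range.1 hm; omega
    have h1 : ((P m).card : ℝ) ≤ ∑ L ∈ S.filter (fun L => m ≤ L.1 + 1), ((B L m).card : ℝ) := by
      have := (Finset.card_le_card (hsub m hm')).trans Finset.card_biUnion_le
      exact_mod_cast this
    rw [Finset.sum_filter] at h1
    refine h1.trans (Finset.sum_le_sum fun L _ => ?_)
    split_ifs
    · exact hB L m
    · exact le_rfl
  refine (Finset.sum_le_sum hPm).trans ?_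
  rw [Finset.sum_comm]
  have hgeo : ∀ n : ℕ, ∑ m ∈ range (n + 2), (2 : ℝ) ^ (m + 7) ≤ 4 * 2 ^ (n + 7) := by
    intro n
    have : ∀ k : ℕ, ∑ m ∈ range k, (2 : ℝ) ^ (m + 7) = 2 ^ (k + 7) - 2 ^ 7 := by
      intro k
      induction k with
      | zero => simp
      | succ k ih => rw [Finset.sum_range_succ, ih]; ring
    rw [this]
    have : (2 : ℝ) ^ (n + 2 + 7) = 4 * 2 ^ (n + 7) := by ring
    rw [this]
    have : (0 : ℝ) ≤ 2 ^ 7 := by positivity
    linarith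
  have hL : ∀ L ∈ S, ∑ m ∈ range (I.1 + 1),
      (if m ≤ L.1 + 1 then 2 * (2 * (C : ℝ) + 1) * 2 ^ (m + 7) else 0) ≤
        8 * (2 * C + 1) * len L := by
    intro L _
    rw [← Finset.sum_filter]
    have h1 : ∑ m ∈ (range (I.1 + 1)).filter (fun m => m ≤ L.1 + 1),
        2 * (2 * (C : ℝ) + 1) * 2 ^ (m + 7) ≤ ∑ m ∈ range (L.1 + 2), 2 * (2 * (C : ℝ) + 1) * 2 ^ (m + 7) := by
      refine Finset.sum_le_sum_of_subset_of_nonneg ?_ (fun _ _ _ => by positivity)
      intro m hm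
      rw [Finset.mem_filter] at hm
      rw [Finset.mem_range]
      omega
    refine h1.trans ?_
    rw [← Finset.mul_sum]
    have h2 := hgeo L.1
    unfold len
    have h3 : (0 : ℝ) ≤ 2 * (2 * (C : ℝ) + 1) := by positivity
    calc 2 * (2 * (C : ℝ) + 1) * ∑ m ∈ range (L.1 + 2), (2 : ℝ) ^ (m + 7)
        ≤ 2 * (2 * (C : ℝ) + 1) * (4 * 2 ^ (L.1 + 7)) := mul_le_mul_of_nonneg_left h2 h3
      _ = 8 * (2 * C + 1) * 2 ^ (L.1 + 7) := by ring
  refine (Finset.sum_le_sum hL).trans ?_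
  rw [← Finset.mul_sum]
  have hsum : ∑ L ∈ S, len L ≤ 2 * len I := by
    have h1 : ∑ L ∈ S, len L ≤ len I + ∑ L ∈ lf W, len L := by
      by_cases hI : I ∈ lf W
      · rw [hS, Finset.insert_eq_of_mem hI]
        linarith [Qe292.len_pos I]
      · rw [hS, Finset.sum_insert hI]
    have h2 : ∑ L ∈ lf W, len L = len I := by
      rw [← TWin649.lb_top hW]
      exact TWin649.sum_len_lb hW hW.top
    linarith
  have h3 : (0 : ℝ) ≤ 8 * (2 * (C : ℝ) + 1) := by positivity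
  calc 8 * (2 * (C : ℝ) + 1) * ∑ L ∈ S, len L ≤ 8 * (2 * (C : ℝ) + 1) * (2 * len I) :=
        mul_le_mul_of_nonneg_left hsum h3
    _ = 16 * (2 * C + 1) * len I := by ring

/-- **L3 (a)**: positions which see a change of the eroded mask -/
theorem er_change {W : Finset Nd} {I : Nd} (hW : Full W I) (C C1 : ℕ) (P : ℕ → Finset ℤ)
    (hP : ∀ m, 1 ≤ m → m ≤ I.1 → ∀ Q ∈ P m, ∃ y, |y - Q| ≤ C1 * 2 ^ (m + 7) ∧
      ¬ (Er W C m y ↔ Er W C (m - 1) y)) :
    ∑ m ∈ Icc 1 I.1, ((P m).card : ℝ) ≤ 16 * (2 * (C + C1 + 1) + 1) * len I := by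
  have h := count_near hW (C + C1 + 1) (fun m => if m = 0 then ∅ else P m) (by
    intro m hm Q hQ
    by_cases h0 : m = 0
    · simp [h0] at hQ
    · simp only [h0, if_false] at hQ
      exact near_of_change hW (by omega) hm (hP m (by omega) hm Q hQ))
  push_cast at h
  refine le_trans ?_ h
  have : ∑ m ∈ Icc 1 I.1, ((P m).card : ℝ) =
      ∑ m ∈ Icc 1 I.1, (((if m = 0 then ∅ else P m : Finset ℤ)).card : ℝ) := by
    refine Finset.sum_congr rfl fun m hm => ?_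
    have := Finset.mem_Icc.1 hm
    rw [if_neg (by omega)]
  rw [this]
  refine Finset.sum_le_sum_of_subset_of_nonneg ?_ (fun _ _ _ => by positivity)
  intro m hm
  have := Finset.mem_Icc.1 hm
  rw [Finset.mem_range]
  omega


/-- `p` is bad: its `C1 len p`-neighbourhood is not alive at level `p.1` -/
def Bad (W : Finset Nd) (C1 : ℕ) (p : Nd) : Prop :=
  ∃ y z : ℤ, y ∈ iv p ∧ |z - y| ≤ C1 * 2 ^ (p.1 + 7) ∧ ¬ Alv W p.1 z

theorem er_of_not_bad {W : Finset Nd} {C1 : ℕ} {p : Nd} (h : ¬ Bad W C1 p) {y : ℤ}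
    (hy : y ∈ iv p) : Er W C1 p.1 y := by
  intro z hz
  by_contra hc
  exact h ⟨y, z, hy, hz, hc⟩

open Classical in
/-- **L3 (b)**: total length of the bad nodes -/
theorem sum_bad {W : Finset Nd} {I : Nd} (hW : Full W I) (C1 : ℕ) :
    ∑ p ∈ W.filter (Bad W C1), len p ≤ 16 * (2 * (C1 + 1) + 1) * len I := by
  classical
  set Bd := W.filter (Bad W C1) with hBd
  have h := count_near hW (C1 + 1) (fun m => (Bd.filter (fun p => p.1 = m)).biUnion iv) (by
    intro m hm Q hQ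
    obtain ⟨p, hp, hQp⟩ := Finset.mem_biUnion.1 hQ
    rw [Finset.mem_filter, hBd, Finset.mem_filter] at hp
    obtain ⟨⟨hpW, y, z, hy, hz, hzd⟩, rfl⟩ := hp
    obtain ⟨L, hL, hmL, e, he, hey⟩ := near_of_dead hW (alv_of_mem hpW hy) hzd
    refine ⟨L, hL, by omega, e, he, ?_⟩
    have hyQ : |y - Q| ≤ 2 ^ (p.1 + 7) := by
      rw [mem_iv'] at hy hQp
      rw [abs_le]
      constructor <;> linarith
    have : e - Q = (e - y) + (y - Q) := by ring
    rw [this]
    calc |(e - y) + (y - Q)| ≤ |e - y| + |y - Q| := abs_add_le _ _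
      _ ≤ C1 * 2 ^ (p.1 + 7) + 2 ^ (p.1 + 7) := by linarith
      _ = ((C1 + 1 : ℕ) : ℤ) * 2 ^ (p.1 + 7) := by push_cast; ring)
  push_cast at h
  refine le_trans (le_of_eq ?_) h
  have hcard : ∀ m, (((Bd.filter (fun p => p.1 = m)).biUnion iv).card : ℝ) =
      ∑ p ∈ Bd.filter (fun p => p.1 = m), len p := by
    intro m
    rw [Finset.card_biUnion]
    · push_cast
      exact Finset.sum_congr rfl fun p _ => card_iv p
    · intro p hp q hq hne
      rw [Finset.mem_coe, Finset.mem_filter] at hp hq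
      rw [Function.onFun, Finset.disjoint_left]
      intro y hy hy'
      rw [mem_iv] at hy hy'
      apply hne
      refine Prod.ext (hp.2.trans hq.2.symm) ?_
      rw [← hy, ← hy', hp.2, hq.2]
  simp only [hcard]
  rw [← Finset.sum_fiberwise_of_maps_to (t := range (I.1 + 1)) (g := fun p : Nd => p.1)]
  intro p hp
  rw [hBd, Finset.mem_filter] at hp
  rw [Finset.mem_range]
  have := Qe292.iv_level (hW.reg.1 p hp.1)
  omega

end Crest.Agent.R079.Ero526
end

-- ▼ part R079/Cmp_408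

/-! R079, doc 2539 (helper142), COMPOSITION of L1 (F2_408), L2 (MBes_71), L3 (Ero_526) (helper408):
the sum of `‖Lbox‖` over the good nodes of a window is at most
`∑_r √(exit values of β_r) √(exit values of α_r) + errors`, when the kernel with letters
`Yb(z) K(z,z') Ya(z')` is `⟪β_r z, α_r z'⟫ + Err_r z z'` on the window. -/

set_option autoImplicit false
set_option linter.unusedSectionVars false

namespace Crest.Agent.R079.Cmp408

open Finset Crest.Agent.R079.Grid Crest.Agent.R079.Growth Crest.Agent.R079.QRed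
open Crest.Agent.R079.Qh249 (mem_iv)
open Crest.Agent.R079.F2 Crest.Agent.R079.MBes71 Crest.Agent.R079.Ero526

variable {E : Type*} [NormedAddCommGroup E] [InnerProductSpace ℂ E]

/-- sign of a position in a box of side `2^(k+1)` -/
noncomputable def sg (k u : ℕ) : ℂ := if u < 2 ^ k then 1 else -1

lemma conj_sg (k u : ℕ) : (starRingEnd ℂ) (sg k u) = sg k u := by
  unfold sg; split_ifs <;> simp


/-- two dimensional form of a kernel (letters included) on the box `[qa, +2^(k+1)) × [qb, +2^(k+1))` -/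
noncomputable def frm (G : ℤ → ℤ → ℂ) (k : ℕ) (qa qb : ℤ) : ℂ :=
  (1 / (2 : ℂ) ^ (k + 1)) * ((1 / (2 : ℂ) ^ (k + 1)) * ∑ u ∈ range (2 ^ (k + 1)),
    ∑ v ∈ range (2 ^ (k + 1)), sg k u * sg k v * G (qa + (u : ℤ)) (qb + (v : ℤ)))

lemma frm_congr (G G' : ℤ → ℤ → ℂ) (k : ℕ) (qa qb : ℤ)
    (h : ∀ u v : ℕ, u < 2 ^ (k + 1) → v < 2 ^ (k + 1) →
      G (qa + (u : ℤ)) (qb + (v : ℤ)) = G' (qa + (u : ℤ)) (qb + (v : ℤ))) :
    frm G k qa qb = frm G' k qa qb := by
  unfold frm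
  congr 2
  refine Finset.sum_congr rfl fun u hu => Finset.sum_congr rfl fun v hv => ?_
  rw [h u v (Finset.mem_range.1 hu) (Finset.mem_range.1 hv)]

lemma frm_add (G G' : ℤ → ℤ → ℂ) (k : ℕ) (qa qb : ℤ) :
    frm (fun z z' => G z z' + G' z z') k qa qb = frm G k qa qb + frm G' k qa qb := by
  unfold frm
  simp only [mul_add, Finset.sum_add_distrib]

lemma frm_inner (be al : ℤ → E) (k : ℕ) (qa qb : ℤ) :
    frm (fun z z' => inner ℂ (be z) (al z')) k qa qb = inner ℂ (Dm k be qa) (Dm k al qb) := by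
  unfold frm Dm
  rw [inner_smul_left, inner_smul_right, sum_inner]
  congr 1
  · rw [map_div₀, map_one, map_pow]
    congr 2
    exact (Complex.conj_ofNat 2).symm
  · congr 1
    refine Finset.sum_congr rfl fun u _ => ?_
    rw [inner_sum]
    refine Finset.sum_congr rfl fun v _ => ?_
    rw [inner_smul_left, inner_smul_right]
    have e1 : (starRingEnd ℂ) (if u < 2 ^ k then (1 : ℂ) else -1) = sg k u := by
      have := conj_sg k u
      unfold sg at this ⊢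
      exact this
    rw [e1]
    unfold sg
    ring

lemma hsg_sg (k : ℕ) (u : Fin (2 ^ k + 2 ^ k)) : ((hsg (2 ^ k) u : ℝ) : ℂ) = sg k (u : ℕ) := by
  unfold hsg sg; split_ifs <;> simp

lemma sum_fin (k : ℕ) {M : Type*} [AddCommMonoid M] (g : ℕ → M) :
    ∑ u : Fin (2 ^ k + 2 ^ k), g (u : ℕ) = ∑ u ∈ range (2 ^ (k + 1)), g u := by
  rw [Fin.sum_univ_eq_sum_range g, ← two_mul, ← pow_succ']

/-- `br` is the form of the kernel with letters -/
lemma br_frm (i m a b : Fin 4) (F : Fin 4 → ℤ → ℂ) (k : ℕ) (r qa qb : ℤ) :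
    br i m a b F (2 ^ k) r qa qb =
      frm (fun z z' => Yb i a b F r z * Kk i m a b F r z z' * Ya i a b F r z') k qa qb := by
  unfold br frm
  have hN : (((2 ^ k : ℕ) : ℂ) + ((2 ^ k : ℕ) : ℂ)) = 2 ^ (k + 1) := by push_cast; ring
  rw [hN, ← mul_assoc]
  congr 1
  · ring
  rw [← sum_fin k (fun u => ∑ v ∈ range (2 ^ (k + 1)), sg k u * sg k v *
    (Yb i a b F r (qa + (u : ℤ)) * Kk i m a b F r (qa + (u : ℤ)) (qb + (v : ℤ)) *
      Ya i a b F r (qb + (v : ℤ))))]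
  refine Finset.sum_congr rfl fun u _ => ?_
  rw [← sum_fin k (fun v => sg k u * sg k v *
    (Yb i a b F r (qa + ((u : ℕ) : ℤ)) * Kk i m a b F r (qa + ((u : ℕ) : ℤ)) (qb + (v : ℤ)) *
      Ya i a b F r (qb + (v : ℤ))))]
  refine Finset.sum_congr rfl fun v _ => ?_
  rw [Complex.ofReal_mul, hsg_sg, hsg_sg]

/-- the shadows of the box in the two dimensional coordinates -/
lemma shadows (i m a b : Fin 4) (h : Dst i m a b) {bb : ℤ} (hbb : bb = -1 ∨ bb = -7) {p : Nd}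
    {x : ℤ} (hx : x ∈ adm p.1 p.2) (r q : ℤ) (ui um : Fin (2 ^ p.1 + 2 ^ p.1))
    (hxq : xq i m a b bb (2 ^ p.1) q r ((ui : ℕ) : ℤ) ((um : ℕ) : ℤ) = x) (u v : ℕ)
    (hu : u < 2 ^ (p.1 + 1)) (hv : v < 2 ^ (p.1 + 1)) :
    ((sl i - sl a) * r + dd a b * (off bb (2 ^ p.1) r ((ui : ℕ) : ℤ) ((um : ℕ) : ℤ) - q + v)
      ∈ iv p) ∧
    ((sl i - sl b) * r + -dd a b * (q + u) ∈ iv p) ∧
    ((sl a - sl i) * (q + u) + (sl b - sl i) *
      (off bb (2 ^ p.1) r ((ui : ℕ) : ℤ) ((um : ℕ) : ℤ) - q + v) ∈ iv p) ∧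
    ((sl i - sl m) * r + (sl a - sl m) * (q + u) + (sl b - sl m) *
      (off bb (2 ^ p.1) r ((ui : ℕ) : ℤ) ((um : ℕ) : ℤ) - q + v) ∈ iv p) := by
  have hN : 2 ^ p.1 + 2 ^ p.1 = 2 ^ (p.1 + 1) := by ring
  have h' := h
  obtain ⟨h1, h2, h3, h4, h5, h6⟩ := h
  set U : Fin 4 → Fin (2 ^ p.1 + 2 ^ p.1) := F2.mk i m a ui um ⟨u, by omega⟩ ⟨v, by omega⟩ with hU
  have e1 : U i = ui := by simp [hU, F2.mk]
  have e2 : U m = um := by simp [hU, F2.mk, h1.symm]
  have e3 : U a = ⟨u, by omega⟩ := by simp [hU, F2.mk, h2.symm, h4.symm]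
  have e4 : U b = ⟨v, by omega⟩ := by simp [hU, F2.mk, h3.symm, h5.symm, h6.symm]
  have ey : ∀ j : Fin 4, yv (2 ^ p.1) bb x U j =
      x + ((sl i - sl j) * ((ui : ℕ) : ℤ) + (sl m - sl j) * ((um : ℕ) : ℤ) +
        (sl a - sl j) * (u : ℤ) + (sl b - sl j) * (v : ℤ)) - sl j * (bb * (2 ^ p.1 : ℕ)) := by
    intro j
    unfold yv
    rw [sum4 i m a b h', e1, e2, e3, e4]
  have hm : ∀ j : Fin 4, yv (2 ^ p.1) bb x U j ∈ iv p := fun j => yv_mem p.1 p.2 bb x hbb hx U j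
  have c : ∀ {y z : ℤ}, y ∈ iv p → y = z → z ∈ iv p := fun hy hyz => hyz ▸ hy
  have ha := hm a
  have hb := hm b
  have hi := hm i
  have hmm := hm m
  rw [ey] at ha hb hi hmm
  subst hxq
  simp only [xq, off, dd] at *
  refine ⟨c ha ?_, c hb ?_, c hi ?_, c hmm ?_⟩ <;> ring

/-- masked vector: `A m z` = alive at level `m` -/
noncomputable def msk (A : ℕ → ℤ → Prop) (f : ℤ → E) (m : ℕ) (z : ℤ) : E := by
  classical exact if A m z then f z else 0

/-- mask of the coordinate `z` through the affine map `c + d z` -/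
def AA (W : Finset Nd) (C : ℕ) (c d : ℤ) (m : ℕ) (z : ℤ) : Prop := Er W C m (c + d * z)

/-- positions which pay at level `m` -/
def Pos (W : Finset Nd) (C : ℕ) (c d : ℤ) (m : ℕ) : Set ℤ :=
  {q | (m = 0 ∨ ∃ x : ℤ, q ≤ x ∧ x < q + 2 ^ m ∧ ¬ (AA W C c d m x ↔ AA W C c d (m - 1) x)) ∧
    ∃ x : ℤ, q ≤ x ∧ x < q + 2 ^ m ∧ AA W C c d m x}

lemma AA_finite {W : Finset Nd} {I : Nd} (hW : Full W I) (C : ℕ) (c : ℤ) {d : ℤ} (hd : d ≠ 0)
    (m : ℕ) : {z | AA W C c d m z}.Finite := by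
  have h1 : {z | AA W C c d m z} ⊆ (fun z : ℤ => c + d * z) ⁻¹' (iv I : Set ℤ) := by
    intro z hz
    exact alv_top hW (er_self hz)
  refine ((iv I).finite_toSet.preimage ?_).subset h1
  intro x _ y _ hxy
  simpa [hd] using hxy

lemma Pos_finite {W : Finset Nd} {I : Nd} (hW : Full W I) (C : ℕ) (c : ℤ) {d : ℤ} (hd : d ≠ 0)
    (m : ℕ) : (Pos W C c d m).Finite := by
  have h1 : Pos W C c d m ⊆ ⋃ i ∈ range (2 ^ m), (fun q : ℤ => q + (i : ℤ)) ⁻¹'
      {z | AA W C c d m z} := by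
    rintro q ⟨_, x, hx1, hx2, hx3⟩
    simp only [Set.mem_iUnion]
    have hlt : (x - q).toNat < 2 ^ m := by
      have : (((x - q).toNat : ℕ) : ℤ) < ((2 ^ m : ℕ) : ℤ) := by
        rw [Int.toNat_of_nonneg (by omega)]; push_cast; linarith
      exact_mod_cast this
    refine ⟨(x - q).toNat, Finset.mem_range.2 hlt, ?_⟩
    show AA W C c d m (q + (((x - q).toNat : ℕ) : ℤ))
    rw [Int.toNat_of_nonneg (by omega)]
    have : q + (x - q) = x := by ring
    rw [this]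
    exact hx3
  refine Set.Finite.subset ?_ h1
  refine Set.Finite.biUnion (Finset.finite_toSet _) fun j _ => ?_
  exact (AA_finite hW C c hd m).preimage (fun a _ b _ hab => by simpa using hab)

/-- positions which pay, as a finite set -/
noncomputable def pos (W : Finset Nd) (C : ℕ) (c d : ℤ) (m : ℕ) : Finset ℤ := by
  classical exact if h : (Pos W C c d m).Finite then h.toFinset else ∅

lemma mem_pos {W : Finset Nd} {I : Nd} (hW : Full W I) (C : ℕ) (c : ℤ) {d : ℤ} (hd : d ≠ 0)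
    (m : ℕ) (q : ℤ) : q ∈ pos W C c d m ↔ q ∈ Pos W C c d m := by
  unfold pos
  rw [dif_pos (Pos_finite hW C c hd m), Set.Finite.mem_toFinset]


lemma msk_pos {A : ℕ → ℤ → Prop} (f : ℤ → E) {m : ℕ} {z : ℤ} (h : A m z) : msk A f m z = f z := by
  unfold msk; rw [if_pos h]

lemma msk_neg {A : ℕ → ℤ → Prop} (f : ℤ → E) {m : ℕ} {z : ℤ} (h : ¬ A m z) : msk A f m z = 0 := by
  unfold msk; rw [if_neg h]

lemma msk_support {W : Finset Nd} {I : Nd} (hW : Full W I) (C : ℕ) (c : ℤ) {d : ℤ} (hd : d ≠ 0)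
    (f : ℤ → E) (m : ℕ) : (Function.support (msk (AA W C c d) f m)).Finite := by
  refine (AA_finite hW C c hd m).subset fun z hz => ?_
  by_contra h
  exact hz (msk_neg f h)

lemma Dm_support {f : ℤ → E} (hf : (Function.support f).Finite) (m : ℕ) :
    (Function.support fun p => ‖Dm m f p‖ ^ 2).Finite := by
  have hE := nsq_support (Em_support m f hf)
  refine (hE.union (shift_support hE (2 ^ m))).subset fun p hp => ?_
  by_contra h
  apply hp
  simp only [Set.mem_union, Function.mem_support, not_or, not_not] at h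
  have := par m f p
  rw [h.1, h.2] at this
  nlinarith [sq_nonneg ‖Dm m f p‖, sq_nonneg ‖Em (m + 1) f p‖]

lemma sum_le_finsum {g : ℤ → ℝ} (hg : ∀ q, 0 ≤ g q) (hs : (Function.support g).Finite)
    (Q : Finset ℤ) : ∑ q ∈ Q, g q ≤ ∑ᶠ q : ℤ, g q := by
  rw [finsum_eq_sum_of_support_subset (s := hs.toFinset ∪ Q) _
    (by intro p hp; simp only [Finset.coe_union, Set.mem_union, Set.Finite.coe_toFinset]
        exact Or.inl hp)]
  exact Finset.sum_le_sum_of_subset_of_nonneg Finset.subset_union_right fun p _ _ => hg _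

lemma chg_sum_le {W : Finset Nd} {I : Nd} (hW : Full W I) (C : ℕ) (c : ℤ) {d : ℤ} (hd : d ≠ 0)
    (f : ℤ → E) (m : ℕ) :
    ∑ᶠ p : ℤ, chg (msk (AA W C c d) f) m p ≤
      ∑ q ∈ pos W C c d (m + 1), ‖Em (m + 1) (msk (AA W C c d) f (m + 1)) q‖ ^ 2 := by
  have hsub : Function.support (chg (msk (AA W C c d) f) m) ⊆ (pos W C c d (m + 1) : Set ℤ) := by
    intro p hp
    rw [Finset.mem_coe, mem_pos hW C c hd]
    have hp' : chg (msk (AA W C c d) f) m p ≠ 0 := hp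
    unfold chg at hp'
    split_ifs at hp' with hc
    · obtain ⟨i, hi, hne⟩ := hc
      have hi' : (i : ℤ) < 2 ^ (m + 1) := by exact_mod_cast hi
      refine ⟨Or.inr ⟨p + i, by omega, by linarith, ?_⟩, ?_⟩
      · intro hiff
        apply hne
        have hiff' : AA W C c d (m + 1) (p + i) ↔ AA W C c d m (p + i) := hiff
        by_cases h1 : AA W C c d m (p + i)
        · rw [msk_pos f h1, msk_pos f (hiff'.2 h1)]
        · rw [msk_neg f h1, msk_neg f (fun h => h1 (hiff'.1 h))]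
      · by_contra hno
        push Not at hno
        apply hp'
        have : Em (m + 1) (msk (AA W C c d) f (m + 1)) p = 0 := by
          unfold Em
          rw [Finset.sum_eq_zero, smul_zero]
          intro j hj
          have hj' : (j : ℤ) < 2 ^ (m + 1) := by exact_mod_cast Finset.mem_range.1 hj
          exact msk_neg f (hno (p + j) (by omega) (by linarith))
        rw [this, norm_zero]
        norm_num
    · exact absurd rfl hp'
  rw [finsum_eq_sum_of_support_subset _ hsub]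
  refine Finset.sum_le_sum fun q _ => ?_
  unfold chg
  split_ifs
  · exact le_rfl
  · positivity

/-- **L2 + L3**: all differences of all scales against the exit values -/
theorem energy {W : Finset Nd} {I : Nd} (hW : Full W I) (C : ℕ) (c : ℤ) {d : ℤ} (hd : d ≠ 0)
    (f : ℤ → E) :
    ∑ k ∈ range (I.1 + 1), ∑ᶠ q : ℤ, ‖Dm k (msk (AA W C c d) f k) q‖ ^ 2 ≤
      ∑ k ∈ range (I.1 + 1), ∑ q ∈ pos W C c d k, ‖Em k (msk (AA W C c d) f k) q‖ ^ 2 := by
  have h := bes (msk (AA W C c d) f) (msk_support hW C c hd f) (I.1 + 1)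
  have h0 : (0 : ℝ) ≤ ∑ᶠ p : ℤ, ‖Em (I.1 + 1) (msk (AA W C c d) f (I.1 + 1)) p‖ ^ 2 :=
    finsum_nonneg fun p => sq_nonneg _
  have h1 : ∑ᶠ p : ℤ, ‖msk (AA W C c d) f 0 p‖ ^ 2 ≤
      ∑ q ∈ pos W C c d 0, ‖Em 0 (msk (AA W C c d) f 0) q‖ ^ 2 := by
    have hsub : Function.support (fun p => ‖msk (AA W C c d) f 0 p‖ ^ 2) ⊆
        (pos W C c d 0 : Set ℤ) := by
      intro p hp
      rw [Finset.mem_coe, mem_pos hW C c hd]
      refine ⟨Or.inl rfl, p, le_rfl, by norm_num, ?_⟩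
      by_contra hno
      apply hp
      show ‖msk (AA W C c d) f 0 p‖ ^ 2 = 0
      rw [msk_neg f hno, norm_zero]
      norm_num
    rw [finsum_eq_sum_of_support_subset _ hsub]
    refine le_of_eq (Finset.sum_congr rfl fun q _ => ?_)
    unfold Em
    simp
  have h2 : ∑ m ∈ range (I.1 + 1), ∑ᶠ p : ℤ, chg (msk (AA W C c d) f) m p ≤
      ∑ m ∈ range (I.1 + 1), ∑ q ∈ pos W C c d (m + 1),
        ‖Em (m + 1) (msk (AA W C c d) f (m + 1)) q‖ ^ 2 :=
    Finset.sum_le_sum fun m _ => chg_sum_le hW C c hd f m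
  have h3 : pos W C c d (I.1 + 1) = ∅ := by
    rw [Finset.eq_empty_iff_forall_notMem]
    intro q hq
    obtain ⟨_, x, _, _, hx⟩ := (mem_pos hW C c hd _ q).1 hq
    have := alv_level hW (er_self hx)
    omega
  have h4 := Finset.sum_range_succ' (fun k => ∑ q ∈ pos W C c d k,
    ‖Em k (msk (AA W C c d) f k) q‖ ^ 2) (I.1 + 1)
  have h5 := Finset.sum_range_succ (fun k => ∑ q ∈ pos W C c d k,
    ‖Em k (msk (AA W C c d) f k) q‖ ^ 2) (I.1 + 1)
  simp only [h3, Finset.sum_empty, add_zero] at h5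
  linarith

/-- energy of all differences of level `k` -/
noncomputable def DE (W : Finset Nd) (C : ℕ) (c d : ℤ) (f : ℤ → E) (k : ℕ) : ℝ :=
  ∑ᶠ q : ℤ, ‖Dm k (msk (AA W C c d) f k) q‖ ^ 2

/-- exit value -/
noncomputable def EX (W : Finset Nd) (C : ℕ) (c d : ℤ) (f : ℤ → E) (n : ℕ) : ℝ :=
  ∑ k ∈ range (n + 1), ∑ q ∈ pos W C c d k, ‖Em k (msk (AA W C c d) f k) q‖ ^ 2

lemma DE_nonneg (W : Finset Nd) (C : ℕ) (c d : ℤ) (f : ℤ → E) (k : ℕ) : 0 ≤ DE W C c d f k :=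
  finsum_nonneg fun _ => sq_nonneg _

lemma Dm_congr (m : ℕ) (f g : ℤ → E) (p : ℤ)
    (h : ∀ i : ℕ, i < 2 ^ (m + 1) → f (p + (i : ℤ)) = g (p + (i : ℤ))) :
    Dm m f p = Dm m g p := by
  unfold Dm
  congr 1
  exact Finset.sum_congr rfl fun i hi => by rw [h i (Finset.mem_range.1 hi)]

/-- Cauchy-Schwarz for one offset -/
lemma pair_le {W : Finset Nd} {I : Nd} (hW : Full W I) (C : ℕ) (c c' : ℤ) {d d' : ℤ} (hd : d ≠ 0)
    (hd' : d' ≠ 0) (be al : ℤ → E) (k : ℕ) (Q : Finset ℤ) (o : ℤ) :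
    ∑ q ∈ Q, ‖Dm k (msk (AA W C c d) be k) q‖ * ‖Dm k (msk (AA W C c' d') al k) (o - q)‖ ≤
      √(DE W C c d be k) * √(DE W C c' d' al k) := by
  refine (Real.sum_mul_le_sqrt_mul_sqrt _ _ _).trans ?_
  refine mul_le_mul (Real.sqrt_le_sqrt ?_) (Real.sqrt_le_sqrt ?_) (Real.sqrt_nonneg _)
    (Real.sqrt_nonneg _)
  · exact sum_le_finsum (fun q => sq_nonneg _) (Dm_support (msk_support hW C c hd be k) k) Q
  · have h1 : ∑ q ∈ Q, ‖Dm k (msk (AA W C c' d') al k) (o - q)‖ ^ 2 =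
        ∑ q ∈ Q.image (fun q => o - q), ‖Dm k (msk (AA W C c' d') al k) q‖ ^ 2 := by
      rw [Finset.sum_image]
      intro x _ y _ hxy
      have : o - x = o - y := hxy
      linarith
    rw [h1]
    exact sum_le_finsum (fun q => sq_nonneg _) (Dm_support (msk_support hW C c' hd' al k) k) _

lemma dd_ne (i m a b : Fin 4) (h : Dst i m a b) : dd a b ≠ 0 := by
  rcases dd_cases i m a b h with h | h | ⟨h | h, _⟩ | ⟨h | h, _⟩ <;> rw [h] <;> norm_num

lemma dd_abs (i m a b : Fin 4) (h : Dst i m a b) : |dd a b| ≤ 128 := by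
  rcases dd_cases i m a b h with h | h | ⟨h | h, _⟩ | ⟨h | h, _⟩ <;> rw [h] <;> norm_num

lemma adm_iv {m : ℕ} {l x : ℤ} (hx : x ∈ adm m l) : x ∈ iv (m, l) := by
  unfold adm at hx
  unfold iv dI
  rw [Finset.mem_Ico] at hx ⊢
  have h1 : (0 : ℤ) < 2 ^ (m + 1) := by positivity
  constructor <;> linarith [hx.1, hx.2]

/-- one level of the window -/
lemma level_le (i m a b : Fin 4) (h : Dst i m a b) (F : Fin 4 → ℤ → ℂ) {bb : ℤ}
    (hbb : bb = -1 ∨ bb = -7) {W : Finset Nd} {I : Nd} (hW : Full W I) (C : ℕ) (X : Finset Nd)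
    (hX : X ⊆ W) (hXb : ∀ p ∈ X, ¬ Bad W C p) (be al : ℕ → ℤ → E) (Err : ℕ → ℤ → ℤ → ℂ)
    (hK : ∀ r : ℕ, r < (dd a b).natAbs → ∀ z z' : ℤ,
      (sl i - sl a) * r + dd a b * z' ∈ iv I → (sl i - sl b) * r + -dd a b * z ∈ iv I →
      (sl a - sl i) * z + (sl b - sl i) * z' ∈ iv I →
      (sl i - sl m) * r + (sl a - sl m) * z + (sl b - sl m) * z' ∈ iv I →
      Yb i a b F r z * Kk i m a b F r z z' * Ya i a b F r z' =
        inner ℂ (be r z) (al r z') + Err r z z') (k : ℕ) (err : ℕ → ℝ)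
    (hErr : ∀ r : ℕ, r < (dd a b).natAbs → ∀ ui um : Fin (2 ^ k + 2 ^ k), ∀ Q : Finset ℤ,
      (∀ q ∈ Q, ∃ p ∈ X, p.1 = k ∧
        xq i m a b bb (2 ^ k) q r ((ui : ℕ) : ℤ) ((um : ℕ) : ℤ) ∈ adm p.1 p.2) →
      ∑ q ∈ Q, ‖frm (Err r) k q (off bb (2 ^ k) r ((ui : ℕ) : ℤ) ((um : ℕ) : ℤ) - q)‖ ≤ err r) :
    ∑ p ∈ X with p.1 = k, ∑ x ∈ adm p.1 p.2, ‖Lbox (2 ^ p.1) bb F x‖ ≤
      ∑ r ∈ range (dd a b).natAbs,
        (√(DE W C ((sl i - sl b) * r) (-dd a b) (be r) k) *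
          √(DE W C ((sl i - sl a) * r) (dd a b) (al r) k) + err r) := by
  classical
  have hd := dd_ne i m a b h
  set Xk : Finset Nd := X.filter (fun p => p.1 = k) with hXk
  set S : Finset ℤ := Xk.biUnion (fun p => adm p.1 p.2) with hS
  have hdis : (Xk : Set Nd).PairwiseDisjoint (fun p => adm p.1 p.2) := by
    intro p hp q hq hne
    rw [Finset.mem_coe, hXk, Finset.mem_filter] at hp hq
    rw [Function.onFun, Finset.disjoint_left]
    intro y hy hy'
    apply hne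
    have h1 := mem_iv.1 (adm_iv hy)
    have h2 := mem_iv.1 (adm_iv hy')
    simp only at h1 h2
    refine Prod.ext (hp.2.trans hq.2.symm) ?_
    rw [← h1, ← h2, hp.2, hq.2]
  have e1 : ∑ p ∈ Xk, ∑ x ∈ adm p.1 p.2, ‖Lbox (2 ^ p.1) bb F x‖ =
      ∑ x ∈ S, ‖Lbox (2 ^ k) bb F x‖ := by
    rw [hS, Finset.sum_biUnion hdis]
    refine Finset.sum_congr rfl fun p hp => ?_
    rw [hXk, Finset.mem_filter] at hp
    rw [hp.2]
  rw [e1]
  have hfin : {q : ℤ | ∃ ui um : Fin (2 ^ k + 2 ^ k), ∃ r : Fin (dd a b).natAbs,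
      xq i m a b bb (2 ^ k) q ((r : ℕ) : ℤ) ((ui : ℕ) : ℤ) ((um : ℕ) : ℤ) ∈ S}.Finite := by
    simp only [Set.ofPred_exists]
    refine Set.finite_iUnion fun ui => Set.finite_iUnion fun um => Set.finite_iUnion fun r => ?_
    refine S.finite_toSet.preimage (f := fun q => xq i m a b bb (2 ^ k) q ((r : ℕ) : ℤ)
      ((ui : ℕ) : ℤ) ((um : ℕ) : ℤ)) ?_
    intro x _ y _ hxy
    simp only [xq] at hxy
    have : dd a b * x = dd a b * y := by linarith
    exact mul_left_cancel₀ hd this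
  refine (sum_norm_Lbox_le i m a b h F (2 ^ k) bb S hfin.toFinset ?_).trans ?_
  · intro ui um r q hr hq
    rw [Set.Finite.mem_toFinset]
    exact ⟨ui, um, ⟨r, hr⟩, hq⟩
  set B : ℝ := ∑ r ∈ range (dd a b).natAbs,
        (√(DE W C ((sl i - sl b) * r) (-dd a b) (be r) k) *
          √(DE W C ((sl i - sl a) * r) (dd a b) (al r) k) + err r) with hB
  have key : ∀ ui um : Fin (2 ^ k + 2 ^ k), ∑ r ∈ range (dd a b).natAbs, ∑ q ∈ hfin.toFinset,
      (if xq i m a b bb (2 ^ k) q r ((ui : ℕ) : ℤ) ((um : ℕ) : ℤ) ∈ S then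
        ‖br i m a b F (2 ^ k) r q (off bb (2 ^ k) r ((ui : ℕ) : ℤ) ((um : ℕ) : ℤ) - q)‖ else 0) ≤
      B := by
    intro ui um
    rw [hB]
    refine Finset.sum_le_sum fun r hr => ?_
    rw [← Finset.sum_filter]
    set Q := hfin.toFinset.filter (fun q =>
      xq i m a b bb (2 ^ k) q r ((ui : ℕ) : ℤ) ((um : ℕ) : ℤ) ∈ S) with hQ
    have hQm : ∀ q ∈ Q, ∃ p ∈ X, p.1 = k ∧
        xq i m a b bb (2 ^ k) q r ((ui : ℕ) : ℤ) ((um : ℕ) : ℤ) ∈ adm p.1 p.2 := by
      intro q hq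
      rw [hQ, Finset.mem_filter] at hq
      have hq2 := hq.2
      rw [hS, Finset.mem_biUnion] at hq2
      obtain ⟨p, hp, hpx⟩ := hq2
      rw [hXk, Finset.mem_filter] at hp
      exact ⟨p, hp.1, hp.2, hpx⟩
    have hterm : ∀ q ∈ Q,
        ‖br i m a b F (2 ^ k) r q (off bb (2 ^ k) r ((ui : ℕ) : ℤ) ((um : ℕ) : ℤ) - q)‖ ≤
        ‖Dm k (msk (AA W C ((sl i - sl b) * r) (-dd a b)) (be r) k) q‖ *
          ‖Dm k (msk (AA W C ((sl i - sl a) * r) (dd a b)) (al r) k)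
            (off bb (2 ^ k) r ((ui : ℕ) : ℤ) ((um : ℕ) : ℤ) - q)‖ +
        ‖frm (Err r) k q (off bb (2 ^ k) r ((ui : ℕ) : ℤ) ((um : ℕ) : ℤ) - q)‖ := by
      intro q hq
      obtain ⟨p, hpX, hpk, hpx⟩ := hQm q hq
      subst hpk
      have hsh := fun u v hu hv => shadows i m a b h hbb hpx r q ui um rfl u v hu hv
      have hiv : ∀ y ∈ iv p, y ∈ iv I := fun y hy => hW.reg.1 p (hX hpX) hy
      rw [br_frm]
      rw [frm_congr _ (fun z z' => inner ℂ (be r z) (al r z') + Err r z z') p.1 q _ (by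
        intro u v hu hv
        obtain ⟨s1, s2, s3, s4⟩ := hsh u v hu hv
        exact hK r (Finset.mem_range.1 hr) _ _ (hiv _ s1) (hiv _ s2) (hiv _ s3) (hiv _ s4))]
      rw [frm_add, frm_inner]
      refine (norm_add_le _ _).trans (add_le_add_left ?_ _)
      have d1 : Dm p.1 (be r) q =
          Dm p.1 (msk (AA W C ((sl i - sl b) * r) (-dd a b)) (be r) p.1) q := by
        refine Dm_congr _ _ _ _ fun u hu => ?_
        obtain ⟨s1, s2, s3, s4⟩ := hsh u 0 hu (by positivity)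
        rw [msk_pos]
        exact er_of_not_bad (hXb p hpX) s2
      have d2 : Dm p.1 (al r) (off bb (2 ^ p.1) r ((ui : ℕ) : ℤ) ((um : ℕ) : ℤ) - q) =
          Dm p.1 (msk (AA W C ((sl i - sl a) * r) (dd a b)) (al r) p.1)
            (off bb (2 ^ p.1) r ((ui : ℕ) : ℤ) ((um : ℕ) : ℤ) - q) := by
        refine Dm_congr _ _ _ _ fun v hv => ?_
        obtain ⟨s1, s2, s3, s4⟩ := hsh 0 v (by positivity) hv
        rw [msk_pos]
        exact er_of_not_bad (hXb p hpX) s1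
      rw [d1, d2]
      exact norm_inner_le_norm _ _
    refine (Finset.sum_le_sum hterm).trans ?_
    rw [Finset.sum_add_distrib]
    refine add_le_add ?_ (hErr r (Finset.mem_range.1 hr) ui um Q hQm)
    exact pair_le hW C _ _ (neg_ne_zero.2 hd) hd (be r) (al r) k Q _
  have hN : ((2 ^ k : ℕ) : ℝ) + ((2 ^ k : ℕ) : ℝ) = ((2 ^ k + 2 ^ k : ℕ) : ℝ) := by push_cast; ring
  calc _ ≤ (1 / (((2 ^ k : ℕ) : ℝ) + ((2 ^ k : ℕ) : ℝ)) ^ 2) *
        ∑ ui : Fin (2 ^ k + 2 ^ k), ∑ um : Fin (2 ^ k + 2 ^ k), B := by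
        refine mul_le_mul_of_nonneg_left ?_ (by positivity)
        exact Finset.sum_le_sum fun ui _ => Finset.sum_le_sum fun um _ => key ui um
    _ = B := by
        rw [hN]
        simp only [Finset.sum_const, Finset.card_univ, Fintype.card_fin, nsmul_eq_mul]
        have : ((2 ^ k + 2 ^ k : ℕ) : ℝ) ≠ 0 := by positivity
        field_simp
    _ ≤ B := le_rfl



end Crest.Agent.R079.Cmp408
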