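import Crest.Agent.R079.Dic_679
import Crest.Agent.R079.OpLev_977

/-! R079 (helper679): the family `OpF γ C` of OP-TEST functions (bounded gauge on one edge, two `L²`
sections of height `≤ t^(-C)`), price `t^γ`, is admissible (`fam_opF`), and
`olev_of_lv : Lv (DS S) k t u p X → av p X ≤ A → OLev κ k p X (128 u t^γ + 130 A t^C)`. -/

set_option autoImplicit false

namespace Crest.Agent.R079.DicOp679

open Finset Crest.Agent.R079.Grid Crest.Agent.R079.Glue Crest.Agent.R079.Growth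
  Crest.Agent.R079.QRed Crest.Agent.R079.R244 Crest.Agent.R079.TFrz679 Crest.Agent.R079.Dic679
  Crest.Agent.R079.OpLev

/-- value of the line form of slot `k` -/
def lfm (k j e e' : Fin 4) (x y z : ℤ) : ℤ :=
  (sl j - sl k) * x + (sl e - sl k) * y + (sl e' - sl k) * z

/-- unnormalised op-test function of slot `k` -/
noncomputable def opT (k j e e' : Fin 4) (n : ℕ) (w q u : ℤ) (m : ℤ → ℤ → ℂ)
    (U V : Fin n → Fin n → ℂ) (y : ℤ) : ℂ :=
  ∑ c : Fin n, ∑ i : Fin n, ∑ i' : Fin n,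
    if lfm k j e e' (w + ((c : ℕ) : ℤ)) (q + ((i : ℕ) : ℤ)) (u + ((i' : ℕ) : ℤ)) = y then
      m (q + ((i : ℕ) : ℤ)) (u + ((i' : ℕ) : ℤ)) * U c i * V c i' else 0

/-- data of an op-test function -/
structure OpD (k j e e' : Fin 4) (n : ℕ) (m : ℤ → ℤ → ℂ) (U V : Fin n → Fin n → ℂ)
    (α : Fin n → ℝ) : Prop where
  jk : j ≠ k
  je : j ≠ e
  je' : j ≠ e'
  ke : k ≠ e
  ke' : k ≠ e'
  ee' : e ≠ e'
  m1 : ∀ z z', ‖m z z'‖ ≤ 1
  α0 : ∀ c, 0 ≤ α c
  U2 : ∀ c, ∑ i, ‖U c i‖ ^ 2 ≤ n * α c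
  V2 : ∀ c, ∑ i, ‖V c i‖ ^ 2 ≤ n * α c
  α2 : ∑ c, α c ^ 2 ≤ n

/-- **the family** -/
def OpF (γ C : ℝ) (k : Fin 4) (t : ℝ) : Set Fn :=
  {φ | ∃ (j e e' : Fin 4) (n : ℕ) (w q u : ℤ) (m : ℤ → ℤ → ℂ) (U V : Fin n → Fin n → ℂ)
    (α : Fin n → ℝ), OpD k j e e' n m U V α ∧ (∀ c i, ‖U c i‖ ≤ t ^ (-C)) ∧
    (∀ c i, ‖V c i‖ ≤ t ^ (-C)) ∧
    φ = fun y => ((t ^ (-γ) / (n : ℝ) ^ 2 : ℝ) : ℂ) * opT k j e e' n w q u m U V y}

/-! ### pairing -/

theorem pair_opT (k j e e' : Fin 4) (n : ℕ) (w q u : ℤ) (m : ℤ → ℤ → ℂ)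
    (U V : Fin n → Fin n → ℂ) (p : Nd) (f : Fn) :
    ∑ y ∈ iv p, f y * opT k j e e' n w q u m U V y =
      ∑ c : Fin n, ∑ i : Fin n, ∑ i' : Fin n,
        m (q + ((i : ℕ) : ℤ)) (u + ((i' : ℕ) : ℤ)) *
          res p f ((sl j - sl k) * (w + ((c : ℕ) : ℤ)) + (sl e - sl k) * (q + ((i : ℕ) : ℤ)) +
            (sl e' - sl k) * (u + ((i' : ℕ) : ℤ))) * U c i * V c i' := by
  unfold opT
  simp only [Finset.mul_sum]
  rw [Finset.sum_comm]
  refine Finset.sum_congr rfl fun c _ => ?_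
  rw [Finset.sum_comm]
  refine Finset.sum_congr rfl fun i _ => ?_
  rw [Finset.sum_comm]
  refine Finset.sum_congr rfl fun i' _ => ?_
  simp only [mul_ite, mul_zero, Finset.sum_ite_eq]
  unfold res lfm
  show (if _ ∈ dI (p.1 + 7) p.2 then _ else _) = _
  split_ifs
  · ring
  · simp

/-! ### sup norm -/

/-- partial injections: `∑ [P] x y ≤ (∑ x² + ∑ y²)/2` -/
theorem inj_sum {ι κ : Type*} [Fintype ι] [Fintype κ] (P : ι → κ → Prop)
    [∀ i i', Decidable (P i i')] (h1 : ∀ i a b, P i a → P i b → a = b)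
    (h2 : ∀ a b i, P a i → P b i → a = b) (x : ι → ℝ) (y : κ → ℝ) {s : ℝ}
    (hx : ∑ i, x i ^ 2 ≤ s) (hy : ∑ i, y i ^ 2 ≤ s) :
    ∑ i, ∑ i', (if P i i' then x i * y i' else 0) ≤ s := by
  have e1 : ∀ i i', (if P i i' then x i * y i' else 0) ≤
      (1 / 2) * (if P i i' then x i ^ 2 else 0) + (1 / 2) * (if P i i' then y i' ^ 2 else 0) := by
    intro i i'
    split_ifs
    · nlinarith [sq_nonneg (x i - y i')]
    · simp
  have e2 : ∑ i, ∑ i', (if P i i' then x i ^ 2 else 0) ≤ ∑ i, x i ^ 2 := by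
    refine Finset.sum_le_sum fun i _ => ?_
    rw [← Finset.sum_filter, Finset.sum_const, nsmul_eq_mul]
    have hc : (Finset.univ.filter (fun i' => P i i')).card ≤ 1 := by
      rw [Finset.card_le_one]
      intro a ha b hb
      exact h1 i a b (Finset.mem_filter.1 ha).2 (Finset.mem_filter.1 hb).2
    have hc' : ((Finset.univ.filter (fun i' => P i i')).card : ℝ) ≤ 1 := by exact_mod_cast hc
    nlinarith [sq_nonneg (x i)]
  have e3 : ∑ i, ∑ i', (if P i i' then y i' ^ 2 else 0) ≤ ∑ i', y i' ^ 2 := by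
    rw [Finset.sum_comm]
    refine Finset.sum_le_sum fun i' _ => ?_
    rw [← Finset.sum_filter, Finset.sum_const, nsmul_eq_mul]
    have hc : (Finset.univ.filter (fun i => P i i')).card ≤ 1 := by
      rw [Finset.card_le_one]
      intro a ha b hb
      exact h2 a b i' (Finset.mem_filter.1 ha).2 (Finset.mem_filter.1 hb).2
    have hc' : ((Finset.univ.filter (fun i => P i i')).card : ℝ) ≤ 1 := by exact_mod_cast hc
    nlinarith [sq_nonneg (y i')]
  calc ∑ i, ∑ i', (if P i i' then x i * y i' else 0) ≤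
      ∑ i, ∑ i', ((1 / 2) * (if P i i' then x i ^ 2 else 0) +
        (1 / 2) * (if P i i' then y i' ^ 2 else 0)) :=
        Finset.sum_le_sum fun i _ => Finset.sum_le_sum fun i' _ => e1 i i'
    _ = (1 / 2) * ∑ i, ∑ i', (if P i i' then x i ^ 2 else 0) +
        (1 / 2) * ∑ i, ∑ i', (if P i i' then y i' ^ 2 else 0) := by
        simp only [Finset.sum_add_distrib, Finset.mul_sum]
    _ ≤ s := by linarith

theorem sum_α_le {n : ℕ} {α : Fin n → ℝ} (h : ∑ c, α c ^ 2 ≤ n) : ∑ c, α c ≤ n := by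
  have : ∑ c, α c ≤ ∑ c, ((1 : ℝ) / 2 + α c ^ 2 / 2) :=
    Finset.sum_le_sum fun c _ => by nlinarith [sq_nonneg (α c - 1)]
  have e : ∑ c : Fin n, ((1 : ℝ) / 2 + α c ^ 2 / 2) = n / 2 + (∑ c, α c ^ 2) / 2 := by
    rw [Finset.sum_add_distrib, Finset.sum_div]
    simp only [Finset.sum_const, Finset.card_univ, Fintype.card_fin, nsmul_eq_mul]
    ring
  rw [e] at this
  linarith


/-! ### mass -/

/-- three-fold sum with an arbitrary vertex -/
theorem rep3 {k : Fin 4} (i0 i1 i2 : Fin 3) (h01 : i0 ≠ i1) (h02 : i0 ≠ i2) (h12 : i1 ≠ i2)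
    (Tj Te Te' : Finset ℤ) {n : ℕ} (cj : Tj.card = n) (ce : Te.card = n) (ce' : Te'.card = n)
    (m U V : ℤ → ℤ → ℂ) {H κ M : ℝ} (hκ : 0 ≤ κ) (hH : 0 ≤ H) (hm : ∀ z z', ‖m z z'‖ ≤ 1)
    (hU : ∀ z z', ‖U z z'‖ ≤ H) (hV : ∀ z z', ‖V z z'‖ ≤ H) (hM : 0 < M)
    (hMM : κ * ((n : ℝ) ^ 2 * H ^ 2) ≤ M) (p : Nd) :
    Rep k p (fun y => (κ : ℂ) * ∑ zj ∈ Tj, ∑ ze ∈ Te, ∑ ze' ∈ Te',
      if cf k i0 * zj + cf k i1 * ze + cf k i2 * ze' = y then m ze ze' * U zj ze * V zj ze'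
      else 0) M := by
  have hpow : ((n : ℝ) * n * n) ^ (2 / 3 : ℝ) = (n : ℝ) ^ 2 := by
    have h3 : (n : ℝ) * n * n = (n : ℝ) ^ (3 : ℝ) := by
      rw [show (3 : ℝ) = ((3 : ℕ) : ℝ) by norm_num, Real.rpow_natCast]; ring
    rw [h3, ← Real.rpow_mul (Nat.cast_nonneg n)]
    rw [show (3 : ℝ) * (2 / 3) = ((2 : ℕ) : ℝ) by norm_num, Real.rpow_natCast]
  have hb1 : κ * (((n : ℝ) * n * n) ^ (2 / 3 : ℝ) * (H * 1 * H)) ≤ M := by
    rw [hpow]; refine le_trans (le_of_eq ?_) hMM; ring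
  have hb2 : κ * (((n : ℝ) * n * n) ^ (2 / 3 : ℝ) * (H * H * 1)) ≤ M := by
    rw [hpow]; refine le_trans (le_of_eq ?_) hMM; ring
  have hb3 : κ * (((n : ℝ) * n * n) ^ (2 / 3 : ℝ) * (1 * H * H)) ≤ M := by
    rw [hpow]; refine le_trans (le_of_eq ?_) hMM; ring
  have key : ∀ {f g : Fn}, (∀ y, f y = g y) → Rep k p g M → Rep k p f M := by
    intro f g hfg hg
    have : f = g := funext hfg
    rw [this]; exact hg
  fin_cases i0 <;> fin_cases i1 <;> fin_cases i2 <;>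
    first
    | exact absurd rfl h01
    | exact absurd rfl h02
    | exact absurd rfl h12
    | skip
  · -- (0,1,2)
    refine key (g := atom k κ ![Tj, Te, Te'] (fun z0 z1 => U z0 z1) (fun z1 z2 => m z1 z2)
      (fun z2 z0 => V z0 z2)) (fun y => ?_) (rep_bdd hκ hH zero_le_one hH ?_ ?_ ?_ hM ?_ p)
    · unfold atom
      congr 1
      refine Finset.sum_congr rfl fun a _ => Finset.sum_congr rfl fun b _ =>
        Finset.sum_congr rfl fun c _ => ?_
      refine if_congr (by constructor <;> intro h <;> (simp at h ⊢; linarith)) (by ring) rfl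
    · exact fun _ _ _ _ => hU _ _
    · exact fun _ _ _ _ => hm _ _
    · exact fun _ _ _ _ => hV _ _
    · simpa [cj, ce, ce'] using hb1
  · -- (0,2,1)
    refine key (g := atom k κ ![Tj, Te', Te] (fun z0 z1 => V z0 z1) (fun z1 z2 => m z2 z1)
      (fun z2 z0 => U z0 z2)) (fun y => ?_) (rep_bdd hκ hH zero_le_one hH ?_ ?_ ?_ hM ?_ p)
    · unfold atom
      congr 1
      refine Finset.sum_congr rfl fun a _ => ?_
      rw [Finset.sum_comm]
      refine Finset.sum_congr rfl fun b _ => Finset.sum_congr rfl fun c _ => ?_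
      refine if_congr (by constructor <;> intro h <;> (simp at h ⊢; linarith)) (by ring) rfl
    · exact fun _ _ _ _ => hV _ _
    · exact fun _ _ _ _ => hm _ _
    · exact fun _ _ _ _ => hU _ _
    · simpa [cj, ce, ce'] using hb1
  · -- (1,0,2)
    refine key (g := atom k κ ![Te, Tj, Te'] (fun z0 z1 => U z1 z0) (fun z1 z2 => V z1 z2)
      (fun z2 z0 => m z0 z2)) (fun y => ?_) (rep_bdd hκ hH hH zero_le_one ?_ ?_ ?_ hM ?_ p)
    · unfold atom
      congr 1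
      rw [Finset.sum_comm]
      refine Finset.sum_congr rfl fun a _ => Finset.sum_congr rfl fun b _ =>
        Finset.sum_congr rfl fun c _ => ?_
      refine if_congr (by constructor <;> intro h <;> (simp at h ⊢; linarith)) (by ring) rfl
    · exact fun _ _ _ _ => hU _ _
    · exact fun _ _ _ _ => hV _ _
    · exact fun _ _ _ _ => hm _ _
    · simpa [cj, ce, ce'] using hb2
  · -- (1,2,0)
    refine key (g := atom k κ ![Te', Tj, Te] (fun z0 z1 => V z1 z0) (fun z1 z2 => U z1 z2)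
      (fun z2 z0 => m z2 z0)) (fun y => ?_) (rep_bdd hκ hH hH zero_le_one ?_ ?_ ?_ hM ?_ p)
    · unfold atom
      congr 1
      have e1 : ∀ (G : ℤ → ℤ → ℤ → ℂ), ∑ a ∈ Tj, ∑ b ∈ Te, ∑ c ∈ Te', G a b c =
          ∑ c ∈ Te', ∑ a ∈ Tj, ∑ b ∈ Te, G a b c := by
        intro G
        rw [Finset.sum_comm]
        rw [Finset.sum_congr rfl fun b _ => Finset.sum_comm]
        rw [Finset.sum_comm]
        refine Finset.sum_congr rfl fun c _ => ?_
        rw [Finset.sum_comm]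
      rw [e1]
      refine Finset.sum_congr rfl fun a _ => Finset.sum_congr rfl fun b _ =>
        Finset.sum_congr rfl fun c _ => ?_
      refine if_congr (by constructor <;> intro h <;> (simp at h ⊢; linarith)) (by ring) rfl
    · exact fun _ _ _ _ => hV _ _
    · exact fun _ _ _ _ => hU _ _
    · exact fun _ _ _ _ => hm _ _
    · simpa [cj, ce, ce'] using hb2
  · -- (2,0,1)
    refine key (g := atom k κ ![Te, Te', Tj] (fun z0 z1 => m z0 z1) (fun z1 z2 => V z2 z1)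
      (fun z2 z0 => U z2 z0)) (fun y => ?_) (rep_bdd hκ zero_le_one hH hH ?_ ?_ ?_ hM ?_ p)
    · unfold atom
      congr 1
      have e1 : ∀ (G : ℤ → ℤ → ℤ → ℂ), ∑ a ∈ Tj, ∑ b ∈ Te, ∑ c ∈ Te', G a b c =
          ∑ b ∈ Te, ∑ c ∈ Te', ∑ a ∈ Tj, G a b c := by
        intro G
        rw [Finset.sum_comm]
        refine Finset.sum_congr rfl fun b _ => ?_
        rw [Finset.sum_comm]
      rw [e1]
      refine Finset.sum_congr rfl fun a _ => Finset.sum_congr rfl fun b _ =>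
        Finset.sum_congr rfl fun c _ => ?_
      refine if_congr (by constructor <;> intro h <;> (simp at h ⊢; linarith)) (by ring) rfl
    · exact fun _ _ _ _ => hm _ _
    · exact fun _ _ _ _ => hV _ _
    · exact fun _ _ _ _ => hU _ _
    · simpa [cj, ce, ce'] using hb3
  · -- (2,1,0)
    refine key (g := atom k κ ![Te', Te, Tj] (fun z0 z1 => m z1 z0) (fun z1 z2 => U z2 z1)
      (fun z2 z0 => V z2 z0)) (fun y => ?_) (rep_bdd hκ zero_le_one hH hH ?_ ?_ ?_ hM ?_ p)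
    · unfold atom
      congr 1
      have e1 : ∀ (G : ℤ → ℤ → ℤ → ℂ), ∑ a ∈ Tj, ∑ b ∈ Te, ∑ c ∈ Te', G a b c =
          ∑ c ∈ Te', ∑ b ∈ Te, ∑ a ∈ Tj, G a b c := by
        intro G
        rw [Finset.sum_comm]
        rw [Finset.sum_congr rfl fun b _ => Finset.sum_comm]
        rw [Finset.sum_comm]
      rw [e1]
      refine Finset.sum_congr rfl fun a _ => Finset.sum_congr rfl fun b _ =>
        Finset.sum_congr rfl fun c _ => ?_
      refine if_congr (by constructor <;> intro h <;> (simp at h ⊢; linarith)) (by ring) rfl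
    · exact fun _ _ _ _ => hm _ _
    · exact fun _ _ _ _ => hU _ _
    · exact fun _ _ _ _ => hV _ _
    · simpa [cj, ce, ce'] using hb3

theorem sum_Ico_fin (w : ℤ) (n : ℕ) (F : ℤ → ℂ) :
    ∑ z ∈ Finset.Ico w (w + (n : ℤ)), F z = ∑ i : Fin n, F (w + ((i : ℕ) : ℤ)) := by
  symm
  refine Finset.sum_bij (fun (i : Fin n) _ => w + ((i : ℕ) : ℤ)) ?_ ?_ ?_ ?_
  · intro i _
    have := i.2
    rw [Finset.mem_Ico]
    constructor <;> omega
  · intro i _ j _ h
    exact Fin.ext (by omega)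
  · intro z hz
    have := Finset.mem_Ico.1 hz
    exact ⟨⟨(z - w).toNat, by omega⟩, Finset.mem_univ _, by simp only []; omega⟩
  · intro i _; rfl

open Classical in
/-- extension of a section to `ℤ` -/
noncomputable def ext {n : ℕ} (w q : ℤ) (U : Fin n → Fin n → ℂ) (z z' : ℤ) : ℂ :=
  if h : (0 ≤ z - w ∧ z - w < n) ∧ (0 ≤ z' - q ∧ z' - q < n) then
    U ⟨(z - w).toNat, by omega⟩ ⟨(z' - q).toNat, by omega⟩ else 0

theorem ext_val {n : ℕ} (w q : ℤ) (U : Fin n → Fin n → ℂ) (c i : Fin n) :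
    ext w q U (w + ((c : ℕ) : ℤ)) (q + ((i : ℕ) : ℤ)) = U c i := by
  unfold ext
  have hc := c.2
  have hi := i.2
  rw [dif_pos (by constructor <;> constructor <;> omega)]
  have e1 : (w + ((c : ℕ) : ℤ) - w).toNat = (c : ℕ) := by omega
  have e2 : (q + ((i : ℕ) : ℤ) - q).toNat = (i : ℕ) := by omega
  simp only [e1, e2, Fin.eta]

theorem ext_le {n : ℕ} (w q : ℤ) (U : Fin n → Fin n → ℂ) {H : ℝ} (hH : 0 ≤ H)
    (h : ∀ c i, ‖U c i‖ ≤ H) (z z' : ℤ) : ‖ext w q U z z'‖ ≤ H := by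
  unfold ext
  split_ifs
  · exact h _ _
  · simpa using hH



end Crest.Agent.R079.DicOp679
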