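import Crest.Agent.R079.EWG_990

-- ▼ part R079/EW4_702
section

/-! R079, Step II (RULE S), error words WITHOUT HEIGHTS of the two arbitrary letters (helper702).

`word_two`  : `S₂`-small edge `e` (height enters only as a logarithm), the two other edges `S₄`-bounded.
`word_four` : `S₄`-small edge `e`, one other edge of height `H` (only a logarithm), the third `S₄`-bounded.
`s4w_line`  : a line letter is `S₄`-bounded at its own nodes: `e2 ≤ 128 A` on every box. -/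

set_option autoImplicit false
set_option linter.unusedVariables false

namespace Crest.Agent.R079.EW4702

open Finset Crest.Agent.R079.Grid Crest.Agent.R079.Pot Crest.Agent.R079.Glue Crest.Agent.R079.R244
  Crest.Agent.R079.F24 Crest.Agent.R079.EW990 Crest.Agent.R079.EWG990
open Crest.Agent.R079.Cg408 (LboxG Lbox_LboxG LboxG_add)

/-! ### line letters -/

section line

variable {R : Finset (ℕ × ℤ)} {κ : ℕ} {V : ℝ} {α γ δ : ℤ} {T T' : Finset ℤ}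

/-- fibre sum of a restricted letter along an injective affine map -/
lemma sum_res_inj {β : ℤ} (hβ : β ≠ 0) (c : ℤ) (p : ℕ × ℤ) (F : ℤ → ℂ) {B : ℝ}
    (hF : ∑ y ∈ dI (p.1 + 7) p.2, ‖F y‖ ^ 2 ≤ B) (W : Finset ℤ) :
    ∑ w ∈ W, ‖res p F (β * w + c)‖ ^ 2 ≤ B := by
  classical
  refine le_trans ?_ hF
  have hinj : Set.InjOn (fun w : ℤ => β * w + c) W := by
    intro x _ y _ hxy
    simp only at hxy
    exact mul_left_cancel₀ hβ (by linarith)
  have e := Finset.sum_image (f := fun y : ℤ => ‖res p F y‖ ^ 2) hinj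
  rw [← e]
  have h2 : ∑ y ∈ W.image (fun w : ℤ => β * w + c), ‖res p F y‖ ^ 2 =
      ∑ y ∈ (W.image (fun w : ℤ => β * w + c)).filter
        (fun y => y ∈ dI (p.1 + 7) p.2), ‖F y‖ ^ 2 := by
    rw [Finset.sum_filter]
    refine Finset.sum_congr rfl fun y _ => ?_
    unfold res
    split_ifs
    · rfl
    · simp
  rw [h2]
  refine Finset.sum_le_sum_of_subset_of_nonneg ?_ fun _ _ _ => by positivity
  intro y hy
  exact (Finset.mem_filter.mp hy).2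

/-- **`S₂` budget of a line letter with a square summable kernel** -/
theorem s2w_sum (hα : α ≠ 0) (a : ℤ → ℤ → ℂ) {M A : ℝ} (hA : 0 ≤ A)
    (ha : ∑ z ∈ T, ∑ z' ∈ T', ‖a z z'‖ ^ 2 ≤ M) {F : ℤ → ℂ}
    (hF : ∀ p ∈ R, ∑ y ∈ dI (p.1 + 7) p.2, ‖F y‖ ^ 2 ≤ A * 2 ^ (p.1 + 7)) :
    EW49.S2W R κ (M * A) α γ δ T T' (fun _ => a) F := by
  classical
  refine EW990.s2w_of_total (a := fun _ => a) (fun p hp S => ?_)
  set Wf : Finset ℤ := S.image (fun t => t.1) with hWf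
  have h3 : ∑ t ∈ S, ‖cK α γ δ T T' a (res p F) t.1 t.2.1 t.2.2‖ ^ 2 ≤
      ∑ t ∈ Wf ×ˢ (T ×ˢ T'), ‖a t.2.1 t.2.2‖ ^ 2 *
        ‖res p F (α * t.1 + γ * t.2.1 + δ * t.2.2)‖ ^ 2 := by
    have h4 : ∑ t ∈ S, ‖cK α γ δ T T' a (res p F) t.1 t.2.1 t.2.2‖ ^ 2 =
        ∑ t ∈ S.filter (fun t => t.2.1 ∈ T ∧ t.2.2 ∈ T'), ‖a t.2.1 t.2.2‖ ^ 2 *
          ‖res p F (α * t.1 + γ * t.2.1 + δ * t.2.2)‖ ^ 2 := by
      rw [Finset.sum_filter]
      refine Finset.sum_congr rfl fun t _ => ?_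
      unfold cK
      split_ifs with hT
      · rw [norm_mul, mul_pow]
      · simp
    rw [h4]
    refine Finset.sum_le_sum_of_subset_of_nonneg ?_ fun _ _ _ => by positivity
    intro t ht
    rw [Finset.mem_filter] at ht
    rw [Finset.mem_product, Finset.mem_product]
    exact ⟨Finset.mem_image_of_mem _ ht.1, ht.2.1, ht.2.2⟩
  refine h3.trans ?_
  rw [Finset.sum_product, Finset.sum_comm]
  have h5 : ∀ y ∈ T ×ˢ T', ∑ x ∈ Wf, ‖a y.1 y.2‖ ^ 2 *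
      ‖res p F (α * x + γ * y.1 + δ * y.2)‖ ^ 2 ≤ ‖a y.1 y.2‖ ^ 2 * (A * 2 ^ (p.1 + 7)) := by
    intro y _
    rw [← Finset.mul_sum]
    refine mul_le_mul_of_nonneg_left ?_ (by positivity)
    have := sum_res_inj hα (γ * y.1 + δ * y.2) p F (hF p hp) Wf
    simpa only [add_assoc] using this
  refine (Finset.sum_le_sum h5).trans ?_
  rw [← Finset.sum_mul, Finset.sum_product]
  calc (∑ x ∈ T, ∑ y ∈ T', ‖a x y‖ ^ 2) * (A * 2 ^ (p.1 + 7))
      ≤ M * (A * 2 ^ (p.1 + 7)) := mul_le_mul_of_nonneg_right ha (by positivity)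
    _ = 2 ^ (p.1 + 7) * (M * A) := by ring

/-- one box of a line letter -/
lemma e2_line_le (hδ : δ ≠ 0) {a : ℤ → ℤ → ℂ} (ha : ∀ z z', ‖a z z'‖ ≤ 1) {A : ℝ} (hA : 0 ≤ A)
    {F : ℤ → ℂ} {p : ℕ × ℤ} (hF : ∑ y ∈ dI (p.1 + 7) p.2, ‖F y‖ ^ 2 ≤ A * 2 ^ (p.1 + 7))
    (k : ℕ) (w q p' : ℤ) :
    e2 (cK α γ δ T T' a (res p F) w) (2 ^ (p.1 + k)) q p' ≤ 128 * A := by
  set N : ℕ := 2 ^ (p.1 + k) with hN
  have hN0 : (0 : ℝ) < N := by rw [hN]; positivity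
  have h1 : ∀ i : ℕ, ∑ j ∈ range N, ‖cK α γ δ T T' a (res p F) w (q + (i : ℤ)) (p' + (j : ℤ))‖ ^ 2 ≤
      A * 2 ^ (p.1 + 7) := by
    intro i
    have h2 := sum_res_inj hδ (α * w + γ * (q + (i : ℤ)) + δ * p') p F hF
      ((range N).image (fun j : ℕ => (j : ℤ)))
    rw [Finset.sum_image (fun x _ y _ h => by exact_mod_cast h)] at h2
    refine le_trans (Finset.sum_le_sum fun j _ => ?_) h2
    unfold cK
    split_ifs
    · rw [norm_mul, mul_pow]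
      have e : α * w + γ * (q + (i : ℤ)) + δ * (p' + (j : ℤ)) =
          δ * (j : ℤ) + (α * w + γ * (q + (i : ℤ)) + δ * p') := by ring
      rw [e]
      exact mul_le_of_le_one_left (by positivity) (pow_le_one₀ (norm_nonneg _) (ha _ _))
    · rw [norm_zero, zero_pow two_ne_zero]; positivity
  unfold e2
  have h3 : ∑ i ∈ range N, ∑ j ∈ range N,
      ‖cK α γ δ T T' a (res p F) w (q + (i : ℤ)) (p' + (j : ℤ))‖ ^ 2 ≤
      (N : ℝ) * (A * 2 ^ (p.1 + 7)) := by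
    refine (Finset.sum_le_sum fun i _ => h1 i).trans ?_
    rw [Finset.sum_const, Finset.card_range, nsmul_eq_mul]
  have h4 : (2 : ℝ) ^ p.1 ≤ N := by
    rw [hN]; push_cast
    exact pow_le_pow_right₀ (by norm_num) (by omega)
  calc (1 / (N : ℝ) ^ 2) * _ ≤ (1 / (N : ℝ) ^ 2) * ((N : ℝ) * (A * 2 ^ (p.1 + 7))) :=
        mul_le_mul_of_nonneg_left h3 (by positivity)
    _ = 128 * A * (2 ^ p.1 / N) := by rw [pow_add]; field_simp; ring
    _ ≤ 128 * A * 1 := by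
        refine mul_le_mul_of_nonneg_left ?_ (by positivity)
        rw [div_le_one hN0]; exact h4
    _ = 128 * A := by ring

/-- **a line letter is `S₄` bounded at its own nodes** -/
theorem s4w_line (hδ : δ ≠ 0) {a : ℤ → ℤ → ℤ → ℂ} (ha : ∀ w z z', ‖a w z z'‖ ≤ 1) {A : ℝ}
    (hA : 0 ≤ A) {F : ℤ → ℂ}
    (hF : ∀ p ∈ R, ∑ y ∈ dI (p.1 + 7) p.2, ‖F y‖ ^ 2 ≤ A * 2 ^ (p.1 + 7))
    (h2 : EW49.S2W R κ V α γ δ T T' a F) :
    EW49.S4W R κ V (128 * A) α γ δ T T' a F := by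
  intro p hp k hk S
  have h1 := mul_le_mul_of_nonneg_left (h2 p hp k hk S) (by positivity : 0 ≤ 128 * A)
  refine le_trans ?_ h1
  rw [Finset.mul_sum]
  refine Finset.sum_le_sum fun t _ => ?_
  refine (e4_le_sq _ _ _ _).trans ?_
  rw [sq]
  exact mul_le_mul_of_nonneg_right (e2_line_le hδ (ha _) hA (hF p hp) k _ _ _)
    (e2_nonneg _ _ _ _)

end line

/-! ### words -/

lemma rpow_quarter {L : ℝ} (hL : 0 < L) : ((L ^ (-(1 / 4) : ℝ)) ^ 4 : ℝ) * L = 1 := by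
  rw [← Real.rpow_natCast, ← Real.rpow_mul hL.le]
  norm_num
  rw [Real.rpow_neg_one, inv_mul_cancel₀ hL.ne']

/-- **`S₂`-small edge `e`, no heights on the other edges** -/
theorem word_two : ∃ K : ℝ, 0 ≤ K ∧ ∃ κ : ℕ, ∀ (bb : ℤ), bb = -1 ∨ bb = -7 →
    ∀ (R : Finset (ℕ × ℤ)) (J : ℕ × ℤ), IsRegion R J →
    ∀ (j : Fin 4) (e : Fin 3) (d H L : ℝ), 0 < d → d ≤ H → 1 ≤ L → ∀ (V : ℝ), 0 ≤ V →
    ∀ (T : Fin 3 → Finset ℤ) (k : Fin 3 → ℤ → ℤ → ℤ → ℂ) (F : Fin 4 → ℤ → ℂ),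
      (∀ x, x ≠ e → W2 R κ V j T k F x) → (∀ x, x ≠ e → W4 R κ V L j T k F x) →
      W2 R κ (d ^ 2 * V) j T k F e → WH H j T k F e → ∀ PP : Finset (ℤ × ℤ × ℤ),
        LW bb R J j T k F PP ≤ K * (d * Real.sqrt L * (1 + Real.log (H / d)) * 2 ^ (J.1 + 7) * V) := by
  obtain ⟨K, hK, κ, h⟩ := fw24
  refine ⟨K, hK, κ, ?_⟩
  intro bb hbb R J hR j e d H L hd hdH hL V hV T k F h2 h4 he hb PP
  have hL0 : 0 < L := by linarith
  set x : ℝ := L ^ (-(1 / 4) : ℝ) with hx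
  have hx0 : 0 < x := Real.rpow_pos_of_pos hL0 _
  have hx4 : x ^ 4 * L = 1 := rpow_quarter hL0
  have hx1 : x ≤ 1 := Real.rpow_le_one_of_one_le_of_nonpos hL (by norm_num)
  set c : Fin 3 → ℝ := fun u => if u = e then d⁻¹ else x with hc
  have ce : c e = d⁻¹ := by simp [hc]
  have cx : ∀ u, u ≠ e → c u = x := fun u hu => by simp [hc, hu]
  have hc0 : ∀ u, 0 ≤ c u := by
    intro u
    by_cases hu : u = e
    · rw [hu, ce]; positivity
    · rw [cx u hu]; exact hx0.le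
  have hW2 : ∀ u, W2 R κ V j T (sk c k) F u := by
    intro u
    by_cases hu : u = e
    · subst hu
      refine S2W.mono ?_ (W2.sk c he)
      rw [ce, ← mul_assoc]
      refine le_of_eq ?_
      have : d⁻¹ ^ 2 * d ^ 2 = 1 := by rw [← mul_pow, inv_mul_cancel₀ hd.ne', one_pow]
      rw [this, one_mul]
    · refine S2W.mono ?_ (W2.sk c (h2 u hu))
      rw [cx u hu]
      exact mul_le_of_le_one_left hV (pow_le_one₀ hx0.le hx1)
  have hW4 : ∀ u, u ≠ e → W4 R κ V ((1 : ℝ) ^ 2) j T (sk c k) F u := by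
    intro u hu
    have h6 := W4.sk c (h4 u hu)
    refine S4W.mono (by positivity) hV le_rfl ?_ h6
    rw [cx u hu, hx4]; norm_num
  have hWH : WH (H / d) j T (sk c k) F e := by
    intro w z z'
    rw [kW_sk]
    simp only [ce]
    rw [norm_mul, Complex.norm_real, Real.norm_of_nonneg (by positivity : (0 : ℝ) ≤ d⁻¹),
      inv_mul_eq_div]
    exact div_le_div_of_nonneg_right (hb w z z') hd.le
  have hHd : 1 ≤ H / d := by rw [le_div_iff₀ hd]; linarith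
  have main := h bb hbb R J hR j e 1 (H / d) one_pos le_rfl hHd V hV T (sk c k) F hW2 hW4 hWH PP
  obtain ⟨i, hie⟩ : ∃ i : Fin 3, i ≠ e := ⟨e + 1, add_one_ne e⟩
  obtain ⟨r, hri, hre, hall⟩ := exists_third i e hie
  rw [LW_sk c hc0, prod_three c i e r hie hri hre, cx i hie, ce, cx r hre, div_one] at main
  have hx2 : x ^ 2 * Real.sqrt L = 1 := by
    have h7 : (x ^ 2 * Real.sqrt L) ^ 2 = 1 ^ 2 := by
      rw [mul_pow, Real.sq_sqrt hL0.le, ← pow_mul, hx4, one_pow]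
    exact (pow_left_inj₀ (by positivity) zero_le_one two_ne_zero).1 h7
  have hL' : LW bb R J j T k F PP = (d * Real.sqrt L) * ((x * d⁻¹ * x) * LW bb R J j T k F PP) := by
    have : (d * Real.sqrt L) * (x * d⁻¹ * x) = 1 := by
      calc (d * Real.sqrt L) * (x * d⁻¹ * x) = (x ^ 2 * Real.sqrt L) * (d * d⁻¹) := by ring
        _ = 1 := by rw [hx2, mul_inv_cancel₀ hd.ne', one_mul]
    rw [← mul_assoc, this, one_mul]
  rw [hL']
  refine (mul_le_mul_of_nonneg_left main (by positivity)).trans (le_of_eq ?_)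
  ring

/-- **`S₄`-small edge `e`**: one other edge `i` with height `H` (only a logarithm), the third one
`S₄`-bounded -/
theorem word_four : ∃ K : ℝ, 0 ≤ K ∧ ∃ κ : ℕ, ∀ (bb : ℤ), bb = -1 ∨ bb = -7 →
    ∀ (R : Finset (ℕ × ℤ)) (J : ℕ × ℤ), IsRegion R J →
    ∀ (j : Fin 4) (e i : Fin 3), i ≠ e → ∀ (d H L : ℝ), 0 < d → d ≤ 1 → 1 ≤ H → 1 ≤ L →
    ∀ (V : ℝ), 0 ≤ V →
    ∀ (T : Fin 3 → Finset ℤ) (k : Fin 3 → ℤ → ℤ → ℤ → ℂ) (F : Fin 4 → ℤ → ℂ),
      (∀ x, W2 R κ V j T k F x) → (∀ x, x ≠ e → x ≠ i → W4 R κ V L j T k F x) →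
      W4 R κ V (d ^ 4) j T k F e → WH H j T k F i → ∀ PP : Finset (ℤ × ℤ × ℤ),
        LW bb R J j T k F PP ≤ K * (d * Real.sqrt L * (1 + Real.log (H / d ^ 2)) *
          2 ^ (J.1 + 7) * V) := by
  obtain ⟨K, hK, κ, h⟩ := fw24
  refine ⟨K, hK, κ, ?_⟩
  intro bb hbb R J hR j e i hie d H L hd hd1 hH hL V hV T k F h2 h4 he hb PP
  have hL0 : 0 < L := by linarith
  obtain ⟨r, hri, hre, hall⟩ := exists_third i e hie
  set x : ℝ := L ^ (-(1 / 4) : ℝ) with hx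
  have hx0 : 0 < x := Real.rpow_pos_of_pos hL0 _
  have hx4 : x ^ 4 * L = 1 := rpow_quarter hL0
  have hx1 : x ≤ 1 := Real.rpow_le_one_of_one_le_of_nonpos hL (by norm_num)
  set c : Fin 3 → ℝ := fun u => if u = r then d * x else 1 with hc
  have cr : c r = d * x := by simp [hc]
  have ce : c e = 1 := by simp [hc, Ne.symm hre]
  have ci : c i = 1 := by simp [hc, Ne.symm hri]
  have hc0 : ∀ u, 0 ≤ c u := by
    intro u
    rcases hall u with rfl | rfl | rfl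
    · rw [ci]; norm_num
    · rw [ce]; norm_num
    · rw [cr]; positivity
  have hW2 : ∀ u, W2 R κ V j T (sk c k) F u := by
    intro u
    rcases hall u with rfl | rfl | rfl
    · refine S2W.mono ?_ (W2.sk c (h2 _))
      rw [ci]; simp
    · refine S2W.mono ?_ (W2.sk c (h2 _))
      rw [ce]; simp
    · refine S2W.mono ?_ (W2.sk c (h2 _))
      rw [cr]
      refine mul_le_of_le_one_left hV (pow_le_one₀ (by positivity) ?_)
      exact mul_le_one₀ hd1 hx0.le hx1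
  have hW4 : ∀ u, u ≠ i → W4 R κ V ((d ^ 2 : ℝ) ^ 2) j T (sk c k) F u := by
    intro u hu
    rcases hall u with rfl | rfl | rfl
    · exact absurd rfl hu
    · have h6 := W4.sk c he
      refine S4W.mono (by positivity) hV le_rfl ?_ h6
      rw [ce]
      exact le_of_eq (by ring)
    · have h6 := W4.sk c (h4 _ hre hri)
      refine S4W.mono (by positivity) hV le_rfl ?_ h6
      rw [cr]
      refine le_of_eq ?_
      calc (d * x) ^ 4 * L = d ^ 4 * (x ^ 4 * L) := by ring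
        _ = (d ^ 2) ^ 2 := by rw [hx4]; ring
  have hWH : WH H j T (sk c k) F i := by
    intro w z z'
    rw [kW_sk]
    simp only [ci]
    simpa using hb w z z'
  have hs0 : 0 < d ^ 2 := by positivity
  have main := h bb hbb R J hR j i (d ^ 2) H hs0 (pow_le_one₀ hd.le hd1) hH V hV T (sk c k) F
    hW2 hW4 hWH PP
  rw [LW_sk c hc0, prod_three c i e r hie hri hre, ci, ce, cr] at main
  have hxi : x⁻¹ ≤ Real.sqrt L := by
    have hx2 : x ^ 2 * Real.sqrt L = 1 := by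
      have h7 : (x ^ 2 * Real.sqrt L) ^ 2 = 1 ^ 2 := by
        rw [mul_pow, Real.sq_sqrt hL0.le, ← pow_mul, hx4, one_pow]
      exact (pow_left_inj₀ (by positivity) zero_le_one two_ne_zero).1 h7
    rw [inv_le_iff_one_le_mul₀ hx0]
    calc (1 : ℝ) = x ^ 2 * Real.sqrt L := hx2.symm
      _ ≤ x * Real.sqrt L := by
          refine mul_le_mul_of_nonneg_right ?_ (Real.sqrt_nonneg _)
          nlinarith
      _ = Real.sqrt L * x := mul_comm _ _
  have hlog : 0 ≤ 1 + Real.log (H / d ^ 2) := by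
    have : 0 ≤ Real.log (H / d ^ 2) := by
      refine Real.log_nonneg ?_
      rw [le_div_iff₀ hs0]
      have : d ^ 2 ≤ 1 := pow_le_one₀ hd.le hd1
      linarith
    linarith
  have hL' : LW bb R J j T k F PP = (x⁻¹ * d⁻¹) * ((1 * 1 * (d * x)) * LW bb R J j T k F PP) := by
    field_simp
  rw [hL']
  refine (mul_le_mul_of_nonneg_left main (by positivity)).trans ?_
  have e2 : x⁻¹ * d⁻¹ * (K * (d ^ 2 * (1 + Real.log (H / d ^ 2)) * 2 ^ (J.1 + 7) * V)) =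
      K * ((x⁻¹ * (d * (1 + Real.log (H / d ^ 2)))) * (2 ^ (J.1 + 7) * V)) := by
    field_simp
  have e3 : K * (d * Real.sqrt L * (1 + Real.log (H / d ^ 2)) * 2 ^ (J.1 + 7) * V) =
      K * ((Real.sqrt L * (d * (1 + Real.log (H / d ^ 2)))) * (2 ^ (J.1 + 7) * V)) := by ring
  rw [e2, e3]
  refine mul_le_mul_of_nonneg_left ?_ hK
  refine mul_le_mul_of_nonneg_right ?_ (by positivity)
  exact mul_le_mul_of_nonneg_right hxi (mul_nonneg hd.le hlog)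

end Crest.Agent.R079.EW4702
end

-- ▼ part R079/EW5_702

/-! R079, Step II (RULE S), leaf S4 of note 781 (helper702): the ERROR WORDS `E` (`S₂`-small) and `X`
(`S₄`-small) of the edge `0` in box form, next to two ARBITRARY line letters which are only locally `L²`. -/

set_option autoImplicit false
set_option linter.unusedVariables false

namespace Crest.Agent.R079.EW5702

open Finset Crest.Agent.R079.Grid Crest.Agent.R079.Pot Crest.Agent.R079.Glue Crest.Agent.R079.R244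
  Crest.Agent.R079.F24 Crest.Agent.R079.EW990 Crest.Agent.R079.EWG990 Crest.Agent.R079.LK990
  Crest.Agent.R079.EW4702 Crest.Agent.R079.Growth
open Crest.Agent.R079.Cg408 (LboxG Lbox_LboxG LboxG_add)

/-! ### the mask of the top interval -/

/-- masked kernel -/
noncomputable def mE (j : Fin 4) (D : Finset ℤ) (E : ℤ → ℤ → ℤ → ℂ) (w z z' : ℤ) : ℂ :=
  if (sl j - sl (j.succAbove 2)) * w + (sl (j.succAbove 0) - sl (j.succAbove 2)) * z +
    (sl (j.succAbove 1) - sl (j.succAbove 2)) * z' ∈ D then E w z z' else 0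

lemma PhiW_zero (g : Fin 3 → ℤ → ℤ → ℂ) (E : ℤ → ℤ → ℤ → ℂ) (w z0 z1 z2 : ℤ) :
    PhiW (upk g 0 E) w z0 z1 z2 = E w z0 z1 * g 1 z1 z2 * g 2 z2 z0 := by
  unfold PhiW upk
  rw [if_pos rfl, if_neg (show ¬ ((1 : Fin 3) = 0) by decide),
    if_neg (show ¬ ((2 : Fin 3) = 0) by decide)]

/-- the kernel of the edge `0` matters only at the points with shadow in `D` -/
theorem KP_mask (j : Fin 4) (T : Fin 3 → Finset ℤ) (g : Fin 3 → ℤ → ℤ → ℂ) (F : Fin 4 → ℤ → ℂ)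
    (E : ℤ → ℤ → ℤ → ℂ) (D : Finset ℤ) (s A : ℤ) (hy : A - sl (j.succAbove 2) * s ∈ D) :
    KP j T (upk g 0 E) F s A = KP j T (upk g 0 (mE j D E)) F s A := by
  unfold KP
  refine Per_mul_congr j T _ _ _ s _ _ ?_
  intro z0 h0 z1 h1 z2 h2 hc
  have hA : A = cf j 0 * z0 + cf j 1 * z1 + cf j 2 * z2 + sl j * s := by rw [hc]; ring
  unfold cf at hA
  have ey : (sl j - sl (j.succAbove 2)) * (s - z0 - z1 - z2) +
      (sl (j.succAbove 0) - sl (j.succAbove 2)) * z0 +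
      (sl (j.succAbove 1) - sl (j.succAbove 2)) * z1 = A - sl (j.succAbove 2) * s := by
    rw [hA]; ring
  rw [PhiW_zero, PhiW_zero]
  have hm : mE j D E (s - z0 - z1 - z2) z0 z1 = E (s - z0 - z1 - z2) z0 z1 := by
    unfold mE
    rw [ey, if_pos hy]
  rw [hm]

/-- masked box sums -/
theorem box_mask (j : Fin 4) (T : Fin 3 → Finset ℤ) (g : Fin 3 → ℤ → ℤ → ℂ) (F : Fin 4 → ℤ → ℂ)
    (E : ℤ → ℤ → ℤ → ℂ) {R : Finset (ℕ × ℤ)} {J : ℕ × ℤ} (hR : IsRegion R J) (bb : ℤ)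
    (hbb : bb = -1 ∨ bb = -7) :
    ∑ p ∈ R, ∑ x ∈ adm p.1 p.2, ‖LboxG (2 ^ p.1) bb (KP j T (upk g 0 E) F) x‖ =
      ∑ p ∈ R, ∑ x ∈ adm p.1 p.2,
        ‖LboxG (2 ^ p.1) bb (KP j T (upk g 0 (mE j (dI (J.1 + 7) J.2) E)) F) x‖ := by
  refine Finset.sum_congr rfl fun p hp => Finset.sum_congr rfl fun x hx => ?_
  have h : LboxG (2 ^ p.1) bb (KP j T (upk g 0 E) F) x =
      LboxG (2 ^ p.1) bb (KP j T (upk g 0 (mE j (dI (J.1 + 7) J.2) E)) F) x := by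
    refine LboxG_congr _ bb _ _ x fun u => ?_
    refine KP_mask j T g F E _ _ _ ?_
    rw [← yv_eq]
    exact hR.1 p hp (yv_mem p.1 p.2 bb x hbb hx u _)
  rw [h]

/-! ### budgets of the three edges -/

lemma sub_sl_ne {i k : Fin 4} (h : i ≠ k) : sl i - sl k ≠ 0 :=
  sub_ne_zero.2 fun hh => h (Qa246.sl_inj hh)

lemma e12 : ((1 : Fin 3) + 2) = 0 := rfl
lemma e11 : ((1 : Fin 3) + 1) = 2 := rfl
lemma e22 : ((2 : Fin 3) + 2) = 1 := rfl
lemma e21 : ((2 : Fin 3) + 1) = 0 := rfl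
lemma e02 : ((0 : Fin 3) + 2) = 2 := rfl
lemma e01 : ((0 : Fin 3) + 1) = 1 := rfl

section edges

variable {R : Finset (ℕ × ℤ)} {κ : ℕ} {V A : ℝ} {j : Fin 4} {T : Fin 3 → Finset ℤ}
  {g : Fin 3 → ℤ → ℤ → ℂ} {E : ℤ → ℤ → ℤ → ℂ} {F : Fin 4 → ℤ → ℂ}

/-- edge `1`: letter of the slot `j.succAbove 0` -/
theorem W2_one (hA : 0 ≤ A) (h1 : ∑ z ∈ T 1, ∑ z' ∈ T 2, ‖g 1 z z'‖ ^ 2 ≤ V)
    (hF : ∀ p ∈ R, ∑ y ∈ dI (p.1 + 7) p.2, ‖F (j.succAbove 0) y‖ ^ 2 ≤ A * 2 ^ (p.1 + 7)) :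
    W2 R κ (V * A) j T (upk g 0 E) F 1 := by
  unfold W2
  rw [e12, e11]
  have hk : upk g 0 E 1 = fun _ => g 1 := by funext w; unfold upk; rw [if_neg (by decide)]
  rw [hk]
  exact s2w_sum (sub_sl_ne (Fin.succAbove_ne j 0).symm) (g 1) hA h1 hF

theorem W2_two (hA : 0 ≤ A) (h2 : ∑ z ∈ T 2, ∑ z' ∈ T 0, ‖g 2 z z'‖ ^ 2 ≤ V)
    (hF : ∀ p ∈ R, ∑ y ∈ dI (p.1 + 7) p.2, ‖F (j.succAbove 1) y‖ ^ 2 ≤ A * 2 ^ (p.1 + 7)) :
    W2 R κ (V * A) j T (upk g 0 E) F 2 := by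
  unfold W2
  rw [e22, e21]
  have hk : upk g 0 E 2 = fun _ => g 2 := by funext w; unfold upk; rw [if_neg (by decide)]
  rw [hk]
  exact s2w_sum (sub_sl_ne (Fin.succAbove_ne j 1).symm) (g 2) hA h2 hF

theorem W4_one (hA : 0 ≤ A) (hg : ∀ z z', ‖g 1 z z'‖ ≤ 1)
    (h2 : W2 R κ V j T (upk g 0 E) F 1)
    (hF : ∀ p ∈ R, ∑ y ∈ dI (p.1 + 7) p.2, ‖F (j.succAbove 0) y‖ ^ 2 ≤ A * 2 ^ (p.1 + 7)) :
    W4 R κ V (128 * A) j T (upk g 0 E) F 1 := by
  unfold W2 at h2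
  unfold W4
  rw [e12, e11] at h2 ⊢
  have hk : upk g 0 E 1 = fun _ => g 1 := by funext w; unfold upk; rw [if_neg (by decide)]
  rw [hk] at h2 ⊢
  refine s4w_line (sub_sl_ne ?_) (fun _ => hg) hA hF h2
  exact fun h => absurd (Fin.succAbove_right_injective h) (by decide)

theorem W4_two (hA : 0 ≤ A) (hg : ∀ z z', ‖g 2 z z'‖ ≤ 1)
    (h2 : W2 R κ V j T (upk g 0 E) F 2)
    (hF : ∀ p ∈ R, ∑ y ∈ dI (p.1 + 7) p.2, ‖F (j.succAbove 1) y‖ ^ 2 ≤ A * 2 ^ (p.1 + 7)) :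
    W4 R κ V (128 * A) j T (upk g 0 E) F 2 := by
  unfold W2 at h2
  unfold W4
  rw [e22, e21] at h2 ⊢
  have hk : upk g 0 E 2 = fun _ => g 2 := by funext w; unfold upk; rw [if_neg (by decide)]
  rw [hk] at h2 ⊢
  refine s4w_line (sub_sl_ne ?_) (fun _ => hg) hA hF h2
  exact fun h => absurd (Fin.succAbove_right_injective h) (by decide)

/-- height of a line edge -/
theorem WH_one {H : ℝ} (hH : 0 ≤ H) (hg : ∀ z z', ‖g 1 z z'‖ ≤ 1)
    (hF : ∀ y, ‖F (j.succAbove 0) y‖ ≤ H) : WH H j T (upk g 0 E) F 1 := by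
  intro w z z'
  unfold kW cK
  split_ifs
  · have hk : upk g 0 E 1 w = g 1 := by unfold upk; rw [if_neg (by decide)]
    rw [hk, norm_mul]
    calc _ ≤ 1 * H := mul_le_mul (hg _ _) (by rw [e12]; exact hF _) (norm_nonneg _) zero_le_one
      _ = H := one_mul _
  · rw [norm_zero]; exact hH

theorem kW_zero (w z z' : ℤ) : kW j T (upk g 0 E) (upF F (j.succAbove 2)) 0 w z z' =
    if z ∈ T 0 ∧ z' ∈ T 1 then E w z z' else 0 := by
  unfold kW cK
  rw [e02, e01]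
  have hk : upk g 0 E 0 w = E w := by unfold upk; rw [if_pos rfl]
  rw [hk]
  unfold upF
  rw [if_pos rfl, mul_one]

/-- the masked error edge -/
theorem W2_zero {D : Finset ℤ} (hD : ∀ p ∈ R, dI (p.1 + 7) p.2 ⊆ D)
    (h : EW49.S2W R κ V (sl j - sl (j.succAbove 2)) (sl (j.succAbove 0) - sl (j.succAbove 2))
      (sl (j.succAbove 1) - sl (j.succAbove 2)) (T 0) (T 1) E (fun _ => 1)) :
    W2 R κ V j T (upk g 0 (mE j D E)) (upF F (j.succAbove 2)) 0 := by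
  unfold W2
  rw [e02, e01]
  have hk : upk g 0 (mE j D E) 0 = mE j D E := by funext w; unfold upk; rw [if_pos rfl]
  have hF : upF F (j.succAbove 2) (j.succAbove 2) = fun _ => 1 := by unfold upF; rw [if_pos rfl]
  rw [hk, hF]
  intro p hp k hk' S
  refine le_trans (le_of_eq ?_) (h p hp k hk' S)
  refine Finset.sum_congr rfl fun t _ => ?_
  congr 1
  funext z z'
  unfold cK mE res
  by_cases hT : z ∈ T 0 ∧ z' ∈ T 1
  · rw [if_pos hT, if_pos hT]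
    by_cases hy : (sl j - sl (j.succAbove 2)) * t.1 + (sl (j.succAbove 0) - sl (j.succAbove 2)) * z +
        (sl (j.succAbove 1) - sl (j.succAbove 2)) * z' ∈ dI (p.1 + 7) p.2
    · rw [if_pos hy, if_pos (hD p hp hy)]
    · rw [if_neg hy, mul_zero, mul_zero]
  · rw [if_neg hT, if_neg hT]

theorem W4_zero {σ : ℝ} {D : Finset ℤ} (hD : ∀ p ∈ R, dI (p.1 + 7) p.2 ⊆ D)
    (h : EW49.S4W R κ V σ (sl j - sl (j.succAbove 2)) (sl (j.succAbove 0) - sl (j.succAbove 2))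
      (sl (j.succAbove 1) - sl (j.succAbove 2)) (T 0) (T 1) E (fun _ => 1)) :
    W4 R κ V σ j T (upk g 0 (mE j D E)) (upF F (j.succAbove 2)) 0 := by
  unfold W4
  rw [e02, e01]
  have hk : upk g 0 (mE j D E) 0 = mE j D E := by funext w; unfold upk; rw [if_pos rfl]
  have hF : upF F (j.succAbove 2) (j.succAbove 2) = fun _ => 1 := by unfold upF; rw [if_pos rfl]
  rw [hk, hF]
  intro p hp k hk' S
  refine le_trans (le_of_eq ?_) (h p hp k hk' S)
  refine Finset.sum_congr rfl fun t _ => ?_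
  congr 1
  funext z z'
  unfold cK mE res
  by_cases hT : z ∈ T 0 ∧ z' ∈ T 1
  · rw [if_pos hT, if_pos hT]
    by_cases hy : (sl j - sl (j.succAbove 2)) * t.1 + (sl (j.succAbove 0) - sl (j.succAbove 2)) * z +
        (sl (j.succAbove 1) - sl (j.succAbove 2)) * z' ∈ dI (p.1 + 7) p.2
    · rw [if_pos hy, if_pos (hD p hp hy)]
    · rw [if_neg hy, mul_zero, mul_zero]
  · rw [if_neg hT, if_neg hT]

theorem WH_zero {D : Finset ℤ} {H : ℝ} (hH : 0 ≤ H)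
    (hE : ∀ w, ∀ z ∈ T 0, ∀ z' ∈ T 1, (sl j - sl (j.succAbove 2)) * w +
      (sl (j.succAbove 0) - sl (j.succAbove 2)) * z +
      (sl (j.succAbove 1) - sl (j.succAbove 2)) * z' ∈ D → ‖E w z z'‖ ≤ H) :
    WH H j T (upk g 0 (mE j D E)) (upF F (j.succAbove 2)) 0 := by
  intro w z z'
  rw [kW_zero]
  unfold mE
  split_ifs with h1 h2
  · exact hE w z h1.1 z' h1.2 h2
  · rw [norm_zero]; exact hH
  · rw [norm_zero]; exact hH

lemma upF_ne {m k : Fin 4} (h : k ≠ m) : upF F m k = F k := by unfold upF; rw [if_neg h]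

end edges

lemma fin3_cases (P : Fin 3 → Prop) (h1 : P 1) (h2 : P 2) : ∀ x : Fin 3, x ≠ 0 → P x := by
  intro x hx
  fin_cases x
  · exact absurd rfl hx
  · exact h1
  · exact h2

lemma sA02 (j : Fin 4) : j.succAbove 0 ≠ j.succAbove 2 :=
  fun h => absurd (Fin.succAbove_right_injective h) (by decide)

lemma sA12 (j : Fin 4) : j.succAbove 1 ≠ j.succAbove 2 :=
  fun h => absurd (Fin.succAbove_right_injective h) (by decide)

lemma sA01 (j : Fin 4) : j.succAbove 0 ≠ j.succAbove 1 :=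
  fun h => absurd (Fin.succAbove_right_injective h) (by decide)

/-- **WORD `E`** (`S₂`-small) -/
theorem wordE : ∃ K : ℝ, 0 ≤ K ∧ ∀ (bb : ℤ), bb = -1 ∨ bb = -7 →
    ∀ (R : Finset (ℕ × ℤ)) (J : ℕ × ℤ), IsRegion R J → ∀ (j : Fin 4) (T : Fin 3 → Finset ℤ)
      (g : Fin 3 → ℤ → ℤ → ℂ) (F : Fin 4 → ℤ → ℂ) (E : ℤ → ℤ → ℤ → ℂ) (V d H : ℝ),
      0 ≤ V → 0 < d → d ≤ H → (∀ z z', ‖g 1 z z'‖ ≤ 1) → (∀ z z', ‖g 2 z z'‖ ≤ 1) →
      ∑ z ∈ T 1, ∑ z' ∈ T 2, ‖g 1 z z'‖ ^ 2 ≤ V → ∑ z ∈ T 2, ∑ z' ∈ T 0, ‖g 2 z z'‖ ^ 2 ≤ V →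
      (∀ p ∈ R, ∑ y ∈ dI (p.1 + 7) p.2, ‖F (j.succAbove 0) y‖ ^ 2 ≤ 2 ^ (p.1 + 7)) →
      (∀ p ∈ R, ∑ y ∈ dI (p.1 + 7) p.2, ‖F (j.succAbove 1) y‖ ^ 2 ≤ 2 ^ (p.1 + 7)) →
      (∀ κ, EW49.S2W R κ (d ^ 2 * V) (sl j - sl (j.succAbove 2))
        (sl (j.succAbove 0) - sl (j.succAbove 2)) (sl (j.succAbove 1) - sl (j.succAbove 2))
        (T 0) (T 1) E (fun _ => 1)) →
      (∀ w, ∀ z ∈ T 0, ∀ z' ∈ T 1, (sl j - sl (j.succAbove 2)) * w +
        (sl (j.succAbove 0) - sl (j.succAbove 2)) * z +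
        (sl (j.succAbove 1) - sl (j.succAbove 2)) * z' ∈ dI (J.1 + 7) J.2 → ‖E w z z'‖ ≤ H) →
      ∑ p ∈ R, ∑ x ∈ adm p.1 p.2,
        ‖LboxG (2 ^ p.1) bb (KP j T (upk g 0 E) (upF F (j.succAbove 2))) x‖ ≤
          K * (d * (1 + Real.log (H / d)) * 2 ^ (J.1 + 7) * V) := by
  obtain ⟨K, hK, κ, h⟩ := word_two
  refine ⟨K * Real.sqrt 128, by positivity, ?_⟩
  intro bb hbb R J hR j T g F E V d H hV hd hdH hg1 hg2 hs1 hs2 hFa hFb hE hEh
  rw [box_mask j T g _ E hR bb hbb]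
  obtain ⟨PP, hPP⟩ := sum_word_le R J hR j T (upk g 0 (mE j (dI (J.1 + 7) J.2) E))
    (upF F (j.succAbove 2)) bb hbb
  have hFa' : ∀ p ∈ R, ∑ y ∈ dI (p.1 + 7) p.2, ‖upF F (j.succAbove 2) (j.succAbove 0) y‖ ^ 2 ≤
      1 * 2 ^ (p.1 + 7) := by
    intro p hp
    rw [upF_ne (sA02 j), one_mul]; exact hFa p hp
  have hFb' : ∀ p ∈ R, ∑ y ∈ dI (p.1 + 7) p.2, ‖upF F (j.succAbove 2) (j.succAbove 1) y‖ ^ 2 ≤
      1 * 2 ^ (p.1 + 7) := by
    intro p hp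
    rw [upF_ne (sA12 j), one_mul]; exact hFb p hp
  have w1 : W2 R κ V j T (upk g 0 (mE j (dI (J.1 + 7) J.2) E)) (upF F (j.succAbove 2)) 1 := by
    have := W2_one (κ := κ) (E := mE j (dI (J.1 + 7) J.2) E) zero_le_one hs1 hFa'
    rwa [mul_one] at this
  have w2 : W2 R κ V j T (upk g 0 (mE j (dI (J.1 + 7) J.2) E)) (upF F (j.succAbove 2)) 2 := by
    have := W2_two (κ := κ) (E := mE j (dI (J.1 + 7) J.2) E) zero_le_one hs2 hFb'
    rwa [mul_one] at this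
  have v1 := W4_one zero_le_one hg1 w1 hFa'
  have v2 := W4_two zero_le_one hg2 w2 hFb'
  rw [mul_one] at v1 v2
  have main := h bb hbb R J hR j 0 d H 128 hd hdH (by norm_num) V hV T
    (upk g 0 (mE j (dI (J.1 + 7) J.2) E)) (upF F (j.succAbove 2))
    (fin3_cases _ w1 w2) (fin3_cases _ v1 v2) (W2_zero (fun p hp => hR.1 p hp) (hE κ))
    (WH_zero (hd.le.trans hdH) hEh) PP
  refine hPP.trans (main.trans (le_of_eq ?_))
  ring

/-- tall part of a letter -/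
noncomputable def tl (h : ℝ) (F : ℤ → ℂ) (y : ℤ) : ℂ := if ‖F y‖ ≤ h then 0 else F y

/-- low part of a letter -/
noncomputable def lw (h : ℝ) (F : ℤ → ℂ) (y : ℤ) : ℂ := if ‖F y‖ ≤ h then F y else 0

lemma lw_add_tl (h : ℝ) (F : ℤ → ℂ) (y : ℤ) : F y = lw h F y + tl h F y := by
  unfold lw tl; split_ifs <;> simp

lemma norm_lw_le {h : ℝ} (hh : 0 ≤ h) (F : ℤ → ℂ) (y : ℤ) : ‖lw h F y‖ ≤ h := by
  unfold lw; split_ifs with h1
  · exact h1
  · simpa using hh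

lemma norm_lw_le' (h : ℝ) (F : ℤ → ℂ) (y : ℤ) : ‖lw h F y‖ ≤ ‖F y‖ := by
  unfold lw; split_ifs with h1
  · exact le_rfl
  · simp

/-- the kernel of the word is additive in the letter of the slot `m = j.succAbove 0` -/
theorem KP_update (j : Fin 4) (T : Fin 3 → Finset ℤ) (k : Fin 3 → ℤ → ℤ → ℤ → ℂ)
    (F : Fin 4 → ℤ → ℂ) (f f' : ℤ → ℂ) (η : ℂ) (hF : ∀ y, F (j.succAbove 0) y = f y + η * f' y)
    (s A : ℤ) :
    KP j T k F s A = KP j T k (Function.update F (j.succAbove 0) f) s A +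
      η * KP j T k (Function.update F (j.succAbove 0) f') s A := by
  unfold KP
  simp only [Fin.prod_univ_three, Function.update_self,
    Function.update_of_ne (sA01 j).symm, Function.update_of_ne (sA02 j).symm]
  rw [hF]
  ring

lemma LboxG_smul (N : ℕ) (bb : ℤ) (η : ℂ) (Κ : ℤ → ℤ → ℂ) (x : ℤ) :
    LboxG N bb (fun T A => η * Κ T A) x = η * LboxG N bb Κ x := by
  unfold LboxG
  rw [mul_left_comm]
  congr 1
  rw [Finset.mul_sum]
  exact Finset.sum_congr rfl fun u _ => by ring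

/-- **WORD `X`** (`S₄`-small): the letter of the slot `j.succAbove 0` is cut at the height `h` -/
theorem wordX : ∃ K : ℝ, 0 ≤ K ∧ ∀ (bb : ℤ), bb = -1 ∨ bb = -7 →
    ∀ (R : Finset (ℕ × ℤ)) (J : ℕ × ℤ), IsRegion R J → ∀ (j : Fin 4) (T : Fin 3 → Finset ℤ)
      (g : Fin 3 → ℤ → ℤ → ℂ) (F : Fin 4 → ℤ → ℂ) (X : ℤ → ℤ → ℤ → ℂ) (V d H h η : ℝ),
      0 ≤ V → 0 < d → d ≤ 1 → 1 ≤ H → 1 ≤ h → 0 < η →
      (∀ z z', ‖g 1 z z'‖ ≤ 1) → (∀ z z', ‖g 2 z z'‖ ≤ 1) →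
      ∑ z ∈ T 1, ∑ z' ∈ T 2, ‖g 1 z z'‖ ^ 2 ≤ V → ∑ z ∈ T 2, ∑ z' ∈ T 0, ‖g 2 z z'‖ ^ 2 ≤ V →
      (∀ p ∈ R, ∑ y ∈ dI (p.1 + 7) p.2, ‖F (j.succAbove 0) y‖ ^ 2 ≤ 2 ^ (p.1 + 7)) →
      (∀ p ∈ R, ∑ y ∈ dI (p.1 + 7) p.2, ‖tl h (F (j.succAbove 0)) y‖ ^ 2 ≤
        η ^ 2 * 2 ^ (p.1 + 7)) →
      (∀ p ∈ R, ∑ y ∈ dI (p.1 + 7) p.2, ‖F (j.succAbove 1) y‖ ^ 2 ≤ 2 ^ (p.1 + 7)) →
      (∀ κ, EW49.S2W R κ V (sl j - sl (j.succAbove 2))
        (sl (j.succAbove 0) - sl (j.succAbove 2)) (sl (j.succAbove 1) - sl (j.succAbove 2))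
        (T 0) (T 1) X (fun _ => 1)) →
      (∀ κ, EW49.S4W R κ V (d ^ 4) (sl j - sl (j.succAbove 2))
        (sl (j.succAbove 0) - sl (j.succAbove 2)) (sl (j.succAbove 1) - sl (j.succAbove 2))
        (T 0) (T 1) X (fun _ => 1)) →
      (∀ w, ∀ z ∈ T 0, ∀ z' ∈ T 1, (sl j - sl (j.succAbove 2)) * w +
        (sl (j.succAbove 0) - sl (j.succAbove 2)) * z +
        (sl (j.succAbove 1) - sl (j.succAbove 2)) * z' ∈ dI (J.1 + 7) J.2 → ‖X w z z'‖ ≤ H) →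
      ∑ p ∈ R, ∑ x ∈ adm p.1 p.2,
        ‖LboxG (2 ^ p.1) bb (KP j T (upk g 0 X) (upF F (j.succAbove 2))) x‖ ≤
          K * ((d * (1 + Real.log (h / d ^ 2)) + η * (1 + Real.log H)) * 2 ^ (J.1 + 7) * V) := by
  obtain ⟨K, hK, κ, hw⟩ := word_two
  obtain ⟨K', hK', κ', hw'⟩ := word_four
  refine ⟨(K + K') * Real.sqrt 128, by positivity, ?_⟩
  intro bb hbb R J hR j T g F X V d H h η hV hd hd1 hH hh hη hg1 hg2 hs1 hs2 hFa hFt hFb hX2 hX4 hXh
  rw [box_mask j T g _ X hR bb hbb]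
  set k : Fin 3 → ℤ → ℤ → ℤ → ℂ := upk g 0 (mE j (dI (J.1 + 7) J.2) X) with hk
  set G : Fin 4 → ℤ → ℂ := upF F (j.succAbove 2) with hG
  set G1 : Fin 4 → ℤ → ℂ := Function.update G (j.succAbove 0) (lw h (F (j.succAbove 0))) with hG1
  set G2 : Fin 4 → ℤ → ℂ := Function.update G (j.succAbove 0)
    (fun y => ((η⁻¹ : ℝ) : ℂ) * tl h (F (j.succAbove 0)) y) with hG2
  have hη0 : ((η : ℝ) : ℂ) * ((η⁻¹ : ℝ) : ℂ) = 1 := by
    rw [← Complex.ofReal_mul, mul_inv_cancel₀ hη.ne', Complex.ofReal_one]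
  have hsplit : ∀ s A, KP j T k G s A = KP j T k G1 s A + (η : ℂ) * KP j T k G2 s A := by
    intro s A
    refine KP_update j T k G _ _ (η : ℂ) (fun y => ?_) s A
    rw [hG, upF_ne (sA02 j), ← mul_assoc, hη0, one_mul]
    exact lw_add_tl h _ y
  -- the letters of the two words as `upF`
  have hG1u : ∃ F1 : Fin 4 → ℤ → ℂ, G1 = upF F1 (j.succAbove 2) ∧
      F1 (j.succAbove 0) = lw h (F (j.succAbove 0)) ∧ F1 (j.succAbove 1) = F (j.succAbove 1) := by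
    refine ⟨Function.update F (j.succAbove 0) (lw h (F (j.succAbove 0))), ?_, ?_, ?_⟩
    · funext m y
      rw [hG1, hG]
      unfold upF
      by_cases h1 : m = j.succAbove 2
      · subst h1
        rw [if_pos rfl, Function.update_of_ne (sA02 j).symm, if_pos rfl]
      · rw [if_neg h1]
        by_cases h2 : m = j.succAbove 0
        · subst h2
          rw [Function.update_self, Function.update_self]
        · rw [Function.update_of_ne h2, Function.update_of_ne h2, if_neg h1]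
    · rw [Function.update_self]
    · rw [Function.update_of_ne (sA01 j).symm]
  have hG2u : ∃ F2 : Fin 4 → ℤ → ℂ, G2 = upF F2 (j.succAbove 2) ∧
      F2 (j.succAbove 0) = (fun y => ((η⁻¹ : ℝ) : ℂ) * tl h (F (j.succAbove 0)) y) ∧
      F2 (j.succAbove 1) = F (j.succAbove 1) := by
    refine ⟨Function.update F (j.succAbove 0)
      (fun y => ((η⁻¹ : ℝ) : ℂ) * tl h (F (j.succAbove 0)) y), ?_, ?_, ?_⟩
    · funext m y
      rw [hG2, hG]
      unfold upF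
      by_cases h1 : m = j.succAbove 2
      · subst h1
        rw [if_pos rfl, Function.update_of_ne (sA02 j).symm, if_pos rfl]
      · rw [if_neg h1]
        by_cases h2 : m = j.succAbove 0
        · subst h2
          rw [Function.update_self, Function.update_self]
        · rw [Function.update_of_ne h2, Function.update_of_ne h2, if_neg h1]
    · rw [Function.update_self]
    · rw [Function.update_of_ne (sA01 j).symm]
  obtain ⟨F1, hF1, hF10, hF11⟩ := hG1u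
  obtain ⟨F2, hF2, hF20, hF21⟩ := hG2u
  -- word 1
  have hb1 : ∑ p ∈ R, ∑ x ∈ adm p.1 p.2, ‖LboxG (2 ^ p.1) bb (KP j T k G1) x‖ ≤
      K' * (d * Real.sqrt 128 * (1 + Real.log (h / d ^ 2)) * 2 ^ (J.1 + 7) * V) := by
    obtain ⟨PP, hPP⟩ := sum_word_le R J hR j T k G1 bb hbb
    have hFa' : ∀ p ∈ R, ∑ y ∈ dI (p.1 + 7) p.2, ‖G1 (j.succAbove 0) y‖ ^ 2 ≤
        1 * 2 ^ (p.1 + 7) := by
      intro p hp
      rw [hG1, Function.update_self, one_mul]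
      exact (Finset.sum_le_sum fun y _ => pow_le_pow_left₀ (norm_nonneg _)
        (norm_lw_le' h _ y) 2).trans (hFa p hp)
    have hFb' : ∀ p ∈ R, ∑ y ∈ dI (p.1 + 7) p.2, ‖G1 (j.succAbove 1) y‖ ^ 2 ≤
        1 * 2 ^ (p.1 + 7) := by
      intro p hp
      rw [hF1, upF_ne (sA12 j), hF11, one_mul]; exact hFb p hp
    have w1 : W2 R κ' V j T k G1 1 := by
      have := W2_one (κ := κ') (E := mE j (dI (J.1 + 7) J.2) X) zero_le_one hs1 hFa'
      rwa [mul_one] at this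
    have w2 : W2 R κ' V j T k G1 2 := by
      have := W2_two (κ := κ') (E := mE j (dI (J.1 + 7) J.2) X) zero_le_one hs2 hFb'
      rwa [mul_one] at this
    have v2 := W4_two zero_le_one hg2 w2 hFb'
    rw [mul_one] at v2
    have w0 : W2 R κ' V j T k G1 0 := by
      rw [hF1]; exact W2_zero (fun p hp => hR.1 p hp) (hX2 κ')
    have v0 : W4 R κ' V (d ^ 4) j T k G1 0 := by
      rw [hF1]; exact W4_zero (fun p hp => hR.1 p hp) (hX4 κ')
    have wh : WH h j T k G1 1 := WH_one (by linarith) hg1 (fun y => by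
      rw [hG1, Function.update_self]; exact norm_lw_le (by linarith) _ y)
    refine hPP.trans (hw' bb hbb R J hR j 0 1 (by decide) d h 128 hd hd1 hh (by norm_num) V hV T k G1
      (fun x => ?_) (fun x hx0 hx1 => ?_) v0 wh PP)
    · fin_cases x
      · exact w0
      · exact w1
      · exact w2
    · fin_cases x
      · exact absurd rfl hx0
      · exact absurd rfl hx1
      · exact v2
  -- word 2
  have hb2 : ∑ p ∈ R, ∑ x ∈ adm p.1 p.2, ‖LboxG (2 ^ p.1) bb (KP j T k G2) x‖ ≤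
      K * (1 * Real.sqrt 128 * (1 + Real.log (H / 1)) * 2 ^ (J.1 + 7) * V) := by
    obtain ⟨PP, hPP⟩ := sum_word_le R J hR j T k G2 bb hbb
    have hFa' : ∀ p ∈ R, ∑ y ∈ dI (p.1 + 7) p.2, ‖G2 (j.succAbove 0) y‖ ^ 2 ≤
        1 * 2 ^ (p.1 + 7) := by
      intro p hp
      rw [hG2, Function.update_self, one_mul]
      simp only [norm_mul, mul_pow, Complex.norm_real]
      rw [← Finset.mul_sum, Real.norm_of_nonneg (by positivity)]
      calc η⁻¹ ^ 2 * _ ≤ η⁻¹ ^ 2 * (η ^ 2 * 2 ^ (p.1 + 7)) :=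
            mul_le_mul_of_nonneg_left (hFt p hp) (by positivity)
        _ = (η⁻¹ * η) ^ 2 * 2 ^ (p.1 + 7) := by ring
        _ = 2 ^ (p.1 + 7) := by rw [inv_mul_cancel₀ hη.ne', one_pow, one_mul]
    have hFb' : ∀ p ∈ R, ∑ y ∈ dI (p.1 + 7) p.2, ‖G2 (j.succAbove 1) y‖ ^ 2 ≤
        1 * 2 ^ (p.1 + 7) := by
      intro p hp
      rw [hF2, upF_ne (sA12 j), hF21, one_mul]; exact hFb p hp
    have w1 : W2 R κ V j T k G2 1 := by
      have := W2_one (κ := κ) (E := mE j (dI (J.1 + 7) J.2) X) zero_le_one hs1 hFa'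
      rwa [mul_one] at this
    have w2 : W2 R κ V j T k G2 2 := by
      have := W2_two (κ := κ) (E := mE j (dI (J.1 + 7) J.2) X) zero_le_one hs2 hFb'
      rwa [mul_one] at this
    have v1 := W4_one zero_le_one hg1 w1 hFa'
    have v2 := W4_two zero_le_one hg2 w2 hFb'
    rw [mul_one] at v1 v2
    have w0 : W2 R κ ((1 : ℝ) ^ 2 * V) j T k G2 0 := by
      rw [one_pow, one_mul, hF2]; exact W2_zero (fun p hp => hR.1 p hp) (hX2 κ)
    have wh : WH H j T k G2 0 := by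
      rw [hF2]; exact WH_zero (by linarith) hXh
    exact hPP.trans (hw bb hbb R J hR j 0 1 H 128 one_pos hH (by norm_num) V hV T k G2
      (fin3_cases _ w1 w2) (fin3_cases _ v1 v2) w0 wh PP)
  -- sum
  have hpt : ∀ p ∈ R, ∀ x ∈ adm p.1 p.2, ‖LboxG (2 ^ p.1) bb (KP j T k G) x‖ ≤
      ‖LboxG (2 ^ p.1) bb (KP j T k G1) x‖ + η * ‖LboxG (2 ^ p.1) bb (KP j T k G2) x‖ := by
    intro p _ x _
    have e1 : LboxG (2 ^ p.1) bb (KP j T k G) x = LboxG (2 ^ p.1) bb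
        (fun s A => KP j T k G1 s A + (η : ℂ) * KP j T k G2 s A) x :=
      LboxG_congr _ bb _ _ x fun u => hsplit _ _
    rw [e1, LboxG_add (2 ^ p.1) bb (KP j T k G1) (fun s A => (η : ℂ) * KP j T k G2 s A) x,
      LboxG_smul]
    refine (norm_add_le _ _).trans (le_of_eq ?_)
    rw [norm_mul, Complex.norm_real, Real.norm_of_nonneg hη.le]
  refine (Finset.sum_le_sum fun p hp => Finset.sum_le_sum fun x hx => hpt p hp x hx).trans ?_
  simp only [Finset.sum_add_distrib, ← Finset.mul_sum]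
  have h3 := add_le_add hb1 (mul_le_mul_of_nonneg_left hb2 hη.le)
  refine h3.trans ?_
  rw [div_one]
  have l1 : 0 ≤ Real.log (h / d ^ 2) := by
    refine Real.log_nonneg ?_
    rw [le_div_iff₀ (by positivity)]
    have : d ^ 2 ≤ 1 := pow_le_one₀ hd.le hd1
    linarith
  have l2 : 0 ≤ Real.log H := Real.log_nonneg hH
  have p1 : 0 ≤ d * (1 + Real.log (h / d ^ 2)) * (Real.sqrt 128 * (2 ^ (J.1 + 7) * V)) := by positivity
  have p2 : 0 ≤ η * (1 + Real.log H) * (Real.sqrt 128 * (2 ^ (J.1 + 7) * V)) := by positivity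
  have q1 := mul_nonneg hK p1
  have q2 := mul_nonneg hK' p2
  nlinarith [q1, q2]

end Crest.Agent.R079.EW5702
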