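import Crest.Agent.R079.GlueK_914
import Crest.Agent.R079.EW3_990
import Crest.Agent.R079.Cg_408

-- ▼ part R079/LK_990
section

/-! R079, Step II, SPLIT BEFORE REDUCING (helper990): the glue (4D -> 3D) for kernels `Φ w z0 z1 z2`
which depend on the frozen variable `w` of slot `j`.

`LK` = right side of the glue identity (additive in `Φ`), `Per` = periodised kernel (function of the
shadow `y_j` and of the sum `s` of the four coordinates), `Lgen` = 4D box form with a general kernel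
`G y_j s` in slot `j`. -/

set_option autoImplicit false
set_option linter.unusedVariables false

namespace Crest.Agent.R079.LK990

open Finset Crest.Agent.R079.Grid Crest.Agent.R079.Pot Crest.Agent.R079.Glue Crest.Agent.R079.GlueK

open Classical in
/-- kernel (depending on `w`) times the three line functions at `(z0, z1, z2)` -/
noncomputable def pW (j : Fin 4) (T : Fin 3 → Finset ℤ) (Φ : ℤ → ℤ → ℤ → ℤ → ℂ)
    (F : Fin 4 → ℤ → ℂ) (w z0 z1 z2 : ℤ) : ℂ :=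
  if z0 ∈ T 0 ∧ z1 ∈ T 1 ∧ z2 ∈ T 2 then
    Φ w z0 z1 z2 * (lA j F w z0 z1 * lB j F w z1 z2 * lC j F w z2 z0) else 0

/-- right side of the glue identity for a `w`-dependent kernel -/
noncomputable def LK (j : Fin 4) (N : ℕ) (bb : ℤ) (T : Fin 3 → Finset ℤ)
    (Φ : ℤ → ℤ → ℤ → ℤ → ℂ) (F : Fin 4 → ℤ → ℂ) (P : Finset (ℤ × ℤ × ℤ)) (x : ℤ) : ℂ :=
  ∑ p ∈ P,
    if cf j 0 * p.1 + cf j 1 * p.2.1 + cf j 2 * p.2.2 = x - sl j * (bb * N) then
      (1 / ((N : ℂ) + N)) * ∑ v : Fin (N + N), (hsg N v : ℂ) *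
        L3 (pW j T Φ F (((v : ℕ) : ℤ) + bb * N - p.1 - p.2.1 - p.2.2)) N p.1 p.2.1 p.2.2
    else 0

/-- periodised kernel: `y` = shadow of slot `j`, `s` = sum of the four coordinates -/
noncomputable def Per (j : Fin 4) (T : Fin 3 → Finset ℤ) (Φ : ℤ → ℤ → ℤ → ℤ → ℂ) (y s : ℤ) : ℂ :=
  ∑ z0 ∈ T 0, ∑ z1 ∈ T 1, ∑ z2 ∈ T 2,
    if cf j 0 * z0 + cf j 1 * z1 + cf j 2 * z2 = y then Φ (s - z0 - z1 - z2) z0 z1 z2 else 0

/-- 4D box form with the general kernel `G y_j s` in slot `j` -/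
noncomputable def Lgen (j : Fin 4) (N : ℕ) (bb : ℤ) (G : ℤ → ℤ → ℂ) (F : Fin 4 → ℤ → ℂ) (x : ℤ) : ℂ :=
  (1 / ((N : ℂ) + N) ^ 4) * ∑ u : Fin 4 → Fin (N + N), ((∏ i, hsg N (u i) : ℝ) : ℂ) *
    (G (yv N bb x u j) (bb * N + ∑ i, ((u i : ℕ) : ℤ)) *
      ∏ k : Fin 3, F (j.succAbove k) (yv N bb x u (j.succAbove k)))


lemma pW_add (j : Fin 4) (T : Fin 3 → Finset ℤ) (Φ Φ' : ℤ → ℤ → ℤ → ℤ → ℂ)
    (F : Fin 4 → ℤ → ℂ) (w z0 z1 z2 : ℤ) :
    pW j T (fun w z0 z1 z2 => Φ w z0 z1 z2 + Φ' w z0 z1 z2) F w z0 z1 z2 =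
      pW j T Φ F w z0 z1 z2 + pW j T Φ' F w z0 z1 z2 := by
  unfold pW
  split_ifs
  · ring
  · simp

lemma L3_add (G G' : ℤ → ℤ → ℤ → ℂ) (N : ℕ) (p0 p1 p2 : ℤ) :
    L3 (fun z0 z1 z2 => G z0 z1 z2 + G' z0 z1 z2) N p0 p1 p2 =
      L3 G N p0 p1 p2 + L3 G' N p0 p1 p2 := by
  unfold L3
  rw [← mul_add]
  congr 1
  simp only [mul_add, Finset.sum_add_distrib]

/-- **(A)** additivity -/
theorem LK_add (j : Fin 4) (N : ℕ) (bb : ℤ) (T : Fin 3 → Finset ℤ)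
    (Φ Φ' : ℤ → ℤ → ℤ → ℤ → ℂ) (F : Fin 4 → ℤ → ℂ) (P : Finset (ℤ × ℤ × ℤ)) (x : ℤ) :
    LK j N bb T (fun w z0 z1 z2 => Φ w z0 z1 z2 + Φ' w z0 z1 z2) F P x =
      LK j N bb T Φ F P x + LK j N bb T Φ' F P x := by
  unfold LK
  rw [← Finset.sum_add_distrib]
  refine Finset.sum_congr rfl fun p _ => ?_
  split_ifs
  · have e : ∀ w, pW j T (fun w z0 z1 z2 => Φ w z0 z1 z2 + Φ' w z0 z1 z2) F w =
        fun z0 z1 z2 => pW j T Φ F w z0 z1 z2 + pW j T Φ' F w z0 z1 z2 := by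
      intro w
      funext z0 z1 z2
      exact pW_add j T Φ Φ' F w z0 z1 z2
    simp only [e, L3_add, mul_add, Finset.sum_add_distrib]
  · simp

/-- **(B)** sum over the base points -/
theorem sum_norm_LK_le (j : Fin 4) (N : ℕ) (bb : ℤ) (T : Fin 3 → Finset ℤ)
    (Φ : ℤ → ℤ → ℤ → ℤ → ℂ) (F : Fin 4 → ℤ → ℂ) (P : Finset (ℤ × ℤ × ℤ)) (S : Finset ℤ) :
    ∑ x ∈ S, ‖LK j N bb T Φ F P x‖ ≤ ∑ p ∈ P, (1 / ((N : ℝ) + N)) * ∑ v : Fin (N + N),
      ‖L3 (pW j T Φ F (((v : ℕ) : ℤ) + bb * N - p.1 - p.2.1 - p.2.2)) N p.1 p.2.1 p.2.2‖ := by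
  classical
  set G : ℤ × ℤ × ℤ → ℝ := fun p => (1 / ((N : ℝ) + N)) * ∑ v : Fin (N + N),
      ‖L3 (pW j T Φ F (((v : ℕ) : ℤ) + bb * N - p.1 - p.2.1 - p.2.2)) N p.1 p.2.1 p.2.2‖ with hG
  have hG0 : ∀ p, 0 ≤ G p := fun p => by
    simp only [hG]
    positivity
  have h1 : ∀ x ∈ S, ‖LK j N bb T Φ F P x‖ ≤ ∑ p ∈ P,
      if cf j 0 * p.1 + cf j 1 * p.2.1 + cf j 2 * p.2.2 = x - sl j * (bb * N) then G p else 0 := by
    intro x _
    unfold LK
    refine (norm_sum_le _ _).trans (Finset.sum_le_sum fun p _ => ?_)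
    split_ifs
    · simp only [hG]
      rw [norm_mul]
      have e : ‖(1 / ((N : ℂ) + N))‖ = 1 / ((N : ℝ) + N) := by
        have : ((N : ℂ) + N) = (((N : ℝ) + N : ℝ) : ℂ) := by push_cast; rfl
        rw [this, norm_div, norm_one, Complex.norm_real, Real.norm_of_nonneg (by positivity)]
      rw [e]
      refine mul_le_mul_of_nonneg_left ?_ (by positivity)
      refine (norm_sum_le _ _).trans (Finset.sum_le_sum fun v _ => ?_)
      rw [norm_mul, Complex.norm_real]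
      have : ‖hsg N v‖ = 1 := by
        unfold hsg
        split_ifs <;> simp
      rw [this, one_mul]
    · simp
  refine (Finset.sum_le_sum h1).trans ?_
  rw [Finset.sum_comm]
  refine Finset.sum_le_sum fun p _ => ?_
  have h2 : ∑ x ∈ S, (if cf j 0 * p.1 + cf j 1 * p.2.1 + cf j 2 * p.2.2 = x - sl j * (bb * N)
      then G p else 0) = ∑ x ∈ S.filter (fun x => cf j 0 * p.1 + cf j 1 * p.2.1 +
        cf j 2 * p.2.2 = x - sl j * (bb * N)), G p := by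
    rw [Finset.sum_filter]
  rw [h2, Finset.sum_const, nsmul_eq_mul]
  have hcard : (S.filter (fun x => cf j 0 * p.1 + cf j 1 * p.2.1 +
        cf j 2 * p.2.2 = x - sl j * (bb * N))).card ≤ 1 := by
    rw [Finset.card_le_one]
    intro x hx y hy
    have a1 := (Finset.mem_filter.mp hx).2
    have a2 := (Finset.mem_filter.mp hy).2
    linarith
  have hc : ((S.filter (fun x => cf j 0 * p.1 + cf j 1 * p.2.1 +
        cf j 2 * p.2.2 = x - sl j * (bb * N))).card : ℝ) ≤ 1 := by exact_mod_cast hcard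
  calc _ ≤ 1 * G p := mul_le_mul_of_nonneg_right hc (hG0 p)
    _ = G p := one_mul _

/-- **(C)** the glue identity for `w`-dependent kernels -/
theorem LK_eq_Lgen (j : Fin 4) (N : ℕ) (bb : ℤ) (T : Fin 3 → Finset ℤ)
    (Φ : ℤ → ℤ → ℤ → ℤ → ℂ) (F : Fin 4 → ℤ → ℂ) (x : ℤ) (P : Finset (ℤ × ℤ × ℤ))
    (hP : ∀ t0 t1 t2 : Fin (N + N), ∀ z0 ∈ T 0, ∀ z1 ∈ T 1, ∀ z2 ∈ T 2,
      (z0 - ((t0 : ℕ) : ℤ), z1 - ((t1 : ℕ) : ℤ), z2 - ((t2 : ℕ) : ℤ)) ∈ P) :
    Lgen j N bb (Per j T Φ) F x = LK j N bb T Φ F P x := by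
  classical
  have hL : Lgen j N bb (Per j T Φ) F x = (1 / ((N : ℂ) + N) ^ 4) * ∑ v : Fin (N + N),
      ∑ i0 : Fin (N + N), ∑ i1 : Fin (N + N), ∑ i2 : Fin (N + N), ∑ p ∈ P,
        if cf j 0 * p.1 + cf j 1 * p.2.1 + cf j 2 * p.2.2 = x - sl j * (bb * N) then
        ((hsg N v * (hsg N i0 * hsg N i1 * hsg N i2) : ℝ) : ℂ) *
        pW j T Φ F (((v : ℕ) : ℤ) + bb * N - p.1 - p.2.1 - p.2.2)
            (p.1 + ((i0 : ℕ) : ℤ)) (p.2.1 + ((i1 : ℕ) : ℤ)) (p.2.2 + ((i2 : ℕ) : ℤ)) else 0 := by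
    unfold Lgen
    rw [sum_box j]
    congr 1
    refine Finset.sum_congr rfl fun v _ => Finset.sum_congr rfl fun i0 _ =>
      Finset.sum_congr rfl fun i1 _ => Finset.sum_congr rfl fun i2 _ => ?_
    rw [Fin.prod_univ_succAbove _ j, Fin.prod_univ_three, Fin.prod_univ_three,
      Fin.sum_univ_succAbove _ j, Fin.sum_univ_three]
    simp only [Fin.insertNth_apply_same, Fin.insertNth_apply_succAbove]
    simp only [Matrix.cons_val_zero, Matrix.cons_val_one, Matrix.cons_val]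
    unfold Per
    rw [sum_shift3 T P ((i0 : ℕ) : ℤ) ((i1 : ℕ) : ℤ) ((i2 : ℕ) : ℤ)
      (fun z0 h0 z1 h1 z2 h2 => hP i0 i1 i2 z0 h0 z1 h1 z2 h2)]
    rw [Finset.sum_mul, Finset.mul_sum]
    refine Finset.sum_congr rfl fun p _ => ?_
    obtain ⟨p0, p1, p2⟩ := p
    simp only
    have hy : ∀ k : Fin 4, yv N bb x (j.insertNth (α := fun _ => Fin (N + N)) v ![i0, i1, i2]) k =
      x + ((sl j - sl k) * ((v : ℕ) : ℤ) + (sl (j.succAbove 0) - sl k) * ((i0 : ℕ) : ℤ) +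
        (sl (j.succAbove 1) - sl k) * ((i1 : ℕ) : ℤ) +
        (sl (j.succAbove 2) - sl k) * ((i2 : ℕ) : ℤ)) - sl k * (bb * N) :=
      fun k => yv_insert j k N bb x v i0 i1 i2
    have hc : cf j 0 * (p0 + ((i0 : ℕ) : ℤ)) + cf j 1 * (p1 + ((i1 : ℕ) : ℤ)) +
        cf j 2 * (p2 + ((i2 : ℕ) : ℤ)) =
        yv N bb x (j.insertNth (α := fun _ => Fin (N + N)) v ![i0, i1, i2]) j ↔
        cf j 0 * p0 + cf j 1 * p1 + cf j 2 * p2 = x - sl j * (bb * N) := by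
      rw [hy j]
      unfold cf
      constructor
      · intro h; linear_combination h
      · intro h; linear_combination h
    rw [if_congr hc rfl rfl]
    by_cases hcond : cf j 0 * p0 + cf j 1 * p1 + cf j 2 * p2 = x - sl j * (bb * N)
    · rw [if_pos hcond, if_pos hcond]
      have hx : x = cf j 0 * p0 + cf j 1 * p1 + cf j 2 * p2 + sl j * (bb * N) := by
        rw [hcond]; ring
      unfold pW lA lB lC lin
      by_cases h : p0 + ((i0 : ℕ) : ℤ) ∈ T 0 ∧ p1 + ((i1 : ℕ) : ℤ) ∈ T 1 ∧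
          p2 + ((i2 : ℕ) : ℤ) ∈ T 2
      · rw [if_pos h, if_pos h]
        have e0 : yv N bb x (j.insertNth (α := fun _ => Fin (N + N)) v ![i0, i1, i2])
            (j.succAbove 0) = (sl j - sl (j.succAbove 0)) *
            (((v : ℕ) : ℤ) + bb * N - p0 - p1 - p2) +
            (sl (j.succAbove 1) - sl (j.succAbove 0)) * (p1 + ((i1 : ℕ) : ℤ)) +
            (sl (j.succAbove 2) - sl (j.succAbove 0)) * (p2 + ((i2 : ℕ) : ℤ)) := by
          rw [hy, hx]; unfold cf; ring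
        have e1 : yv N bb x (j.insertNth (α := fun _ => Fin (N + N)) v ![i0, i1, i2])
            (j.succAbove 1) = (sl j - sl (j.succAbove 1)) *
            (((v : ℕ) : ℤ) + bb * N - p0 - p1 - p2) +
            (sl (j.succAbove 2) - sl (j.succAbove 1)) * (p2 + ((i2 : ℕ) : ℤ)) +
            (sl (j.succAbove 0) - sl (j.succAbove 1)) * (p0 + ((i0 : ℕ) : ℤ)) := by
          rw [hy, hx]; unfold cf; ring
        have e2 : yv N bb x (j.insertNth (α := fun _ => Fin (N + N)) v ![i0, i1, i2])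
            (j.succAbove 2) = (sl j - sl (j.succAbove 2)) *
            (((v : ℕ) : ℤ) + bb * N - p0 - p1 - p2) +
            (sl (j.succAbove 0) - sl (j.succAbove 2)) * (p0 + ((i0 : ℕ) : ℤ)) +
            (sl (j.succAbove 1) - sl (j.succAbove 2)) * (p1 + ((i1 : ℕ) : ℤ)) := by
          rw [hy, hx]; unfold cf; ring
        have e3 : bb * (N : ℤ) + (((v : ℕ) : ℤ) + (((i0 : ℕ) : ℤ) + ((i1 : ℕ) : ℤ) +
            ((i2 : ℕ) : ℤ))) - (p0 + ((i0 : ℕ) : ℤ)) - (p1 + ((i1 : ℕ) : ℤ)) -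
            (p2 + ((i2 : ℕ) : ℤ)) = ((v : ℕ) : ℤ) + bb * N - p0 - p1 - p2 := by ring
        rw [e0, e1, e2, e3]
        push_cast
        ring
      · rw [if_neg h, if_neg h]
        ring
    · rw [if_neg hcond, if_neg hcond]
      simp
  rw [hL]
  unfold LK
  have hR : ∀ p ∈ P, (if cf j 0 * p.1 + cf j 1 * p.2.1 + cf j 2 * p.2.2 = x - sl j * (bb * N) then
        (1 / ((N : ℂ) + N)) * ∑ v : Fin (N + N), (hsg N v : ℂ) *
          L3 (pW j T Φ F (((v : ℕ) : ℤ) + bb * N - p.1 - p.2.1 - p.2.2)) N p.1 p.2.1 p.2.2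
      else 0) = (1 / ((N : ℂ) + N) ^ 4) * ∑ v : Fin (N + N), ∑ i0 : Fin (N + N),
      ∑ i1 : Fin (N + N), ∑ i2 : Fin (N + N),
        if cf j 0 * p.1 + cf j 1 * p.2.1 + cf j 2 * p.2.2 = x - sl j * (bb * N) then
        ((hsg N v * (hsg N i0 * hsg N i1 * hsg N i2) : ℝ) : ℂ) *
        pW j T Φ F (((v : ℕ) : ℤ) + bb * N - p.1 - p.2.1 - p.2.2)
            (p.1 + ((i0 : ℕ) : ℤ)) (p.2.1 + ((i1 : ℕ) : ℤ)) (p.2.2 + ((i2 : ℕ) : ℤ)) else 0 := by
    intro p _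
    split_ifs with hcond
    · unfold L3
      rw [show (1 / ((N : ℂ) + N) ^ 4) = (1 / ((N : ℂ) + N)) * (1 / ((N : ℂ) + N) ^ 3) by
        rw [pow_succ]; rw [one_div_mul_one_div_rev]]
      rw [mul_assoc]
      congr 1
      rw [Finset.mul_sum]
      refine Finset.sum_congr rfl fun v _ => ?_
      rw [← mul_assoc, mul_comm (hsg N v : ℂ) (1 / ((N : ℂ) + N) ^ 3), mul_assoc]
      congr 1
      rw [Finset.mul_sum]
      refine Finset.sum_congr rfl fun i0 _ => ?_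
      rw [Finset.mul_sum]
      refine Finset.sum_congr rfl fun i1 _ => ?_
      rw [Finset.mul_sum]
      refine Finset.sum_congr rfl fun i2 _ => ?_
      push_cast
      ring
    · simp
  rw [Finset.sum_congr rfl hR]
  rw [← Finset.mul_sum]
  congr 1
  conv_rhs => rw [Finset.sum_comm]
  refine Finset.sum_congr rfl fun v _ => ?_
  conv_rhs => rw [Finset.sum_comm]
  refine Finset.sum_congr rfl fun i0 _ => ?_
  conv_rhs => rw [Finset.sum_comm]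
  refine Finset.sum_congr rfl fun i1 _ => ?_
  conv_rhs => rw [Finset.sum_comm]


end Crest.Agent.R079.LK990
end

-- ▼ part R079/EWG_990

/-! R079, Step II (g3) (helper990): the error words of `Plug_429` in the box form `LboxG` of `Cg_408`.
`KP j T k F` = kernel `K s A` of the word with the three edge kernels `k e w z_e z_(e+1)` (depending on
the frozen variable `w` of slot `j`) and the letters `F`. -/

set_option autoImplicit false
set_option linter.unusedVariables false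

namespace Crest.Agent.R079.EWG990

open Finset Crest.Agent.R079.Grid Crest.Agent.R079.Pot Crest.Agent.R079.Glue Crest.Agent.R079.GlueK
open Crest.Agent.R079.R244 Crest.Agent.R079.F24 Crest.Agent.R079.LK990 Crest.Agent.R079.EW990
open Crest.Agent.R079.Cg408 (LboxG Lbox_LboxG LboxG_add)

/-- product of the three edge kernels -/
def PhiW (k : Fin 3 → ℤ → ℤ → ℤ → ℂ) (w z0 z1 z2 : ℤ) : ℂ :=
  k 0 w z0 z1 * k 1 w z1 z2 * k 2 w z2 z0

/-- kernel `K s A` of the word (`s` = sum of the coordinates, `y_k = A - sl k * s`) -/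
noncomputable def KP (j : Fin 4) (T : Fin 3 → Finset ℤ) (k : Fin 3 → ℤ → ℤ → ℤ → ℂ)
    (F : Fin 4 → ℤ → ℂ) (s A : ℤ) : ℂ :=
  Per j T (PhiW k) (A - sl j * s) s *
    ∏ e : Fin 3, F (j.succAbove e) (A - sl (j.succAbove e) * s)

lemma yv_eq (N : ℕ) (bb x : ℤ) (u : Fin 4 → Fin (N + N)) (k : Fin 4) :
    yv N bb x u k = (x + ∑ i, sl i * ((u i : ℕ) : ℤ)) -
      sl k * (bb * N + ∑ i, ((u i : ℕ) : ℤ)) := by
  unfold yv
  simp only [Fin.sum_univ_four]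
  ring

theorem Lgen_eq_LboxG (j : Fin 4) (N : ℕ) (bb : ℤ) (G : ℤ → ℤ → ℂ) (F : Fin 4 → ℤ → ℂ) (x : ℤ) :
    Lgen j N bb G F x = LboxG N bb (fun s A => G (A - sl j * s) s *
      ∏ e : Fin 3, F (j.succAbove e) (A - sl (j.succAbove e) * s)) x := by
  unfold Lgen LboxG
  congr 1
  refine Finset.sum_congr rfl fun u _ => ?_
  simp only [yv_eq]

theorem Lgen_Per (j : Fin 4) (N : ℕ) (bb : ℤ) (T : Fin 3 → Finset ℤ)
    (k : Fin 3 → ℤ → ℤ → ℤ → ℂ) (F : Fin 4 → ℤ → ℂ) (x : ℤ) :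
    LboxG N bb (KP j T k F) x = Lgen j N bb (Per j T (PhiW k)) F x := by
  rw [Lgen_eq_LboxG]
  rfl

lemma Lgen_Fm (R : Finset (ℕ × ℤ)) (j : Fin 4) (G : ℤ → ℤ → ℂ) (F : Fin 4 → ℤ → ℂ) (m : ℕ) (l : ℤ)
    (hp : (m, l) ∈ R) (bb : ℤ) (hbb : bb = -1 ∨ bb = -7) (x : ℤ) (hx : x ∈ adm m l) :
    Lgen j (2 ^ m) bb G F x = Lgen j (2 ^ m) bb G (Fm R j F m) x := by
  unfold Lgen
  congr 1
  refine Finset.sum_congr rfl fun u _ => ?_
  congr 2
  refine Finset.prod_congr rfl fun k _ => ?_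
  unfold Fm
  rw [if_neg (Fin.succAbove_ne j k)]
  unfold msk
  have h1 := yv_mem m l bb x hbb hx u (j.succAbove k)
  rw [mem_dI_iff] at h1
  have h2 : yv (2 ^ m) bb x u (j.succAbove k) ∈ Rm R m := by
    rw [mem_Rm, h1]; exact hp
  rw [if_pos h2]

lemma region_sumG (R : Finset (ℕ × ℤ)) (J : ℕ × ℤ) (hR : IsRegion R J) (j : Fin 4)
    (G : ℤ → ℤ → ℂ) (F : Fin 4 → ℤ → ℂ) (bb : ℤ) (hbb : bb = -1 ∨ bb = -7) :
    ∑ p ∈ R, ∑ x ∈ adm p.1 p.2, ‖Lgen j (2 ^ p.1) bb G F x‖ =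
      ∑ m ∈ range (J.1 + 1), ∑ x ∈ (R.filter (fun p => p.1 = m)).biUnion (fun p => adm p.1 p.2),
        ‖Lgen j (2 ^ m) bb G (Fm R j F m) x‖ := by
  classical
  rw [← Finset.sum_fiberwise_of_maps_to (s := R) (t := range (J.1 + 1)) (g := fun p => p.1)
    (fun p hp => Finset.mem_range.mpr (Nat.lt_succ_of_le (level_le R J hR p hp)))]
  refine Finset.sum_congr rfl fun m _ => ?_
  rw [Finset.sum_biUnion]
  · refine Finset.sum_congr rfl fun p hp => ?_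
    rw [Finset.mem_filter] at hp
    obtain ⟨hp, hpm⟩ := hp
    obtain ⟨m', l⟩ := p
    simp only at hpm
    subst hpm
    refine Finset.sum_congr rfl fun x hx => ?_
    rw [Lgen_Fm R j G F m' l hp bb hbb x hx]
  · intro p hp q hq hpq
    rw [Function.onFun, Finset.disjoint_left]
    intro x hx hx'
    rw [Finset.mem_coe, Finset.mem_filter] at hp hq
    have h1 := adm_subset _ _ hx
    have h2 := adm_subset _ _ hx'
    rw [mem_dI_iff] at h1 h2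
    apply hpq
    obtain ⟨p1, p2⟩ := p
    obtain ⟨q1, q2⟩ := q
    simp only at hp hq h1 h2
    obtain ⟨_, rfl⟩ := hp
    obtain ⟨_, hq2⟩ := hq
    subst hq2
    rw [h1] at h2
    rw [h2]

lemma L3_pW (j : Fin 4) (T : Fin 3 → Finset ℤ) (k : Fin 3 → ℤ → ℤ → ℤ → ℂ) (F : Fin 4 → ℤ → ℂ)
    (w : ℤ) (N : ℕ) (p0 p1 p2 : ℤ) :
    L3 (pW j T (PhiW k) F w) N p0 p1 p2 =
      Lb3 (kW j T k F 0 w) (kW j T k F 1 w) (kW j T k F 2 w) N p0 p1 p2 :=
  L3_pK_prod j T (k 0 w) (k 1 w) (k 2 w) F w N p0 p1 p2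

/-- **region sum of a word with `w`-dependent kernels** -/
theorem sum_word_le (R : Finset (ℕ × ℤ)) (J : ℕ × ℤ) (hR : IsRegion R J) (j : Fin 4)
    (T : Fin 3 → Finset ℤ) (k : Fin 3 → ℤ → ℤ → ℤ → ℂ) (F : Fin 4 → ℤ → ℂ) (bb : ℤ)
    (hbb : bb = -1 ∨ bb = -7) : ∃ PP : Finset (ℤ × ℤ × ℤ),
    ∑ p ∈ R, ∑ x ∈ adm p.1 p.2, ‖LboxG (2 ^ p.1) bb (KP j T k F) x‖ ≤ LW bb R J j T k F PP := by
  classical
  obtain ⟨Lt, hLt⟩ := exists_bound T
  set L1 : ℕ := Lt + 2 * 2 ^ (J.1 + 1) with hL1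
  refine ⟨Icc (-(L1 : ℤ)) L1 ×ˢ (Icc (-(L1 : ℤ)) L1 ×ˢ Icc (-(L1 : ℤ)) L1), ?_⟩
  set P : Finset (ℤ × ℤ × ℤ) := Icc (-(L1 : ℤ)) L1 ×ˢ (Icc (-(L1 : ℤ)) L1 ×ˢ Icc (-(L1 : ℤ)) L1)
    with hP
  simp only [Lgen_Per]
  rw [region_sumG R J hR j _ F bb hbb]
  unfold LW
  refine Finset.sum_le_sum fun m hm => ?_
  rw [Finset.mem_range] at hm
  have hpow : 2 ^ m ≤ 2 ^ (J.1 + 1) := Nat.pow_le_pow_right (by norm_num) (by omega)
  have hPm : ∀ t0 t1 t2 : Fin (2 ^ m + 2 ^ m), ∀ z0 ∈ T 0, ∀ z1 ∈ T 1, ∀ z2 ∈ T 2,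
      (z0 - ((t0 : ℕ) : ℤ), z1 - ((t1 : ℕ) : ℤ), z2 - ((t2 : ℕ) : ℤ)) ∈ P := by
    intro t0 t1 t2 z0 h0 z1 h1 z2 h2
    have c0 := abs_le.mp (hLt 0 z0 h0)
    have c1 := abs_le.mp (hLt 1 z1 h1)
    have c2 := abs_le.mp (hLt 2 z2 h2)
    have d0 := t0.isLt
    have d1 := t1.isLt
    have d2 := t2.isLt
    rw [hP, Finset.mem_product, Finset.mem_product, Finset.mem_Icc, Finset.mem_Icc,
      Finset.mem_Icc]
    refine ⟨?_, ?_, ?_⟩ <;> constructor <;> simp only <;> omega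
  have e1 : ∀ x, Lgen j (2 ^ m) bb (Per j T (PhiW k)) (Fm R j F m) x =
      LK j (2 ^ m) bb T (PhiW k) (Fm R j F m) P x := fun x =>
    LK_eq_Lgen j (2 ^ m) bb T (PhiW k) (Fm R j F m) x P hPm
  simp only [e1]
  refine (sum_norm_LK_le j (2 ^ m) bb T (PhiW k) (Fm R j F m) P _).trans (le_of_eq ?_)
  simp only [L3_pW]



/-! ### the splitting of one edge -/

/-- the kernel of the edge `e` is replaced by `M` -/
def upk (g : Fin 3 → ℤ → ℤ → ℂ) (e : Fin 3) (M : ℤ → ℤ → ℤ → ℂ) : Fin 3 → ℤ → ℤ → ℤ → ℂ :=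
  fun e' w => if e' = e then M w else g e'

/-- the letter of the slot `m` is replaced by `1` -/
def upF (F : Fin 4 → ℤ → ℂ) (m : Fin 4) : Fin 4 → ℤ → ℂ :=
  fun k => if k = m then fun _ => 1 else F k

lemma Per_mul_congr (j : Fin 4) (T : Fin 3 → Finset ℤ) (Φ Φ' : ℤ → ℤ → ℤ → ℤ → ℂ) (y s : ℤ)
    (c c' : ℂ) (h : ∀ z0 ∈ T 0, ∀ z1 ∈ T 1, ∀ z2 ∈ T 2,
      cf j 0 * z0 + cf j 1 * z1 + cf j 2 * z2 = y →
      Φ (s - z0 - z1 - z2) z0 z1 z2 * c = Φ' (s - z0 - z1 - z2) z0 z1 z2 * c') :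
    Per j T Φ y s * c = Per j T Φ' y s * c' := by
  unfold Per
  simp only [Finset.sum_mul]
  refine Finset.sum_congr rfl fun z0 h0 => Finset.sum_congr rfl fun z1 h1 =>
    Finset.sum_congr rfl fun z2 h2 => ?_
  split_ifs with hc
  · exact h z0 h0 z1 h1 z2 h2 hc
  · simp

lemma Per_add (j : Fin 4) (T : Fin 3 → Finset ℤ) (Φ Φ' : ℤ → ℤ → ℤ → ℤ → ℂ) (y s : ℤ) :
    Per j T (fun w z0 z1 z2 => Φ w z0 z1 z2 + Φ' w z0 z1 z2) y s =
      Per j T Φ y s + Per j T Φ' y s := by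
  unfold Per
  simp only [← Finset.sum_add_distrib]
  refine Finset.sum_congr rfl fun z0 h0 => Finset.sum_congr rfl fun z1 h1 =>
    Finset.sum_congr rfl fun z2 h2 => ?_
  split_ifs with hc
  · rfl
  · simp

lemma PhiW_upk (g : Fin 3 → ℤ → ℤ → ℂ) (e : Fin 3) (M E X : ℤ → ℤ → ℤ → ℂ) :
    PhiW (upk g e (fun w z z' => M w z z' + E w z z' + X w z z')) =
      fun w z0 z1 z2 => (PhiW (upk g e M) w z0 z1 z2 + PhiW (upk g e E) w z0 z1 z2) +
        PhiW (upk g e X) w z0 z1 z2 := by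
  funext w z0 z1 z2
  unfold PhiW upk
  fin_cases e <;> simp <;> ring

/-- pointwise splitting of the kernel of the word -/
theorem KP_split (j : Fin 4) (e : Fin 3) (T : Fin 3 → Finset ℤ) (g : Fin 3 → ℤ → ℤ → ℂ)
    (F : Fin 4 → ℤ → ℂ) (M E X : ℤ → ℤ → ℤ → ℂ) (D : Finset ℤ)
    (hdec : ∀ w, ∀ z ∈ T e, ∀ z' ∈ T (e + 1),
      (sl j - sl (j.succAbove (e + 2))) * w + (sl (j.succAbove e) - sl (j.succAbove (e + 2))) * z +
        (sl (j.succAbove (e + 1)) - sl (j.succAbove (e + 2))) * z' ∈ D →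
      g e z z' * F (j.succAbove (e + 2)) ((sl j - sl (j.succAbove (e + 2))) * w +
        (sl (j.succAbove e) - sl (j.succAbove (e + 2))) * z +
        (sl (j.succAbove (e + 1)) - sl (j.succAbove (e + 2))) * z') =
        M w z z' + E w z z' + X w z z')
    (s A : ℤ) (hy : A - sl (j.succAbove (e + 2)) * s ∈ D) :
    KP j T (fun e' _ => g e') F s A =
      KP j T (upk g e M) (upF F (j.succAbove (e + 2))) s A +
      KP j T (upk g e E) (upF F (j.succAbove (e + 2))) s A +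
      KP j T (upk g e X) (upF F (j.succAbove (e + 2))) s A := by
  have hsum : KP j T (upk g e M) (upF F (j.succAbove (e + 2))) s A +
      KP j T (upk g e E) (upF F (j.succAbove (e + 2))) s A +
      KP j T (upk g e X) (upF F (j.succAbove (e + 2))) s A =
      KP j T (upk g e (fun w z z' => M w z z' + E w z z' + X w z z'))
        (upF F (j.succAbove (e + 2))) s A := by
    unfold KP
    rw [← add_mul, ← add_mul, PhiW_upk, Per_add, Per_add]
  rw [hsum]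
  clear hsum
  unfold KP
  refine Per_mul_congr j T _ _ _ s _ _ ?_
  intro z0 h0 z1 h1 z2 h2 hc
  have hA : A = cf j 0 * z0 + cf j 1 * z1 + cf j 2 * z2 + sl j * s := by rw [hc]; ring
  unfold cf at hA
  obtain rfl | rfl | rfl : e = 0 ∨ e = 1 ∨ e = 2 := by fin_cases e <;> simp
  · have e2 : ((0 : Fin 3) + 2) = 2 := rfl
    have e1 : ((0 : Fin 3) + 1) = 1 := rfl
    rw [e2] at hy hdec ⊢
    rw [e1] at hdec
    have ey : (sl j - sl (j.succAbove 2)) * (s - z0 - z1 - z2) +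
        (sl (j.succAbove 0) - sl (j.succAbove 2)) * z0 +
        (sl (j.succAbove 1) - sl (j.succAbove 2)) * z1 = A - sl (j.succAbove 2) * s := by
      rw [hA]; ring
    have hd := hdec (s - z0 - z1 - z2) z0 h0 z1 h1 (by rw [ey]; exact hy)
    rw [ey] at hd
    simp only [Fin.prod_univ_three, PhiW, upk, upF, Fin.succAbove_right_inj]
    simp
    rw [← hd]
    ring
  · have e2 : ((1 : Fin 3) + 2) = 0 := rfl
    have e1 : ((1 : Fin 3) + 1) = 2 := rfl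
    rw [e2] at hy hdec ⊢
    rw [e1] at hdec
    have ey : (sl j - sl (j.succAbove 0)) * (s - z0 - z1 - z2) +
        (sl (j.succAbove 1) - sl (j.succAbove 0)) * z1 +
        (sl (j.succAbove 2) - sl (j.succAbove 0)) * z2 = A - sl (j.succAbove 0) * s := by
      rw [hA]; ring
    have hd := hdec (s - z0 - z1 - z2) z1 h1 z2 h2 (by rw [ey]; exact hy)
    rw [ey] at hd
    simp only [Fin.prod_univ_three, PhiW, upk, upF, Fin.succAbove_right_inj]
    simp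
    rw [← hd]
    ring
  · have e2 : ((2 : Fin 3) + 2) = 1 := rfl
    have e1 : ((2 : Fin 3) + 1) = 0 := rfl
    rw [e2] at hy hdec ⊢
    rw [e1] at hdec
    have ey : (sl j - sl (j.succAbove 1)) * (s - z0 - z1 - z2) +
        (sl (j.succAbove 2) - sl (j.succAbove 1)) * z2 +
        (sl (j.succAbove 0) - sl (j.succAbove 1)) * z0 = A - sl (j.succAbove 1) * s := by
      rw [hA]; ring
    have hd := hdec (s - z0 - z1 - z2) z2 h2 z0 h0 (by rw [ey]; exact hy)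
    rw [ey] at hd
    simp only [Fin.prod_univ_three, PhiW, upk, upF, Fin.succAbove_right_inj]
    simp
    rw [← hd]
    ring

lemma LboxG_congr (N : ℕ) (bb : ℤ) (Κ Κ' : ℤ → ℤ → ℂ) (x : ℤ)
    (h : ∀ u : Fin 4 → Fin (N + N), Κ (bb * N + ∑ i, ((u i : ℕ) : ℤ)) (x + ∑ i, sl i * ((u i : ℕ) : ℤ)) =
      Κ' (bb * N + ∑ i, ((u i : ℕ) : ℤ)) (x + ∑ i, sl i * ((u i : ℕ) : ℤ))) :
    LboxG N bb Κ x = LboxG N bb Κ' x := by
  unfold LboxG
  congr 1
  exact Finset.sum_congr rfl fun u _ => by rw [h u]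



end Crest.Agent.R079.EWG990
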