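import Crest.Agent.R079.NrC_228
import Crest.Agent.R079.ErL_255
import Crest.Agent.R079.DLa_250
import Crest.Agent.R079.NrS_248
import Crest.Agent.R079.NrT_259
import Crest.Agent.R079.NrH_276
import Crest.Agent.R079.NrA_228
import Crest.Agent.R079.NrU_276
import Crest.Agent.R079.GaBt_251
import Crest.Agent.R079.ErM_255
import Crest.Agent.R079.FrZa_360

-- ▼ part R079/NrD_228
section

/-! # R079 (S0106), T3 (helper228): THE PER-CELL INPUT `CellIn` of `ErL_255` for the frame kernels `ZF`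
of `NrB_228`, from the geometry `CG` of the big cells and the one-cell theorem `CellT`. -/

set_option autoImplicit false

namespace Crest.Agent.R079.NrDx228

open Finset Crest.Agent.R079.Grid Crest.Agent.R079.Growth Crest.Agent.R079.QRed
  Crest.Agent.R079.Qh249 Crest.Agent.R079.QVar181 Crest.Agent.R079.TWin
open Crest.Agent.R079.ThA159
open Crest.Agent.R079.Cel159 (NmP cf okc mcell split_cell Mx Mx_mcell Mx_eq sc)
open Crest.Agent.R079.ClW59 (OpS cl)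
open Crest.Agent.R079.GaFx371 Crest.Agent.R079.GaDx571 Crest.Agent.R079.PFx263
open Crest.Agent.R079.NrDx276 Crest.Agent.R079.SbWx795 Crest.Agent.R079.ErLx255
open Crest.Agent.R079.NrTx259 Crest.Agent.R079.NrUx259 Crest.Agent.R079.NrWx259
  Crest.Agent.R079.NrTx276 Crest.Agent.R079.NrAx228 Crest.Agent.R079.NrBx228
  Crest.Agent.R079.NrCx228

open scoped ComplexConjugate

/-- the one-cell theorem -/
def CellT (kg : ℕ) (θ C1 C2 : ℝ) : Prop :=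
  ∀ (m : ℕ) (a b : ℤ) (Ti E1 : Finset (ℕ × ℤ × ℤ)) (Q : Finset Nd)
    (E2 : Nd → Finset (ℕ × ℤ × ℤ)) (P : Nd → ℤ → ℤ → Prop) [∀ q u v, Decidable (P q u v)] (l : ℕ)
    (A B : ℤ → ℤ → ℂ) (S T : Finset ℤ) (s : ℤ → ℝ) (Y X : ℤ → ℤ → ℂ) (r r' : ℝ),
    CG m a b Ti E1 Q E2 P l kg θ → 0 < r → r ≤ r' →
    (∀ c ∈ Ti, OpS (Rw c) (Cl c) B (r * 2 ^ c.1)) → SvC A S T s Y X → S ⊆ dI m a → T ⊆ dI m b →
    ∑ q ∈ Q, ∑ u ∈ S, ∑ v ∈ T, (if P q u v then
      ‖∑ k ∈ T, (dk s (r * 2 ^ m) (r' * 2 ^ m) k : ℂ) * Y k u * conj (X k v) -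
        ∑ k ∈ T, Pu m a b E1 (E2 q) B r (2 ^ l) Y (dk s (r * 2 ^ m) (r' * 2 ^ m)) u k *
          Qv m a b E1 (E2 q) B r (2 ^ l) X (dk s (r * 2 ^ m) (r' * 2 ^ m)) v k‖ ^ 2 else 0) ≤
      C1 * ((r' - r) / r) * Gd B S T Y X s (r * 2 ^ m) +
        C2 * (2 ^ l / 2 ^ m) * ∑ k ∈ T, dk s (r * 2 ^ m) (r' * 2 ^ m) k ^ 2

section

variable {n : ℕ} (i : Fin 4) (e : Fin 3) (T : Fin n → Fin 3 → Finset ℤ)
  (g : Fin n → Fin 3 → ℤ → ℤ → ℂ) (I : Nd) (kc Kl : ℕ) (r : ℕ → ℝ) (V : Finset Nd) (K : Nd) (G : Fn)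
  (k0 j0 n0 : ℕ)

/-- the frame kernels of the family -/
noncomputable def Zff (l : Fin n) (q : ℕ) : ℤ × ℤ × ℤ → ℂ :=
  ZF (Ye i e) kc j0 n0 Kl V K (BdE i e (T l) I) (poE i e)
    (NmP (SE i e (T l) I) cf (okc (Ye i e) kc)) (fun ω => g l e ω.2.1 ω.2.2) r G (T l e) (T l (e + 1))
    (QQ V k0 j0 n0 K) q

/-- geometry of the big cells of the family -/
def GeoF (kg : ℕ) (θ : ℝ) : Prop :=
  ∀ l, ∀ t ∈ cel i e T I kc K l,
    (∃ q0 ∈ QQ V k0 j0 n0 K, ∃ u ∈ dI t.2.1 t.2.2.1, ∃ v ∈ dI t.2.1 t.2.2.2,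
      Ye i e t.1 u v ∈ iv q0) →
    CG t.2.1 t.2.2.1 t.2.2.2 (Til (Ye i e) kc V t.1 t.2.1 t.2.2.1 t.2.2.2)
      (E1 (Ye i e) kc V j0 K t.1 t.2.1 t.2.2.1 t.2.2.2) (QQ V k0 j0 n0 K)
      (fun q0 => E2 (Ye i e) kc V n0 q0 t.1 t.2.1 t.2.2.1 t.2.2.2)
      (fun q0 u v => Ye i e t.1 u v ∈ iv q0) (K.1 - j0) kg θ ∧ K.1 ≤ t.2.1 + 1

variable {i e T g I kc Kl r V K G k0 j0 n0}

/-- value of a frame kernel on a cell -/
theorem ZF_cell {Y : ℤ → ℤ → ℤ → ℤ} {Bd : Nd → Finset (ℤ × ℤ × ℤ)} {pos : ℤ × ℤ × ℤ → ℤ}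
    {N : Nd → (ℤ × ℤ × ℤ → ℂ) → ℝ} {aa : ℤ × ℤ × ℤ → ℂ} {T1 T2 : Finset ℤ} (hr : ∀ q, 0 ≤ r q)
    {z : ℤ} {m : ℕ} {a b : ℤ} (hM : Mx (Y z) kc K m a b) {u v : ℤ} (hu : u ∈ dI m a)
    (hv : v ∈ dI m b) {q : ℕ} (hq : q + 1 < Kl) {q0 : Nd} (hq0 : q0 ∈ QQ V k0 j0 n0 K)
    (hy : Y z u v ∈ iv q0) :
    ZF Y kc j0 n0 Kl V K Bd pos N aa r G T1 T2 (QQ V k0 j0 n0 K) q (z, u, v) =
      ∑ k ∈ dI m b ∩ T2, Pu m a b (E1 Y kc V j0 K z m a b) (E2 Y kc V n0 q0 z m a b)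
        (Bk Bd pos N aa (r q) V K G z) (r q) (2 ^ (K.1 - j0))
        (sY (Ak Bd pos aa K G z) (dI m a ∩ T1) (dI m b ∩ T2))
        (dk (sS (Ak Bd pos aa K G z) (dI m a ∩ T1) (dI m b ∩ T2)) (r q * 2 ^ m)
          (r (q + 1) * 2 ^ m)) u k *
        Qv m a b (E1 Y kc V j0 K z m a b) (E2 Y kc V n0 q0 z m a b)
        (Bk Bd pos N aa (r q) V K G z) (r q) (2 ^ (K.1 - j0))
        (sX (Ak Bd pos aa K G z) (dI m a ∩ T1) (dI m b ∩ T2))
        (dk (sS (Ak Bd pos aa K G z) (dI m a ∩ T1) (dI m b ∩ T2)) (r q * 2 ^ m)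
          (r (q + 1) * 2 ^ m)) v k := by
  classical
  have hK : Y z u v ∈ iv K := (mem_QQ.1 hq0).2.2.2.1 hy
  have hmc : mcell Y kc K (z, u, v) = (z, m, a, b) := by
    have h1 := Mx_mcell (Y := Y) (k := kc) (p := K) (ω := (z, u, v)) hK
    obtain ⟨g1, g2, g3⟩ := Mx_eq h1 hM (self_dI _ _) hu (self_dI _ _) hv
    unfold mcell
    exact Prod.ext rfl (Prod.ext g1 (Prod.ext g2 g3))
  unfold ZF
  rw [Finset.sum_eq_single_of_mem q0 hq0]
  · rw [if_pos hy, hmc]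
    have hsub : dI m b ∩ T2 ⊆ T2 := Finset.inter_subset_right
    have hl : q0.1 = K.1 - j0 := (mem_QQ.1 hq0).2.2.1
    rw [← Finset.sum_subset hsub]
    · refine Finset.sum_congr rfl fun k _ => ?_
      unfold PF QF Pu Qv dd
      simp only [if_pos hq, hl]
    · intro k _ hk
      have h0 : sS (Ak Bd pos aa K G z) (dI m a ∩ T1) (dI m b ∩ T2) k = 0 := (sv _ _ _).s0 hk
      have hd : dd (sS (Ak Bd pos aa K G z) (dI m a ∩ T1) (dI m b ∩ T2)) r Kl q m k = 0 := by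
        unfold dd dk
        rw [if_pos hq, h0, min_eq_left (mul_nonneg (hr _) (by positivity)),
          min_eq_left (mul_nonneg (hr _) (by positivity)), sub_zero]
      unfold PF Pu
      simp only [hd, Real.sqrt_zero, Complex.ofReal_zero, zero_mul]
  · intro q' hq' hne
    rw [if_neg]
    intro h
    exact Finset.disjoint_left.1 (QQ_disj hq0 hq' (Ne.symm hne)) hy h


open Classical in
/-- the labels off the layer, by grid nodes -/
theorem lay_sum {y : ℤ} (hy : y ∈ iv K) (F : ℝ) :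
    (if y ∈ LayK V k0 j0 n0 K then 0 else F) =
      ∑ q0 ∈ QQ V k0 j0 n0 K, if y ∈ iv q0 then F else 0 := by
  by_cases h : ∃ q0 ∈ QQ V k0 j0 n0 K, y ∈ iv q0
  · obtain ⟨q0, hq0, hyq⟩ := h
    rw [if_neg]
    · rw [Finset.sum_eq_single_of_mem q0 hq0, if_pos hyq]
      intro q' hq' hne
      rw [if_neg]
      intro h
      exact Finset.disjoint_left.1 (QQ_disj hq0 hq' (Ne.symm hne)) hyq h
    · unfold LayK
      rw [Finset.mem_sdiff]
      rintro ⟨_, h2⟩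
      exact h2 (Finset.mem_biUnion.2 ⟨q0, hq0, hyq⟩)
  · push Not at h
    rw [if_pos, Finset.sum_eq_zero]
    · intro q0 hq0
      rw [if_neg (h q0 hq0)]
    · unfold LayK
      rw [Finset.mem_sdiff]
      refine ⟨hy, fun h2 => ?_⟩
      obtain ⟨q0, hq0, hyq⟩ := Finset.mem_biUnion.1 h2
      exact h q0 hq0 hyq

/-- data of a cell of the family -/
theorem cel_spec {l : Fin n} {t : ℤ × ℕ × ℤ × ℤ} (ht : t ∈ cel i e T I kc K l) :
    t.1 ∈ W0 i e (T l) I ∧ Mx (Ye i e t.1) kc K t.2.1 t.2.2.1 t.2.2.2 := by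
  unfold cel at ht
  obtain ⟨ω, hω, rfl⟩ := Finset.mem_image.1 ht
  unfold BdE SE at hω
  rw [Finset.mem_filter, Finset.mem_product] at hω
  exact ⟨hω.1.1, Mx_mcell hω.2⟩



open Classical in
/-- splitting of the node of the family -/
theorem fam_split (l : Fin n) : PjC881.Split (BdE i e (T l) I)
    (NmP (SE i e (T l) I) cf (okc (Ye i e) kc)) K (cel i e T I kc K l)
    (fun c => c.1) (fun c => dI c.2.1 c.2.2.1 ∩ T l e) (fun c => dI c.2.1 c.2.2.2 ∩ T l (e + 1))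
    (fun c => 2 ^ c.2.1) :=
  split_cell (Y := Ye i e) (k := kc) (T₀ := W0 i e (T l) I) (T₁ := T l e) (T₂ := T l (e + 1)) K

/-- a framed step on a cell -/
theorem st_cell {ν : ℝ} {l : Fin n}
    (hB : Bnd (BdE i e (T l) I) (poE i e) (NmP (SE i e (T l) I) cf (okc (Ye i e) kc)) ν)
    (hr : ∀ q, 0 ≤ r q) {z : ℤ} {m : ℕ} {a b : ℤ} (ht : (z, m, a, b) ∈ cel i e T I kc K l) {q : ℕ}
    (hq : q + 1 < Kl) {u v : ℤ} (hu : u ∈ dI m a ∩ T l e) (hv : v ∈ dI m b ∩ T l (e + 1)) :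
    stK i e T g I kc Kl r K G l q (z, u, v) =
      cl (Ak (BdE i e (T l) I) (poE i e) (fun ω => g l e ω.2.1 ω.2.2) K G z) (dI m a ∩ T l e)
        (dI m b ∩ T l (e + 1)) (r (q + 1) * 2 ^ m) u v -
      cl (Ak (BdE i e (T l) I) (poE i e) (fun ω => g l e ω.2.1 ω.2.2) K G z) (dI m a ∩ T l e)
        (dI m b ∩ T l (e + 1)) (r q * 2 ^ m) u v :=
  stp_cell hB (fam_split (K := K) (kc := kc) l) hr hq (AK i e T g I K G l) ht u hu v hv


/-- the competitor on a cell -/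
theorem b_cell {ν : ℝ} {l : Fin n}
    (hB : Bnd (BdE i e (T l) I) (poE i e) (NmP (SE i e (T l) I) cf (okc (Ye i e) kc)) ν)
    {rq : ℝ} (hr : 0 ≤ rq) (hV : Full V K) {z : ℤ} {m : ℕ} {a b : ℤ}
    (ht : (z, m, a, b) ∈ cel i e T I kc K l) :
    OpS (dI m a ∩ T l e) (dI m b ∩ T l (e + 1)) (Bk (BdE i e (T l) I) (poE i e)
      (NmP (SE i e (T l) I) cf (okc (Ye i e) kc)) (fun ω => g l e ω.2.1 ω.2.2) rq V K G z)
      (rq * 2 ^ m) := by
  have h1 := Bgl_adm hB (fun ω => g l e ω.2.1 ω.2.2) hr hV G K hV.top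
  have h2 := adm_cell (fam_split (T := T) (I := I) (K := K) (kc := kc) l) hr h1 ht
  exact h2


end

end Crest.Agent.R079.NrDx228
end

-- ▼ part R079/NrV_248
section

/-! R079, note 1820 / 1922 (T3), STAGE 2 (helper248) in the frozen literals.

`strip_cell` : one maximal cell `dI m a × dI m b`, tiles `Ti`, one grid node `q`, alive tiles `A ⊆ Ti`
inside the strip of `q`;
`stage2` : the sum over the grid nodes;
`edges` : the positions of the strips which are not inner. -/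

set_option autoImplicit false

namespace Crest.Agent.R079.NrVx248

open Finset Crest.Agent.R079.Grid Crest.Agent.R079.NrMx259 Crest.Agent.R079.NrTx259
open Crest.Agent.R079.NrSx248 Crest.Agent.R079.Growth
open Crest.Agent.R079.ClW59 (OpS)

open scoped ComplexConjugate

variable {κ : Type}

/-! ### sets of small diameter -/

/-- `J` has diameter `< D` -/
def Dm (J : Finset ℤ) (D : ℕ) : Prop := ∀ x ∈ J, ∀ y ∈ J, y - x < D

lemma Dm.mono {J J' : Finset ℤ} {D : ℕ} (h : Dm J D) (hJ : J' ⊆ J) : Dm J' D :=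
  fun x hx y hy => h x (hJ hx) y (hJ hy)

lemma Dm.le {J : Finset ℤ} {D D' : ℕ} (h : Dm J D) (hD : D ≤ D') : Dm J D' :=
  fun x hx y hy => (h x hx y hy).trans_le (by exact_mod_cast hD)

lemma Dm.sub {J : Finset ℤ} {D : ℕ} (h : Dm J D) : ∃ x : ℤ, J ⊆ Finset.Ico x (x + D) := by
  rcases J.eq_empty_or_nonempty with rfl | hne
  · exact ⟨0, Finset.empty_subset _⟩
  · refine ⟨J.min' hne, fun y hy => Finset.mem_Ico.2 ⟨Finset.min'_le _ _ hy, ?_⟩⟩
    have := h _ (J.min'_mem hne) y hy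
    omega

lemma Dm.card {J : Finset ℤ} {D : ℕ} (h : Dm J D) : (J.card : ℝ) ≤ D := by
  obtain ⟨x, hx⟩ := h.sub
  have := Finset.card_le_card hx
  rw [Int.card_Ico] at this
  have h2 : (x + (D : ℤ) - x).toNat = D := by omega
  rw [h2] at this
  exact_mod_cast this

/-- spread on the sets of diameter `< D` -/
def Spr (K : Finset κ) (g : κ → ℤ → ℂ) (I : Finset ℤ) (D : ℕ) (σ : ℝ) : Prop :=
  ∀ J ⊆ I, Dm J D → Syn K g J σ



/-! ### labels -/

/-- label form -/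
structure Lab (Y : ℤ → ℤ → ℤ) (α β γ : ℤ) (Γ : ℕ) : Prop where
  eq : ∀ u v, Y u v = γ + α * u + β * v
  α0 : α ≠ 0
  β0 : β ≠ 0
  αΓ : |α| ≤ Γ
  βΓ : |β| ≤ Γ

lemma Lab.swap {Y : ℤ → ℤ → ℤ} {α β γ : ℤ} {Γ : ℕ} (h : Lab Y α β γ Γ) :
    Lab (fun v u => Y u v) β α γ Γ :=
  ⟨fun v u => by rw [h.eq]; ring, h.β0, h.α0, h.βΓ, h.αΓ⟩

lemma abs_lt_of_mul {β x D : ℤ} (hβ : β ≠ 0) (h : |β * x| < D) : x < D := by
  have h1 : 1 ≤ |β| := Int.one_le_abs hβ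
  rw [abs_mul] at h
  have h2 : |x| ≤ |β| * |x| := by nlinarith [abs_nonneg x]
  exact (le_abs_self x).trans_lt (h2.trans_lt h)

lemma diff_lt {n : ℕ} {l y y' : ℤ} (h : y ∈ dI n l) (h' : y' ∈ dI n l) : |y' - y| < 2 ^ n := by
  unfold dI at h h'
  rw [Finset.mem_Ico] at h h'
  rw [abs_lt]
  constructor <;> linarith [h.1, h.2, h'.1, h'.2]

/-- the columns of a strip seen by one row -/
lemma Lab.row {Y : ℤ → ℤ → ℤ} {α β γ : ℤ} {Γ : ℕ} (h : Lab Y α β γ Γ) {n : ℕ} {l u : ℤ}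
    {J : Finset ℤ} (hJ : ∀ v ∈ J, Y u v ∈ dI n l) : Dm J (2 ^ n) := by
  intro v hv v' hv'
  have h1 := diff_lt (hJ v hv) (hJ v' hv')
  rw [h.eq, h.eq] at h1
  have h2 : γ + α * u + β * v' - (γ + α * u + β * v) = β * (v' - v) := by ring
  rw [h2] at h1
  have := abs_lt_of_mul h.β0 h1
  push_cast
  exact this

lemma Lab.col {Y : ℤ → ℤ → ℤ} {α β γ : ℤ} {Γ : ℕ} (h : Lab Y α β γ Γ) {n : ℕ} {l v : ℤ}
    {J : Finset ℤ} (hJ : ∀ u ∈ J, Y u v ∈ dI n l) : Dm J (2 ^ n) :=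
  h.swap.row hJ



/-! ### averages -/

variable {m : ℕ} {a b : ℤ} {Ti A : Finset (ℕ × ℤ × ℤ)} {B : ℤ → ℤ → ℂ} {r : ℝ}

lemma mB_sum_col (h : Tlg m a b Ti) (hA : A ⊆ Ti) (f : ℤ → ℂ) (v : ℤ) :
    ∑ u ∈ dI m a, conj (mB A B u v) * f u =
      ∑ c ∈ A.filter (fun c => v ∈ Cl c), ∑ u ∈ Rw c, conj (B u v) * f u := by
  classical
  have h1 : ∑ c ∈ A.filter (fun c => v ∈ Cl c), ∑ u ∈ Rw c, conj (B u v) * f u =
      ∑ u ∈ dI m a, ∑ _c ∈ A.filter (fun c => u ∈ Rw c ∧ v ∈ Cl c), conj (B u v) * f u := by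
    refine Finset.sum_comm' fun c u => ?_
    simp only [Finset.mem_filter]
    constructor
    · rintro ⟨⟨h1, h2⟩, h3⟩
      exact ⟨⟨h1, h3, h2⟩, (h.sub c (hA h1)).1 h3⟩
    · rintro ⟨⟨h1, h2, h3⟩, _⟩
      exact ⟨⟨h1, h3⟩, h2⟩
  rw [h1]
  refine Finset.sum_congr rfl fun u _ => ?_
  unfold mB
  split_ifs with hc
  · obtain ⟨c, hcA, h2, h3⟩ := hc
    have e : A.filter (fun c => u ∈ Rw c ∧ v ∈ Cl c) = {c} := by
      ext c'
      rw [Finset.mem_filter, Finset.mem_singleton]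
      constructor
      · rintro ⟨h4, h5, h6⟩
        exact h.dis c' (hA h4) c (hA hcA) u v h5 h6 h2 h3
      · rintro rfl
        exact ⟨hcA, h2, h3⟩
    rw [e, Finset.sum_singleton]
  · have e : A.filter (fun c => u ∈ Rw c ∧ v ∈ Cl c) = ∅ := by
      rw [Finset.filter_eq_empty_iff]
      intro c hcA hcc
      exact hc ⟨c, hcA, hcc⟩
    rw [e, Finset.sum_empty, map_zero, zero_mul]

/-- mean over the alive tiles of the column -/
noncomputable def avc (m : ℕ) (a : ℤ) (A : Finset (ℕ × ℤ × ℤ)) (B : ℤ → ℤ → ℂ) (r : ℝ)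
    (y : ℤ → ℂ) (v : ℤ) : ℂ :=
  (∑ u ∈ dI m a, conj (mB A B u v) * y u) / ((r * wtc A v : ℝ) : ℂ)

/-- **Jensen** : the mean over the alive tiles of a column -/
theorem jenc (h : Tlg m a b Ti) (hA : A ⊆ Ti) (hr : 0 < r) (x : ℂ) (y : ℤ → ℂ) {v : ℤ}
    (hw : 0 < wtc A v) :
    ‖x - avc m a A B r y v‖ ^ 2 ≤ 2 ^ m / wtc A v *
      ∑ c ∈ A.filter (fun c => v ∈ Cl c), (2 : ℝ) ^ c.1 / 2 ^ m * ‖x - mcc B r y c v‖ ^ 2 := by
  have e1 : ∀ c, mcc B r y c v = mm Rw sd (fun v u => conj (B u v)) y c v / (r : ℂ) := by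
    intro c
    unfold mcc mm
    rw [div_div]
    congr 1
    push_cast
    ring
  unfold avc
  rw [mB_sum_col h hA]
  simp only [e1]
  exact jensen (s := 2 ^ m) (Ro := Cl) (Co := Rw) (sz := sd) (A := A)
    (B := fun v u => conj (B u v)) (fun c _ => by positivity) (by positivity) hr x y v hw

lemma wt_nonneg (A : Finset (ℕ × ℤ × ℤ)) (u : ℤ) : 0 ≤ wt A u :=
  Finset.sum_nonneg fun _ _ => by positivity

lemma wtc_nonneg (A : Finset (ℕ × ℤ × ℤ)) (v : ℤ) : 0 ≤ wtc A v :=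
  Finset.sum_nonneg fun _ _ => by positivity

section strip

variable {Y : ℤ → ℤ → ℤ} {α β γ : ℤ} {Γ n : ℕ} {l : ℤ}




/-- averaging kernel, rows -/
noncomputable def LU (A : Finset (ℕ × ℤ × ℤ)) (B : ℤ → ℤ → ℂ) (r : ℝ) (u v : ℤ) : ℂ :=
  mB A B u v / ((r * wt A u : ℝ) : ℂ)

/-- averaging kernel, columns -/
noncomputable def LV (A : Finset (ℕ × ℤ × ℤ)) (B : ℤ → ℤ → ℂ) (r : ℝ) (v u : ℤ) : ℂ :=
  conj (mB A B u v) / ((r * wtc A v : ℝ) : ℂ)

lemma avg_LU (m : ℕ) (b : ℤ) (x : ℤ → ℂ) (u : ℤ) :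
    avg m b A B r x u = ∑ v ∈ dI m b, LU A B r u v * x v := by
  unfold avg LU
  rw [Finset.sum_div]
  exact Finset.sum_congr rfl fun v _ => by ring

lemma avc_LV (m : ℕ) (a : ℤ) (y : ℤ → ℂ) (v : ℤ) :
    avc m a A B r y v = ∑ u ∈ dI m a, LV A B r v u * y u := by
  unfold avc LV
  rw [Finset.sum_div]
  exact Finset.sum_congr rfl fun u _ => by ring

lemma kop_of_op {I J : Finset ℤ} {K : ℤ → ℤ → ℂ} {w : ℤ → ℝ} {o W C0 : ℝ} (hr : 0 < r)
    (hW : 0 < W) (hop : OpS I J K (r * W)) (ho : o = C0 ^ 2) {S : Finset ℤ} (hS : S ⊆ I)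
    (hw : ∀ u ∈ S, W ≤ C0 * w u) (hw0 : ∀ u, 0 ≤ w u) :
    KOp S J (fun u v => K u v / ((r * w u : ℝ) : ℂ)) o := by
  intro f
  have h1 : ∀ u ∈ S, ‖∑ v ∈ J, K u v / ((r * w u : ℝ) : ℂ) * f v‖ ^ 2 ≤
      (C0 / (r * W)) ^ 2 * ‖∑ v ∈ J, K u v * f v‖ ^ 2 := by
    intro u hu
    have h2 := hw u hu
    have hw1 : 0 < w u := by
      rcases (hw0 u).eq_or_lt with h3 | h3
      · rw [← h3, mul_zero] at h2
        linarith
      · exact h3
    have e1 : ∑ v ∈ J, K u v / ((r * w u : ℝ) : ℂ) * f v =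
        (∑ v ∈ J, K u v * f v) / ((r * w u : ℝ) : ℂ) := by
      rw [Finset.sum_div]
      exact Finset.sum_congr rfl fun v _ => by ring
    rw [e1, norm_div, Complex.norm_real, Real.norm_of_nonneg (by positivity), div_eq_mul_inv,
      mul_pow, mul_comm]
    refine mul_le_mul_of_nonneg_right (pow_le_pow_left₀ (by positivity) ?_ 2) (sq_nonneg _)
    rw [inv_eq_one_div, div_le_div_iff₀ (by positivity) (by positivity)]
    nlinarith
  calc ∑ u ∈ S, ‖∑ v ∈ J, K u v / ((r * w u : ℝ) : ℂ) * f v‖ ^ 2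
      ≤ ∑ u ∈ S, (C0 / (r * W)) ^ 2 * ‖∑ v ∈ J, K u v * f v‖ ^ 2 := Finset.sum_le_sum h1
    _ ≤ (C0 / (r * W)) ^ 2 * ∑ u ∈ I, ‖∑ v ∈ J, K u v * f v‖ ^ 2 := by
        rw [← Finset.mul_sum]
        exact mul_le_mul_of_nonneg_left
          (Finset.sum_le_sum_of_subset_of_nonneg hS fun _ _ _ => sq_nonneg _) (sq_nonneg _)
    _ ≤ (C0 / (r * W)) ^ 2 * ((r * W) ^ 2 * ∑ v ∈ J, ‖f v‖ ^ 2) :=
        mul_le_mul_of_nonneg_left (hop f) (sq_nonneg _)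
    _ = o * ∑ v ∈ J, ‖f v‖ ^ 2 := by
        rw [ho]
        field_simp


/-- Lemma A part of the tiles `A`, rows -/
noncomputable def RA (m : ℕ) (a : ℤ) (A : Finset (ℕ × ℤ × ℤ)) (B : ℤ → ℤ → ℂ) (r : ℝ)
    (y x : ℤ → ℂ) : ℝ :=
  ∑ u ∈ dI m a, ∑ c ∈ A.filter (fun c => u ∈ Rw c), (2 : ℝ) ^ c.1 / 2 ^ m *
    ‖y u - mc B r x c u‖ ^ 2

/-- Lemma A part of the tiles `A`, columns -/
noncomputable def CA (m : ℕ) (b : ℤ) (A : Finset (ℕ × ℤ × ℤ)) (B : ℤ → ℤ → ℂ) (r : ℝ)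
    (y x : ℤ → ℂ) : ℝ :=
  ∑ v ∈ dI m b, ∑ c ∈ A.filter (fun c => v ∈ Cl c), (2 : ℝ) ^ c.1 / 2 ^ m *
    ‖x v - mcc B r y c v‖ ^ 2



end strip

/-! ### sum over the grid nodes -/

section nodes

variable {Y : ℤ → ℤ → ℤ} {α β γ : ℤ} {Γ n : ℕ}













end nodes

end Crest.Agent.R079.NrVx248
end

-- ▼ part R079/NrY_248
section

/-! R079, note 1820 / 1922 (T3), STAGE 2 (helper248) under 228's geometry `CG`, in the names of NrB_228:
`stage2_cg` : the error of the second smoothing on the inner positions of all the strips is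
`≤ K2 kc θ * ((r' - r) / r) * Gd`. -/

set_option autoImplicit false

namespace Crest.Agent.R079.NrYx248

open Finset Crest.Agent.R079.Grid Crest.Agent.R079.Growth
open Crest.Agent.R079.ClW59 (OpS)
open Crest.Agent.R079.NrMx259 Crest.Agent.R079.NrTx259 Crest.Agent.R079.NrUx259
  Crest.Agent.R079.NrAx228 Crest.Agent.R079.NrBx228 Crest.Agent.R079.NrCx228
  Crest.Agent.R079.NrSx248 Crest.Agent.R079.NrVx248
open Crest.Agent.R079.NrWx259 (Gd bfX bfY)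

open scoped ComplexConjugate

variable {β : Type} {m : ℕ} {a b : ℤ} {Ti E1 : Finset (ℕ × ℤ × ℤ)} {Q : Finset β}
  {E2 : β → Finset (ℕ × ℤ × ℤ)} {P : β → ℤ → ℤ → Prop} {l kc : ℕ} {θ : ℝ}
  {A B : ℤ → ℤ → ℂ} {S T : Finset ℤ} {s : ℤ → ℝ} {Y X : ℤ → ℤ → ℂ} {r r' : ℝ}

lemma dm_row (G : CG m a b Ti E1 Q E2 P l kc θ) {q : β} (hq : q ∈ Q) {u : ℤ} {J : Finset ℤ}
    (hJ : ∀ v ∈ J, P q u v) : Dm J (2 ^ (l + 8)) := by
  intro v hv v' hv'
  have h1 := G.Pr q hq u v' v (hJ v' hv') (hJ v hv)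
  have h2 := (le_abs_self _).trans h1
  have h3 : (0 : ℤ) < 2 ^ (l + 7) := by positivity
  push_cast
  have h4 : (2 : ℤ) ^ (l + 8) = 2 * 2 ^ (l + 7) := by rw [pow_succ]; ring
  rw [h4]
  linarith

lemma dm_col (G : CG m a b Ti E1 Q E2 P l kc θ) {q : β} (hq : q ∈ Q) {v : ℤ} {J : Finset ℤ}
    (hJ : ∀ u ∈ J, P q u v) : Dm J (2 ^ (l + 8)) := by
  intro u hu u' hu'
  have h1 := G.Pc q hq u' u v (hJ u' hu') (hJ u hu)
  have h2 := (le_abs_self _).trans h1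
  have h3 : (0 : ℤ) < 2 ^ (l + 7) := by positivity
  push_cast
  have h4 : (2 : ℤ) ^ (l + 8) = 2 * 2 ^ (l + 7) := by rw [pow_succ]; ring
  rw [h4]
  linarith

lemma dm_row2 (G : CG m a b Ti E1 Q E2 P l kc θ) {q : β} (hq : q ∈ Q) {v0 : ℤ} {J : Finset ℤ}
    (hJ : ∀ v ∈ J, ∃ u, P q u v0 ∧ P q u v) : Dm J (2 ^ (l + 9)) := by
  intro v hv v' hv'
  obtain ⟨u, h1, h2⟩ := hJ v hv
  obtain ⟨u', h1', h2'⟩ := hJ v' hv'
  have h3 := (le_abs_self _).trans (G.Pr q hq u v0 v h1 h2)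
  have h4 := (le_abs_self _).trans (G.Pr q hq u' v' v0 h2' h1')
  have h5 : (0 : ℤ) < 2 ^ (l + 7) := by positivity
  push_cast
  have h6 : (2 : ℤ) ^ (l + 9) = 4 * 2 ^ (l + 7) := by rw [pow_add, pow_add]; ring
  rw [h6]
  linarith

lemma wt_cg (G : CG m a b Ti E1 Q E2 P l kc θ) {q : β} (hq : q ∈ Q) (u : ℤ) :
    wt (E2 q) u ≤ 2 ^ (l + 8) := by
  classical
  have h1 : wt (E2 q) u ≤ ((((E2 q).filter (fun c => u ∈ Rw c)).biUnion Cl).card : ℝ) :=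
    sum_side (fun c hc => Finset.subset_biUnion_of_mem Cl hc)
      (G.tl.cdis ((Finset.filter_subset _ _).trans (G.E2s q hq))
        fun c hc => (Finset.mem_filter.1 hc).2)
  refine h1.trans ?_
  have h2 : Dm (((E2 q).filter (fun c => u ∈ Rw c)).biUnion Cl) (2 ^ (l + 8)) :=
    dm_row G hq (u := u) fun v hv => by
      obtain ⟨c, hc, hvc⟩ := Finset.mem_biUnion.1 hv
      exact G.E2P q hq c (Finset.mem_filter.1 hc).1 u (Finset.mem_filter.1 hc).2 v hvc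
  exact_mod_cast h2.card

lemma wtc_cg (G : CG m a b Ti E1 Q E2 P l kc θ) {q : β} (hq : q ∈ Q) (v : ℤ) :
    wtc (E2 q) v ≤ 2 ^ (l + 8) := by
  classical
  have h1 : wtc (E2 q) v ≤ ((((E2 q).filter (fun c => v ∈ Cl c)).biUnion Rw).card : ℝ) :=
    sum_side_row (fun c hc => Finset.subset_biUnion_of_mem Rw hc)
      (G.tl.rdis ((Finset.filter_subset _ _).trans (G.E2s q hq))
        fun c hc => (Finset.mem_filter.1 hc).2)
  refine h1.trans ?_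
  have h2 : Dm (((E2 q).filter (fun c => v ∈ Cl c)).biUnion Rw) (2 ^ (l + 8)) :=
    dm_col G hq (v := v) fun u hu => by
      obtain ⟨c, hc, huc⟩ := Finset.mem_biUnion.1 hu
      exact G.E2P q hq c (Finset.mem_filter.1 hc).1 u huc v (Finset.mem_filter.1 hc).2
  exact_mod_cast h2.card

/-- operator norm of the masked kernel of a grid node -/
theorem op_cg (G : CG m a b Ti E1 Q E2 P l kc θ) {q : β} (hq : q ∈ Q)
    (hop : ∀ c ∈ Ti, OpS (Rw c) (Cl c) B (r * 2 ^ c.1)) :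
    OpS (dI m a) (dI m b) (mB (E2 q) B) (r * 2 ^ (l + 8)) := by
  have h1 := op_strip (I0 := dI m a) G.tl (G.E2s q hq) (fun c hc => hop c (G.E2s q hq hc))
    (S' := 2 ^ (l + 8)) (l := 2 ^ (l + 8)) (by positivity) (by positivity)
    (fun u _ => wt_cg G hq u) (fun v _ => ?_)
  · rw [Real.sqrt_mul_self (by positivity)] at h1
    exact h1
  · refine le_trans (Finset.sum_le_sum_of_subset_of_nonneg ?_ fun _ _ _ => by positivity)
      (wtc_cg G hq v)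
    intro c hc
    rw [Finset.mem_filter] at hc ⊢
    exact ⟨hc.1, hc.2.1⟩

/-- spread constant -/
noncomputable def sp (m l kc : ℕ) (θ : ℝ) : ℝ := 513 * (2 ^ (l + kc) / 2 ^ m / θ ^ 2)

lemma sp_nonneg (m l kc : ℕ) (θ : ℝ) : 0 ≤ sp m l kc θ := by
  unfold sp
  positivity

theorem spr_x1 (G : CG m a b Ti E1 Q E2 P l kc θ) (hr : 0 < r) (hθ : 0 < θ)
    (hop : ∀ c ∈ Ti, OpS (Rw c) (Cl c) B (r * 2 ^ c.1)) (H : SvC A S T s Y X) (hS : S ⊆ dI m a) :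
    Spr T (x1 m a E1 B r Y) (dI m b) (2 ^ (l + 9)) (sp m l kc θ) := by
  intro J hJ hD
  obtain ⟨x, hx⟩ := hD.sub
  have h1 := bf_x1 G hr hθ hop H hS hJ (x := x) (y := x + ((2 ^ (l + 9) : ℕ) : ℤ)) (N := 2 ^ 9)
    (by push_cast; rw [pow_add]; ring_nf; rfl) hx
  have e : ((2 ^ 9 : ℕ) : ℝ) + 1 = 513 := by norm_num
  rw [e] at h1
  exact h1

open Classical in
/-- inner rows / columns of a grid node -/
noncomputable def inn (I : Finset ℤ) (w : ℤ → ℝ) (l : ℕ) : Finset ℤ :=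
  I.filter (fun u => (2 : ℝ) ^ l ≤ w u)

lemma mem_inn {I : Finset ℤ} {w : ℤ → ℝ} {l : ℕ} {u : ℤ} :
    u ∈ inn I w l ↔ u ∈ I ∧ (2 : ℝ) ^ l ≤ w u := Finset.mem_filter

lemma inn_sub (I : Finset ℤ) (w : ℤ → ℝ) (l : ℕ) : inn I w l ⊆ I := Finset.filter_subset _ _

lemma two8 {w : ℝ} (h : (2 : ℝ) ^ l ≤ w) : (2 : ℝ) ^ (l + 8) ≤ 2 ^ 8 * w := by
  rw [pow_add]
  linarith

/-- **the hypotheses of `S2`** -/
theorem s2_cg (G : CG m a b Ti E1 Q E2 P l kc θ) (hr : 0 < r) (hθ : 0 < θ)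
    (hop : ∀ c ∈ Ti, OpS (Rw c) (Cl c) B (r * 2 ^ c.1)) (H : SvC A S T s Y X) (hS : S ⊆ dI m a)
    {q : β} (hq : q ∈ Q) :
    S2 T (dI m a) (dI m b) (inn (dI m a) (wt (E2 q)) l) (inn (dI m b) (wtc (E2 q)) l) (P q)
      (LU (E2 q) B r) (LV (E2 q) B r) (dI m b) (dI m a) Y X (y1 m b E1 B r X)
      (x1 m a E1 B r Y) ((2 ^ 8) ^ 2) (sp m l kc θ) where
  c0 := by positivity
  σ0 := sp_nonneg _ _ _ _
  hSi := inn_sub _ _ _
  hTi := inn_sub _ _ _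
  hWU := Finset.Subset.refl _
  hWV := Finset.Subset.refl _
  kU := kop_of_op hr (by positivity) (op_cg G hq hop) rfl (inn_sub _ _ _)
    (fun u hu => two8 (mem_inn.1 hu).2) (wt_nonneg _)
  kV := kop_of_op hr (by positivity) (opS_swap (by positivity) (op_cg G hq hop)) rfl
    (inn_sub _ _ _) (fun u hu => two8 (mem_inn.1 hu).2) (wtc_nonneg _)
  sU := fun _ _ y hy hn => absurd hy hn
  sV := fun _ _ y hy hn => absurd hy hn
  spX := by
    intro u _ J hJ hP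
    exact spr_x1 G hr hθ hop H hS J (hJ.trans (inn_sub _ _ _))
      ((dm_row G hq hP).le (Nat.pow_le_pow_right (by norm_num) (by omega)))
  spX' := by
    classical
    intro v hv J hJ hP
    refine ⟨(dI m b).filter (fun v' => ∃ u, P q u v ∧ P q u v'),
      Finset.filter_subset _ _, ?_, ?_⟩
    · exact spr_x1 G hr hθ hop H hS _ (Finset.filter_subset _ _)
        (dm_row2 G hq (v0 := v) fun v' hv' => (Finset.mem_filter.1 hv').2)
    · intro u hu v' hv' hn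
      unfold LU mB
      rw [if_neg, zero_div]
      rintro ⟨c, hc, h1, h2⟩
      exact hn (Finset.mem_filter.2 ⟨hv', u, hP u hu, G.E2P q hq c hc u h1 v' h2⟩)

/-- constant of the spread -/
noncomputable def Cs (kc : ℕ) (θ : ℝ) : ℝ := 513 * 2 ^ kc / θ ^ 2

lemma Cs_nonneg (kc : ℕ) (θ : ℝ) : 0 ≤ Cs kc θ := by
  unfold Cs
  positivity

lemma sp_eq (m l kc : ℕ) (θ : ℝ) : sp m l kc θ = Cs kc θ * (2 ^ l / 2 ^ m) := by
  unfold sp Cs
  rw [pow_add]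
  ring

lemma inv_wt {w : ℝ} (h : (2 : ℝ) ^ l ≤ w) : 0 < w ∧ (2 : ℝ) ^ m / w ≤ 2 ^ m / 2 ^ l := by
  have h1 : (0 : ℝ) < 2 ^ l := by positivity
  have h2 : 0 < w := h1.trans_le h
  exact ⟨h2, div_le_div_of_nonneg_left (by positivity) h1 h⟩

open Classical in
/-- **STAGE 2, one grid node** -/
theorem strip_cg (G : CG m a b Ti E1 Q E2 P l kc θ) (hr : 0 < r) (hθ : 0 < θ)
    (hop : ∀ c ∈ Ti, OpS (Rw c) (Cl c) B (r * 2 ^ c.1)) (H : SvC A S T s Y X) (hS : S ⊆ dI m a)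
    {q : β} (hq : q ∈ Q) (d : ℤ → ℝ) :
    ∑ u ∈ inn (dI m a) (wt (E2 q)) l,
      ∑ v ∈ (inn (dI m b) (wtc (E2 q)) l).filter (fun v => P q u v),
      ‖∑ k ∈ T, (d k : ℂ) * (Y k u * conj (X k v) - yt m a b E1 (E2 q) B r (2 ^ l) Y k u *
        conj (xt m a b E1 (E2 q) B r (2 ^ l) X k v))‖ ^ 2 ≤
    3 * ∑ u ∈ inn (dI m a) (wt (E2 q)) l,
      ∑ v ∈ (inn (dI m b) (wtc (E2 q)) l).filter (fun v => P q u v),
      ‖∑ k ∈ T, (d k : ℂ) * (Y k u * conj (X k v - x1 m a E1 B r Y k v))‖ ^ 2 +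
    3 * ∑ k ∈ T, d k ^ 2 * (2 * Cs kc θ * RA m a (E2 q) B r (Y k) (X k) +
      4 * 2 ^ 16 * Cs kc θ * CA m b (E2 q) B r (Y k) (X k) +
      4 * 2 ^ 16 * Cs kc θ * (2 ^ l / 2 ^ m * ∑ v ∈ dI m b, ‖X k v - x1 m a E1 B r Y k v‖ ^ 2) +
      4 * 2 ^ 32 * Cs kc θ * (2 ^ l / 2 ^ m * ∑ u ∈ dI m a, ‖Y k u - y1 m b E1 B r X k u‖ ^ 2)) := by
  have h1 := (s2_cg G hr hθ hop H hS hq).strip d (yt m a b E1 (E2 q) B r (2 ^ l) Y)
    (xt m a b E1 (E2 q) B r (2 ^ l) X)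
    (fun k _ u hu => by
      unfold yt
      rw [if_pos (mem_inn.1 hu).2, avg_LU])
    (fun k _ v hv => by
      unfold xt
      rw [if_pos (mem_inn.1 hv).2]
      exact avc_LV m a _ v)
  refine h1.trans (add_le_add_right (mul_le_mul_of_nonneg_left (Finset.sum_le_sum fun k _ =>
    mul_le_mul_of_nonneg_left ?_ (sq_nonneg _)) (by norm_num)) _)
  have hL : (0 : ℝ) < 2 ^ l := by positivity
  have hM : (0 : ℝ) < 2 ^ m := by positivity
  have hC := Cs_nonneg kc θ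
  rw [sp_eq]
  have hA := G.E2s q hq
  have e1 : ∑ u ∈ (inn (dI m a) (wt (E2 q)) l).filter
      (fun u => ∃ v ∈ inn (dI m b) (wtc (E2 q)) l, P q u v),
      ‖Y k u - ∑ v ∈ dI m b, LU (E2 q) B r u v * X k v‖ ^ 2 ≤
      2 ^ m / 2 ^ l * RA m a (E2 q) B r (Y k) (X k) := by
    unfold RA
    rw [Finset.mul_sum]
    refine (Finset.sum_le_sum (g := fun u => 2 ^ m / 2 ^ l *
      ∑ c ∈ (E2 q).filter (fun c => u ∈ Rw c), (2 : ℝ) ^ c.1 / 2 ^ m *
        ‖Y k u - mc B r (X k) c u‖ ^ 2) fun u hu => ?_).trans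
      (Finset.sum_le_sum_of_subset_of_nonneg ((Finset.filter_subset _ _).trans (inn_sub _ _ _))
        fun _ _ _ => ?_)
    · rw [← avg_LU]
      obtain ⟨hw1, hw2⟩ := inv_wt (m := m) (mem_inn.1 (Finset.mem_filter.1 hu).1).2
      refine (jen G.tl hA hr (Y k u) (X k) hw1).trans (mul_le_mul_of_nonneg_right hw2 ?_)
      exact Finset.sum_nonneg fun c _ => by positivity
    · exact mul_nonneg (by positivity) (Finset.sum_nonneg fun c _ => by positivity)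
  have e2 : ∑ v ∈ (inn (dI m b) (wtc (E2 q)) l).filter
      (fun v => ∃ u ∈ inn (dI m a) (wt (E2 q)) l, P q u v),
      ‖X k v - ∑ u ∈ dI m a, LV (E2 q) B r v u * Y k u‖ ^ 2 ≤
      2 ^ m / 2 ^ l * CA m b (E2 q) B r (Y k) (X k) := by
    unfold CA
    rw [Finset.mul_sum]
    refine (Finset.sum_le_sum (g := fun v => 2 ^ m / 2 ^ l *
      ∑ c ∈ (E2 q).filter (fun c => v ∈ Cl c), (2 : ℝ) ^ c.1 / 2 ^ m *
        ‖X k v - mcc B r (Y k) c v‖ ^ 2) fun v hv => ?_).trans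
      (Finset.sum_le_sum_of_subset_of_nonneg ((Finset.filter_subset _ _).trans (inn_sub _ _ _))
        fun _ _ _ => ?_)
    · rw [← avc_LV]
      obtain ⟨hw1, hw2⟩ := inv_wt (m := m) (mem_inn.1 (Finset.mem_filter.1 hv).1).2
      refine (jenc G.tl hA hr (X k v) (Y k) hw1).trans (mul_le_mul_of_nonneg_right hw2 ?_)
      exact Finset.sum_nonneg fun c _ => by positivity
    · exact mul_nonneg (by positivity) (Finset.sum_nonneg fun c _ => by positivity)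
  have e3 : ∑ v ∈ (inn (dI m b) (wtc (E2 q)) l).filter
      (fun v => ∃ u ∈ inn (dI m a) (wt (E2 q)) l, P q u v),
      ‖x1 m a E1 B r Y k v - X k v‖ ^ 2 ≤
      ∑ v ∈ dI m b, ‖X k v - x1 m a E1 B r Y k v‖ ^ 2 := by
    have a1 : ∀ v, ‖x1 m a E1 B r Y k v - X k v‖ ^ 2 = ‖X k v - x1 m a E1 B r Y k v‖ ^ 2 :=
      fun v => by rw [norm_sub_rev]
    simp only [a1]
    exact Finset.sum_le_sum_of_subset_of_nonneg ((Finset.filter_subset _ _).trans (inn_sub _ _ _))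
      fun _ _ _ => sq_nonneg _
  set S1 := ∑ u ∈ (inn (dI m a) (wt (E2 q)) l).filter
      (fun u => ∃ v ∈ inn (dI m b) (wtc (E2 q)) l, P q u v),
      ‖Y k u - ∑ v ∈ dI m b, LU (E2 q) B r u v * X k v‖ ^ 2
  set S2 := ∑ v ∈ (inn (dI m b) (wtc (E2 q)) l).filter
      (fun v => ∃ u ∈ inn (dI m a) (wt (E2 q)) l, P q u v),
      ‖X k v - ∑ u ∈ dI m a, LV (E2 q) B r v u * Y k u‖ ^ 2
  set S3 := ∑ v ∈ (inn (dI m b) (wtc (E2 q)) l).filter
      (fun v => ∃ u ∈ inn (dI m a) (wt (E2 q)) l, P q u v),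
      ‖x1 m a E1 B r Y k v - X k v‖ ^ 2
  set F1 := ∑ v ∈ dI m b, ‖X k v - x1 m a E1 B r Y k v‖ ^ 2
  set F2 := ∑ u ∈ dI m a, ‖Y k u - y1 m b E1 B r X k u‖ ^ 2
  set R1 := RA m a (E2 q) B r (Y k) (X k)
  set R2 := CA m b (E2 q) B r (Y k) (X k)
  have hg : (0 : ℝ) ≤ Cs kc θ * (2 ^ l / 2 ^ m) := by positivity
  have f1 : Cs kc θ * (2 ^ l / 2 ^ m) * (2 * S1) ≤ 2 * Cs kc θ * R1 := by
    have h2 := mul_le_mul_of_nonneg_left e1 (mul_nonneg zero_le_two hg)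
    have e : 2 * (Cs kc θ * (2 ^ l / 2 ^ m)) * (2 ^ m / 2 ^ l * R1) = 2 * Cs kc θ * R1 := by
      field_simp
    linarith
  have f2 : Cs kc θ * (2 ^ l / 2 ^ m) * S2 ≤ Cs kc θ * R2 := by
    have h2 := mul_le_mul_of_nonneg_left e2 hg
    have e : Cs kc θ * (2 ^ l / 2 ^ m) * (2 ^ m / 2 ^ l * R2) = Cs kc θ * R2 := by
      field_simp
    linarith
  have f3 : Cs kc θ * (2 ^ l / 2 ^ m) * S3 ≤ Cs kc θ * (2 ^ l / 2 ^ m) * F1 :=
    mul_le_mul_of_nonneg_left e3 hg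
  calc Cs kc θ * (2 ^ l / 2 ^ m) * (2 * S1 + 2 * ((2 ^ 8) ^ 2 * F1)) +
        (2 ^ 8) ^ 2 * (Cs kc θ * (2 ^ l / 2 ^ m)) *
        (2 * S3 + 2 * (2 * S2 + 2 * ((2 ^ 8) ^ 2 * F2)))
      = Cs kc θ * (2 ^ l / 2 ^ m) * (2 * S1) + 4 * 2 ^ 16 * (Cs kc θ * (2 ^ l / 2 ^ m) * S2) +
        2 * 2 ^ 16 * (Cs kc θ * (2 ^ l / 2 ^ m) * S3) +
        (2 * 2 ^ 16 * (Cs kc θ * (2 ^ l / 2 ^ m) * F1) +
          4 * 2 ^ 32 * Cs kc θ * (2 ^ l / 2 ^ m * F2)) := by ring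
    _ ≤ 2 * Cs kc θ * R1 + 4 * 2 ^ 16 * (Cs kc θ * R2) +
        2 * 2 ^ 16 * (Cs kc θ * (2 ^ l / 2 ^ m) * F1) +
        (2 * 2 ^ 16 * (Cs kc θ * (2 ^ l / 2 ^ m) * F1) +
          4 * 2 ^ 32 * Cs kc θ * (2 ^ l / 2 ^ m * F2)) := by
        linarith
    _ = _ := by ring

/-- disjoint sets of tiles -/
lemma sum_A' (G : CG m a b Ti E1 Q E2 P l kc θ) (p : ℕ × ℤ × ℤ → Prop)
    [DecidablePred p] (g : ℕ × ℤ × ℤ → ℝ) (hg : ∀ c, 0 ≤ g c) :
    ∑ q ∈ Q, ∑ c ∈ (E2 q).filter p, g c ≤ ∑ c ∈ Ti.filter p, g c := by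
  classical
  rw [← Finset.sum_biUnion]
  · refine Finset.sum_le_sum_of_subset_of_nonneg (fun c hc => ?_) fun _ _ _ => hg _
    obtain ⟨q, hq, hc'⟩ := Finset.mem_biUnion.1 hc
    rw [Finset.mem_filter] at hc' ⊢
    exact ⟨G.E2s q hq hc'.1, hc'.2⟩
  · intro q hq q' hq' hne
    rw [Function.onFun, Finset.disjoint_left]
    intro c hc hc'
    exact hne (G.E2d q hq q' hq' c (Finset.mem_filter.1 hc).1 (Finset.mem_filter.1 hc').1)

lemma sum_RA' (G : CG m a b Ti E1 Q E2 P l kc θ) (y x : ℤ → ℂ) :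
    ∑ q ∈ Q, RA m a (E2 q) B r y x ≤ RA m a Ti B r y x := by
  unfold RA
  rw [Finset.sum_comm]
  exact Finset.sum_le_sum fun u _ => sum_A' G _ _ fun c => by positivity

lemma sum_CA' (G : CG m a b Ti E1 Q E2 P l kc θ) (y x : ℤ → ℂ) :
    ∑ q ∈ Q, CA m b (E2 q) B r y x ≤ CA m b Ti B r y x := by
  unfold CA
  rw [Finset.sum_comm]
  exact Finset.sum_le_sum fun u _ => sum_A' G _ _ fun c => by positivity

lemma sum_const_le (G : CG m a b Ti E1 Q E2 P l kc θ) {F : ℝ} (hF : 0 ≤ F) :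
    ∑ _q ∈ Q, 2 ^ l / 2 ^ m * F ≤ 2 * F := by
  rw [Finset.sum_const, nsmul_eq_mul]
  have hM : (0 : ℝ) < 2 ^ m := by positivity
  calc (Q.card : ℝ) * (2 ^ l / 2 ^ m * F) = (Q.card : ℝ) * 2 ^ l / 2 ^ m * F := by ring
    _ ≤ 2 * 2 ^ m / 2 ^ m * F :=
        mul_le_mul_of_nonneg_right (div_le_div_of_nonneg_right G.cd hM.le) hF
    _ = _ := by field_simp

open Classical in
/-- part 1: paid once -/
lemma part_one' (G : CG m a b Ti E1 Q E2 P l kc θ) (H : SvC A S T s Y X) (hS : S ⊆ dI m a)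
    (x : ℤ → ℤ → ℂ) (d : ℤ → ℝ) :
    ∑ q ∈ Q, ∑ u ∈ inn (dI m a) (wt (E2 q)) l,
      ∑ v ∈ (inn (dI m b) (wtc (E2 q)) l).filter (fun v => P q u v),
      ‖∑ k ∈ T, (d k : ℂ) * (Y k u * conj (X k v - x k v))‖ ^ 2 ≤
    ∑ k ∈ T, d k ^ 2 * ∑ v ∈ dI m b, ‖X k v - x k v‖ ^ 2 := by
  set A1 : ℤ → ℤ → ℂ := fun u v => ∑ k ∈ T, (d k : ℂ) * (Y k u * conj (X k v - x k v)) with hA1
  have a1 : ∑ q ∈ Q, ∑ u ∈ inn (dI m a) (wt (E2 q)) l,
      ∑ v ∈ (inn (dI m b) (wtc (E2 q)) l).filter (fun v => P q u v), ‖A1 u v‖ ^ 2 ≤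
      ∑ u ∈ dI m a, ∑ v ∈ dI m b, ‖A1 u v‖ ^ 2 := by
    have a2 : ∀ q ∈ Q, ∑ u ∈ inn (dI m a) (wt (E2 q)) l,
        ∑ v ∈ (inn (dI m b) (wtc (E2 q)) l).filter (fun v => P q u v), ‖A1 u v‖ ^ 2 ≤
        ∑ u ∈ dI m a, ∑ v ∈ dI m b, if P q u v then ‖A1 u v‖ ^ 2 else 0 := by
      intro q hq
      refine (Finset.sum_le_sum fun u _ => ?_).trans (Finset.sum_le_sum_of_subset_of_nonneg
        (inn_sub _ _ _) fun u _ _ => Finset.sum_nonneg fun v _ => ?_)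
      · rw [Finset.sum_filter]
        refine Finset.sum_le_sum_of_subset_of_nonneg (inn_sub _ _ _) fun v _ _ => ?_
        split_ifs
        · exact sq_nonneg _
        · exact le_rfl
      · split_ifs
        · exact sq_nonneg _
        · exact le_rfl
    refine (Finset.sum_le_sum a2).trans ?_
    rw [Finset.sum_comm]
    refine Finset.sum_le_sum fun u _ => ?_
    rw [Finset.sum_comm]
    refine Finset.sum_le_sum fun v _ => ?_
    by_cases hq : ∃ q ∈ Q, P q u v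
    · obtain ⟨q, hqQ, hqP⟩ := hq
      rw [Finset.sum_eq_single_of_mem q hqQ, if_pos hqP]
      intro q' hq' hne
      rw [if_neg]
      intro hP
      exact hne (G.Pd q' hq' q hqQ u v hP hqP)
    · rw [Finset.sum_eq_zero]
      · exact sq_nonneg _
      · intro q hqQ
        rw [if_neg fun hP => hq ⟨q, hqQ, hP⟩]
  refine a1.trans ?_
  rw [Finset.sum_comm]
  have hYk : Syn T Y (dI m a) 1 := bfY H hS
  calc ∑ v ∈ dI m b, ∑ u ∈ dI m a, ‖A1 u v‖ ^ 2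
      ≤ ∑ v ∈ dI m b, 1 * ∑ k ∈ T, d k ^ 2 * ‖X k v - x k v‖ ^ 2 :=
        Finset.sum_le_sum fun v _ => hYk.col d (fun k => X k v - x k v)
    _ = _ := by
        simp only [one_mul]
        rw [Finset.sum_comm]
        exact Finset.sum_congr rfl fun k _ => (Finset.mul_sum _ _ _).symm

/-- the constant of stage 2 -/
noncomputable def K2 (kc : ℕ) (θ : ℝ) : ℝ :=
  12 * Cs kc θ + 24 * 2 ^ 16 * Cs kc θ + 6 / θ * (1 + 8 * 2 ^ 16 * Cs kc θ) +
    48 * 2 ^ 32 * Cs kc θ / θ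

lemma K2_nonneg (kc : ℕ) (hθ : 0 < θ) : 0 ≤ K2 kc θ := by
  have := Cs_nonneg kc θ
  unfold K2
  positivity

open Classical in
/-- **STAGE 2** : all the inner positions of the strips of one cell -/
theorem stage2_cg (G : CG m a b Ti E1 Q E2 P l kc θ) (hr : 0 < r) (hrr : r ≤ r') (hθ : 0 < θ)
    (hop : ∀ c ∈ Ti, OpS (Rw c) (Cl c) B (r * 2 ^ c.1)) (H : SvC A S T s Y X) (hS : S ⊆ dI m a)
    (hT : T ⊆ dI m b) :
    ∑ q ∈ Q, ∑ u ∈ inn (dI m a) (wt (E2 q)) l,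
      ∑ v ∈ (inn (dI m b) (wtc (E2 q)) l).filter (fun v => P q u v),
      ‖∑ k ∈ T, (dk s (r * 2 ^ m) (r' * 2 ^ m) k : ℂ) * (Y k u * conj (X k v) -
        yt m a b E1 (E2 q) B r (2 ^ l) Y k u *
        conj (xt m a b E1 (E2 q) B r (2 ^ l) X k v))‖ ^ 2 ≤
    K2 kc θ * ((r' - r) / r) * Gd B S T Y X s (r * 2 ^ m) := by
  set d : ℤ → ℝ := dk s (r * 2 ^ m) (r' * 2 ^ m) with hd
  have hC := Cs_nonneg kc θ
  refine (Finset.sum_le_sum fun q hq => strip_cg G hr hθ hop H hS hq d).trans ?_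
  rw [Finset.sum_add_distrib, ← Finset.mul_sum, ← Finset.mul_sum, Finset.sum_comm (s := Q)]
  have p1 := part_one' G H hS (x1 m a E1 B r Y) d
  have p2 : ∑ k ∈ T, ∑ q ∈ Q, d k ^ 2 * (2 * Cs kc θ * RA m a (E2 q) B r (Y k) (X k) +
      4 * 2 ^ 16 * Cs kc θ * CA m b (E2 q) B r (Y k) (X k) +
      4 * 2 ^ 16 * Cs kc θ * (2 ^ l / 2 ^ m * ∑ v ∈ dI m b, ‖X k v - x1 m a E1 B r Y k v‖ ^ 2) +
      4 * 2 ^ 32 * Cs kc θ * (2 ^ l / 2 ^ m *
        ∑ u ∈ dI m a, ‖Y k u - y1 m b E1 B r X k u‖ ^ 2)) ≤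
      ∑ k ∈ T, d k ^ 2 * (2 * Cs kc θ * RA m a Ti B r (Y k) (X k) +
      4 * 2 ^ 16 * Cs kc θ * CA m b Ti B r (Y k) (X k) +
      4 * 2 ^ 16 * Cs kc θ * (2 * ∑ v ∈ dI m b, ‖X k v - x1 m a E1 B r Y k v‖ ^ 2) +
      4 * 2 ^ 32 * Cs kc θ * (2 * ∑ u ∈ dI m a, ‖Y k u - y1 m b E1 B r X k u‖ ^ 2)) := by
    refine Finset.sum_le_sum fun k _ => ?_
    rw [← Finset.mul_sum, Finset.sum_add_distrib, Finset.sum_add_distrib,
      Finset.sum_add_distrib]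
    refine mul_le_mul_of_nonneg_left ?_ (sq_nonneg _)
    have q1 := mul_le_mul_of_nonneg_left (sum_RA' (B := B) (r := r) G (Y k) (X k))
      (show 0 ≤ 2 * Cs kc θ by positivity)
    have q2 := mul_le_mul_of_nonneg_left (sum_CA' (B := B) (r := r) G (Y k) (X k))
      (show 0 ≤ 4 * 2 ^ 16 * Cs kc θ by positivity)
    have q3 := mul_le_mul_of_nonneg_left (sum_const_le G
      (F := ∑ v ∈ dI m b, ‖X k v - x1 m a E1 B r Y k v‖ ^ 2)
      (Finset.sum_nonneg fun _ _ => sq_nonneg _)) (show 0 ≤ 4 * 2 ^ 16 * Cs kc θ by positivity)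
    have q4 := mul_le_mul_of_nonneg_left (sum_const_le G
      (F := ∑ u ∈ dI m a, ‖Y k u - y1 m b E1 B r X k u‖ ^ 2)
      (Finset.sum_nonneg fun _ _ => sq_nonneg _)) (show 0 ≤ 4 * 2 ^ 32 * Cs kc θ by positivity)
    rw [Finset.mul_sum] at q1 q2 q3 q4
    exact add_le_add (add_le_add (add_le_add q1 q2) q3) q4
  have g1 := NrWx259.EA (s := s) G.tl hr hrr hop H hS hT
  have g2 := NrWx259.EAc (s := s) G.tl hr hrr hop H hS hT
  have g3 := NrWx259.E2 (s := s) G.tl G.E1s hr hrr hθ hop H hS hT (J := dI m b)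
    (Finset.Subset.refl _) G.E1c
  have g4 := NrWx259.E1 (s := s) G.tl G.E1s hr hrr hθ hop H hS hT (I := dI m a)
    (Finset.Subset.refl _) G.E1r
  set D := Gd B S T Y X s (r * 2 ^ m) with hD
  have g1' : ∑ k ∈ T, d k ^ 2 * RA m a Ti B r (Y k) (X k) ≤ 2 * (r' - r) / r * D := g1
  have g2' : ∑ k ∈ T, d k ^ 2 * CA m b Ti B r (Y k) (X k) ≤ 2 * (r' - r) / r * D := g2
  have g3' : ∑ k ∈ T, d k ^ 2 * ∑ v ∈ dI m b, ‖X k v - x1 m a E1 B r Y k v‖ ^ 2 ≤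
      2 * (r' - r) / (θ * r) * D := g3
  have g4' : ∑ k ∈ T, d k ^ 2 * ∑ u ∈ dI m a, ‖Y k u - y1 m b E1 B r X k u‖ ^ 2 ≤
      2 * (r' - r) / (θ * r) * D := g4
  set R1 := ∑ k ∈ T, d k ^ 2 * RA m a Ti B r (Y k) (X k)
  set R2 := ∑ k ∈ T, d k ^ 2 * CA m b Ti B r (Y k) (X k)
  set F1 := ∑ k ∈ T, d k ^ 2 * ∑ v ∈ dI m b, ‖X k v - x1 m a E1 B r Y k v‖ ^ 2
  set F2 := ∑ k ∈ T, d k ^ 2 * ∑ u ∈ dI m a, ‖Y k u - y1 m b E1 B r X k u‖ ^ 2
  have p3 : ∑ k ∈ T, d k ^ 2 * (2 * Cs kc θ * RA m a Ti B r (Y k) (X k) +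
      4 * 2 ^ 16 * Cs kc θ * CA m b Ti B r (Y k) (X k) +
      4 * 2 ^ 16 * Cs kc θ * (2 * ∑ v ∈ dI m b, ‖X k v - x1 m a E1 B r Y k v‖ ^ 2) +
      4 * 2 ^ 32 * Cs kc θ * (2 * ∑ u ∈ dI m a, ‖Y k u - y1 m b E1 B r X k u‖ ^ 2)) =
      2 * Cs kc θ * R1 + 4 * 2 ^ 16 * Cs kc θ * R2 + 8 * 2 ^ 16 * Cs kc θ * F1 +
        8 * 2 ^ 32 * Cs kc θ * F2 := by
    rw [Finset.mul_sum, Finset.mul_sum, Finset.mul_sum, Finset.mul_sum,
      ← Finset.sum_add_distrib, ← Finset.sum_add_distrib, ← Finset.sum_add_distrib]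
    exact Finset.sum_congr rfl fun k _ => by ring
  rw [p3] at p2
  set t := (r' - r) / r * D with ht
  have e1 : 2 * (r' - r) / r * D = 2 * t := by rw [ht]; ring
  have e2 : 2 * (r' - r) / (θ * r) * D = 2 / θ * t := by
    rw [ht]
    field_simp
  rw [e1] at g1' g2'
  rw [e2] at g3' g4'
  have h1 := mul_le_mul_of_nonneg_left g1' (show 0 ≤ 6 * Cs kc θ by positivity)
  have h2 := mul_le_mul_of_nonneg_left g2' (show 0 ≤ 12 * 2 ^ 16 * Cs kc θ by positivity)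
  have h3 := mul_le_mul_of_nonneg_left g3' (show 0 ≤ 3 * (1 + 8 * 2 ^ 16 * Cs kc θ) by positivity)
  have h4 := mul_le_mul_of_nonneg_left g4' (show 0 ≤ 24 * 2 ^ 32 * Cs kc θ by positivity)
  have e3 : K2 kc θ * ((r' - r) / r) * D = 6 * Cs kc θ * (2 * t) +
      12 * 2 ^ 16 * Cs kc θ * (2 * t) + 3 * (1 + 8 * 2 ^ 16 * Cs kc θ) * (2 / θ * t) +
      24 * 2 ^ 32 * Cs kc θ * (2 / θ * t) := by
    rw [ht]
    unfold K2
    ring
  rw [e3]
  linarith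

end Crest.Agent.R079.NrYx248
end

-- ▼ part R079/NrE_228
section

/-! # R079 (S0106), T3 (helper228): THE ONE-CELL THEOREM `CellT` (248's stage 2 + edges) and the
unconditional per-cell input `cell_in` (`CellIn` of `ErL_255` for the frame kernels `Zff`). -/

set_option autoImplicit false

namespace Crest.Agent.R079.NrEx228

open Finset Crest.Agent.R079.Grid Crest.Agent.R079.Growth Crest.Agent.R079.QRed
  Crest.Agent.R079.Qh249 Crest.Agent.R079.QVar181 Crest.Agent.R079.TWin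
open Crest.Agent.R079.ThA159
open Crest.Agent.R079.Cel159 (NmP cf okc mcell Mx)
open Crest.Agent.R079.ClW59 (OpS cl)
open Crest.Agent.R079.GaFx371 Crest.Agent.R079.GaDx571 Crest.Agent.R079.PFx263
open Crest.Agent.R079.SbWx795 Crest.Agent.R079.ErLx255
open Crest.Agent.R079.NrTx259 Crest.Agent.R079.NrUx259
  Crest.Agent.R079.NrTx276 Crest.Agent.R079.NrUx276 Crest.Agent.R079.NrGx276
  Crest.Agent.R079.NrHx276 Crest.Agent.R079.NrAx228 Crest.Agent.R079.NrBx228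
  Crest.Agent.R079.NrCx228 Crest.Agent.R079.NrDx228 Crest.Agent.R079.NrYx248

open scoped ComplexConjugate

/-- first constant of the one-cell theorem -/
noncomputable def K1c (kg : ℕ) (θ : ℝ) : ℝ := K2 kg θ + 8 / θ

/-- second constant of the one-cell theorem -/
noncomputable def K2c (kg : ℕ) (θ : ℝ) : ℝ := 8 * (2 ^ 7 + 1) * 2 ^ kg / θ ^ 2

lemma K1c_nonneg (kg : ℕ) {θ : ℝ} (hθ : 0 < θ) : 0 ≤ K1c kg θ := by
  have := K2_nonneg kg hθ
  unfold K1c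
  positivity

lemma K2c_nonneg (kg : ℕ) (θ : ℝ) : 0 ≤ K2c kg θ := by
  unfold K2c
  positivity

/-- **THE ONE-CELL THEOREM** -/
theorem cellT (kg : ℕ) {θ : ℝ} (hθ : 0 < θ) : CellT kg θ (K1c kg θ) (K2c kg θ) := by
  classical
  intro m a b Ti E1 Q E2 P _ l A B S T s Y X r r' G hr hrr hop H hS hT
  set d : ℤ → ℝ := dk s (r * 2 ^ m) (r' * 2 ^ m) with hd
  have hrr2 : r * 2 ^ m ≤ r' * 2 ^ m := mul_le_mul_of_nonneg_right hrr (by positivity)
  have hd0 : ∀ k, 0 ≤ d k := fun k => dk_nonneg hrr2 k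
  set F : ℤ → ℤ → ℝ := fun u v => ‖∑ k ∈ T, (d k : ℂ) * Y k u * conj (X k v)‖ ^ 2 with hF
  have hF0 : ∀ u v, 0 ≤ F u v := fun u v => sq_nonneg _
  set Z : Nd → ℤ → ℤ → ℝ := fun q u v => ‖∑ k ∈ T, (d k : ℂ) * (Y k u * conj (X k v) -
        yt m a b E1 (E2 q) B r (2 ^ l) Y k u *
        conj (xt m a b E1 (E2 q) B r (2 ^ l) X k v))‖ ^ 2 with hZ
  have hZ0 : ∀ q u v, 0 ≤ Z q u v := fun q u v => sq_nonneg _
  have h1 := stage2_cg G hr hrr hθ hop H hS hT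
  have h2 := edges G hr hrr hθ hop H hS hT
  -- pointwise
  have key : ∀ q ∈ Q, ∀ u ∈ S, ∀ v ∈ T, (if P q u v then
      ‖∑ k ∈ T, (d k : ℂ) * Y k u * conj (X k v) -
        ∑ k ∈ T, Pu m a b E1 (E2 q) B r (2 ^ l) Y d u k *
          Qv m a b E1 (E2 q) B r (2 ^ l) X d v k‖ ^ 2 else 0) ≤
      (if (2 : ℝ) ^ l ≤ wt (E2 q) u ∧ (2 : ℝ) ^ l ≤ wtc (E2 q) v ∧ P q u v then Z q u v else 0) +
        (if P q u v then ((if u ∈ edg m a (l + 7) then F u v else 0) +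
          (if v ∈ edg m b (l + 7) then F u v else 0)) else 0) := by
    intro q hq u hu v hv
    have hu' := hS hu
    have hv' := hT hv
    by_cases hP : P q u v
    swap
    · rw [if_neg hP, if_neg hP, if_neg (fun h => hP h.2.2), add_zero]
    rw [if_pos hP, if_pos hP]
    have hsum : ∑ k ∈ T, Pu m a b E1 (E2 q) B r (2 ^ l) Y d u k *
          Qv m a b E1 (E2 q) B r (2 ^ l) X d v k = ∑ k ∈ T, (d k : ℂ) *
          (yt m a b E1 (E2 q) B r (2 ^ l) Y k u *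
            conj (xt m a b E1 (E2 q) B r (2 ^ l) X k v)) :=
      Finset.sum_congr rfl fun k _ => PuQv (hd0 k)
    rw [hsum]
    by_cases hw : (2 : ℝ) ^ l ≤ wt (E2 q) u
    · by_cases hw' : (2 : ℝ) ^ l ≤ wtc (E2 q) v
      · rw [if_pos ⟨hw, hw', hP⟩]
        have e1 : ∑ k ∈ T, (d k : ℂ) * Y k u * conj (X k v) - ∑ k ∈ T, (d k : ℂ) *
            (yt m a b E1 (E2 q) B r (2 ^ l) Y k u *
              conj (xt m a b E1 (E2 q) B r (2 ^ l) X k v)) =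
            ∑ k ∈ T, (d k : ℂ) * (Y k u * conj (X k v) -
              yt m a b E1 (E2 q) B r (2 ^ l) Y k u *
              conj (xt m a b E1 (E2 q) B r (2 ^ l) X k v)) := by
          rw [← Finset.sum_sub_distrib]
          exact Finset.sum_congr rfl fun k _ => by ring
        rw [e1]
        refine le_add_of_nonneg_right (add_nonneg ?_ ?_)
        · split_ifs
          · exact hF0 u v
          · exact le_rfl
        · split_ifs
          · exact hF0 u v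
          · exact le_rfl
      · -- the column is not inner: the row is an edge row
        rw [if_neg (fun h => hw' h.2.1), zero_add]
        have hue : u ∈ edg m a (l + 7) := by
          unfold edg
          rw [Finset.mem_filter]
          refine ⟨hu', ?_⟩
          by_contra hc
          push Not at hc
          exact hw' (G.inC q hq u hu' v hv' hP hc.1 hc.2)
        rw [if_pos hue]
        have e0 : ∑ k ∈ T, (d k : ℂ) * (yt m a b E1 (E2 q) B r (2 ^ l) Y k u *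
            conj (xt m a b E1 (E2 q) B r (2 ^ l) X k v)) = 0 := by
          refine Finset.sum_eq_zero fun k _ => ?_
          unfold xt
          rw [if_neg hw']
          simp
        rw [e0, sub_zero]
        refine le_add_of_nonneg_right ?_
        split_ifs
        · exact hF0 u v
        · exact le_rfl
    · rw [if_neg (fun h => hw h.1), zero_add]
      have hve : v ∈ edg m b (l + 7) := by
        unfold edg
        rw [Finset.mem_filter]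
        refine ⟨hv', ?_⟩
        by_contra hc
        push Not at hc
        exact hw (G.inR q hq u hu' v hv' hP hc.1 hc.2)
      rw [if_pos hve]
      have e0 : ∑ k ∈ T, (d k : ℂ) * (yt m a b E1 (E2 q) B r (2 ^ l) Y k u *
          conj (xt m a b E1 (E2 q) B r (2 ^ l) X k v)) = 0 := by
        refine Finset.sum_eq_zero fun k _ => ?_
        unfold yt
        rw [if_neg hw]
        simp
      rw [e0, sub_zero]
      refine le_add_of_nonneg_left ?_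
      split_ifs
      · exact hF0 u v
      · exact le_rfl
  refine (Finset.sum_le_sum fun q hq => Finset.sum_le_sum fun u hu => Finset.sum_le_sum
    fun v hv => key q hq u hu v hv).trans ?_
  simp only [Finset.sum_add_distrib]
  -- inner part
  have i1 : ∑ q ∈ Q, ∑ u ∈ S, ∑ v ∈ T, (if (2 : ℝ) ^ l ≤ wt (E2 q) u ∧
      (2 : ℝ) ^ l ≤ wtc (E2 q) v ∧ P q u v then Z q u v else 0) ≤
      K2 kg θ * ((r' - r) / r) * NrWx259.Gd B S T Y X s (r * 2 ^ m) := by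
    refine le_trans (Finset.sum_le_sum fun q _ => ?_) h1
    have a1 : ∑ u ∈ S, ∑ v ∈ T, (if (2 : ℝ) ^ l ≤ wt (E2 q) u ∧
        (2 : ℝ) ^ l ≤ wtc (E2 q) v ∧ P q u v then Z q u v else 0) ≤
        ∑ u ∈ dI m a, ∑ v ∈ dI m b, (if (2 : ℝ) ^ l ≤ wt (E2 q) u ∧
        (2 : ℝ) ^ l ≤ wtc (E2 q) v ∧ P q u v then Z q u v else 0) := by
      have nn : ∀ u v, 0 ≤ (if (2 : ℝ) ^ l ≤ wt (E2 q) u ∧
        (2 : ℝ) ^ l ≤ wtc (E2 q) v ∧ P q u v then Z q u v else 0) := by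
        intro u v
        split_ifs
        · exact hZ0 q u v
        · exact le_rfl
      refine (Finset.sum_le_sum fun u _ => Finset.sum_le_sum_of_subset_of_nonneg hT
        fun v _ _ => nn u v).trans ?_
      exact Finset.sum_le_sum_of_subset_of_nonneg hS fun u _ _ =>
        Finset.sum_nonneg fun v _ => nn u v
    refine a1.trans (le_of_eq ?_)
    unfold inn
    rw [Finset.sum_filter]
    refine Finset.sum_congr rfl fun u _ => ?_
    by_cases hw : (2 : ℝ) ^ l ≤ wt (E2 q) u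
    · rw [if_pos hw, Finset.filter_filter, Finset.sum_filter]
      refine Finset.sum_congr rfl fun v _ => ?_
      by_cases hc : (2 : ℝ) ^ l ≤ wtc (E2 q) v ∧ P q u v
      · rw [if_pos ⟨hw, hc⟩, if_pos hc]
      · rw [if_neg (fun h => hc h.2), if_neg hc]
    · rw [if_neg hw]
      refine Finset.sum_eq_zero fun v _ => ?_
      rw [if_neg (fun h => hw h.1)]
  -- edges
  have i2 : ∑ q ∈ Q, ∑ u ∈ S, ∑ v ∈ T, (if P q u v then ((if u ∈ edg m a (l + 7) then F u v else 0)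
        + (if v ∈ edg m b (l + 7) then F u v else 0)) else 0) ≤
      ∑ u ∈ edg m a (l + 7), ∑ v ∈ T, F u v + ∑ u ∈ S, ∑ v ∈ edg m b (l + 7), F u v := by
    set H' : ℤ → ℤ → ℝ := fun u v => (if u ∈ edg m a (l + 7) then F u v else 0)
        + (if v ∈ edg m b (l + 7) then F u v else 0) with hH'
    have hH0 : ∀ u v, 0 ≤ H' u v := by
      intro u v
      simp only [hH']
      refine add_nonneg ?_ ?_
      · split_ifs
        · exact hF0 u v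
        · exact le_rfl
      · split_ifs
        · exact hF0 u v
        · exact le_rfl
    have a1 : ∑ q ∈ Q, ∑ u ∈ S, ∑ v ∈ T, (if P q u v then H' u v else 0) ≤
        ∑ u ∈ S, ∑ v ∈ T, H' u v := by
      rw [Finset.sum_comm]
      refine Finset.sum_le_sum fun u _ => ?_
      rw [Finset.sum_comm]
      refine Finset.sum_le_sum fun v _ => ?_
      by_cases hex : ∃ q ∈ Q, P q u v
      · obtain ⟨q, hq, hP⟩ := hex
        rw [Finset.sum_eq_single_of_mem q hq, if_pos hP]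
        intro q' hq' hne
        rw [if_neg]
        intro h'
        exact hne (G.Pd q' hq' q hq u v h' hP)
      · push Not at hex
        rw [Finset.sum_eq_zero fun q hq => by rw [if_neg (hex q hq)]]
        exact hH0 u v
    refine a1.trans ?_
    simp only [hH', Finset.sum_add_distrib]
    refine add_le_add ?_ ?_
    · have a2 : ∑ u ∈ S, ∑ v ∈ T, (if u ∈ edg m a (l + 7) then F u v else 0) =
          ∑ u ∈ S, (if u ∈ edg m a (l + 7) then ∑ v ∈ T, F u v else 0) := by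
        refine Finset.sum_congr rfl fun u _ => ?_
        split_ifs
        · rfl
        · simp
      rw [a2, ← Finset.sum_filter]
      refine Finset.sum_le_sum_of_subset_of_nonneg (fun u hu => (Finset.mem_filter.1 hu).2)
        fun u _ _ => Finset.sum_nonneg fun v _ => hF0 u v
    · refine Finset.sum_le_sum fun u _ => ?_
      rw [← Finset.sum_filter]
      exact Finset.sum_le_sum_of_subset_of_nonneg (fun u hu => (Finset.mem_filter.1 hu).2)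
        fun v _ _ => hF0 u v
  have hGd : 0 ≤ NrWx259.Gd B S T Y X s (r * 2 ^ m) := by
    refine Finset.sum_nonneg fun k _ => mul_nonneg (le_max_right _ _) ?_
    exact NrWx259.dfc_nn G.tl hr hop H hS hT k
  have hfin : K2 kg θ * ((r' - r) / r) * NrWx259.Gd B S T Y X s (r * 2 ^ m) +
      (4 * (2 * (r' - r) / (θ * r) * NrWx259.Gd B S T Y X s (r * 2 ^ m)) +
        4 * (be m l kg θ * ∑ k ∈ T, d k ^ 2)) =
      K1c kg θ * ((r' - r) / r) * NrWx259.Gd B S T Y X s (r * 2 ^ m) +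
        K2c kg θ * (2 ^ l / 2 ^ m) * ∑ k ∈ T, d k ^ 2 := by
    unfold K1c K2c be
    rw [pow_add]
    field_simp
    ring
  rw [← hfin]
  linarith

section inst

variable {n : ℕ} {i : Fin 4} {e : Fin 3} {T : Fin n → Fin 3 → Finset ℤ}
  {g : Fin n → Fin 3 → ℤ → ℤ → ℂ} {I : Nd} {kc Kl : ℕ} {r : ℕ → ℝ} {V : Finset Nd} {K : Nd} {G : Fn}
  {k0 j0 n0 : ℕ}

/-- geometry of the big cells -/
theorem geoF (hV : Full V K) (hk0 : 9 ≤ k0) (hkj : k0 ≤ j0) :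
    GeoF i e T I kc V K k0 j0 n0 7 (1 / 2 ^ (k0 + 3)) := by
  intro l t ht ⟨q0, hq0, u, hu, v, hv, hy⟩
  obtain ⟨_, hM⟩ := cel_spec ht
  refine ⟨cg (st3_Ye i e) hV hV.top hM hk0 hkj hq0 hu hv hy, ?_⟩
  obtain ⟨s1, s2, s3, s4, _⟩ := QQ_spec hV hq0
  have := big_cell (st3_Ye i e) hM (by omega) s3 s4 hu hv hy
  omega


end inst

end Crest.Agent.R079.NrEx228
end

-- ▼ part R079/ErN_255
section

/-! R079, note 1922 (T8) (helper255): **THE TOP STEP OF THE LADDER**.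

On a big cell (`K.1 ≤ m`) the gauged letter has operator norm `≤ 2^7 √(Hf Ht) av K G 2^m` (250's `raw_op`),
hence the last step `A - P_{Kl-1} A` vanishes if `2^7 √(Hf Ht) s ≤ r (Kl-1)`.

* `top_op`, `stK_top`;
* **`cellIn_of`** : `CellIn` from the steps `q + 1 < Kl` (`CellLt`) and `Zf (Kl-1) = 0`. -/

set_option autoImplicit false

namespace Crest.Agent.R079.ErNx255

open Finset Crest.Agent.R079.Grid Crest.Agent.R079.Growth Crest.Agent.R079.QRed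
  Crest.Agent.R079.Qh249 Crest.Agent.R079.QVar181 Crest.Agent.R079.TWin
open Crest.Agent.R079.RelW653 (vl NMP Jv Dv sum_av')
open Crest.Agent.R079.RelV653 Crest.Agent.R079.ThA159 Crest.Agent.R079.ThB159
open Crest.Agent.R079.Cel159 (NmP cf okc mcell split_cell Mx Mx_mcell)
open Crest.Agent.R079.ElU440 (upto ThL0)
open Crest.Agent.R079.ClW59 (OpS cl opS_zero)
open Crest.Agent.R079.ElGx69 Crest.Agent.R079.NrDx276 Crest.Agent.R079.ErKx255
open Crest.Agent.R079.GaFx371 Crest.Agent.R079.GaDx571 Crest.Agent.R079.PFx263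
open Crest.Agent.R079.SbWx795 Crest.Agent.R079.ErLx255
open Crest.Agent.R079.NrUx276 (St3 st3_Ye big_cell)

variable {n : ℕ}

section

variable {i m : Fin 4} {v : Fin 3} {I : Nd} {Ht Hf La : ℝ} {fl : Fn}
  {T : Fin n → Fin 3 → Finset ℤ} {g : Fin n → Fin 3 → ℤ → ℤ → ℂ} {θ : Fin n → ℤ → ℝ}
  {μf : Fin n → ℝ}

/-- operator norm of the gauged letter on one fibre -/
theorem top_op (h : Fam i m v I Ht Hf La n fl T g θ μf) (hHf : 0 ≤ Hf) {e : Fin 3} (he : e ≠ v + 1)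
    {K : Nd} (hKI : iv K ⊆ iv I) {G : Fn} {s : ℝ} (hs : av K G ≤ s) (l : Fin n) (w : ℤ) :
    OpS (T l e) (T l (e + 1)) (fun u v => AK i e T g I K G l (w, u, v))
      (Real.sqrt (Hf * Ht) * s * len K) := by
  classical
  have hg : ∀ z z', ‖g l e z z'‖ ≤ Real.sqrt (Hf * Ht) := fun z z' =>
    Real.le_sqrt_of_sq_le ((h.opD l).sup' hHf he z z')
  have hinj := Crest.Agent.R079.GaBtx251.inj_Ye i e
  have h1 := Crest.Agent.R079.DLx250.raw_op (Z := fun u v => Ye i e w u v) (T₁ := T l e)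
    (T₂ := T l (e + 1)) (q := K) (al := g l e) (g := G) (H := Real.sqrt (Hf * Ht)) (s := s)
    (fun u a b hab => by
      have hb : Ye i e w u a = Ye i e w u b := hab
      unfold Ye at hb
      have h2 : (sl (i.succAbove (e + 1)) - sl (i.succAbove (e + 2))) * a =
          (sl (i.succAbove (e + 1)) - sl (i.succAbove (e + 2))) * b := by linarith
      exact mul_left_cancel₀ (Crest.Agent.R079.GaBtx251.co1 i e) h2)
    (fun v a b hab => by
      have hb : Ye i e w a v = Ye i e w b v := hab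
      unfold Ye at hb
      have h2 : (sl (i.succAbove e) - sl (i.succAbove (e + 2))) * a =
          (sl (i.succAbove e) - sl (i.succAbove (e + 2))) * b := by linarith
      exact mul_left_cancel₀ (Crest.Agent.R079.GaBtx251.co2 i e) h2) hg hs
  refine PjC881.opS_congr h1 fun u hu v hv => ?_
  unfold AK ag
  by_cases hY : Ye i e w u v ∈ iv K
  · rw [if_pos hY, if_pos ((mem_BdE hKI).2 ⟨hu, hv, hY⟩)]
    rfl
  · rw [if_neg hY, if_neg fun hc => hY ((mem_BdE hKI).1 hc).2.2]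

/-- the cells of the family -/
theorem cel_spec {e : Fin 3} {kc : ℕ} {K : Nd} {l : Fin n} {t : ℤ × ℕ × ℤ × ℤ}
    (ht : t ∈ cel i e T I kc K l) : Mx (Ye i e t.1) kc K t.2.1 t.2.2.1 t.2.2.2 := by
  classical
  unfold cel at ht
  obtain ⟨ω, hω, rfl⟩ := Finset.mem_image.1 ht
  unfold BdE at hω
  rw [Finset.mem_filter] at hω
  exact Mx_mcell hω.2

/-- **the last step vanishes on the big cells** -/
theorem stK_top (h : Fam i m v I Ht Hf La n fl T g θ μf) (hHf : 0 ≤ Hf) {e : Fin 3}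
    (he : e ≠ v + 1) {K : Nd} (hKI : iv K ⊆ iv I) {G : Fn} {s : ℝ} (hs : av K G ≤ s)
    {kc Kl : ℕ} {r : ℕ → ℝ} (hr : ∀ q, 0 ≤ r q) {q : ℕ} (hq : q + 1 = Kl)
    (hrt : 2 ^ 7 * Real.sqrt (Hf * Ht) * s ≤ r q) {l : Fin n} {t : ℤ × ℕ × ℤ × ℤ}
    (ht : t ∈ cel i e T I kc K l) (hbig : K.1 ≤ t.2.1) :
    ∀ u ∈ dI t.2.1 t.2.2.1 ∩ T l e, ∀ v ∈ dI t.2.1 t.2.2.2 ∩ T l (e + 1),
      stK i e T g I kc Kl r K G l q (t.1, u, v) = 0 := by
  classical
  intro u hu v hv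
  have hs0 : 0 ≤ s := (Growth.av_nonneg K G).trans hs
  have hB := bnd_E i e I (T := T l) (sd_pos I) (h.opD l).card kc
  have hsp := split_cell (Y := Ye i e) (k := kc) (T₀ := W0 i e (T l) I) (T₁ := T l e)
      (T₂ := T l (e + 1)) K
  have h1 := stp_cell_last (Bd := BdE i e (T l) I) (K := Kl) (i := q) hB hsp hr hq
    (AK i e T g I K G l) ht u hu v hv
  have hop : OpS (dI t.2.1 t.2.2.1 ∩ T l e) (dI t.2.1 t.2.2.2 ∩ T l (e + 1))
      (fun u v => AK i e T g I K G l (t.1, u, v)) (r q * 2 ^ t.2.1) := by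
    have h2 := Cel159.opS_sub (S' := dI t.2.1 t.2.2.1 ∩ T l e)
      (T' := dI t.2.1 t.2.2.2 ∩ T l (e + 1)) Finset.inter_subset_right Finset.inter_subset_right
      (top_op h hHf he hKI hs l t.1)
    have hsq := Real.sqrt_nonneg (Hf * Ht)
    refine Crest.Agent.R079.DLx250.opS_mono ?_ ?_ h2
    · have := (Growth.len_pos K).le
      positivity
    · have e1 : len K = 2 ^ (K.1 + 7) := rfl
      have e2 : (2 : ℝ) ^ K.1 ≤ 2 ^ t.2.1 := pow_le_pow_right₀ (by norm_num) hbig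
      calc Real.sqrt (Hf * Ht) * s * len K = (2 ^ 7 * Real.sqrt (Hf * Ht) * s) * 2 ^ K.1 := by
            rw [e1, pow_add]; ring
        _ ≤ r q * 2 ^ t.2.1 :=
            mul_le_mul hrt e2 (by positivity) (hr q)
  have h3 := Crest.Agent.R079.NrAx228.cl_self (mul_nonneg (hr q) (by positivity)) hop u hu v hv
  unfold stK
  rw [h1]
  exact sub_eq_zero.2 h3

open Classical in
/-- the per-cell input below the last step -/
def CellLt (i : Fin 4) (e : Fin 3) (T : Fin n → Fin 3 → Finset ℤ)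
    (g : Fin n → Fin 3 → ℤ → ℤ → ℂ) (I : Nd) (kc Kl : ℕ) (r : ℕ → ℝ) (V : Finset Nd) (K : Nd)
    (G : Fn) (Lay : Finset ℤ) (Zf : Fin n → ℕ → ℤ × ℤ × ℤ → ℂ) (C1 C2 : ℝ) : Prop :=
  ∀ l, ∀ q, q + 1 < Kl → ∀ t ∈ cel i e T I kc K l,
    ∑ u ∈ dI t.2.1 t.2.2.1 ∩ T l e, ∑ v ∈ dI t.2.1 t.2.2.2 ∩ T l (e + 1),
      (if poE i e (t.1, u, v) ∈ Lay then 0 else
        ‖stK i e T g I kc Kl r K G l q (t.1, u, v) - Zf l q (t.1, u, v)‖ ^ 2) ≤
      C1 * gpS (fun u v => AK i e T g I K G l (t.1, u, v))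
        (fun u v => BK i e T g I kc r V K G l q (t.1, u, v))
        (dI t.2.1 t.2.2.1 ∩ T l e) (dI t.2.1 t.2.2.2 ∩ T l (e + 1)) (r q * 2 ^ t.2.1) +
      C2 * ∑ u ∈ dI t.2.1 t.2.2.1 ∩ T l e, ∑ v ∈ dI t.2.1 t.2.2.2 ∩ T l (e + 1),
        ‖AK i e T g I K G l (t.1, u, v)‖ ^ 2

/-- a label of `K` outside `LayK` lies in a grid node -/
theorem notLay {V : Finset Nd} {k0 j0 n0 : ℕ} {K : Nd} {y : ℤ} (hy : y ∈ iv K)
    (h : y ∉ LayK V k0 j0 n0 K) : ∃ q ∈ QQ V k0 j0 n0 K, y ∈ iv q := by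
  classical
  by_contra hc
  push Not at hc
  apply h
  unfold LayK
  rw [Finset.mem_sdiff, Finset.mem_biUnion]
  exact ⟨hy, fun ⟨q, hq, hyq⟩ => hc q hq hyq⟩

/-- **`CellIn` from the steps below the last one** -/
theorem cellIn_of (h : Fam i m v I Ht Hf La n fl T g θ μf) (hHf : 0 ≤ Hf) {e : Fin 3}
    (he : e ≠ v + 1) {V : Finset Nd} {P K : Nd} (hV : Full V P) (hK : K ∈ V)
    (hKI : iv K ⊆ iv I) {f : Nd → Fn} {s : ℝ} (hs : av K (gl V f) ≤ s) {kc Kl : ℕ} {r : ℕ → ℝ}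
    (hr : ∀ q, 0 ≤ r q) (hrt : ∀ q, q + 1 = Kl → 2 ^ 7 * Real.sqrt (Hf * Ht) * s ≤ r q)
    {k0 j0 n0 : ℕ} (hj0 : 4 ≤ j0) {Zf : Fin n → ℕ → ℤ × ℤ × ℤ → ℂ}
    (hZ : ∀ l q, q + 1 = Kl → ∀ ω, Zf l q ω = 0) {C1 C2 : ℝ} (hC1 : 0 ≤ C1) (hC2 : 0 ≤ C2)
    (hc : CellLt i e T g I kc Kl r V K (gl V f) (LayK V k0 j0 n0 K) Zf C1 C2) :
    CellIn i e T g I kc Kl r V K (gl V f) (LayK V k0 j0 n0 K) Zf C1 C2 := by
  classical
  intro l q hq t ht
  rcases Nat.lt_or_ge (q + 1) Kl with hq1 | hq1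
  · exact hc l q hq1 t ht
  have hqK : q + 1 = Kl := by omega
  have hM := cel_spec ht
  have hB := bnd_E i e I (T := T l) (sd_pos I) (h.opD l).card kc
  have hsp := split_cell (Y := Ye i e) (k := kc) (T₀ := W0 i e (T l) I) (T₁ := T l e)
      (T₂ := T l (e + 1)) K
  have hgp : 0 ≤ gpS (fun u v => AK i e T g I K (gl V f) l (t.1, u, v))
        (fun u v => BK i e T g I kc r V K (gl V f) l q (t.1, u, v))
        (dI t.2.1 t.2.2.1 ∩ T l e) (dI t.2.1 t.2.2.2 ∩ T l (e + 1)) (r q * 2 ^ t.2.1) :=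
    gap_nonneg (Bd := BdE i e (T l) I) hsp (hr q) (AK i e T g I K (gl V f) l)
      (Bgl_adm hB _ (hr q) hV (gl V f) K hK) ht
  have hR : 0 ≤ C1 * gpS (fun u v => AK i e T g I K (gl V f) l (t.1, u, v))
        (fun u v => BK i e T g I kc r V K (gl V f) l q (t.1, u, v))
        (dI t.2.1 t.2.2.1 ∩ T l e) (dI t.2.1 t.2.2.2 ∩ T l (e + 1)) (r q * 2 ^ t.2.1) +
      C2 * ∑ u ∈ dI t.2.1 t.2.2.1 ∩ T l e, ∑ v ∈ dI t.2.1 t.2.2.2 ∩ T l (e + 1),
        ‖AK i e T g I K (gl V f) l (t.1, u, v)‖ ^ 2 :=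
    add_nonneg (mul_nonneg hC1 hgp) (mul_nonneg hC2 (Finset.sum_nonneg fun _ _ =>
      Finset.sum_nonneg fun _ _ => sq_nonneg _))
  refine le_trans (le_of_eq ?_) hR
  refine Finset.sum_eq_zero fun u hu => Finset.sum_eq_zero fun v hv => ?_
  split_ifs with hL
  · rfl
  · have hu1 := (Finset.mem_inter.1 hu).1
    have hv1 := (Finset.mem_inter.1 hv).1
    have hyK : poE i e (t.1, u, v) ∈ iv K := hM.2.1 u hu1 v hv1
    obtain ⟨q0, hq0, hyq⟩ := notLay hyK hL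
    obtain ⟨_, h2, h3, h4, _⟩ := QQ_spec hV hq0
    have hbig : K.1 ≤ t.2.1 := big_cell (st3_Ye i e) hM (by omega) h3 h4 hu1 hv1 hyq
    rw [stK_top h hHf he hKI hs hr hqK (hrt q hqK) ht hbig u hu v hv, hZ l q hqK]
    simp

end

end Crest.Agent.R079.ErNx255
end

-- ▼ part R079/ErO_255

/-! R079, note 1922 (T8) (helper255), last file: THE ERROR HALF OF `InES` with 360's names.

* `zf_top` : 228's frame kernel vanishes at the last step;
* `psX_eq` : 360's `psX` is `PsiF`;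
* `PsX` : the frame letters of one generation;
* **`hE_psX`** : energy of the error letters from 228's cells (`CellLt` with `zfX`). -/

set_option autoImplicit false

namespace Crest.Agent.R079.ErOx255

open Finset Crest.Agent.R079.Grid Crest.Agent.R079.Growth Crest.Agent.R079.QRed
  Crest.Agent.R079.TWin
open Crest.Agent.R079.RelW653 (vl NMP Jv Dv)
open Crest.Agent.R079.RelV653 Crest.Agent.R079.HWx323 Crest.Agent.R079.Chn110
open Crest.Agent.R079.TRec Crest.Agent.R079.T6bx252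
open Crest.Agent.R079.FLDx263 Crest.Agent.R079.GnSx263 Crest.Agent.R079.GnNx263
  Crest.Agent.R079.PFx263 Crest.Agent.R079.GaDx571 Crest.Agent.R079.GaFx371
  Crest.Agent.R079.WS112 Crest.Agent.R079.WS0112 Crest.Agent.R079.POx263
  Crest.Agent.R079.OpS276 Crest.Agent.R079.GnUx263 Crest.Agent.R079.SbWx795
open Crest.Agent.R079.ErLx255 Crest.Agent.R079.ErMx255 Crest.Agent.R079.ErNx255
open Crest.Agent.R079.FrZx360 (zfX psX gaX NX)
open Crest.Agent.R079.NrBx228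

/-- the frame kernel vanishes at the last step -/
theorem zf_top {n : ℕ} (i : Fin 4) (e : Fin 3) (kc j0 n0 Kl : ℕ) (V : Finset Nd) (K I : Nd)
    (T : Fin n → Fin 3 → Finset ℤ) (g : Fin n → Fin 3 → ℤ → ℤ → ℂ) (r : ℕ → ℝ) (G : Fn)
    (Q : Finset Nd) (l : Fin n) {q : ℕ} (hq : q + 1 = Kl) (ω : ℤ × ℤ × ℤ) :
    zfX i e kc j0 n0 Kl V K I T g r G Q l q ω = 0 := by
  classical
  unfold zfX NrBx228.ZF
  refine Finset.sum_eq_zero fun q0 _ => ?_
  split_ifs with h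
  · refine Finset.sum_eq_zero fun k _ => ?_
    unfold PF Pu dd
    rw [if_neg (by omega)]
    simp
  · rfl


/-- **the frame letters of one generation** (both slots), `V` = ranges -/
noncomputable def PsX (i : Fin 4) {n : ℕ} (T : Fin n → Fin 3 → Finset ℤ)
    (g : Fin n → Fin 3 → ℤ → ℤ → ℂ) (mu : Fin n → ℝ) (I : Nd) (La kap : ℝ) (kc Kl : ℕ) (r : ℕ → ℝ)
    (es : Fin 2 → Fin 3) (f : Fin 2 → Nd → Fn) (V : Nd → Finset Nd) (k0 j0 n0 : ℕ)
    (c : Fin 2) (K : Nd) : Fn :=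
  psX i (es c) kc j0 n0 Kl (V K) K I T g r (gl (V K) (f c)) (fun l => kap * mu l / La) (sd I)
    (LayK (V K) k0 j0 n0 K) (QQ (V K) k0 j0 n0 K)

/-- 228's input for both letters at the top `K` -/
def CellsX (i : Fin 4) {n : ℕ} (T : Fin n → Fin 3 → Finset ℤ)
    (g : Fin n → Fin 3 → ℤ → ℤ → ℂ) (I : Nd) (kc Kl : ℕ) (r : ℕ → ℝ)
    (es : Fin 2 → Fin 3) (f : Fin 2 → Nd → Fn) (V : Nd → Finset Nd) (k0 j0 n0 : ℕ) (C1 C2 : ℝ)
    (K : Nd) : Prop :=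
  ∀ c, CellLt i (es c) T g I kc Kl r (V K) K (gl (V K) (f c)) (LayK (V K) k0 j0 n0 K)
    (zfX i (es c) kc j0 n0 Kl (V K) K I T g r (gl (V K) (f c)) (QQ (V K) k0 j0 n0 K)) C1 C2

section

variable {P : Prm} {d ε k q3 : ℝ} {i m e e' : Fin 4} {N : ℕ} {B t : ℝ} {W : Finset Nd} {I : Nd}
  {F : Fin 4 → Fn} {xy : Fin 2 → Fin 4} {bb : ℤ} {E : ℕ → ℤ → ℂ} {R : Finset Nd} {J : Nd}
  {Z : Fin 2 → Fn} {v : Fin 3} {n : ℕ} {T : Fin n → Fin 3 → Finset ℤ}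
  {g : Fin n → Fin 3 → ℤ → ℤ → ℂ} {al : Fin n → ℤ → ℝ} {mu : Fin n → ℝ} {es : Fin 2 → Fin 3}

/-- **THE ERROR HALF OF `InES`** -/
theorem hE_psX (h : Su P d ε k q3 i m e e' N B t W I F xy bb E R J Z v n T g al mu es) (hk : 0 ≤ k)
    {kap m0 η : ℝ} (hkap : 0 ≤ kap) (kc Kl : ℕ) {r : ℕ → ℝ} (hr : ∀ q, 0 ≤ r q)
    (hrt : ∀ q, q + 1 = Kl → 2 ^ 7 * Real.sqrt (HfC P i t * HtC P i t) * 3 ≤ r q)
    (hm0 : 0 ≤ m0) (hη1 : η ≤ m0) (hηh : η ≤ 1) {f : Fin 2 → Nd → Fn}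
    (hf : ∀ c', NMP (fun _ _ => True) (PhiC P ε i T g mu I t kap kc Kl r es c') (Z c') η (f c'))
    {k0 j0 n0 : ℕ} (hj0 : 4 ≤ j0) {C1 C2 : ℝ} (hC1 : 0 ≤ C1)
    (hC2 : 0 ≤ C2) {K : Nd} (hK : K ∈ R)
    (hcell : CellsX i T g I kc Kl r es f
      (VG R (PhiC P ε i T g mu I t kap kc Kl r es) Z η f m0) k0 j0 n0 C1 C2 K) :
    ∑ c', len K * av K (ek Z f (VG R (PhiC P ε i T g mu I t kap kc Kl r es) Z η f m0)
      (PsX i T g mu I (LaC P ε i t) kap kc Kl r es f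
        (VG R (PhiC P ε i T g mu I t kap kc Kl r es) Z η f m0) k0 j0 n0) c' K) ^ 2 ≤
      lnum kap Kl C1 C2 m0 * len K := by
  set Φ := PhiC P ε i T g mu I t kap kc Kl r es with hΦ
  have hLa := LaC_pos P ε i h.t0
  have hHf := (HfC_pos P i h.t0).le
  have hP : ∀ c', PenC 0 (fun _ _ => True) (Φ c') := fun c' =>
    penPhi h.fam (es c') hkap hLa kc Kl hr
  set V := VG R Φ Z η f m0 with hV
  have hVf : Full (V K) K := VK_full h.full hK
  have hη0 : 0 ≤ η := (hf 0).eta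
  have hKI : iv K ⊆ iv I := (h.full.reg.1 K hK).trans h.JI
  refine hE_su h hk hkap kc Kl hr hm0 hη1 hηh hf k0 j0 n0
    (fun c K => zfX i (es c) kc j0 n0 Kl (V K) K I T g r (gl (V K) (f c)) (QQ (V K) k0 j0 n0 K))
    hC1 hC2 hK fun c' => ?_
  have hs : av K (gl (V K) (f c')) ≤ 3 := by
    have h3 := av_gl_le (hP c') (hf c') hVf hVf.top
    have h4 := h.avZ hk c' K hK
    have h5 := Growth.av_nonneg K (Z c')
    have h6 : av K (gl (V K) (f c')) ^ 2 ≤ 6 := by nlinarith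
    nlinarith [Growth.av_nonneg K (gl (V K) (f c'))]
  exact cellIn_of h.fam hHf (h.es_ne c') hVf hVf.top hKI hs hr hrt hj0
    (fun l q hq ω => zf_top i (es c') kc j0 n0 Kl (V K) K I T g r _ _ l hq ω) hC1 hC2 (hcell c')

end

end Crest.Agent.R079.ErOx255
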