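import Mathlib
import Crest.Agent.R079.ClW_59

-- ▼ part R079/ExA_999
section

/-!
# R079, Step I (`28031 (3)`): the exit average

A product kernel `k (x, x') = Sum_y C x y * conj (C' x' y)` of the *top* calculus (columns in an
interval of length `L`) is, on every exit box, an average of the window kernels of length `N` (`N` = the
side of the exit box): every column lies in exactly `N` windows of length `N`.  Hence its Hilbert-Schmidt
size on the box is at most the average of the fourth-power (`S_4`) box forms of the exit scale.  Nothing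
ages; the only loss is the boundary factor `(L + N) / L`.

* `win_avg`, `win_cs`   : one vector valued function;
* `box_cs`              : the kernels, summed over an arbitrary finite set of pairs `(x, x')`;
* `exit_avg`, `exit_avg_lab` : normalised form, right hand side = average of `E4` (the body of
  `R244.e4`) resp. of `E4K` (the body of `Sgn.e4K`, labels at the summed variable);
* `E4_symm`, `E4_sub`   : `S_4` is symmetric, and sub-averaging over the four half boxes.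
-/

open Finset
open scoped BigOperators ComplexConjugate

namespace Crest.Agent.R079.ExA999

/-- every column lies in exactly `N` windows of length `N` -/
theorem win_avg {E : Type*} [AddCommGroup E] (f : ℤ → E) (a : ℤ) (L N : ℕ)
    (hf : ∀ y, ¬ (a ≤ y ∧ y < a + L) → f y = 0) :
    ∑ b ∈ Ico (a - N + 1) (a + L), ∑ i ∈ range N, f (b + i)
      = N • ∑ y ∈ Ico a (a + L), f y := by
  rw [sum_comm]
  have h : ∀ i ∈ range N, ∑ b ∈ Ico (a - N + 1) (a + L), f (b + i) = ∑ y ∈ Ico a (a + L), f y := by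
    intro i hi
    have hi' : i < N := mem_range.1 hi
    have e1 : ∑ b ∈ Ico (a - N + 1) (a + L), f (b + i)
        = ∑ y ∈ Ico (a - N + 1 + i) (a + L + i), f y := by
      have := Finset.map_add_right_Ico (a - (N : ℤ) + 1) (a + (L : ℤ)) (i : ℤ)
      rw [← this, sum_map]
      rfl
    rw [e1]
    symm
    apply sum_subset
    · intro y hy
      rw [mem_Ico] at hy ⊢
      constructor
      · have := hy.1; omega
      · have := hy.2; omega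
    · intro y _ hy
      apply hf
      intro hc
      exact hy (mem_Ico.2 hc)
  rw [sum_congr rfl h, sum_const, card_range]

/-- Cauchy-Schwarz over the at most `L + N` offsets -/
theorem win_cs {E : Type*} [NormedAddCommGroup E] [NormedSpace ℝ E] (f : ℤ → E) (a : ℤ) (L N : ℕ)
    (hN : 0 < N) (hf : ∀ y, ¬ (a ≤ y ∧ y < a + L) → f y = 0) :
    (N : ℝ) ^ 2 * ‖∑ y ∈ Ico a (a + L), f y‖ ^ 2 ≤
      ((L : ℝ) + N) * ∑ b ∈ Ico (a - N + 1) (a + L), ‖∑ i ∈ range N, f (b + i)‖ ^ 2 := by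
  have h0 := win_avg f a L N hf
  have h1 : (N : ℝ) * ‖∑ y ∈ Ico a (a + L), f y‖
      ≤ ∑ b ∈ Ico (a - N + 1) (a + L), ‖∑ i ∈ range N, f (b + i)‖ := by
    have h2 : ‖N • ∑ y ∈ Ico a (a + L), f y‖ = (N : ℝ) * ‖∑ y ∈ Ico a (a + L), f y‖ := by
      rw [← Nat.cast_smul_eq_nsmul ℝ, norm_smul]
      simp
    rw [← h2, ← h0]
    exact norm_sum_le _ _
  have h3 : (∑ b ∈ Ico (a - N + 1) (a + L), ‖∑ i ∈ range N, f (b + i)‖) ^ 2 ≤
      ((Ico (a - (N : ℤ) + 1) (a + L)).card : ℝ) *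
        ∑ b ∈ Ico (a - N + 1) (a + L), ‖∑ i ∈ range N, f (b + i)‖ ^ 2 :=
    sq_sum_le_card_mul_sum_sq
  have h4 : ((Ico (a - (N : ℤ) + 1) (a + L)).card : ℝ) ≤ (L : ℝ) + N := by
    rw [Int.card_Ico]
    have : (a + (L : ℤ) - (a - (N : ℤ) + 1)).toNat ≤ L + N := by omega
    exact_mod_cast this
  have h5 : 0 ≤ ∑ b ∈ Ico (a - N + 1) (a + L), ‖∑ i ∈ range N, f (b + i)‖ ^ 2 :=
    sum_nonneg fun _ _ => sq_nonneg _
  calc (N : ℝ) ^ 2 * ‖∑ y ∈ Ico a (a + L), f y‖ ^ 2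
      = ((N : ℝ) * ‖∑ y ∈ Ico a (a + L), f y‖) ^ 2 := by ring
    _ ≤ (∑ b ∈ Ico (a - N + 1) (a + L), ‖∑ i ∈ range N, f (b + i)‖) ^ 2 := by
        apply pow_le_pow_left₀ (by positivity) h1
    _ ≤ _ := h3
    _ ≤ _ := mul_le_mul_of_nonneg_right h4 h5

/-- summed over an arbitrary finite set of pairs -/
theorem box_cs {E : Type*} [NormedAddCommGroup E] [NormedSpace ℝ E] {τ : Type*} (B : Finset τ)
    (f : τ → ℤ → E) (a : ℤ) (L N : ℕ)
    (hN : 0 < N) (hf : ∀ t ∈ B, ∀ y, ¬ (a ≤ y ∧ y < a + L) → f t y = 0) :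
    (N : ℝ) ^ 2 * ∑ t ∈ B, ‖∑ y ∈ Ico a (a + L), f t y‖ ^ 2 ≤
      ((L : ℝ) + N) * ∑ b ∈ Ico (a - N + 1) (a + L), ∑ t ∈ B, ‖∑ i ∈ range N, f t (b + i)‖ ^ 2 := by
  rw [sum_comm, mul_sum, mul_sum]
  exact sum_le_sum fun t ht => win_cs (f t) a L N hN (hf t ht)

/-- the body of `R244.e4` (first variable summed) -/
noncomputable def E4 (X : ℤ → ℤ → ℂ) (N : ℕ) (q p : ℤ) : ℝ :=
  (1 / (N : ℝ) ^ 4) * ∑ j ∈ range N, ∑ j' ∈ range N,
    ‖∑ i ∈ range N, X (q + (i : ℤ)) (p + (j : ℤ)) *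
      (starRingEnd ℂ) (X (q + (i : ℤ)) (p + (j' : ℤ)))‖ ^ 2

/-- the body of `Sgn.e4K` (labels at the summed variable) -/
noncomputable def E4K {κ : Type*} [Fintype κ] (X : ℤ → ℤ → κ → ℂ) (N : ℕ) (q p : ℤ) : ℝ :=
  (1 / (N : ℝ) ^ 4) * ∑ j ∈ range N, ∑ j' ∈ range N,
    ‖∑ i ∈ range N, ∑ k, X (q + (i : ℤ)) (p + (j : ℤ)) k *
      (starRingEnd ℂ) (X (q + (i : ℤ)) (p + (j' : ℤ)) k)‖ ^ 2

/-- **exit average, labelled**: top kernel (columns `y` in an interval of length `L`, top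
normalisation `1/L`) in the normalised Hilbert-Schmidt norm of an exit box of side `N`
`<=` `(L + N)/L` times the average over the columns of the exit `S_4` forms. -/
theorem exit_avg_lab {κ : Type*} [Fintype κ] (X : ℤ → ℤ → κ → ℂ) (a : ℤ) (L N : ℕ) (hL : 0 < L)
    (hN : 0 < N) (p : ℤ)
    (hX : ∀ y, ¬ (a ≤ y ∧ y < a + L) → ∀ j : ℕ, j < N → ∀ k, X y (p + (j : ℤ)) k = 0) :
    (1 / (N : ℝ) ^ 2) * ∑ j ∈ range N, ∑ j' ∈ range N,
        ‖(1 / (L : ℝ) : ℝ) • ∑ y ∈ Ico a (a + L), ∑ k, X y (p + (j : ℤ)) k *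
          (starRingEnd ℂ) (X y (p + (j' : ℤ)) k)‖ ^ 2 ≤
      (((L : ℝ) + N) / L) * ((1 / (L : ℝ)) * ∑ b ∈ Ico (a - N + 1) (a + L), E4K X N b p) := by
  have hL' : (0 : ℝ) < L := by exact_mod_cast hL
  have hN' : (0 : ℝ) < N := by exact_mod_cast hN
  have h := box_cs (range N ×ˢ range N)
    (fun t y => ∑ k, X y (p + (t.1 : ℤ)) k * (starRingEnd ℂ) (X y (p + (t.2 : ℤ)) k)) a L N hN
    (by
      intro t ht y hy
      refine sum_eq_zero fun k _ => ?_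
      rw [hX y hy t.1 (mem_range.1 (mem_product.1 ht).1) k, zero_mul])
  rw [sum_product] at h
  simp only [sum_product] at h
  have e1 : ∑ b ∈ Ico (a - N + 1) (a + L), E4K X N b p = (1 / (N : ℝ) ^ 4) *
      ∑ b ∈ Ico (a - (N : ℤ) + 1) (a + L), ∑ j ∈ range N, ∑ j' ∈ range N,
        ‖∑ i ∈ range N, ∑ k, X (b + (i : ℤ)) (p + (j : ℤ)) k *
          (starRingEnd ℂ) (X (b + (i : ℤ)) (p + (j' : ℤ)) k)‖ ^ 2 := by
    unfold E4K
    rw [mul_sum]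
  rw [e1]
  have e2 : ∀ j j' : ℕ, ‖(1 / (L : ℝ) : ℝ) • ∑ y ∈ Ico a (a + L), ∑ k, X y (p + (j : ℤ)) k *
          (starRingEnd ℂ) (X y (p + (j' : ℤ)) k)‖ ^ 2 = (1 / (L : ℝ)) ^ 2 *
        ‖∑ y ∈ Ico a (a + L), ∑ k, X y (p + (j : ℤ)) k *
          (starRingEnd ℂ) (X y (p + (j' : ℤ)) k)‖ ^ 2 := by
    intro j j'
    rw [norm_smul, mul_pow, Real.norm_eq_abs, sq_abs]
  simp only [e2, ← mul_sum]
  set A := ∑ j ∈ range N, ∑ j' ∈ range N, ‖∑ y ∈ Ico a (a + L), ∑ k, X y (p + (j : ℤ)) k *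
          (starRingEnd ℂ) (X y (p + (j' : ℤ)) k)‖ ^ 2 with hA
  set B := ∑ b ∈ Ico (a - (N : ℤ) + 1) (a + L), ∑ j ∈ range N, ∑ j' ∈ range N,
        ‖∑ i ∈ range N, ∑ k, X (b + (i : ℤ)) (p + (j : ℤ)) k *
          (starRingEnd ℂ) (X (b + (i : ℤ)) (p + (j' : ℤ)) k)‖ ^ 2 with hB
  have h' : (N : ℝ) ^ 2 * A ≤ ((L : ℝ) + N) * B := h
  have h6 : 1 / (N : ℝ) ^ 2 * ((1 / (L : ℝ)) ^ 2 * A)
      = (1 / ((N : ℝ) ^ 4 * L ^ 2)) * ((N : ℝ) ^ 2 * A) := by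
    field_simp
  have h7 : ((L : ℝ) + N) / L * (1 / L * (1 / (N : ℝ) ^ 4 * B))
      = (1 / ((N : ℝ) ^ 4 * L ^ 2)) * (((L : ℝ) + N) * B) := by
    field_simp
  rw [h6, h7]
  exact mul_le_mul_of_nonneg_left h' (by positivity)

/-- **exit average**, without labels -/
theorem exit_avg (X : ℤ → ℤ → ℂ) (a : ℤ) (L N : ℕ) (hL : 0 < L) (hN : 0 < N) (p : ℤ)
    (hX : ∀ y, ¬ (a ≤ y ∧ y < a + L) → ∀ j : ℕ, j < N → X y (p + (j : ℤ)) = 0) :
    (1 / (N : ℝ) ^ 2) * ∑ j ∈ range N, ∑ j' ∈ range N,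
        ‖(1 / (L : ℝ) : ℝ) • ∑ y ∈ Ico a (a + L), X y (p + (j : ℤ)) *
          (starRingEnd ℂ) (X y (p + (j' : ℤ)))‖ ^ 2 ≤
      (((L : ℝ) + N) / L) * ((1 / (L : ℝ)) * ∑ b ∈ Ico (a - N + 1) (a + L), E4 X N b p) := by
  have h := exit_avg_lab (κ := Unit) (fun y x _ => X y x) a L N hL hN p
    (fun y hy j hj _ => hX y hy j hj)
  simpa [E4K, E4] using h

/-- unnormalised rectangular `S_4` form: `M` rows (summed), `N` columns -/
noncomputable def S4 (X : ℤ → ℤ → ℂ) (M N : ℕ) (q p : ℤ) : ℝ :=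
  ∑ j ∈ range N, ∑ j' ∈ range N,
    ‖∑ i ∈ range M, X (q + (i : ℤ)) (p + (j : ℤ)) *
      (starRingEnd ℂ) (X (q + (i : ℤ)) (p + (j' : ℤ)))‖ ^ 2

theorem E4_eq (X : ℤ → ℤ → ℂ) (N : ℕ) (q p : ℤ) :
    E4 X N q p = (1 / (N : ℝ) ^ 4) * S4 X N N q p := rfl








end Crest.Agent.R079.ExA999
end

-- ▼ part R079/ExB_999
section

/-!
# R079, Step I (leaf (d) of `28494`): exit cost of the truncated frames

`S4_le_op` : the `S_4` form of a box is at most (operator bound)^2 x (Hilbert-Schmidt)^2.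
`exit_cost` : if `C` has own operator size `<= s N` on every exit box of side `N` (columns windows
`[b, b+N)`), the top kernel `(C C^*)_P` restricted to the exit `[p, p+N)` has normalised
Hilbert-Schmidt square `<= ((L+N)/L) s^2 |C|^2`.
`exit_cost_mul` : the same for `k = c C C^*` (in the application `c = M (i+1) / (4 s_i)` and
`s = s_(i+1) = s_i t^(-y)`, so the cost is `<= 2 (M K)^2 t^(-2y) |C|^2 / 16`: no ageing).
-/

open Finset
open scoped BigOperators ComplexConjugate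

namespace Crest.Agent.R079.ExA999

/-- operator bound `s` of the `M x N` box with corner `(q, p)`, acting on vectors of the row variable -/
def OpB (X : ℤ → ℤ → ℂ) (M N : ℕ) (q p : ℤ) (s : ℝ) : Prop :=
  ∀ f : ℕ → ℂ, ∑ j ∈ range N, ‖∑ i ∈ range M, X (q + (i : ℤ)) (p + (j : ℤ)) * f i‖ ^ 2 ≤
    s ^ 2 * ∑ i ∈ range M, ‖f i‖ ^ 2

/-- Hilbert-Schmidt square of a box -/
noncomputable def HS (X : ℤ → ℤ → ℂ) (M N : ℕ) (q p : ℤ) : ℝ :=
  ∑ i ∈ range M, ∑ j ∈ range N, ‖X (q + (i : ℤ)) (p + (j : ℤ))‖ ^ 2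


theorem S4_le_op (X : ℤ → ℤ → ℂ) (M N : ℕ) (q p : ℤ) (s : ℝ) (h : OpB X M N q p s) :
    S4 X M N q p ≤ s ^ 2 * HS X M N q p := by
  unfold S4 HS
  rw [sum_comm]
  calc ∑ j' ∈ range N, ∑ j ∈ range N, ‖∑ i ∈ range M, X (q + (i : ℤ)) (p + (j : ℤ)) *
        (starRingEnd ℂ) (X (q + (i : ℤ)) (p + (j' : ℤ)))‖ ^ 2
      ≤ ∑ j' ∈ range N, s ^ 2 * ∑ i ∈ range M, ‖X (q + (i : ℤ)) (p + (j' : ℤ))‖ ^ 2 := by
        refine sum_le_sum fun j' _ => ?_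
        have := h (fun i => (starRingEnd ℂ) (X (q + (i : ℤ)) (p + (j' : ℤ))))
        simpa using this
    _ = s ^ 2 * ∑ i ∈ range M, ∑ j ∈ range N, ‖X (q + (i : ℤ)) (p + (j : ℤ))‖ ^ 2 := by
        rw [← mul_sum, sum_comm]

/-- normalised: own operator size `<= s N` gives `E4 <= s^2 (box average of |X|^2)` -/
theorem E4_le_op (X : ℤ → ℤ → ℂ) (N : ℕ) (hN : 0 < N) (q p : ℤ) (s : ℝ)
    (h : OpB X N N q p (s * N)) :
    E4 X N q p ≤ s ^ 2 * ((1 / (N : ℝ) ^ 2) * HS X N N q p) := by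
  have hN' : (0 : ℝ) < N := by exact_mod_cast hN
  rw [E4_eq]
  have h1 := mul_le_mul_of_nonneg_left (S4_le_op X N N q p (s * N) h)
    (by positivity : (0 : ℝ) ≤ 1 / (N : ℝ) ^ 4)
  refine h1.trans (le_of_eq ?_)
  field_simp

/-- the windows cover every column exactly `N` times: energy -/
theorem HS_win (X : ℤ → ℤ → ℂ) (a : ℤ) (L N : ℕ) (p : ℤ)
    (hX : ∀ y, ¬ (a ≤ y ∧ y < a + L) → ∀ j : ℕ, j < N → X y (p + (j : ℤ)) = 0) :
    ∑ b ∈ Ico (a - N + 1) (a + L), HS X N N b p =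
      (N : ℝ) * ∑ y ∈ Ico a (a + L), ∑ j ∈ range N, ‖X y (p + (j : ℤ))‖ ^ 2 := by
  have h := win_avg (fun y => ∑ j ∈ range N, ‖X y (p + (j : ℤ))‖ ^ 2) a L N (by
    intro y hy
    refine sum_eq_zero fun j hj => ?_
    rw [hX y hy j (mem_range.1 hj)]
    simp)
  unfold HS
  rw [h, nsmul_eq_mul]

/-- **exit cost** of the truncated letter: own operator size `<= s N` at the exit boxes gives
normalised HS square of the top kernel on the exit `<= ((L+N)/L) s^2 x (top average of |C|^2 on the exit)`. -/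
theorem exit_cost (X : ℤ → ℤ → ℂ) (a : ℤ) (L N : ℕ) (hL : 0 < L) (hN : 0 < N) (p : ℤ)
    (hX : ∀ y, ¬ (a ≤ y ∧ y < a + L) → ∀ j : ℕ, j < N → X y (p + (j : ℤ)) = 0) (s : ℝ)
    (hop : ∀ b ∈ Ico (a - (N : ℤ) + 1) (a + L), OpB X N N b p (s * N)) :
    (1 / (N : ℝ) ^ 2) * ∑ j ∈ range N, ∑ j' ∈ range N,
        ‖(1 / (L : ℝ) : ℝ) • ∑ y ∈ Ico a (a + L), X y (p + (j : ℤ)) *
          (starRingEnd ℂ) (X y (p + (j' : ℤ)))‖ ^ 2 ≤
      (((L : ℝ) + N) / L) * (s ^ 2 * ((1 / ((L : ℝ) * N)) *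
        ∑ y ∈ Ico a (a + L), ∑ j ∈ range N, ‖X y (p + (j : ℤ))‖ ^ 2)) := by
  have hL' : (0 : ℝ) < L := by exact_mod_cast hL
  have hN' : (0 : ℝ) < N := by exact_mod_cast hN
  refine (exit_avg X a L N hL hN p hX).trans ?_
  refine mul_le_mul_of_nonneg_left ?_ (by positivity)
  have h1 : ∑ b ∈ Ico (a - N + 1) (a + L), E4 X N b p ≤
      ∑ b ∈ Ico (a - (N : ℤ) + 1) (a + L), s ^ 2 * ((1 / (N : ℝ) ^ 2) * HS X N N b p) :=
    sum_le_sum fun b hb => E4_le_op X N hN b p s (hop b hb)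
  have h2 : ∑ b ∈ Ico (a - (N : ℤ) + 1) (a + L), s ^ 2 * ((1 / (N : ℝ) ^ 2) * HS X N N b p) =
      s ^ 2 * ((1 / (N : ℝ) ^ 2) * ((N : ℝ) *
        ∑ y ∈ Ico a (a + L), ∑ j ∈ range N, ‖X y (p + (j : ℤ))‖ ^ 2)) := by
    rw [← mul_sum, ← mul_sum, HS_win X a L N p hX]
  rw [h2] at h1
  refine (mul_le_mul_of_nonneg_left h1 (by positivity : (0 : ℝ) ≤ 1 / (L : ℝ))).trans
    (le_of_eq ?_)
  field_simp

/-- the same with a factor `c` in front of the kernel -/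
theorem exit_cost_mul (X : ℤ → ℤ → ℂ) (a : ℤ) (L N : ℕ) (hL : 0 < L) (hN : 0 < N) (hNL : N ≤ L)
    (p : ℤ)
    (hX : ∀ y, ¬ (a ≤ y ∧ y < a + L) → ∀ j : ℕ, j < N → X y (p + (j : ℤ)) = 0) (s c : ℝ)
    (hop : ∀ b ∈ Ico (a - (N : ℤ) + 1) (a + L), OpB X N N b p (s * N)) :
    (1 / (N : ℝ) ^ 2) * ∑ j ∈ range N, ∑ j' ∈ range N,
        ‖(c * (1 / (L : ℝ)) : ℝ) • ∑ y ∈ Ico a (a + L), X y (p + (j : ℤ)) *
          (starRingEnd ℂ) (X y (p + (j' : ℤ)))‖ ^ 2 ≤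
      2 * (c * s) ^ 2 * ((1 / ((L : ℝ) * N)) *
        ∑ y ∈ Ico a (a + L), ∑ j ∈ range N, ‖X y (p + (j : ℤ))‖ ^ 2) := by
  have hL' : (0 : ℝ) < L := by exact_mod_cast hL
  have hN' : (0 : ℝ) < N := by exact_mod_cast hN
  have hNL' : (N : ℝ) ≤ L := by exact_mod_cast hNL
  have h := exit_cost X a L N hL hN p hX s hop
  set W := ∑ y ∈ Ico a (a + L), ∑ j ∈ range N, ‖X y (p + (j : ℤ))‖ ^ 2 with hW
  have hW0 : 0 ≤ W := sum_nonneg fun _ _ => sum_nonneg fun _ _ => sq_nonneg _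
  have e1 : ∀ j j' : ℕ, ‖(c * (1 / (L : ℝ)) : ℝ) • ∑ y ∈ Ico a (a + L), X y (p + (j : ℤ)) *
          (starRingEnd ℂ) (X y (p + (j' : ℤ)))‖ ^ 2 = c ^ 2 *
        ‖(1 / (L : ℝ) : ℝ) • ∑ y ∈ Ico a (a + L), X y (p + (j : ℤ)) *
          (starRingEnd ℂ) (X y (p + (j' : ℤ)))‖ ^ 2 := by
    intro j j'
    rw [mul_smul, norm_smul, mul_pow, Real.norm_eq_abs, sq_abs]
  simp only [e1, ← mul_sum]
  set Z := ∑ j ∈ range N, ∑ j' ∈ range N,
        ‖(1 / (L : ℝ) : ℝ) • ∑ y ∈ Ico a (a + L), X y (p + (j : ℤ)) *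
          (starRingEnd ℂ) (X y (p + (j' : ℤ)))‖ ^ 2 with hZ
  have h3 : ((L : ℝ) + N) / L ≤ 2 := by
    rw [div_le_iff₀ hL']
    linarith
  have h4 : 0 ≤ s ^ 2 * ((1 / ((L : ℝ) * N)) * W) := by positivity
  have h5 := mul_le_mul_of_nonneg_right h3 h4
  have h6 := mul_le_mul_of_nonneg_left (h.trans h5) (sq_nonneg c)
  calc 1 / (N : ℝ) ^ 2 * (c ^ 2 * Z) = c ^ 2 * (1 / (N : ℝ) ^ 2 * Z) := by ring
    _ ≤ c ^ 2 * (2 * (s ^ 2 * ((1 / ((L : ℝ) * N)) * W))) := h6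
    _ = 2 * (c * s) ^ 2 * ((1 / ((L : ℝ) * N)) * W) := by ring

end Crest.Agent.R079.ExA999
end

-- ▼ part R079/ExC_999

/-!
# R079, Step I: from dyadic cells (`ClW59.OpS`, e.g. `ClW59.G_op`) to `exit_cost_mul`

`OpS` with `r 2^n` on every ALIGNED cell `dI n a x dI n b` gives operator bound `2 r 2^n` on every box of
side `2^n` at an arbitrary position (four blocks), hence the exit cost with `s = 2 r`.
-/

open Finset
open scoped BigOperators ComplexConjugate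

namespace Crest.Agent.R079.ExA999

open Crest.Agent.R079.Grid Crest.Agent.R079.ClW59

theorem opS_mono {S S' T T' : Finset ℤ} {B : ℤ → ℤ → ℂ} {s : ℝ} (hT : T ⊆ S) (hT' : T' ⊆ S')
    (h : OpS S S' B s) : OpS T T' B s := by
  classical
  intro f
  have h1 := h (fun y => if y ∈ T' then f y else 0)
  have e1 : ∀ x, ∑ y ∈ S', B x y * (if y ∈ T' then f y else 0) = ∑ y ∈ T', B x y * f y := by
    intro x
    rw [← sum_subset hT']
    · exact sum_congr rfl fun y hy => by rw [if_pos hy]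
    · intro y _ hy
      rw [if_neg hy, mul_zero]
  have e2 : ∑ y ∈ S', ‖(if y ∈ T' then f y else 0 : ℂ)‖ ^ 2 = ∑ y ∈ T', ‖f y‖ ^ 2 := by
    rw [← sum_subset hT']
    · exact sum_congr rfl fun y hy => by rw [if_pos hy]
    · intro y _ hy
      rw [if_neg hy]; simp
  simp only [e1, e2] at h1
  exact (sum_le_sum_of_subset_of_nonneg hT fun _ _ _ => sq_nonneg _).trans h1

/-- four blocks -/
theorem opS_union {S1 S2 T1 T2 : Finset ℤ} {B : ℤ → ℤ → ℂ} {s : ℝ} (hT : Disjoint T1 T2)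
    (h11 : OpS S1 T1 B s) (h12 : OpS S1 T2 B s) (h21 : OpS S2 T1 B s) (h22 : OpS S2 T2 B s) :
    OpS (S1 ∪ S2) (T1 ∪ T2) B (2 * s) := by
  intro f
  have e : ∀ x, ‖∑ y ∈ T1 ∪ T2, B x y * f y‖ ^ 2 ≤
      2 * (‖∑ y ∈ T1, B x y * f y‖ ^ 2 + ‖∑ y ∈ T2, B x y * f y‖ ^ 2) := by
    intro x
    rw [sum_union hT]
    set u := ∑ y ∈ T1, B x y * f y
    set v := ∑ y ∈ T2, B x y * f y
    have h1 : ‖u + v‖ ≤ ‖u‖ + ‖v‖ := norm_add_le _ _
    have h2 : ‖u + v‖ ^ 2 ≤ (‖u‖ + ‖v‖) ^ 2 := pow_le_pow_left₀ (norm_nonneg _) h1 2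
    nlinarith [sq_nonneg (‖u‖ - ‖v‖)]
  have hS : ∀ g : ℤ → ℝ, (∀ x, 0 ≤ g x) → ∑ x ∈ S1 ∪ S2, g x ≤ ∑ x ∈ S1, g x + ∑ x ∈ S2, g x := by
    intro g hg
    rw [← sum_union_inter]
    have : 0 ≤ ∑ x ∈ S1 ∩ S2, g x := sum_nonneg fun x _ => hg x
    linarith
  have a1 := h11 f
  have a2 := h12 f
  have a3 := h21 f
  have a4 := h22 f
  rw [sum_union hT]
  calc ∑ x ∈ S1 ∪ S2, ‖∑ y ∈ T1 ∪ T2, B x y * f y‖ ^ 2
      ≤ ∑ x ∈ S1 ∪ S2, 2 * (‖∑ y ∈ T1, B x y * f y‖ ^ 2 + ‖∑ y ∈ T2, B x y * f y‖ ^ 2) :=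
        sum_le_sum fun x _ => e x
    _ ≤ ∑ x ∈ S1, 2 * (‖∑ y ∈ T1, B x y * f y‖ ^ 2 + ‖∑ y ∈ T2, B x y * f y‖ ^ 2) +
        ∑ x ∈ S2, 2 * (‖∑ y ∈ T1, B x y * f y‖ ^ 2 + ‖∑ y ∈ T2, B x y * f y‖ ^ 2) :=
        hS _ fun x => by positivity
    _ = 2 * (∑ x ∈ S1, ‖∑ y ∈ T1, B x y * f y‖ ^ 2 + ∑ x ∈ S1, ‖∑ y ∈ T2, B x y * f y‖ ^ 2) +
        2 * (∑ x ∈ S2, ‖∑ y ∈ T1, B x y * f y‖ ^ 2 + ∑ x ∈ S2, ‖∑ y ∈ T2, B x y * f y‖ ^ 2) := by
        rw [← mul_sum, ← mul_sum, sum_add_distrib, sum_add_distrib]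
    _ ≤ (2 * s) ^ 2 * (∑ y ∈ T1, ‖f y‖ ^ 2 + ∑ y ∈ T2, ‖f y‖ ^ 2) := by nlinarith

/-- a box of side `2^n` at an arbitrary position -/
theorem opS_box {B : ℤ → ℤ → ℂ} {s : ℝ} {n : ℕ} (h : ∀ a b, OpS (dI n a) (dI n b) B s) (q p : ℤ) :
    OpS (Ico q (q + 2 ^ n)) (Ico p (p + 2 ^ n)) B (2 * s) := by
  have hsub : ∀ q : ℤ, Ico q (q + 2 ^ n) ⊆ dI n (q / 2 ^ n) ∪ dI n (q / 2 ^ n + 1) := by
    intro q y hy
    rw [mem_Ico] at hy
    have hpos : (0 : ℤ) < 2 ^ n := by positivity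
    have h1 := Int.emod_add_mul_ediv q (2 ^ n)
    have h2 := Int.emod_nonneg q (ne_of_gt hpos)
    have h3 := Int.emod_lt_of_pos q hpos
    unfold dI
    rw [mem_union, mem_Ico, mem_Ico]
    by_cases hc : y < (q / 2 ^ n + 1) * 2 ^ n
    · left
      constructor
      · nlinarith [hy.1]
      · exact hc
    · right
      constructor
      · exact not_lt.1 hc
      · nlinarith [hy.2]
  have hdis : Disjoint (dI n (p / 2 ^ n)) (dI n (p / 2 ^ n + 1)) := by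
    unfold dI
    rw [Finset.disjoint_left]
    intro y hy hy'
    rw [mem_Ico] at hy hy'
    linarith [hy.2, hy'.1]
  exact opS_mono (hsub q) (hsub p) (opS_union hdis (h _ _) (h _ _) (h _ _) (h _ _))

/-- bridge to `OpB` (rows `y`, columns `x`) -/
theorem opB_of_opS {B : ℤ → ℤ → ℂ} {s : ℝ} {M N : ℕ} {q p : ℤ}
    (h : OpS (Ico p (p + N)) (Ico q (q + M)) B s) : OpB (fun y x => B x y) M N q p s := by
  have hI : ∀ (c : ℤ) (K : ℕ) (E : Type) (_ : AddCommMonoid E) (g : ℤ → E),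
      ∑ y ∈ Ico c (c + K), g y = ∑ i ∈ range K, g (c + (i : ℤ)) := by
    intro c K E _ g
    symm
    apply sum_bij (fun (i : ℕ) _ => c + (i : ℤ))
    · intro i hi
      rw [mem_range] at hi
      rw [mem_Ico]
      constructor <;> omega
    · intro i _ j _ hij
      have : (i : ℤ) = j := by linarith
      exact_mod_cast this
    · intro y hy
      rw [mem_Ico] at hy
      refine ⟨(y - c).toNat, ?_, ?_⟩
      · rw [mem_range]; omega
      · have := Int.toNat_of_nonneg (by omega : 0 ≤ y - c)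
        rw [this]; ring
    · intro i _; rfl
  intro f
  have h1 := h (fun y => f (y - q).toNat)
  simp only [hI] at h1
  have e : ∀ i : ℕ, (q + (i : ℤ) - q).toNat = i := by
    intro i
    have : q + (i : ℤ) - q = i := by ring
    rw [this, Int.toNat_natCast]
  simp only [e] at h1
  exact h1

/-- **exit cost from dyadic cells**: `OpS` with `r 2^n` on every aligned cell of side `N = 2^n` -/
theorem exit_cost_cells (B : ℤ → ℤ → ℂ) (n : ℕ) (r c : ℝ)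
    (h : ∀ a b, OpS (dI n a) (dI n b) B (r * 2 ^ n)) (a : ℤ) (L : ℕ) (hNL : 2 ^ n ≤ L) (p : ℤ)
    (hB : ∀ y, ¬ (a ≤ y ∧ y < a + L) → ∀ x, B x y = 0) :
    (1 / ((2 : ℝ) ^ n) ^ 2) * ∑ j ∈ range (2 ^ n), ∑ j' ∈ range (2 ^ n),
        ‖(c * (1 / (L : ℝ)) : ℝ) • ∑ y ∈ Ico a (a + L), B (p + (j : ℤ)) y *
          (starRingEnd ℂ) (B (p + (j' : ℤ)) y)‖ ^ 2 ≤
      8 * (c * r) ^ 2 * ((1 / ((L : ℝ) * 2 ^ n)) *
        ∑ y ∈ Ico a (a + L), ∑ j ∈ range (2 ^ n), ‖B (p + (j : ℤ)) y‖ ^ 2) := by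
  have hN : 0 < 2 ^ n := by positivity
  have hL : 0 < L := lt_of_lt_of_le hN hNL
  have h0 := exit_cost_mul (fun y x => B x y) a L (2 ^ n) hL hN hNL p
    (fun y hy j _ => hB y hy _) (2 * r) c (by
      intro b _
      have h1 := opS_box h p b
      have h2 : OpS (Ico p (p + ((2 ^ n : ℕ) : ℤ))) (Ico b (b + ((2 ^ n : ℕ) : ℤ))) B
          (2 * r * ((2 ^ n : ℕ) : ℝ)) := by
        have e1 : ((2 ^ n : ℕ) : ℤ) = 2 ^ n := by push_cast; rfl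
        have e2 : 2 * r * ((2 ^ n : ℕ) : ℝ) = 2 * (r * 2 ^ n) := by push_cast; ring
        rw [e1, e2]
        exact h1
      exact opB_of_opS h2)
  have e3 : ((2 ^ n : ℕ) : ℝ) = 2 ^ n := by push_cast; rfl
  rw [e3] at h0
  refine h0.trans (le_of_eq ?_)
  ring

end Crest.Agent.R079.ExA999
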