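import Crest.Agent.R079.Glue_569
import Crest.Agent.R072.LatIntA

/-! R079, I1 part A (helper569): `TriIso` on `ZMod Q` implies the statement `TriIsoZ` on `ℤ`,
with a frozen offset `w`. -/

set_option autoImplicit false

namespace Crest.Agent.R079.Glue

open Finset Crest.Agent.R079.Grid Crest.Agent.R079.Pot

/-- real triangular box form on `ℤ` -/
noncomputable def Lb3r (A B C : ℤ → ℤ → ℝ) (N : ℕ) (p0 p1 p2 : ℤ) : ℝ :=
  (1 / ((N : ℝ) + N) ^ 3) * ∑ i0 : Fin (N + N), ∑ i1 : Fin (N + N), ∑ i2 : Fin (N + N),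
    hsg N i0 * hsg N i1 * hsg N i2 *
      (A (p0 + ((i0 : ℕ) : ℤ)) (p1 + ((i1 : ℕ) : ℤ)) *
       B (p1 + ((i1 : ℕ) : ℤ)) (p2 + ((i2 : ℕ) : ℤ)) *
       C (p2 + ((i2 : ℕ) : ℤ)) (p0 + ((i0 : ℕ) : ℤ)))

def SeesZ (A A' : ℤ → ℤ → ℝ) (N : ℕ) (q p : ℤ) : Prop :=
  ∃ i j : ℕ, i < N ∧ j < N ∧ A (q + (i : ℤ)) (p + (j : ℤ)) ≠ A' (q + (i : ℤ)) (p + (j : ℤ))

noncomputable def bxZ (A : ℤ → ℤ → ℝ) (N : ℕ) (q p : ℤ) : ℝ :=
  (1 / (N : ℝ) ^ 2) * ∑ i ∈ range N, ∑ j ∈ range N, A (q + (i : ℤ)) (p + (j : ℤ)) ^ 2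

/-- third coordinate of a centred position -/
def tc (N : ℕ) (i : ℕ) (w p0 p1 : ℤ) : ℤ := -(2 * (N : ℤ)) + (i : ℤ) - w - p0 - p1

open Classical in
noncomputable def VTZ (L : ℕ) (w : ℤ) (A B C A' B' C' : ℤ → ℤ → ℝ) (N : ℕ) : ℝ :=
  (1 / (N : ℝ)) * ∑ i ∈ range N, ∑ p0 ∈ Icc (-(L : ℤ)) L, ∑ p1 ∈ Icc (-(L : ℤ)) L,
    if SeesZ A A' N p0 p1 ∨ SeesZ B B' N p1 (tc N i w p0 p1) ∨ SeesZ C C' N (tc N i w p0 p1) p0 then
      bxZ A N p0 p1 ^ (3 / 2 : ℝ) + bxZ B N p1 (tc N i w p0 p1) ^ (3 / 2 : ℝ) +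
      bxZ C N (tc N i w p0 p1) p0 ^ (3 / 2 : ℝ)
    else 0

open Classical in
noncomputable def ETZ (L : ℕ) (A A' : ℤ → ℤ → ℝ) (N : ℕ) : ℝ :=
  ∑ q ∈ Icc (-(L : ℤ)) L, ∑ p ∈ Icc (-(L : ℤ)) L,
    if SeesZ A A' N q p then bxZ A N q p ^ (3 / 2 : ℝ) else 0

/-- `TriIso` on `ℤ`, frozen offset `w` -/
def TriIsoZ : Prop :=
  ∃ K : ℝ, 0 ≤ K ∧ ∃ κ : ℕ, ∀ l : ℤ, |l| ≤ 7 → ∀ (w : ℤ) (A B C : ℕ → ℤ → ℤ → ℝ) (L : ℕ),
    (∀ m x y, ((L : ℤ) < |x| ∨ (L : ℤ) < |y|) → A m x y = 0) →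
    (∀ m x y, ((L : ℤ) < |x| ∨ (L : ℤ) < |y|) → B m x y = 0) →
    (∀ m x y, ((L : ℤ) < |x| ∨ (L : ℤ) < |y|) → C m x y = 0) →
    A 0 = 0 → B 0 = 0 → C 0 = 0 → ∀ M L1 : ℕ, ∃ L' : ℕ,
    ∑ m ∈ range M, (1 / (2 : ℝ) ^ m) * ∑ i ∈ range (2 ^ m), ∑ p0 ∈ Icc (-(L1 : ℤ)) L1,
      ∑ p1 ∈ Icc (-(L1 : ℤ)) L1,
      |Lb3r (A (m + 1)) (B (m + 1)) (C (m + 1)) (2 ^ m) p0 p1
        (l * 2 ^ m + (i : ℤ) - w - p0 - p1)| ≤
    K * ∑ m ∈ range M,
      (VTZ L' w (A (m + 1)) (B (m + 1)) (C (m + 1)) (A m) (B m) (C m) (2 ^ m) +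
        ∑ s ∈ range κ, (ETZ L' (A (m + 1)) (A m) (2 ^ (m + s)) +
          ETZ L' (B (m + 1)) (B m) (2 ^ (m + s)) + ETZ L' (C (m + 1)) (C m) (2 ^ (m + s))))

/-! ### embedding `ℤ → ZMod Q` -/

section emb

variable {Q : ℕ} [NeZero Q]

/-- embedding of a function -/
def em (Q : ℕ) [NeZero Q] (A : ℤ → ℤ → ℝ) (x y : ZMod Q) : ℝ := A x.valMinAbs y.valMinAbs

/-- representative of a shifted point -/
lemma vma_add (x : ZMod Q) (i : ℕ) (L : ℕ) (h : |(x + (i : ZMod Q)).valMinAbs| ≤ L)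
    (hQ : 2 * (L + i) < Q) : (x + (i : ZMod Q)).valMinAbs = x.valMinAbs + i := by
  set y := (x + (i : ZMod Q)).valMinAbs with hy
  have h1 : ((y - i : ℤ) : ZMod Q) = x := by
    push_cast
    rw [hy, ZMod.coe_valMinAbs]
    ring
  have h2 : 2 * |y - i| < (Q : ℤ) := by
    have h3 : |y - i| ≤ L + i := by
      refine (abs_sub _ _).trans ?_
      have : |(i : ℤ)| = i := abs_of_nonneg (by positivity)
      rw [this]
      linarith
    have : (2 * (L + i) : ℤ) < Q := by exact_mod_cast hQ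
    linarith
  have h3 := Crest.Agent.R072.LatticeInt.vma (Q := Q) (y - i) h2
  rw [h1] at h3
  rw [h3]
  ring

lemma abs_vma_le (x : ZMod Q) (i : ℕ) (L : ℕ) (h : |(x + (i : ZMod Q)).valMinAbs| ≤ L)
    (hQ : 2 * (L + i) < Q) : |x.valMinAbs| ≤ L + i := by
  have h1 := vma_add x i L h hQ
  have h2 : x.valMinAbs = (x + (i : ZMod Q)).valMinAbs - i := by rw [h1]; ring
  rw [h2]
  refine (abs_sub _ _).trans ?_
  have : |(i : ℤ)| = i := abs_of_nonneg (by positivity)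
  rw [this]
  linarith

lemma em_point (A : ℤ → ℤ → ℝ) (L N : ℕ)
    (hA : ∀ x y, ((L : ℤ) < |x| ∨ (L : ℤ) < |y|) → A x y = 0) (hQ : 2 * (L + N) < Q)
    (q p : ZMod Q) (i j : ℕ) (hi : i < N) (hj : j < N)
    (h : em Q A (q + (i : ZMod Q)) (p + (j : ZMod Q)) ≠ 0) :
    em Q A (q + (i : ZMod Q)) (p + (j : ZMod Q)) = A (q.valMinAbs + i) (p.valMinAbs + j) ∧
      |q.valMinAbs| ≤ L + N ∧ |p.valMinAbs| ≤ L + N := by
  unfold em at h ⊢
  have h1 : |(q + (i : ZMod Q)).valMinAbs| ≤ L := by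
    by_contra hc
    exact h (hA _ _ (Or.inl (not_le.mp hc)))
  have h2 : |(p + (j : ZMod Q)).valMinAbs| ≤ L := by
    by_contra hc
    exact h (hA _ _ (Or.inr (not_le.mp hc)))
  refine ⟨?_, ?_, ?_⟩
  · rw [vma_add q i L h1 (by omega), vma_add p j L h2 (by omega)]
  · have := abs_vma_le q i L h1 (by omega)
    have hi' : (i : ℤ) ≤ N := by exact_mod_cast hi.le
    linarith
  · have := abs_vma_le p j L h2 (by omega)
    have hj' : (j : ℤ) ≤ N := by exact_mod_cast hj.le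
    linarith

/-- all values of `A` on a box close to the origin are values of `em A` -/
lemma em_eq (A : ℤ → ℤ → ℝ) (q p : ℤ) (hq : 2 * |q| < Q) (hp : 2 * |p| < Q) :
    em Q A (q : ZMod Q) (p : ZMod Q) = A q p := by
  unfold em
  rw [Crest.Agent.R072.LatticeInt.vma q hq, Crest.Agent.R072.LatticeInt.vma p hp]

lemma bx_em_le (A : ℤ → ℤ → ℝ) (L N : ℕ)
    (hA : ∀ x y, ((L : ℤ) < |x| ∨ (L : ℤ) < |y|) → A x y = 0) (hQ : 2 * (L + N) < Q)
    (q p : ZMod Q) : bx (em Q A) N q p ≤ bxZ A N q.valMinAbs p.valMinAbs := by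
  unfold bx bxZ
  refine mul_le_mul_of_nonneg_left ?_ (by positivity)
  refine Finset.sum_le_sum fun i hi => Finset.sum_le_sum fun j hj => ?_
  rw [Finset.mem_range] at hi hj
  by_cases h : em Q A (q + (i : ZMod Q)) (p + (j : ZMod Q)) = 0
  · rw [h]; simpa using sq_nonneg (A (q.valMinAbs + i) (p.valMinAbs + j))
  · rw [(em_point A L N hA hQ q p i j hi hj h).1]

omit [NeZero Q] in
lemma bx_nonneg (X : ZMod Q → ZMod Q → ℝ) (N : ℕ) (q p : ZMod Q) : 0 ≤ bx X N q p := by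
  unfold bx; positivity

lemma sees_em (A A' : ℤ → ℤ → ℝ) (L N : ℕ)
    (hA : ∀ x y, ((L : ℤ) < |x| ∨ (L : ℤ) < |y|) → A x y = 0)
    (hA' : ∀ x y, ((L : ℤ) < |x| ∨ (L : ℤ) < |y|) → A' x y = 0) (hQ : 2 * (L + N) < Q)
    (q p : ZMod Q) (h : Sees (em Q A) (em Q A') N q p) :
    SeesZ A A' N q.valMinAbs p.valMinAbs ∧ |q.valMinAbs| ≤ L + N ∧ |p.valMinAbs| ≤ L + N := by
  obtain ⟨i, j, hi, hj, hne⟩ := h
  by_cases h0 : em Q A (q + (i : ZMod Q)) (p + (j : ZMod Q)) = 0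
  · have h1 : em Q A' (q + (i : ZMod Q)) (p + (j : ZMod Q)) ≠ 0 := by
      intro h2; exact hne (by rw [h0, h2])
    obtain ⟨e, b1, b2⟩ := em_point A' L N hA' hQ q p i j hi hj h1
    refine ⟨⟨i, j, hi, hj, ?_⟩, b1, b2⟩
    have hh : |(q + (i : ZMod Q)).valMinAbs| ≤ L := by
      by_contra hc
      exact h1 (hA' _ _ (Or.inl (not_le.mp hc)))
    have hh' : |(p + (j : ZMod Q)).valMinAbs| ≤ L := by
      by_contra hc
      exact h1 (hA' _ _ (Or.inr (not_le.mp hc)))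
    have e1 : em Q A (q + (i : ZMod Q)) (p + (j : ZMod Q)) = A (q.valMinAbs + i) (p.valMinAbs + j) := by
      unfold em
      rw [vma_add q i L hh (by omega), vma_add p j L hh' (by omega)]
    rw [← e1, ← e]
    exact hne
  · obtain ⟨e, b1, b2⟩ := em_point A L N hA hQ q p i j hi hj h0
    refine ⟨⟨i, j, hi, hj, ?_⟩, b1, b2⟩
    have hh : |(q + (i : ZMod Q)).valMinAbs| ≤ L := by
      by_contra hc
      exact h0 (hA _ _ (Or.inl (not_le.mp hc)))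
    have hh' : |(p + (j : ZMod Q)).valMinAbs| ≤ L := by
      by_contra hc
      exact h0 (hA _ _ (Or.inr (not_le.mp hc)))
    have e1 : em Q A' (q + (i : ZMod Q)) (p + (j : ZMod Q)) =
        A' (q.valMinAbs + i) (p.valMinAbs + j) := by
      unfold em
      rw [vma_add q i L hh (by omega), vma_add p j L hh' (by omega)]
    rw [← e1, ← e]
    exact hne

/-- `ZMod` sum bounded by a sum over integers -/
lemma sum_zmod_le (g : ZMod Q → ℝ) (h : ℤ → ℝ) (hh : ∀ x, 0 ≤ h x)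
    (hgh : ∀ z : ZMod Q, g z ≤ h z.valMinAbs) :
    ∑ z : ZMod Q, g z ≤ ∑ x ∈ Icc (-(Q : ℤ)) Q, h x := by
  refine (Finset.sum_le_sum fun z _ => hgh z).trans ?_
  rw [← Finset.sum_image (f := h) (g := fun z : ZMod Q => z.valMinAbs)
    (fun a _ b _ hab => ZMod.injective_valMinAbs hab)]
  refine Finset.sum_le_sum_of_subset_of_nonneg ?_ fun x _ _ => hh x
  intro x hx
  rw [Finset.mem_image] at hx
  obtain ⟨z, _, rfl⟩ := hx
  rw [Finset.mem_Icc]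
  have := ZMod.valMinAbs_mem_Ioc z
  rw [Set.mem_Ioc] at this
  constructor <;> linarith [this.1, this.2, (Nat.cast_nonneg Q : (0:ℤ) ≤ Q)]

/-- integer sum bounded by a `ZMod` sum -/
lemma sum_int_le (g : ZMod Q → ℝ) (hg : ∀ z, 0 ≤ g z) (L : ℕ) (hQ : 2 * L < Q) :
    ∑ x ∈ Icc (-(L : ℤ)) L, g (x : ZMod Q) ≤ ∑ z : ZMod Q, g z := by
  rw [← Finset.sum_image (f := g) (g := fun x : ℤ => (x : ZMod Q))]
  · exact Finset.sum_le_sum_of_subset_of_nonneg (Finset.subset_univ _) fun x _ _ => hg x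
  · intro a ha b hb hab
    simp only [coe_Icc, Set.mem_Icc] at ha hb
    have hQ' : (2 * L : ℤ) < Q := by exact_mod_cast hQ
    have h1 := Crest.Agent.R072.LatticeInt.vma (Q := Q) a (by
      have : |a| ≤ L := abs_le.2 ha
      omega)
    have h2 := Crest.Agent.R072.LatticeInt.vma (Q := Q) b (by
      have : |b| ≤ L := abs_le.2 hb
      omega)
    have hab' : ((a : ℤ) : ZMod Q) = (b : ZMod Q) := hab
    rw [← h1, ← h2, hab']


/-- the box form is unchanged by the embedding -/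
lemma Lbox_em (A B C : ℤ → ℤ → ℝ) (N : ℕ) (p0 p1 p2 : ℤ) (h0 : 2 * (|p0| + 2 * N) < Q)
    (h1 : 2 * (|p1| + 2 * N) < Q) (h2 : 2 * (|p2| + 2 * N) < Q) :
    Crest.Agent.R072.Lattice.Lbox (em Q A) (em Q B) (em Q C) N (p0 : ZMod Q) (p1 : ZMod Q)
      (p2 : ZMod Q) = Lb3r A B C N p0 p1 p2 := by
  have key : ∀ (p : ℤ) (i : Fin (N + N)), 2 * (|p| + 2 * N) < Q → 2 * |p + ((i : ℕ) : ℤ)| < Q := by
    intro p i h
    have hi : ((i : ℕ) : ℤ) < 2 * N := by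
      have := i.isLt
      omega
    have h3 : |p + ((i : ℕ) : ℤ)| ≤ |p| + |((i : ℕ) : ℤ)| := abs_add_le _ _
    have h4 : |((i : ℕ) : ℤ)| = ((i : ℕ) : ℤ) := abs_of_nonneg (by positivity)
    rw [h4] at h3
    linarith
  have hc : ∀ (p : ℤ) (i : Fin (N + N)), (p : ZMod Q) + (((i : ℕ) : ℕ) : ZMod Q) =
      ((p + ((i : ℕ) : ℤ) : ℤ) : ZMod Q) := by
    intro p i; push_cast; rfl
  unfold Crest.Agent.R072.Lattice.Lbox Lb3r
  congr 1
  refine Finset.sum_congr rfl fun i0 _ => Finset.sum_congr rfl fun i1 _ =>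
    Finset.sum_congr rfl fun i2 _ => ?_
  rw [hc, hc, hc, em_eq A _ _ (key p0 i0 h0) (key p1 i1 h1),
    em_eq B _ _ (key p1 i1 h1) (key p2 i2 h2), em_eq C _ _ (key p2 i2 h2) (key p0 i0 h0)]
  rfl

end emb


/-! ### translations -/

lemma Lb3r_shift (A B C : ℤ → ℤ → ℝ) (N : ℕ) (w p0 p1 p2 : ℤ) :
    Lb3r A (fun x y => B x (y - w)) (fun x y => C (x - w) y) N p0 p1 (p2 + w) =
      Lb3r A B C N p0 p1 p2 := by
  unfold Lb3r
  congr 1
  refine Finset.sum_congr rfl fun i0 _ => Finset.sum_congr rfl fun i1 _ =>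
    Finset.sum_congr rfl fun i2 _ => ?_
  simp only
  rw [show p2 + w + ((i2 : ℕ) : ℤ) - w = p2 + ((i2 : ℕ) : ℤ) by ring]

lemma bxZ_shift_right (B : ℤ → ℤ → ℝ) (N : ℕ) (w q p : ℤ) :
    bxZ (fun x y => B x (y - w)) N q (p + w) = bxZ B N q p := by
  unfold bxZ
  congr 1
  refine Finset.sum_congr rfl fun i _ => Finset.sum_congr rfl fun j _ => ?_
  simp only
  rw [show p + w + (j : ℤ) - w = p + (j : ℤ) by ring]

lemma bxZ_shift_left (B : ℤ → ℤ → ℝ) (N : ℕ) (w q p : ℤ) :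
    bxZ (fun x y => B (x - w) y) N (q + w) p = bxZ B N q p := by
  unfold bxZ
  congr 1
  refine Finset.sum_congr rfl fun i _ => Finset.sum_congr rfl fun j _ => ?_
  simp only
  rw [show q + w + (i : ℤ) - w = q + (i : ℤ) by ring]

lemma SeesZ_shift_right (B B' : ℤ → ℤ → ℝ) (N : ℕ) (w q p : ℤ) :
    SeesZ (fun x y => B x (y - w)) (fun x y => B' x (y - w)) N q (p + w) ↔ SeesZ B B' N q p := by
  unfold SeesZ
  refine exists_congr fun i => exists_congr fun j => ?_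
  simp only
  rw [show p + w + (j : ℤ) - w = p + (j : ℤ) by ring]

lemma SeesZ_shift_left (B B' : ℤ → ℤ → ℝ) (N : ℕ) (w q p : ℤ) :
    SeesZ (fun x y => B (x - w) y) (fun x y => B' (x - w) y) N (q + w) p ↔ SeesZ B B' N q p := by
  unfold SeesZ
  refine exists_congr fun i => exists_congr fun j => ?_
  simp only
  rw [show q + w + (i : ℤ) - w = q + (i : ℤ) by ring]

lemma bxZ_nonneg (B : ℤ → ℤ → ℝ) (N : ℕ) (q p : ℤ) : 0 ≤ bxZ B N q p := by
  unfold bxZ; positivity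

/-- sum over a shifted interval -/
lemma sum_Icc_shift_le (h : ℤ → ℝ) (hh : ∀ x, 0 ≤ h x) (w : ℤ) (Q : ℕ) :
    ∑ x ∈ Icc (-(Q : ℤ)) Q, h (x - w) ≤ ∑ x ∈ Icc (-((Q + w.natAbs : ℕ) : ℤ)) ((Q + w.natAbs : ℕ) : ℤ), h x := by
  rw [← Finset.sum_image (f := h) (g := fun x : ℤ => x - w)
    (fun a _ b _ hab => by simpa using hab)]
  refine Finset.sum_le_sum_of_subset_of_nonneg ?_ fun x _ _ => hh x
  intro x hx
  rw [Finset.mem_image] at hx
  obtain ⟨z, hz, rfl⟩ := hx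
  rw [Finset.mem_Icc] at hz ⊢
  have h1 := le_abs_self w
  have h2 := neg_abs_le w
  push_cast
  constructor <;> linarith [hz.1, hz.2]

lemma sum_Icc_mono (h : ℤ → ℝ) (hh : ∀ x, 0 ≤ h x) (Q Q' : ℕ) (hQ : Q ≤ Q') :
    ∑ x ∈ Icc (-(Q : ℤ)) Q, h x ≤ ∑ x ∈ Icc (-(Q' : ℤ)) Q', h x := by
  refine Finset.sum_le_sum_of_subset_of_nonneg ?_ fun x _ _ => hh x
  intro x hx
  rw [Finset.mem_Icc] at hx ⊢
  omega

/-- own potentials: `ZMod Q → ℤ` -/
lemma ET_em_le {Q : ℕ} [NeZero Q] (A A' : ℤ → ℤ → ℝ) (L N : ℕ)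
    (hA : ∀ x y, ((L : ℤ) < |x| ∨ (L : ℤ) < |y|) → A x y = 0)
    (hA' : ∀ x y, ((L : ℤ) < |x| ∨ (L : ℤ) < |y|) → A' x y = 0) (hQ : 2 * (L + N) < Q) :
    ET (em Q A) (em Q A') N ≤ ETZ Q A A' N := by
  classical
  unfold ET ETZ
  refine sum_zmod_le _ (fun q => ∑ p ∈ Icc (-(Q : ℤ)) Q,
    if SeesZ A A' N q p then bxZ A N q p ^ (3 / 2 : ℝ) else 0) ?_ ?_
  · intro q
    refine Finset.sum_nonneg fun p _ => ?_
    split_ifs
    · exact Real.rpow_nonneg (bxZ_nonneg _ _ _ _) _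
    · exact le_rfl
  · intro q
    refine sum_zmod_le _ (fun p => if SeesZ A A' N q.valMinAbs p then
      bxZ A N q.valMinAbs p ^ (3 / 2 : ℝ) else 0) ?_ ?_
    · intro p
      split_ifs
      · exact Real.rpow_nonneg (bxZ_nonneg _ _ _ _) _
      · exact le_rfl
    · intro p
      by_cases h : Sees (em Q A) (em Q A') N q p
      · rw [if_pos h, if_pos (sees_em A A' L N hA hA' hQ q p h).1]
        exact Real.rpow_le_rpow (bx_nonneg _ _ _ _) (bx_em_le A L N hA hQ q p) (by norm_num)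
      · rw [if_neg h]
        split_ifs
        · exact Real.rpow_nonneg (bxZ_nonneg _ _ _ _) _
        · exact le_rfl

lemma ETZ_mono (A A' : ℤ → ℤ → ℝ) (N Q Q' : ℕ) (hQ : Q ≤ Q') : ETZ Q A A' N ≤ ETZ Q' A A' N := by
  classical
  unfold ETZ
  have h0 : ∀ q p, (0 : ℝ) ≤ if SeesZ A A' N q p then bxZ A N q p ^ (3 / 2 : ℝ) else 0 := by
    intro q p
    split_ifs
    · exact Real.rpow_nonneg (bxZ_nonneg _ _ _ _) _
    · exact le_rfl
  refine (Finset.sum_le_sum fun q _ => sum_Icc_mono _ (h0 q) Q Q' hQ).trans ?_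
  exact sum_Icc_mono _ (fun q => Finset.sum_nonneg fun p _ => h0 q p) Q Q' hQ

lemma ETZ_shift_right (A A' : ℤ → ℤ → ℝ) (N Q : ℕ) (w : ℤ) :
    ETZ Q (fun x y => A x (y - w)) (fun x y => A' x (y - w)) N ≤ ETZ (Q + w.natAbs) A A' N := by
  classical
  unfold ETZ
  have h0 : ∀ q p, (0 : ℝ) ≤ if SeesZ A A' N q p then bxZ A N q p ^ (3 / 2 : ℝ) else 0 := by
    intro q p
    split_ifs
    · exact Real.rpow_nonneg (bxZ_nonneg _ _ _ _) _
    · exact le_rfl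
  have h1 : ∀ q, ∑ p ∈ Icc (-(Q : ℤ)) Q, (if SeesZ (fun x y => A x (y - w))
      (fun x y => A' x (y - w)) N q p then bxZ (fun x y => A x (y - w)) N q p ^ (3 / 2 : ℝ) else 0) ≤
      ∑ p ∈ Icc (-((Q + w.natAbs : ℕ) : ℤ)) ((Q + w.natAbs : ℕ) : ℤ),
        if SeesZ A A' N q p then bxZ A N q p ^ (3 / 2 : ℝ) else 0 := by
    intro q
    refine le_trans (le_of_eq ?_) (sum_Icc_shift_le _ (h0 q) w Q)
    refine Finset.sum_congr rfl fun p _ => ?_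
    have e1 := SeesZ_shift_right A A' N w q (p - w)
    have e2 := bxZ_shift_right A N w q (p - w)
    rw [sub_add_cancel] at e1 e2
    rw [e2]
    exact if_congr e1 rfl rfl
  refine (Finset.sum_le_sum fun q _ => h1 q).trans ?_
  exact sum_Icc_mono _ (fun q => Finset.sum_nonneg fun p _ => h0 q p) Q _ (Nat.le_add_right _ _)

lemma ETZ_shift_left (A A' : ℤ → ℤ → ℝ) (N Q : ℕ) (w : ℤ) :
    ETZ Q (fun x y => A (x - w) y) (fun x y => A' (x - w) y) N ≤ ETZ (Q + w.natAbs) A A' N := by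
  classical
  unfold ETZ
  have h0 : ∀ q p, (0 : ℝ) ≤ if SeesZ A A' N q p then bxZ A N q p ^ (3 / 2 : ℝ) else 0 := by
    intro q p
    split_ifs
    · exact Real.rpow_nonneg (bxZ_nonneg _ _ _ _) _
    · exact le_rfl
  have h2 : ∀ q : ℤ, 0 ≤ ∑ p ∈ Icc (-((Q + w.natAbs : ℕ) : ℤ)) ((Q + w.natAbs : ℕ) : ℤ),
      (if SeesZ A A' N q p then bxZ A N q p ^ (3 / 2 : ℝ) else 0) :=
    fun q => Finset.sum_nonneg fun p _ => h0 q p
  refine le_trans (Finset.sum_le_sum fun q _ => ?_) (sum_Icc_shift_le _ h2 w Q)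
  have e : ∀ p ∈ Icc (-(Q : ℤ)) Q, (if SeesZ (fun x y => A (x - w) y)
      (fun x y => A' (x - w) y) N q p then bxZ (fun x y => A (x - w) y) N q p ^ (3 / 2 : ℝ) else 0) =
      if SeesZ A A' N (q - w) p then bxZ A N (q - w) p ^ (3 / 2 : ℝ) else 0 := by
    intro p _
    have e1 := SeesZ_shift_left A A' N w (q - w) p
    have e2 := bxZ_shift_left A N w (q - w) p
    rw [sub_add_cancel] at e1 e2
    rw [e2]
    exact if_congr e1 rfl rfl
  rw [Finset.sum_congr rfl e]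
  exact sum_Icc_mono _ (h0 _) Q _ (Nat.le_add_right _ _)

/-- joint potentials: `ZMod Q → ℤ` -/
lemma VT_em_le {Q : ℕ} [NeZero Q] (w : ℤ) (A B C A' B' C' : ℤ → ℤ → ℝ) (L N : ℕ)
    (hA : ∀ x y, ((L : ℤ) < |x| ∨ (L : ℤ) < |y|) → A x y = 0)
    (hA' : ∀ x y, ((L : ℤ) < |x| ∨ (L : ℤ) < |y|) → A' x y = 0)
    (hB : ∀ x y, ((L : ℤ) < |x| ∨ (L : ℤ) < |y|) → B x (y - w) = 0)
    (hB' : ∀ x y, ((L : ℤ) < |x| ∨ (L : ℤ) < |y|) → B' x (y - w) = 0)
    (hC : ∀ x y, ((L : ℤ) < |x| ∨ (L : ℤ) < |y|) → C (x - w) y = 0)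
    (hC' : ∀ x y, ((L : ℤ) < |x| ∨ (L : ℤ) < |y|) → C' (x - w) y = 0)
    (hQ : 2 * (4 * L + 14 * N) < Q) :
    VT (em Q A) (em Q (fun x y => B x (y - w))) (em Q (fun x y => C (x - w) y))
      (em Q A') (em Q (fun x y => B' x (y - w))) (em Q (fun x y => C' (x - w) y)) N ≤
      VTZ Q w A B C A' B' C' N := by
  classical
  set B1 : ℤ → ℤ → ℝ := fun x y => B x (y - w) with hB1
  set B1' : ℤ → ℤ → ℝ := fun x y => B' x (y - w) with hB1'
  set C1 : ℤ → ℤ → ℝ := fun x y => C (x - w) y with hC1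
  set C1' : ℤ → ℤ → ℝ := fun x y => C' (x - w) y with hC1'
  unfold VT VTZ
  refine mul_le_mul_of_nonneg_left ?_ (by positivity)
  refine Finset.sum_le_sum fun i hi => ?_
  rw [Finset.mem_range] at hi
  have hnn : ∀ p0 p1 : ℤ, (0 : ℝ) ≤ if SeesZ A A' N p0 p1 ∨ SeesZ B B' N p1 (tc N i w p0 p1) ∨
      SeesZ C C' N (tc N i w p0 p1) p0 then
      bxZ A N p0 p1 ^ (3 / 2 : ℝ) + bxZ B N p1 (tc N i w p0 p1) ^ (3 / 2 : ℝ) +
      bxZ C N (tc N i w p0 p1) p0 ^ (3 / 2 : ℝ) else 0 := by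
    intro p0 p1
    split_ifs
    · have h1 := Real.rpow_nonneg (bxZ_nonneg A N p0 p1) (3 / 2 : ℝ)
      have h2 := Real.rpow_nonneg (bxZ_nonneg B N p1 (tc N i w p0 p1)) (3 / 2 : ℝ)
      have h3 := Real.rpow_nonneg (bxZ_nonneg C N (tc N i w p0 p1) p0) (3 / 2 : ℝ)
      linarith
    · exact le_rfl
  refine sum_zmod_le _ (fun p0 => ∑ p1 ∈ Icc (-(Q : ℤ)) Q,
    if SeesZ A A' N p0 p1 ∨ SeesZ B B' N p1 (tc N i w p0 p1) ∨
      SeesZ C C' N (tc N i w p0 p1) p0 then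
      bxZ A N p0 p1 ^ (3 / 2 : ℝ) + bxZ B N p1 (tc N i w p0 p1) ^ (3 / 2 : ℝ) +
      bxZ C N (tc N i w p0 p1) p0 ^ (3 / 2 : ℝ) else 0)
    (fun p0 => Finset.sum_nonneg fun p1 _ => hnn p0 p1) fun p0 => ?_
  refine sum_zmod_le _ (fun p1 => if SeesZ A A' N p0.valMinAbs p1 ∨
      SeesZ B B' N p1 (tc N i w p0.valMinAbs p1) ∨
      SeesZ C C' N (tc N i w p0.valMinAbs p1) p0.valMinAbs then
      bxZ A N p0.valMinAbs p1 ^ (3 / 2 : ℝ) + bxZ B N p1 (tc N i w p0.valMinAbs p1) ^ (3 / 2 : ℝ) +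
      bxZ C N (tc N i w p0.valMinAbs p1) p0.valMinAbs ^ (3 / 2 : ℝ) else 0)
    (fun p1 => hnn p0.valMinAbs p1) fun p1 => ?_
  set p2 : ZMod Q := -(2 * (N : ZMod Q)) + (i : ZMod Q) - p0 - p1 with hp2
  by_cases h : Sees (em Q A) (em Q A') N p0 p1 ∨ Sees (em Q B1) (em Q B1') N p1 p2 ∨
      Sees (em Q C1) (em Q C1') N p2 p0
  swap
  · rw [if_neg h]
    exact hnn _ _
  rw [if_pos h]
  have hQ1 : 2 * (L + N) < Q := by omega
  have hi' : (i : ℤ) < N := by exact_mod_cast hi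
  have hi0 : (0 : ℤ) ≤ i := by positivity
  have hQz : (2 * (4 * L + 14 * N) : ℤ) < Q := by exact_mod_cast hQ
  have hN0 : (0 : ℤ) ≤ N := by positivity
  have hL0 : (0 : ℤ) ≤ L := by positivity
  -- all three representatives
  have hsmall : |p0.valMinAbs| ≤ 2 * L + 5 * N ∧ |p1.valMinAbs| ≤ 2 * L + 5 * N := by
    rcases h with h | h | h
    · obtain ⟨_, b1, b2⟩ := sees_em A A' L N hA hA' hQ1 p0 p1 h
      constructor <;> linarith
    · obtain ⟨_, b1, b2⟩ := sees_em B1 B1' L N hB hB' hQ1 p1 p2 h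
      refine ⟨?_, by linarith⟩
      have e : p0 = ((-(2 * (N : ℤ)) + (i : ℤ) - p1.valMinAbs - p2.valMinAbs : ℤ) : ZMod Q) := by
        push_cast
        rw [hp2]
        ring
      rw [abs_le] at b1 b2
      have hb : |(-(2 * (N : ℤ)) + (i : ℤ) - p1.valMinAbs - p2.valMinAbs)| ≤ 2 * L + 5 * N := by
        rw [abs_le]; constructor <;> linarith [b1.1, b1.2, b2.1, b2.2]
      rw [e, Crest.Agent.R072.LatticeInt.vma _ (by linarith)]
      exact hb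
    · obtain ⟨_, b1, b2⟩ := sees_em C1 C1' L N hC hC' hQ1 p2 p0 h
      refine ⟨by linarith, ?_⟩
      have e : p1 = ((-(2 * (N : ℤ)) + (i : ℤ) - p2.valMinAbs - p0.valMinAbs : ℤ) : ZMod Q) := by
        push_cast
        rw [hp2]
        ring
      rw [abs_le] at b1 b2
      have hb : |(-(2 * (N : ℤ)) + (i : ℤ) - p2.valMinAbs - p0.valMinAbs)| ≤ 2 * L + 5 * N := by
        rw [abs_le]; constructor <;> linarith [b1.1, b1.2, b2.1, b2.2]
      rw [e, Crest.Agent.R072.LatticeInt.vma _ (by linarith)]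
      exact hb
  have hp2v : p2.valMinAbs = tc N i w p0.valMinAbs p1.valMinAbs + w := by
    have e : p2 = ((-(2 * (N : ℤ)) + (i : ℤ) - p0.valMinAbs - p1.valMinAbs : ℤ) : ZMod Q) := by
      push_cast
      rw [hp2]
    have h1 := abs_le.mp hsmall.1
    have h2 := abs_le.mp hsmall.2
    have hb : |(-(2 * (N : ℤ)) + (i : ℤ) - p0.valMinAbs - p1.valMinAbs)| ≤ 4 * L + 13 * N := by
      rw [abs_le]; constructor <;> linarith [h1.1, h1.2, h2.1, h2.2]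
    rw [e, Crest.Agent.R072.LatticeInt.vma _ (by linarith)]
    unfold tc
    ring
  have hbB : bx (em Q B1) N p1 p2 ≤ bxZ B N p1.valMinAbs (tc N i w p0.valMinAbs p1.valMinAbs) := by
    have := bx_em_le B1 L N hB hQ1 p1 p2
    rw [hp2v] at this
    rwa [hB1, bxZ_shift_right] at this
  have hbC : bx (em Q C1) N p2 p0 ≤ bxZ C N (tc N i w p0.valMinAbs p1.valMinAbs) p0.valMinAbs := by
    have := bx_em_le C1 L N hC hQ1 p2 p0
    rw [hp2v] at this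
    rwa [hC1, bxZ_shift_left] at this
  have hbA : bx (em Q A) N p0 p1 ≤ bxZ A N p0.valMinAbs p1.valMinAbs := bx_em_le A L N hA hQ1 p0 p1
  rw [if_pos]
  · exact add_le_add (add_le_add
      (Real.rpow_le_rpow (bx_nonneg _ _ _ _) hbA (by norm_num))
      (Real.rpow_le_rpow (bx_nonneg _ _ _ _) hbB (by norm_num)))
      (Real.rpow_le_rpow (bx_nonneg _ _ _ _) hbC (by norm_num))
  · rcases h with h | h | h
    · exact Or.inl (sees_em A A' L N hA hA' hQ1 p0 p1 h).1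
    · refine Or.inr (Or.inl ?_)
      have := (sees_em B1 B1' L N hB hB' hQ1 p1 p2 h).1
      rw [hp2v] at this
      exact (SeesZ_shift_right B B' N w _ _).mp this
    · refine Or.inr (Or.inr ?_)
      have := (sees_em C1 C1' L N hC hC' hQ1 p2 p0 h).1
      rw [hp2v] at this
      exact (SeesZ_shift_left C C' N w _ _).mp this

lemma VTZ_mono (w : ℤ) (A B C A' B' C' : ℤ → ℤ → ℝ) (N Q Q' : ℕ) (hQ : Q ≤ Q') :
    VTZ Q w A B C A' B' C' N ≤ VTZ Q' w A B C A' B' C' N := by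
  classical
  unfold VTZ
  refine mul_le_mul_of_nonneg_left ?_ (by positivity)
  refine Finset.sum_le_sum fun i hi => ?_
  have hnn : ∀ p0 p1 : ℤ, (0 : ℝ) ≤ if SeesZ A A' N p0 p1 ∨ SeesZ B B' N p1 (tc N i w p0 p1) ∨
      SeesZ C C' N (tc N i w p0 p1) p0 then
      bxZ A N p0 p1 ^ (3 / 2 : ℝ) + bxZ B N p1 (tc N i w p0 p1) ^ (3 / 2 : ℝ) +
      bxZ C N (tc N i w p0 p1) p0 ^ (3 / 2 : ℝ) else 0 := by
    intro p0 p1
    split_ifs
    · have h1 := Real.rpow_nonneg (bxZ_nonneg A N p0 p1) (3 / 2 : ℝ)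
      have h2 := Real.rpow_nonneg (bxZ_nonneg B N p1 (tc N i w p0 p1)) (3 / 2 : ℝ)
      have h3 := Real.rpow_nonneg (bxZ_nonneg C N (tc N i w p0 p1) p0) (3 / 2 : ℝ)
      linarith
    · exact le_rfl
  refine (Finset.sum_le_sum fun p0 _ => sum_Icc_mono _ (hnn p0) Q Q' hQ).trans ?_
  exact sum_Icc_mono _ (fun q => Finset.sum_nonneg fun p _ => hnn q p) Q Q' hQ

/-- **`TriIso → TriIsoZ`** -/
theorem triIsoZ_of_triIso (h : TriIso) : TriIsoZ := by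
  obtain ⟨K, hK, κ, h⟩ := h
  refine ⟨K, hK, κ, ?_⟩
  intro l hl w A B C L hA hB hC hA0 hB0 hC0 M L1
  set L2 : ℕ := L + w.natAbs with hL2
  set Q : ℕ := 2 * (100 * (L2 + L1 + 2 ^ (M + κ))) + 1 with hQdef
  have hne : NeZero Q := ⟨by omega⟩
  have hw1 := le_abs_self w
  have hw2 := neg_abs_le w
  have hL2z : (L2 : ℤ) = L + |w| := by rw [hL2]; push_cast; rfl
  -- supports of the translated functions
  have sA : ∀ m x y, ((L2 : ℤ) < |x| ∨ (L2 : ℤ) < |y|) → A m x y = 0 := by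
    intro m x y hxy
    have hw0 := abs_nonneg w
    exact hA m x y (hxy.imp (fun h => by linarith) fun h => by linarith)
  have sB : ∀ m x y, ((L2 : ℤ) < |x| ∨ (L2 : ℤ) < |y|) → B m x (y - w) = 0 := by
    intro m x y hxy
    have hw0 := abs_nonneg w
    have h3 : |y| ≤ |y - w| + |w| := by
      have := abs_add_le (y - w) w
      rwa [sub_add_cancel] at this
    exact hB m x _ (hxy.imp (fun h => by linarith) fun h => by linarith)
  have sC : ∀ m x y, ((L2 : ℤ) < |x| ∨ (L2 : ℤ) < |y|) → C m (x - w) y = 0 := by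
    intro m x y hxy
    have hw0 := abs_nonneg w
    have h3 : |x| ≤ |x - w| + |w| := by
      have := abs_add_le (x - w) w
      rwa [sub_add_cancel] at this
    exact hC m _ y (hxy.imp (fun h => by linarith) fun h => by linarith)
  have hmain := h l hl Q (fun m => em Q (A m)) (fun m => em Q (fun x y => B m x (y - w)))
    (fun m => em Q (fun x y => C m (x - w) y))
    (by funext x y; simp [em, hA0]) (by funext x y; simp [em, hB0])
    (by funext x y; simp [em, hC0]) M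
  refine ⟨Q + w.natAbs, ?_⟩
  have hpow : ∀ m ∈ range M, 2 ^ m ≤ 2 ^ (M + κ) := by
    intro m hm
    rw [Finset.mem_range] at hm
    exact Nat.pow_le_pow_right (by norm_num) (by omega)
  have hpow2 : ∀ m ∈ range M, ∀ s ∈ range κ, 2 ^ (m + s) ≤ 2 ^ (M + κ) := by
    intro m hm s hs
    rw [Finset.mem_range] at hm hs
    exact Nat.pow_le_pow_right (by norm_num) (by omega)
  refine le_trans ?_ (hmain.trans ?_)
  · -- left side
    refine Finset.sum_le_sum fun m hm => ?_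
    refine mul_le_mul_of_nonneg_left ?_ (by positivity)
    refine Finset.sum_le_sum fun i hi => ?_
    rw [Finset.mem_range] at hi
    set f : ZMod Q → ZMod Q → ℝ := fun p0 p1 =>
      |Crest.Agent.R072.Lattice.Lbox (em Q (A (m + 1))) (em Q (fun x y => B (m + 1) x (y - w)))
        (em Q (fun x y => C (m + 1) (x - w) y)) (2 ^ m) p0 p1
        ((l : ZMod Q) * ((2 ^ m : ℕ) : ZMod Q) + (i : ZMod Q) - p0 - p1)| with hf
    have hf0 : ∀ p0 p1, 0 ≤ f p0 p1 := fun p0 p1 => abs_nonneg _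
    have e1 : ∀ p0 ∈ Icc (-(L1 : ℤ)) L1, ∀ p1 ∈ Icc (-(L1 : ℤ)) L1,
        |Lb3r (A (m + 1)) (B (m + 1)) (C (m + 1)) (2 ^ m) p0 p1
          (l * 2 ^ m + (i : ℤ) - w - p0 - p1)| = f (p0 : ZMod Q) (p1 : ZMod Q) := by
      intro p0 h0 p1 h1
      have hNz : ((2 ^ m : ℕ) : ℤ) ≤ ((2 ^ (M + κ) : ℕ) : ℤ) := by exact_mod_cast hpow m hm
      have hiz : (i : ℤ) < ((2 ^ m : ℕ) : ℤ) := by exact_mod_cast hi
      have hi0 : (0 : ℤ) ≤ i := by positivity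
      have hP0 : (0 : ℤ) < ((2 ^ m : ℕ) : ℤ) := by positivity
      have hQz : (Q : ℤ) = 2 * (100 * ((L2 : ℤ) + L1 + ((2 ^ (M + κ) : ℕ) : ℤ))) + 1 := by
        rw [hQdef]; push_cast; ring
      have hL20 : (0 : ℤ) ≤ L2 := by positivity
      have hL10 : (0 : ℤ) ≤ L1 := by positivity
      have hp0 : |p0| ≤ L1 := abs_le.2 (by simpa using Finset.mem_Icc.mp h0)
      have hp1 : |p1| ≤ L1 := abs_le.2 (by simpa using Finset.mem_Icc.mp h1)
      have hcast : (l : ZMod Q) * ((2 ^ m : ℕ) : ZMod Q) + (i : ZMod Q) - (p0 : ZMod Q) -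
          (p1 : ZMod Q) = ((l * ((2 ^ m : ℕ) : ℤ) + (i : ℤ) - p0 - p1 : ℤ) : ZMod Q) := by
        push_cast; rfl
      have hlm : |l * ((2 ^ m : ℕ) : ℤ)| ≤ 7 * ((2 ^ m : ℕ) : ℤ) := by
        rw [abs_mul, abs_of_pos hP0]
        exact mul_le_mul_of_nonneg_right hl hP0.le
      have hp2 : |l * ((2 ^ m : ℕ) : ℤ) + (i : ℤ) - p0 - p1| ≤ 8 * ((2 ^ m : ℕ) : ℤ) + 2 * L1 := by
        rw [abs_le] at hlm hp0 hp1 ⊢
        constructor <;> linarith [hlm.1, hlm.2, hp0.1, hp0.2, hp1.1, hp1.2]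
      simp only [hf]
      rw [hcast, Lbox_em _ _ _ _ _ _ _ (by linarith) (by linarith) (by linarith)]
      rw [show l * ((2 ^ m : ℕ) : ℤ) + (i : ℤ) - p0 - p1 =
        (l * 2 ^ m + (i : ℤ) - w - p0 - p1) + w by push_cast; ring, Lb3r_shift]
    have e2 : ∑ p0 ∈ Icc (-(L1 : ℤ)) L1, ∑ p1 ∈ Icc (-(L1 : ℤ)) L1,
        |Lb3r (A (m + 1)) (B (m + 1)) (C (m + 1)) (2 ^ m) p0 p1
          (l * 2 ^ m + (i : ℤ) - w - p0 - p1)| =
        ∑ p0 ∈ Icc (-(L1 : ℤ)) L1, ∑ p1 ∈ Icc (-(L1 : ℤ)) L1, f (p0 : ZMod Q) (p1 : ZMod Q) :=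
      Finset.sum_congr rfl fun p0 h0 => Finset.sum_congr rfl fun p1 h1 => e1 p0 h0 p1 h1
    rw [e2]
    have hLQ : 2 * L1 < Q := by
      have : 0 < 2 ^ (M + κ) := by positivity
      rw [hQdef]; omega
    have e3 : ∑ p0 ∈ Icc (-(L1 : ℤ)) L1, ∑ p1 ∈ Icc (-(L1 : ℤ)) L1, f (p0 : ZMod Q) (p1 : ZMod Q) ≤
        ∑ p0 ∈ Icc (-(L1 : ℤ)) L1, (fun q => ∑ z : ZMod Q, f q z) (p0 : ZMod Q) :=
      Finset.sum_le_sum fun p0 _ => sum_int_le (f (p0 : ZMod Q)) (hf0 _) L1 hLQ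
    refine e3.trans ?_
    exact sum_int_le (fun q => ∑ z : ZMod Q, f q z)
      (fun q => Finset.sum_nonneg fun z _ => hf0 q z) L1 hLQ
  · -- right side
    refine mul_le_mul_of_nonneg_left ?_ hK
    refine Finset.sum_le_sum fun m hm => ?_
    refine add_le_add ?_ ?_
    · refine (VT_em_le w _ _ _ _ _ _ L2 (2 ^ m) (sA _) (sA _) (sB _) (sB _) (sC _) (sC _)
        ?_).trans (VTZ_mono w _ _ _ _ _ _ _ _ _ (Nat.le_add_right _ _))
      have := hpow m hm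
      rw [hQdef]; omega
    · refine Finset.sum_le_sum fun s hs => ?_
      have h2 := hpow2 m hm s hs
      have hQ2 : 2 * (L2 + 2 ^ (m + s)) < Q := by rw [hQdef]; omega
      refine add_le_add (add_le_add ?_ ?_) ?_
      · exact (ET_em_le _ _ L2 _ (sA _) (sA _) hQ2).trans
          (ETZ_mono _ _ _ _ _ (Nat.le_add_right _ _))
      · exact (ET_em_le _ _ L2 _ (sB _) (sB _) hQ2).trans (ETZ_shift_right _ _ _ _ w)
      · exact (ET_em_le _ _ L2 _ (sC _) (sC _) hQ2).trans (ETZ_shift_left _ _ _ _ w)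

end Crest.Agent.R079.Glue
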