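import Crest.Agent.R079.R244Defs_491
import Crest.Agent.R079.FrozenA_569
import Crest.Agent.R079.Tri24_815
import Crest.Agent.R079.Frozen_569

-- ▼ part R079/E4_815
section

/-! R079 (helper815): the Schatten-4 block averages `e4` are (fourth powers of) a norm, real parts,
embedding `ℤ → ZMod Q`. -/

set_option autoImplicit false
set_option linter.unusedSectionVars false
set_option linter.unusedVariables false

namespace Crest.Agent.R079.R244

open Finset Crest.Agent.R079.Grid Crest.Agent.R079.Pot Crest.Agent.R079.Glue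

/-! ### Gram matrices of a family of vectors -/

section gram

variable {ι κ : Type*} [Fintype ι] [Fintype κ]

/-- Gram matrix of the columns -/
noncomputable def gr (A : ι → κ → ℂ) (j j' : κ) : ℂ := ∑ i, A i j * (starRingEnd ℂ) (A i j')

/-- squared Hilbert-Schmidt norm -/
noncomputable def hs (G : κ → κ → ℂ) : ℝ := ∑ j, ∑ j', ‖G j j'‖ ^ 2

/-- `⟨G, H⟩` real part -/
noncomputable def ip (G H : κ → κ → ℂ) : ℝ := ∑ j, ∑ j', (G j j' * (starRingEnd ℂ) (H j j')).re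

theorem ip_self (G : κ → κ → ℂ) : ip G G = hs G := by
  unfold ip hs
  refine Finset.sum_congr rfl fun j _ => Finset.sum_congr rfl fun j' _ => ?_
  rw [Complex.mul_conj, Complex.normSq_eq_norm_sq]
  exact Complex.ofReal_re _

/-- the pairing of two Gram matrices is nonnegative -/
theorem ip_gr_nonneg {ι' : Type*} [Fintype ι'] (A : ι → κ → ℂ) (B : ι' → κ → ℂ) :
    0 ≤ ip (gr A) (gr B) := by
  have e : ip (gr A) (gr B) = ∑ i, ∑ i', ‖∑ j, A i j * (starRingEnd ℂ) (B i' j)‖ ^ 2 := by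
    have e1 : ((ip (gr A) (gr B) : ℝ) : ℂ) =
        ((∑ i, ∑ i', ‖∑ j, A i j * (starRingEnd ℂ) (B i' j)‖ ^ 2 : ℝ) : ℂ) := by
      have h1 : ∀ i i', ((‖∑ j, A i j * (starRingEnd ℂ) (B i' j)‖ ^ 2 : ℝ) : ℂ) =
          ∑ j, ∑ j', A i j * (starRingEnd ℂ) (B i' j) *
            ((starRingEnd ℂ) (A i j') * B i' j') := by
        intro i i'
        rw [← Complex.normSq_eq_norm_sq, ← Complex.mul_conj, map_sum, Finset.sum_mul_sum]
        refine Finset.sum_congr rfl fun j _ => Finset.sum_congr rfl fun j' _ => ?_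
        rw [map_mul, Complex.conj_conj]
      have h2 : (∑ j, ∑ j', gr A j j' * (starRingEnd ℂ) (gr B j j') : ℂ) =
          ((∑ i, ∑ i', ‖∑ j, A i j * (starRingEnd ℂ) (B i' j)‖ ^ 2 : ℝ) : ℂ) := by
        rw [Complex.ofReal_sum]
        simp only [Complex.ofReal_sum, h1]
        have h3 : ∀ j j', gr A j j' * (starRingEnd ℂ) (gr B j j') =
            ∑ i, ∑ i', A i j * (starRingEnd ℂ) (B i' j) *
              ((starRingEnd ℂ) (A i j') * B i' j') := by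
          intro j j'
          unfold gr
          rw [map_sum, Finset.sum_mul_sum]
          refine Finset.sum_congr rfl fun i _ => Finset.sum_congr rfl fun i' _ => ?_
          rw [map_mul, Complex.conj_conj]
          ring
        simp only [h3]
        calc ∑ j, ∑ j', ∑ i, ∑ i', A i j * (starRingEnd ℂ) (B i' j) *
              ((starRingEnd ℂ) (A i j') * B i' j')
            = ∑ j, ∑ i, ∑ j', ∑ i', A i j * (starRingEnd ℂ) (B i' j) *
              ((starRingEnd ℂ) (A i j') * B i' j') :=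
              Finset.sum_congr rfl fun j _ => Finset.sum_comm
          _ = ∑ i, ∑ j, ∑ j', ∑ i', A i j * (starRingEnd ℂ) (B i' j) *
              ((starRingEnd ℂ) (A i j') * B i' j') := Finset.sum_comm
          _ = ∑ i, ∑ j, ∑ i', ∑ j', A i j * (starRingEnd ℂ) (B i' j) *
              ((starRingEnd ℂ) (A i j') * B i' j') :=
              Finset.sum_congr rfl fun i _ => Finset.sum_congr rfl fun j _ => Finset.sum_comm
          _ = ∑ i, ∑ i', ∑ j, ∑ j', A i j * (starRingEnd ℂ) (B i' j) *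
              ((starRingEnd ℂ) (A i j') * B i' j') :=
              Finset.sum_congr rfl fun i _ => Finset.sum_comm
      have h4 : ip (gr A) (gr B) = (∑ j, ∑ j', gr A j j' * (starRingEnd ℂ) (gr B j j') : ℂ).re := by
        unfold ip
        rw [Complex.re_sum]
        refine Finset.sum_congr rfl fun j _ => ?_
        rw [Complex.re_sum]
      rw [h4, h2, Complex.ofReal_re]
    exact_mod_cast e1
  rw [e]
  positivity

theorem ip_comm (G H : κ → κ → ℂ) : ip G H = ip H G := by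
  unfold ip
  refine Finset.sum_congr rfl fun j _ => Finset.sum_congr rfl fun j' _ => ?_
  rw [← Complex.conj_re, map_mul, Complex.conj_conj, mul_comm]

theorem ip_sum_left {σ : Type*} (s : Finset σ) (c : ℝ) (G : σ → κ → κ → ℂ) (H : κ → κ → ℂ) :
    ip (fun j j' => (c : ℂ) * ∑ t ∈ s, G t j j') H = c * ∑ t ∈ s, ip (G t) H := by
  unfold ip
  simp only [Finset.mul_sum]
  have e : ∀ j j', (((∑ t ∈ s, (c : ℂ) * G t j j') * (starRingEnd ℂ) (H j j')) : ℂ).re =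
      ∑ t ∈ s, c * (G t j j' * (starRingEnd ℂ) (H j j')).re := by
    intro j j'
    rw [Finset.sum_mul, Complex.re_sum]
    refine Finset.sum_congr rfl fun t _ => ?_
    rw [mul_assoc, Complex.re_ofReal_mul]
  simp only [e]
  calc ∑ j, ∑ j', ∑ t ∈ s, c * (G t j j' * (starRingEnd ℂ) (H j j')).re
      = ∑ j, ∑ t ∈ s, ∑ j', c * (G t j j' * (starRingEnd ℂ) (H j j')).re :=
        Finset.sum_congr rfl fun j _ => Finset.sum_comm
    _ = ∑ t ∈ s, ∑ j, ∑ j', c * (G t j j' * (starRingEnd ℂ) (H j j')).re := Finset.sum_comm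

theorem ip_sub_left (G G' H : κ → κ → ℂ) :
    ip (fun j j' => G j j' - G' j j') H = ip G H - ip G' H := by
  unfold ip
  simp only [sub_mul, Complex.sub_re, Finset.sum_sub_distrib]

/-- Cauchy-Schwarz -/
theorem ip_le (G H : κ → κ → ℂ) : 2 * ip G H ≤ hs G + hs H := by
  unfold ip hs
  rw [Finset.mul_sum, ← Finset.sum_add_distrib]
  refine Finset.sum_le_sum fun j _ => ?_
  rw [Finset.mul_sum, ← Finset.sum_add_distrib]
  refine Finset.sum_le_sum fun j' _ => ?_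
  have h1 : (G j j' * (starRingEnd ℂ) (H j j')).re ≤ ‖G j j'‖ * ‖H j j'‖ := by
    refine (Complex.re_le_norm _).trans ?_
    rw [norm_mul, RCLike.norm_conj]
  nlinarith [sq_nonneg (‖G j j'‖ - ‖H j j'‖)]

/-- the defect `|s| ∑ Xₛ*Xₛ - (∑ Xₛ)*(∑ Xₛ)` is a Gram matrix (up to `1/2`) -/
theorem gr_sum_defect {σ : Type*} [Fintype σ] (X : σ → ι → κ → ℂ) (j j' : κ) :
    ((Fintype.card σ : ℝ) : ℂ) * ∑ t, gr (X t) j j' - gr (fun i j => ∑ t, X t i j) j j' =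
      (1 / 2 : ℂ) * gr (fun (p : ι × σ × σ) j => X p.2.1 p.1 j - X p.2.2 p.1 j) j j' := by
  unfold gr
  rw [Fintype.sum_prod_type]
  simp only [Fintype.sum_prod_type]
  rw [Finset.sum_comm (s := (Finset.univ : Finset σ)) (t := (Finset.univ : Finset ι))]
  rw [Finset.mul_sum, ← Finset.sum_sub_distrib, Finset.mul_sum]
  refine Finset.sum_congr rfl fun i _ => ?_
  have e1 : ∑ x : σ, ∑ x' : σ, (X x i j - X x' i j) * (starRingEnd ℂ) (X x i j' - X x' i j') =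
      2 * ((Fintype.card σ : ℂ) * ∑ t, X t i j * (starRingEnd ℂ) (X t i j')) -
        2 * ((∑ t, X t i j) * (starRingEnd ℂ) (∑ t, X t i j')) := by
    have e2 : ∀ x x' : σ, (X x i j - X x' i j) * (starRingEnd ℂ) (X x i j' - X x' i j') =
        X x i j * (starRingEnd ℂ) (X x i j') + X x' i j * (starRingEnd ℂ) (X x' i j') -
          X x i j * (starRingEnd ℂ) (X x' i j') - X x' i j * (starRingEnd ℂ) (X x i j') := by
      intro x x'
      rw [map_sub]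
      ring
    simp only [e2, Finset.sum_sub_distrib, Finset.sum_add_distrib, Finset.sum_const,
      Finset.card_univ, nsmul_eq_mul, ← Finset.mul_sum, map_sum, Finset.sum_mul]
    have e3 : ∑ x : σ, ∑ x' : σ, X x' i j * (starRingEnd ℂ) (X x i j') =
        ∑ x : σ, ∑ x' : σ, X x i j * (starRingEnd ℂ) (X x' i j') := Finset.sum_comm
    simp only [← Finset.mul_sum, ← Finset.sum_mul] at e3 ⊢
    ring
  rw [e1]
  push_cast
  ring

theorem hs_sum_le {σ : Type*} [Fintype σ] (X : σ → ι → κ → ℂ) :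
    hs (gr (fun i j => ∑ t, X t i j)) ≤ (Fintype.card σ : ℝ) ^ 3 * ∑ t, hs (gr (X t)) := by
  set G : κ → κ → ℂ := gr (fun i j => ∑ t, X t i j) with hG
  set n : ℝ := (Fintype.card σ : ℝ) with hn
  have hn0 : 0 ≤ n := by positivity
  set H : κ → κ → ℂ := fun j j' => (n : ℂ) * ∑ t, gr (X t) j j' with hH
  -- H - G is half a Gram matrix
  have hd : ∀ (ρ : Type _) [Fintype ρ] (Y : ρ → κ → ℂ), 0 ≤ ip H (gr Y) - ip G (gr Y) := by
    intro ρ _ Y
    rw [← ip_sub_left]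
    have e : (fun j j' => H j j' - G j j') = fun j j' => ((1 / 2 : ℝ) : ℂ) * ∑ t ∈ ({()} : Finset Unit),
        gr (fun (p : ι × σ × σ) j => X p.2.1 p.1 j - X p.2.2 p.1 j) j j' := by
      funext j j'
      rw [Finset.sum_singleton, hH, hG]
      have := gr_sum_defect X j j'
      simp only
      rw [this]
      push_cast
      ring
    rw [e, ip_sum_left, Finset.sum_singleton]
    have := ip_gr_nonneg (fun (p : ι × σ × σ) j => X p.2.1 p.1 j - X p.2.2 p.1 j) Y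
    linarith
  have h1 : hs G ≤ ip H G := by
    have := hd ι (fun i j => ∑ t, X t i j)
    rw [← hG, ip_self] at this
    linarith
  have h2 : ip H G ≤ hs H := by
    -- ip H G = n ∑ ip (gr X t) G ≤ n ∑ ip (gr X t) H = ip H H
    have e1 : ip H G = n * ∑ t, ip (gr (X t)) G := ip_sum_left _ _ _ _
    have e2 : ip H H = n * ∑ t, ip (gr (X t)) H := ip_sum_left _ _ _ _
    rw [← ip_self H, e1, e2]
    refine mul_le_mul_of_nonneg_left (Finset.sum_le_sum fun t _ => ?_) hn0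
    have := hd ι (X t)
    rw [ip_comm H, ip_comm G] at this
    linarith
  have h3 : hs H ≤ n ^ 3 * ∑ t, hs (gr (X t)) := by
    have e2 : hs H = n * ∑ t, ip (gr (X t)) H := by
      rw [← ip_self H]
      exact ip_sum_left _ _ _ _
    have e3 : ∀ t, ip (gr (X t)) H = n * ∑ t', ip (gr (X t')) (gr (X t)) := by
      intro t
      rw [ip_comm]
      exact ip_sum_left _ _ _ _
    rw [e2]
    simp only [e3]
    have h4 : ∑ t, ∑ t', ip (gr (X t')) (gr (X t)) ≤ n * ∑ t, hs (gr (X t)) := by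
      have h5 : ∀ t t' : σ, ip (gr (X t')) (gr (X t)) ≤
          (1 / 2) * hs (gr (X t')) + (1 / 2) * hs (gr (X t)) := by
        intro t t'
        have := ip_le (gr (X t')) (gr (X t))
        linarith
      refine (Finset.sum_le_sum fun t _ => Finset.sum_le_sum fun t' _ => h5 t t').trans ?_
      simp only [Finset.sum_add_distrib, Finset.sum_const, Finset.card_univ, nsmul_eq_mul,
        ← Finset.mul_sum]
      rw [← hn]
      linarith
    rw [← Finset.mul_sum, ← mul_assoc]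
    calc n * n * ∑ t, ∑ t', ip (gr (X t')) (gr (X t)) ≤ n * n * (n * ∑ t, hs (gr (X t))) :=
          mul_le_mul_of_nonneg_left h4 (by positivity)
      _ = n ^ 3 * ∑ t, hs (gr (X t)) := by ring
  linarith

end gram

/-! ### `e4` -/

/-- the box of side `N` at `(q, p)` as a matrix -/
noncomputable def bm (X : ℤ → ℤ → ℂ) (N : ℕ) (q p : ℤ) (i j : Fin N) : ℂ :=
  X (q + ((i : ℕ) : ℤ)) (p + ((j : ℕ) : ℤ))

theorem e4_eq_hs (X : ℤ → ℤ → ℂ) (N : ℕ) (q p : ℤ) :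
    e4 X N q p = (1 / (N : ℝ) ^ 4) * hs (gr (bm X N q p)) := by
  unfold e4 hs gr bm
  congr 1
  rw [Finset.sum_range]
  refine Finset.sum_congr rfl fun j _ => ?_
  rw [Finset.sum_range]
  refine Finset.sum_congr rfl fun j' _ => ?_
  rw [Finset.sum_range]

theorem e4_nonneg (X : ℤ → ℤ → ℂ) (N : ℕ) (q p : ℤ) : 0 ≤ e4 X N q p := by
  unfold e4; positivity

/-- `e4^(1/4)` is a norm: sum over a finite family -/
theorem e4_sum_le {σ : Type*} (s : Finset σ) (X : σ → ℤ → ℤ → ℂ) (N : ℕ) (q p : ℤ) :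
    e4 (fun x y => ∑ t ∈ s, X t x y) N q p ≤ (s.card : ℝ) ^ 3 * ∑ t ∈ s, e4 (X t) N q p := by
  have h := hs_sum_le (fun (t : s) => bm (X t) N q p)
  rw [Fintype.card_coe] at h
  have e1 : gr (fun i j => ∑ t : s, bm (X t) N q p i j) =
      gr (bm (fun x y => ∑ t ∈ s, X t x y) N q p) := by
    congr 1
    funext i j
    unfold bm
    exact Finset.sum_coe_sort s (fun t => X t (q + ((i : ℕ) : ℤ)) (p + ((j : ℕ) : ℤ)))
  have e2 : ∑ t : s, hs (gr (bm (X t) N q p)) = ∑ t ∈ s, hs (gr (bm (X t) N q p)) :=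
    Finset.sum_coe_sort s (fun t => hs (gr (bm (X t) N q p)))
  rw [e1, e2] at h
  rw [e4_eq_hs]
  simp only [e4_eq_hs]
  rw [← Finset.mul_sum, mul_left_comm]
  exact mul_le_mul_of_nonneg_left h (by positivity)

theorem e4_congr (X Y : ℤ → ℤ → ℂ) (N : ℕ) (q p : ℤ)
    (h : ∀ i j : ℕ, i < N → j < N → X (q + (i : ℤ)) (p + (j : ℤ)) = Y (q + (i : ℤ)) (p + (j : ℤ))) :
    e4 X N q p = e4 Y N q p := by
  unfold e4
  congr 1
  refine Finset.sum_congr rfl fun j hj => Finset.sum_congr rfl fun j' hj' => ?_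
  congr 2
  refine Finset.sum_congr rfl fun i hi => ?_
  rw [Finset.mem_range] at hi hj hj'
  rw [h i j hi hj, h i j' hi hj']

theorem e4_conj (X : ℤ → ℤ → ℂ) (N : ℕ) (q p : ℤ) :
    e4 (fun x y => (starRingEnd ℂ) (X x y)) N q p = e4 X N q p := by
  unfold e4
  congr 1
  refine Finset.sum_congr rfl fun j _ => Finset.sum_congr rfl fun j' _ => ?_
  have e : ∑ i ∈ range N, (starRingEnd ℂ) (X (q + (i : ℤ)) (p + (j : ℤ))) *
      (starRingEnd ℂ) ((starRingEnd ℂ) (X (q + (i : ℤ)) (p + (j' : ℤ)))) =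
      (starRingEnd ℂ) (∑ i ∈ range N, X (q + (i : ℤ)) (p + (j : ℤ)) *
        (starRingEnd ℂ) (X (q + (i : ℤ)) (p + (j' : ℤ)))) := by
    rw [map_sum]
    refine Finset.sum_congr rfl fun i _ => ?_
    rw [map_mul]
  rw [e, RCLike.norm_conj]

theorem e4_smul (c : ℂ) (X : ℤ → ℤ → ℂ) (N : ℕ) (q p : ℤ) :
    e4 (fun x y => c * X x y) N q p = ‖c‖ ^ 4 * e4 X N q p := by
  unfold e4
  rw [mul_left_comm]
  congr 1
  rw [Finset.mul_sum]
  refine Finset.sum_congr rfl fun j _ => ?_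
  rw [Finset.mul_sum]
  refine Finset.sum_congr rfl fun j' _ => ?_
  have e : ∑ i ∈ range N, c * X (q + (i : ℤ)) (p + (j : ℤ)) *
      (starRingEnd ℂ) (c * X (q + (i : ℤ)) (p + (j' : ℤ))) =
      (c * (starRingEnd ℂ) c) * ∑ i ∈ range N, X (q + (i : ℤ)) (p + (j : ℤ)) *
        (starRingEnd ℂ) (X (q + (i : ℤ)) (p + (j' : ℤ))) := by
    rw [Finset.mul_sum]
    refine Finset.sum_congr rfl fun i _ => ?_
    rw [map_mul]
    ring
  rw [e, norm_mul, norm_mul, RCLike.norm_conj]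
  ring

theorem e4_add_le (X Y : ℤ → ℤ → ℂ) (N : ℕ) (q p : ℤ) :
    e4 (fun x y => X x y + Y x y) N q p ≤ 8 * (e4 X N q p + e4 Y N q p) := by
  have h := e4_sum_le (Finset.univ : Finset Bool) (fun b => if b then X else Y) N q p
  simp only [Fintype.sum_bool, if_true, Bool.false_eq_true, if_false] at h
  have e : ((Finset.univ : Finset Bool).card : ℝ) ^ 3 = 8 := by
    simp
    norm_num
  rw [e] at h
  exact h

/-- real part -/
theorem e4_re_le (X : ℤ → ℤ → ℂ) (N : ℕ) (q p : ℤ) :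
    e4 (fun x y => ((X x y).re : ℂ)) N q p ≤ e4 X N q p := by
  have e : (fun x y => ((X x y).re : ℂ)) =
      fun x y => (1 / 2 : ℂ) * X x y + (1 / 2 : ℂ) * (starRingEnd ℂ) (X x y) := by
    funext x y
    rw [Complex.re_eq_add_conj]
    ring
  rw [e]
  refine (e4_add_le _ _ N q p).trans ?_
  rw [e4_smul, e4_smul, e4_conj]
  have : ‖(1 / 2 : ℂ)‖ = 1 / 2 := by simp
  rw [this]
  have := e4_nonneg X N q p
  linarith

/-- imaginary part -/
theorem e4_im_le (X : ℤ → ℤ → ℂ) (N : ℕ) (q p : ℤ) :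
    e4 (fun x y => ((X x y).im : ℂ)) N q p ≤ e4 X N q p := by
  have e : (fun x y => ((X x y).im : ℂ)) = fun x y => (((-Complex.I) * X x y).re : ℂ) := by
    funext x y
    simp
  rw [e]
  refine (e4_re_le (fun x y => (-Complex.I) * X x y) N q p).trans ?_
  rw [e4_smul]
  simp

/-! ### real kernels on `ℤ` and `ZMod Q` -/

/-- real version on `ℤ` -/
noncomputable def e4Z (A : ℤ → ℤ → ℝ) (N : ℕ) (q p : ℤ) : ℝ :=
  (1 / (N : ℝ) ^ 4) * ∑ j ∈ range N, ∑ j' ∈ range N,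
    (∑ i ∈ range N, A (q + (i : ℤ)) (p + (j : ℤ)) * A (q + (i : ℤ)) (p + (j' : ℤ))) ^ 2

theorem e4Z_eq (A : ℤ → ℤ → ℝ) (N : ℕ) (q p : ℤ) :
    e4Z A N q p = e4 (fun x y => (A x y : ℂ)) N q p := by
  unfold e4Z e4
  congr 1
  refine Finset.sum_congr rfl fun j _ => Finset.sum_congr rfl fun j' _ => ?_
  have e : ∑ i ∈ range N, (A (q + (i : ℤ)) (p + (j : ℤ)) : ℂ) *
      (starRingEnd ℂ) (A (q + (i : ℤ)) (p + (j' : ℤ)) : ℂ) =
      ((∑ i ∈ range N, A (q + (i : ℤ)) (p + (j : ℤ)) * A (q + (i : ℤ)) (p + (j' : ℤ)) : ℝ) : ℂ) := by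
    push_cast
    refine Finset.sum_congr rfl fun i _ => ?_
    rw [Complex.conj_ofReal]
  rw [e, Complex.norm_real, Real.norm_eq_abs, sq_abs]

theorem e4Z_nonneg (A : ℤ → ℤ → ℝ) (N : ℕ) (q p : ℤ) : 0 ≤ e4Z A N q p := by
  unfold e4Z; positivity

theorem e4Z_re_le (X : ℤ → ℤ → ℂ) (N : ℕ) (q p : ℤ) :
    e4Z (fun x y => (X x y).re) N q p ≤ e4 X N q p := by
  rw [e4Z_eq]; exact e4_re_le X N q p

theorem e4Z_im_le (X : ℤ → ℤ → ℂ) (N : ℕ) (q p : ℤ) :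
    e4Z (fun x y => (X x y).im) N q p ≤ e4 X N q p := by
  rw [e4Z_eq]; exact e4_im_le X N q p

section emb

variable {Q : ℕ} [NeZero Q]

/-- all values of the embedded kernel on a box -/
theorem em_box (A : ℤ → ℤ → ℝ) (L N : ℕ)
    (hA : ∀ x y, ((L : ℤ) < |x| ∨ (L : ℤ) < |y|) → A x y = 0) (hQ : 2 * (L + N) < Q)
    (q p : ZMod Q) (i j : ℕ) (hi : i < N) (hj : j < N) :
    em Q A (q + (i : ZMod Q)) (p + (j : ZMod Q)) = A (q.valMinAbs + i) (p.valMinAbs + j) := by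
  by_cases h : em Q A (q + (i : ZMod Q)) (p + (j : ZMod Q)) = 0
  · rw [h]
    by_contra hne
    have h1 : |q.valMinAbs + i| ≤ L := by
      by_contra hc
      exact hne (hA _ _ (Or.inl (not_le.mp hc))).symm
    have h2 : |p.valMinAbs + j| ≤ L := by
      by_contra hc
      exact hne (hA _ _ (Or.inr (not_le.mp hc))).symm
    have e1 : (((q.valMinAbs + i : ℤ)) : ZMod Q) = q + (i : ZMod Q) := by
      simp
    have e2 : (((p.valMinAbs + j : ℤ)) : ZMod Q) = p + (j : ZMod Q) := by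
      simp
    have hQ' : (2 * (L + N) : ℤ) < Q := by exact_mod_cast hQ
    have hN : (0 : ℤ) ≤ N := by positivity
    have := em_eq (Q := Q) A (q.valMinAbs + i) (p.valMinAbs + j) (by linarith) (by linarith)
    rw [e1, e2, h] at this
    exact hne this
  · exact (em_point A L N hA hQ q p i j hi hj h).1

theorem e4r_em (A : ℤ → ℤ → ℝ) (L N : ℕ)
    (hA : ∀ x y, ((L : ℤ) < |x| ∨ (L : ℤ) < |y|) → A x y = 0) (hQ : 2 * (L + N) < Q)
    (q p : ZMod Q) : e4r (em Q A) N q p = e4Z A N q.valMinAbs p.valMinAbs := by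
  unfold e4r e4Z
  congr 1
  refine Finset.sum_congr rfl fun j hj => Finset.sum_congr rfl fun j' hj' => ?_
  congr 1
  refine Finset.sum_congr rfl fun i hi => ?_
  rw [Finset.mem_range] at hi hj hj'
  rw [em_box A L N hA hQ q p i j hi hj, em_box A L N hA hQ q p i j' hi hj']

theorem bx_em (A : ℤ → ℤ → ℝ) (L N : ℕ)
    (hA : ∀ x y, ((L : ℤ) < |x| ∨ (L : ℤ) < |y|) → A x y = 0) (hQ : 2 * (L + N) < Q)
    (q p : ZMod Q) : bx (em Q A) N q p = bxZ A N q.valMinAbs p.valMinAbs := by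
  unfold bx bxZ
  congr 1
  refine Finset.sum_congr rfl fun i hi => Finset.sum_congr rfl fun j hj => ?_
  rw [Finset.mem_range] at hi hj
  rw [em_box A L N hA hQ q p i j hi hj]

end emb

end Crest.Agent.R079.R244
end

-- ▼ part R079/F24a_118
section

/-! R079, AL4 part A (helper118): `Tri24` on `ZMod Q` implies the statement `TriG` on `ℤ` with
arbitrary budgets, a frozen offset `w`, and is invariant under cyclic rotation. -/

set_option autoImplicit false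
set_option linter.unusedVariables false

namespace Crest.Agent.R079.F24

open Finset Crest.Agent.R079.Grid Crest.Agent.R079.Pot Crest.Agent.R079.Glue Crest.Agent.R079.R244

/-- budgets -/
abbrev Bud := (ℤ → ℤ → ℝ) → ℕ → ℤ → ℤ → ℝ

/-- nonnegative, translation invariant -/
structure GoodB (g : Bud) : Prop where
  nn : ∀ A N q p, 0 ≤ g A N q p
  sr : ∀ (B : ℤ → ℤ → ℝ) (N : ℕ) (w q p : ℤ), g (fun x y => B x (y - w)) N q (p + w) = g B N q p
  sl : ∀ (B : ℤ → ℤ → ℝ) (N : ℕ) (w q p : ℤ), g (fun x y => B (x - w) y) N (q + w) p = g B N q p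

/-- the `ZMod Q` budget is dominated -/
def DomB (gQ : ∀ (Q : ℕ) [NeZero Q], (ZMod Q → ZMod Q → ℝ) → ℕ → ZMod Q → ZMod Q → ℝ) (g : Bud) :
    Prop :=
  ∀ (Q : ℕ) [NeZero Q] (A : ℤ → ℤ → ℝ) (L N : ℕ),
    (∀ x y, ((L : ℤ) < |x| ∨ (L : ℤ) < |y|) → A x y = 0) → 2 * (L + N) < Q →
    ∀ q p : ZMod Q, gQ Q (em Q A) N q p ≤ g A N q.valMinAbs p.valMinAbs

noncomputable def g2Z (s h : ℝ) : Bud := fun X N q p => s * (bxZ X N q p + h * bxZ X N q p ^ 2)

noncomputable def g4Z (s : ℝ) : Bud := fun X N q p => s * bxZ X N q p + s⁻¹ * e4Z X N q p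

open Classical in
noncomputable def VgZ (g1 g2 g3 : Bud) (L : ℕ) (w : ℤ) (A B C A' B' C' : ℤ → ℤ → ℝ) (N : ℕ) : ℝ :=
  (1 / (N : ℝ)) * ∑ i ∈ range N, ∑ p0 ∈ Icc (-(L : ℤ)) L, ∑ p1 ∈ Icc (-(L : ℤ)) L,
    if SeesZ A A' N p0 p1 ∨ SeesZ B B' N p1 (tc N i w p0 p1) ∨ SeesZ C C' N (tc N i w p0 p1) p0 then
      g1 A N p0 p1 + g2 B N p1 (tc N i w p0 p1) + g3 C N (tc N i w p0 p1) p0
    else 0

open Classical in
noncomputable def EgZ (g : Bud) (L : ℕ) (A A' : ℤ → ℤ → ℝ) (N : ℕ) : ℝ :=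
  ∑ q ∈ Icc (-(L : ℤ)) L, ∑ p ∈ Icc (-(L : ℤ)) L,
    if SeesZ A A' N q p then g A N q p else 0

/-- triangle statement on `ℤ` with budgets -/
def TriG (c : ℝ) (κ : ℕ) (g1 g2 g3 : Bud) : Prop :=
  ∀ l : ℤ, |l| ≤ 7 → ∀ (w : ℤ) (A B C : ℕ → ℤ → ℤ → ℝ) (L : ℕ),
    (∀ m x y, ((L : ℤ) < |x| ∨ (L : ℤ) < |y|) → A m x y = 0) →
    (∀ m x y, ((L : ℤ) < |x| ∨ (L : ℤ) < |y|) → B m x y = 0) →
    (∀ m x y, ((L : ℤ) < |x| ∨ (L : ℤ) < |y|) → C m x y = 0) →
    A 0 = 0 → B 0 = 0 → C 0 = 0 → ∀ M L1 : ℕ, ∃ L' : ℕ,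
    ∑ m ∈ range M, (1 / (2 : ℝ) ^ m) * ∑ i ∈ range (2 ^ m), ∑ p0 ∈ Icc (-(L1 : ℤ)) L1,
      ∑ p1 ∈ Icc (-(L1 : ℤ)) L1,
      |Lb3r (A (m + 1)) (B (m + 1)) (C (m + 1)) (2 ^ m) p0 p1
        (l * 2 ^ m + (i : ℤ) - w - p0 - p1)| ≤
    c * ∑ m ∈ range M,
      (VgZ g1 g2 g3 L' w (A (m + 1)) (B (m + 1)) (C (m + 1)) (A m) (B m) (C m) (2 ^ m) +
        ∑ s ∈ range κ, (EgZ g1 L' (A (m + 1)) (A m) (2 ^ (m + s)) +
          EgZ g2 L' (B (m + 1)) (B m) (2 ^ (m + s)) + EgZ g3 L' (C (m + 1)) (C m) (2 ^ (m + s))))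

section basic

lemma e4Z_shift_right (B : ℤ → ℤ → ℝ) (N : ℕ) (w q p : ℤ) :
    e4Z (fun x y => B x (y - w)) N q (p + w) = e4Z B N q p := by
  unfold e4Z
  congr 1
  refine Finset.sum_congr rfl fun j _ => Finset.sum_congr rfl fun j' _ => ?_
  congr 1
  refine Finset.sum_congr rfl fun i _ => ?_
  simp only
  rw [show p + w + (j : ℤ) - w = p + (j : ℤ) by ring, show p + w + (j' : ℤ) - w = p + (j' : ℤ) by ring]

lemma e4Z_shift_left (B : ℤ → ℤ → ℝ) (N : ℕ) (w q p : ℤ) :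
    e4Z (fun x y => B (x - w) y) N (q + w) p = e4Z B N q p := by
  unfold e4Z
  congr 1
  refine Finset.sum_congr rfl fun j _ => Finset.sum_congr rfl fun j' _ => ?_
  congr 1
  refine Finset.sum_congr rfl fun i _ => ?_
  simp only
  rw [show q + w + (i : ℤ) - w = q + (i : ℤ) by ring]

lemma good2 {s h : ℝ} (hs : 0 ≤ s) (hh : 0 ≤ h) : GoodB (g2Z s h) where
  nn A N q p := by
    unfold g2Z
    have := bxZ_nonneg A N q p
    positivity
  sr B N w q p := by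
    unfold g2Z
    rw [bxZ_shift_right]
  sl B N w q p := by
    unfold g2Z
    rw [bxZ_shift_left]

lemma good4 {s : ℝ} (hs : 0 ≤ s) : GoodB (g4Z s) where
  nn A N q p := by
    unfold g4Z
    have := bxZ_nonneg A N q p
    have := e4Z_nonneg A N q p
    positivity
  sr B N w q p := by
    unfold g4Z
    rw [bxZ_shift_right, e4Z_shift_right]
  sl B N w q p := by
    unfold g4Z
    rw [bxZ_shift_left, e4Z_shift_left]

lemma dom2 (s h : ℝ) : DomB (fun Q _ => g2 s h) (g2Z s h) := by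
  intro Q _ A L N hA hQ q p
  show g2 s h (em Q A) N q p ≤ _
  unfold g2 g2Z
  rw [bx_em A L N hA hQ]

lemma dom4 (s : ℝ) : DomB (fun Q _ => g4 s) (g4Z s) := by
  intro Q _ A L N hA hQ q p
  show g4 s (em Q A) N q p ≤ _
  unfold g4 g4Z
  rw [bx_em A L N hA hQ, e4r_em A L N hA hQ]

end basic

/-- own potentials: `ZMod Q → ℤ` -/
lemma E24_em_le {Q : ℕ} [NeZero Q]
    {gQ : ∀ (Q : ℕ) [NeZero Q], (ZMod Q → ZMod Q → ℝ) → ℕ → ZMod Q → ZMod Q → ℝ} {g : Bud}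
    (hg : GoodB g) (hd : DomB gQ g) (A A' : ℤ → ℤ → ℝ) (L N : ℕ)
    (hA : ∀ x y, ((L : ℤ) < |x| ∨ (L : ℤ) < |y|) → A x y = 0)
    (hA' : ∀ x y, ((L : ℤ) < |x| ∨ (L : ℤ) < |y|) → A' x y = 0) (hQ : 2 * (L + N) < Q) :
    E24 (gQ Q) (em Q A) (em Q A') N ≤ EgZ g Q A A' N := by
  classical
  unfold E24 EgZ
  have h0 : ∀ q p, (0 : ℝ) ≤ if SeesZ A A' N q p then g A N q p else 0 := by
    intro q p
    split_ifs
    · exact hg.nn _ _ _ _
    · exact le_rfl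
  refine sum_zmod_le _ (fun q => ∑ p ∈ Icc (-(Q : ℤ)) Q,
    if SeesZ A A' N q p then g A N q p else 0) (fun q => Finset.sum_nonneg fun p _ => h0 q p) ?_
  intro q
  refine sum_zmod_le _ (fun p => if SeesZ A A' N q.valMinAbs p then
      g A N q.valMinAbs p else 0) (h0 _) ?_
  intro p
  by_cases h : Sees (em Q A) (em Q A') N q p
  · rw [if_pos h, if_pos (sees_em A A' L N hA hA' hQ q p h).1]
    exact hd Q A L N hA hQ q p
  · rw [if_neg h]
    exact h0 _ _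

lemma EgZ_mono {g : Bud} (hg : GoodB g) (A A' : ℤ → ℤ → ℝ) (N Q Q' : ℕ) (hQ : Q ≤ Q') :
    EgZ g Q A A' N ≤ EgZ g Q' A A' N := by
  classical
  unfold EgZ
  have h0 : ∀ q p, (0 : ℝ) ≤ if SeesZ A A' N q p then g A N q p else 0 := by
    intro q p
    split_ifs
    · exact hg.nn _ _ _ _
    · exact le_rfl
  refine (Finset.sum_le_sum fun q _ => sum_Icc_mono _ (h0 q) Q Q' hQ).trans ?_
  exact sum_Icc_mono _ (fun q => Finset.sum_nonneg fun p _ => h0 q p) Q Q' hQ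

lemma EgZ_shift_right {g : Bud} (hg : GoodB g) (A A' : ℤ → ℤ → ℝ) (N Q : ℕ) (w : ℤ) :
    EgZ g Q (fun x y => A x (y - w)) (fun x y => A' x (y - w)) N ≤
      EgZ g (Q + w.natAbs) A A' N := by
  classical
  unfold EgZ
  have h0 : ∀ q p, (0 : ℝ) ≤ if SeesZ A A' N q p then g A N q p else 0 := by
    intro q p
    split_ifs
    · exact hg.nn _ _ _ _
    · exact le_rfl
  have h1 : ∀ q, ∑ p ∈ Icc (-(Q : ℤ)) Q, (if SeesZ (fun x y => A x (y - w))
      (fun x y => A' x (y - w)) N q p then g (fun x y => A x (y - w)) N q p else 0) ≤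
      ∑ p ∈ Icc (-((Q + w.natAbs : ℕ) : ℤ)) ((Q + w.natAbs : ℕ) : ℤ),
        if SeesZ A A' N q p then g A N q p else 0 := by
    intro q
    refine le_trans (le_of_eq ?_) (sum_Icc_shift_le _ (h0 q) w Q)
    refine Finset.sum_congr rfl fun p _ => ?_
    have e1 := SeesZ_shift_right A A' N w q (p - w)
    have e2 := hg.sr A N w q (p - w)
    rw [sub_add_cancel] at e1 e2
    rw [e2]
    exact if_congr e1 rfl rfl
  refine (Finset.sum_le_sum fun q _ => h1 q).trans ?_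
  exact sum_Icc_mono _ (fun q => Finset.sum_nonneg fun p _ => h0 q p) Q _ (Nat.le_add_right _ _)

lemma EgZ_shift_left {g : Bud} (hg : GoodB g) (A A' : ℤ → ℤ → ℝ) (N Q : ℕ) (w : ℤ) :
    EgZ g Q (fun x y => A (x - w) y) (fun x y => A' (x - w) y) N ≤
      EgZ g (Q + w.natAbs) A A' N := by
  classical
  unfold EgZ
  have h0 : ∀ q p, (0 : ℝ) ≤ if SeesZ A A' N q p then g A N q p else 0 := by
    intro q p
    split_ifs
    · exact hg.nn _ _ _ _
    · exact le_rfl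
  have h2 : ∀ q : ℤ, 0 ≤ ∑ p ∈ Icc (-((Q + w.natAbs : ℕ) : ℤ)) ((Q + w.natAbs : ℕ) : ℤ),
      (if SeesZ A A' N q p then g A N q p else 0) :=
    fun q => Finset.sum_nonneg fun p _ => h0 q p
  refine le_trans (Finset.sum_le_sum fun q _ => ?_) (sum_Icc_shift_le _ h2 w Q)
  have e : ∀ p ∈ Icc (-(Q : ℤ)) Q, (if SeesZ (fun x y => A (x - w) y)
      (fun x y => A' (x - w) y) N q p then g (fun x y => A (x - w) y) N q p else 0) =
      if SeesZ A A' N (q - w) p then g A N (q - w) p else 0 := by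
    intro p _
    have e1 := SeesZ_shift_left A A' N w (q - w) p
    have e2 := hg.sl A N w (q - w) p
    rw [sub_add_cancel] at e1 e2
    rw [e2]
    exact if_congr e1 rfl rfl
  rw [Finset.sum_congr rfl e]
  exact sum_Icc_mono _ (h0 _) Q _ (Nat.le_add_right _ _)

lemma Vnn {g1 g2 g3 : Bud} (h1 : GoodB g1) (h2 : GoodB g2) (h3 : GoodB g3)
    (A B C : ℤ → ℤ → ℝ) (N : ℕ) (p0 p1 p2 : ℤ) (P : Prop) [Decidable P] :
    (0 : ℝ) ≤ if P then g1 A N p0 p1 + g2 B N p1 p2 + g3 C N p2 p0 else 0 := by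
  split_ifs
  · have a1 := h1.nn A N p0 p1
    have a2 := h2.nn B N p1 p2
    have a3 := h3.nn C N p2 p0
    linarith
  · exact le_rfl

/-- joint potentials: `ZMod Q → ℤ` -/
lemma V24_em_le {Q : ℕ} [NeZero Q] (s t : ℝ) (hs : 0 ≤ s) (hh : 0 ≤ t)
    (w : ℤ) (A B C A' B' C' : ℤ → ℤ → ℝ) (L N : ℕ)
    (hA : ∀ x y, ((L : ℤ) < |x| ∨ (L : ℤ) < |y|) → A x y = 0)
    (hA' : ∀ x y, ((L : ℤ) < |x| ∨ (L : ℤ) < |y|) → A' x y = 0)
    (hB : ∀ x y, ((L : ℤ) < |x| ∨ (L : ℤ) < |y|) → B x (y - w) = 0)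
    (hB' : ∀ x y, ((L : ℤ) < |x| ∨ (L : ℤ) < |y|) → B' x (y - w) = 0)
    (hC : ∀ x y, ((L : ℤ) < |x| ∨ (L : ℤ) < |y|) → C (x - w) y = 0)
    (hC' : ∀ x y, ((L : ℤ) < |x| ∨ (L : ℤ) < |y|) → C' (x - w) y = 0)
    (hQ : 2 * (4 * L + 14 * N) < Q) :
    V24 s t (em Q A) (em Q (fun x y => B x (y - w))) (em Q (fun x y => C (x - w) y))
      (em Q A') (em Q (fun x y => B' x (y - w))) (em Q (fun x y => C' (x - w) y)) N ≤
      VgZ (g2Z s t) (g4Z s) (g4Z s) Q w A B C A' B' C' N := by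
  classical
  set B1 : ℤ → ℤ → ℝ := fun x y => B x (y - w) with hB1
  set B1' : ℤ → ℤ → ℝ := fun x y => B' x (y - w) with hB1'
  set C1 : ℤ → ℤ → ℝ := fun x y => C (x - w) y with hC1
  set C1' : ℤ → ℤ → ℝ := fun x y => C' (x - w) y with hC1'
  have G2 := good2 hs hh
  have G4 := good4 hs
  unfold V24 VgZ
  refine mul_le_mul_of_nonneg_left ?_ (by positivity)
  refine Finset.sum_le_sum fun i hi => ?_
  rw [Finset.mem_range] at hi
  have hnn : ∀ p0 p1 : ℤ, (0 : ℝ) ≤ if SeesZ A A' N p0 p1 ∨ SeesZ B B' N p1 (tc N i w p0 p1) ∨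
      SeesZ C C' N (tc N i w p0 p1) p0 then
      g2Z s t A N p0 p1 + g4Z s B N p1 (tc N i w p0 p1) +
      g4Z s C N (tc N i w p0 p1) p0 else 0 := by
    intro p0 p1
    exact Vnn G2 G4 G4 A B C N p0 p1 _ _
  refine sum_zmod_le _ (fun p0 => ∑ p1 ∈ Icc (-(Q : ℤ)) Q,
    if SeesZ A A' N p0 p1 ∨ SeesZ B B' N p1 (tc N i w p0 p1) ∨
      SeesZ C C' N (tc N i w p0 p1) p0 then
      g2Z s t A N p0 p1 + g4Z s B N p1 (tc N i w p0 p1) +
      g4Z s C N (tc N i w p0 p1) p0 else 0)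
    (fun p0 => Finset.sum_nonneg fun p1 _ => hnn p0 p1) fun p0 => ?_
  refine sum_zmod_le _ (fun p1 => if SeesZ A A' N p0.valMinAbs p1 ∨
      SeesZ B B' N p1 (tc N i w p0.valMinAbs p1) ∨
      SeesZ C C' N (tc N i w p0.valMinAbs p1) p0.valMinAbs then
      g2Z s t A N p0.valMinAbs p1 + g4Z s B N p1 (tc N i w p0.valMinAbs p1) +
      g4Z s C N (tc N i w p0.valMinAbs p1) p0.valMinAbs else 0)
    (fun p1 => hnn p0.valMinAbs p1) fun p1 => ?_
  set p2 : ZMod Q := -(2 * (N : ZMod Q)) + (i : ZMod Q) - p0 - p1 with hp2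
  by_cases h : Sees (em Q A) (em Q A') N p0 p1 ∨ Sees (em Q B1) (em Q B1') N p1 p2 ∨
      Sees (em Q C1) (em Q C1') N p2 p0
  swap
  · rw [if_neg h]
    exact hnn _ _
  rw [if_pos h]
  have hQ1 : 2 * (L + N) < Q := by omega
  have hi' : (i : ℤ) < N := by exact_mod_cast hi
  have hi0 : (0 : ℤ) ≤ i := by positivity
  have hQz : (2 * (4 * L + 14 * N) : ℤ) < Q := by exact_mod_cast hQ
  have hN0 : (0 : ℤ) ≤ N := by positivity
  have hL0 : (0 : ℤ) ≤ L := by positivity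
  -- all three representatives
  have hsmall : |p0.valMinAbs| ≤ 2 * L + 5 * N ∧ |p1.valMinAbs| ≤ 2 * L + 5 * N := by
    rcases h with h | h | h
    · obtain ⟨_, b1, b2⟩ := sees_em A A' L N hA hA' hQ1 p0 p1 h
      constructor <;> linarith
    · obtain ⟨_, b1, b2⟩ := sees_em B1 B1' L N hB hB' hQ1 p1 p2 h
      refine ⟨?_, by linarith⟩
      have e : p0 = ((-(2 * (N : ℤ)) + (i : ℤ) - p1.valMinAbs - p2.valMinAbs : ℤ) : ZMod Q) := by
        push_cast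
        rw [hp2]
        ring
      rw [abs_le] at b1 b2
      have hb : |(-(2 * (N : ℤ)) + (i : ℤ) - p1.valMinAbs - p2.valMinAbs)| ≤ 2 * L + 5 * N := by
        rw [abs_le]; constructor <;> linarith [b1.1, b1.2, b2.1, b2.2]
      rw [e, Crest.Agent.R072.LatticeInt.vma _ (by linarith)]
      exact hb
    · obtain ⟨_, b1, b2⟩ := sees_em C1 C1' L N hC hC' hQ1 p2 p0 h
      refine ⟨by linarith, ?_⟩
      have e : p1 = ((-(2 * (N : ℤ)) + (i : ℤ) - p2.valMinAbs - p0.valMinAbs : ℤ) : ZMod Q) := by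
        push_cast
        rw [hp2]
        ring
      rw [abs_le] at b1 b2
      have hb : |(-(2 * (N : ℤ)) + (i : ℤ) - p2.valMinAbs - p0.valMinAbs)| ≤ 2 * L + 5 * N := by
        rw [abs_le]; constructor <;> linarith [b1.1, b1.2, b2.1, b2.2]
      rw [e, Crest.Agent.R072.LatticeInt.vma _ (by linarith)]
      exact hb
  have hp2v : p2.valMinAbs = tc N i w p0.valMinAbs p1.valMinAbs + w := by
    have e : p2 = ((-(2 * (N : ℤ)) + (i : ℤ) - p0.valMinAbs - p1.valMinAbs : ℤ) : ZMod Q) := by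
      push_cast
      rw [hp2]
    have h1 := abs_le.mp hsmall.1
    have h2 := abs_le.mp hsmall.2
    have hb : |(-(2 * (N : ℤ)) + (i : ℤ) - p0.valMinAbs - p1.valMinAbs)| ≤ 4 * L + 13 * N := by
      rw [abs_le]; constructor <;> linarith [h1.1, h1.2, h2.1, h2.2]
    rw [e, Crest.Agent.R072.LatticeInt.vma _ (by linarith)]
    unfold tc
    ring
  have hbB : g4 s (em Q B1) N p1 p2 ≤ g4Z s B N p1.valMinAbs (tc N i w p0.valMinAbs p1.valMinAbs) := by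
    have := dom4 s Q B1 L N hB hQ1 p1 p2
    rw [hp2v] at this
    rwa [hB1, G4.sr] at this
  have hbC : g4 s (em Q C1) N p2 p0 ≤ g4Z s C N (tc N i w p0.valMinAbs p1.valMinAbs) p0.valMinAbs := by
    have := dom4 s Q C1 L N hC hQ1 p2 p0
    rw [hp2v] at this
    rwa [hC1, G4.sl] at this
  have hbA : g2 s t (em Q A) N p0 p1 ≤ g2Z s t A N p0.valMinAbs p1.valMinAbs :=
    dom2 s t Q A L N hA hQ1 p0 p1
  rw [if_pos]
  · exact add_le_add (add_le_add hbA hbB) hbC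
  · rcases h with h | h | h
    · exact Or.inl (sees_em A A' L N hA hA' hQ1 p0 p1 h).1
    · refine Or.inr (Or.inl ?_)
      have := (sees_em B1 B1' L N hB hB' hQ1 p1 p2 h).1
      rw [hp2v] at this
      exact (SeesZ_shift_right B B' N w _ _).mp this
    · refine Or.inr (Or.inr ?_)
      have := (sees_em C1 C1' L N hC hC' hQ1 p2 p0 h).1
      rw [hp2v] at this
      exact (SeesZ_shift_left C C' N w _ _).mp this

lemma VgZ_mono {g1 g2 g3 : Bud} (h1 : GoodB g1) (h2 : GoodB g2) (h3 : GoodB g3)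
    (w : ℤ) (A B C A' B' C' : ℤ → ℤ → ℝ) (N Q Q' : ℕ) (hQ : Q ≤ Q') :
    VgZ g1 g2 g3 Q w A B C A' B' C' N ≤ VgZ g1 g2 g3 Q' w A B C A' B' C' N := by
  classical
  unfold VgZ
  refine mul_le_mul_of_nonneg_left ?_ (by positivity)
  refine Finset.sum_le_sum fun i hi => ?_
  have hnn : ∀ p0 p1 : ℤ, (0 : ℝ) ≤ if SeesZ A A' N p0 p1 ∨ SeesZ B B' N p1 (tc N i w p0 p1) ∨
      SeesZ C C' N (tc N i w p0 p1) p0 then
      g1 A N p0 p1 + g2 B N p1 (tc N i w p0 p1) + g3 C N (tc N i w p0 p1) p0 else 0 :=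
    fun p0 p1 => Vnn h1 h2 h3 A B C N p0 p1 _ _
  refine (Finset.sum_le_sum fun p0 _ => sum_Icc_mono _ (hnn p0) Q Q' hQ).trans ?_
  exact sum_Icc_mono _ (fun q => Finset.sum_nonneg fun p _ => hnn q p) Q Q' hQ

/-- **`Tri24 → TriG`** -/
theorem triG_base : ∃ K : ℝ, 0 ≤ K ∧ ∃ κ : ℕ, ∀ s : ℝ, 0 < s → s ≤ 1 → ∀ H : ℝ, 1 ≤ H →
    TriG (K * (1 + Real.log (H / s))) κ (g2Z s (H ^ 2)⁻¹) (g4Z s) (g4Z s) := by
  obtain ⟨K, hK, κ, h⟩ := tri24
  refine ⟨K, hK, κ, ?_⟩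
  intro s hs hs1 H hH l hl w A B C L hA hB hC hA0 hB0 hC0 M L1
  have hh0 : (0 : ℝ) ≤ (H ^ 2)⁻¹ := by positivity
  have hlog : 0 ≤ Real.log (H / s) := Real.log_nonneg (by rw [le_div_iff₀ hs]; linarith)
  set L2 : ℕ := L + w.natAbs with hL2
  set Q : ℕ := 2 * (100 * (L2 + L1 + 2 ^ (M + κ))) + 1 with hQdef
  have hne : NeZero Q := ⟨by omega⟩
  have hw1 := le_abs_self w
  have hw2 := neg_abs_le w
  have hL2z : (L2 : ℤ) = L + |w| := by rw [hL2]; push_cast; rfl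
  -- supports of the translated functions
  have sA : ∀ m x y, ((L2 : ℤ) < |x| ∨ (L2 : ℤ) < |y|) → A m x y = 0 := by
    intro m x y hxy
    have hw0 := abs_nonneg w
    exact hA m x y (hxy.imp (fun h => by linarith) fun h => by linarith)
  have sB : ∀ m x y, ((L2 : ℤ) < |x| ∨ (L2 : ℤ) < |y|) → B m x (y - w) = 0 := by
    intro m x y hxy
    have hw0 := abs_nonneg w
    have h3 : |y| ≤ |y - w| + |w| := by
      have := abs_add_le (y - w) w
      rwa [sub_add_cancel] at this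
    exact hB m x _ (hxy.imp (fun h => by linarith) fun h => by linarith)
  have sC : ∀ m x y, ((L2 : ℤ) < |x| ∨ (L2 : ℤ) < |y|) → C m (x - w) y = 0 := by
    intro m x y hxy
    have hw0 := abs_nonneg w
    have h3 : |x| ≤ |x - w| + |w| := by
      have := abs_add_le (x - w) w
      rwa [sub_add_cancel] at this
    exact hC m _ y (hxy.imp (fun h => by linarith) fun h => by linarith)
  have hmain := h s hs hs1 H hH l hl Q (fun m => em Q (A m)) (fun m => em Q (fun x y => B m x (y - w)))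
    (fun m => em Q (fun x y => C m (x - w) y))
    (by funext x y; simp [Glue.em, hA0]) (by funext x y; simp [Glue.em, hB0])
    (by funext x y; simp [Glue.em, hC0]) M
  refine ⟨Q + w.natAbs, ?_⟩
  have hpow : ∀ m ∈ range M, 2 ^ m ≤ 2 ^ (M + κ) := by
    intro m hm
    rw [Finset.mem_range] at hm
    exact Nat.pow_le_pow_right (by norm_num) (by omega)
  have hpow2 : ∀ m ∈ range M, ∀ s ∈ range κ, 2 ^ (m + s) ≤ 2 ^ (M + κ) := by
    intro m hm s hs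
    rw [Finset.mem_range] at hm hs
    exact Nat.pow_le_pow_right (by norm_num) (by omega)
  refine le_trans ?_ (hmain.trans ?_)
  · -- left side
    refine Finset.sum_le_sum fun m hm => ?_
    refine mul_le_mul_of_nonneg_left ?_ (by positivity)
    refine Finset.sum_le_sum fun i hi => ?_
    rw [Finset.mem_range] at hi
    set f : ZMod Q → ZMod Q → ℝ := fun p0 p1 =>
      |Crest.Agent.R072.Lattice.Lbox (em Q (A (m + 1))) (em Q (fun x y => B (m + 1) x (y - w)))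
        (em Q (fun x y => C (m + 1) (x - w) y)) (2 ^ m) p0 p1
        ((l : ZMod Q) * ((2 ^ m : ℕ) : ZMod Q) + (i : ZMod Q) - p0 - p1)| with hf
    have hf0 : ∀ p0 p1, 0 ≤ f p0 p1 := fun p0 p1 => abs_nonneg _
    have e1 : ∀ p0 ∈ Icc (-(L1 : ℤ)) L1, ∀ p1 ∈ Icc (-(L1 : ℤ)) L1,
        |Lb3r (A (m + 1)) (B (m + 1)) (C (m + 1)) (2 ^ m) p0 p1
          (l * 2 ^ m + (i : ℤ) - w - p0 - p1)| = f (p0 : ZMod Q) (p1 : ZMod Q) := by
      intro p0 h0 p1 h1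
      have hNz : ((2 ^ m : ℕ) : ℤ) ≤ ((2 ^ (M + κ) : ℕ) : ℤ) := by exact_mod_cast hpow m hm
      have hiz : (i : ℤ) < ((2 ^ m : ℕ) : ℤ) := by exact_mod_cast hi
      have hi0 : (0 : ℤ) ≤ i := by positivity
      have hP0 : (0 : ℤ) < ((2 ^ m : ℕ) : ℤ) := by positivity
      have hQz : (Q : ℤ) = 2 * (100 * ((L2 : ℤ) + L1 + ((2 ^ (M + κ) : ℕ) : ℤ))) + 1 := by
        rw [hQdef]; push_cast; ring
      have hL20 : (0 : ℤ) ≤ L2 := by positivity
      have hL10 : (0 : ℤ) ≤ L1 := by positivity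
      have hp0 : |p0| ≤ L1 := abs_le.2 (by simpa using Finset.mem_Icc.mp h0)
      have hp1 : |p1| ≤ L1 := abs_le.2 (by simpa using Finset.mem_Icc.mp h1)
      have hcast : (l : ZMod Q) * ((2 ^ m : ℕ) : ZMod Q) + (i : ZMod Q) - (p0 : ZMod Q) -
          (p1 : ZMod Q) = ((l * ((2 ^ m : ℕ) : ℤ) + (i : ℤ) - p0 - p1 : ℤ) : ZMod Q) := by
        push_cast; rfl
      have hlm : |l * ((2 ^ m : ℕ) : ℤ)| ≤ 7 * ((2 ^ m : ℕ) : ℤ) := by
        rw [abs_mul, abs_of_pos hP0]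
        exact mul_le_mul_of_nonneg_right hl hP0.le
      have hp2 : |l * ((2 ^ m : ℕ) : ℤ) + (i : ℤ) - p0 - p1| ≤ 8 * ((2 ^ m : ℕ) : ℤ) + 2 * L1 := by
        rw [abs_le] at hlm hp0 hp1 ⊢
        constructor <;> linarith [hlm.1, hlm.2, hp0.1, hp0.2, hp1.1, hp1.2]
      simp only [hf]
      rw [hcast, Lbox_em _ _ _ _ _ _ _ (by linarith) (by linarith) (by linarith)]
      rw [show l * ((2 ^ m : ℕ) : ℤ) + (i : ℤ) - p0 - p1 =
        (l * 2 ^ m + (i : ℤ) - w - p0 - p1) + w by push_cast; ring, Lb3r_shift]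
    have e2 : ∑ p0 ∈ Icc (-(L1 : ℤ)) L1, ∑ p1 ∈ Icc (-(L1 : ℤ)) L1,
        |Lb3r (A (m + 1)) (B (m + 1)) (C (m + 1)) (2 ^ m) p0 p1
          (l * 2 ^ m + (i : ℤ) - w - p0 - p1)| =
        ∑ p0 ∈ Icc (-(L1 : ℤ)) L1, ∑ p1 ∈ Icc (-(L1 : ℤ)) L1, f (p0 : ZMod Q) (p1 : ZMod Q) :=
      Finset.sum_congr rfl fun p0 h0 => Finset.sum_congr rfl fun p1 h1 => e1 p0 h0 p1 h1
    rw [e2]
    have hLQ : 2 * L1 < Q := by
      have : 0 < 2 ^ (M + κ) := by positivity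
      rw [hQdef]; omega
    have e3 : ∑ p0 ∈ Icc (-(L1 : ℤ)) L1, ∑ p1 ∈ Icc (-(L1 : ℤ)) L1, f (p0 : ZMod Q) (p1 : ZMod Q) ≤
        ∑ p0 ∈ Icc (-(L1 : ℤ)) L1, (fun q => ∑ z : ZMod Q, f q z) (p0 : ZMod Q) :=
      Finset.sum_le_sum fun p0 _ => sum_int_le (f (p0 : ZMod Q)) (hf0 _) L1 hLQ
    refine e3.trans ?_
    exact sum_int_le (fun q => ∑ z : ZMod Q, f q z)
      (fun q => Finset.sum_nonneg fun z _ => hf0 q z) L1 hLQ
  · -- right side
    refine mul_le_mul_of_nonneg_left ?_ (by positivity)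
    refine Finset.sum_le_sum fun m hm => ?_
    have G2 := good2 hs.le hh0
    have G4 := good4 hs.le
    refine add_le_add ?_ ?_
    · refine (V24_em_le s _ hs.le hh0 w _ _ _ _ _ _ L2 (2 ^ m) (sA _) (sA _) (sB _) (sB _) (sC _)
        (sC _) ?_).trans (VgZ_mono G2 G4 G4 w _ _ _ _ _ _ _ _ _ (Nat.le_add_right _ _))
      have := hpow m hm
      rw [hQdef]; omega
    · refine Finset.sum_le_sum fun s' hs' => ?_
      have h2 := hpow2 m hm s' hs'
      have hQ2 : 2 * (L2 + 2 ^ (m + s')) < Q := by rw [hQdef]; omega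
      refine add_le_add (add_le_add ?_ ?_) ?_
      · exact (E24_em_le G2 (dom2 s _) _ _ L2 _ (sA _) (sA _) hQ2).trans
          (EgZ_mono G2 _ _ _ _ _ (Nat.le_add_right _ _))
      · exact (E24_em_le G4 (dom4 s) _ _ L2 _ (sB _) (sB _) hQ2).trans (EgZ_shift_right G4 _ _ _ _ w)
      · exact (E24_em_le G4 (dom4 s) _ _ L2 _ (sC _) (sC _) hQ2).trans (EgZ_shift_left G4 _ _ _ _ w)

/-! ### rotation -/

/-- a sum over positions, rotated -/
lemma rot_sum (c : ℤ) (f : ℤ → ℤ → ℝ) (hf : ∀ x y, 0 ≤ f x y) (L L' : ℕ)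
    (hL : 2 * L + c.natAbs ≤ L') :
    ∑ p0 ∈ Icc (-(L : ℤ)) L, ∑ p1 ∈ Icc (-(L : ℤ)) L, f p1 (c - p0 - p1) ≤
      ∑ q0 ∈ Icc (-(L' : ℤ)) L', ∑ q1 ∈ Icc (-(L' : ℤ)) L', f q0 q1 := by
  classical
  rw [← Finset.sum_product', ← Finset.sum_product']
  set φ : ℤ × ℤ → ℤ × ℤ := fun x => (x.2, c - x.1 - x.2) with hφ
  rw [← Finset.sum_image (f := fun y : ℤ × ℤ => f y.1 y.2) (g := φ)]
  · refine Finset.sum_le_sum_of_subset_of_nonneg ?_ fun x _ _ => hf _ _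
    intro x hx
    rw [Finset.mem_image] at hx
    obtain ⟨z, hz, rfl⟩ := hx
    rw [Finset.mem_product, Finset.mem_Icc, Finset.mem_Icc] at hz
    rw [Finset.mem_product, Finset.mem_Icc, Finset.mem_Icc]
    simp only [hφ]
    have hc := Int.natCast_natAbs c
    have h1 := le_abs_self c
    have h2 := neg_abs_le c
    have h3 : ((2 * L + c.natAbs : ℕ) : ℤ) ≤ L' := by exact_mod_cast hL
    push_cast at h3
    obtain ⟨⟨a1, a2⟩, a3, a4⟩ := hz
    have h4 := abs_nonneg c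
    have h5 : (0 : ℤ) ≤ L := by positivity
    refine ⟨⟨?_, ?_⟩, ?_, ?_⟩ <;> linarith
  · intro x _ y _ hxy
    simp only [hφ, Prod.mk.injEq] at hxy
    refine Prod.ext ?_ hxy.1
    have := hxy.1
    linarith [hxy.2]

lemma Lb3r_rot (A B C : ℤ → ℤ → ℝ) (N : ℕ) (p0 p1 p2 : ℤ) :
    Lb3r A B C N p0 p1 p2 = Lb3r B C A N p1 p2 p0 := by
  unfold Lb3r
  congr 1
  calc ∑ i0 : Fin (N + N), ∑ i1 : Fin (N + N), ∑ i2 : Fin (N + N),
        hsg N i0 * hsg N i1 * hsg N i2 *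
          (A (p0 + ((i0 : ℕ) : ℤ)) (p1 + ((i1 : ℕ) : ℤ)) *
           B (p1 + ((i1 : ℕ) : ℤ)) (p2 + ((i2 : ℕ) : ℤ)) *
           C (p2 + ((i2 : ℕ) : ℤ)) (p0 + ((i0 : ℕ) : ℤ)))
      = ∑ i1 : Fin (N + N), ∑ i0 : Fin (N + N), ∑ i2 : Fin (N + N),
        hsg N i0 * hsg N i1 * hsg N i2 *
          (A (p0 + ((i0 : ℕ) : ℤ)) (p1 + ((i1 : ℕ) : ℤ)) *
           B (p1 + ((i1 : ℕ) : ℤ)) (p2 + ((i2 : ℕ) : ℤ)) *
           C (p2 + ((i2 : ℕ) : ℤ)) (p0 + ((i0 : ℕ) : ℤ))) := Finset.sum_comm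
    _ = ∑ i1 : Fin (N + N), ∑ i2 : Fin (N + N), ∑ i0 : Fin (N + N),
        hsg N i0 * hsg N i1 * hsg N i2 *
          (A (p0 + ((i0 : ℕ) : ℤ)) (p1 + ((i1 : ℕ) : ℤ)) *
           B (p1 + ((i1 : ℕ) : ℤ)) (p2 + ((i2 : ℕ) : ℤ)) *
           C (p2 + ((i2 : ℕ) : ℤ)) (p0 + ((i0 : ℕ) : ℤ))) :=
        Finset.sum_congr rfl fun i1 _ => Finset.sum_comm
    _ = _ := by
        refine Finset.sum_congr rfl fun i1 _ => Finset.sum_congr rfl fun i2 _ =>
          Finset.sum_congr rfl fun i0 _ => ?_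
        ring

lemma VgZ_rot {g1 g2 g3 : Bud} (h1 : GoodB g1) (h2 : GoodB g2) (h3 : GoodB g3)
    (w : ℤ) (A B C A' B' C' : ℤ → ℤ → ℝ) (N Q Q' : ℕ)
    (hQ : 2 * Q + (3 * N + w.natAbs) ≤ Q') :
    VgZ g1 g2 g3 Q w B C A B' C' A' N ≤ VgZ g3 g1 g2 Q' w A B C A' B' C' N := by
  classical
  unfold VgZ
  refine mul_le_mul_of_nonneg_left ?_ (by positivity)
  refine Finset.sum_le_sum fun i hi => ?_
  rw [Finset.mem_range] at hi
  -- old: (q0,q1) with B q0 q1, C q1 tc, A tc q0; new p0 = tc q0 q1, p1 = q0: p0 in terms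
  set f : ℤ → ℤ → ℝ := fun p0 p1 =>
    if SeesZ A A' N p0 p1 ∨ SeesZ B B' N p1 (tc N i w p0 p1) ∨ SeesZ C C' N (tc N i w p0 p1) p0 then
      g3 A N p0 p1 + g1 B N p1 (tc N i w p0 p1) + g2 C N (tc N i w p0 p1) p0 else 0 with hf
  have hf0 : ∀ x y, 0 ≤ f x y := fun x y => Vnn h3 h1 h2 A B C N x y _ _
  have e : ∀ q0 q1 : ℤ, (if SeesZ B B' N q0 q1 ∨ SeesZ C C' N q1 (tc N i w q0 q1) ∨
      SeesZ A A' N (tc N i w q0 q1) q0 then
      g1 B N q0 q1 + g2 C N q1 (tc N i w q0 q1) + g3 A N (tc N i w q0 q1) q0 else 0) =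
      f ((-(2 * (N : ℤ)) + (i : ℤ) - w) - q1 - q0) q0 := by
    intro q0 q1
    have e1 : tc N i w q0 q1 = (-(2 * (N : ℤ)) + (i : ℤ) - w) - q1 - q0 := by
      unfold tc; ring
    have e2 : tc N i w ((-(2 * (N : ℤ)) + (i : ℤ) - w) - q1 - q0) q0 = q1 := by
      unfold tc; ring
    simp only [hf]
    rw [e1, e2]
    refine if_congr ?_ ?_ rfl
    · tauto
    · ring
  -- swap roles to use `rot_sum` with `f'(q0, c - q1 - q0) := f (second, first)`
  have e3 : ∑ q0 ∈ Icc (-(Q : ℤ)) Q, ∑ q1 ∈ Icc (-(Q : ℤ)) Q,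
      (if SeesZ B B' N q0 q1 ∨ SeesZ C C' N q1 (tc N i w q0 q1) ∨
      SeesZ A A' N (tc N i w q0 q1) q0 then
      g1 B N q0 q1 + g2 C N q1 (tc N i w q0 q1) + g3 A N (tc N i w q0 q1) q0 else 0) =
      ∑ q1 ∈ Icc (-(Q : ℤ)) Q, ∑ q0 ∈ Icc (-(Q : ℤ)) Q,
        (fun x y => f y x) q0 ((-(2 * (N : ℤ)) + (i : ℤ) - w) - q1 - q0) := by
    rw [Finset.sum_comm]
    refine Finset.sum_congr rfl fun q1 _ => Finset.sum_congr rfl fun q0 _ => ?_
    rw [e]
  rw [e3]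
  refine (rot_sum _ (fun x y => f y x) (fun x y => hf0 y x) Q Q' ?_).trans (le_of_eq ?_)
  · refine le_trans ?_ hQ
    have : (-(2 * (N : ℤ)) + (i : ℤ) - w).natAbs ≤ 3 * N + w.natAbs := by omega
    omega
  · rw [Finset.sum_comm]

/-- rotation -/
theorem TriG.rot {c : ℝ} {κ : ℕ} {g1 g2 g3 : Bud} (hc : 0 ≤ c) (h1 : GoodB g1) (h2 : GoodB g2)
    (h3 : GoodB g3) (h : TriG c κ g1 g2 g3) : TriG c κ g3 g1 g2 := by
  intro l hl w A B C L hA hB hC hA0 hB0 hC0 M L1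
  obtain ⟨LL, hLL⟩ : ∃ n : ℕ, n = 2 * L1 + (8 * 2 ^ M + w.natAbs) := ⟨_, rfl⟩
  obtain ⟨L', h⟩ := h l hl w B C A L hB hC hA hB0 hC0 hA0 M LL
  obtain ⟨L'', hL''⟩ : ∃ n : ℕ, n = 2 * L' + (3 * 2 ^ M + w.natAbs) := ⟨_, rfl⟩
  refine ⟨L'', ?_⟩
  have hp : ∀ m ∈ range M, 2 ^ m ≤ 2 ^ M := by
    intro m hm
    rw [Finset.mem_range] at hm
    exact Nat.pow_le_pow_right (by norm_num) hm.le
  refine le_trans ?_ (h.trans ?_)
  · refine Finset.sum_le_sum fun m hm => ?_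
    refine mul_le_mul_of_nonneg_left ?_ (by positivity)
    refine Finset.sum_le_sum fun i hi => ?_
    rw [Finset.mem_range] at hi
    have hpm := hp m hm
    obtain ⟨cc, hcc⟩ : ∃ z : ℤ, z = l * 2 ^ m + (i : ℤ) - w := ⟨_, rfl⟩
    rw [← hcc]
    obtain ⟨f, hf⟩ : ∃ f : ℤ → ℤ → ℝ, f = fun q0 q1 =>
      |Lb3r (B (m + 1)) (C (m + 1)) (A (m + 1)) (2 ^ m) q0 q1 (cc - q0 - q1)| := ⟨_, rfl⟩
    have hf0 : ∀ x y, 0 ≤ f x y := fun x y => by rw [hf]; exact abs_nonneg _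
    have e : ∀ p0 p1 : ℤ, |Lb3r (A (m + 1)) (B (m + 1)) (C (m + 1)) (2 ^ m) p0 p1 (cc - p0 - p1)| =
        f p1 (cc - p0 - p1) := by
      intro p0 p1
      rw [hf]
      simp only
      rw [Lb3r_rot, show cc - p1 - (cc - p0 - p1) = p0 by ring]
    have e' : ∑ p0 ∈ Icc (-(L1 : ℤ)) L1, ∑ p1 ∈ Icc (-(L1 : ℤ)) L1,
        |Lb3r (A (m + 1)) (B (m + 1)) (C (m + 1)) (2 ^ m) p0 p1 (cc - p0 - p1)| =
        ∑ p0 ∈ Icc (-(L1 : ℤ)) L1, ∑ p1 ∈ Icc (-(L1 : ℤ)) L1, f p1 (cc - p0 - p1) :=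
      Finset.sum_congr rfl fun p0 _ => Finset.sum_congr rfl fun p1 _ => e p0 p1
    have e'' : ∑ q0 ∈ Icc (-(LL : ℤ)) LL, ∑ q1 ∈ Icc (-(LL : ℤ)) LL,
        |Lb3r (B (m + 1)) (C (m + 1)) (A (m + 1)) (2 ^ m) q0 q1 (cc - q0 - q1)| =
        ∑ q0 ∈ Icc (-(LL : ℤ)) LL, ∑ q1 ∈ Icc (-(LL : ℤ)) LL, f q0 q1 := by rw [hf]
    rw [e', e'']
    refine rot_sum cc f hf0 L1 LL ?_
    have h5 : cc.natAbs ≤ 8 * 2 ^ M + w.natAbs := by
      have hlm : |l * 2 ^ m| ≤ 7 * 2 ^ m := by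
        rw [abs_mul, abs_of_pos (by positivity : (0 : ℤ) < 2 ^ m)]
        exact mul_le_mul_of_nonneg_right hl (by positivity)
      have hpz : (2 : ℤ) ^ m ≤ 2 ^ M := by exact_mod_cast hpm
      have hiz : (i : ℤ) < 2 ^ m := by exact_mod_cast hi
      have hw1 := le_abs_self w
      have hw2 := neg_abs_le w
      rw [abs_le] at hlm
      zify
      rw [hcc, abs_le]
      constructor <;> linarith [hlm.1, hlm.2, (Nat.cast_nonneg i : (0 : ℤ) ≤ i)]
    omega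
  · refine mul_le_mul_of_nonneg_left ?_ hc
    refine Finset.sum_le_sum fun m hm => ?_
    have hpm := hp m hm
    refine add_le_add ?_ ?_
    · exact VgZ_rot h1 h2 h3 w (A (m + 1)) (B (m + 1)) (C (m + 1)) (A m) (B m) (C m) (2 ^ m) L' L''
        (by omega)
    · refine Finset.sum_le_sum fun s _ => ?_
      have m1 := EgZ_mono h1 (B (m + 1)) (B m) (2 ^ (m + s)) L'
        L'' (by omega)
      have m2 := EgZ_mono h2 (C (m + 1)) (C m) (2 ^ (m + s)) L'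
        L'' (by omega)
      have m3 := EgZ_mono h3 (A (m + 1)) (A m) (2 ^ (m + s)) L'
        L'' (by omega)
      linarith

/-- budgets of the three edges: `S₂` on the edge `i`, `S₄` on the others -/
noncomputable def gi (s h : ℝ) (i k : Fin 3) : Bud := if k = i then g2Z s h else g4Z s

/-- **`Tri24` on `ℤ`**, any position of the `S₂` edge -/
theorem triG : ∃ K : ℝ, 0 ≤ K ∧ ∃ κ : ℕ, ∀ s : ℝ, 0 < s → s ≤ 1 → ∀ H : ℝ, 1 ≤ H → ∀ i : Fin 3,
    TriG (K * (1 + Real.log (H / s))) κ (gi s (H ^ 2)⁻¹ i 0) (gi s (H ^ 2)⁻¹ i 1)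
      (gi s (H ^ 2)⁻¹ i 2) := by
  obtain ⟨K, hK, κ, h⟩ := triG_base
  refine ⟨K, hK, κ, ?_⟩
  intro s hs hs1 H hH i
  have h0 := h s hs hs1 H hH
  have hh0 : (0 : ℝ) ≤ (H ^ 2)⁻¹ := by positivity
  have hlog : 0 ≤ Real.log (H / s) := Real.log_nonneg (by rw [le_div_iff₀ hs]; linarith)
  have hc : 0 ≤ K * (1 + Real.log (H / s)) := by positivity
  have G2 := good2 hs.le hh0
  have G4 := good4 hs.le
  have h1 := TriG.rot hc G2 G4 G4 h0
  have h2 := TriG.rot hc G4 G2 G4 h1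
  fin_cases i
  · simpa [gi] using h0
  · simpa [gi] using h1
  · simpa [gi] using h2

end Crest.Agent.R079.F24
end

-- ▼ part R079/F24b_118

/-! R079, AL4 part B (helper118): sums over the boxes near the exits of the region, with the budgets
of `Tri24`, from the node hypotheses of `Frozen24`. -/

set_option autoImplicit false
set_option linter.unusedVariables false

namespace Crest.Agent.R079.F24

open Finset Crest.Agent.R079.Grid Crest.Agent.R079.Pot Crest.Agent.R079.Glue Crest.Agent.R079.R244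

/-- complex frozen kernel with linear form `α w + γ z + δ z'` -/
noncomputable def cK (α γ δ : ℤ) (T T' : Finset ℤ) (a : ℤ → ℤ → ℂ) (G : ℤ → ℂ) (w z z' : ℤ) : ℂ :=
  if z ∈ T ∧ z' ∈ T' then a z z' * G (α * w + γ * z + δ * z') else 0

/-- common budget, complex version -/
noncomputable def UU (s ε : ℝ) (X : ℤ → ℤ → ℂ) (N : ℕ) (q p : ℤ) : ℝ :=
  2 * s * e2 X N q p + ε * (s⁻¹ * e4 X N q p)

lemma e2_nonneg (X : ℤ → ℤ → ℂ) (N : ℕ) (q p : ℤ) : 0 ≤ e2 X N q p := by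
  unfold e2; positivity

lemma UU_nonneg {s ε : ℝ} (hs : 0 ≤ s) (hε : 0 ≤ ε) (X : ℤ → ℤ → ℂ) (N : ℕ) (q p : ℤ) :
    0 ≤ UU s ε X N q p := by
  unfold UU
  have := e2_nonneg X N q p
  have := e4_nonneg X N q p
  positivity

lemma e2_congr (X Y : ℤ → ℤ → ℂ) (N : ℕ) (q p : ℤ)
    (h : ∀ i j : ℕ, i < N → j < N → X (q + (i : ℤ)) (p + (j : ℤ)) = Y (q + (i : ℤ)) (p + (j : ℤ))) :
    e2 X N q p = e2 Y N q p := by
  unfold e2
  congr 1
  refine Finset.sum_congr rfl fun i hi => Finset.sum_congr rfl fun j hj => ?_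
  rw [Finset.mem_range] at hi hj
  rw [h i j hi hj]

lemma UU_congr (s ε : ℝ) (X Y : ℤ → ℤ → ℂ) (N : ℕ) (q p : ℤ)
    (h : ∀ i j : ℕ, i < N → j < N → X (q + (i : ℤ)) (p + (j : ℤ)) = Y (q + (i : ℤ)) (p + (j : ℤ))) :
    UU s ε X N q p = UU s ε Y N q p := by
  unfold UU
  rw [e2_congr X Y N q p h, e4_congr X Y N q p h]

lemma norm_sum_sq_le {σ : Type*} (S : Finset σ) (x : σ → ℂ) :
    ‖∑ t ∈ S, x t‖ ^ 2 ≤ (S.card : ℝ) * ∑ t ∈ S, ‖x t‖ ^ 2 := by
  have h1 := norm_sum_le S x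
  have h2 := sq_sum_le_card_mul_sum_sq (s := S) (f := fun t => ‖x t‖)
  exact (pow_le_pow_left₀ (norm_nonneg _) h1 2).trans h2

lemma e2_sum_le {σ : Type*} (S : Finset σ) (X : σ → ℤ → ℤ → ℂ) (N : ℕ) (q p : ℤ) :
    e2 (fun x y => ∑ t ∈ S, X t x y) N q p ≤ (S.card : ℝ) * ∑ t ∈ S, e2 (X t) N q p := by
  unfold e2
  have e : (S.card : ℝ) * ∑ t ∈ S, (1 / (N : ℝ) ^ 2) * ∑ i ∈ range N, ∑ j ∈ range N,
      ‖X t (q + (i : ℤ)) (p + (j : ℤ))‖ ^ 2 = (1 / (N : ℝ) ^ 2) * ∑ i ∈ range N, ∑ j ∈ range N,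
        (S.card : ℝ) * ∑ t ∈ S, ‖X t (q + (i : ℤ)) (p + (j : ℤ))‖ ^ 2 := by
    have e1 : ∑ t ∈ S, ∑ i ∈ range N, ∑ j ∈ range N, ‖X t (q + (i : ℤ)) (p + (j : ℤ))‖ ^ 2 =
        ∑ i ∈ range N, ∑ j ∈ range N, ∑ t ∈ S, ‖X t (q + (i : ℤ)) (p + (j : ℤ))‖ ^ 2 := by
      rw [Finset.sum_comm]
      exact Finset.sum_congr rfl fun i _ => Finset.sum_comm
    simp only [← Finset.mul_sum]
    rw [e1]
    ring
  rw [e]
  refine mul_le_mul_of_nonneg_left ?_ (by positivity)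
  exact Finset.sum_le_sum fun i _ => Finset.sum_le_sum fun j _ => norm_sum_sq_le S _

lemma nat_le_cube (n : ℕ) : (n : ℝ) ≤ (n : ℝ) ^ 3 := by
  rcases Nat.eq_zero_or_pos n with h | h
  · subst h; simp
  · have : (1 : ℝ) ≤ n := by exact_mod_cast h
    nlinarith [sq_nonneg ((n : ℝ) - 1)]

lemma UU_sum_le {s ε : ℝ} (hs : 0 ≤ s) (hε : 0 ≤ ε) {σ : Type*} (S : Finset σ)
    (X : σ → ℤ → ℤ → ℂ) (N : ℕ) (q p : ℤ) :
    UU s ε (fun x y => ∑ t ∈ S, X t x y) N q p ≤ (S.card : ℝ) ^ 3 * ∑ t ∈ S, UU s ε (X t) N q p := by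
  unfold UU
  have h1 := e2_sum_le S X N q p
  have h2 := e4_sum_le S X N q p
  have h3 : 0 ≤ ∑ t ∈ S, e2 (X t) N q p := Finset.sum_nonneg fun t _ => e2_nonneg _ _ _ _
  have h4 : e2 (fun x y => ∑ t ∈ S, X t x y) N q p ≤ (S.card : ℝ) ^ 3 * ∑ t ∈ S, e2 (X t) N q p :=
    h1.trans (mul_le_mul_of_nonneg_right (nat_le_cube _) h3)
  have e : (S.card : ℝ) ^ 3 * ∑ t ∈ S, (2 * s * e2 (X t) N q p + ε * (s⁻¹ * e4 (X t) N q p)) =
      2 * s * ((S.card : ℝ) ^ 3 * ∑ t ∈ S, e2 (X t) N q p) +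
      ε * (s⁻¹ * ((S.card : ℝ) ^ 3 * ∑ t ∈ S, e4 (X t) N q p)) := by
    rw [Finset.sum_add_distrib, ← Finset.mul_sum, ← Finset.mul_sum, ← Finset.mul_sum]
    ring
  rw [e]
  have hsi : 0 ≤ s⁻¹ := inv_nonneg.mpr hs
  exact add_le_add (mul_le_mul_of_nonneg_left h4 (by positivity))
    (mul_le_mul_of_nonneg_left (mul_le_mul_of_nonneg_left h2 hsi) hε)

/-! ### nodes near the exits -/

/-- nodes of level `m` which meet the neighbourhood of the exits -/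
noncomputable def En (R : Finset (ℕ × ℤ)) (m h : ℕ) : Finset ℤ :=
  ((Dp R m h).filter (fun y => y ∈ Rm R m)).image (fun y => y / 2 ^ (m + 7))

lemma mem_En (R : Finset (ℕ × ℤ)) (m h : ℕ) (l : ℤ) (hl : l ∈ En R m h) : (m, l) ∈ R := by
  unfold En at hl
  rw [Finset.mem_image] at hl
  obtain ⟨y, hy, rfl⟩ := hl
  rw [Finset.mem_filter] at hy
  exact (mem_Rm R m y).mp hy.2

lemma card_En (R : Finset (ℕ × ℤ)) (m h : ℕ) :
    ((En R m h).card : ℝ) * 2 ^ (m + 7) ≤ 2 * (2 * (h + 128) + 1) * (Dm R m).card := by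
  classical
  set E := (Dm R m).image fun y => y / 2 ^ (m + 7) with hE
  have hsub : En R m h ⊆ E.biUnion fun l =>
      Icc (l - ((h + 128 : ℕ) : ℤ)) (l + ((h + 128 : ℕ) : ℤ)) := by
    intro l' hl'
    unfold En at hl'
    rw [Finset.mem_image] at hl'
    obtain ⟨y, hy, rfl⟩ := hl'
    rw [Finset.mem_filter] at hy
    have hy := hy.1
    unfold Dp at hy
    rw [Finset.mem_biUnion] at hy ⊢
    obtain ⟨d, hd, hy⟩ := hy
    refine ⟨d / 2 ^ (m + 7), Finset.mem_image_of_mem _ hd, ?_⟩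
    have hP : (0 : ℤ) < 2 ^ (m + 7) := by positivity
    rw [Finset.mem_Icc] at hy ⊢
    have h2 : (h : ℤ) * 2 ^ m ≤ ((h + 128 : ℕ) : ℤ) * 2 ^ (m + 7) := by
      have h3 : (2 : ℤ) ^ m ≤ 2 ^ (m + 7) := pow_le_pow_right₀ (by norm_num) (by omega)
      have h4 : (h : ℤ) * 2 ^ m ≤ h * 2 ^ (m + 7) := mul_le_mul_of_nonneg_left h3 (by positivity)
      push_cast
      nlinarith
    constructor
    · have h3 : (d + (-((h + 128 : ℕ) : ℤ)) * 2 ^ (m + 7)) / 2 ^ (m + 7) ≤ y / 2 ^ (m + 7) :=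
        Int.ediv_le_ediv hP (by linarith [hy.1])
      rw [Int.add_mul_ediv_right _ _ hP.ne'] at h3
      linarith
    · have h3 : y / 2 ^ (m + 7) ≤ (d + ((h + 128 : ℕ) : ℤ) * 2 ^ (m + 7)) / 2 ^ (m + 7) :=
        Int.ediv_le_ediv hP (by linarith [hy.2])
      rw [Int.add_mul_ediv_right _ _ hP.ne'] at h3
      linarith
  have h1 : (En R m h).card ≤ E.card * (2 * (h + 128) + 1) := by
    refine (Finset.card_le_card hsub).trans (Finset.card_biUnion_le_card_mul _ _ _ fun l _ => ?_)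
    rw [Int.card_Icc]
    omega
  have h2 : E.card * 2 ^ (m + 6) ≤ (Dm R m).card := card_nodes R m
  have h3 : (En R m h).card * 2 ^ (m + 7) ≤ 2 * (2 * (h + 128) + 1) * (Dm R m).card := by
    calc (En R m h).card * 2 ^ (m + 7) ≤ (E.card * (2 * (h + 128) + 1)) * 2 ^ (m + 7) :=
          Nat.mul_le_mul_right _ h1
      _ = 2 * (2 * (h + 128) + 1) * (E.card * 2 ^ (m + 6)) := by
          rw [pow_succ 2 (m + 6)]; ring
      _ ≤ 2 * (2 * (h + 128) + 1) * (Dm R m).card := Nat.mul_le_mul_left _ h2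
  exact_mod_cast h3

/-- the masked function on a box near the exits is a short sum of node restrictions -/
lemma msk_eq_sum (R : Finset (ℕ × ℤ)) (m h k : ℕ) (hk : 6 * 2 ^ k ≤ h) (F : ℤ → ℂ) (α γ δ : ℤ)
    (hγ3 : |γ| ≤ 3) (hδ3 : |δ| ≤ 3) (w q p : ℤ)
    (hD : ∀ i j : ℕ, i < 2 ^ (m + k) → j < 2 ^ (m + k) →
      α * w + γ * (q + (i : ℤ)) + δ * (p + (j : ℤ)) ∈ Dp R m h)
    (i j : ℕ) (hi : i < 2 ^ (m + k)) (hj : j < 2 ^ (m + k)) :
    msk (Rm R m) F (α * w + γ * (q + (i : ℤ)) + δ * (p + (j : ℤ))) =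
      ∑ l ∈ (En R m h).filter (fun l => |l - (α * w + γ * q + δ * p) / 2 ^ (m + 7)| ≤ h),
        res (m, l) F (α * w + γ * (q + (i : ℤ)) + δ * (p + (j : ℤ))) := by
  classical
  have hy := hD i j hi hj
  set y := α * w + γ * (q + (i : ℤ)) + δ * (p + (j : ℤ)) with hyd
  set b := α * w + γ * q + δ * p with hb
  have hP : (0 : ℤ) < 2 ^ (m + 7) := by positivity
  have hres : ∀ l : ℤ, res (m, l) F y = if y / 2 ^ (m + 7) = l then F y else 0 := by
    intro l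
    unfold res
    exact if_congr (mem_dI_iff _ _ _) rfl rfl
  by_cases hyR : y ∈ Rm R m
  · unfold msk
    rw [if_pos hyR]
    rw [Finset.sum_eq_single_of_mem (y / 2 ^ (m + 7))]
    · rw [hres, if_pos rfl]
    · rw [Finset.mem_filter]
      refine ⟨?_, ?_⟩
      · unfold En
        exact Finset.mem_image_of_mem _ (Finset.mem_filter.mpr ⟨hy, hyR⟩)
      · have a1 := abs_smul_le γ i (2 ^ (m + k)) hγ3 hi
        have a2 := abs_smul_le δ j (2 ^ (m + k)) hδ3 hj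
        have e : y - b = γ * (i : ℤ) + δ * (j : ℤ) := by rw [hyd, hb]; ring
        have hkz : (6 * 2 ^ k : ℤ) ≤ h := by exact_mod_cast hk
        have hb6 : 6 * (2 : ℤ) ^ (m + k) ≤ h * 2 ^ (m + 7) := by
          have h3 : (2 : ℤ) ^ m ≤ 2 ^ (m + 7) := pow_le_pow_right₀ (by norm_num) (by omega)
          have h4 : (0 : ℤ) < 2 ^ m := by positivity
          have h5 : 6 * (2 : ℤ) ^ (m + k) = (6 * 2 ^ k) * 2 ^ m := by rw [pow_add]; ring
          rw [h5]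
          have h0 : (0 : ℤ) ≤ h := by positivity
          exact mul_le_mul hkz h3 h4.le h0
        push_cast at a1 a2
        rw [abs_le] at a1 a2 ⊢
        have y1 : y ≤ b + h * 2 ^ (m + 7) := by linarith [a1.2, a2.2]
        have y2 : b + (-(h : ℤ)) * 2 ^ (m + 7) ≤ y := by linarith [a1.1, a2.1]
        have z1 := Int.ediv_le_ediv hP y1
        have z2 := Int.ediv_le_ediv hP y2
        rw [Int.add_mul_ediv_right _ _ hP.ne'] at z1 z2
        constructor <;> linarith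
    · intro l _ hl
      rw [hres, if_neg (fun e => hl e.symm)]
  · unfold msk
    rw [if_neg hyR]
    symm
    refine Finset.sum_eq_zero fun l hl => ?_
    rw [hres, if_neg]
    intro e
    apply hyR
    rw [mem_Rm, e]
    exact mem_En R m h l (Finset.mem_filter.mp hl).1

/-- one box near the exits -/
lemma UU_box_le {s ε : ℝ} (hs : 0 ≤ s) (hε : 0 ≤ ε) (R : Finset (ℕ × ℤ)) (m h k : ℕ)
    (hk : 6 * 2 ^ k ≤ h) (F : ℤ → ℂ) (α γ δ : ℤ)
    (hγ3 : |γ| ≤ 3) (hδ3 : |δ| ≤ 3) (T T' : Finset ℤ) (a : ℤ → ℤ → ℂ) (w q p : ℤ)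
    (hD : ∀ i j : ℕ, i < 2 ^ (m + k) → j < 2 ^ (m + k) →
      α * w + γ * (q + (i : ℤ)) + δ * (p + (j : ℤ)) ∈ Dp R m h) :
    UU s ε (cK α γ δ T T' a (msk (Rm R m) F) w) (2 ^ (m + k)) q p ≤
      (2 * h + 1) ^ 3 * ∑ l ∈ En R m h,
        UU s ε (cK α γ δ T T' a (res (m, l) F) w) (2 ^ (m + k)) q p := by
  classical
  set S := (En R m h).filter (fun l => |l - (α * w + γ * q + δ * p) / 2 ^ (m + 7)| ≤ h) with hS
  have e : UU s ε (cK α γ δ T T' a (msk (Rm R m) F) w) (2 ^ (m + k)) q p =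
      UU s ε (fun x y => ∑ l ∈ S, cK α γ δ T T' a (res (m, l) F) w x y) (2 ^ (m + k)) q p := by
    refine UU_congr _ _ _ _ _ _ _ fun i j hi hj => ?_
    unfold cK
    split_ifs with hT
    · rw [msk_eq_sum R m h k hk F α γ δ hγ3 hδ3 w q p hD i j hi hj, Finset.mul_sum]
    · simp
  rw [e]
  refine (UU_sum_le hs hε S _ _ _ _).trans ?_
  have hcard : (S.card : ℝ) ≤ 2 * h + 1 := by
    have h1 : S ⊆ Icc ((α * w + γ * q + δ * p) / 2 ^ (m + 7) - (h : ℤ))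
        ((α * w + γ * q + δ * p) / 2 ^ (m + 7) + h) := by
      intro l hl
      rw [hS, Finset.mem_filter, abs_le] at hl
      rw [Finset.mem_Icc]
      constructor <;> linarith [hl.2.1, hl.2.2]
    have h2 := Finset.card_le_card h1
    rw [Int.card_Icc] at h2
    have h3 : S.card ≤ 2 * h + 1 := by omega
    exact_mod_cast h3
  have hn : ∀ l, 0 ≤ UU s ε (cK α γ δ T T' a (res (m, l) F) w) (2 ^ (m + k)) q p :=
    fun l => UU_nonneg hs hε _ _ _ _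
  refine mul_le_mul (pow_le_pow_left₀ (by positivity) hcard 3) ?_
    (Finset.sum_nonneg fun l _ => hn l) (by positivity)
  exact Finset.sum_le_sum_of_subset_of_nonneg (Finset.filter_subset _ _) fun l _ _ => hn l

/-- **all boxes near the exits** -/
lemma exit_total {s ε : ℝ} (hs : 0 ≤ s) (hε : 0 ≤ ε) (R : Finset (ℕ × ℤ)) (m h k : ℕ)
    (hk : 6 * 2 ^ k ≤ h) (F : ℤ → ℂ) (α γ δ : ℤ)
    (hγ3 : |γ| ≤ 3) (hδ3 : |δ| ≤ 3) (T T' : Finset ℤ) (a : ℤ → ℤ → ℂ) (B : ℝ)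
    (hB : ∀ l, (m, l) ∈ R → ∀ S : Finset (ℤ × ℤ × ℤ),
      ∑ t ∈ S, UU s ε (cK α γ δ T T' a (res (m, l) F) t.1) (2 ^ (m + k)) t.2.1 t.2.2 ≤ B)
    (Λ : Finset (ℤ × ℤ × ℤ))
    (hΛ : ∀ t ∈ Λ, ∀ i j : ℕ, i < 2 ^ (m + k) → j < 2 ^ (m + k) →
      α * t.1 + γ * (t.2.1 + (i : ℤ)) + δ * (t.2.2 + (j : ℤ)) ∈ Dp R m h) :
    ∑ t ∈ Λ, UU s ε (cK α γ δ T T' a (msk (Rm R m) F) t.1) (2 ^ (m + k)) t.2.1 t.2.2 ≤
      (2 * h + 1) ^ 3 * ((En R m h).card * B) := by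
  refine (Finset.sum_le_sum fun t ht => UU_box_le hs hε R m h k hk F α γ δ hγ3 hδ3 T T' a
    t.1 t.2.1 t.2.2 (hΛ t ht)).trans ?_
  rw [← Finset.mul_sum, Finset.sum_comm]
  refine mul_le_mul_of_nonneg_left ?_ (by positivity)
  refine (Finset.sum_le_sum fun l hl => hB l (mem_En R m h l hl) Λ).trans (le_of_eq ?_)
  rw [Finset.sum_const, nsmul_eq_mul]

/-! ### budgets of real parts -/

lemma fK_eq (σ : Bool) (α γ δ : ℤ) (T T' : Finset ℤ) (a : ℤ → ℤ → ℂ) (G : ℤ → ℂ) (w : ℤ) :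
    fK σ α γ δ T T' a G w = fun z z' => pr σ (cK α γ δ T T' a G w z z') := by
  funext z z'
  unfold fK cK
  split_ifs
  · rfl
  · exact (pr_zero σ).symm

lemma bxZ_pr_le (σ : Bool) (X : ℤ → ℤ → ℂ) (N : ℕ) (q p : ℤ) :
    bxZ (fun z z' => pr σ (X z z')) N q p ≤ e2 X N q p := by
  unfold bxZ e2
  refine mul_le_mul_of_nonneg_left ?_ (by positivity)
  refine Finset.sum_le_sum fun i _ => Finset.sum_le_sum fun j _ => ?_
  rw [← sq_abs]
  exact pow_le_pow_left₀ (abs_nonneg _) (abs_pr_le σ _) 2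

lemma e4Z_pr_le (σ : Bool) (X : ℤ → ℤ → ℂ) (N : ℕ) (q p : ℤ) :
    e4Z (fun z z' => pr σ (X z z')) N q p ≤ e4 X N q p := by
  cases σ
  · have e : (fun z z' => pr false (X z z')) = fun z z' => (X z z').im := by
      funext z z'; simp [pr]
    rw [e]
    exact e4Z_im_le X N q p
  · have e : (fun z z' => pr true (X z z')) = fun z z' => (X z z').re := by
      funext z z'; simp [pr]
    rw [e]
    exact e4Z_re_le X N q p

lemma bxZ_le_of_bdd (A : ℤ → ℤ → ℝ) (H : ℝ) (hH : 0 ≤ H) (hA : ∀ z z', |A z z'| ≤ H) (N : ℕ)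
    (q p : ℤ) : bxZ A N q p ≤ H ^ 2 := by
  unfold bxZ
  have h1 : ∑ i ∈ range N, ∑ j ∈ range N, A (q + (i : ℤ)) (p + (j : ℤ)) ^ 2 ≤
      ∑ i ∈ range N, ∑ j ∈ range N, H ^ 2 := by
    refine Finset.sum_le_sum fun i _ => Finset.sum_le_sum fun j _ => ?_
    rw [← sq_abs]
    exact pow_le_pow_left₀ (abs_nonneg _) (hA _ _) 2
  refine (mul_le_mul_of_nonneg_left h1 (by positivity)).trans ?_
  simp only [Finset.sum_const, Finset.card_range, nsmul_eq_mul]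
  rcases Nat.eq_zero_or_pos N with h0 | h0
  · subst h0; simpa using sq_nonneg H
  · have hN : (0 : ℝ) < N := by exact_mod_cast h0
    refine le_of_eq ?_
    field_simp

lemma g2_UU {s H : ℝ} (hs : 0 ≤ s) (hH : 1 ≤ H) (σ : Bool) (X : ℤ → ℤ → ℂ)
    (hX : ∀ z z', ‖X z z'‖ ≤ H) (N : ℕ) (q p : ℤ) :
    g2Z s (H ^ 2)⁻¹ (fun z z' => pr σ (X z z')) N q p ≤ UU s 0 X N q p := by
  unfold g2Z UU
  have h1 := bxZ_pr_le σ X N q p
  have h2 := bxZ_nonneg (fun z z' => pr σ (X z z')) N q p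
  have h3 := bxZ_le_of_bdd (fun z z' => pr σ (X z z')) H (by linarith)
    (fun z z' => (abs_pr_le σ _).trans (hX z z')) N q p
  set b := bxZ (fun z z' => pr σ (X z z')) N q p with hb
  have hH2 : 0 < H ^ 2 := by positivity
  have h4 : (H ^ 2)⁻¹ * b ^ 2 ≤ b := by
    rw [inv_mul_le_iff₀ hH2]
    nlinarith
  have h5 : s * (b + (H ^ 2)⁻¹ * b ^ 2) ≤ s * (2 * e2 X N q p) :=
    mul_le_mul_of_nonneg_left (by linarith) hs
  linarith

lemma g4_UU {s : ℝ} (hs : 0 ≤ s) (σ : Bool) (X : ℤ → ℤ → ℂ) (N : ℕ) (q p : ℤ) :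
    g4Z s (fun z z' => pr σ (X z z')) N q p ≤ UU s 1 X N q p := by
  unfold g4Z UU
  have h1 := bxZ_pr_le σ X N q p
  have h2 := e4Z_pr_le σ X N q p
  have h3 := e2_nonneg X N q p
  have h4 := mul_le_mul_of_nonneg_left h1 hs
  have h5 := mul_le_mul_of_nonneg_left h2 (inv_nonneg.mpr hs)
  have h6 : 0 ≤ s * e2 X N q p := by positivity
  linarith

end Crest.Agent.R079.F24
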