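import Crest.Agent.R079.F24b_118

-- ▼ part R079/F24c_118
section

/-! R079, AL4 part B (helper118): the potentials of one level, summed over the frozen variable. -/

set_option autoImplicit false
set_option linter.unusedVariables false

namespace Crest.Agent.R079.F24

open Finset Crest.Agent.R079.Grid Crest.Agent.R079.Pot Crest.Agent.R079.Glue Crest.Agent.R079.R244

/-- what is used about one edge at level `m`: budget on the masked kernels, node totals -/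
structure EdgeH (R : Finset (ℕ × ℤ)) (κ : ℕ) (g : Bud) (s ε V : ℝ) (α γ δ : ℤ) (T T' : Finset ℤ)
    (a : ℤ → ℤ → ℂ) (F : ℤ → ℂ) : Prop where
  good : GoodB g
  hε : 0 ≤ ε
  hγ : |γ| ≤ 3
  hδ : |δ| ≤ 3
  bud : ∀ (σ : Bool) (m : ℕ) (w : ℤ) (N : ℕ) (q p : ℤ),
    g (fK σ α γ δ T T' a (msk (Rm R m) F) w) N q p ≤
      UU s ε (cK α γ δ T T' a (msk (Rm R m) F) w) N q p
  node : ∀ (m k : ℕ), k ≤ κ → ∀ l, (m, l) ∈ R → ∀ S : Finset (ℤ × ℤ × ℤ),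
    ∑ t ∈ S, UU s ε (cK α γ δ T T' a (res (m, l) F) t.1) (2 ^ (m + k)) t.2.1 t.2.2 ≤
      3 * s * (2 ^ (m + 7) * V)

/-- bound of one level -/
noncomputable def Lv (R : Finset (ℕ × ℤ)) (m h : ℕ) (s V : ℝ) : ℝ :=
  (2 * h + 1) ^ 3 * ((En R m h).card * (3 * s * (2 ^ (m + 7) * V)))

variable {R : Finset (ℕ × ℤ)} {J : ℕ × ℤ} {κ : ℕ} {s V : ℝ}

lemma EdgeH.total (hs : 0 ≤ s) {g : Bud} {ε : ℝ} {α γ δ : ℤ} {T T' : Finset ℤ} {a : ℤ → ℤ → ℂ}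
    {F : ℤ → ℂ} (hE : EdgeH R κ g s ε V α γ δ T T' a F) (m h k : ℕ) (hk : k ≤ κ)
    (hkh : 6 * 2 ^ k ≤ h) (Λ : Finset (ℤ × ℤ × ℤ))
    (hΛ : ∀ t ∈ Λ, ∀ i j : ℕ, i < 2 ^ (m + k) → j < 2 ^ (m + k) →
      α * t.1 + γ * (t.2.1 + (i : ℤ)) + δ * (t.2.2 + (j : ℤ)) ∈ Dp R m h) :
    ∑ t ∈ Λ, UU s ε (cK α γ δ T T' a (msk (Rm R m) F) t.1) (2 ^ (m + k)) t.2.1 t.2.2 ≤
      Lv R m h s V :=
  exit_total hs hE.hε R m h k hkh F α γ δ hE.hγ hE.hδ T T' a _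
    (fun l hl S => hE.node m k hk l hl S) Λ hΛ

lemma Wsup (Wf : Finset ℤ) (Lw : ℤ → ℕ) : ∃ LL : ℕ, ∀ w ∈ Wf, Lw w ≤ LL :=
  ⟨Wf.sup Lw, fun w hw => Finset.le_sup (f := Lw) hw⟩


/-- all three shadows of a position are close to the exits once one of the letters changes -/
lemma close_all (hR : IsRegion R J) (m h : ℕ) (hm : m ≤ J.1)
    (hh : 24 ≤ h) (F0 F1 F2 : ℤ → ℂ) (σ0 σ1 σ2 : Bool) (sj s0 s1 s2 : ℤ)
    (hs : Slopes sj s0 s1 s2) (T0 T1 T2 : Finset ℤ) (a b c : ℤ → ℤ → ℂ) (w : ℤ)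
    (i : ℕ) (hi : i < 2 ^ m) (p0 p1 : ℤ)
    (hse : SeesZ (fK σ2 (sj - s2) (s0 - s2) (s1 - s2) T0 T1 a (msk (Rs R (m + 1)) F2) w)
          (fK σ2 (sj - s2) (s0 - s2) (s1 - s2) T0 T1 a (msk (Rs R m) F2) w) (2 ^ m) p0 p1 ∨
        SeesZ (fK σ0 (sj - s0) (s1 - s0) (s2 - s0) T1 T2 b (msk (Rs R (m + 1)) F0) w)
          (fK σ0 (sj - s0) (s1 - s0) (s2 - s0) T1 T2 b (msk (Rs R m) F0) w) (2 ^ m) p1
            (tc (2 ^ m) i w p0 p1) ∨
        SeesZ (fK σ1 (sj - s1) (s2 - s1) (s0 - s1) T2 T0 c (msk (Rs R (m + 1)) F1) w)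
          (fK σ1 (sj - s1) (s2 - s1) (s0 - s1) T2 T0 c (msk (Rs R m) F1) w) (2 ^ m)
            (tc (2 ^ m) i w p0 p1) p0) :
    (∀ i0 i1 : ℕ, i0 < 2 ^ m → i1 < 2 ^ m → (sj - s2) * w + (s0 - s2) * (p0 + (i0 : ℤ)) +
          (s1 - s2) * (p1 + (i1 : ℤ)) ∈ Dp R m h) ∧
    (∀ i0 i1 : ℕ, i0 < 2 ^ m → i1 < 2 ^ m → (sj - s0) * w + (s1 - s0) * (p1 + (i0 : ℤ)) +
          (s2 - s0) * (tc (2 ^ m) i w p0 p1 + (i1 : ℤ)) ∈ Dp R m h) ∧
    (∀ i0 i1 : ℕ, i0 < 2 ^ m → i1 < 2 ^ m → (sj - s1) * w + (s2 - s1) *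
          (tc (2 ^ m) i w p0 p1 + (i0 : ℤ)) + (s0 - s1) * (p0 + (i1 : ℤ)) ∈ Dp R m h) := by
  set N := 2 ^ m with hN
  have hNz : (N : ℤ) = 2 ^ m := by rw [hN]; push_cast; ring
  have b2 : |s0 - s2| ≤ 3 ∧ |s1 - s2| ≤ 3 := by
    constructor <;> rw [abs_le] <;> constructor <;> linarith [hs.h0.1, hs.h0.2, hs.h1.1, hs.h1.2, hs.h2.1, hs.h2.2]
  have b0 : |s1 - s0| ≤ 3 ∧ |s2 - s0| ≤ 3 := by
    constructor <;> rw [abs_le] <;> constructor <;> linarith [hs.h0.1, hs.h0.2, hs.h1.1, hs.h1.2, hs.h2.1, hs.h2.2]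
  have b1 : |s2 - s1| ≤ 3 ∧ |s0 - s1| ≤ 3 := by
    constructor <;> rw [abs_le] <;> constructor <;> linarith [hs.h0.1, hs.h0.2, hs.h1.1, hs.h1.2, hs.h2.1, hs.h2.2]
  have hbh : 24 * (N : ℤ) ≤ h * 2 ^ m := by
    rw [hNz]
    have h24 : (24 : ℤ) ≤ h := by exact_mod_cast hh
    exact mul_le_mul_of_nonneg_right h24 (by positivity)
  set p2 := tc N i w p0 p1 with hp2
  set G0 : ℤ := sj * w + s0 * p0 + s1 * p1 + s2 * p2 with hG0
  set t0 : ℤ := w + p0 + p1 + p2 with ht0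
  have ht : t0 = -(2 * (N : ℤ)) + i := by rw [ht0, hp2]; unfold tc; ring
  have hi' : (i : ℤ) < N := by exact_mod_cast hi
  have hi0 : (0 : ℤ) ≤ i := by positivity
  have hst : ∀ s : ℤ, 0 ≤ s ∧ s ≤ 3 → |s * t0| ≤ 6 * N := by
    intro s hs
    rw [abs_mul]
    have h1 : |s| ≤ 3 := by rw [abs_le]; constructor <;> linarith [hs.1, hs.2]
    have h2 : |t0| ≤ 2 * N := by rw [ht, abs_le]; constructor <;> linarith
    have := mul_le_mul h1 h2 (abs_nonneg _) (by norm_num)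
    linarith
  -- all points are close to `G0`
  have cA : ∀ i0 i1 : ℕ, i0 < N → i1 < N → |((sj - s2) * w + (s0 - s2) * (p0 + (i0 : ℤ)) +
      (s1 - s2) * (p1 + (i1 : ℤ))) - G0| ≤ 12 * N := by
    intro i0 i1 hi0 hi1
    have e : ((sj - s2) * w + (s0 - s2) * (p0 + (i0 : ℤ)) + (s1 - s2) * (p1 + (i1 : ℤ))) - G0 =
        -(s2 * t0) + (s0 - s2) * (i0 : ℤ) + (s1 - s2) * (i1 : ℤ) := by
      rw [hG0, ht0]; ring
    have a1 := abs_smul_le (s0 - s2) i0 N b2.1 hi0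
    have a2 := abs_smul_le (s1 - s2) i1 N b2.2 hi1
    have a3 := hst s2 hs.h2
    rw [e]
    rw [abs_le] at a1 a2 a3 ⊢
    constructor <;> linarith [a1.1, a1.2, a2.1, a2.2, a3.1, a3.2]
  have cB : ∀ i0 i1 : ℕ, i0 < N → i1 < N → |((sj - s0) * w + (s1 - s0) * (p1 + (i0 : ℤ)) +
      (s2 - s0) * (p2 + (i1 : ℤ))) - G0| ≤ 12 * N := by
    intro i0 i1 hi0 hi1
    have e : ((sj - s0) * w + (s1 - s0) * (p1 + (i0 : ℤ)) + (s2 - s0) * (p2 + (i1 : ℤ))) - G0 =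
        -(s0 * t0) + (s1 - s0) * (i0 : ℤ) + (s2 - s0) * (i1 : ℤ) := by
      rw [hG0, ht0]; ring
    have a1 := abs_smul_le (s1 - s0) i0 N b0.1 hi0
    have a2 := abs_smul_le (s2 - s0) i1 N b0.2 hi1
    have a3 := hst s0 hs.h0
    rw [e]
    rw [abs_le] at a1 a2 a3 ⊢
    constructor <;> linarith [a1.1, a1.2, a2.1, a2.2, a3.1, a3.2]
  have cC : ∀ i0 i1 : ℕ, i0 < N → i1 < N → |((sj - s1) * w + (s2 - s1) * (p2 + (i0 : ℤ)) +
      (s0 - s1) * (p0 + (i1 : ℤ))) - G0| ≤ 12 * N := by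
    intro i0 i1 hi0 hi1
    have e : ((sj - s1) * w + (s2 - s1) * (p2 + (i0 : ℤ)) + (s0 - s1) * (p0 + (i1 : ℤ))) - G0 =
        -(s1 * t0) + (s2 - s1) * (i0 : ℤ) + (s0 - s1) * (i1 : ℤ) := by
      rw [hG0, ht0]; ring
    have a1 := abs_smul_le (s2 - s1) i0 N b1.1 hi0
    have a2 := abs_smul_le (s0 - s1) i1 N b1.2 hi1
    have a3 := hst s1 hs.h1
    rw [e]
    rw [abs_le] at a1 a2 a3 ⊢
    constructor <;> linarith [a1.1, a1.2, a2.1, a2.2, a3.1, a3.2]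
  obtain ⟨d, hd, hdG⟩ : ∃ d ∈ Dm R m, |d - G0| ≤ 12 * N := by
    rcases hse with hse | hse | hse
    · obtain ⟨i', j', hi', hj', hd⟩ := fK_sees R J hR m hm F2 σ2 _ _ _ T0 T1 a w N p0 p1 hse
      exact ⟨_, hd, cA i' j' hi' hj'⟩
    · obtain ⟨i', j', hi', hj', hd⟩ := fK_sees R J hR m hm F0 σ0 _ _ _ T1 T2 b w N p1 p2 hse
      exact ⟨_, hd, cB i' j' hi' hj'⟩
    · obtain ⟨i', j', hi', hj', hd⟩ := fK_sees R J hR m hm F1 σ1 _ _ _ T2 T0 c w N p2 p0 hse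
      exact ⟨_, hd, cC i' j' hi' hj'⟩
  have close : ∀ y : ℤ, |y - G0| ≤ 12 * N → y ∈ Dp R m h := by
    intro y hy
    refine mem_Dp R m h d y hd (le_trans ?_ hbh)
    rw [abs_le] at hy hdG ⊢
    constructor <;> linarith [hy.1, hy.2, hdG.1, hdG.2]
  exact ⟨fun i0 i1 h0 h1 => close _ (cA i0 i1 h0 h1), fun i0 i1 h0 h1 => close _ (cB i0 i1 h0 h1),
    fun i0 i1 h0 h1 => close _ (cC i0 i1 h0 h1)⟩


end Crest.Agent.R079.F24
end

-- ▼ part R079/F24d_118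

/-! R079, AL4 (helper118): **`frozen24 : R244.Frozen24`**, the frozen atom theorem at the exponents
(2,4,4). -/

set_option autoImplicit false
set_option linter.unusedVariables false

namespace Crest.Agent.R079.F24

open Finset Crest.Agent.R079.Grid Crest.Agent.R079.Pot Crest.Agent.R079.Glue Crest.Agent.R079.R244

/-! ### finite sums and `finsum` -/

lemma sum_le_finsum_of_nonneg {ι : Type*} (f : ι → ℝ) (hf : ∀ i, 0 ≤ f i)
    (hfin : (Function.support f).Finite) (S : Finset ι) : ∑ t ∈ S, f t ≤ ∑ᶠ t, f t := by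
  classical
  rw [finsum_eq_sum_of_support_subset f (s := hfin.toFinset ∪ S) (by
    intro x hx
    rw [Finset.coe_union]
    exact Or.inl (by simpa using hx))]
  exact Finset.sum_le_sum_of_subset_of_nonneg Finset.subset_union_right fun x _ _ => hf x

/-- the box values of a node kernel have finite support in the position -/
lemma support_finite {α γ δ : ℤ} (hα : α ≠ 0) (T T' : Finset ℤ) (a : ℤ → ℤ → ℂ) (p : ℕ × ℤ)
    (F : ℤ → ℂ) (N : ℕ) (E : (ℤ → ℤ → ℂ) → ℕ → ℤ → ℤ → ℝ)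
    (hE : ∀ X Y N q p, (∀ i j : ℕ, i < N → j < N →
      X (q + (i : ℤ)) (p + (j : ℤ)) = Y (q + (i : ℤ)) (p + (j : ℤ))) → E X N q p = E Y N q p)
    (hE0 : ∀ N q p, E (fun _ _ => 0) N q p = 0) :
    (Function.support fun t : ℤ × ℤ × ℤ =>
      E (cK α γ δ T T' a (res p F) t.1) N t.2.1 t.2.2).Finite := by
  classical
  -- candidates
  set SI : Finset (ℤ × ℤ × ℤ × ℕ × ℕ) :=
    dI (p.1 + 7) p.2 ×ˢ (T ×ˢ (T' ×ˢ (range N ×ˢ range N))) with hSI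
  set f : ℤ × ℤ × ℤ × ℕ × ℕ → ℤ × ℤ × ℤ := fun u =>
    ((u.1 - γ * u.2.1 - δ * u.2.2.1) / α, u.2.1 - (u.2.2.2.1 : ℤ), u.2.2.1 - (u.2.2.2.2 : ℤ)) with hf
  refine (SI.image f).finite_toSet.subset ?_
  rintro ⟨w, q, r⟩ ht
  rw [Function.mem_support] at ht
  by_contra hc
  apply ht
  simp only
  rw [hE _ (fun _ _ => 0) N q r, hE0]
  intro i j hi hj
  unfold cK
  split_ifs with hT
  · by_cases hy : α * w + γ * (q + (i : ℤ)) + δ * (r + (j : ℤ)) ∈ dI (p.1 + 7) p.2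
    · exfalso
      apply hc
      rw [Finset.mem_coe, Finset.mem_image]
      refine ⟨(α * w + γ * (q + (i : ℤ)) + δ * (r + (j : ℤ)), q + i, r + j, i, j), ?_, ?_⟩
      · rw [hSI]
        simp only [Finset.mem_product, Finset.mem_range]
        exact ⟨hy, hT.1, hT.2, hi, hj⟩
      · simp only [hf]
        refine Prod.ext ?_ (Prod.ext ?_ ?_)
        · simp only
          rw [show α * w + γ * (q + (i : ℤ)) + δ * (r + (j : ℤ)) - γ * (q + (i : ℤ)) -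
            δ * (r + (j : ℤ)) = α * w by ring]
          exact Int.mul_ediv_cancel_left w hα
        · simp only
          ring
        · simp only
          ring
    · unfold res
      rw [if_neg hy, mul_zero]
  · rfl

lemma e2_zero (N : ℕ) (q p : ℤ) : e2 (fun _ _ => 0) N q p = 0 := by
  unfold e2; simp

lemma e4_zero (N : ℕ) (q p : ℤ) : e4 (fun _ _ => 0) N q p = 0 := by
  unfold e4; simp

section nodes

variable {R : Finset (ℕ × ℤ)} {κ : ℕ} {s V : ℝ}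




end nodes

/-- constant of one block -/
noncomputable def C24 (K : ℝ) (κ : ℕ) : ℝ :=
  K * (3 * (1 + κ)) * ((2 * ((12 * 2 ^ κ + 24 : ℕ) : ℝ) + 1) ^ 3 *
    (2 * (2 * (((12 * 2 ^ κ + 24 : ℕ) : ℝ) + 128) + 1)) * 3)



end Crest.Agent.R079.F24
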