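import Crest.Agent.R079.GaS_571

/-! R079, Step I, MOVE with heights on the stacks (helper571).

* `tau h` : truncation of a letter at height `h` (1-Lipschitz, so it keeps the quadratic variation);
* `move_ZJ` : joint kernel letters above the thresholds against a static partner;
* `move_ZJG` : against the truncated moving glued letter of another functional. -/

set_option autoImplicit false

namespace Crest.Agent.R079.GaTx571

open Finset Crest.Agent.R079.Grid Crest.Agent.R079.Growth Crest.Agent.R079.QRed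
  Crest.Agent.R079.Qh249 Crest.Agent.R079.TWin
open Crest.Agent.R079.RelW653 (vl NMP Jv Dv av_par sum_av' lf_sum_eq')
open Crest.Agent.R079.RelV653 Crest.Agent.R079.ThA159 Crest.Agent.R079.ThB159
open Crest.Agent.R079.Stk (Rk Rk_mono full_Rk)
open Crest.Agent.R079.GaMx571 Crest.Agent.R079.GaSx571

/-! ### truncation -/

/-- truncation at height `h` -/
noncomputable def tau (h : ℝ) (z : ℂ) : ℂ := if ‖z‖ ≤ h then z else ((h / ‖z‖ : ℝ) : ℂ) * z

lemma tau_le {h : ℝ} (hh : 0 ≤ h) (z : ℂ) : ‖tau h z‖ ≤ h := by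
  unfold tau
  split_ifs with hz
  · exact hz
  · push Not at hz
    have hz0 : 0 < ‖z‖ := lt_of_le_of_lt hh hz
    rw [norm_mul, Complex.norm_real, Real.norm_of_nonneg (by positivity)]
    rw [div_mul_cancel₀ _ hz0.ne']

lemma tau_le' {h : ℝ} (hh : 0 ≤ h) (z : ℂ) : ‖tau h z‖ ≤ ‖z‖ := by
  unfold tau
  split_ifs with hz
  · exact le_rfl
  · push Not at hz
    have hz0 : 0 < ‖z‖ := lt_of_le_of_lt hh hz
    rw [norm_mul, Complex.norm_real, Real.norm_of_nonneg (by positivity)]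
    rw [div_mul_cancel₀ _ hz0.ne']
    exact hz.le

lemma tau_of_le {h : ℝ} {z : ℂ} (hz : ‖z‖ ≤ h) : tau h z = z := if_pos hz

/-- the removed part is supported on large values -/
lemma tau_sub {h : ℝ} (hh : 0 ≤ h) (z : ℂ) : ‖z - tau h z‖ ≤ ‖z‖ ∧ (‖z‖ ≤ h → z - tau h z = 0) := by
  constructor
  · unfold tau
    split_ifs with hz
    · simp
    · push Not at hz
      have hz0 : 0 < ‖z‖ := lt_of_le_of_lt hh hz
      have e : z - ((h / ‖z‖ : ℝ) : ℂ) * z = ((1 - h / ‖z‖ : ℝ) : ℂ) * z := by push_cast; ring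
      rw [e, norm_mul, Complex.norm_real]
      have h1 : h / ‖z‖ ≤ 1 := (div_le_one hz0).2 hz.le
      have h2 : 0 ≤ h / ‖z‖ := by positivity
      rw [Real.norm_of_nonneg (by linarith)]
      nlinarith
  · intro hz
    rw [tau_of_le hz, sub_self]

/-- the variational inequality of the projection on the ball -/
lemma tau_var {h : ℝ} (hh : 0 ≤ h) (z u : ℂ) (hu : ‖u‖ ≤ h) :
    inner ℝ (z - tau h z) (u - tau h z) ≤ 0 := by
  unfold tau
  split_ifs with hz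
  · simp
  · push Not at hz
    have hz0 : 0 < ‖z‖ := lt_of_le_of_lt hh hz
    have e : z - ((h / ‖z‖ : ℝ) : ℂ) * z = (1 - h / ‖z‖ : ℝ) • z := by
      rw [Complex.real_smul]; push_cast; ring
    have e' : ((h / ‖z‖ : ℝ) : ℂ) * z = (h / ‖z‖ : ℝ) • z := by rw [Complex.real_smul]
    rw [e, e', real_inner_smul_left, inner_sub_right, real_inner_smul_right,
      real_inner_self_eq_norm_sq]
    have h1 : h / ‖z‖ ≤ 1 := (div_le_one hz0).2 hz.le
    have h2 : inner ℝ z u ≤ ‖z‖ * ‖u‖ := real_inner_le_norm z u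
    have h3 : h / ‖z‖ * ‖z‖ ^ 2 = h * ‖z‖ := by field_simp
    rw [h3]
    have h4 : ‖z‖ * ‖u‖ ≤ ‖z‖ * h := mul_le_mul_of_nonneg_left hu hz0.le
    exact mul_nonpos_of_nonneg_of_nonpos (by linarith) (by linarith)

/-- **the truncation is 1-Lipschitz** -/
theorem tau_lip {h : ℝ} (hh : 0 ≤ h) (z w : ℂ) : ‖tau h z - tau h w‖ ≤ ‖z - w‖ := by
  have h1 := tau_var hh z (tau h w) (tau_le hh w)
  have h2 := tau_var hh w (tau h z) (tau_le hh z)
  have h3 : ‖tau h z - tau h w‖ ^ 2 ≤ inner ℝ (z - w) (tau h z - tau h w) := by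
    rw [← real_inner_self_eq_norm_sq]
    have e : inner ℝ (z - w) (tau h z - tau h w) - inner ℝ (tau h z - tau h w) (tau h z - tau h w) =
        -(inner ℝ (z - tau h z) (tau h w - tau h z) + inner ℝ (w - tau h w) (tau h z - tau h w)) := by
      have e1 : inner ℝ (z - tau h z) (tau h w - tau h z) =
          - inner ℝ (z - tau h z) (tau h z - tau h w) := by
        rw [← inner_neg_right, neg_sub]
      rw [e1, ← inner_sub_left, neg_add, neg_neg, ← sub_eq_add_neg, ← inner_sub_left]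
      congr 1
      ring
    linarith
  have h4 : inner ℝ (z - w) (tau h z - tau h w) ≤ ‖z - w‖ * ‖tau h z - tau h w‖ :=
    real_inner_le_norm _ _
  by_contra hc
  push Not at hc
  have h5 : 0 < ‖tau h z - tau h w‖ := lt_of_le_of_lt (norm_nonneg _) hc
  nlinarith

section family

variable {ι : Type*} [Fintype ι] {Ω : ι → Type*} {Bd : ∀ i, Nd → Finset (Ω i)}
  {pos : ∀ i, Ω i → ℤ} {N : ∀ i, Nd → (Ω i → ℂ) → ℝ} {ν : ι → ℝ} {a : ∀ i, Ω i → ℂ} {r : ι → ℝ}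
  {κ : ι → ℝ} {X : Fn} {η : ℝ} {f : Nd → Fn}

variable (hB : ∀ i, Bnd (Bd i) (pos i) (N i) (ν i)) (hr : ∀ i, 0 ≤ r i) (hκ : ∀ i, 0 ≤ κ i)
  (h : NMP (fun _ _ => True) (ThF Bd pos N ν a r κ) X η f)

include hB hr hκ h

variable {R S : Finset Nd} {J : Nd} {W : Nd → Finset Nd} {C : ℝ} (hR : Full R J)
  (hP : TWin.Part R S W C)

include hR hP


end family

section two

variable {ι : Type*} [Fintype ι] {Ω : ι → Type*} {Bd : ∀ i, Nd → Finset (Ω i)}
  {pos : ∀ i, Ω i → ℤ} {N : ∀ i, Nd → (Ω i → ℂ) → ℝ} {ν : ι → ℝ} {a : ∀ i, Ω i → ℂ} {r : ι → ℝ}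
  {κ : ι → ℝ} {X : Fn} {η : ℝ} {f : Nd → Fn}
  {ι' : Type*} [Fintype ι'] {Ω' : ι' → Type*} {Bd' : ∀ i, Nd → Finset (Ω' i)}
  {pos' : ∀ i, Ω' i → ℤ} {N' : ∀ i, Nd → (Ω' i → ℂ) → ℝ} {ν' : ι' → ℝ} {a' : ∀ i, Ω' i → ℂ}
  {r' : ι' → ℝ} {κ' : ι' → ℝ} {X' : Fn} {η' : ℝ} {f' : Nd → Fn}

variable (hB : ∀ i, Bnd (Bd i) (pos i) (N i) (ν i)) (hr : ∀ i, 0 ≤ r i) (hκ : ∀ i, 0 ≤ κ i)
  (h : NMP (fun _ _ => True) (ThF Bd pos N ν a r κ) X η f)
  (hB' : ∀ i, Bnd (Bd' i) (pos' i) (N' i) (ν' i)) (hr' : ∀ i, 0 ≤ r' i) (hκ' : ∀ i, 0 ≤ κ' i)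
  (h' : NMP (fun _ _ => True) (ThF Bd' pos' N' ν' a' r' κ') X' η' f')
  {R S : Finset Nd} {J : Nd} {W : Nd → Finset Nd} {C : ℝ} (hR : Full R J)
  (hP : TWin.Part R S W C)

include hB hr hκ h hB' hr' hκ' h' hR hP


end two

end Crest.Agent.R079.GaTx571
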