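import Crest.Agent.R072.Maximal
import Crest.Agent.R079.CRdef_253
import Crest.Agent.R079.OpS_276

-- ▼ part R079/BadT_138
section

/-! R079, bad tiles (882 (4) / 924 (3)): at a fixed value of the frozen variable the tiles on which the
killer has a large operator norm are paid by the exceptional leaf tiles and the maximal function of the
`L¹` weight.  Pure combinatorics.  helper138. -/

set_option autoImplicit false
set_option linter.unusedVariables false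

namespace Crest.Agent.R079.BadTx138

open Finset

/-! ### the maximal function on `ℤ` -/

/-- maximal majorant of a finitely supported function on `ℤ` -/
theorem exists_max_int : ∃ C : ℝ, 0 ≤ C ∧ ∀ (th : ℤ → ℝ), (∀ x, 0 ≤ th x) → ∀ (S : Finset ℤ),
    (∀ x, x ∉ S → th x = 0) → ∀ X : ℕ, ∃ g : ℤ → ℝ, (∀ x, 0 ≤ g x) ∧
      (∀ (x : ℤ) (K : ℕ), ∑ d ∈ Icc (-(K : ℤ)) K, th (x + d) ≤ (2 * K + 1) * g x) ∧
      ∑ x ∈ Icc (-(X : ℤ)) X, g x ^ (3 / 2 : ℝ) ≤ C * ∑ x ∈ S, th x ^ (3 / 2 : ℝ) := by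
  obtain ⟨C, hC, h⟩ := Crest.Agent.R072.Maximal.exists_maximal
  refine ⟨C, hC, ?_⟩
  intro th hth S hS X
  -- a radius for the support
  obtain ⟨L, hL⟩ : ∃ L : ℕ, ∀ x ∈ S, |x| ≤ (L : ℤ) := by
    refine ⟨∑ x ∈ S, x.natAbs, fun x hx => ?_⟩
    have h1 : x.natAbs ≤ ∑ x ∈ S, x.natAbs :=
      Finset.single_le_sum (f := fun x : ℤ => x.natAbs) (fun _ _ => Nat.zero_le _) hx
    have h2 : |x| = (x.natAbs : ℤ) := Int.abs_eq_natAbs x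
    rw [h2]
    exact_mod_cast h1
  set Q : ℕ := 2 * (L + X) + 1 with hQ
  have : NeZero Q := ⟨by omega⟩
  set f : ZMod Q → ℝ := fun z => th z.valMinAbs with hf
  obtain ⟨g, hg0, hg1, hg2⟩ := h Q f (fun x => hth _)
  have hval : ∀ x : ℤ, |x| ≤ (L : ℤ) + X → ((x : ZMod Q)).valMinAbs = x := by
    intro x hx
    rw [ZMod.valMinAbs_spec]
    refine ⟨rfl, ?_⟩
    have := abs_le.1 hx
    constructor
    · omega
    · omega
  have hle : ∀ x : ℤ, th x ≤ f (x : ZMod Q) := by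
    intro x
    by_cases hx : x ∈ S
    · have := hL x hx
      rw [hf]
      simp only
      rw [hval x (by have : (0 : ℤ) ≤ X := by positivity
                     omega)]
    · rw [hS x hx]
      exact hth _
  refine ⟨fun x => g (x : ZMod Q), fun x => hg0 _, ?_, ?_⟩
  · intro x K
    refine le_trans (Finset.sum_le_sum fun d _ => hle (x + d)) ?_
    have := hg1 (x : ZMod Q) K
    simpa only [Int.cast_add] using this
  · have h1 : ∑ x ∈ Icc (-(X : ℤ)) X, g (x : ZMod Q) ^ (3 / 2 : ℝ) ≤ ∑ z : ZMod Q, g z ^ (3 / 2 : ℝ) := by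
      have hinj : Set.InjOn (fun x : ℤ => (x : ZMod Q)) (Icc (-(X : ℤ)) X : Finset ℤ) := by
        intro x hx y hy hxy
        simp only [Finset.coe_Icc, Set.mem_Icc] at hx hy
        have e1 := hval x (by rw [abs_le]; omega)
        have e2 := hval y (by rw [abs_le]; omega)
        have hxy' : (x : ZMod Q) = (y : ZMod Q) := hxy
        rw [← e1, ← e2, hxy']
      rw [← Finset.sum_image (f := fun z : ZMod Q => g z ^ (3 / 2 : ℝ)) (g := fun x : ℤ => (x : ZMod Q))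
        (s := Icc (-(X : ℤ)) X) hinj]
      exact Finset.sum_le_sum_of_subset_of_nonneg (Finset.subset_univ _)
        fun z _ _ => Real.rpow_nonneg (hg0 z) _
    have h2 : ∑ z : ZMod Q, f z ^ (3 / 2 : ℝ) ≤ ∑ x ∈ S, th x ^ (3 / 2 : ℝ) := by
      have hinj : Set.InjOn (fun x : ℤ => (x : ZMod Q)) (S : Set ℤ) := by
        intro x hx y hy hxy
        have e1 := hval x (by have := hL x hx; omega)
        have e2 := hval y (by have := hL y hy; omega)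
        have hxy' : (x : ZMod Q) = (y : ZMod Q) := hxy
        rw [← e1, ← e2, hxy']
      have e3 : ∑ x ∈ S, th x ^ (3 / 2 : ℝ) = ∑ z ∈ S.image (fun x : ℤ => (x : ZMod Q)),
          f z ^ (3 / 2 : ℝ) := by
        rw [Finset.sum_image hinj]
        refine Finset.sum_congr rfl fun x hx => ?_
        rw [hf]
        simp only
        rw [hval x (by have := hL x hx; omega)]
      rw [e3]
      refine le_of_eq (Finset.sum_subset (Finset.subset_univ _) ?_).symm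
      intro z _ hz
      have : z.valMinAbs ∉ S := by
        intro hzS
        apply hz
        rw [Finset.mem_image]
        exact ⟨z.valMinAbs, hzS, by simp⟩
      rw [hf]
      simp only
      rw [hS _ this]
      exact Real.zero_rpow (by norm_num)
    exact h1.trans (hg2.trans (mul_le_mul_of_nonneg_left h2 hC))

/-! ### bad tiles -/

/-- sum of `g` at the third vertex over a cube `(m, c, a, b)` of the space `(w, z, z')` -/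
noncomputable def cubeS (g : ℤ → ℝ) (s0 : ℤ) (u : ℕ × ℤ × ℤ × ℤ) : ℝ :=
  ∑ w ∈ Ico (u.2.1 * 2 ^ u.1) ((u.2.1 + 1) * 2 ^ u.1),
    ∑ z ∈ Ico (u.2.2.1 * 2 ^ u.1) ((u.2.2.1 + 1) * 2 ^ u.1),
      ∑ z' ∈ Ico (u.2.2.2 * 2 ^ u.1) ((u.2.2.2 + 1) * 2 ^ u.1), g (s0 - w - z - z')

theorem cubeS_nonneg {g : ℤ → ℝ} (hg : ∀ x, 0 ≤ g x) (s0 : ℤ) (u : ℕ × ℤ × ℤ × ℤ) :
    0 ≤ cubeS g s0 u :=
  Finset.sum_nonneg fun _ _ => Finset.sum_nonneg fun _ _ => Finset.sum_nonneg fun _ _ => hg _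

lemma card_block (m : ℕ) (c : ℤ) : (Ico (c * 2 ^ m) ((c + 1) * 2 ^ m) : Finset ℤ).card = 2 ^ m := by
  rw [Int.card_Ico]
  have : (c + 1) * 2 ^ m - c * 2 ^ m = ((2 ^ m : ℕ) : ℤ) := by
    push_cast; ring
  rw [this, Int.toNat_natCast]

/-- weight average of a square at the third vertex -/
noncomputable def avT (th : ℤ → ℝ) (s0 : ℤ) (K : ℕ) (B : ℕ × ℤ × ℤ) (w : ℤ) : ℝ :=
  (1 / (2 : ℝ) ^ B.1) * ∑ d ∈ Icc (-((K * 2 ^ B.1 : ℕ) : ℤ)) ((K * 2 ^ B.1 : ℕ) : ℤ),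
    th (s0 - w - 2 ^ B.1 * B.2.1 - 2 ^ B.1 * B.2.2 + d)

theorem avT_nonneg {th : ℤ → ℝ} (hth : ∀ x, 0 ≤ th x) (s0 : ℤ) (K : ℕ) (B : ℕ × ℤ × ℤ) (w : ℤ) :
    0 ≤ avT th s0 K B w :=
  mul_nonneg (by positivity) (Finset.sum_nonneg fun _ _ => hth _)

/-- the average of a square is below the majorant at every near point -/
theorem avT_le {th g : ℤ → ℝ} (hth : ∀ x, 0 ≤ th x)
    (hg : ∀ (x : ℤ) (K : ℕ), ∑ d ∈ Icc (-(K : ℤ)) K, th (x + d) ≤ (2 * K + 1) * g x)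
    (s0 : ℤ) (K : ℕ) (B : ℕ × ℤ × ℤ) (w x : ℤ)
    (hx : |x - (s0 - w - 2 ^ B.1 * B.2.1 - 2 ^ B.1 * B.2.2)| ≤ 3 * 2 ^ B.1) :
    avT th s0 K B w ≤ (2 * K + 7) * g x := by
  set y := s0 - w - 2 ^ B.1 * B.2.1 - 2 ^ B.1 * B.2.2 with hy
  have hN : (0 : ℝ) < 2 ^ B.1 := by positivity
  have h1 : ∑ d ∈ Icc (-((K * 2 ^ B.1 : ℕ) : ℤ)) ((K * 2 ^ B.1 : ℕ) : ℤ), th (y + d) ≤
      ∑ d ∈ Icc (-(((K + 3) * 2 ^ B.1 : ℕ) : ℤ)) (((K + 3) * 2 ^ B.1 : ℕ) : ℤ), th (x + d) := by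
    have e : ∑ d ∈ Icc (-((K * 2 ^ B.1 : ℕ) : ℤ)) ((K * 2 ^ B.1 : ℕ) : ℤ), th (y + d) =
        ∑ d ∈ (Icc (-((K * 2 ^ B.1 : ℕ) : ℤ)) ((K * 2 ^ B.1 : ℕ) : ℤ)).image (fun d => d + (y - x)),
          th (x + d) := by
      rw [Finset.sum_image (fun a _ b _ h => by simpa using h)]
      refine Finset.sum_congr rfl fun d _ => ?_
      congr 1
      ring
    rw [e]
    refine Finset.sum_le_sum_of_subset_of_nonneg ?_ (fun _ _ _ => hth _)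
    intro d hd
    rw [Finset.mem_image] at hd
    obtain ⟨d', hd', rfl⟩ := hd
    rw [Finset.mem_Icc] at hd' ⊢
    have h2 := abs_le.1 hx
    push_cast at hd' ⊢
    constructor
    · nlinarith [hd'.1, h2.2]
    · nlinarith [hd'.2, h2.1]
  have h2 := hg x ((K + 3) * 2 ^ B.1)
  have hg0 : 0 ≤ g x := by
    have := hg x 0
    simp at this
    linarith [hth x]
  unfold avT
  rw [← hy, one_div, inv_mul_le_iff₀ hN]
  refine h1.trans (h2.trans ?_)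
  push_cast
  have h3 : (1 : ℝ) ≤ 2 ^ B.1 := one_le_pow₀ (by norm_num)
  nlinarith [mul_nonneg hg0 (sub_nonneg.2 h3)]

/-- **bad tiles.**  `U` = used cubes, `Ex m a b w` = the leaf tile `(m, a, b)` is exceptional at `w`
(density at most `ρ` in every block of `w`), `BT w` = bad squares at `w`, each containing exceptional
leaf tiles `LT w B` of total area at least `cc` times its area. -/
theorem bad_tiles {th g : ℤ → ℝ} (hth : ∀ x, 0 ≤ th x)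
    (hg : ∀ (x : ℤ) (K : ℕ), ∑ d ∈ Icc (-(K : ℤ)) K, th (x + d) ≤ (2 * K + 1) * g x)
    (U : Finset (ℕ × ℤ × ℤ × ℤ)) (Ex : ℕ → ℤ → ℤ → ℤ → Prop) [∀ m a b, DecidablePred (Ex m a b)]
    {ρ cc : ℝ} (hρ0 : 0 ≤ ρ) (hcc0 : 0 < cc)
    (hρ : ∀ u ∈ U, (((Ico (u.2.1 * 2 ^ u.1) ((u.2.1 + 1) * 2 ^ u.1)).filter
      (Ex u.1 u.2.2.1 u.2.2.2)).card : ℝ) ≤ ρ * 2 ^ u.1)
    (Wf : Finset ℤ) (BT : ℤ → Finset (ℕ × ℤ × ℤ)) (LT : ℤ → (ℕ × ℤ × ℤ) → Finset (ℕ × ℤ × ℤ))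
    (hsub : ∀ w ∈ Wf, ∀ B ∈ BT w, ∀ L ∈ LT w B, L.1 ≤ B.1 ∧ L.2.1 / 2 ^ (B.1 - L.1) = B.2.1 ∧
      L.2.2 / 2 ^ (B.1 - L.1) = B.2.2 ∧ (L.1, w / 2 ^ L.1, L.2.1, L.2.2) ∈ U ∧ Ex L.1 L.2.1 L.2.2 w)
    (hdis : ∀ w ∈ Wf, ∀ B ∈ BT w, ∀ B' ∈ BT w, B ≠ B' → Disjoint (LT w B) (LT w B'))
    (hcc : ∀ w ∈ Wf, ∀ B ∈ BT w, cc * 4 ^ B.1 ≤ ∑ L ∈ LT w B, (4 : ℝ) ^ L.1) (s0 : ℤ) (K : ℕ) :
    ∑ w ∈ Wf, ∑ B ∈ BT w, (4 : ℝ) ^ B.1 * avT th s0 K B w ≤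
      (2 * K + 7) * (ρ / cc) * ∑ u ∈ U, cubeS g s0 u := by
  classical
  have hg0 : ∀ x, 0 ≤ g x := by
    intro x
    have := hg x 0
    simp at this
    linarith [hth x]
  -- one tile
  have tile : ∀ w ∈ Wf, ∀ B ∈ BT w, ∀ L ∈ LT w B,
      (4 : ℝ) ^ L.1 * avT th s0 K B w ≤
        (2 * K + 7) * ((1 / (2 : ℝ) ^ L.1) * cubeS g s0 (L.1, w / 2 ^ L.1, L.2.1, L.2.2)) := by
    intro w hw B hB L hL
    obtain ⟨hm, ha, hb, -, -⟩ := hsub w hw B hB L hL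
    have hN : (0 : ℤ) < 2 ^ L.1 := by positivity
    have hNB : (2 : ℤ) ^ B.1 = 2 ^ (B.1 - L.1) * 2 ^ L.1 := by
      rw [← pow_add]; congr 1; omega
    have hD : (0 : ℤ) < 2 ^ (B.1 - L.1) := by positivity
    have key : ∀ w' ∈ Ico (w / 2 ^ L.1 * 2 ^ L.1) ((w / 2 ^ L.1 + 1) * 2 ^ L.1),
        ∀ z ∈ Ico (L.2.1 * 2 ^ L.1) ((L.2.1 + 1) * 2 ^ L.1),
        ∀ z' ∈ Ico (L.2.2 * 2 ^ L.1) ((L.2.2 + 1) * 2 ^ L.1),
        avT th s0 K B w ≤ (2 * K + 7) * g (s0 - w' - z - z') := by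
      intro w' hw' z hz z' hz'
      rw [Finset.mem_Ico] at hw' hz hz'
      refine avT_le hth hg s0 K B w _ ?_
      have hw1 : w / 2 ^ L.1 * 2 ^ L.1 ≤ w := Int.ediv_mul_le w hN.ne'
      have hw2 : w < (w / 2 ^ L.1 + 1) * 2 ^ L.1 := by
        have := Int.lt_ediv_add_one_mul_self w hN
        exact this
      have ha1 : B.2.1 * 2 ^ (B.1 - L.1) ≤ L.2.1 := by
        rw [← ha]; exact Int.ediv_mul_le _ hD.ne'
      have ha2 : L.2.1 + 1 ≤ (B.2.1 + 1) * 2 ^ (B.1 - L.1) := by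
        rw [← ha]; exact Int.lt_ediv_add_one_mul_self _ hD
      have hb1 : B.2.2 * 2 ^ (B.1 - L.1) ≤ L.2.2 := by
        rw [← hb]; exact Int.ediv_mul_le _ hD.ne'
      have hb2 : L.2.2 + 1 ≤ (B.2.2 + 1) * 2 ^ (B.1 - L.1) := by
        rw [← hb]; exact Int.lt_ediv_add_one_mul_self _ hD
      have ha1' : B.2.1 * 2 ^ B.1 ≤ L.2.1 * 2 ^ L.1 := by
        rw [hNB, ← mul_assoc]; exact mul_le_mul_of_nonneg_right ha1 hN.le
      have ha2' : (L.2.1 + 1) * 2 ^ L.1 ≤ (B.2.1 + 1) * 2 ^ B.1 := by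
        rw [hNB, ← mul_assoc]; exact mul_le_mul_of_nonneg_right ha2 hN.le
      have hb1' : B.2.2 * 2 ^ B.1 ≤ L.2.2 * 2 ^ L.1 := by
        rw [hNB, ← mul_assoc]; exact mul_le_mul_of_nonneg_right hb1 hN.le
      have hb2' : (L.2.2 + 1) * 2 ^ L.1 ≤ (B.2.2 + 1) * 2 ^ B.1 := by
        rw [hNB, ← mul_assoc]; exact mul_le_mul_of_nonneg_right hb2 hN.le
      have hLB : (2 : ℤ) ^ L.1 ≤ 2 ^ B.1 := pow_le_pow_right₀ (by norm_num) hm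
      rw [abs_le]
      constructor
      · nlinarith
      · nlinarith
    have hsum : (8 : ℝ) ^ L.1 * avT th s0 K B w ≤
        (2 * K + 7) * cubeS g s0 (L.1, w / 2 ^ L.1, L.2.1, L.2.2) := by
      have h1 : (8 : ℝ) ^ L.1 * avT th s0 K B w =
          ∑ w' ∈ Ico (w / 2 ^ L.1 * 2 ^ L.1) ((w / 2 ^ L.1 + 1) * 2 ^ L.1),
            ∑ z ∈ Ico (L.2.1 * 2 ^ L.1) ((L.2.1 + 1) * 2 ^ L.1),
              ∑ z' ∈ Ico (L.2.2 * 2 ^ L.1) ((L.2.2 + 1) * 2 ^ L.1), avT th s0 K B w := by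
        simp only [Finset.sum_const, card_block, nsmul_eq_mul]
        push_cast
        rw [show (8 : ℝ) = 2 * 2 * 2 by norm_num, mul_pow, mul_pow]
        ring
      rw [h1]
      unfold cubeS
      simp only [Finset.mul_sum]
      exact Finset.sum_le_sum fun w' hw' => Finset.sum_le_sum fun z hz =>
        Finset.sum_le_sum fun z' hz' => key w' hw' z hz z' hz'
    have e8 : (8 : ℝ) ^ L.1 = 2 ^ L.1 * 4 ^ L.1 := by rw [← mul_pow]; norm_num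
    have h2 : (0 : ℝ) < 2 ^ L.1 := by positivity
    have e9 : (4 : ℝ) ^ L.1 * avT th s0 K B w =
        (1 / (2 : ℝ) ^ L.1) * ((8 : ℝ) ^ L.1 * avT th s0 K B w) := by
      rw [e8]; field_simp
    rw [e9]
    calc (1 / (2 : ℝ) ^ L.1) * ((8 : ℝ) ^ L.1 * avT th s0 K B w)
        ≤ (1 / (2 : ℝ) ^ L.1) * ((2 * K + 7) * cubeS g s0 (L.1, w / 2 ^ L.1, L.2.1, L.2.2)) :=
          mul_le_mul_of_nonneg_left hsum (by positivity)
      _ = _ := by ring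
  -- squares by tiles
  have sq : ∀ w ∈ Wf, ∑ B ∈ BT w, (4 : ℝ) ^ B.1 * avT th s0 K B w ≤
      ((2 * K + 7) / cc) * ∑ L ∈ (BT w).biUnion (LT w),
        (1 / (2 : ℝ) ^ L.1) * cubeS g s0 (L.1, w / 2 ^ L.1, L.2.1, L.2.2) := by
    intro w hw
    rw [Finset.sum_biUnion (fun B hB B' hB' h => hdis w hw B hB B' hB' h), Finset.mul_sum]
    refine Finset.sum_le_sum fun B hB => ?_
    have hA := avT_nonneg hth s0 K B w
    have h1 : (4 : ℝ) ^ B.1 * avT th s0 K B w ≤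
        (1 / cc) * ∑ L ∈ LT w B, (4 : ℝ) ^ L.1 * avT th s0 K B w := by
      rw [← Finset.sum_mul, ← mul_assoc]
      refine mul_le_mul_of_nonneg_right ?_ hA
      rw [one_div, ← div_eq_inv_mul, le_div_iff₀ hcc0, mul_comm]
      exact hcc w hw B hB
    refine h1.trans ?_
    have h2 : ∑ L ∈ LT w B, (4 : ℝ) ^ L.1 * avT th s0 K B w ≤ (2 * K + 7) *
        ∑ L ∈ LT w B, (1 / (2 : ℝ) ^ L.1) * cubeS g s0 (L.1, w / 2 ^ L.1, L.2.1, L.2.2) := by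
      rw [Finset.mul_sum]
      exact Finset.sum_le_sum fun L hL => tile w hw B hB L hL
    calc (1 / cc) * ∑ L ∈ LT w B, (4 : ℝ) ^ L.1 * avT th s0 K B w
        ≤ (1 / cc) * ((2 * K + 7) *
          ∑ L ∈ LT w B, (1 / (2 : ℝ) ^ L.1) * cubeS g s0 (L.1, w / 2 ^ L.1, L.2.1, L.2.2)) :=
          mul_le_mul_of_nonneg_left h2 (by positivity)
      _ = _ := by ring
  -- exchange
  have ex : ∑ w ∈ Wf, ∑ L ∈ (BT w).biUnion (LT w),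
      (1 / (2 : ℝ) ^ L.1) * cubeS g s0 (L.1, w / 2 ^ L.1, L.2.1, L.2.2) ≤
      ∑ u ∈ U, ρ * cubeS g s0 u := by
    -- every pair (w, L) goes to the cube and the point w of its block
    have h1 : ∑ w ∈ Wf, ∑ L ∈ (BT w).biUnion (LT w),
        (1 / (2 : ℝ) ^ L.1) * cubeS g s0 (L.1, w / 2 ^ L.1, L.2.1, L.2.2) =
        ∑ x ∈ Wf.sigma (fun w => (BT w).biUnion (LT w)),
          (1 / (2 : ℝ) ^ x.2.1) * cubeS g s0 (x.2.1, x.1 / 2 ^ x.2.1, x.2.2.1, x.2.2.2) := by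
      rw [Finset.sum_sigma]
    have h2 : ∑ u ∈ U, ∑ w ∈ (Ico (u.2.1 * 2 ^ u.1) ((u.2.1 + 1) * 2 ^ u.1)).filter
        (Ex u.1 u.2.2.1 u.2.2.2), (1 / (2 : ℝ) ^ u.1) * cubeS g s0 u =
        ∑ x ∈ U.sigma (fun u => (Ico (u.2.1 * 2 ^ u.1) ((u.2.1 + 1) * 2 ^ u.1)).filter
        (Ex u.1 u.2.2.1 u.2.2.2)), (1 / (2 : ℝ) ^ x.1.1) * cubeS g s0 x.1 := by
      rw [Finset.sum_sigma]
    have h3 : ∑ x ∈ Wf.sigma (fun w => (BT w).biUnion (LT w)),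
          (1 / (2 : ℝ) ^ x.2.1) * cubeS g s0 (x.2.1, x.1 / 2 ^ x.2.1, x.2.2.1, x.2.2.2) ≤
        ∑ x ∈ U.sigma (fun u => (Ico (u.2.1 * 2 ^ u.1) ((u.2.1 + 1) * 2 ^ u.1)).filter
        (Ex u.1 u.2.2.1 u.2.2.2)), (1 / (2 : ℝ) ^ x.1.1) * cubeS g s0 x.1 := by
      set φ : (Σ _ : ℤ, ℕ × ℤ × ℤ) → (Σ _ : ℕ × ℤ × ℤ × ℤ, ℤ) :=
        fun x => ⟨(x.2.1, x.1 / 2 ^ x.2.1, x.2.2.1, x.2.2.2), x.1⟩ with hφ
      have hinj : Set.InjOn φ (Wf.sigma (fun w => (BT w).biUnion (LT w)) : Set _) := by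
        rintro ⟨w, m, a, b⟩ - ⟨w', m', a', b'⟩ - h
        simp only [hφ, Sigma.mk.injEq, Prod.mk.injEq, heq_eq_eq] at h
        obtain ⟨⟨h1, h2, h3, h4⟩, h5⟩ := h
        subst h1 h3 h4 h5
        rfl
      rw [show ∑ x ∈ Wf.sigma (fun w => (BT w).biUnion (LT w)),
          (1 / (2 : ℝ) ^ x.2.1) * cubeS g s0 (x.2.1, x.1 / 2 ^ x.2.1, x.2.2.1, x.2.2.2) =
          ∑ x ∈ Wf.sigma (fun w => (BT w).biUnion (LT w)),
            (fun y : (Σ _ : ℕ × ℤ × ℤ × ℤ, ℤ) => (1 / (2 : ℝ) ^ y.1.1) * cubeS g s0 y.1) (φ x) from rfl,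
        ← Finset.sum_image (f := fun y : (Σ _ : ℕ × ℤ × ℤ × ℤ, ℤ) =>
          (1 / (2 : ℝ) ^ y.1.1) * cubeS g s0 y.1) hinj]
      refine Finset.sum_le_sum_of_subset_of_nonneg ?_
        (fun y _ _ => mul_nonneg (by positivity) (cubeS_nonneg hg0 _ _))
      intro y hy
      rw [Finset.mem_image] at hy
      obtain ⟨⟨w, L⟩, hx, rfl⟩ := hy
      rw [Finset.mem_sigma, Finset.mem_biUnion] at hx
      obtain ⟨hw, B, hB, hL⟩ := hx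
      obtain ⟨-, -, -, hU, hE⟩ := hsub w hw B hB L hL
      rw [Finset.mem_sigma, Finset.mem_filter, Finset.mem_Ico]
      refine ⟨hU, ⟨?_, ?_⟩, hE⟩
      · exact Int.ediv_mul_le w (by positivity)
      · exact Int.lt_ediv_add_one_mul_self w (by positivity)
    rw [h1]
    refine h3.trans ?_
    rw [← h2]
    refine Finset.sum_le_sum fun u hu => ?_
    rw [Finset.sum_const, nsmul_eq_mul, ← mul_assoc]
    refine mul_le_mul_of_nonneg_right ?_ (cubeS_nonneg hg0 _ _)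
    have h4 := hρ u hu
    have h5 : (0 : ℝ) < 2 ^ u.1 := by positivity
    rw [mul_one_div, div_le_iff₀ h5]
    exact h4
  calc ∑ w ∈ Wf, ∑ B ∈ BT w, (4 : ℝ) ^ B.1 * avT th s0 K B w
      ≤ ∑ w ∈ Wf, ((2 * K + 7) / cc) * ∑ L ∈ (BT w).biUnion (LT w),
        (1 / (2 : ℝ) ^ L.1) * cubeS g s0 (L.1, w / 2 ^ L.1, L.2.1, L.2.2) :=
        Finset.sum_le_sum sq
    _ = ((2 * K + 7) / cc) * ∑ w ∈ Wf, ∑ L ∈ (BT w).biUnion (LT w),
        (1 / (2 : ℝ) ^ L.1) * cubeS g s0 (L.1, w / 2 ^ L.1, L.2.1, L.2.2) := by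
        rw [Finset.mul_sum]
    _ ≤ ((2 * K + 7) / cc) * ∑ u ∈ U, ρ * cubeS g s0 u :=
        mul_le_mul_of_nonneg_left ex (by positivity)
    _ = _ := by rw [← Finset.mul_sum]; ring

/-! ### operator norms of tiles -/

/-- the operator norm of the kernel `K` on `I × J` is at most `t` -/
def OpB (K : ℤ → ℤ → ℂ) (I J : Finset ℤ) (t : ℝ) : Prop :=
  ∀ u v : ℤ → ℂ, ‖∑ x ∈ I, ∑ y ∈ J, u x * K x y * v y‖ ^ 2 ≤
    t ^ 2 * ((∑ x ∈ I, ‖u x‖ ^ 2) * ∑ y ∈ J, ‖v y‖ ^ 2)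



end Crest.Agent.R079.BadTx138
end

-- ▼ part R079/KLdef_446

/-! R079, KILL LEMMA in the line model (882 (4) / 846 (1)(c)), definitions and literals (helper446).

`CornerZ` = the ragged corner on `ℤ` (integer positions).  Everything else: one frozen value `w`.
Killer face: coordinates `x = z2`, `y = z0`; third vertex `z1 = - w - x - y` up to a bounded multiple of
the side.  Shadow of the killer letter: `η = α w + β x + γ y`. -/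

set_option autoImplicit false

namespace Crest.Agent.R079.KLx446

open Finset Crest.Agent.R079.Grid Crest.Agent.R079.Glue Crest.Agent.R079.Growth
  Crest.Agent.R079.QRed Crest.Agent.R079.BadTx138

/-! ### the corner on `ℤ` -/

/-- the bilinear form of `C` on the box `[q, q+N) × [p, p+N)` is bounded by `c` -/
def OpZ (C : ℤ → ℤ → ℝ) (N : ℕ) (q p : ℤ) (c : ℝ) : Prop :=
  ∀ f g : ℤ → ℝ, (∑ x ∈ Ico q (q + N), ∑ y ∈ Ico p (p + N), f x * C x y * g y) ^ 2 ≤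
    c ^ 2 * ((∑ x ∈ Ico q (q + N), f x ^ 2) * ∑ y ∈ Ico p (p + N), g y ^ 2)

/-- exit: the box of scale `m + k'` is alive, one of its `4^k'` sub boxes of scale `m` is dead -/
def ExitZ (al : ℕ → ℤ → ℤ → Prop) (k' m : ℕ) (q p : ℤ) : Prop :=
  al (m + k') q p ∧ ∃ a b : ℕ, a < 2 ^ k' ∧ b < 2 ^ k' ∧ ¬ al m (q + a * 2 ^ m) (p + b * 2 ^ m)

/-- the four half boxes of the box of side `2^(m+1)` are alive -/
def Al4Z (al : ℕ → ℤ → ℤ → Prop) (m : ℕ) (q p : ℤ) : Prop :=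
  ∀ a b : ℕ, a < 2 → b < 2 → al m (q + a * 2 ^ m) (p + b * 2 ^ m)

open Classical in
/-- region of alive boxes on `ℤ` -/
structure RegZ (C : ℤ → ℤ → ℝ) (al : ℕ → ℤ → ℤ → Prop) (M' k D S0 : ℕ) (τ C1 : ℝ) : Prop where
  dom : ∀ m q p, al m q p → m < M' ∧ |q| ≤ S0 ∧ |p| ≤ S0
  op : ∀ m q p, al m q p → OpZ C (2 ^ m) q p (2 ^ m * τ)
  ex : ∀ k' ≤ k, ∀ (L : ℕ) (c d : ℤ), ∑ m ∈ range (L + 1), ∑ q ∈ Icc (c - D * 2 ^ L) (c + D * 2 ^ L),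
    ∑ p ∈ Icc (d - D * 2 ^ L) (d + D * 2 ^ L), (if ExitZ al k' m q p then (1 : ℝ) else 0) ≤ C1 * 4 ^ L

open Classical in
/-- what the last word needs -/
structure LastZ (C : ℤ → ℤ → ℝ) (al : ℕ → ℤ → ℤ → Prop) (M' k S0 : ℕ) (E0 Ar : ℝ) : Prop where
  hs : ∀ m q p, al m q p →
    ∑ x ∈ Ico q (q + (2 : ℤ) ^ m), ∑ y ∈ Ico p (p + (2 : ℤ) ^ m), C x y ^ 2 ≤ 4 ^ m * E0
  ar : ∀ m, ∑ q ∈ Icc (-(S0 : ℤ)) S0, ∑ p ∈ Icc (-(S0 : ℤ)) S0, (if al m q p then (1 : ℝ) else 0) ≤ Ar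
  ex : ∀ k' ≤ k, ∑ m ∈ range M', ∑ q ∈ Icc (-(S0 : ℤ)) S0, ∑ p ∈ Icc (-(S0 : ℤ)) S0,
    (if ExitZ al k' m q p then (1 : ℝ) else 0) ≤ Ar

open Classical in
/-- **the ragged corner on `ℤ`**, one frozen value `w`, one block `l` of offsets -/
def CornerZ : Prop := ∀ (l : ℤ), |l| ≤ 7 → ∀ C1 : ℝ, ∃ K : ℝ, 0 ≤ K ∧
  ∀ (M' J S0 : ℕ) (A B C : ℤ → ℤ → ℝ) (al : ℕ → ℤ → ℤ → Prop) (w : ℤ) (a2 b2 r τ E0 Ar : ℝ),
    0 < a2 → 0 < b2 → 0 < r → 0 < τ →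
    (∀ x y, A x y ≠ 0 → |x| ≤ S0 ∧ |y| ≤ S0) → (∀ x y, B x y ≠ 0 → |x| ≤ S0 ∧ |y| ≤ S0) →
    (∀ x y, C x y ≠ 0 → |x| ≤ S0 ∧ |y| ≤ S0) →
    ∑ x ∈ Icc (-(S0 : ℤ)) S0, ∑ y ∈ Icc (-(S0 : ℤ)) S0, A x y ^ 2 ≤ a2 →
    ∑ x ∈ Icc (-(S0 : ℤ)) S0, ∑ y ∈ Icc (-(S0 : ℤ)) S0, B x y ^ 2 ≤ b2 →
    (∀ x y, A x y ^ 2 ≤ a2 / r) → (∀ x y, B x y ^ 2 ≤ b2 / r) →
    RegZ C al M' 6 31 S0 τ C1 → LastZ C al M' 6 S0 E0 Ar → E0 * Ar ≤ τ ^ 2 * (r * 2 ^ J) →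
    ∀ L1 : ℕ, ∑ m ∈ range M', (1 / (2 : ℝ) ^ m) * ∑ i ∈ range (2 ^ m),
      ∑ p0 ∈ Icc (-(L1 : ℤ)) L1, ∑ p1 ∈ Icc (-(L1 : ℤ)) L1,
        (if Al4Z al m (l * 2 ^ m + (i : ℤ) - w - p0 - p1) p0 then
          |Lb3r A B C (2 ^ m) p0 p1 (l * 2 ^ m + (i : ℤ) - w - p0 - p1)| else 0) ≤
      K * (2 * J + 1) * (τ * √a2 * √b2)

/-! ### leaves of a full region -/

/-- level of the leaf containing `y` -/
noncomputable def lv (R : Finset Nd) (y : ℤ) : ℕ := sInf {m | (m, y / 2 ^ (m + 7)) ∈ R}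

/-- the leaf containing `y` -/
noncomputable def lfp (R : Finset Nd) (y : ℤ) : Nd := (lv R y, y / 2 ^ (lv R y + 7))

/-! ### the killer at one frozen value -/

/-- coefficients of the killer shadow -/
structure Cof (α β γ : ℤ) : Prop where
  α0 : α ≠ 0
  β0 : β ≠ 0
  γ0 : γ ≠ 0
  αγ : α ≠ γ
  αβ : α ≠ β
  βγ : β ≠ γ
  α3 : |α| ≤ 3
  β3 : |β| ≤ 3
  γ3 : |γ| ≤ 3

/-- frozen kernel of the killer, masked to the node `p` -/
noncomputable def kp (c : ℤ → ℤ → ℂ) (K : Fn) (α β γ : ℤ) (p : Nd) (w x y : ℤ) : ℂ :=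
  c x y * (if α * w + β * x + γ * y ∈ iv p then K (α * w + β * x + γ * y) else 0)

/-- operator norm at most `s · side` on the aligned square `(a, b)` of the scale of the node `p` -/
def OpP (c : ℤ → ℤ → ℂ) (K : Fn) (α β γ : ℤ) (s : ℝ) (p : Nd) (w a b : ℤ) : Prop :=
  OpB (kp c K α β γ p w) (Ico (a * 2 ^ p.1) ((a + 1) * 2 ^ p.1))
    (Ico (b * 2 ^ p.1) ((b + 1) * 2 ^ p.1)) (s * 2 ^ p.1)

open Classical in
/-- exceptional density at most `D` -/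
def ExD (R : Finset Nd) (c : ℤ → ℤ → ℂ) (K : Fn) (α β γ : ℤ) (s D : ℝ) : Prop :=
  ∀ p ∈ R, ∀ w a b : ℤ,
    (((Ico w (w + 2 ^ p.1)).filter fun w' => ¬ OpP c K α β γ s p w' a b).card : ℝ) ≤ D * 2 ^ p.1

/-- bad point `(x, y)` of the killer face: some aligned square of the scale of its leaf, at most `4`
steps away, is exceptional for its leaf -/
def Bp (R : Finset Nd) (J : Nd) (c : ℤ → ℤ → ℂ) (K : Fn) (α β γ : ℤ) (s : ℝ) (w x y : ℤ) : Prop :=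
  α * w + β * x + γ * y ∈ iv J ∧ ∃ a b : ℤ,
    |a - x / 2 ^ lv R (α * w + β * x + γ * y)| ≤ 4 ∧
    |b - y / 2 ^ lv R (α * w + β * x + γ * y)| ≤ 4 ∧
    ¬ OpP c K α β γ s (lfp R (α * w + β * x + γ * y)) w a b

open Classical in
/-- number of bad points of leaf scale `≤ m` in the aligned square `(m; a, b)` -/
noncomputable def nb (R : Finset Nd) (J : Nd) (c : ℤ → ℤ → ℂ) (K : Fn) (α β γ : ℤ) (s : ℝ) (w : ℤ)
    (m : ℕ) (a b : ℤ) : ℕ :=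
  (((Ico (a * 2 ^ m) ((a + 1) * 2 ^ m)) ×ˢ (Ico (b * 2 ^ m) ((b + 1) * 2 ^ m))).filter fun z =>
    Bp R J c K α β γ s w z.1 z.2 ∧ lv R (α * w + β * z.1 + γ * z.2) ≤ m).card

/-- bad square: bad points have density `> ε` -/
def Bc (R : Finset Nd) (J : Nd) (c : ℤ → ℤ → ℂ) (K : Fn) (α β γ : ℤ) (s ε : ℝ) (w : ℤ)
    (m : ℕ) (a b : ℤ) : Prop :=
  m ≤ J.1 ∧ ε * 4 ^ m < nb R J c K α β γ s w m a b

/-- `ρ(x, y) ≥ r`, where `ρ` = largest `256 · side - distance` to a bad square (a `1`-Lipschitz function) -/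
def Pw (R : Finset Nd) (J : Nd) (c : ℤ → ℤ → ℂ) (K : Fn) (α β γ : ℤ) (s ε : ℝ) (w : ℤ)
    (x y r : ℤ) : Prop :=
  ∃ (m : ℕ) (a b : ℤ), Bc R J c K α β γ s ε w m a b ∧
    |x - a * 2 ^ m| + r ≤ 256 * 2 ^ m ∧ |y - b * 2 ^ m| + r ≤ 256 * 2 ^ m

/-- all shadows of the box `(q, u)` of scale `m` are in nodes of level `m` of the region -/
def Om (R : Finset Nd) (α β γ : ℤ) (w : ℤ) (m : ℕ) (q u : ℤ) : Prop :=
  ∀ x ∈ Ico q (q + 2 ^ m), ∀ y ∈ Ico u (u + 2 ^ m), α * w + β * x + γ * y ∈ Rm R m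

/-- the box `(q, u)` of scale `m` lies in `[x0, x1) × [y0, y1)` -/
def Dm2 (x0 x1 y0 y1 : ℤ) (m : ℕ) (q u : ℤ) : Prop :=
  x0 ≤ q ∧ q + 2 ^ m ≤ x1 ∧ y0 ≤ u ∧ u + 2 ^ m ≤ y1

end Crest.Agent.R079.KLx446
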