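import Crest.Agent.R079.NC2_37

/-! R079, T2/T4 (helper37): `NCol W R g dl` (literal of helper255): non-collision of `R` between all
pairs of nodes of `W` of the same level. `ncol_of_lv`, `ncol_of_nc2`. -/

set_option autoImplicit false

namespace Crest.Agent.R079.NC237

open Finset Crest.Agent.R079.Grid Crest.Agent.R079.Glue Crest.Agent.R079.Growth
  Crest.Agent.R079.QRed Crest.Agent.R079.Cell37 Crest.Agent.R079.CellH237 Crest.Agent.R079.Hank37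

/-- **the literal** (helper255) -/
def NCol (W : Finset Nd) (R : ℤ → ℂ) (g dl : ℝ) : Prop :=
  ∀ p ∈ W, ∀ p' ∈ W, p'.1 = p.1 → ∃ Bd : Finset ℤ, (Bd.card : ℝ) ≤ dl * len p ∧
    ∀ h, h ∉ Bd → ∀ ξ : ℝ,
      ‖∑ y ∈ (iv p).filter (fun y => y + h ∈ iv p'),
        R y * (starRingEnd ℂ) (R (y + h)) * ee (ξ * (y : ℝ))‖ ≤ g * len p

theorem ncol_of_nc2 {W : Finset Nd} {R : ℤ → ℂ} {g dl : ℝ}
    (h : ∀ p ∈ W, ∀ p' ∈ W, p'.1 = p.1 → NC2 p p' g dl R) : NCol W R g dl := by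
  intro p hp p' hp' hl
  obtain ⟨Z, h1, h2⟩ := h p hp p' hp' hl
  refine ⟨Z, h1, fun h hh ξ => ?_⟩
  rw [Finset.sum_filter]
  exact h2 h hh ξ

theorem nc2_of_ncol {W : Finset Nd} {R : ℤ → ℂ} {g dl : ℝ} (h : NCol W R g dl) {p p' : Nd}
    (hp : p ∈ W) (hp' : p' ∈ W) (hl : p'.1 = p.1) : NC2 p p' g dl R := by
  obtain ⟨Z, h1, h2⟩ := h p hp p' hp' hl
  refine ⟨Z, h1, fun h hh ξ => ?_⟩
  rw [← Finset.sum_filter]
  exact h2 h hh ξ

/-- **`NCol` from the cell level at all nodes** (`R` of any height) -/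
theorem ncol_of_lv {γ δ C t s A ε : ℝ} (ht : 0 < t) (hs : 0 ≤ s) {W : Finset Nd} {R : Fn}
    (hlv : ∀ p ∈ W, LvC γ δ C t s p R) (hA : ∀ p ∈ W, av p R ≤ A) (hε : 2 * t ^ C ≤ ε) :
    NCol W R (s * (t ^ γ * (t ^ δ + A)) + A ^ 3 * t ^ C / ε) ε :=
  ncol_of_nc2 fun p hp p' hp' hl => nc2_of_lv ht hs hl (hlv p hp) (hA p hp) (hA p' hp') hε


end Crest.Agent.R079.NC237
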