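import Crest.Agent.R079.SWd_360

/-! R079, item (c) of 973 / note 1201 (helper261): `labelled24` for a general label vertex `e : Fin 3`
(frozen slot `j.succAbove e`), and the `S₂` bound of the static edge. -/

set_option autoImplicit false
set_option linter.unusedSectionVars false

namespace Crest.Agent.R079.SKx261

open Finset Crest.Agent.R079.Grid Crest.Agent.R079.Pot Crest.Agent.R079.Glue Crest.Agent.R079.R244
  Crest.Agent.R079.F24 Crest.Agent.R079.GlueK Crest.Agent.R079.Sgn Crest.Agent.R079.SWc360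
  Crest.Agent.R079.Growth

/-- line form of the slot `j`, label vertex `e` first -/
def Yl (j : Fin 4) (e : Fin 3) (z u v : ℤ) : ℤ := cf j e * z + cf j (e + 1) * u + cf j (e + 2) * v

/-- `kerF` with the label vertex `e` first -/
noncomputable def kerG (j : Fin 4) (e : Fin 3) (T : Fin 3 → Finset ℤ) (Φ : ℤ → ℤ → ℤ → ℂ) (y : ℤ) :
    ℂ :=
  ∑ z ∈ T e, ∑ u ∈ T (e + 1), ∑ v ∈ T (e + 2), if Yl j e z u v = y then Φ z u v else 0

lemma kerG_0 (j : Fin 4) (T : Fin 3 → Finset ℤ) (Φ : ℤ → ℤ → ℤ → ℂ) (y : ℤ) :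
    kerG j 0 T Φ y = kerF j 1 T Φ y := by
  unfold kerG kerF Yl
  push_cast
  rw [one_mul]

lemma kerG_1 (j : Fin 4) (T : Fin 3 → Finset ℤ) (Φ : ℤ → ℤ → ℤ → ℂ) (y : ℤ) :
    kerG j 1 T Φ y = kerF j 1 T (fun z0 z1 z2 => Φ z1 z2 z0) y := by
  unfold kerG kerF Yl
  push_cast
  rw [one_mul]
  show ∑ z ∈ T 1, ∑ u ∈ T 2, ∑ v ∈ T 0, (if cf j 1 * z + cf j 2 * u + cf j 0 * v = y then
    Φ z u v else 0) = _
  have h1 : ∀ z ∈ T 1, ∑ u ∈ T 2, ∑ v ∈ T 0, (if cf j 1 * z + cf j 2 * u + cf j 0 * v = y then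
    Φ z u v else 0) = ∑ v ∈ T 0, ∑ u ∈ T 2, (if cf j 0 * v + cf j 1 * z + cf j 2 * u = y then
    Φ z u v else 0) := by
    intro z _
    rw [Finset.sum_comm]
    refine Finset.sum_congr rfl fun v _ => Finset.sum_congr rfl fun u _ => ?_
    rw [show cf j 1 * z + cf j 2 * u + cf j 0 * v = cf j 0 * v + cf j 1 * z + cf j 2 * u by ring]
  rw [Finset.sum_congr rfl h1, Finset.sum_comm]

lemma kerG_2 (j : Fin 4) (T : Fin 3 → Finset ℤ) (Φ : ℤ → ℤ → ℤ → ℂ) (y : ℤ) :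
    kerG j 2 T Φ y = kerF j 1 T (fun z0 z1 z2 => Φ z2 z0 z1) y := by
  unfold kerG kerF Yl
  push_cast
  rw [one_mul]
  show ∑ z ∈ T 2, ∑ u ∈ T 0, ∑ v ∈ T 1, (if cf j 2 * z + cf j 0 * u + cf j 1 * v = y then
    Φ z u v else 0) = _
  rw [Finset.sum_comm]
  refine Finset.sum_congr rfl fun u _ => ?_
  rw [Finset.sum_comm]
  refine Finset.sum_congr rfl fun v _ => Finset.sum_congr rfl fun z _ => ?_
  rw [show cf j 2 * z + cf j 0 * u + cf j 1 * v = cf j 0 * u + cf j 1 * v + cf j 2 * z by ring]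



end Crest.Agent.R079.SKx261
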