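import Crest.Agent.R079.Max_292
import Crest.Agent.R079.GrowthDefs_248

/-! R079 (helper69): **Whitney splitting of a region** for (S).

`Adj C0 J p` = the node `p` below `J` is at distance `< C0` own lengths from an end of `J`.
`WTop C0 J P` = `P` is not `Adj`, its parent is `Adj` (Whitney interval of `iv J`).
`split_region`: if a nonnegative node function `f` is `≤ g0 * len p` at the adjacent nodes and at the
nodes of level `< n0`, and `∑_{p ∈ R, p ⊂ P, n0 ≤ p.1} f p ≤ g1 * len P` for all Whitney tops `P ∈ R`, then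
`∑_{p ∈ R} f p ≤ ((4 C0 + n0) g0 + 8 C0 g1) * len J`.
`sub_region`: `{p ∈ R, p ⊂ P, n0 ≤ p.1}` is a region with top `P`.
`dist_of_not_adj`, `near_of_wtop`: distances to the ends of `iv J`. -/

set_option autoImplicit false

namespace Crest.Agent.R079.SplSx69

open Finset Crest.Agent.R079 Crest.Agent.R079.Grid Crest.Agent.R079.L0e

/-- adjacent nodes -/
def Adj (C0 : ℕ) (J p : ℕ × ℤ) : Prop :=
  p.2 < J.2 * 2 ^ (J.1 - p.1) + C0 ∨ (J.2 + 1) * 2 ^ (J.1 - p.1) ≤ p.2 + C0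

/-- parent -/
def pa (p : ℕ × ℤ) : ℕ × ℤ := (p.1 + 1, p.2 / 2)

/-- Whitney tops -/
def WTop (C0 : ℕ) (J p : ℕ × ℤ) : Prop := ¬ Adj C0 J p ∧ Adj C0 J (pa p)

/-- `p` below `q` -/
def Le (p q : ℕ × ℤ) : Prop := dI (p.1 + 7) p.2 ⊆ dI (q.1 + 7) q.2

lemma le_iff {p q : ℕ × ℤ} : Le p q ↔ p.1 ≤ q.1 ∧ p.2 / 2 ^ (q.1 - p.1) = q.2 := by
  constructor
  · intro h
    obtain ⟨j, h1, h2⟩ := dI_sub_imp h
    have e : q.1 = p.1 + j := by omega
    refine ⟨by omega, ?_⟩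
    rw [e, Nat.add_sub_cancel_left, h2]
  · rintro ⟨h1, h2⟩
    obtain ⟨j, hj⟩ := Nat.exists_eq_add_of_le h1
    rw [hj, Nat.add_sub_cancel_left] at h2
    have := dI_sub (p.1 + 7) j p.2
    unfold Le
    rw [hj, ← h2, show p.1 + j + 7 = p.1 + 7 + j by ring]
    exact this

lemma Le.refl (p : ℕ × ℤ) : Le p p := Finset.Subset.refl _

lemma Le.trans {p q r : ℕ × ℤ} (h1 : Le p q) (h2 : Le q r) : Le p r := Finset.Subset.trans h1 h2


lemma pa_le {p J : ℕ × ℤ} (h : Le p J) (hl : p.1 < J.1) : Le (pa p) J := by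
  rw [le_iff] at h ⊢
  obtain ⟨h1, h2⟩ := h
  refine ⟨hl, ?_⟩
  obtain ⟨j, hj⟩ := Nat.exists_eq_add_of_lt hl
  have e : J.1 - p.1 = 1 + j := by omega
  have e' : J.1 - (pa p).1 = j := by unfold pa; simp only; omega
  rw [e, ← ediv_pow_pow] at h2
  rw [e']
  unfold pa
  simpa using h2

lemma bounds {p J : ℕ × ℤ} (h : Le p J) :
    J.2 * 2 ^ (J.1 - p.1) ≤ p.2 ∧ p.2 < (J.2 + 1) * 2 ^ (J.1 - p.1) := by
  rw [le_iff] at h
  obtain ⟨_, h2⟩ := h
  have h0 : (0 : ℤ) < 2 ^ (J.1 - p.1) := by positivity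
  rw [← Int.le_ediv_iff_mul_le h0, ← Int.ediv_lt_iff_lt_mul h0]
  omega

lemma adj_pa {C0 : ℕ} {J p : ℕ × ℤ} (hl : p.1 < J.1) (h : Adj C0 J p) : Adj C0 J (pa p) := by
  unfold Adj at h ⊢
  obtain ⟨j, hj⟩ := Nat.exists_eq_add_of_lt hl
  have e : J.1 - p.1 = j + 1 := by omega
  have e' : J.1 - (pa p).1 = j := by unfold pa; simp only; omega
  rw [e, pow_succ] at h
  rw [e']
  unfold pa
  simp only
  have hC : (0 : ℤ) ≤ C0 := Int.natCast_nonneg _
  rcases h with h | h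
  · left
    have h' : p.2 < 2 * (J.2 * 2 ^ j) + C0 := by linarith [mul_comm (J.2 * 2 ^ j) (2 : ℤ), mul_assoc J.2 ((2 : ℤ) ^ j) 2]
    omega
  · right
    have h' : 2 * ((J.2 + 1) * 2 ^ j) ≤ p.2 + C0 := by
      linarith [mul_comm ((J.2 + 1) * 2 ^ j) (2 : ℤ), mul_assoc (J.2 + 1) ((2 : ℤ) ^ j) 2]
    omega



/-- points of a non-adjacent node are far from the ends -/
theorem dist_of_not_adj {C0 : ℕ} {J p : ℕ × ℤ} (hp : Le p J) (h : ¬ Adj C0 J p) {y : ℤ}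
    (hy : y ∈ dI (p.1 + 7) p.2) :
    J.2 * 2 ^ (J.1 + 7) + C0 * 2 ^ (p.1 + 7) ≤ y ∧
      y + C0 * 2 ^ (p.1 + 7) < (J.2 + 1) * 2 ^ (J.1 + 7) := by
  unfold Adj at h
  push Not at h
  obtain ⟨h1, h2⟩ := h
  unfold dI at hy
  rw [Finset.mem_Ico] at hy
  obtain ⟨hle, _⟩ := le_iff.1 hp
  have e : J.1 + 7 = (J.1 - p.1) + (p.1 + 7) := by omega
  have h0 : (0 : ℤ) < 2 ^ (p.1 + 7) := by positivity
  rw [e, pow_add, ← mul_assoc, ← mul_assoc]
  set D : ℤ := 2 ^ (J.1 - p.1)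
  set L : ℤ := 2 ^ (p.1 + 7)
  constructor
  · calc J.2 * D * L + C0 * L = (J.2 * D + C0) * L := by ring
      _ ≤ p.2 * L := mul_le_mul_of_nonneg_right h1 h0.le
      _ ≤ y := hy.1
  · have h3 : p.2 + 1 + C0 ≤ (J.2 + 1) * D := by omega
    calc y + C0 * L < (p.2 + 1) * L + C0 * L := by linarith [hy.2]
      _ = (p.2 + 1 + C0) * L := by ring
      _ ≤ (J.2 + 1) * D * L := mul_le_mul_of_nonneg_right h3 h0.le







/-- number of all nodes of one level below `J` -/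
lemma all_len (J : ℕ × ℤ) (S : Finset (ℕ × ℤ)) (hS : ∀ p ∈ S, Le p J) (m : ℕ) :
    ∑ p ∈ S.filter (fun p => p.1 = m), (2 : ℝ) ^ (p.1 + 7) ≤ 2 ^ (J.1 + 7) := by
  classical
  by_cases hm : m ≤ J.1
  · set a : ℤ := J.2 * 2 ^ (J.1 - m)
    set b : ℤ := (J.2 + 1) * 2 ^ (J.1 - m)
    have hsub : (S.filter fun p => p.1 = m) ⊆ (Finset.Ico a b).image fun l => (m, l) := by
      intro p hp
      obtain ⟨hp1, hp2⟩ := Finset.mem_filter.1 hp
      have h1 := bounds (hS p hp1)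
      rw [hp2] at h1
      rw [Finset.mem_image]
      exact ⟨p.2, Finset.mem_Ico.2 h1, Prod.ext hp2.symm rfl⟩
    have hcard : (S.filter fun p => p.1 = m).card ≤ 2 ^ (J.1 - m) := by
      calc (S.filter fun p => p.1 = m).card ≤ _ := Finset.card_le_card hsub
        _ ≤ (Finset.Ico a b).card := Finset.card_image_le
        _ = 2 ^ (J.1 - m) := by
            rw [Int.card_Ico]
            have : b - a = ((2 ^ (J.1 - m) : ℕ) : ℤ) := by simp only [a, b]; push_cast; ring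
            rw [this, Int.toNat_natCast]
    rw [Finset.sum_congr rfl (fun p hp => by rw [(Finset.mem_filter.1 hp).2] :
      ∀ p ∈ S.filter (fun p => p.1 = m), (2 : ℝ) ^ (p.1 + 7) = 2 ^ (m + 7)),
      Finset.sum_const, nsmul_eq_mul]
    calc ((S.filter fun p => p.1 = m).card : ℝ) * 2 ^ (m + 7) ≤ 2 ^ (J.1 - m) * 2 ^ (m + 7) :=
          mul_le_mul_of_nonneg_right (by exact_mod_cast hcard) (by positivity)
      _ = 2 ^ (J.1 + 7) := by
          rw [← pow_add]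
          congr 1
          omega
  · have : (S.filter fun p => p.1 = m) = ∅ := by
      rw [Finset.filter_eq_empty_iff]
      intro p hp hpm
      have h1 := (le_iff.1 (hS p hp)).1
      omega
    rw [this]
    simp


end Crest.Agent.R079.SplSx69
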