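import Crest.Agent.R079.SWd_360
import Crest.Agent.R079.ClX_59
import Crest.Agent.R079.SKb_261
import Crest.Agent.R079.SplS_69
import Crest.Agent.R079.CelD_159
import Crest.Agent.R079.PjE_881
import Crest.Agent.R079.GlueDefs_569

-- ▼ part R079/SKc_261
section

/-! R079, item (c) of 973 / note 1201 (helper261): frames made of several cells per row.

`γ` = cells (without the fibre), `τ` = columns (labels inside a cell).  For every fibre `z` and cell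
`c` the labelled kernel is dominated by `(c0 / 2^m) B B*`, `B` a kernel supported on the columns
`[a c, a c + 2^m)`, with normalised operator bound `ρ` on all aligned boxes of the scales of the
nodes; every row meets at most `M` cells.  Then `HSk`, trace and diagonal bounds. -/

set_option autoImplicit false
set_option linter.unusedSectionVars false

namespace Crest.Agent.R079.SKx261

open Finset Crest.Agent.R079.Grid Crest.Agent.R079.Glue Crest.Agent.R079.R244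
  Crest.Agent.R079.Growth Crest.Agent.R079.Sgn Crest.Agent.R079.SWc360 Crest.Agent.R079.ExA999
  Crest.Agent.R079.ClW59

open scoped ComplexConjugate

/-- few nonzero terms -/
theorem norm_sum_sq_le_card {γ : Type} [Fintype γ] (a : γ → ℂ) (A : Finset γ) {M : ℝ}
    (hA : (A.card : ℝ) ≤ M) (h0 : ∀ c ∉ A, a c = 0) : ‖∑ c, a c‖ ^ 2 ≤ M * ∑ c, ‖a c‖ ^ 2 := by
  classical
  have h1 : ∑ c, a c = ∑ c ∈ A, a c := by
    symm
    exact Finset.sum_subset (Finset.subset_univ A) fun c _ hc => h0 c hc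
  rw [h1]
  have h2 : ‖∑ c ∈ A, a c‖ ^ 2 ≤ (∑ c ∈ A, ‖a c‖) ^ 2 :=
    pow_le_pow_left₀ (norm_nonneg _) (norm_sum_le _ _) 2
  have h3 : (∑ c ∈ A, ‖a c‖) ^ 2 ≤ A.card * ∑ c ∈ A, ‖a c‖ ^ 2 := sq_sum_le_card_mul_sum_sq
  have h4 : ∑ c ∈ A, ‖a c‖ ^ 2 ≤ ∑ c, ‖a c‖ ^ 2 :=
    Finset.sum_le_sum_of_subset_of_nonneg (Finset.subset_univ A) fun _ _ _ => sq_nonneg _
  have h5 : 0 ≤ ∑ c ∈ A, ‖a c‖ ^ 2 := Finset.sum_nonneg fun _ _ => sq_nonneg _
  have hM : 0 ≤ M := (Nat.cast_nonneg _).trans hA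
  calc ‖∑ c ∈ A, a c‖ ^ 2 ≤ A.card * ∑ c ∈ A, ‖a c‖ ^ 2 := h2.trans h3
    _ ≤ M * ∑ c ∈ A, ‖a c‖ ^ 2 := mul_le_mul_of_nonneg_right hA h5
    _ ≤ _ := mul_le_mul_of_nonneg_left h4 hM

section

variable {γ τ : Type} [Fintype γ] [DecidableEq γ] [Fintype τ] [DecidableEq τ] {ι : Type}

/-- data of a family of frames made of cells -/
structure CellFr (S : Finset ι) (T T' : Finset ℤ) (m : γ → ℕ) (a : γ → ℤ)
    (B : ι → ℤ → γ → ℤ → ℤ → ℂ) (U : ι → ℤ → ℤ → γ × τ → ℂ) (c0 M : ℝ) : Prop where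
  hc : 0 ≤ c0
  hM : 0 ≤ M
  maj : ∀ n ∈ S, ∀ z ∈ T, ∀ c, ∀ (q : ℤ) (N : ℕ) (f : ℕ → ℂ),
    ∑ k, ‖∑ j ∈ range N, f j * mU T T' (U n) z (q + (j : ℤ)) (c, k)‖ ^ 2 ≤
      (c0 / 2 ^ m c) * ∑ y ∈ Ico (a c) (a c + 2 ^ m c),
        ‖∑ j ∈ range N, f j * B n z c (q + (j : ℤ)) y‖ ^ 2
  supp : ∀ n ∈ S, ∀ z ∈ T, ∀ c y, ¬ (a c ≤ y ∧ y < a c + 2 ^ m c) → ∀ x, B n z c x y = 0
  row : ∀ n ∈ S, ∀ z ∈ T, ∀ c, ∀ x ∉ T', ∀ y, B n z c x y = 0
  mult : ∀ n ∈ S, ∀ z ∈ T, ∀ x, ∃ A : Finset γ, (A.card : ℝ) ≤ M ∧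
    ∀ c ∉ A, ∀ k, mU T T' (U n) z x (c, k) = 0

/-- the weighted energy -/
noncomputable def GE (S : Finset ι) (lam : ι → ℝ) (T T' : Finset ℤ) (m : γ → ℕ) (a : γ → ℤ)
    (B : ι → ℤ → γ → ℤ → ℤ → ℂ) : ℝ :=
  ∑ n ∈ S, lam n * ∑ z ∈ T, ∑ c, (1 / (2 : ℝ) ^ m c) * ∑ x ∈ T',
    ∑ y ∈ Ico (a c) (a c + 2 ^ m c), ‖B n z c x y‖ ^ 2

variable {S : Finset ι} {T T' : Finset ℤ} {m : γ → ℕ} {a : γ → ℤ}
  {B : ι → ℤ → γ → ℤ → ℤ → ℂ} {U : ι → ℤ → ℤ → γ × τ → ℂ} {c0 M : ℝ}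

/-- diagonal of one cell -/
theorem CellFr.diag (h : CellFr S T T' m a B U c0 M) {n : ι} (hn : n ∈ S) {z : ℤ} (hz : z ∈ T)
    (c : γ) (x : ℤ) : ∑ k, ‖mU T T' (U n) z x (c, k)‖ ^ 2 ≤
      (c0 / 2 ^ m c) * ∑ y ∈ Ico (a c) (a c + 2 ^ m c), ‖B n z c x y‖ ^ 2 := by
  have h1 := h.maj n hn z hz c x 1 (fun _ => 1)
  simpa using h1

/-- **trace** -/
theorem CellFr.trace (h : CellFr S T T' m a B U c0 M) {lam : ι → ℝ} (hlam : ∀ n ∈ S, 0 ≤ lam n) :
    ∑ n ∈ S, lam n * ∑ z ∈ T, ∑ x ∈ T', kD T T' (U n) z x ≤ c0 * GE S lam T T' m a B := by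
  unfold GE
  rw [Finset.mul_sum]
  refine Finset.sum_le_sum fun n hn => ?_
  rw [mul_left_comm]
  refine mul_le_mul_of_nonneg_left ?_ (hlam n hn)
  rw [Finset.mul_sum]
  refine Finset.sum_le_sum fun z hz => ?_
  have h1 : ∀ x, kD T T' (U n) z x ≤ ∑ c, (c0 / 2 ^ m c) *
      ∑ y ∈ Ico (a c) (a c + 2 ^ m c), ‖B n z c x y‖ ^ 2 := by
    intro x
    unfold kD
    rw [Fintype.sum_prod_type]
    exact Finset.sum_le_sum fun c _ => h.diag hn hz c x
  refine (Finset.sum_le_sum fun x _ => h1 x).trans (le_of_eq ?_)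
  rw [Finset.sum_comm, Finset.mul_sum]
  refine Finset.sum_congr rfl fun c _ => ?_
  rw [← Finset.mul_sum]
  ring

/-- **diagonal** -/
theorem CellFr.kD_le (h : CellFr S T T' m a B U c0 M) {Hr : ℝ} (hHr : 0 ≤ Hr)
    (hB : ∀ n ∈ S, ∀ z ∈ T, ∀ c x, ∑ y ∈ Ico (a c) (a c + 2 ^ m c), ‖B n z c x y‖ ^ 2 ≤
      Hr * 2 ^ m c) {n : ι} (hn : n ∈ S) (z x : ℤ) : kD T T' (U n) z x ≤ M * (c0 * Hr) := by
  classical
  have hM := h.hM
  have hc0 := h.hc
  by_cases hz : z ∈ T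
  · obtain ⟨A, hA, hA0⟩ := h.mult n hn z hz x
    unfold kD
    rw [Fintype.sum_prod_type]
    have h1 : ∑ c, ∑ k, ‖mU T T' (U n) z x (c, k)‖ ^ 2 =
        ∑ c ∈ A, ∑ k, ‖mU T T' (U n) z x (c, k)‖ ^ 2 := by
      symm
      refine Finset.sum_subset (Finset.subset_univ A) fun c _ hc => ?_
      exact Finset.sum_eq_zero fun k _ => by rw [hA0 c hc k]; simp
    rw [h1]
    have h2 : ∀ c ∈ A, ∑ k, ‖mU T T' (U n) z x (c, k)‖ ^ 2 ≤ c0 * Hr := by
      intro c _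
      refine (h.diag hn hz c x).trans ?_
      refine (mul_le_mul_of_nonneg_left (hB n hn z hz c x) (by positivity)).trans (le_of_eq ?_)
      field_simp
    refine (Finset.sum_le_sum h2).trans ?_
    rw [Finset.sum_const, nsmul_eq_mul]
    exact mul_le_mul_of_nonneg_right hA (by positivity)
  · rw [kD_zero_left hz]
    positivity

/-- **`HSk`** -/
theorem CellFr.hsk (h : CellFr S T T' m a B U c0 M) {lam : ι → ℝ} (hlam : ∀ n ∈ S, 0 ≤ lam n)
    {R : Finset (ℕ × ℤ)} {κ0 : ℕ} {ρ : ℝ}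
    (hm : ∀ c, ∀ p ∈ R, p.1 + κ0 ≤ m c)
    (hop : ∀ n ∈ S, ∀ z ∈ T, ∀ c, ∀ p ∈ R, ∀ k ≤ κ0, ∀ i i',
      OpS (dI (p.1 + k) i) (dI (p.1 + k) i') (B n z c) (ρ * 2 ^ (p.1 + k))) :
    HSk S lam R κ0 (M * (8 * (c0 * ρ) ^ 2) * GE S lam T T' m a B) T T' U := by
  classical
  intro p hp k hk Λ
  set N : ℕ := 2 ^ (p.1 + k) with hN
  have hN0 : 0 < N := by positivity
  have hN' : (0 : ℝ) < N := by exact_mod_cast hN0
  have eN : ((N : ℕ) : ℝ) = 2 ^ (p.1 + k) := by rw [hN]; push_cast; rfl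
  have hM := h.hM
  have hc0 := h.hc
  unfold GE
  rw [Finset.mul_sum]
  refine Finset.sum_le_sum fun n hn => ?_
  rw [mul_left_comm]
  refine mul_le_mul_of_nonneg_left ?_ (hlam n hn)
  rw [Finset.sum_comm, Finset.mul_sum]
  refine Finset.sum_le_sum fun z hz => ?_
  -- one position
  have h1 : ∀ r0 : ℤ, (1 / (N : ℝ) ^ 2) * ∑ j ∈ range N, ∑ j' ∈ range N,
      ‖kK T T' (U n) z (r0 + (j : ℤ)) (r0 + (j' : ℤ))‖ ^ 2 ≤
      ∑ c, M * (8 * (c0 * ρ) ^ 2 * ((1 / ((2 ^ m c : ℝ) * N)) *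
        ∑ j ∈ range N, ∑ y ∈ Ico (a c) (a c + 2 ^ m c), ‖B n z c (r0 + (j : ℤ)) y‖ ^ 2)) := by
    intro r0
    have h2 : ∀ x x' : ℤ, ‖kK T T' (U n) z x x'‖ ^ 2 ≤ M * ∑ c,
        ‖∑ l, mU T T' (U n) z x (c, l) * conj (mU T T' (U n) z x' (c, l))‖ ^ 2 := by
      intro x x'
      obtain ⟨A, hA, hA0⟩ := h.mult n hn z hz x
      unfold kK
      rw [Fintype.sum_prod_type]
      refine norm_sum_sq_le_card _ A hA fun c hc => ?_
      exact Finset.sum_eq_zero fun l _ => by rw [hA0 c hc l, zero_mul]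
    have h3 : ∀ c, (1 / (N : ℝ) ^ 2) * ∑ j ∈ range N, ∑ j' ∈ range N,
        ‖∑ l, mU T T' (U n) z (r0 + (j : ℤ)) (c, l) *
          conj (mU T T' (U n) z (r0 + (j' : ℤ)) (c, l))‖ ^ 2 ≤
        8 * (c0 * ρ) ^ 2 * ((1 / ((2 ^ m c : ℝ) * N)) *
        ∑ j ∈ range N, ∑ y ∈ Ico (a c) (a c + 2 ^ m c), ‖B n z c (r0 + (j : ℤ)) y‖ ^ 2) := by
      intro c
      have e2 : (((2 ^ m c : ℕ) : ℤ)) = 2 ^ m c := by push_cast; rfl
      have e2' : (((2 ^ m c : ℕ) : ℝ)) = 2 ^ m c := by push_cast; rfl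
      have h4 := hs_box_cells (κ := τ) (B n z c) (p.1 + k) ρ c0 hc0 (hop n hn z hz c p hp k hk)
        (a c) (2 ^ m c) (Nat.pow_le_pow_right (by norm_num) (by have := hm c p hp; omega)) r0
        (by rw [e2]; exact h.supp n hn z hz c) (fun x l => mU T T' (U n) z x (c, l))
        (by
          intro f
          rw [e2, e2']
          exact h.maj n hn z hz c r0 _ f)
      rw [← hN, e2, e2', ← eN] at h4
      rw [Finset.sum_comm (s := Ico (a c) (a c + 2 ^ m c))] at h4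
      exact h4
    have h5 : (1 / (N : ℝ) ^ 2) * ∑ j ∈ range N, ∑ j' ∈ range N,
        ‖kK T T' (U n) z (r0 + (j : ℤ)) (r0 + (j' : ℤ))‖ ^ 2 ≤
        ∑ c, M * ((1 / (N : ℝ) ^ 2) * ∑ j ∈ range N, ∑ j' ∈ range N,
        ‖∑ l, mU T T' (U n) z (r0 + (j : ℤ)) (c, l) *
          conj (mU T T' (U n) z (r0 + (j' : ℤ)) (c, l))‖ ^ 2) := by
      have h6 : ∑ j ∈ range N, ∑ j' ∈ range N,
          ‖kK T T' (U n) z (r0 + (j : ℤ)) (r0 + (j' : ℤ))‖ ^ 2 ≤
          ∑ j ∈ range N, ∑ j' ∈ range N, M * ∑ c,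
          ‖∑ l, mU T T' (U n) z (r0 + (j : ℤ)) (c, l) *
            conj (mU T T' (U n) z (r0 + (j' : ℤ)) (c, l))‖ ^ 2 :=
        Finset.sum_le_sum fun j _ => Finset.sum_le_sum fun j' _ => h2 _ _
      have h7 : ∑ j ∈ range N, ∑ j' ∈ range N, M * ∑ c,
          ‖∑ l, mU T T' (U n) z (r0 + (j : ℤ)) (c, l) *
            conj (mU T T' (U n) z (r0 + (j' : ℤ)) (c, l))‖ ^ 2 =
          ∑ c, M * ∑ j ∈ range N, ∑ j' ∈ range N,
          ‖∑ l, mU T T' (U n) z (r0 + (j : ℤ)) (c, l) *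
            conj (mU T T' (U n) z (r0 + (j' : ℤ)) (c, l))‖ ^ 2 := by
        simp only [Finset.mul_sum]
        have e3 : ∀ j ∈ range N, ∑ j' ∈ range N, ∑ c, M *
            ‖∑ l, mU T T' (U n) z (r0 + (j : ℤ)) (c, l) *
              conj (mU T T' (U n) z (r0 + (j' : ℤ)) (c, l))‖ ^ 2 =
            ∑ c, ∑ j' ∈ range N, M *
            ‖∑ l, mU T T' (U n) z (r0 + (j : ℤ)) (c, l) *
              conj (mU T T' (U n) z (r0 + (j' : ℤ)) (c, l))‖ ^ 2 := fun j _ => Finset.sum_comm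
        rw [Finset.sum_congr rfl e3, Finset.sum_comm]
      refine (mul_le_mul_of_nonneg_left (h6.trans (le_of_eq h7)) (by positivity)).trans
        (le_of_eq ?_)
      rw [Finset.mul_sum]
      exact Finset.sum_congr rfl fun c _ => by ring
    refine h5.trans (Finset.sum_le_sum fun c _ => ?_)
    exact mul_le_mul_of_nonneg_left (h3 c) hM
  refine (Finset.sum_le_sum fun r0 _ => h1 r0).trans ?_
  rw [Finset.sum_comm, Finset.mul_sum]
  refine Finset.sum_le_sum fun c _ => ?_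
  have h8 := sum_pos_le N Λ T' (fun x => ∑ y ∈ Ico (a c) (a c + 2 ^ m c), ‖B n z c x y‖ ^ 2)
    (fun x => Finset.sum_nonneg fun _ _ => sq_nonneg _)
    (fun x hx => Finset.sum_eq_zero fun y _ => by rw [h.row n hn z hz c x hx y]; simp)
  have hm2 : (0 : ℝ) < 2 ^ m c := by positivity
  calc ∑ r0 ∈ Λ, M * (8 * (c0 * ρ) ^ 2 * ((1 / ((2 ^ m c : ℝ) * N)) *
        ∑ j ∈ range N, ∑ y ∈ Ico (a c) (a c + 2 ^ m c), ‖B n z c (r0 + (j : ℤ)) y‖ ^ 2))
      = M * (8 * (c0 * ρ) ^ 2 * ((1 / ((2 ^ m c : ℝ) * N)) * ∑ r0 ∈ Λ,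
        ∑ j ∈ range N, ∑ y ∈ Ico (a c) (a c + 2 ^ m c), ‖B n z c (r0 + (j : ℤ)) y‖ ^ 2)) := by
        simp only [Finset.mul_sum]
    _ ≤ M * (8 * (c0 * ρ) ^ 2 * ((1 / ((2 ^ m c : ℝ) * N)) * (N * ∑ x ∈ T',
        ∑ y ∈ Ico (a c) (a c + 2 ^ m c), ‖B n z c x y‖ ^ 2))) := by
        refine mul_le_mul_of_nonneg_left ?_ hM
        refine mul_le_mul_of_nonneg_left ?_ (by positivity)
        exact mul_le_mul_of_nonneg_left h8 (by positivity)
    _ = _ := by field_simp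

end

end Crest.Agent.R079.SKx261
end

-- ▼ part R079/SKg_261
section

/-! R079, item (c) of 973 / note 1201 (helper261): geometry of the Whitney cells of a strip.

`Lin Z c β γ` : `Z u v = c + β u + γ v`, `1 ≤ |β|, |γ| ≤ 3`.  `cell_size`: a maximal cell of `P` which
meets the strip of a non-adjacent node `P'` has side `≥ C0 2^(P'.1)`; `row_card`: few cells per row;
`wtop_meet`: total length of the Whitney tops met by a cell; `box_op`: operator bound on all boxes of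
side `≥ 2^d` from the maximal cells of the nodes of level `d`. -/

set_option autoImplicit false
set_option linter.unusedSectionVars false

namespace Crest.Agent.R079.SKx261

open Finset Crest.Agent.R079.Grid Crest.Agent.R079.Growth Crest.Agent.R079.QRed
  Crest.Agent.R079.TWin Crest.Agent.R079.Glue Crest.Agent.R079.Cel159 Crest.Agent.R079.SplSx69
open Crest.Agent.R079.Whit (Ins Ins.mono Ins.sub sub0 sub1)

/-- linear forms of two variables -/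
structure Lin (Z : ℤ → ℤ → ℤ) (c β γ : ℤ) : Prop where
  eq : ∀ u v, Z u v = c + β * u + γ * v
  b0 : β ≠ 0
  g0 : γ ≠ 0
  b3 : |β| ≤ 3
  g3 : |γ| ≤ 3

lemma cf_bd (j : Fin 4) (e : Fin 3) : cf j e ≠ 0 ∧ |cf j e| ≤ 3 := by
  fin_cases j <;> fin_cases e <;> decide

lemma lin_Yl (j : Fin 4) (e : Fin 3) (z : ℤ) :
    Lin (Yl j e z) (cf j e * z) (cf j (e + 1)) (cf j (e + 2)) :=
  ⟨fun _ _ => rfl, (cf_bd j _).1, (cf_bd j _).1, (cf_bd j _).2, (cf_bd j _).2⟩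

lemma Lin.swap {Z : ℤ → ℤ → ℤ} {c β γ : ℤ} (h : Lin Z c β γ) : Lin (fun v u => Z u v) c γ β :=
  ⟨fun v u => by rw [h.eq]; ring, h.g0, h.b0, h.g3, h.b3⟩

lemma dI_diff {n : ℕ} {a x y : ℤ} (hx : x ∈ dI n a) (hy : y ∈ dI n a) : |x - y| < 2 ^ n := by
  unfold dI at hx hy
  rw [Finset.mem_Ico] at hx hy
  rw [abs_lt]
  constructor <;> nlinarith [hx.1, hx.2, hy.1, hy.2]

lemma Lin.diam {Z : ℤ → ℤ → ℤ} {c β γ : ℤ} (h : Lin Z c β γ) {n : ℕ} {a b u v u' v' : ℤ}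
    (hu : u ∈ dI n a) (hu' : u' ∈ dI n a) (hv : v ∈ dI n b) (hv' : v' ∈ dI n b) :
    |Z u v - Z u' v'| < 6 * 2 ^ n := by
  rw [h.eq, h.eq]
  have e : c + β * u + γ * v - (c + β * u' + γ * v') = β * (u - u') + γ * (v - v') := by ring
  rw [e]
  have h1 := dI_diff hu hu'
  have h2 := dI_diff hv hv'
  have h3 := abs_add_le (β * (u - u')) (γ * (v - v'))
  rw [abs_mul, abs_mul] at h3
  have h4 := h.b3
  have h5 := h.g3
  have h6 : |β| * |u - u'| ≤ 3 * |u - u'| := mul_le_mul_of_nonneg_right h4 (abs_nonneg _)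
  have h7 : |γ| * |v - v'| ≤ 3 * |v - v'| := mul_le_mul_of_nonneg_right h5 (abs_nonneg _)
  linarith

lemma le_of_iv {p q : Nd} (h : iv p ⊆ iv q) : Le p q := h

/-- **size of the cells** which meet the strip of a non-adjacent node -/
theorem cell_size {Z : ℤ → ℤ → ℤ} {c β γ : ℤ} (h : Lin Z c β γ) {k : ℕ} {P P' : Nd} {C0 : ℕ}
    (hP : iv P' ⊆ iv P) (hna : ¬ Adj C0 P P') {m : ℕ} {a b : ℤ} (hM : Mx Z k P m a b) {u v : ℤ}
    (hu : u ∈ dI m a) (hv : v ∈ dI m b) (hy : Z u v ∈ iv P') : (C0 : ℤ) * 2 ^ P'.1 ≤ 2 ^ m := by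
  obtain ⟨hA, hB⟩ := dist_of_not_adj (le_of_iv hP) hna hy
  have e7 : ∀ n : ℕ, (2 : ℤ) ^ (n + 7) = 128 * 2 ^ n := fun n => by rw [pow_add]; ring
  rw [e7, e7] at hA hB
  rcases hM.2.2 with hm | hm
  · have h1 : (2 : ℤ) ^ P.1 ≤ 2 ^ m := by
      rw [hm]
      exact pow_le_pow_right₀ (by norm_num) (Nat.le_add_right _ _)
    have h2 : (0 : ℤ) ≤ 2 ^ P'.1 := by positivity
    have h3 : (0 : ℤ) ≤ (C0 : ℤ) * 2 ^ P'.1 := by positivity
    nlinarith
  · unfold Ins at hm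
    push Not at hm
    obtain ⟨u', hu', v', hv', hn⟩ := hm
    have s1 := L0e.dI_sub m 1 a
    have s2 := L0e.dI_sub m 1 b
    rw [pow_one] at s1 s2
    have h1 := h.diam (s1 hu) hu' (s2 hv) hv'
    have h2 : ¬ (P.2 * (128 * 2 ^ P.1) ≤ Z u' v' ∧ Z u' v' < (P.2 + 1) * (128 * 2 ^ P.1)) := by
      intro hc
      apply hn
      unfold iv dI
      rw [Finset.mem_Ico, e7]
      exact hc
    rw [abs_lt, pow_succ] at h1
    by_cases h3 : P.2 * (128 * 2 ^ P.1) ≤ Z u' v'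
    · have h4 : (P.2 + 1) * (128 * 2 ^ P.1) ≤ Z u' v' := by
        by_contra hc
        exact h2 ⟨h3, not_le.1 hc⟩
      have h5 : (C0 : ℤ) * (128 * 2 ^ P'.1) < 12 * 2 ^ m := by linarith [h1.1, h1.2]
      have h6 : (0 : ℤ) ≤ (C0 : ℤ) * 2 ^ P'.1 := by positivity
      nlinarith
    · have h4 : Z u' v' < P.2 * (128 * 2 ^ P.1) := not_le.1 h3
      have h5 : (C0 : ℤ) * (128 * 2 ^ P'.1) < 12 * 2 ^ m := by linarith [h1.1, h1.2]
      have h6 : (0 : ℤ) ≤ (C0 : ℤ) * 2 ^ P'.1 := by positivity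
      nlinarith

lemma level_le_of_size {C0 p m : ℕ} (hC : 1 ≤ C0) (h : (C0 : ℤ) * 2 ^ p ≤ 2 ^ m) : p ≤ m := by
  by_contra hc
  have h1 : (2 : ℤ) ^ (m + 1) ≤ 2 ^ p := pow_le_pow_right₀ (by norm_num) (by omega)
  have h2 : (1 : ℤ) ≤ C0 := by exact_mod_cast hC
  have h3 : (0 : ℤ) < 2 ^ m := by positivity
  rw [pow_succ] at h1
  nlinarith

lemma level_add_le {κ0 C0 p m : ℕ} (hC : 2 ^ κ0 ≤ C0) (h : (C0 : ℤ) * 2 ^ p ≤ 2 ^ m) :
    p + κ0 ≤ m := by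
  have h1 : ((2 ^ κ0 : ℕ) : ℤ) ≤ C0 := by exact_mod_cast hC
  have h2 : (2 : ℤ) ^ (p + κ0) ≤ 2 ^ m := by
    refine le_trans ?_ h
    rw [pow_add, mul_comm]
    refine mul_le_mul_of_nonneg_right ?_ (by positivity)
    push_cast at h1
    exact h1
  exact (pow_le_pow_iff_right₀ (by norm_num : (1 : ℤ) < 2)).1 h2

/-- finite sets of integers of small diameter -/
lemma card_diam (A : Finset ℤ) (D : ℕ) (h : ∀ x ∈ A, ∀ y ∈ A, x - y ≤ D) : A.card ≤ D + 1 := by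
  rcases A.eq_empty_or_nonempty with h0 | hne
  · rw [h0]; simp
  · have h1 : A ⊆ Finset.Icc (A.min' hne) (A.min' hne + D) := by
      intro x hx
      rw [Finset.mem_Icc]
      have h2 := A.min'_le x hx
      have h3 := h x hx _ (A.min'_mem hne)
      exact ⟨h2, by linarith⟩
    refine (Finset.card_le_card h1).trans ?_
    rw [Int.card_Icc]
    omega




end Crest.Agent.R079.SKx261
end

-- ▼ part R079/SKh_261
section

/-! R079, item (c) of 973 / note 1201 (helper261): operator bound on all boxes of side `≥ 2^d` from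
the maximal cells of the nodes of level `d`. -/

set_option autoImplicit false
set_option linter.unusedSectionVars false

namespace Crest.Agent.R079.SKx261

open Finset Crest.Agent.R079.Grid Crest.Agent.R079.Growth Crest.Agent.R079.QRed
  Crest.Agent.R079.TWin Crest.Agent.R079.Glue Crest.Agent.R079.Cel159
open Crest.Agent.R079.Whit (Ins Ins.mono Ins.sub sub0 sub1)
open Crest.Agent.R079.ClW59 (OpS)




section

variable {Z : ℤ → ℤ → ℤ} {k d : ℕ} {P : Nd} {ρ : ℝ} {K : ℤ → ℤ → ℂ}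



/-- operator bound of a kernel masked to a cell -/
theorem masked_op {n m : ℕ} {a b : ℤ} {s : ℝ} (hs : 0 ≤ s) (hnm : n ≤ m)
    (h : ∀ i i', dI n i ⊆ dI m a → dI n i' ⊆ dI m b → OpC K n i i' s) (X : Set ℤ) (Y : Set ℤ)
    [∀ u v, Decidable (u ∈ dI m a ∧ v ∈ dI m b ∧ u ∈ X ∧ v ∈ Y)] (i i' : ℤ) :
    OpS (dI n i) (dI n i')
      (fun u v => if u ∈ dI m a ∧ v ∈ dI m b ∧ u ∈ X ∧ v ∈ Y then K u v else 0) (s * 2 ^ n) := by
  classical
  obtain ⟨j, rfl⟩ : ∃ j, m = n + j := ⟨m - n, by omega⟩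
  have dich : ∀ x c : ℤ, dI n x ⊆ dI (n + j) c ∨ ∀ u ∈ dI n x, u ∉ dI (n + j) c := by
    intro x c
    have h1 := L0e.dI_sub n j x
    by_cases hc : x / 2 ^ j = c
    · left; rw [← hc]; exact h1
    · right
      intro u hu hu'
      have h2 := h1 hu
      rw [L0e.mem_dI] at h2 hu'
      exact hc (h2.symm.trans hu')
  have hzero : (∀ u ∈ dI n i, ∀ v ∈ dI n i', ¬ (u ∈ dI (n + j) a ∧ v ∈ dI (n + j) b)) →
      OpS (dI n i) (dI n i')
        (fun u v => if u ∈ dI (n + j) a ∧ v ∈ dI (n + j) b ∧ u ∈ X ∧ v ∈ Y then K u v else 0)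
        (s * 2 ^ n) := by
    intro h0 f
    have e : ∀ u ∈ dI n i, ∑ v ∈ dI n i', (if u ∈ dI (n + j) a ∧ v ∈ dI (n + j) b ∧ u ∈ X ∧ v ∈ Y
        then K u v else 0) * f v = 0 := fun u hu => Finset.sum_eq_zero fun v hv => by
      rw [if_neg (fun hc => h0 u hu v hv ⟨hc.1, hc.2.1⟩), zero_mul]
    rw [Finset.sum_eq_zero fun u hu => by rw [e u hu]; simp]
    positivity
  rcases dich i a with h1 | h1
  · rcases dich i' b with h2 | h2
    · have h3 := opS_of_opC (h i i' h1 h2)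
      intro f
      have h4 := h3 (fun v => if v ∈ Y then f v else 0)
      have e1 : ∀ u ∈ dI n i, ‖∑ v ∈ dI n i', (if u ∈ dI (n + j) a ∧ v ∈ dI (n + j) b ∧ u ∈ X ∧
          v ∈ Y then K u v else 0) * f v‖ ^ 2 ≤
          ‖∑ v ∈ dI n i', K u v * (if v ∈ Y then f v else 0)‖ ^ 2 := by
        intro u hu
        by_cases hX : u ∈ X
        · refine le_of_eq ?_
          congr 2
          refine Finset.sum_congr rfl fun v hv => ?_
          by_cases hY : v ∈ Y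
          · rw [if_pos ⟨h1 hu, h2 hv, hX, hY⟩, if_pos hY]
          · rw [if_neg (fun hc => hY hc.2.2.2), if_neg hY]; ring
        · rw [Finset.sum_eq_zero fun v _ => by rw [if_neg (fun hc => hX hc.2.2.1), zero_mul]]
          rw [norm_zero, zero_pow two_ne_zero]
          exact sq_nonneg _
      have e2 : ∑ v ∈ dI n i', ‖if v ∈ Y then f v else 0‖ ^ 2 ≤ ∑ v ∈ dI n i', ‖f v‖ ^ 2 := by
        refine Finset.sum_le_sum fun v _ => ?_
        split_ifs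
        · exact le_rfl
        · rw [norm_zero, zero_pow two_ne_zero]; exact sq_nonneg _
      exact (Finset.sum_le_sum e1).trans (h4.trans (mul_le_mul_of_nonneg_left e2 (by positivity)))
    · exact hzero fun u _ v hv hc => h2 v hv hc.2
  · exact hzero fun u hu v _ hc => h1 u hu hc.1

/-- transposition -/
lemma opC_tr {n : ℕ} {a b : ℤ} {s : ℝ} (h : OpC K n a b s) : OpC (fun v u => K u v) n b a s := by
  intro ζ ξ
  have h1 := h ξ ζ
  rw [Finset.sum_comm, mul_comm (Real.sqrt _) (Real.sqrt _)]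
  refine le_trans (le_of_eq ?_) h1
  congr 1
  exact Finset.sum_congr rfl fun u _ => Finset.sum_congr rfl fun v _ => by ring

end

end Crest.Agent.R079.SKx261
end

-- ▼ part R079/SKdef_261
section

/-! R079, item (c) of 973 / note 1201 (helper261): definitions of the cells of `P` near `P'`. -/

set_option autoImplicit false

namespace Crest.Agent.R079.SKx261

open Finset Crest.Agent.R079.Grid Crest.Agent.R079.Growth Crest.Agent.R079.QRed
  Crest.Agent.R079.TWin Crest.Agent.R079.Glue Crest.Agent.R079.Cel159 Crest.Agent.R079.SplSx69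

/-- the box of positions -/
def S3 (T : Fin 3 → Finset ℤ) (e : Fin 3) : Finset (ℤ × ℤ × ℤ) := T e ×ˢ (T (e + 1) ×ˢ T (e + 2))

open Classical in
/-- maximal cells of `P` meeting the strip of `P'` (inside the box of positions) -/
noncomputable def Clx (j : Fin 4) (e : Fin 3) (k : ℕ) (P P' : Nd) (T : Fin 3 → Finset ℤ) :
    Finset (ℤ × ℕ × ℤ × ℤ) :=
  ((S3 T e).filter (fun ω => Yl j e ω.1 ω.2.1 ω.2.2 ∈ iv P')).image (mcell (Yl j e) k P)



variable {j : Fin 4} {e : Fin 3} {k : ℕ} {P P' : Nd} {T : Fin 3 → Finset ℤ}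

lemma mem_S3 {ω : ℤ × ℤ × ℤ} :
    ω ∈ S3 T e ↔ ω.1 ∈ T e ∧ ω.2.1 ∈ T (e + 1) ∧ ω.2.2 ∈ T (e + 2) := by
  unfold S3
  rw [Finset.mem_product, Finset.mem_product]

/-- the facts about a cell of `Clx` -/
lemma Clx_spec (hP : iv P' ⊆ iv P) {c : ℤ × ℕ × ℤ × ℤ} (hc : c ∈ Clx j e k P P' T) :
    c.1 ∈ T e ∧ Mx (Yl j e c.1) k P c.2.1 c.2.2.1 c.2.2.2 ∧
      ∃ u ∈ dI c.2.1 c.2.2.1 ∩ T (e + 1), ∃ v ∈ dI c.2.1 c.2.2.2 ∩ T (e + 2),
        Yl j e c.1 u v ∈ iv P' := by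
  classical
  unfold Clx at hc
  obtain ⟨ω, hω, rfl⟩ := Finset.mem_image.1 hc
  rw [Finset.mem_filter, mem_S3] at hω
  refine ⟨hω.1.1, Mx_mcell (hP hω.2), ω.2.1, ?_, ω.2.2, ?_, hω.2⟩
  · rw [Finset.mem_inter, L0e.mem_dI]
    exact ⟨rfl, hω.1.2.1⟩
  · rw [Finset.mem_inter, L0e.mem_dI]
    exact ⟨rfl, hω.1.2.2⟩

/-- the cell of a point of the strip of `P'` -/
lemma mem_Clx {z u v : ℤ} (hz : z ∈ T e) (hu : u ∈ T (e + 1)) (hv : v ∈ T (e + 2))
    (hy : Yl j e z u v ∈ iv P') : mcell (Yl j e) k P (z, u, v) ∈ Clx j e k P P' T := by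
  classical
  unfold Clx
  exact Finset.mem_image_of_mem _ (Finset.mem_filter.2 ⟨mem_S3.2 ⟨hz, hu, hv⟩, hy⟩)


end Crest.Agent.R079.SKx261
end

-- ▼ part R079/SKi_261
section

/-! R079, item (c) of 973 / note 1201 (helper261): the labelled frames of the Whitney cells.

`cellFr_mk`: abstract construction of `CellFr` from factorisations of the cells; `GE_mk`, `rowB_mk`:
energy and rows of the dominating kernels. -/

set_option autoImplicit false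
set_option linter.unusedSectionVars false

namespace Crest.Agent.R079.SKx261

open Finset Crest.Agent.R079.Grid Crest.Agent.R079.Growth Crest.Agent.R079.QRed
  Crest.Agent.R079.TWin Crest.Agent.R079.Glue Crest.Agent.R079.SWc360
open Crest.Agent.R079.ClW59 (OpS)

/-- sums over a window of rows -/
lemma sum_range_rows (f : ℕ → ℂ) (H : ℤ → ℂ) (S : Finset ℤ) (q : ℤ) (N : ℕ)
    (h0 : ∀ x ∉ S, H x = 0) :
    ∑ i ∈ range N, f i * H (q + (i : ℤ)) =
      ∑ x ∈ S, (if q ≤ x ∧ x < q + N then f (x - q).toNat else 0) * H x := by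
  classical
  have h1 : ∑ x ∈ S, (if q ≤ x ∧ x < q + N then f (x - q).toNat else 0) * H x =
      ∑ x ∈ Ico q (q + N), f (x - q).toNat * H x := by
    have h2 : ∑ x ∈ S, (if q ≤ x ∧ x < q + N then f (x - q).toNat else 0) * H x =
        ∑ x ∈ S.filter (fun x => q ≤ x ∧ x < q + N), f (x - q).toNat * H x := by
      rw [Finset.sum_filter]
      refine Finset.sum_congr rfl fun x _ => ?_
      split_ifs <;> simp
    rw [h2]
    refine Finset.sum_subset ?_ ?_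
    · intro x hx
      rw [Finset.mem_filter] at hx
      exact Finset.mem_Ico.2 hx.2
    · intro x hx hx'
      rw [Finset.mem_Ico] at hx
      have : x ∉ S := fun hs => hx' (Finset.mem_filter.2 ⟨hs, hx⟩)
      rw [h0 x this, mul_zero]
  rw [h1]
  refine Finset.sum_bij (fun (i : ℕ) _ => q + (i : ℤ)) ?_ ?_ ?_ ?_
  · intro i hi
    rw [Finset.mem_range] at hi
    rw [Finset.mem_Ico]
    constructor
    · linarith [Int.natCast_nonneg i]
    · have : (i : ℤ) < N := by exact_mod_cast hi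
      linarith
  · intro i _ i' _ h
    have : (i : ℤ) = i' := by linarith
    exact_mod_cast this
  · intro x hx
    rw [Finset.mem_Ico] at hx
    refine ⟨(x - q).toNat, ?_, ?_⟩
    · rw [Finset.mem_range]
      omega
    · omega
  · intro i _
    have : (q + (i : ℤ) - q).toNat = i := by omega
    rw [this]

section

variable {γ τ : Type} [Fintype γ] [DecidableEq γ] [Fintype τ] [DecidableEq τ] {ι : Type}


variable {S : Finset ι} {T0 T1 T2 : Finset ℤ} {m : γ → ℕ} {ra cb : γ → ℤ} {ok : ℤ → γ → Prop}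
  {X : ℤ → γ → Set ℤ} {K : ι → ℤ → ℤ → ℤ → ℂ} {Pf : ι → ℤ → γ → ℤ → τ → ℂ}
  {U : ι → ℤ → ℤ → γ × τ → ℂ} {c0 M : ℝ}




end

end Crest.Agent.R079.SKx261
end

-- ▼ part R079/SKcell_608
section

/-! # R079, (c) of 973 / note 1201: the CELLS block (helper608)

`Y : ℤ → ℤ → ℤ → ℤ` line form (`LipY Y L`, `ExpU Y`, `ExpV Y`; instance `Yf j e`, `L = 3`), `P` a top,
`P'` below `P`, not adjacent (`¬ Adj C0 P P'`), `64 L ≤ C0`.
`Cl Y k P P' T0 T1 T2` : the maximal cells of `P` met by the points of `T` with `Y ∈ iv P'`.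
* `size7` : a maximal cell of `P` with a point of the strip of `P'` has `P'.1 + 7 ≤ n`;
* `row_count`, `col_count` : a row (column) meets at most 2 such cells at points of the strip of `P'`;
* `tops_le` : `∑_{P' meets c} len P' ≤ (4 L + 2) 2^n` over pairwise disjoint `P'`;
* `energy_le` = (I3) : `∑_{P'} len P' ∑_{c ∈ Cl P'} |C|²_c / 2^n ≤ (4 L + 2) ∑_{Bd P} |C|²`. -/

set_option autoImplicit false

namespace Crest.Agent.R079.SKcx608

open Finset Crest.Agent.R079 Crest.Agent.R079.Grid Crest.Agent.R079.Growth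
open Crest.Agent.R079.Whit (Ins)
open Crest.Agent.R079.Cel159 (Mx Mx_eq sc mcell Mx_mcell)
open Crest.Agent.R079.SplSx69 (Le Adj WTop dist_of_not_adj)




variable {Y : ℤ → ℤ → ℤ → ℤ} {k L C0 : ℕ}






/-- the maximal cells of `P` met by the strip of `P'` (points of `T`) -/
noncomputable def Cl (Y : ℤ → ℤ → ℤ → ℤ) (k : ℕ) (P P' : ℕ × ℤ) (T0 T1 T2 : Finset ℤ) :
    Finset (ℤ × ℕ × ℤ × ℤ) :=
  ((T0 ×ˢ T1 ×ˢ T2).filter (fun ω => Y ω.1 ω.2.1 ω.2.2 ∈ iv P')).image (mcell Y k P)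









/-- energy of a kernel on a cell -/
noncomputable def en (T1 T2 : Finset ℤ) (C : ℤ × ℤ × ℤ → ℂ) (c : ℤ × ℕ × ℤ × ℤ) : ℝ :=
  ∑ u ∈ dI c.2.1 c.2.2.1 ∩ T1, ∑ v ∈ dI c.2.1 c.2.2.2 ∩ T2, ‖C (c.1, u, v)‖ ^ 2

lemma en_nonneg (T1 T2 : Finset ℤ) (C : ℤ × ℤ × ℤ → ℂ) (c : ℤ × ℕ × ℤ × ℤ) : 0 ≤ en T1 T2 C c :=
  Finset.sum_nonneg fun _ _ => Finset.sum_nonneg fun _ _ => sq_nonneg _




/-! ### the line form of slot `j`, edge `e` -/






end Crest.Agent.R079.SKcx608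
end

-- ▼ part R079/SKj_261

/-! R079, item (c) of 973 / note 1201 (helper261): labels of a Whitney top `P'` of `P`.

`lU`, `lW`: the two labelled kernels (labels = (type of cell, column)); `lab_eq`: on the strip of `P'`
their product is `C - Pj C`; `frU`, `frW`: both are `CellFr` families. -/

set_option autoImplicit false
set_option linter.unusedSectionVars false

namespace Crest.Agent.R079.SKx261

open Finset Crest.Agent.R079.Grid Crest.Agent.R079.Growth Crest.Agent.R079.QRed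
  Crest.Agent.R079.TWin Crest.Agent.R079.Glue Crest.Agent.R079.SWc360 Crest.Agent.R079.Cel159
  Crest.Agent.R079.SplSx69
open Crest.Agent.R079.ClW59 (OpS cl)
open Crest.Agent.R079.Whit (Ins)

/-- factorisation of a rectangle -/
structure Fac (A : ℤ → ℤ → ℂ) (S T : Finset ℤ) (s : ℝ) (P Q : ℤ → ℤ → ℂ) : Prop where
  p0 : ∀ x k, ¬ (x ∈ S ∧ k ∈ T) → P x k = 0
  q0 : ∀ k y, ¬ (k ∈ T ∧ y ∈ T) → Q k y = 0
  eq : ∀ x ∈ S, ∀ y ∈ T, ∑ k ∈ T, P x k * Q k y = A x y - cl A S T s x y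
  majP : ∀ f : ℤ → ℂ, ∑ k ∈ T, ‖∑ x ∈ S, f x * P x k‖ ^ 2 ≤
    (4 * s)⁻¹ * ∑ y ∈ T, ‖∑ x ∈ S, f x * A x y‖ ^ 2
  majQ : ∀ f : ℤ → ℂ, ∑ k ∈ T, ‖∑ y ∈ T, f y * Q k y‖ ^ 2 ≤
    (4 * s)⁻¹ * ∑ x ∈ S, ‖∑ y ∈ T, f y * A x y‖ ^ 2


section

variable (j : Fin 4) (e : Fin 3) (k : ℕ) (P P' : Nd) (T : Fin 3 → Finset ℤ)

open Classical in
/-- types of the cells -/
noncomputable def CT : Finset (ℕ × ℤ × ℤ) := (Clx j e k P P' T).image Prod.snd

/-- row mask -/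
def XU (z : ℤ) (t : ℕ × ℤ × ℤ) : Set ℤ :=
  {u | ∃ v ∈ dI t.1 t.2.2 ∩ T (e + 2), Yl j e z u v ∈ iv P'}

/-- column mask -/
def XW (z : ℤ) (t : ℕ × ℤ × ℤ) : Set ℤ :=
  {v | ∃ u ∈ dI t.1 t.2.1 ∩ T (e + 1), Yl j e z u v ∈ iv P'}

end

variable {ι : Type} {j : Fin 4} {e : Fin 3} {k : ℕ} {P P' : Nd} {T : Fin 3 → Finset ℤ}

open Classical in
/-- labelled kernel of the edge `(z, u)` -/
noncomputable def lU (j : Fin 4) (e : Fin 3) (k : ℕ) (P P' : Nd) (T : Fin 3 → Finset ℤ)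
    (Pf : ι → ℤ → ℕ × ℤ × ℤ → ℤ → ℤ → ℂ) (w : ι) (z u : ℤ)
    (l : {t // t ∈ CT j e k P P' T} × {x // x ∈ T (e + 2)}) : ℂ :=
  if (z, l.1.1) ∈ Clx j e k P P' T ∧ u ∈ XU j e P' T z l.1.1 then Pf w z l.1.1 u l.2.1 else 0

open Classical in
/-- labelled kernel of the edge `(v, z)` -/
noncomputable def lW (j : Fin 4) (e : Fin 3) (k : ℕ) (P P' : Nd) (T : Fin 3 → Finset ℤ)
    (Qf : ι → ℤ → ℕ × ℤ × ℤ → ℤ → ℤ → ℂ) (w : ι) (v z : ℤ)
    (l : {t // t ∈ CT j e k P P' T} × {x // x ∈ T (e + 2)}) : ℂ :=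
  if (z, l.1.1) ∈ Clx j e k P P' T ∧ v ∈ XW j e P' T z l.1.1 then Qf w z l.1.1 l.2.1 v else 0


/-! ### the two families of frames -/


/-- a cell of the transposed form -/
lemma Mx.swap {Z : ℤ → ℤ → ℤ} {n : ℕ} {a b : ℤ} (h : Mx Z k P n a b) :
    Mx (fun v u => Z u v) k P n b a := by
  refine ⟨h.1, fun v hv u hu => h.2.1 u hu v hv, ?_⟩
  rcases h.2.2 with h1 | h1
  · exact Or.inl h1
  · exact Or.inr fun h2 => h1 fun u hu v hv => h2 v hv u hu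






end Crest.Agent.R079.SKx261
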