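import Crest.Agent.R079.SKv_261
import Crest.Agent.R079.FrQd_717
import Crest.Agent.R079.SplS_69
import Crest.Agent.R079.SKj_261
import Crest.Agent.R079.TS0_903
import Crest.Agent.R079.NodeB_254
import Crest.Agent.R079.NCol_37
import Crest.Agent.R079.AsmA_844
import Crest.Agent.R079.GaU_571
import Crest.Agent.R079.GaF_371

-- ▼ part R079/SKy_261
section

/-! R079, item (c) of 973 / note 1201 (helper261): literal of the sum over the Whitney tops of a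
window (`SKtotP`, to be proved from `SKword`, `split_region'`, `sum_GP'`). -/

set_option autoImplicit false

namespace Crest.Agent.R079.SKx261

open Finset Crest.Agent.R079.Grid Crest.Agent.R079.Growth Crest.Agent.R079.QRed
  Crest.Agent.R079.Qh249 Crest.Agent.R079.QVar181
  Crest.Agent.R079.TWin Crest.Agent.R079.Glue Crest.Agent.R079.SWc360 Crest.Agent.R079.Cel159
  Crest.Agent.R079.SplSx69 Crest.Agent.R079.ThA159

open scoped ComplexConjugate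

/-- kernels of a window `W` with top `P` -/
structure SKW {ι : Type} (S : Finset ι) (kap : ι → ℝ) (j : Fin 4) (e : Fin 3) (k d : ℕ) (P : Nd)
    (T : Fin 3 → Finset ℤ) (W : Finset Nd) (C : ι → ℤ × ℤ × ℤ → ℂ) (ρ r Hr E : ℝ) : Prop where
  kap0 : ∀ w ∈ S, 0 ≤ kap w
  hWd : ∀ p ∈ W, d ≤ p.1
  ρ0 : 0 ≤ ρ
  r0 : 0 < r
  Hr0 : 0 ≤ Hr
  E0 : 0 ≤ E
  hex : Hbox S j e d P T C ρ
  hrow : ∀ w ∈ S, ∀ z ∈ T e, ∀ m a b, Mx (Yl j e z) k P m a b → d ≤ m →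
    ∀ u ∈ dI m a ∩ T (e + 1), ∑ v ∈ dI m b ∩ T (e + 2), ‖C w (z, u, v)‖ ^ 2 ≤ Hr * 2 ^ m
  hcol : ∀ w ∈ S, ∀ z ∈ T e, ∀ m a b, Mx (Yl j e z) k P m a b → d ≤ m →
    ∀ v ∈ dI m b ∩ T (e + 2), ∑ u ∈ dI m a ∩ T (e + 1), ‖C w (z, u, v)‖ ^ 2 ≤ Hr * 2 ^ m
  hE : ∑ w ∈ S, kap w * ∑ ω ∈ (S3 T e).filter (fun ω => Yl j e ω.1 ω.2.1 ω.2.2 ∈ iv P),
    ‖C w ω‖ ^ 2 ≤ E * len P


end Crest.Agent.R079.SKx261
end

-- ▼ part R079/SKz_261
section

/-! R079, item (c) of 973 / note 1201 (helper261): the (S) word of a window for gauges with different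
boxes of positions (`SKwinA`). -/

set_option autoImplicit false
set_option linter.unusedSectionVars false

namespace Crest.Agent.R079.SKx261

open Finset Crest.Agent.R079.Grid Crest.Agent.R079.Growth Crest.Agent.R079.QRed
  Crest.Agent.R079.Qh249 Crest.Agent.R079.QVar181
  Crest.Agent.R079.TWin Crest.Agent.R079.Glue Crest.Agent.R079.SWc360 Crest.Agent.R079.Cel159
  Crest.Agent.R079.SplSx69 Crest.Agent.R079.ThA159
open Crest.Agent.R079.Whit (Ins)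

open scoped ComplexConjugate

/-- kernels of a window, one box of positions per gauge -/
structure SKA {ι : Type} [Fintype ι] (kap : ι → ℝ) (j : Fin 4) (e : Fin 3) (k d : ℕ) (P : Nd)
    (T0 T1 T2 : ι → Finset ℤ) (W : Finset Nd) (C : ι → ℤ × ℤ × ℤ → ℂ) (ρ r Hr E : ℝ) : Prop where
  kap0 : ∀ w, 0 ≤ kap w
  hWd : ∀ p ∈ W, d ≤ p.1
  ρ0 : 0 ≤ ρ
  r0 : 0 < r
  Hr0 : 0 ≤ Hr
  E0 : 0 ≤ E
  full : ∀ w z u v, u ∈ T1 w → v ∈ T2 w → Yl j e z u v ∈ iv P → z ∈ T0 w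
  hex : ∀ w, ∀ z ∈ T0 w, ∀ n a b, d ≤ n → Ins (Yl j e z) (iv P) n a b →
    OpC (Cel159.msk (T0 w ×ˢ (T1 w ×ˢ T2 w)) (C w) z) n a b ρ
  hrow : ∀ w, ∀ z ∈ T0 w, ∀ m a b, Mx (Yl j e z) k P m a b → d ≤ m →
    ∀ u ∈ dI m a ∩ T1 w, ∑ v ∈ dI m b ∩ T2 w, ‖C w (z, u, v)‖ ^ 2 ≤ Hr * 2 ^ m
  hcol : ∀ w, ∀ z ∈ T0 w, ∀ m a b, Mx (Yl j e z) k P m a b → d ≤ m →
    ∀ v ∈ dI m b ∩ T2 w, ∑ u ∈ dI m a ∩ T1 w, ‖C w (z, u, v)‖ ^ 2 ≤ Hr * 2 ^ m
  hE : ∑ w, kap w * ∑ ω ∈ (T0 w ×ˢ (T1 w ×ˢ T2 w)).filter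
    (fun ω => Yl j e ω.1 ω.2.1 ω.2.2 ∈ iv P), ‖C w ω‖ ^ 2 ≤ E * len P

/-- letters of a window -/
structure SKB {ι : Type} [Fintype ι] (kap : ι → ℝ) (j : Fin 4) (e : Fin 3)
    (T1 T2 : ι → Finset ℤ) (W : Finset Nd) (al : ι → ℤ → ℤ → ℂ) (F : Fin 4 → ℤ → ℂ)
    (A g1 d1 g2 d2 mb H0 : ℝ) : Prop where
  A0 : 0 ≤ A
  g10 : 0 ≤ g1
  d10 : 0 ≤ d1
  g20 : 0 ≤ g2
  d20 : 0 ≤ d2
  H00 : 0 ≤ H0
  l2 : ∀ p ∈ W, ∀ i : Fin 3, ∑ y ∈ iv p, ‖F (j.succAbove i) y‖ ^ 2 ≤ A * len p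
  nc1 : ∀ p ∈ W, NCs p g1 d1 (F (j.succAbove (e + 2)))
  nc2 : ∀ p ∈ W, NCs p g2 d2 (F (j.succAbove (e + 1)))
  gm : ∑ w, kap w * ∑ u ∈ T1 w, ∑ v ∈ T2 w, ‖al w u v‖ ^ 2 ≤ mb
  gh : ∀ w, ∀ u ∈ T1 w, ∀ v ∈ T2 w, ∀ y, ‖al w u v‖ * ‖F (j.succAbove e) y‖ ≤ H0

/-- three sets placed at `e`, `e + 1`, `e + 2` -/
def T3 (e : Fin 3) (A B C : Finset ℤ) (x : Fin 3) : Finset ℤ :=
  if x = e then A else if x = e + 1 then B else C

lemma T3_0 (e : Fin 3) (A B C : Finset ℤ) : T3 e A B C e = A := by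
  unfold T3; rw [if_pos rfl]

lemma T3_1 (e : Fin 3) (A B C : Finset ℤ) : T3 e A B C (e + 1) = B := by
  unfold T3
  rw [if_neg, if_pos rfl]
  revert e; decide

lemma T3_2 (e : Fin 3) (A B C : Finset ℤ) : T3 e A B C (e + 2) = C := by
  unfold T3
  rw [if_neg, if_neg]
  · revert e; decide
  · revert e; decide



end Crest.Agent.R079.SKx261
end

-- ▼ part R079/FrX_360
section

/-! R079 (helper360), T5b of note 1820: **the far word on a grid node for gauges with different boxes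
of positions** (`fa_word`, from 717's `FqP`).

The energy is given pointwise: `‖CU‖, ‖CW‖ ≤ ‖B‖` on the cells and `B` has energy `≤ G 2^q0.1` on the
strip of `q0`. -/

set_option autoImplicit false
set_option linter.unusedSectionVars false

namespace Crest.Agent.R079.FrWx360

open Finset Crest.Agent.R079.Grid Crest.Agent.R079.Growth Crest.Agent.R079.QRed
  Crest.Agent.R079.Qh249 Crest.Agent.R079.QVar181
  Crest.Agent.R079.TWin Crest.Agent.R079.Glue Crest.Agent.R079.SWc360 Crest.Agent.R079.Cel159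
  Crest.Agent.R079.SplSx69 Crest.Agent.R079.ThA159 Crest.Agent.R079.SKx261
open Crest.Agent.R079.FrQx717 (tcell FQ FqP)

open scoped ComplexConjugate

/-- data of the frames of a node `P' = q0` below the sub-top `P = K`, one box of positions per
gauge -/
structure FA {ι τ : Type} [Fintype ι] [Fintype τ] (kap : ι → ℝ) (j : Fin 4) (e : Fin 3)
    (k κ0 d C0 : ℕ) (P P' : Nd) (T0 T1 T2 : ι → Finset ℤ) (R : Finset Nd)
    (Pf Qf : ι → ℤ → ℕ × ℤ × ℤ → ℤ → τ → ℂ) (CU CW : ι → ℤ → ℕ × ℤ × ℤ → ℤ → ℤ → ℂ)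
    (B : ι → ℤ × ℤ × ℤ → ℂ) (ρ r Hr G : ℝ) : Prop where
  kap0 : ∀ w, 0 ≤ kap w
  hC : 2 ^ κ0 ≤ C0
  hP : iv P' ⊆ iv P
  hna : ¬ Adj C0 P P'
  hR : ∀ p ∈ R, p.1 ≤ P'.1
  hRd : ∀ p ∈ R, d ≤ p.1
  ρ0 : 0 ≤ ρ
  r0 : 0 < r
  Hr0 : 0 ≤ Hr
  G0 : 0 ≤ G
  full : ∀ w z u v, u ∈ T1 w → v ∈ T2 w → Yl j e z u v ∈ iv P → z ∈ T0 w
  supU : ∀ w z t u v, CU w z t u v ≠ 0 → u ∈ T1 w ∧ v ∈ T2 w ∧ Yl j e z u v ∈ iv P'
  supW : ∀ w z t u v, CW w z t u v ≠ 0 → u ∈ T1 w ∧ v ∈ T2 w ∧ Yl j e z u v ∈ iv P'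
  opU : ∀ w, ∀ z ∈ T0 w, ∀ t : ℕ × ℤ × ℤ, Mx (Yl j e z) k P t.1 t.2.1 t.2.2 →
    ∀ n, d ≤ n → n ≤ P'.1 + κ0 → ∀ a b, dI n a ⊆ dI t.1 t.2.1 → dI n b ⊆ dI t.1 t.2.2 →
      OpC (CU w z t) n a b ρ
  opW : ∀ w, ∀ z ∈ T0 w, ∀ t : ℕ × ℤ × ℤ, Mx (Yl j e z) k P t.1 t.2.1 t.2.2 →
    ∀ n, d ≤ n → n ≤ P'.1 + κ0 → ∀ a b, dI n a ⊆ dI t.1 t.2.1 → dI n b ⊆ dI t.1 t.2.2 →
      OpC (CW w z t) n a b ρ
  majU : ∀ w, ∀ z ∈ T0 w, ∀ t : ℕ × ℤ × ℤ, Mx (Yl j e z) k P t.1 t.2.1 t.2.2 →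
    ∀ (a' : ℤ) (f : ℤ → ℂ),
    ∑ l, ‖∑ u ∈ dI P'.1 a' ∩ dI t.1 t.2.1, f u * Pf w z t u l‖ ^ 2 ≤
      (r⁻¹ / 2 ^ P'.1) * ∑ v ∈ dI t.1 t.2.2,
        ‖∑ u ∈ dI P'.1 a' ∩ dI t.1 t.2.1, f u * CU w z t u v‖ ^ 2
  majW : ∀ w, ∀ z ∈ T0 w, ∀ t : ℕ × ℤ × ℤ, Mx (Yl j e z) k P t.1 t.2.1 t.2.2 →
    ∀ (b' : ℤ) (f : ℤ → ℂ),
    ∑ l, ‖∑ v ∈ dI P'.1 b' ∩ dI t.1 t.2.2, f v * Qf w z t v l‖ ^ 2 ≤
      (r⁻¹ / 2 ^ P'.1) * ∑ u ∈ dI t.1 t.2.1,
        ‖∑ v ∈ dI P'.1 b' ∩ dI t.1 t.2.2, f v * CW w z t u v‖ ^ 2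
  rowU : ∀ w, ∀ z ∈ T0 w, ∀ t : ℕ × ℤ × ℤ, Mx (Yl j e z) k P t.1 t.2.1 t.2.2 →
    ∀ u ∈ dI t.1 t.2.1, ∑ v ∈ dI t.1 t.2.2, ‖CU w z t u v‖ ^ 2 ≤ Hr * 2 ^ P'.1
  colW : ∀ w, ∀ z ∈ T0 w, ∀ t : ℕ × ℤ × ℤ, Mx (Yl j e z) k P t.1 t.2.1 t.2.2 →
    ∀ v ∈ dI t.1 t.2.2, ∑ u ∈ dI t.1 t.2.1, ‖CW w z t u v‖ ^ 2 ≤ Hr * 2 ^ P'.1
  ptU : ∀ w, ∀ z ∈ T0 w, ∀ t : ℕ × ℤ × ℤ, ∀ u ∈ dI t.1 t.2.1, ∀ v ∈ dI t.1 t.2.2,
    ‖CU w z t u v‖ ≤ ‖B w (z, u, v)‖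
  ptW : ∀ w, ∀ z ∈ T0 w, ∀ t : ℕ × ℤ × ℤ, ∀ u ∈ dI t.1 t.2.1, ∀ v ∈ dI t.1 t.2.2,
    ‖CW w z t u v‖ ≤ ‖B w (z, u, v)‖
  enB : ∑ w, kap w * ∑ ω ∈ (T0 w ×ˢ (T1 w ×ˢ T2 w)).filter
    (fun ω => Yl j e ω.1 ω.2.1 ω.2.2 ∈ iv P'), ‖B w ω‖ ^ 2 ≤ G * 2 ^ P'.1

/-- **energy over the cells from the energy over the positions** -/
theorem en_cells {j : Fin 4} {e : Fin 3} {k : ℕ} {P P' : Nd} {T : Fin 3 → Finset ℤ}
    {T0 T1 T2 : Finset ℤ} (hP : iv P' ⊆ iv P) (CU : ℤ → ℕ × ℤ × ℤ → ℤ → ℤ → ℂ)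
    (B : ℤ × ℤ × ℤ → ℂ)
    (hfull : ∀ z u v, u ∈ T1 → v ∈ T2 → Yl j e z u v ∈ iv P → z ∈ T0)
    (hsup : ∀ z t u v, CU z t u v ≠ 0 → u ∈ T1 ∧ v ∈ T2 ∧ Yl j e z u v ∈ iv P')
    (hpt : ∀ z ∈ T0, ∀ t : ℕ × ℤ × ℤ, ∀ u ∈ dI t.1 t.2.1, ∀ v ∈ dI t.1 t.2.2,
      ‖CU z t u v‖ ≤ ‖B (z, u, v)‖) :
    ∑ c ∈ Clx j e k P P' T, ∑ u ∈ dI c.2.1 c.2.2.1, ∑ v ∈ dI c.2.1 c.2.2.2,
        ‖CU c.1 c.2 u v‖ ^ 2 ≤
      ∑ ω ∈ (T0 ×ˢ (T1 ×ˢ T2)).filter (fun ω => Yl j e ω.1 ω.2.1 ω.2.2 ∈ iv P'), ‖B ω‖ ^ 2 := by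
  classical
  set St : Finset (ℤ × ℤ × ℤ) := (T0 ×ˢ (T1 ×ˢ T2)).filter
    (fun ω => Yl j e ω.1 ω.2.1 ω.2.2 ∈ iv P') with hSt
  have h1 : ∀ c ∈ Clx j e k P P' T, ∑ u ∈ dI c.2.1 c.2.2.1, ∑ v ∈ dI c.2.1 c.2.2.2,
      ‖CU c.1 c.2 u v‖ ^ 2 ≤ ∑ ω ∈ St.filter (fun ω => mcell (Yl j e) k P ω = c), ‖B ω‖ ^ 2 := by
    intro c hc
    obtain ⟨-, hM, -⟩ := Clx_spec hP hc
    rw [← Finset.sum_product']
    have h2 : ∑ x ∈ dI c.2.1 c.2.2.1 ×ˢ dI c.2.1 c.2.2.2, ‖CU c.1 c.2 x.1 x.2‖ ^ 2 =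
        ∑ x ∈ (dI c.2.1 c.2.2.1 ×ˢ dI c.2.1 c.2.2.2).filter
          (fun x => CU c.1 c.2 x.1 x.2 ≠ 0), ‖CU c.1 c.2 x.1 x.2‖ ^ 2 := by
      symm
      apply Finset.sum_subset (Finset.filter_subset _ _)
      intro x hx hx'
      rw [Finset.mem_filter, not_and, not_not] at hx'
      rw [hx' hx, norm_zero, zero_pow two_ne_zero]
    rw [h2]
    have hz : ∀ x ∈ (dI c.2.1 c.2.2.1 ×ˢ dI c.2.1 c.2.2.2).filter
        (fun x => CU c.1 c.2 x.1 x.2 ≠ 0), c.1 ∈ T0 ∧ x.1 ∈ dI c.2.1 c.2.2.1 ∧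
          x.2 ∈ dI c.2.1 c.2.2.2 ∧ x.1 ∈ T1 ∧ x.2 ∈ T2 ∧ Yl j e c.1 x.1 x.2 ∈ iv P' := by
      intro x hx
      rw [Finset.mem_filter, Finset.mem_product] at hx
      obtain ⟨a1, a2, a3⟩ := hsup c.1 c.2 x.1 x.2 hx.2
      exact ⟨hfull _ _ _ a1 a2 (hP a3), hx.1.1, hx.1.2, a1, a2, a3⟩
    calc ∑ x ∈ (dI c.2.1 c.2.2.1 ×ˢ dI c.2.1 c.2.2.2).filter
          (fun x => CU c.1 c.2 x.1 x.2 ≠ 0), ‖CU c.1 c.2 x.1 x.2‖ ^ 2
        ≤ ∑ x ∈ (dI c.2.1 c.2.2.1 ×ˢ dI c.2.1 c.2.2.2).filter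
          (fun x => CU c.1 c.2 x.1 x.2 ≠ 0), ‖B (c.1, x.1, x.2)‖ ^ 2 := by
          refine Finset.sum_le_sum fun x hx => ?_
          obtain ⟨b0, b1, b2, -⟩ := hz x hx
          exact pow_le_pow_left₀ (norm_nonneg _) (hpt c.1 b0 c.2 x.1 b1 x.2 b2) 2
      _ = ∑ ω ∈ ((dI c.2.1 c.2.2.1 ×ˢ dI c.2.1 c.2.2.2).filter
          (fun x => CU c.1 c.2 x.1 x.2 ≠ 0)).image (fun x => (c.1, x.1, x.2)), ‖B ω‖ ^ 2 := by
          rw [Finset.sum_image]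
          intro x _ x' _ hxx
          simp only [Prod.mk.injEq, true_and] at hxx
          exact Prod.ext hxx.1 hxx.2
      _ ≤ _ := by
          refine Finset.sum_le_sum_of_subset_of_nonneg ?_ fun _ _ _ => sq_nonneg _
          intro ω hω
          obtain ⟨x, hx, rfl⟩ := Finset.mem_image.1 hω
          obtain ⟨b0, b1, b2, b3, b4, b5⟩ := hz x hx
          rw [Finset.mem_filter]
          refine ⟨?_, ?_⟩
          · rw [hSt, Finset.mem_filter, Finset.mem_product, Finset.mem_product]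
            exact ⟨⟨b0, b3, b4⟩, b5⟩
          · have hM' : Mx (Yl j e c.1) k P (mcell (Yl j e) k P (c.1, x.1, x.2)).2.1
                (mcell (Yl j e) k P (c.1, x.1, x.2)).2.2.1
                (mcell (Yl j e) k P (c.1, x.1, x.2)).2.2.2 :=
              Mx_mcell (ω := (c.1, x.1, x.2)) (hP b5)
            have hu : x.1 ∈ dI (mcell (Yl j e) k P (c.1, x.1, x.2)).2.1
                (mcell (Yl j e) k P (c.1, x.1, x.2)).2.2.1 := by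
              rw [L0e.mem_dI]; rfl
            have hv : x.2 ∈ dI (mcell (Yl j e) k P (c.1, x.1, x.2)).2.1
                (mcell (Yl j e) k P (c.1, x.1, x.2)).2.2.2 := by
              rw [L0e.mem_dI]; rfl
            obtain ⟨e1, e2, e3⟩ := Mx_eq hM' hM hu b1 hv b2
            exact Prod.ext rfl (Prod.ext e1 (Prod.ext e2 e3))
  refine (Finset.sum_le_sum h1).trans ?_
  have h3 : ∑ c ∈ Clx j e k P P' T, ∑ ω ∈ St.filter (fun ω => mcell (Yl j e) k P ω = c),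
      ‖B ω‖ ^ 2 = ∑ ω ∈ St.filter (fun ω => mcell (Yl j e) k P ω ∈ Clx j e k P P' T),
        ‖B ω‖ ^ 2 := by
    rw [← Finset.sum_fiberwise_of_maps_to (s := St.filter
      (fun ω => mcell (Yl j e) k P ω ∈ Clx j e k P P' T)) (t := Clx j e k P P' T)
      (g := mcell (Yl j e) k P) (fun ω hω => (Finset.mem_filter.1 hω).2)]
    refine Finset.sum_congr rfl fun c hc => Finset.sum_congr ?_ fun _ _ => rfl
    ext ω
    simp only [Finset.mem_filter]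
    constructor
    · rintro ⟨a1, a2⟩
      exact ⟨⟨a1, by rw [a2]; exact hc⟩, a2⟩
    · rintro ⟨⟨a1, _⟩, a2⟩
      exact ⟨a1, a2⟩
  rw [h3]
  exact Finset.sum_le_sum_of_subset_of_nonneg (Finset.filter_subset _ _) fun _ _ _ => sq_nonneg _

/-- **the far word on a grid node, one box of positions per gauge** -/
theorem fa_word (hfq : FqP) : ∃ K : ℝ, 0 ≤ K ∧ ∃ κ0 : ℕ, ∀ (bb : ℤ), bb = -1 ∨ bb = -7 →
    ∀ (R : Finset Nd) (P' : Nd), IsRegion R P' → ∀ (j : Fin 4) (e : Fin 3) {ι τ : Type}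
    [Fintype ι] [Fintype τ] [DecidableEq τ] (kap : ι → ℝ) (k d C0 : ℕ) (P : Nd)
    (T0 T1 T2 : ι → Finset ℤ) (Pf Qf : ι → ℤ → ℕ × ℤ × ℤ → ℤ → τ → ℂ)
    (CU CW : ι → ℤ → ℕ × ℤ × ℤ → ℤ → ℤ → ℂ) (B : ι → ℤ × ℤ × ℤ → ℂ) (ρ r Hr G : ℝ)
    (al : ι → ℤ → ℤ → ℂ) (F : Fin 4 → ℤ → ℂ) (A g1 d1 g2 d2 mb H0 : ℝ) (m0 : ℕ) (Θ : ℝ),
    FA kap j e k κ0 d C0 P P' T0 T1 T2 R Pf Qf CU CW B ρ r Hr G →
    SKB kap j e T1 T2 R al F A g1 d1 g2 d2 mb H0 → (∀ p ∈ R, m0 ≤ p.1) →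
    SKZ Θ A g1 d1 g2 d2 ρ r Hr G mb H0 →
    (∀ y ∈ iv P', F j y = ∑ w, (kap w : ℂ) *
      ∑ ω ∈ (T0 w ×ˢ (T1 w ×ˢ T2 w)).filter (fun ω => Yl j e ω.1 ω.2.1 ω.2.2 = y),
        (∑ l, Pf w ω.1 (tcell j e k P ω.1 ω.2.1 ω.2.2) ω.2.1 l *
          Qf w ω.1 (tcell j e k P ω.1 ω.2.1 ω.2.2) ω.2.2 l) * conj (al w ω.2.1 ω.2.2)) →
    ∑ p ∈ R, ∑ x ∈ adm p.1 p.2, ‖Lbox (2 ^ p.1) bb F x‖ ≤
      K * (Real.sqrt (Real.sqrt (XS A g1 d1 ρ r Hr m0 Θ⁻¹ * XS A g2 d2 ρ r Hr m0 Θ⁻¹) *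
        (G + Θ⁻¹) * (A * mb + Θ⁻¹)) * (1 + Real.log Θ) * 2 ^ (P'.1 + 7)) := by
  classical
  obtain ⟨K, hK, κ0, h⟩ := hfq
  refine ⟨K, hK, κ0, ?_⟩
  intro bb hbb R P' hR j e ι τ _ _ _ kap k d C0 P T0 T1 T2 Pf Qf CU CW B ρ r Hr G al F A g1 d1 g2 d2
    mb H0 m0 Θ HA HB hm0 Z hrep
  set T : Fin 3 → Finset ℤ := T3 e (univ.biUnion T0) (univ.biUnion T1) (univ.biUnion T2) with hT
  have t0 : T e = univ.biUnion T0 := T3_0 _ _ _ _
  have t1 : T (e + 1) = univ.biUnion T1 := T3_1 _ _ _ _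
  have t2 : T (e + 2) = univ.biUnion T2 := T3_2 _ _ _ _
  have s0 : ∀ w, T0 w ⊆ T e := fun w => by
    rw [t0]; exact Finset.subset_biUnion_of_mem T0 (Finset.mem_univ w)
  have s1 : ∀ w, T1 w ⊆ T (e + 1) := fun w => by
    rw [t1]; exact Finset.subset_biUnion_of_mem T1 (Finset.mem_univ w)
  have s2 : ∀ w, T2 w ⊆ T (e + 2) := fun w => by
    rw [t2]; exact Finset.subset_biUnion_of_mem T2 (Finset.mem_univ w)
  have mb3 : ∀ w (z u v : ℤ), (z, u, v) ∈ T0 w ×ˢ (T1 w ×ˢ T2 w) ↔ z ∈ T0 w ∧ u ∈ T1 w ∧ v ∈ T2 w :=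
    fun w z u v => by rw [Finset.mem_product, Finset.mem_product]
  set Pf' : ι → ℤ → ℕ × ℤ × ℤ → ℤ → τ → ℂ := fun w z t u l =>
    if z ∈ T0 w then Pf w z t u l else 0 with hPf'
  set Qf' : ι → ℤ → ℕ × ℤ × ℤ → ℤ → τ → ℂ := fun w z t u l =>
    if z ∈ T0 w then Qf w z t u l else 0 with hQf'
  set al' : ι → ℤ → ℤ → ℂ := fun w u v => if u ∈ T1 w ∧ v ∈ T2 w then al w u v else 0 with hal'
  have zU : ∀ w z, z ∉ T0 w → ∀ t u v, CU w z t u v = 0 := by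
    intro w z hz t u v
    by_contra hne
    obtain ⟨a1, a2, a3⟩ := HA.supU w z t u v hne
    exact hz (HA.full w z u v a1 a2 (HA.hP a3))
  have zW : ∀ w z, z ∉ T0 w → ∀ t u v, CW w z t u v = 0 := by
    intro w z hz t u v
    by_contra hne
    obtain ⟨a1, a2, a3⟩ := HA.supW w z t u v hne
    exact hz (HA.full w z u v a1 a2 (HA.hP a3))
  have zOp : ∀ {C : ℤ → ℤ → ℂ}, (∀ u v, C u v = 0) → ∀ n a b, OpC C n a b ρ := by
    intro C hC n a b ξ ζ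
    have e0 : ∑ u ∈ dI n a, ∑ v ∈ dI n b, C u v * (ξ u * ζ v) = 0 :=
      Finset.sum_eq_zero fun u _ => Finset.sum_eq_zero fun v _ => by rw [hC, zero_mul]
    rw [e0, norm_zero]
    have := HA.ρ0
    positivity
  have hri : 0 ≤ r⁻¹ / 2 ^ P'.1 := by
    have := HA.r0
    positivity
  have hFQ : FQ (univ : Finset ι) kap j e k κ0 d C0 P P' T R Pf' Qf' CU CW ρ r Hr G := by
    refine ⟨fun w _ => HA.kap0 w, HA.hC, HA.hP, HA.hna, HA.hR, HA.hRd, HA.ρ0, HA.r0, HA.Hr0, HA.G0,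
      ?_, ?_, ?_, ?_, ?_, ?_, ?_, ?_, ?_, ?_⟩
    · intro w _ z _ t u v hne
      obtain ⟨a1, a2, a3⟩ := HA.supU w z t u v hne
      exact ⟨s1 w a1, s2 w a2, a3⟩
    · intro w _ z _ t u v hne
      obtain ⟨a1, a2, a3⟩ := HA.supW w z t u v hne
      exact ⟨s1 w a1, s2 w a2, a3⟩
    · intro w _ z _ t hM n hd hn a b ha hb
      by_cases hz : z ∈ T0 w
      · exact HA.opU w z hz t hM n hd hn a b ha hb
      · exact zOp (zU w z hz t) n a b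
    · intro w _ z _ t hM n hd hn a b ha hb
      by_cases hz : z ∈ T0 w
      · exact HA.opW w z hz t hM n hd hn a b ha hb
      · exact zOp (zW w z hz t) n a b
    · intro w _ z _ t hM a' f
      by_cases hz : z ∈ T0 w
      · simp only [hPf', if_pos hz]
        exact HA.majU w z hz t hM a' f
      · simp only [hPf', if_neg hz, mul_zero, Finset.sum_const_zero, norm_zero, ne_eq,
          OfNat.ofNat_ne_zero, not_false_eq_true, zero_pow]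
        exact mul_nonneg hri (Finset.sum_nonneg fun _ _ => sq_nonneg _)
    · intro w _ z _ t hM b' f
      by_cases hz : z ∈ T0 w
      · simp only [hQf', if_pos hz]
        exact HA.majW w z hz t hM b' f
      · simp only [hQf', if_neg hz, mul_zero, Finset.sum_const_zero, norm_zero, ne_eq,
          OfNat.ofNat_ne_zero, not_false_eq_true, zero_pow]
        exact mul_nonneg hri (Finset.sum_nonneg fun _ _ => sq_nonneg _)
    · intro w _ z _ t hM u hu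
      by_cases hz : z ∈ T0 w
      · exact HA.rowU w z hz t hM u hu
      · rw [Finset.sum_eq_zero fun v _ => by rw [zU w z hz, norm_zero, zero_pow two_ne_zero]]
        have := HA.Hr0
        positivity
    · intro w _ z _ t hM v hv
      by_cases hz : z ∈ T0 w
      · exact HA.colW w z hz t hM v hv
      · rw [Finset.sum_eq_zero fun u _ => by rw [zW w z hz, norm_zero, zero_pow two_ne_zero]]
        have := HA.Hr0
        positivity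
    · refine le_trans (Finset.sum_le_sum fun w _ => mul_le_mul_of_nonneg_left ?_ (HA.kap0 w))
        HA.enB
      exact en_cells HA.hP (CU w) (B w) (HA.full w) (HA.supU w) (HA.ptU w)
    · refine le_trans (Finset.sum_le_sum fun w _ => mul_le_mul_of_nonneg_left ?_ (HA.kap0 w))
        HA.enB
      exact en_cells HA.hP (CW w) (B w) (HA.full w) (HA.supW w) (HA.ptW w)
  have hSKL : SKL (univ : Finset ι) kap j e T R al' F A g1 d1 g2 d2 mb H0 m0 := by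
    refine ⟨HB.A0, HB.g10, HB.d10, HB.g20, HB.d20, HB.H00, hm0, HB.l2, HB.nc1, HB.nc2, ?_, ?_⟩
    · refine le_trans (Finset.sum_le_sum fun w _ => mul_le_mul_of_nonneg_left ?_ (HA.kap0 w)) HB.gm
      rw [← Finset.sum_subset (s1 w) (f := fun u => ∑ v ∈ T (e + 2), ‖al' w u v‖ ^ 2)]
      · refine Finset.sum_le_sum fun u hu => ?_
        rw [← Finset.sum_subset (s2 w) (f := fun v => ‖al' w u v‖ ^ 2)]
        · refine le_of_eq (Finset.sum_congr rfl fun v hv => ?_)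
          simp only [hal']
          rw [if_pos ⟨hu, hv⟩]
        · intro v _ hv
          simp only [hal']
          rw [if_neg (fun hc => hv hc.2), norm_zero, zero_pow two_ne_zero]
      · intro u _ hu
        refine Finset.sum_eq_zero fun v _ => ?_
        simp only [hal']
        rw [if_neg (fun hc => hu hc.1), norm_zero, zero_pow two_ne_zero]
    · intro w _ u v y
      simp only [hal']
      split_ifs with hc
      · exact HB.gh w u hc.1 v hc.2 y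
      · rw [norm_zero, zero_mul]
        exact HB.H00
  refine h bb hbb R P' hR j e (univ : Finset ι) kap k d C0 P T Pf' Qf' CU CW ρ r Hr G al' F A g1 d1
    g2 d2 mb H0 m0 Θ hFQ hSKL Z ?_
  intro y hy
  rw [hrep y hy]
  refine Finset.sum_congr rfl fun w _ => ?_
  congr 1
  have hk : kerG j e T (fun z u v => (∑ l, Pf' w z (tcell j e k P z u v) u l *
      Qf' w z (tcell j e k P z u v) v l) * conj (al' w u v)) y =
      ∑ ω ∈ (S3 T e).filter (fun ω => Yl j e ω.1 ω.2.1 ω.2.2 = y),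
        (∑ l, Pf' w ω.1 (tcell j e k P ω.1 ω.2.1 ω.2.2) ω.2.1 l *
          Qf' w ω.1 (tcell j e k P ω.1 ω.2.1 ω.2.2) ω.2.2 l) * conj (al' w ω.2.1 ω.2.2) := by
    unfold kerG S3
    rw [Finset.sum_filter, Finset.sum_product]
    refine Finset.sum_congr rfl fun z _ => ?_
    rw [Finset.sum_product]
  rw [hk]
  have hsub : (T0 w ×ˢ (T1 w ×ˢ T2 w)).filter (fun ω => Yl j e ω.1 ω.2.1 ω.2.2 = y) ⊆
      (S3 T e).filter (fun ω => Yl j e ω.1 ω.2.1 ω.2.2 = y) := by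
    intro ω hω
    rw [Finset.mem_filter] at hω ⊢
    obtain ⟨a1, a2, a3⟩ := (mb3 w ω.1 ω.2.1 ω.2.2).1 hω.1
    exact ⟨mem_S3.2 ⟨s0 w a1, s1 w a2, s2 w a3⟩, hω.2⟩
  rw [← Finset.sum_subset hsub]
  · refine Finset.sum_congr rfl fun ω hω => ?_
    obtain ⟨z, u, v⟩ := ω
    rw [Finset.mem_filter] at hω
    obtain ⟨a1, a2, a3⟩ := (mb3 w z u v).1 hω.1
    simp only [hPf', hQf', hal', if_pos a1, if_pos (show u ∈ T1 w ∧ v ∈ T2 w from ⟨a2, a3⟩)]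
  · intro ω hω hω'
    obtain ⟨z, u, v⟩ := ω
    rw [Finset.mem_filter] at hω
    have hyω : Yl j e z u v = y := hω.2
    have e3 : al' w u v = 0 := by
      simp only [hal']
      rw [if_neg]
      intro hc
      apply hω'
      refine Finset.mem_filter.2 ⟨(mb3 w z u v).2 ⟨?_, hc⟩, hω.2⟩
      exact HA.full w z u v hc.1 hc.2 (by rw [hyω]; exact HA.hP hy)
    show _ * conj (al' w u v) = 0
    rw [e3, map_zero, mul_zero]

end Crest.Agent.R079.FrWx360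
end

-- ▼ part R079/SKt_69
section

/-! R079 (helper69): `sktot : SKtotP` = the (S) word of a window, summed over the Whitney tops of the
top `P` (helper261's literal `SKtotP` of SKy_261), from `SKword`, `split_region'`, `sum_GP'`. -/

set_option autoImplicit false

namespace Crest.Agent.R079.SKtx69

open Finset Crest.Agent.R079.Grid Crest.Agent.R079.Growth Crest.Agent.R079.QRed
  Crest.Agent.R079.Qh249 Crest.Agent.R079.QVar181
  Crest.Agent.R079.TWin Crest.Agent.R079.Glue Crest.Agent.R079.SWc360 Crest.Agent.R079.Cel159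
  Crest.Agent.R079.SplSx69 Crest.Agent.R079.ThA159 Crest.Agent.R079.SKx261

open scoped ComplexConjugate




/-- the gain is monotone in the floor -/
lemma XS_mono {A g d ρ r Hr : ℝ} {m0 : ℕ} {θ θ' : ℝ} (h : θ ≤ θ') :
    XS A g d ρ r Hr m0 θ ≤ XS A g d ρ r Hr m0 θ' := by
  unfold XS
  linarith

lemma XS_nonneg {A g d ρ r Hr : ℝ} {m0 : ℕ} {θ : ℝ} (hd : 0 ≤ d) (hr : 0 < r) (hHr : 0 ≤ Hr)
    (hθ : 0 ≤ θ) : 0 ≤ XS A g d ρ r Hr m0 θ := by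
  have h1 := hS_nonneg hr hHr
  have h2 := eS_nonneg ρ r
  unfold XS
  positivity

/-- scalar inequality -/
lemma sc_le {Θ G : ℝ} (hΘ : 1 ≤ Θ) (hG : 0 ≤ G) :
    Real.sqrt (G + (max Θ G)⁻¹) * (1 + Real.log (max Θ G)) ≤
      3 * (1 + Real.log Θ) * (1 + G) := by
  have hl : 0 ≤ Real.log Θ := Real.log_nonneg hΘ
  rcases le_total G Θ with h | h
  · rw [max_eq_left h]
    have h1 : Θ⁻¹ ≤ 1 := inv_le_one_of_one_le₀ hΘ
    have h2 : Real.sqrt (G + Θ⁻¹) ≤ 1 + G := by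
      rw [Real.sqrt_le_left (by positivity)]
      nlinarith
    calc Real.sqrt (G + Θ⁻¹) * (1 + Real.log Θ) ≤ (1 + G) * (1 + Real.log Θ) := by gcongr
      _ ≤ 3 * (1 + Real.log Θ) * (1 + G) := by nlinarith [mul_nonneg hG hl]
  · rw [max_eq_right h]
    have hG1 : 1 ≤ G := hΘ.trans h
    have hG0 : 0 < G := by linarith
    have hs0 : 0 < Real.sqrt G := Real.sqrt_pos.2 hG0
    have hs1 : 1 ≤ Real.sqrt G := by
      rw [Real.one_le_sqrt]; exact hG1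
    have h1 : G⁻¹ ≤ G := (inv_le_one_of_one_le₀ hG1).trans hG1
    have h2 : Real.log G ≤ 2 * (Real.sqrt G - 1) := by
      have h3 : Real.log G = 2 * Real.log (Real.sqrt G) := by
        rw [Real.log_sqrt hG0.le]; ring
      rw [h3]
      linarith [Real.log_le_sub_one_of_pos hs0]
    have h4 : Real.sqrt (G + G⁻¹) ≤ 3 / 2 * Real.sqrt G := by
      have h5 : Real.sqrt (G + G⁻¹) ≤ Real.sqrt (2 * G) := Real.sqrt_le_sqrt (by linarith)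
      have h6 : Real.sqrt (2 * G) ≤ 3 / 2 * Real.sqrt G := by
        rw [Real.sqrt_le_left (by positivity), mul_pow, Real.sq_sqrt hG0.le]
        linarith
      exact h5.trans h6
    have h7 : 0 ≤ Real.log G := Real.log_nonneg hG1
    have hss : Real.sqrt G * Real.sqrt G = G := Real.mul_self_sqrt hG0.le
    calc Real.sqrt (G + G⁻¹) * (1 + Real.log G) ≤
        3 / 2 * Real.sqrt G * (1 + 2 * (Real.sqrt G - 1)) := by gcongr
      _ ≤ 3 * G := by nlinarith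
      _ ≤ 3 * (1 + Real.log Θ) * (1 + G) := by nlinarith [mul_nonneg hG0.le hl]


end Crest.Agent.R079.SKtx69
end

-- ▼ part R079/AdjT_69
section

/-! R079 (helper69): **adjacent nodes of the windows**.

In the line model the structured letter of a window with top `Q` can be killed by static labelled
frames only at the nodes which are not adjacent to the ends of `iv Q`.  Given tops `T` we add the
children of the adjacent nodes of every window: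

  `adjT C0 R T = T ∪ {c ∈ win R T Q : c ≠ Q, Adj C0 Q (par c), Q ∈ T}`.

* `adj_tops` : again tops; `adj_len` : total length `≤ (1 + 8 C0)` times the old one;
* `own T p` : top of the `T`-window of `p`;
* `win_single` : the window of `w` with `Adj C0 (own T w) w` is `{w}`;
* `win_whit` : the window of `w` with `¬ Adj C0 (own T w) w` is `{p ∈ win R T (own T w) : p below w}`;
* `sum_adj` : totals over the new windows; `adj_nodes_len` : total length of the adjacent nodes;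
* `energy_adj` : energies over the new non-adjacent tops. -/

set_option autoImplicit false

namespace Crest.Agent.R079.AdjTx69

open Finset Crest.Agent.R079.Grid Crest.Agent.R079.Growth Crest.Agent.R079.QRed
open Crest.Agent.R079.TRec Crest.Agent.R079.SplSx69

variable {R : Finset Nd} {I : Nd} {T : Finset Nd} {C0 : ℕ}



/-- adjacency goes up -/
lemma adj_up {J : Nd} : ∀ (n : ℕ) (p q : Nd), q.1 - p.1 = n → Adj C0 J p → Le p q → Le q J →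
    Adj C0 J q := by
  intro n
  induction n with
  | zero =>
    intro p q hn ha hpq _
    have h := le_iff.1 hpq
    have e : p.1 = q.1 := by omega
    have e2 : p.2 = q.2 := by
      have := h.2
      rw [e] at this
      simpa using this
    rw [show q = p from (Prod.ext e e2).symm]
    exact ha
  | succ n ih =>
    intro p q hn ha hpq hqJ
    have h1 : p.1 < q.1 := by omega
    have h2 := (le_iff.1 hqJ).1
    exact ih (pa p) q (by unfold pa; simp only; omega) (adj_pa (by omega) ha) (pa_le hpq h1) hqJ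

lemma Adj.up {J p q : Nd} (ha : Adj C0 J p) (hpq : iv p ⊆ iv q) (hqJ : iv q ⊆ iv J) :
    Adj C0 J q := adj_up _ p q rfl ha hpq hqJ











/-! ### the old top of a node -/









/-! ### lengths -/






/-! ### energies -/




end Crest.Agent.R079.AdjTx69
end

-- ▼ part R079/NodeW_254
section

/-! R079 (helper254), W5 of msg 9864: near / far nodes of a window.

* `Nr C0 n0 P p`  : near node (adjacent to the ends of `P`, or of level `< n0`);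
* `near_sum`      : nonnegative node functions over the near nodes;
* `node_g0`       : ONE node, `Lbox` form, any four letters (killer non-collided, frozen letter bounded);
* `near_word`     : the word over the near nodes of a window, whole letters (`av` bounded on `W`);
* `sktotF`        : the (S) word over the FAR nodes of a window (no node bound needed). -/

set_option autoImplicit false

namespace Crest.Agent.R079.NodeWx254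

open Finset Crest.Agent.R079.Grid Crest.Agent.R079.Growth Crest.Agent.R079.QRed
  Crest.Agent.R079.Qh249 Crest.Agent.R079.QVar181
  Crest.Agent.R079.TWin Crest.Agent.R079.Glue Crest.Agent.R079.SWc360 Crest.Agent.R079.Cel159
  Crest.Agent.R079.SplSx69 Crest.Agent.R079.ThA159 Crest.Agent.R079.SKx261 Crest.Agent.R079.SKtx69

open Crest.Agent.R079.NC237 (NC2 NCol nc2_of_ncol)
open Crest.Agent.R079.TRec Crest.Agent.R079.AsmA844 Crest.Agent.R079.F2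

open scoped ComplexConjugate



/-- **ONE NODE**, `Lbox` form -/
theorem node_g0 {i m a b : Fin 4} (hD : Dst i m a b) {bb : ℤ} (hbb : bb = -1 ∨ bb = -7)
    {W : Finset Nd} {p : Nd} (hp : p ∈ W) (F : Fin 4 → ℤ → ℂ) {A H B g δ Sa Sb : ℝ}
    (hg : 0 ≤ g) (hδ : 0 ≤ δ) (hH : 0 ≤ H) (hSa : 0 ≤ Sa)
    (hP : av p (F i) ≤ A) (hPH : ∀ z ∈ iv p, ‖F i z‖ ≤ H) (hR : av p (F m) ≤ B)
    (hn : NCol W (F m) g δ) (ha : av p (F a) ≤ Sa) (hb : av p (F b) ≤ Sb) :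
    ∑ x ∈ adm p.1 p.2, ‖Lbox (2 ^ p.1) bb F x‖ ≤
      (2 ^ 12 * Real.sqrt (3 * g * A ^ 2 + δ * (H ^ 2 * B ^ 2)) * Sa * Sb) * 2 ^ (p.1 + 7) := by
  have h2 : ∀ f : Fn, ∀ C : ℝ, av p f ≤ C → ∑ z ∈ iv p, ‖f z‖ ^ 2 ≤ C ^ 2 * len p := fun f C h =>
    Leaf259.sum2_of_av h
  have h1 := NodeBx254.node_nc hD p hbb F hH hg (sq_nonneg A) (sq_nonneg B) hδ
    (h2 (F i) A hP) hPH (h2 (F m) B hR) (nc2_of_ncol hn hp hp rfl)
  refine h1.trans ?_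
  have hl : len p = 2 ^ (p.1 + 7) := rfl
  rw [hl]
  have a0 := Growth.av_nonneg p (F a)
  have b0 := Growth.av_nonneg p (F b)
  gcongr





end Crest.Agent.R079.NodeWx254
end

-- ▼ part R079/FrW_360
section

/-! R079 (helper360), T5b of note 1820: **the (S) word of one window `K` of the new tree**, from the far
words on the grid nodes `q0` (level `K.1 - j0`) and the node bound on the coarse / bottom nodes.

* `Nc j0 n0 P p`  : coarse (top `j0 + 1` levels) or bottom (level `< n0`) node;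
* `near_sum2`, `near_word2` : node functions / words over these nodes;
* `win_sum`       : coarse + bottom + far sums of the `q ∈ Q`;
* `win_word`      : the letter is a finite combination of letters on every `q`;
* `win_tot`       : the same with the energy summed over `Q`. -/

set_option autoImplicit false

namespace Crest.Agent.R079.FrWx360

open Finset Crest.Agent.R079.Grid Crest.Agent.R079.Growth Crest.Agent.R079.QRed
  Crest.Agent.R079.Qh249 Crest.Agent.R079.QVar181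
  Crest.Agent.R079.TWin Crest.Agent.R079.Glue Crest.Agent.R079.SWc360 Crest.Agent.R079.Cel159
  Crest.Agent.R079.SplSx69 Crest.Agent.R079.ThA159 Crest.Agent.R079.SKx261 Crest.Agent.R079.SKtx69
open Crest.Agent.R079.NC237 (NC2 NCol nc2_of_ncol)
open Crest.Agent.R079.TRec Crest.Agent.R079.AsmA844 Crest.Agent.R079.F2
open Crest.Agent.R079.NodeWx254 (node_g0)

open scoped ComplexConjugate

/-- coarse or bottom node of a window with top `P` -/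
def Nc (j0 n0 : ℕ) (P p : Nd) : Prop := P.1 ≤ p.1 + j0 ∨ p.1 < n0

open Classical in
/-- nonnegative node functions over the coarse and bottom nodes -/
theorem near_sum2 {W : Finset Nd} {P : Nd} (hW : ∀ p ∈ W, Le p P) (j0 n0 : ℕ) (f : Nd → ℝ)
    {g0 : ℝ} (hg0 : 0 ≤ g0) (h : ∀ p ∈ W, Nc j0 n0 P p → f p ≤ g0 * 2 ^ (p.1 + 7)) :
    ∑ p ∈ W.filter (fun p => Nc j0 n0 P p), f p ≤ (j0 + 1 + n0) * g0 * 2 ^ (P.1 + 7) := by
  set RN := W.filter fun p => Nc j0 n0 P p with hRN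
  have hs : RN ⊆ W := Finset.filter_subset _ _
  set M : Finset ℕ := Finset.Icc (P.1 - j0) P.1 ∪ Finset.range n0 with hM
  have hm : ∀ p ∈ RN, p.1 ∈ M := by
    intro p hp
    rw [hRN, Finset.mem_filter] at hp
    rw [hM, Finset.mem_union, Finset.mem_Icc, Finset.mem_range]
    have h1 := (le_iff.1 (hW p hp.1)).1
    rcases hp.2 with h2 | h2
    · exact Or.inl ⟨by omega, h1⟩
    · exact Or.inr h2
  have hc : (M.card : ℝ) ≤ j0 + 1 + n0 := by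
    have h1 : M.card ≤ (P.1 + 1 - (P.1 - j0)) + n0 := by
      refine (Finset.card_union_le _ _).trans ?_
      rw [Nat.card_Icc, Finset.card_range]
    have h2 : P.1 + 1 - (P.1 - j0) ≤ j0 + 1 := by omega
    have h3 : M.card ≤ j0 + 1 + n0 := by omega
    exact_mod_cast h3
  calc ∑ p ∈ RN, f p ≤ ∑ p ∈ RN, g0 * (2 : ℝ) ^ (p.1 + 7) :=
        Finset.sum_le_sum fun p hp => h p (hs hp) (Finset.mem_filter.1 hp).2
    _ = g0 * ∑ p ∈ RN, (2 : ℝ) ^ (p.1 + 7) := by rw [Finset.mul_sum]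
    _ = g0 * ∑ m ∈ M, ∑ p ∈ RN.filter (fun p => p.1 = m), (2 : ℝ) ^ (p.1 + 7) := by
        rw [Finset.sum_fiberwise_of_maps_to hm]
    _ ≤ g0 * ∑ m ∈ M, (2 : ℝ) ^ (P.1 + 7) := by
        refine mul_le_mul_of_nonneg_left (Finset.sum_le_sum fun m _ => ?_) hg0
        exact all_len P RN (fun p hp => hW p (hs hp)) m
    _ = M.card * g0 * 2 ^ (P.1 + 7) := by rw [Finset.sum_const, nsmul_eq_mul]; ring
    _ ≤ _ := by gcongr


open Classical in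
/-- **coarse + bottom + far sums** -/
theorem win_sum {W : Finset Nd} {P : Nd} (hW : ∀ p ∈ W, Le p P) (j0 n0 : ℕ) (f : Nd → ℝ)
    (hf : ∀ p ∈ W, 0 ≤ f p) {g0 : ℝ} (hg0 : 0 ≤ g0)
    (h0 : ∀ p ∈ W, Nc j0 n0 P p → f p ≤ g0 * 2 ^ (p.1 + 7))
    (Q : Finset Nd) (hQ : ∀ p ∈ W, ¬ Nc j0 n0 P p → ∃ q ∈ Q, Le p q) (B : Nd → ℝ)
    (hB : ∀ q ∈ Q, ∑ p ∈ W.filter (fun p => Le p q ∧ n0 ≤ p.1), f p ≤ B q) :
    ∑ p ∈ W, f p ≤ (j0 + 1 + n0) * g0 * 2 ^ (P.1 + 7) + ∑ q ∈ Q, B q := by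
  rw [← Finset.sum_filter_add_sum_filter_not W (fun p => Nc j0 n0 P p)]
  refine add_le_add (near_sum2 hW j0 n0 f hg0 h0) ?_
  refine le_trans ?_ (Finset.sum_le_sum hB)
  set R := W.filter (fun p => ¬ Nc j0 n0 P p) with hR
  have hsub : R ⊆ Q.biUnion (fun q => W.filter (fun p => Le p q ∧ n0 ≤ p.1)) := by
    intro p hp
    rw [hR, Finset.mem_filter] at hp
    obtain ⟨q, hq, hpq⟩ := hQ p hp.1 hp.2
    rw [Finset.mem_biUnion]
    refine ⟨q, hq, Finset.mem_filter.2 ⟨hp.1, hpq, ?_⟩⟩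
    by_contra hlt
    exact hp.2 (Or.inr (by omega))
  calc ∑ p ∈ R, f p ≤ ∑ p ∈ Q.biUnion (fun q => W.filter (fun p => Le p q ∧ n0 ≤ p.1)), f p :=
        Finset.sum_le_sum_of_subset_of_nonneg hsub fun p hp _ => by
          obtain ⟨q, _, hq⟩ := Finset.mem_biUnion.1 hp
          exact hf p (Finset.mem_filter.1 hq).1
    _ ≤ ∑ q ∈ Q, ∑ p ∈ W.filter (fun p => Le p q ∧ n0 ≤ p.1), f p := by
        have key : ∀ (Q : Finset Nd), ∑ p ∈ Q.biUnion (fun q => W.filter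
            (fun p => Le p q ∧ n0 ≤ p.1)), f p ≤
            ∑ q ∈ Q, ∑ p ∈ W.filter (fun p => Le p q ∧ n0 ≤ p.1), f p := by
          intro Q
          induction Q using Finset.induction_on with
          | empty => simp
          | insert q Q hq ih =>
            rw [Finset.biUnion_insert, Finset.sum_insert hq]
            have h1 := Finset.sum_union_inter (s₁ := W.filter (fun p => Le p q ∧ n0 ≤ p.1))
              (s₂ := Q.biUnion (fun q => W.filter (fun p => Le p q ∧ n0 ≤ p.1))) (f := f)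
            have h2 : 0 ≤ ∑ p ∈ W.filter (fun p => Le p q ∧ n0 ≤ p.1) ∩
                Q.biUnion (fun q => W.filter (fun p => Le p q ∧ n0 ≤ p.1)), f p :=
              Finset.sum_nonneg fun p hp => hf p
                (Finset.mem_filter.1 (Finset.mem_inter.1 hp).1).1
            linarith
        exact key Q

/-- linearity of the word in the split slot -/
theorem lbox_comb {σ : Type*} [Fintype σ] {bb : ℤ} (hbb : bb = -1 ∨ bb = -7) (p : Nd) (j : Fin 4)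
    (F : Fin 4 → ℤ → ℂ) (c : σ → ℂ) (S : σ → ℤ → ℂ)
    (hrep : ∀ y ∈ iv p, F j y = ∑ a, c a * S a y) :
    ∑ x ∈ adm p.1 p.2, ‖Lbox (2 ^ p.1) bb F x‖ ≤
      ∑ a, ‖c a‖ * ∑ x ∈ adm p.1 p.2, ‖Lbox (2 ^ p.1) bb (Function.update F j (S a)) x‖ := by
  calc ∑ x ∈ adm p.1 p.2, ‖Lbox (2 ^ p.1) bb F x‖
      ≤ ∑ x ∈ adm p.1 p.2, ∑ a, ‖c a‖ * ‖Lbox (2 ^ p.1) bb (Function.update F j (S a)) x‖ := by
        refine Finset.sum_le_sum fun x hx => ?_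
        have h1 : Lbox (2 ^ p.1) bb F x =
            Lbox (2 ^ p.1) bb (Function.update F j (fun y => ∑ a, c a * S a y)) x := by
          refine Qb247.Lbox_congr p.1 p.2 bb x hbb hx _ _ fun k y hy => ?_
          by_cases hk : k = j
          · subst hk
            rw [Function.update_self]
            exact hrep y hy
          · rw [Function.update_of_ne hk]
        rw [h1, Crest.Agent.R079.GaUx571.Lbox_fsum]
        refine (norm_sum_le _ _).trans (Finset.sum_le_sum fun a _ => ?_)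
        rw [norm_mul]
    _ = _ := by
        rw [Finset.sum_comm]
        exact Finset.sum_congr rfl fun a _ => (Finset.mul_sum _ _ _).symm

open Classical in
/-- **the (S) word of one window**, the letter being a finite combination on every grid node -/
theorem win_word {σ : Type*} [Fintype σ] {bb : ℤ} (hbb : bb = -1 ∨ bb = -7) {W : Finset Nd}
    {P : Nd} (hW : ∀ p ∈ W, Le p P) (j0 n0 : ℕ) (j : Fin 4) (F : Fin 4 → ℤ → ℂ) {g0 : ℝ}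
    (hg0 : 0 ≤ g0) (h0 : ∀ p ∈ W, Nc j0 n0 P p →
      ∑ x ∈ adm p.1 p.2, ‖Lbox (2 ^ p.1) bb F x‖ ≤ g0 * 2 ^ (p.1 + 7))
    (Q : Finset Nd) (hQ : ∀ p ∈ W, ¬ Nc j0 n0 P p → ∃ q ∈ Q, Le p q)
    (c : σ → ℂ) (S : σ → Nd → ℤ → ℂ) (hrep : ∀ q ∈ Q, ∀ y ∈ iv q, F j y = ∑ a, c a * S a q y)
    (B : σ → Nd → ℝ) (hB : ∀ q ∈ Q, ∀ a, ∑ p ∈ W.filter (fun p => Le p q ∧ n0 ≤ p.1),
      ∑ x ∈ adm p.1 p.2, ‖Lbox (2 ^ p.1) bb (Function.update F j (S a q)) x‖ ≤ B a q) :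
    ∑ p ∈ W, ∑ x ∈ adm p.1 p.2, ‖Lbox (2 ^ p.1) bb F x‖ ≤
      (j0 + 1 + n0) * g0 * 2 ^ (P.1 + 7) + ∑ q ∈ Q, ∑ a, ‖c a‖ * B a q := by
  refine win_sum hW j0 n0 (fun p => ∑ x ∈ adm p.1 p.2, ‖Lbox (2 ^ p.1) bb F x‖)
    (fun p _ => Finset.sum_nonneg fun _ _ => norm_nonneg _) hg0 h0 Q hQ _ fun q hq => ?_
  calc ∑ p ∈ W.filter (fun p => Le p q ∧ n0 ≤ p.1), ∑ x ∈ adm p.1 p.2, ‖Lbox (2 ^ p.1) bb F x‖
      ≤ ∑ p ∈ W.filter (fun p => Le p q ∧ n0 ≤ p.1), ∑ a, ‖c a‖ *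
        ∑ x ∈ adm p.1 p.2, ‖Lbox (2 ^ p.1) bb (Function.update F j (S a q)) x‖ :=
        Finset.sum_le_sum fun p hp => lbox_comb hbb p j F c (fun a => S a q) fun y hy =>
          hrep q hq y ((Finset.mem_filter.1 hp).2.1 hy)
    _ = ∑ a, ‖c a‖ * ∑ p ∈ W.filter (fun p => Le p q ∧ n0 ≤ p.1),
        ∑ x ∈ adm p.1 p.2, ‖Lbox (2 ^ p.1) bb (Function.update F j (S a q)) x‖ := by
        rw [Finset.sum_comm]
        exact Finset.sum_congr rfl fun a _ => (Finset.mul_sum _ _ _).symm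
    _ ≤ _ := Finset.sum_le_sum fun a _ => mul_le_mul_of_nonneg_left (hB q hq a) (norm_nonneg _)

/-- total length of the grid nodes of one level -/
theorem grid_len {P : Nd} (Q : Finset Nd) {m : ℕ} (hQ : ∀ q ∈ Q, Le q P ∧ q.1 = m) :
    ∑ q ∈ Q, (2 : ℝ) ^ (q.1 + 7) ≤ 2 ^ (P.1 + 7) := by
  classical
  have h := all_len P Q (fun q hq => (hQ q hq).1) m
  rwa [Finset.filter_true_of_mem fun q hq => (hQ q hq).2] at h

open Classical in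
/-- **the (S) word of one window with the energies summed over the grid nodes** -/
theorem win_tot {σ : Type*} [Fintype σ] {bb : ℤ} (hbb : bb = -1 ∨ bb = -7) {W : Finset Nd}
    {P : Nd} (hW : ∀ p ∈ W, Le p P) (j0 n0 : ℕ) (j : Fin 4) (F : Fin 4 → ℤ → ℂ) {g0 : ℝ}
    (hg0 : 0 ≤ g0) (h0 : ∀ p ∈ W, Nc j0 n0 P p →
      ∑ x ∈ adm p.1 p.2, ‖Lbox (2 ^ p.1) bb F x‖ ≤ g0 * 2 ^ (p.1 + 7))
    (Q : Finset Nd) (hQ : ∀ p ∈ W, ¬ Nc j0 n0 P p → ∃ q ∈ Q, Le p q)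
    {m : ℕ} (hQm : ∀ q ∈ Q, Le q P ∧ q.1 = m)
    (c : σ → ℂ) (S : σ → Nd → ℤ → ℂ) (hrep : ∀ q ∈ Q, ∀ y ∈ iv q, F j y = ∑ a, c a * S a q y)
    (G : σ → Nd → ℝ) {X E : ℝ} (hX : 0 ≤ X)
    (hB : ∀ q ∈ Q, ∀ a, ∑ p ∈ W.filter (fun p => Le p q ∧ n0 ≤ p.1),
      ∑ x ∈ adm p.1 p.2, ‖Lbox (2 ^ p.1) bb (Function.update F j (S a q)) x‖ ≤
        X * (1 + G a q) * 2 ^ (q.1 + 7))
    (hG : ∀ a, ∑ q ∈ Q, G a q * (2 : ℝ) ^ (q.1 + 7) ≤ E * 2 ^ (P.1 + 7)) :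
    ∑ p ∈ W, ∑ x ∈ adm p.1 p.2, ‖Lbox (2 ^ p.1) bb F x‖ ≤
      ((j0 + 1 + n0) * g0 + (∑ a, ‖c a‖) * X * (1 + E)) * 2 ^ (P.1 + 7) := by
  have h1 := win_word hbb hW j0 n0 j F hg0 h0 Q hQ c S hrep
    (fun a q => X * (1 + G a q) * 2 ^ (q.1 + 7)) hB
  refine h1.trans ?_
  have h2 : ∑ q ∈ Q, ∑ a, ‖c a‖ * (X * (1 + G a q) * (2 : ℝ) ^ (q.1 + 7)) ≤
      (∑ a, ‖c a‖) * X * (1 + E) * 2 ^ (P.1 + 7) := by
    rw [Finset.sum_comm]
    have h3 : ∀ a, ∑ q ∈ Q, ‖c a‖ * (X * (1 + G a q) * (2 : ℝ) ^ (q.1 + 7)) ≤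
        ‖c a‖ * (X * (1 + E) * 2 ^ (P.1 + 7)) := by
      intro a
      rw [← Finset.mul_sum]
      refine mul_le_mul_of_nonneg_left ?_ (norm_nonneg _)
      have e : ∑ q ∈ Q, X * (1 + G a q) * (2 : ℝ) ^ (q.1 + 7) =
          X * (∑ q ∈ Q, (2 : ℝ) ^ (q.1 + 7) + ∑ q ∈ Q, G a q * (2 : ℝ) ^ (q.1 + 7)) := by
        rw [← Finset.sum_add_distrib, Finset.mul_sum]
        exact Finset.sum_congr rfl fun q _ => by ring
      rw [e]
      calc X * (∑ q ∈ Q, (2 : ℝ) ^ (q.1 + 7) + ∑ q ∈ Q, G a q * (2 : ℝ) ^ (q.1 + 7))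
          ≤ X * (2 ^ (P.1 + 7) + E * 2 ^ (P.1 + 7)) :=
            mul_le_mul_of_nonneg_left (add_le_add (grid_len Q hQm) (hG a)) hX
        _ = _ := by ring
    calc ∑ a, ∑ q ∈ Q, ‖c a‖ * (X * (1 + G a q) * (2 : ℝ) ^ (q.1 + 7))
        ≤ ∑ a, ‖c a‖ * (X * (1 + E) * 2 ^ (P.1 + 7)) := Finset.sum_le_sum fun a _ => h3 a
      _ = _ := by rw [← Finset.sum_mul]; ring
  linarith

end Crest.Agent.R079.FrWx360
end

-- ▼ part R079/YeYl_263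
section

/-! R079, Step I (helper263): BRIDGE between the (G) coordinates of one op-atom (`GaF_371`: killer slot
`i`, edge `e`, positions `(w, z, z')`, form `Ye i e`, own position sets) and the (S) coordinates of
`SKword` (`SKv_261`: line slot `x = i.succAbove (e + 2)`, frozen vertex `v` with `x.succAbove v = i`,
form `Yl x v`, common position sets).

* `vert` : the vertex `v`, and the two cases (order of the two edge variables kept or exchanged);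
* `exists_bnd` : band systems exist on every finite set of positions;
* `cl_ext`, `cl_tr` : the clip under extension by zero and transposition;
* `Pj_tr`, `Pj_ext` : the projection of a node under transposition / extension by zero. -/

set_option autoImplicit false
set_option linter.unusedSectionVars false

namespace Crest.Agent.R079.YeYlx263

open Finset Crest.Agent.R079.Grid Crest.Agent.R079.Growth Crest.Agent.R079.QRed
  Crest.Agent.R079.Qh249 Crest.Agent.R079.TWin Crest.Agent.R079.Glue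
open Crest.Agent.R079.Cel159 Crest.Agent.R079.ThA159
open Crest.Agent.R079.ClW59 (OpS cl cl_op cl_dist DQ_le)
open Crest.Agent.R079.SKx261 (Yl kerG PjY)
open Crest.Agent.R079.GaFx371 (Ye)

/-! ### indices -/

/-- line slot of the edge `e` of an atom with killer slot `i` -/
def xs (i : Fin 4) (e : Fin 3) : Fin 4 := i.succAbove (e + 2)

theorem exists_vert (i : Fin 4) (e : Fin 3) : ∃ v : Fin 3, (xs i e).succAbove v = i ∧
    (((xs i e).succAbove (v + 1) = i.succAbove e ∧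
      (xs i e).succAbove (v + 2) = i.succAbove (e + 1)) ∨
    ((xs i e).succAbove (v + 1) = i.succAbove (e + 1) ∧
      (xs i e).succAbove (v + 2) = i.succAbove e)) := by
  unfold xs
  decide +revert

/-- frozen vertex in the coordinates of the line slot -/
noncomputable def vx (i : Fin 4) (e : Fin 3) : Fin 3 := (exists_vert i e).choose

lemma vx_fro (i : Fin 4) (e : Fin 3) : (xs i e).succAbove (vx i e) = i :=
  (exists_vert i e).choose_spec.1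

/-- the order of the two edge variables is kept -/
def kept (i : Fin 4) (e : Fin 3) : Prop := (xs i e).succAbove (vx i e + 1) = i.succAbove e ∧
      (xs i e).succAbove (vx i e + 2) = i.succAbove (e + 1)

/-- the order of the two edge variables is exchanged -/
def exch (i : Fin 4) (e : Fin 3) : Prop := (xs i e).succAbove (vx i e + 1) = i.succAbove (e + 1) ∧
      (xs i e).succAbove (vx i e + 2) = i.succAbove e

lemma kept_or_exch (i : Fin 4) (e : Fin 3) : kept i e ∨ exch i e :=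
  (exists_vert i e).choose_spec.2

lemma Yl_kept {i : Fin 4} {e : Fin 3} (h : kept i e) (z u v : ℤ) :
    Yl (xs i e) (vx i e) z u v = Ye i e z u v := by
  unfold Yl Ye Glue.cf
  rw [vx_fro, h.1, h.2]
  rfl

lemma Yl_exch {i : Fin 4} {e : Fin 3} (h : exch i e) (z u v : ℤ) :
    Yl (xs i e) (vx i e) z u v = Ye i e z v u := by
  unfold Yl Ye Glue.cf
  rw [vx_fro, h.1, h.2]
  show (sl i - sl (i.succAbove (e + 2))) * z +
    (sl (i.succAbove (e + 1)) - sl (i.succAbove (e + 2))) * u +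
    (sl (i.succAbove e) - sl (i.succAbove (e + 2))) * v = _
  ring

/-! ### band systems -/

theorem exists_bnd (Y : ℤ → ℤ → ℤ → ℤ) (k : ℕ) (S : Finset (ℤ × ℤ × ℤ)) : ∃ ν : ℝ,
    Bnd (fun p => S.filter (fun ω => Y ω.1 ω.2.1 ω.2.2 ∈ iv p))
      (fun ω => Y ω.1 ω.2.1 ω.2.2) (NmP S cf (okc Y k)) ν := by
  refine ⟨1 / ((S.card : ℝ) + 1), bnd_cell Y k S (by positivity) fun y => ?_⟩
  rw [div_mul_eq_mul_div, one_mul, div_le_one (by positivity)]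
  have : ((S.filter (fun ω => Y ω.1 ω.2.1 ω.2.2 = y)).card : ℝ) ≤ S.card := by
    exact_mod_cast Finset.card_le_card (Finset.filter_subset _ _)
  linarith

/-! ### the clip -/

lemma opS_tr {S T : Finset ℤ} {B : ℤ → ℤ → ℂ} {s : ℝ} (hs : 0 ≤ s) (h : OpS S T B s) :
    OpS T S (fun v u => B u v) s := by
  have h1 := PjC881.bil_of_opS hs h
  refine PjC881.opS_of_bil hs fun ξ ζ => ?_
  have h2 := h1 ζ ξ
  rw [Finset.sum_comm, mul_comm (Real.sqrt _) (Real.sqrt _)]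
  refine le_trans (le_of_eq ?_) h2
  congr 1
  exact Finset.sum_congr rfl fun u _ => Finset.sum_congr rfl fun v _ => by ring

/-- the clip of the transposed kernel -/
theorem cl_tr {A : ℤ → ℤ → ℂ} {S T : Finset ℤ} {s : ℝ} (hs : 0 ≤ s) :
    ∀ u ∈ S, ∀ v ∈ T, cl (fun v u => A u v) T S s v u = cl A S T s u v := by
  refine PjC881.near_eq_cl (A := A) (B := fun u v => cl (fun v u => A u v) T S s v u) hs
    (opS_tr hs (cl_op _ T S hs)) fun C hC => ?_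
  have h1 := DQ_le (fun v u => A u v) hs (opS_tr hs hC)
  rw [← cl_dist] at h1
  rw [Finset.sum_comm, Finset.sum_comm (s := S) (t := T) (f := fun x y => ‖A x y - C x y‖ ^ 2)]
  exact h1



/-! ### the projection of a node -/

section proj

variable {Y : ℤ → ℤ → ℤ → ℤ} {k : ℕ} {T₀ T₁ T₂ : Finset ℤ}

/-- the projection of the cell system with form `Y` and positions `T₀ × T₁ × T₂` -/
noncomputable abbrev PJ (Y : ℤ → ℤ → ℤ → ℤ) (k : ℕ) (T₀ T₁ T₂ : Finset ℤ) (r : ℝ) (p : Nd)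
    (A : ℤ × ℤ × ℤ → ℂ) : ℤ × ℤ × ℤ → ℂ :=
  Pj (fun p => (T₀ ×ˢ (T₁ ×ˢ T₂)).filter (fun ω => Y ω.1 ω.2.1 ω.2.2 ∈ iv p))
    (NmP (T₀ ×ˢ (T₁ ×ˢ T₂)) Cel159.cf (okc Y k)) r p A

lemma PJ_cl {r : ℝ} (hr : 0 ≤ r) (p : Nd) (A : ℤ × ℤ × ℤ → ℂ) {z : ℤ} (hz : z ∈ T₀) {n : ℕ}
    {a b : ℤ} (hM : Mx (Y z) k p n a b) {u v : ℤ} (hu : u ∈ dI n a ∩ T₁) (hv : v ∈ dI n b ∩ T₂) :
    PJ Y k T₀ T₁ T₂ r p A (z, u, v) =
      cl (fun u v => A (z, u, v)) (dI n a ∩ T₁) (dI n b ∩ T₂) (r * 2 ^ n) u v := by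
  obtain ⟨ν, hB⟩ := exists_bnd Y k (T₀ ×ˢ (T₁ ×ˢ T₂))
  exact PjC881.Pj_eq_cl hB hr p A hz hM u hu v hv

lemma Ins_tr {Z : ℤ → ℤ → ℤ} {S : Finset ℤ} {n : ℕ} {a b : ℤ} (h : Whit.Ins Z S n a b) :
    Whit.Ins (fun v u => Z u v) S n b a := by
  unfold Whit.Ins at h ⊢
  exact fun v hv u hu => h u hu v hv

lemma Mx_tr {Z : ℤ → ℤ → ℤ} {p : Nd} {n : ℕ} {a b : ℤ} (h : Mx Z k p n a b) :
    Mx (fun v u => Z u v) k p n b a :=
  ⟨h.1, Ins_tr h.2.1, h.2.2.imp_right fun h1 h2 => h1 (Ins_tr h2)⟩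

/-- **transposition** -/
theorem Pj_tr {r : ℝ} (hr : 0 ≤ r) (p : Nd) (A : ℤ × ℤ × ℤ → ℂ) {z u v : ℤ} (hz : z ∈ T₀)
    (hu : u ∈ T₁) (hv : v ∈ T₂) (hy : Y z u v ∈ iv p) :
    PJ (fun z v u => Y z u v) k T₀ T₂ T₁ r p (fun ω => A (ω.1, ω.2.2, ω.2.1)) (z, v, u) =
      PJ Y k T₀ T₁ T₂ r p A (z, u, v) := by
  obtain ⟨n, a, b, hM, hua, hvb⟩ : ∃ n a b, Mx (Y z) k p n a b ∧ u ∈ dI n a ∧ v ∈ dI n b := by
    have h1 := Cel159.Mx_mcell (k := k) (Y := Y) (p := p) (ω := (z, u, v)) hy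
    exact ⟨_, _, _, h1, by rw [L0e.mem_dI], by rw [L0e.mem_dI]⟩
  have hu' : u ∈ dI n a ∩ T₁ := Finset.mem_inter.2 ⟨hua, hu⟩
  have hv' : v ∈ dI n b ∩ T₂ := Finset.mem_inter.2 ⟨hvb, hv⟩
  rw [PJ_cl hr p A hz hM hu' hv']
  rw [PJ_cl (Y := fun z v u => Y z u v) hr p _ hz (Mx_tr hM) hv' hu']
  exact cl_tr (A := fun u v => A (z, u, v)) (by positivity) u hu' v hv'



end proj

end Crest.Agent.R079.YeYlx263
end

-- ▼ part R079/SKu_261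
section

/-! R079, item (c) of 973 / note 1201 (helper261): **the (S) word of a window in the coordinates of
one family of op-atoms** (`GaF_371`): frozen slot `i`, edge `e`, letter slot `xs i e`. -/

set_option autoImplicit false
set_option linter.unusedSectionVars false

namespace Crest.Agent.R079.SKx261

open Finset Crest.Agent.R079.Grid Crest.Agent.R079.Growth Crest.Agent.R079.QRed
  Crest.Agent.R079.Qh249 Crest.Agent.R079.QVar181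
  Crest.Agent.R079.TWin Crest.Agent.R079.Glue Crest.Agent.R079.SWc360 Crest.Agent.R079.Cel159
  Crest.Agent.R079.SplSx69 Crest.Agent.R079.ThA159
open Crest.Agent.R079.Whit (Ins)
open Crest.Agent.R079.GaFx371 (Ye W0 SE BdE poE mem_W0)
open Crest.Agent.R079.YeYlx263 (xs vx vx_fro kept exch kept_or_exch Yl_kept Yl_exch PJ Pj_tr Mx_tr
  Ins_tr)
open Crest.Agent.R079.ElS440 (Ln LnF)

open scoped ComplexConjugate

/-- kernels of a window for a family of op-atoms -/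
structure SKC {ι : Type} [Fintype ι] (κ : ι → ℝ) (i : Fin 4) (e : Fin 3) (n k d : ℕ) (P J0 : Nd)
    (T : ι → Fin 3 → Finset ℤ) (W : Finset Nd) (C : ι → ℤ × ℤ × ℤ → ℂ) (ρ r Hr E : ℝ) : Prop where
  hJ : iv P ⊆ iv J0
  κ0 : ∀ l, 0 ≤ κ l
  hWd : ∀ p ∈ W, d ≤ p.1
  ρ0 : 0 ≤ ρ
  r0 : 0 < r
  Hr0 : 0 ≤ Hr
  E0 : 0 ≤ E
  hex : ∀ l, ∀ w ∈ W0 i e (T l) J0, ∀ m a b, d ≤ m → Ins (Ye i e w) (iv P) m a b →
    OpC (Cel159.msk (SE i e (T l) J0) (C l) w) m a b ρ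
  hrow : ∀ l, ∀ w ∈ W0 i e (T l) J0, ∀ m a b, Mx (Ye i e w) k P m a b → d ≤ m →
    ∀ u ∈ dI m a ∩ T l e, ∑ v ∈ dI m b ∩ T l (e + 1), ‖C l (w, u, v)‖ ^ 2 ≤ Hr * 2 ^ m
  hcol : ∀ l, ∀ w ∈ W0 i e (T l) J0, ∀ m a b, Mx (Ye i e w) k P m a b → d ≤ m →
    ∀ v ∈ dI m b ∩ T l (e + 1), ∑ u ∈ dI m a ∩ T l e, ‖C l (w, u, v)‖ ^ 2 ≤ Hr * 2 ^ m
  hE : ∑ l, κ l * (1 / (n : ℝ) ^ 2 * ∑ ω ∈ BdE i e (T l) J0 P, ‖C l ω‖ ^ 2) ≤ E * len P

/-- letters of a window for a family of op-atoms -/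
structure SKD {ι : Type} [Fintype ι] (κ : ι → ℝ) (i : Fin 4) (e : Fin 3) (n : ℕ)
    (T : ι → Fin 3 → Finset ℤ) (W : Finset Nd) (g : ι → Fin 3 → ℤ → ℤ → ℂ) (F : Fin 4 → ℤ → ℂ)
    (A g1 d1 g2 d2 mb H0 : ℝ) : Prop where
  A0 : 0 ≤ A
  g10 : 0 ≤ g1
  d10 : 0 ≤ d1
  g20 : 0 ≤ g2
  d20 : 0 ≤ d2
  H00 : 0 ≤ H0
  l2 : ∀ p ∈ W, ∀ s, s ≠ xs i e → ∑ y ∈ iv p, ‖F s y‖ ^ 2 ≤ A * len p
  nc1 : ∀ p ∈ W, NCs p g1 d1 (F (i.succAbove e))
  nc2 : ∀ p ∈ W, NCs p g2 d2 (F (i.succAbove (e + 1)))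
  gm : ∑ l, κ l * (1 / (n : ℝ) ^ 2 * ∑ z ∈ T l e, ∑ z' ∈ T l (e + 1), ‖g l e z z'‖ ^ 2) ≤ mb
  gh : ∀ l, ∀ z ∈ T l e, ∀ z' ∈ T l (e + 1), ∀ y, ‖g l e z z'‖ * ‖F i y‖ ≤ H0




end Crest.Agent.R079.SKx261
end

-- ▼ part R079/FrY_360

/-! R079 (helper360), T5b of note 1820: **the far word on a grid node in the coordinates of one
family of op-atoms** (frozen slot `i`, edge `e`, letter slot `xs i e`), `fc_word`, and the form
`X (1 + G) 2^(q0.1+7)` (`fc_word1`). -/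

set_option autoImplicit false
set_option linter.unusedSectionVars false

namespace Crest.Agent.R079.FrWx360

open Finset Crest.Agent.R079.Grid Crest.Agent.R079.Growth Crest.Agent.R079.QRed
  Crest.Agent.R079.Qh249 Crest.Agent.R079.QVar181
  Crest.Agent.R079.TWin Crest.Agent.R079.Glue Crest.Agent.R079.SWc360 Crest.Agent.R079.Cel159
  Crest.Agent.R079.SplSx69 Crest.Agent.R079.ThA159 Crest.Agent.R079.SKx261
open Crest.Agent.R079.FrQx717 (tcell FQ FqP)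
open Crest.Agent.R079.Whit (Ins)
open Crest.Agent.R079.GaFx371 (Ye W0 SE BdE poE mem_W0)
open Crest.Agent.R079.YeYlx263 (xs vx vx_fro kept exch kept_or_exch Yl_kept Yl_exch Mx_tr
  Ins_tr)
open Crest.Agent.R079.ElS440 (Ln LnF)

open scoped ComplexConjugate

/-- type `(m, a, b)` of the maximal cell of `P` which contains the position -/
noncomputable def tcY (Y : ℤ → ℤ → ℤ → ℤ) (k : ℕ) (P : Nd) (z u v : ℤ) : ℕ × ℤ × ℤ :=
  (mcell Y k P (z, u, v)).2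

/-- transposed type -/
def tsw (t : ℕ × ℤ × ℤ) : ℕ × ℤ × ℤ := (t.1, t.2.2, t.2.1)

lemma tsw_tsw (t : ℕ × ℤ × ℤ) : tsw (tsw t) = t := rfl

lemma tcY_tr {Y : ℤ → ℤ → ℤ → ℤ} {k : ℕ} {P : Nd} {z u v : ℤ} (h : Y z u v ∈ iv P) :
    tcY (fun z v u => Y z u v) k P z v u = tsw (tcY Y k P z u v) := by
  have hM : Mx (Y z) k P (mcell Y k P (z, u, v)).2.1 (mcell Y k P (z, u, v)).2.2.1
      (mcell Y k P (z, u, v)).2.2.2 := Mx_mcell (ω := (z, u, v)) h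
  have hM' : Mx (fun v u => Y z u v) k P (mcell (fun z v u => Y z u v) k P (z, v, u)).2.1
      (mcell (fun z v u => Y z u v) k P (z, v, u)).2.2.1
      (mcell (fun z v u => Y z u v) k P (z, v, u)).2.2.2 :=
    Mx_mcell (Y := fun z v u => Y z u v) (ω := (z, v, u)) h
  have hu : u ∈ dI (mcell Y k P (z, u, v)).2.1 (mcell Y k P (z, u, v)).2.2.1 := by
    rw [L0e.mem_dI]; rfl
  have hv : v ∈ dI (mcell Y k P (z, u, v)).2.1 (mcell Y k P (z, u, v)).2.2.2 := by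
    rw [L0e.mem_dI]; rfl
  have hu' : u ∈ dI (mcell (fun z v u => Y z u v) k P (z, v, u)).2.1
      (mcell (fun z v u => Y z u v) k P (z, v, u)).2.2.2 := by
    rw [L0e.mem_dI]; rfl
  have hv' : v ∈ dI (mcell (fun z v u => Y z u v) k P (z, v, u)).2.1
      (mcell (fun z v u => Y z u v) k P (z, v, u)).2.2.1 := by
    rw [L0e.mem_dI]; rfl
  obtain ⟨e1, e2, e3⟩ := Mx_eq hM' (Mx_tr hM) hv' hv hu' hu
  exact Prod.ext e1 (Prod.ext e2 e3)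

/-- data of the frames of a node `P' = q0` below the sub-top `P = K` for a family of op-atoms -/
structure FC {ι τ : Type} [Fintype ι] [Fintype τ] (κ : ι → ℝ) (i : Fin 4) (e : Fin 3)
    (n k κ0 d C0 : ℕ) (P P' J0 : Nd) (T : ι → Fin 3 → Finset ℤ) (R : Finset Nd)
    (Pf Qf : ι → ℤ → ℕ × ℤ × ℤ → ℤ → τ → ℂ) (CU CW : ι → ℤ → ℕ × ℤ × ℤ → ℤ → ℤ → ℂ)
    (B : ι → ℤ × ℤ × ℤ → ℂ) (ρ r Hr G : ℝ) : Prop where
  hJ : iv P ⊆ iv J0
  kap0 : ∀ l, 0 ≤ κ l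
  hC : 2 ^ κ0 ≤ C0
  hP : iv P' ⊆ iv P
  hna : ¬ Adj C0 P P'
  hR : ∀ p ∈ R, p.1 ≤ P'.1
  hRd : ∀ p ∈ R, d ≤ p.1
  ρ0 : 0 ≤ ρ
  r0 : 0 < r
  Hr0 : 0 ≤ Hr
  G0 : 0 ≤ G
  supU : ∀ l w t u v, CU l w t u v ≠ 0 → u ∈ T l e ∧ v ∈ T l (e + 1) ∧ Ye i e w u v ∈ iv P'
  supW : ∀ l w t u v, CW l w t u v ≠ 0 → u ∈ T l e ∧ v ∈ T l (e + 1) ∧ Ye i e w u v ∈ iv P'
  opU : ∀ l, ∀ w ∈ W0 i e (T l) J0, ∀ t : ℕ × ℤ × ℤ, Mx (Ye i e w) k P t.1 t.2.1 t.2.2 →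
    ∀ m, d ≤ m → m ≤ P'.1 + κ0 → ∀ a b, dI m a ⊆ dI t.1 t.2.1 → dI m b ⊆ dI t.1 t.2.2 →
      OpC (CU l w t) m a b ρ
  opW : ∀ l, ∀ w ∈ W0 i e (T l) J0, ∀ t : ℕ × ℤ × ℤ, Mx (Ye i e w) k P t.1 t.2.1 t.2.2 →
    ∀ m, d ≤ m → m ≤ P'.1 + κ0 → ∀ a b, dI m a ⊆ dI t.1 t.2.1 → dI m b ⊆ dI t.1 t.2.2 →
      OpC (CW l w t) m a b ρ
  majU : ∀ l, ∀ w ∈ W0 i e (T l) J0, ∀ t : ℕ × ℤ × ℤ, Mx (Ye i e w) k P t.1 t.2.1 t.2.2 →
    ∀ (a' : ℤ) (f : ℤ → ℂ),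
    ∑ x, ‖∑ u ∈ dI P'.1 a' ∩ dI t.1 t.2.1, f u * Pf l w t u x‖ ^ 2 ≤
      (r⁻¹ / 2 ^ P'.1) * ∑ v ∈ dI t.1 t.2.2,
        ‖∑ u ∈ dI P'.1 a' ∩ dI t.1 t.2.1, f u * CU l w t u v‖ ^ 2
  majW : ∀ l, ∀ w ∈ W0 i e (T l) J0, ∀ t : ℕ × ℤ × ℤ, Mx (Ye i e w) k P t.1 t.2.1 t.2.2 →
    ∀ (b' : ℤ) (f : ℤ → ℂ),
    ∑ x, ‖∑ v ∈ dI P'.1 b' ∩ dI t.1 t.2.2, f v * Qf l w t v x‖ ^ 2 ≤
      (r⁻¹ / 2 ^ P'.1) * ∑ u ∈ dI t.1 t.2.1,
        ‖∑ v ∈ dI P'.1 b' ∩ dI t.1 t.2.2, f v * CW l w t u v‖ ^ 2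
  rowU : ∀ l, ∀ w ∈ W0 i e (T l) J0, ∀ t : ℕ × ℤ × ℤ, Mx (Ye i e w) k P t.1 t.2.1 t.2.2 →
    ∀ u ∈ dI t.1 t.2.1, ∑ v ∈ dI t.1 t.2.2, ‖CU l w t u v‖ ^ 2 ≤ Hr * 2 ^ P'.1
  colW : ∀ l, ∀ w ∈ W0 i e (T l) J0, ∀ t : ℕ × ℤ × ℤ, Mx (Ye i e w) k P t.1 t.2.1 t.2.2 →
    ∀ v ∈ dI t.1 t.2.2, ∑ u ∈ dI t.1 t.2.1, ‖CW l w t u v‖ ^ 2 ≤ Hr * 2 ^ P'.1
  ptU : ∀ l, ∀ w ∈ W0 i e (T l) J0, ∀ t : ℕ × ℤ × ℤ, ∀ u ∈ dI t.1 t.2.1, ∀ v ∈ dI t.1 t.2.2,
    ‖CU l w t u v‖ ≤ ‖B l (w, u, v)‖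
  ptW : ∀ l, ∀ w ∈ W0 i e (T l) J0, ∀ t : ℕ × ℤ × ℤ, ∀ u ∈ dI t.1 t.2.1, ∀ v ∈ dI t.1 t.2.2,
    ‖CW l w t u v‖ ≤ ‖B l (w, u, v)‖
  enB : ∑ l, κ l * (1 / (n : ℝ) ^ 2 * ∑ ω ∈ BdE i e (T l) J0 P', ‖B l ω‖ ^ 2) ≤ G * 2 ^ P'.1

/-- kernel of the letter of one ladder step on the node -/
noncomputable def ZF {ι τ : Type} [Fintype τ] (i : Fin 4) (e : Fin 3) (k : ℕ) (P : Nd)
    (Pf Qf : ι → ℤ → ℕ × ℤ × ℤ → ℤ → τ → ℂ) (l : ι) (ω : ℤ × ℤ × ℤ) : ℂ :=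
  ∑ x, Pf l ω.1 (tcY (Ye i e) k P ω.1 ω.2.1 ω.2.2) ω.2.1 x *
    Qf l ω.1 (tcY (Ye i e) k P ω.1 ω.2.1 ω.2.2) ω.2.2 x

/-- the letter of a family of kernels as a sum over positions -/
lemma lnF_eq {ι : Type} [Fintype ι] (κ : ι → ℝ) (i : Fin 4) (e : Fin 3) (n : ℕ)
    (P J0 : Nd) (T : ι → Fin 3 → Finset ℤ) (g : ι → Fin 3 → ℤ → ℤ → ℂ)
    (Z : ι → ℤ × ℤ × ℤ → ℂ) {y : ℤ} (hy : y ∈ iv P) :
    LnF (fun l => BdE i e (T l) J0) (fun _ => poE i e) (fun _ => 1 / (n : ℝ) ^ 2)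
      (fun l ω => g l e ω.2.1 ω.2.2) κ P Z y = ∑ l, ((κ l * (1 / (n : ℝ) ^ 2) : ℝ) : ℂ) *
      ∑ ω ∈ (W0 i e (T l) J0 ×ˢ (T l e ×ˢ T l (e + 1))).filter
        (fun ω => Ye i e ω.1 ω.2.1 ω.2.2 = y), Z l ω * conj (g l e ω.2.1 ω.2.2) := by
  classical
  unfold LnF
  refine Finset.sum_congr rfl fun l _ => ?_
  unfold Ln
  push_cast
  rw [mul_assoc]
  congr 2
  refine Finset.sum_congr ?_ fun ω _ => ?_
  · ext ω
    unfold BdE poE SE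
    rw [Finset.mem_filter, Finset.mem_filter, Finset.mem_filter]
    constructor
    · rintro ⟨⟨h1, _⟩, h3⟩
      exact ⟨h1, h3⟩
    · rintro ⟨h1, h3⟩
      exact ⟨⟨h1, by rw [h3]; exact hy⟩, h3⟩
  · rw [mul_comm]

/-- **the far word on a grid node, family of op-atoms** -/
theorem fc_word (hfq : FqP) : ∃ K : ℝ, 0 ≤ K ∧ ∃ κ0 : ℕ, ∀ (bb : ℤ), bb = -1 ∨ bb = -7 →
    ∀ (R : Finset Nd) (P' : Nd), IsRegion R P' → ∀ (i : Fin 4) (e : Fin 3) {ι τ : Type}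
    [Fintype ι] [Fintype τ] [DecidableEq τ] (κ : ι → ℝ) (n k d C0 : ℕ) (P J0 : Nd)
    (T : ι → Fin 3 → Finset ℤ) (Pf Qf : ι → ℤ → ℕ × ℤ × ℤ → ℤ → τ → ℂ)
    (CU CW : ι → ℤ → ℕ × ℤ × ℤ → ℤ → ℤ → ℂ) (B : ι → ℤ × ℤ × ℤ → ℂ) (ρ r Hr G : ℝ)
    (g : ι → Fin 3 → ℤ → ℤ → ℂ) (F : Fin 4 → ℤ → ℂ) (A g1 d1 g2 d2 mb H0 : ℝ) (m0 : ℕ) (Θ : ℝ),
    FC κ i e n k κ0 d C0 P P' J0 T R Pf Qf CU CW B ρ r Hr G →
    SKD κ i e n T R g F A g1 d1 g2 d2 mb H0 → (∀ p ∈ R, m0 ≤ p.1) →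
    SKZ Θ A g1 d1 g2 d2 ρ r Hr G mb H0 →
    (∀ y ∈ iv P', F (xs i e) y = LnF (fun l => BdE i e (T l) J0) (fun _ => poE i e)
      (fun _ => 1 / (n : ℝ) ^ 2) (fun l ω => g l e ω.2.1 ω.2.2) κ P (ZF i e k P Pf Qf) y) →
    ∑ p ∈ R, ∑ x ∈ adm p.1 p.2, ‖Lbox (2 ^ p.1) bb F x‖ ≤
      K * (Real.sqrt (Real.sqrt (XS A g1 d1 ρ r Hr m0 Θ⁻¹ * XS A g2 d2 ρ r Hr m0 Θ⁻¹) *
        (G + Θ⁻¹) * (A * mb + Θ⁻¹)) * (1 + Real.log Θ) * 2 ^ (P'.1 + 7)) := by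
  classical
  obtain ⟨K, hK, κ0, h⟩ := fa_word hfq
  refine ⟨K, hK, κ0, ?_⟩
  intro bb hbb R P' hR i e ι τ _ _ _ κ n k d C0 P J0 T Pf Qf CU CW B ρ r Hr G g F A g1 d1 g2 d2
    mb H0 m0 Θ HC HD hm0 Z hrep
  have hn2 : (0 : ℝ) ≤ 1 / (n : ℝ) ^ 2 := by positivity
  have hl2 : ∀ p ∈ R, ∀ q : Fin 3, ∑ y ∈ iv p, ‖F ((xs i e).succAbove q) y‖ ^ 2 ≤ A * len p :=
    fun p hp q => HD.l2 p hp _ (Fin.succAbove_ne _ _)
  rcases kept_or_exch i e with hk | hk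
  · -- order kept
    have hY : Yl (xs i e) (vx i e) = Ye i e := by
      funext z u v
      exact Yl_kept hk z u v
    have hZ' : SKZ Θ A g2 d2 g1 d1 ρ r Hr G mb H0 :=
      ⟨Z.Θ1, Z.A, Z.g2, Z.d2, Z.g1, Z.d1, Z.ρ, Z.r, Z.Hr, Z.G, Z.mb, Z.H0⟩
    rw [mul_comm (XS A g1 d1 ρ r Hr m0 Θ⁻¹)]
    refine h bb hbb R P' hR (xs i e) (vx i e) (fun l => κ l * (1 / (n : ℝ) ^ 2)) k d C0 P
      (fun l => W0 i e (T l) J0) (fun l => T l e) (fun l => T l (e + 1)) Pf Qf CU CW B ρ r Hr G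
      (fun l => g l e) F A g2 d2 g1 d1 mb H0 m0 Θ ?_ ?_ hm0 hZ' ?_
    · refine ⟨fun l => mul_nonneg (HC.kap0 l) hn2, HC.hC, HC.hP, HC.hna, HC.hR, HC.hRd, HC.ρ0,
        HC.r0, HC.Hr0, HC.G0, ?_, ?_, ?_, ?_, ?_, ?_, ?_, ?_, ?_, HC.ptU, HC.ptW, ?_⟩
      · intro l z u v hu hv hy
        rw [hY] at hy
        exact mem_W0 hu hv (HC.hJ hy)
      · rw [hY]; exact HC.supU
      · rw [hY]; exact HC.supW
      · rw [hY]; exact HC.opU
      · rw [hY]; exact HC.opW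
      · rw [hY]; exact HC.majU
      · rw [hY]; exact HC.majW
      · rw [hY]; exact HC.rowU
      · rw [hY]; exact HC.colW
      · rw [hY]
        refine le_trans (le_of_eq ?_) HC.enB
        refine Finset.sum_congr rfl fun l _ => ?_
        rw [mul_assoc]
        rfl
    · refine ⟨HD.A0, HD.g20, HD.d20, HD.g10, HD.d10, HD.H00, hl2, ?_, ?_, ?_, ?_⟩
      · rw [hk.2]; exact HD.nc2
      · rw [hk.1]; exact HD.nc1
      · refine le_trans (le_of_eq ?_) HD.gm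
        exact Finset.sum_congr rfl fun l _ => mul_assoc _ _ _
      · rw [vx_fro]
        exact HD.gh
    · intro y hy
      rw [hrep y hy, lnF_eq κ i e n P J0 T g _ (HC.hP hy)]
      have e1 : ∀ z u v, tcell (xs i e) (vx i e) k P z u v = tcY (Ye i e) k P z u v := by
        intro z u v
        unfold tcell tcY
        rw [hY]
      simp only [e1, hY]
      rfl
  · -- order exchanged
    have hY : Yl (xs i e) (vx i e) = fun z v u => Ye i e z u v := by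
      funext z v u
      exact Yl_exch hk z v u
    refine h bb hbb R P' hR (xs i e) (vx i e) (fun l => κ l * (1 / (n : ℝ) ^ 2)) k d C0 P
      (fun l => W0 i e (T l) J0) (fun l => T l (e + 1)) (fun l => T l e)
      (fun l z t u x => Qf l z (tsw t) u x) (fun l z t v x => Pf l z (tsw t) v x)
      (fun l z t u v => CW l z (tsw t) v u) (fun l z t u v => CU l z (tsw t) v u)
      (fun l ω => B l (ω.1, ω.2.2, ω.2.1)) ρ r Hr G
      (fun l v u => g l e u v) F A g1 d1 g2 d2 mb H0 m0 Θ ?_ ?_ hm0 Z ?_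
    · refine ⟨fun l => mul_nonneg (HC.kap0 l) hn2, HC.hC, HC.hP, HC.hna, HC.hR, HC.hRd, HC.ρ0,
        HC.r0, HC.Hr0, HC.G0, ?_, ?_, ?_, ?_, ?_, ?_, ?_, ?_, ?_, ?_, ?_, ?_⟩
      · intro l z v u hv hu hy
        rw [hY] at hy
        exact mem_W0 hu hv (HC.hJ hy)
      · intro l z t v u hne
        rw [hY]
        obtain ⟨a1, a2, a3⟩ := HC.supW l z (tsw t) u v hne
        exact ⟨a2, a1, a3⟩
      · intro l z t v u hne
        rw [hY]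
        obtain ⟨a1, a2, a3⟩ := HC.supU l z (tsw t) u v hne
        exact ⟨a2, a1, a3⟩
      · intro l z hz t hM m hd hm a b ha hb
        rw [hY] at hM
        exact opC_tr (HC.opW l z hz (tsw t) (Mx_tr hM) m hd hm b a hb ha)
      · intro l z hz t hM m hd hm a b ha hb
        rw [hY] at hM
        exact opC_tr (HC.opU l z hz (tsw t) (Mx_tr hM) m hd hm b a hb ha)
      · intro l z hz t hM a' f
        rw [hY] at hM
        exact HC.majW l z hz (tsw t) (Mx_tr hM) a' f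
      · intro l z hz t hM b' f
        rw [hY] at hM
        exact HC.majU l z hz (tsw t) (Mx_tr hM) b' f
      · intro l z hz t hM u hu
        rw [hY] at hM
        exact HC.colW l z hz (tsw t) (Mx_tr hM) u hu
      · intro l z hz t hM v hv
        rw [hY] at hM
        exact HC.rowU l z hz (tsw t) (Mx_tr hM) v hv
      · intro l z hz t u hu v hv
        exact HC.ptW l z hz (tsw t) v hv u hu
      · intro l z hz t u hu v hv
        exact HC.ptU l z hz (tsw t) v hv u hu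
      · rw [hY]
        refine le_trans (le_of_eq ?_) HC.enB
        refine Finset.sum_congr rfl fun l _ => ?_
        rw [mul_assoc]
        congr 2
        unfold BdE SE
        rw [Finset.sum_filter, Finset.sum_filter, Finset.sum_product, Finset.sum_product]
        refine Finset.sum_congr rfl fun z _ => ?_
        rw [Finset.sum_product, Finset.sum_product, Finset.sum_comm]
    · refine ⟨HD.A0, HD.g10, HD.d10, HD.g20, HD.d20, HD.H00, hl2, ?_, ?_, ?_, ?_⟩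
      · rw [hk.2]; exact HD.nc1
      · rw [hk.1]; exact HD.nc2
      · refine le_trans (le_of_eq ?_) HD.gm
        refine Finset.sum_congr rfl fun l _ => ?_
        rw [mul_assoc, Finset.sum_comm]
      · rw [vx_fro]
        exact fun l v hv u hu y => HD.gh l u hu v hv y
    · intro y hy
      rw [hrep y hy, lnF_eq κ i e n P J0 T g _ (HC.hP hy), hY]
      refine Finset.sum_congr rfl fun l _ => ?_
      congr 1
      rw [Finset.sum_filter, Finset.sum_filter, Finset.sum_product, Finset.sum_product]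
      refine Finset.sum_congr rfl fun z hz => ?_
      rw [Finset.sum_product, Finset.sum_product, Finset.sum_comm]
      refine Finset.sum_congr rfl fun v hv => Finset.sum_congr rfl fun u hu => ?_
      by_cases hzy : Ye i e z u v = y
      · rw [if_pos hzy, if_pos hzy]
        have e1 : tcell (xs i e) (vx i e) k P z v u = tsw (tcY (Ye i e) k P z u v) := by
          have e2 : tcell (xs i e) (vx i e) k P z v u =
              tcY (fun z v u => Ye i e z u v) k P z v u := by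
            unfold tcell tcY
            rw [hY]
          rw [e2]
          exact tcY_tr (by rw [hzy]; exact HC.hP hy)
        unfold ZF
        simp only [e1, tsw_tsw]
        congr 1
        exact Finset.sum_congr rfl fun x _ => mul_comm _ _
      · rw [if_neg hzy, if_neg hzy]

/-- **the same, bound additive in the energy** -/
theorem fc_word1 (hfq : FqP) : ∃ K : ℝ, 0 ≤ K ∧ ∃ κ0 : ℕ, ∀ (bb : ℤ), bb = -1 ∨ bb = -7 →
    ∀ (R : Finset Nd) (P' : Nd), IsRegion R P' → ∀ (i : Fin 4) (e : Fin 3) {ι τ : Type}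
    [Fintype ι] [Fintype τ] [DecidableEq τ] (κ : ι → ℝ) (n k d C0 : ℕ) (P J0 : Nd)
    (T : ι → Fin 3 → Finset ℤ) (Pf Qf : ι → ℤ → ℕ × ℤ × ℤ → ℤ → τ → ℂ)
    (CU CW : ι → ℤ → ℕ × ℤ × ℤ → ℤ → ℤ → ℂ) (B : ι → ℤ × ℤ × ℤ → ℂ) (ρ r Hr G : ℝ)
    (g : ι → Fin 3 → ℤ → ℤ → ℂ) (F : Fin 4 → ℤ → ℂ) (A g1 d1 g2 d2 mb H0 : ℝ) (m0 : ℕ) (Θ : ℝ),
    FC κ i e n k κ0 d C0 P P' J0 T R Pf Qf CU CW B ρ r Hr G →
    SKD κ i e n T R g F A g1 d1 g2 d2 mb H0 → (∀ p ∈ R, m0 ≤ p.1) →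
    SKZ Θ A g1 d1 g2 d2 ρ r Hr 0 mb H0 →
    (∀ y ∈ iv P', F (xs i e) y = LnF (fun l => BdE i e (T l) J0) (fun _ => poE i e)
      (fun _ => 1 / (n : ℝ) ^ 2) (fun l ω => g l e ω.2.1 ω.2.2) κ P (ZF i e k P Pf Qf) y) →
    ∑ p ∈ R, ∑ x ∈ adm p.1 p.2, ‖Lbox (2 ^ p.1) bb F x‖ ≤
      (K * (1 + Real.log Θ) * Real.sqrt (Real.sqrt (XS A g1 d1 ρ r Hr m0 Θ⁻¹ *
        XS A g2 d2 ρ r Hr m0 Θ⁻¹) * (A * mb + Θ⁻¹))) * (1 + G) * 2 ^ (P'.1 + 7) := by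
  classical
  obtain ⟨K, hK, κ0, h⟩ := fc_word hfq
  refine ⟨3 * K, by positivity, κ0, ?_⟩
  intro bb hbb R P' hR i e ι τ _ _ _ κ n k d C0 P J0 T Pf Qf CU CW B ρ r Hr G g F A g1 d1 g2 d2
    mb H0 m0 Θ HC HD hm0 Z hrep
  have hΘ0 : 0 < Θ := by linarith [Z.Θ1]
  have hG := HC.G0
  have hA0 := HD.A0
  have hmb : 0 ≤ mb := (Finset.sum_nonneg fun l _ => mul_nonneg (HC.kap0 l)
    (mul_nonneg (by positivity) (Finset.sum_nonneg fun _ _ =>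
      Finset.sum_nonneg fun _ _ => sq_nonneg _))).trans HD.gm
  have hΘ' : Θ ≤ max Θ G := le_max_left _ _
  have hΘ'0 : 0 < max Θ G := lt_of_lt_of_le hΘ0 hΘ'
  have h1 := h bb hbb R P' hR i e κ n k d C0 P J0 T Pf Qf CU CW B ρ r Hr G g F A g1 d1 g2 d2
    mb H0 m0 (max Θ G) HC HD hm0
    ⟨Z.Θ1.trans hΘ', Z.A.trans hΘ', Z.g1.trans hΘ', Z.d1.trans hΘ', Z.g2.trans hΘ',
      Z.d2.trans hΘ', Z.ρ.trans hΘ', Z.r.trans hΘ', Z.Hr.trans hΘ', le_max_right _ _,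
      Z.mb.trans hΘ', Z.H0.trans hΘ'⟩ hrep
  set X1 := XS A g1 d1 ρ r Hr m0 Θ⁻¹ with hX1
  set X2 := XS A g2 d2 ρ r Hr m0 Θ⁻¹ with hX2
  have hX10 : 0 ≤ X1 := SKtx69.XS_nonneg HD.d10 HC.r0 HC.Hr0 (by positivity)
  have hX20 : 0 ≤ X2 := SKtx69.XS_nonneg HD.d20 HC.r0 HC.Hr0 (by positivity)
  have hinv : (max Θ G)⁻¹ ≤ Θ⁻¹ := inv_anti₀ hΘ0 hΘ'
  have hinv0 : 0 < (max Θ G)⁻¹ := inv_pos.2 hΘ'0
  have hx1 : XS A g1 d1 ρ r Hr m0 (max Θ G)⁻¹ ≤ X1 := SKtx69.XS_mono hinv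
  have hx2 : XS A g2 d2 ρ r Hr m0 (max Θ G)⁻¹ ≤ X2 := SKtx69.XS_mono hinv
  have hx10 : 0 ≤ XS A g1 d1 ρ r Hr m0 (max Θ G)⁻¹ :=
    SKtx69.XS_nonneg HD.d10 HC.r0 HC.Hr0 hinv0.le
  have hx20 : 0 ≤ XS A g2 d2 ρ r Hr m0 (max Θ G)⁻¹ :=
    SKtx69.XS_nonneg HD.d20 HC.r0 HC.Hr0 hinv0.le
  have hl' : 0 ≤ Real.log (max Θ G) := Real.log_nonneg (Z.Θ1.trans hΘ')
  set Bd := Real.sqrt (Real.sqrt (X1 * X2) * (A * mb + Θ⁻¹)) with hBd
  have hBd0 : 0 ≤ Bd := Real.sqrt_nonneg _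
  have h2 : Real.sqrt (Real.sqrt (XS A g1 d1 ρ r Hr m0 (max Θ G)⁻¹ *
      XS A g2 d2 ρ r Hr m0 (max Θ G)⁻¹) * (G + (max Θ G)⁻¹) * (A * mb + (max Θ G)⁻¹)) ≤
      Bd * Real.sqrt (G + (max Θ G)⁻¹) := by
    rw [hBd, ← Real.sqrt_mul (by positivity)]
    refine Real.sqrt_le_sqrt ?_
    have h3 : Real.sqrt (XS A g1 d1 ρ r Hr m0 (max Θ G)⁻¹ *
      XS A g2 d2 ρ r Hr m0 (max Θ G)⁻¹) ≤ Real.sqrt (X1 * X2) :=
      Real.sqrt_le_sqrt (mul_le_mul hx1 hx2 hx20 hX10)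
    calc Real.sqrt (XS A g1 d1 ρ r Hr m0 (max Θ G)⁻¹ *
          XS A g2 d2 ρ r Hr m0 (max Θ G)⁻¹) * (G + (max Θ G)⁻¹) * (A * mb + (max Θ G)⁻¹)
        ≤ Real.sqrt (X1 * X2) * (G + (max Θ G)⁻¹) * (A * mb + Θ⁻¹) := by gcongr
      _ = _ := by ring
  have h4 := SKtx69.sc_le Z.Θ1 hG
  refine h1.trans ?_
  calc K * (Real.sqrt (Real.sqrt (XS A g1 d1 ρ r Hr m0 (max Θ G)⁻¹ *
          XS A g2 d2 ρ r Hr m0 (max Θ G)⁻¹) * (G + (max Θ G)⁻¹) * (A * mb + (max Θ G)⁻¹)) *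
          (1 + Real.log (max Θ G)) * 2 ^ (P'.1 + 7))
      ≤ K * (Bd * Real.sqrt (G + (max Θ G)⁻¹) * (1 + Real.log (max Θ G)) * 2 ^ (P'.1 + 7)) := by
        gcongr
    _ = K * Bd * (Real.sqrt (G + (max Θ G)⁻¹) * (1 + Real.log (max Θ G))) * 2 ^ (P'.1 + 7) := by
        ring
    _ ≤ K * Bd * (3 * (1 + Real.log Θ) * (1 + G)) * 2 ^ (P'.1 + 7) := by gcongr
    _ = _ := by ring

end Crest.Agent.R079.FrWx360
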