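import Crest.Agent.R079.Glue_569

/-! R079, [AL3] of doc 2514 (helper914): GLUE (4D -> 3D) for an ARBITRARY kernel `Φ z0 z1 z2` in slot `j`
(generalises `Lbox_atom` / `sum_norm_Lbox_atom_le` of `Glue_569`, which is the case
`Φ = a(z0,z1) b(z1,z2) c(z2,z0)`). -/

set_option autoImplicit false

namespace Crest.Agent.R079.GlueK

open Finset Crest.Agent.R079.Grid Crest.Agent.R079.Pot Crest.Agent.R079.Glue

/-- the line function of slot `j` with kernel `Φ` on `T 0 × T 1 × T 2`. -/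
noncomputable def kerF (j : Fin 4) (κ : ℝ) (T : Fin 3 → Finset ℤ) (Φ : ℤ → ℤ → ℤ → ℂ) (y : ℤ) : ℂ :=
  (κ : ℂ) * ∑ z0 ∈ T 0, ∑ z1 ∈ T 1, ∑ z2 ∈ T 2,
    if cf j 0 * z0 + cf j 1 * z1 + cf j 2 * z2 = y then Φ z0 z1 z2 else 0


/-- a line function of the other slot `k` (variables of the slots `e, f`), frozen variable `w` -/
noncomputable def lin (j k e f : Fin 4) (F : ℤ → ℂ) (w z z' : ℤ) : ℂ :=
  F ((sl j - sl k) * w + (sl e - sl k) * z + (sl f - sl k) * z')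

/-- slot `k2`: function of `(w; z0, z1)` -/
noncomputable def lA (j : Fin 4) (F : Fin 4 → ℤ → ℂ) (w : ℤ) : ℤ → ℤ → ℂ :=
  lin j (j.succAbove 2) (j.succAbove 0) (j.succAbove 1) (F (j.succAbove 2)) w

/-- slot `k0`: function of `(w; z1, z2)` -/
noncomputable def lB (j : Fin 4) (F : Fin 4 → ℤ → ℂ) (w : ℤ) : ℤ → ℤ → ℂ :=
  lin j (j.succAbove 0) (j.succAbove 1) (j.succAbove 2) (F (j.succAbove 0)) w

/-- slot `k1`: function of `(w; z2, z0)` -/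
noncomputable def lC (j : Fin 4) (F : Fin 4 → ℤ → ℂ) (w : ℤ) : ℤ → ℤ → ℂ :=
  lin j (j.succAbove 1) (j.succAbove 2) (j.succAbove 0) (F (j.succAbove 1)) w

open Classical in
/-- the kernel times the three line functions at the point `(z0, z1, z2)`, frozen variable `w` -/
noncomputable def pK (j : Fin 4) (T : Fin 3 → Finset ℤ) (Φ : ℤ → ℤ → ℤ → ℂ) (F : Fin 4 → ℤ → ℂ)
    (w z0 z1 z2 : ℤ) : ℂ :=
  if z0 ∈ T 0 ∧ z1 ∈ T 1 ∧ z2 ∈ T 2 then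
    Φ z0 z1 z2 * (lA j F w z0 z1 * lB j F w z1 z2 * lC j F w z2 z0) else 0

/-- triangular box average of a function of three variables -/
noncomputable def L3 (G : ℤ → ℤ → ℤ → ℂ) (N : ℕ) (p0 p1 p2 : ℤ) : ℂ :=
  (1 / ((N : ℂ) + N) ^ 3) * ∑ i0 : Fin (N + N), ∑ i1 : Fin (N + N), ∑ i2 : Fin (N + N),
    ((hsg N i0 * hsg N i1 * hsg N i2 : ℝ) : ℂ) *
      G (p0 + ((i0 : ℕ) : ℤ)) (p1 + ((i1 : ℕ) : ℤ)) (p2 + ((i2 : ℕ) : ℤ))




/-- for a product kernel this is the old form -/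
lemma L3_pK_prod (j : Fin 4) (T : Fin 3 → Finset ℤ) (a b c : ℤ → ℤ → ℂ) (F : Fin 4 → ℤ → ℂ)
    (w : ℤ) (N : ℕ) (p0 p1 p2 : ℤ) :
    L3 (pK j T (fun z0 z1 z2 => a z0 z1 * b z1 z2 * c z2 z0) F w) N p0 p1 p2 =
      Lb3 (frA j T a F w) (frB j T b F w) (frC j T c F w) N p0 p1 p2 := by
  unfold L3 Lb3
  congr 1
  refine Finset.sum_congr rfl fun i0 _ => Finset.sum_congr rfl fun i1 _ =>
    Finset.sum_congr rfl fun i2 _ => ?_
  congr 1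
  unfold pK frA frB frC frz lA lB lC lin
  by_cases h0 : p0 + ((i0 : ℕ) : ℤ) ∈ T 0
  · by_cases h1 : p1 + ((i1 : ℕ) : ℤ) ∈ T 1
    · by_cases h2 : p2 + ((i2 : ℕ) : ℤ) ∈ T 2
      · rw [if_pos ⟨h0, h1, h2⟩, if_pos ⟨h0, h1⟩, if_pos ⟨h1, h2⟩, if_pos ⟨h2, h0⟩]
        ring
      · rw [if_neg (fun h => h2 h.2.2), if_neg (fun h : _ ∧ _ => h2 h.2)]
        ring
    · rw [if_neg (fun h => h1 h.2.1), if_neg (fun h : _ ∧ _ => h1 h.2)]
      ring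
  · rw [if_neg (fun h => h0 h.1), if_neg (fun h : _ ∧ _ => h0 h.1)]
    ring

end Crest.Agent.R079.GlueK
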