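import Mathlib
import Crest.Agent.R079.F24d_118
import Crest.Agent.R079.GlueK_914
import Crest.Agent.R079.NonCol_37

-- ▼ part R079/PLS1_242
section

/-! R079 (helper242): RANDOM SIGNS.  Labelled kernels are averages of unlabelled ones.
`chaos`: `E_ω ‖∑_z X_ω(z) conj X'_ω(z)‖² ≤ ‖labelled product‖² + 2 (diagonal)`. -/

set_option autoImplicit false
set_option linter.unusedSectionVars false

namespace Crest.Agent.R079.Sgn

open Finset

/-- sign -/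
noncomputable def sb (b : Bool) : ℝ := if b then 1 else -1

lemma sb_mul_self (b : Bool) : sb b * sb b = 1 := by
  unfold sb; split_ifs <;> norm_num

lemma sb_not (b : Bool) : sb (!b) = - sb b := by
  cases b <;> simp [sb]

section gen

variable {α : Type*} [Fintype α] [DecidableEq α]

/-- number of sign vectors -/
noncomputable def Cn (α : Type*) [Fintype α] [DecidableEq α] : ℝ := (Fintype.card (α → Bool) : ℝ)

lemma Cn_pos : 0 < Cn α := by
  unfold Cn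
  exact_mod_cast Fintype.card_pos

/-- flip of the sign `e` -/
def flip (e : α) : Equiv.Perm (α → Bool) where
  toFun ω := Function.update ω e (!(ω e))
  invFun ω := Function.update ω e (!(ω e))
  left_inv ω := by simp
  right_inv ω := by simp

lemma flip_same (e : α) (ω : α → Bool) : sb (flip e ω e) = - sb (ω e) := by
  simp [flip, sb_not]

lemma flip_ne {e a : α} (h : a ≠ e) (ω : α → Bool) : sb (flip e ω a) = sb (ω a) := by
  simp [flip, Function.update_of_ne h]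

lemma sum_zero_of_flip (e : α) (f : (α → Bool) → ℝ) (h : ∀ ω, f (flip e ω) = - f ω) :
    ∑ ω, f ω = 0 := by
  have h1 : ∑ ω, f (flip e ω) = ∑ ω, f ω := Equiv.sum_comp (flip e) f
  rw [Finset.sum_congr rfl fun ω _ => h ω, Finset.sum_neg_distrib] at h1
  linarith

lemma m2 {a b : α} (h : a ≠ b) : ∑ ω : α → Bool, sb (ω a) * sb (ω b) = 0 := by
  refine sum_zero_of_flip a _ fun ω => ?_
  rw [flip_same, flip_ne h.symm]; ring

lemma sum_one : ∑ _ω : α → Bool, (1 : ℝ) = Cn α := by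
  simp [Cn, Finset.card_univ]

lemma m4 {a b c d : α} (h1 : a ≠ b) (h2 : c ≠ d) :
    ∑ ω : α → Bool, (sb (ω a) * sb (ω b)) * (sb (ω c) * sb (ω d)) =
      if (a = c ∧ b = d) ∨ (a = d ∧ b = c) then Cn α else 0 := by
  by_cases hac : a = c
  · subst hac
    by_cases hbd : b = d
    · subst hbd
      rw [if_pos (Or.inl ⟨rfl, rfl⟩), ← sum_one]
      refine Finset.sum_congr rfl fun ω _ => ?_
      have := sb_mul_self (ω a)
      have h' := sb_mul_self (ω b)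
      linear_combination (sb (ω b) * sb (ω b)) * this + h'
    · rw [if_neg (by
        rintro (⟨_, h⟩ | ⟨h, h'⟩)
        · exact hbd h
        · exact h1 h'.symm)]
      refine sum_zero_of_flip b _ fun ω => ?_
      rw [flip_ne h1, flip_same, flip_ne (Ne.symm hbd)]; ring
  · by_cases had : a = d
    · subst had
      by_cases hbc : b = c
      · subst hbc
        rw [if_pos (Or.inr ⟨rfl, rfl⟩), ← sum_one]
        refine Finset.sum_congr rfl fun ω _ => ?_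
        have := sb_mul_self (ω a)
        have h' := sb_mul_self (ω b)
        linear_combination (sb (ω b) * sb (ω b)) * this + h'
      · rw [if_neg (by
          rintro (⟨h, _⟩ | ⟨_, h⟩)
          · exact hac h
          · exact hbc h)]
        refine sum_zero_of_flip b _ fun ω => ?_
        rw [flip_ne h1, flip_same, flip_ne (Ne.symm hbc)]; ring
    · rw [if_neg (by
        rintro (⟨h, _⟩ | ⟨h, _⟩)
        · exact hac h
        · exact had h)]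
      refine sum_zero_of_flip a _ fun ω => ?_
      rw [flip_same, flip_ne h1.symm, flip_ne (Ne.symm hac), flip_ne (Ne.symm had)]; ring

lemma norm_sum_sq {ι : Type*} (s : Finset ι) (r : ι → ℝ) (z : ι → ℂ) :
    ‖∑ i ∈ s, (r i : ℂ) * z i‖ ^ 2 =
      ∑ i ∈ s, ∑ j ∈ s, (r i * r j) * (z i * (starRingEnd ℂ) (z j)).re := by
  rw [← Complex.normSq_eq_norm_sq]
  have h : (Complex.normSq (∑ i ∈ s, (r i : ℂ) * z i) : ℂ) =
      ∑ i ∈ s, ∑ j ∈ s, ((r i * r j : ℝ) : ℂ) * (z i * (starRingEnd ℂ) (z j)) := by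
    rw [← Complex.mul_conj, map_sum, Finset.sum_mul_sum]
    refine Finset.sum_congr rfl fun i _ => Finset.sum_congr rfl fun j _ => ?_
    rw [map_mul, Complex.conj_ofReal]
    push_cast; ring
  have h2 := congrArg Complex.re h
  rw [Complex.ofReal_re] at h2
  rw [h2, Complex.re_sum]
  refine Finset.sum_congr rfl fun i _ => ?_
  rw [Complex.re_sum]
  refine Finset.sum_congr rfl fun j _ => ?_
  rw [Complex.re_ofReal_mul]

/-- second moment of a chaos of order two -/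
theorem chaos_gen (c : α → α → ℂ) :
    ∑ ω : α → Bool, ‖∑ P : α × α, ((sb (ω P.1) * sb (ω P.2) : ℝ) : ℂ) * c P.1 P.2‖ ^ 2 ≤
      Cn α * (‖∑ a, c a a‖ ^ 2 + 2 * ∑ P : α × α, ‖c P.1 P.2‖ ^ 2) := by
  have h1 : ∀ ω : α → Bool,
      ‖∑ P : α × α, ((sb (ω P.1) * sb (ω P.2) : ℝ) : ℂ) * c P.1 P.2‖ ^ 2 =
      ∑ P : α × α, ∑ P' : α × α, ((sb (ω P.1) * sb (ω P.2)) * (sb (ω P'.1) * sb (ω P'.2))) *
        (c P.1 P.2 * (starRingEnd ℂ) (c P'.1 P'.2)).re := fun ω => norm_sum_sq _ _ _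
  rw [Finset.sum_congr rfl fun ω _ => h1 ω, Finset.sum_comm]
  have h2 : ∀ P : α × α, ∑ ω : α → Bool, ∑ P' : α × α,
      ((sb (ω P.1) * sb (ω P.2)) * (sb (ω P'.1) * sb (ω P'.2))) *
        (c P.1 P.2 * (starRingEnd ℂ) (c P'.1 P'.2)).re =
      ∑ P' : α × α, (∑ ω : α → Bool, (sb (ω P.1) * sb (ω P.2)) * (sb (ω P'.1) * sb (ω P'.2))) *
        (c P.1 P.2 * (starRingEnd ℂ) (c P'.1 P'.2)).re := by
    intro P
    rw [Finset.sum_comm]
    refine Finset.sum_congr rfl fun P' _ => ?_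
    rw [Finset.sum_mul]
  rw [Finset.sum_congr rfl fun P _ => h2 P]
  -- the Gram matrix of the chaos
  have hG : ∀ P P' : α × α,
      (∑ ω : α → Bool, (sb (ω P.1) * sb (ω P.2)) * (sb (ω P'.1) * sb (ω P'.2))) =
      (if P.1 = P.2 ∧ P'.1 = P'.2 then Cn α else 0) +
      (if P.1 ≠ P.2 ∧ P' = P then Cn α else 0) +
      (if P.1 ≠ P.2 ∧ P' = (P.2, P.1) then Cn α else 0) := by
    rintro ⟨a, b⟩ ⟨c', d⟩
    simp only [Prod.mk.injEq]
    by_cases hab : a = b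
    · subst hab
      by_cases hcd : c' = d
      · subst hcd
        simp only [ne_eq, not_true_eq_false, false_and, if_false, and_self, if_true, add_zero]
        rw [← sum_one]
        refine Finset.sum_congr rfl fun ω _ => ?_
        rw [sb_mul_self, sb_mul_self, one_mul]
      · have e0 : (if a = a ∧ c' = d then Cn α else 0) = 0 := if_neg (fun h => hcd h.2)
        have e1 : (if a ≠ a ∧ c' = a ∧ d = a then Cn α else 0) = 0 := if_neg (fun h => h.1 rfl)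
        rw [e0, e1]
        have : ∀ ω : α → Bool, (sb (ω a) * sb (ω a)) * (sb (ω c') * sb (ω d)) =
            sb (ω c') * sb (ω d) := fun ω => by rw [sb_mul_self, one_mul]
        rw [Finset.sum_congr rfl fun ω _ => this ω, m2 hcd]
        simp
    · by_cases hcd : c' = d
      · subst hcd
        have : ∀ ω : α → Bool, (sb (ω a) * sb (ω b)) * (sb (ω c') * sb (ω c')) =
            sb (ω a) * sb (ω b) := fun ω => by rw [sb_mul_self, mul_one]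
        rw [Finset.sum_congr rfl fun ω _ => this ω, m2 hab, if_neg (fun h => hab h.1), if_neg,
          if_neg]
        · simp
        · rintro ⟨_, h, h'⟩
          exact hab (h'.symm.trans h)
        · rintro ⟨_, h, h'⟩
          exact hab (h.symm.trans h')
      · rw [m4 hab hcd]
        have e0 : (if a = b ∧ c' = d then Cn α else 0) = 0 := if_neg (fun h => hab h.1)
        rw [e0, zero_add]
        by_cases h1 : a = c' ∧ b = d
        · have e1 : (if a ≠ b ∧ c' = a ∧ d = b then Cn α else 0) = Cn α :=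
            if_pos ⟨hab, h1.1.symm, h1.2.symm⟩
          have e2 : (if a ≠ b ∧ c' = b ∧ d = a then Cn α else 0) = 0 :=
            if_neg (fun h => hab (h1.1.trans h.2.1))
          rw [if_pos (Or.inl h1), e1, e2, add_zero]
        · have e1 : (if a ≠ b ∧ c' = a ∧ d = b then Cn α else 0) = 0 :=
            if_neg (fun h => h1 ⟨h.2.1.symm, h.2.2.symm⟩)
          rw [e1, zero_add]
          by_cases h2 : a = d ∧ b = c'
          · have e2 : (if a ≠ b ∧ c' = b ∧ d = a then Cn α else 0) = Cn α :=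
              if_pos ⟨hab, h2.2.symm, h2.1.symm⟩
            rw [if_pos (Or.inr h2), e2]
          · have e2 : (if a ≠ b ∧ c' = b ∧ d = a then Cn α else 0) = 0 :=
              if_neg (fun h => h2 ⟨h.2.2.symm, h.2.1.symm⟩)
            rw [if_neg (fun h => h.elim h1 h2), e2]
  have h3 : ∀ P : α × α, ∑ P' : α × α,
      (∑ ω : α → Bool, (sb (ω P.1) * sb (ω P.2)) * (sb (ω P'.1) * sb (ω P'.2))) *
        (c P.1 P.2 * (starRingEnd ℂ) (c P'.1 P'.2)).re ≤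
      (if P.1 = P.2 then Cn α * (c P.1 P.2 * (starRingEnd ℂ) (∑ a, c a a)).re else 0) +
        Cn α * (‖c P.1 P.2‖ ^ 2 + (‖c P.1 P.2‖ ^ 2 + ‖c P.2 P.1‖ ^ 2) / 2) := by
    intro P
    have hC := (Cn_pos (α := α)).le
    rw [Finset.sum_congr rfl fun P' _ => by rw [hG P P']]
    simp only [add_mul]
    rw [Finset.sum_add_distrib, Finset.sum_add_distrib]
    have e1 : ∑ P' : α × α, (if P.1 = P.2 ∧ P'.1 = P'.2 then Cn α else 0) *
        (c P.1 P.2 * (starRingEnd ℂ) (c P'.1 P'.2)).re =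
        if P.1 = P.2 then Cn α * (c P.1 P.2 * (starRingEnd ℂ) (∑ a, c a a)).re else 0 := by
      by_cases hP : P.1 = P.2
      · rw [if_pos hP]
        simp only [hP, true_and]
        rw [map_sum, Finset.mul_sum, Complex.re_sum, Finset.mul_sum, Fintype.sum_prod_type]
        refine Finset.sum_congr rfl fun a _ => ?_
        rw [Finset.sum_eq_single a]
        · simp
        · intro b _ hb
          rw [if_neg (fun h => hb h.symm), zero_mul]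
        · intro h; exact absurd (Finset.mem_univ _) h
      · rw [if_neg hP]
        refine Finset.sum_eq_zero fun P' _ => ?_
        rw [if_neg (fun h => hP h.1), zero_mul]
    have e2 : ∑ P' : α × α, (if P.1 ≠ P.2 ∧ P' = P then Cn α else 0) *
        (c P.1 P.2 * (starRingEnd ℂ) (c P'.1 P'.2)).re ≤ Cn α * ‖c P.1 P.2‖ ^ 2 := by
      rw [Finset.sum_eq_single P]
      · have : (c P.1 P.2 * (starRingEnd ℂ) (c P.1 P.2)).re = ‖c P.1 P.2‖ ^ 2 := by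
          rw [Complex.mul_conj, Complex.ofReal_re, Complex.normSq_eq_norm_sq]
        rw [this]
        split_ifs
        · exact le_rfl
        · rw [zero_mul]; positivity
      · intro P' _ h
        rw [if_neg (fun h' => h h'.2), zero_mul]
      · intro h; exact absurd (Finset.mem_univ _) h
    have e3 : ∑ P' : α × α, (if P.1 ≠ P.2 ∧ P' = (P.2, P.1) then Cn α else 0) *
        (c P.1 P.2 * (starRingEnd ℂ) (c P'.1 P'.2)).re ≤
        Cn α * ((‖c P.1 P.2‖ ^ 2 + ‖c P.2 P.1‖ ^ 2) / 2) := by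
      rw [Finset.sum_eq_single (P.2, P.1)]
      · have : (c P.1 P.2 * (starRingEnd ℂ) (c P.2 P.1)).re ≤
            (‖c P.1 P.2‖ ^ 2 + ‖c P.2 P.1‖ ^ 2) / 2 := by
          refine (Complex.re_le_norm _).trans ?_
          rw [norm_mul, RCLike.norm_conj]
          nlinarith [sq_nonneg (‖c P.1 P.2‖ - ‖c P.2 P.1‖)]
        split_ifs
        · exact mul_le_mul_of_nonneg_left this hC
        · rw [zero_mul]; positivity
      · intro P' _ h
        rw [if_neg (fun h' => h h'.2), zero_mul]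
      · intro h; exact absurd (Finset.mem_univ _) h
    rw [e1, mul_add]
    linarith
  refine (Finset.sum_le_sum fun P _ => h3 P).trans ?_
  rw [Finset.sum_add_distrib]
  have h4 : ∑ P : α × α, (if P.1 = P.2 then
      Cn α * (c P.1 P.2 * (starRingEnd ℂ) (∑ a, c a a)).re else 0) = Cn α * ‖∑ a, c a a‖ ^ 2 := by
    rw [Fintype.sum_prod_type]
    have : ∀ a, ∑ b, (if (a, b).1 = (a, b).2 then
        Cn α * (c (a, b).1 (a, b).2 * (starRingEnd ℂ) (∑ a, c a a)).re else 0) =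
        Cn α * (c a a * (starRingEnd ℂ) (∑ a, c a a)).re := by
      intro a
      rw [Finset.sum_eq_single a]
      · simp
      · intro b _ hb
        rw [if_neg (fun h => hb h.symm)]
      · intro h; exact absurd (Finset.mem_univ _) h
    rw [Finset.sum_congr rfl fun a _ => this a, ← Finset.mul_sum, ← Complex.re_sum,
      ← Finset.sum_mul, Complex.mul_conj, Complex.ofReal_re, Complex.normSq_eq_norm_sq]
  have h5 : ∑ P : α × α, Cn α * (‖c P.1 P.2‖ ^ 2 + (‖c P.1 P.2‖ ^ 2 + ‖c P.2 P.1‖ ^ 2) / 2) =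
      Cn α * (2 * ∑ P : α × α, ‖c P.1 P.2‖ ^ 2) := by
    rw [← Finset.mul_sum, Finset.sum_add_distrib, ← Finset.sum_div, Finset.sum_add_distrib]
    have : ∑ P : α × α, ‖c P.2 P.1‖ ^ 2 = ∑ P : α × α, ‖c P.1 P.2‖ ^ 2 :=
      Equiv.sum_comp (Equiv.prodComm α α) (fun P => ‖c P.1 P.2‖ ^ 2)
    rw [this]
    ring
  rw [h4, h5, mul_add]

end gen

section lab

variable {τ κ : Type*} [Fintype τ] [DecidableEq τ] [Fintype κ] [DecidableEq κ]

/-- **order two chaos with independent rows** -/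
theorem chaos (x x' : τ → κ → ℂ) :
    ∑ ω : τ × κ → Bool, ‖∑ z, (∑ k, (sb (ω (z, k)) : ℂ) * x z k) *
        (starRingEnd ℂ) (∑ k, (sb (ω (z, k)) : ℂ) * x' z k)‖ ^ 2 ≤
      Cn (τ × κ) * (‖∑ z, ∑ k, x z k * (starRingEnd ℂ) (x' z k)‖ ^ 2 +
        2 * ∑ z, (∑ k, ‖x z k‖ ^ 2) * ∑ k, ‖x' z k‖ ^ 2) := by
  set c : τ × κ → τ × κ → ℂ := fun a b => if a.1 = b.1 then x a.1 a.2 * (starRingEnd ℂ) (x' b.1 b.2)
    else 0 with hc
  have h1 : ∀ ω : τ × κ → Bool, ∑ z, (∑ k, (sb (ω (z, k)) : ℂ) * x z k) *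
        (starRingEnd ℂ) (∑ k, (sb (ω (z, k)) : ℂ) * x' z k) =
      ∑ P : (τ × κ) × (τ × κ), ((sb (ω P.1) * sb (ω P.2) : ℝ) : ℂ) * c P.1 P.2 := by
    intro ω
    rw [Fintype.sum_prod_type, Fintype.sum_prod_type]
    refine Finset.sum_congr rfl fun z _ => ?_
    rw [map_sum, Finset.sum_mul_sum]
    refine Finset.sum_congr rfl fun k _ => ?_
    rw [Fintype.sum_prod_type, Finset.sum_eq_single z]
    · refine Finset.sum_congr rfl fun k' _ => ?_
      simp only [hc, if_true]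
      rw [map_mul, Complex.conj_ofReal]
      push_cast; ring
    · intro z' _ hz
      refine Finset.sum_eq_zero fun k' _ => ?_
      simp only [hc]
      rw [if_neg (fun h => hz h.symm), mul_zero]
    · intro h; exact absurd (Finset.mem_univ _) h
  rw [Finset.sum_congr rfl fun ω _ => by rw [h1 ω]]
  refine (chaos_gen c).trans (mul_le_mul_of_nonneg_left ?_ Cn_pos.le)
  have h2 : ∑ a : τ × κ, c a a = ∑ z, ∑ k, x z k * (starRingEnd ℂ) (x' z k) := by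
    rw [Fintype.sum_prod_type]
    simp [hc]
  have h3 : ∑ P : (τ × κ) × (τ × κ), ‖c P.1 P.2‖ ^ 2 =
      ∑ z, (∑ k, ‖x z k‖ ^ 2) * ∑ k, ‖x' z k‖ ^ 2 := by
    rw [Fintype.sum_prod_type, Fintype.sum_prod_type]
    refine Finset.sum_congr rfl fun z _ => ?_
    rw [Finset.sum_mul_sum]
    refine Finset.sum_congr rfl fun k _ => ?_
    rw [Fintype.sum_prod_type, Finset.sum_eq_single z]
    · refine Finset.sum_congr rfl fun k' _ => ?_
      simp only [hc, if_true]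
      rw [norm_mul, RCLike.norm_conj, mul_pow]
    · intro z' _ hz
      refine Finset.sum_eq_zero fun k' _ => ?_
      simp only [hc]
      rw [if_neg (fun h => hz h.symm), norm_zero]
      norm_num
    · intro h; exact absurd (Finset.mem_univ _) h
  rw [h2, h3]

/-- second moment of a linear form -/
theorem lin (x : κ → ℂ) (z : τ) :
    ∑ ω : τ × κ → Bool, ‖∑ k, (sb (ω (z, k)) : ℂ) * x k‖ ^ 2 = Cn (τ × κ) * ∑ k, ‖x k‖ ^ 2 := by
  rw [Finset.sum_congr rfl fun ω _ => norm_sum_sq univ (fun k => sb (ω (z, k))) x,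
    Finset.sum_comm, Finset.mul_sum]
  refine Finset.sum_congr rfl fun k _ => ?_
  rw [Finset.sum_comm, Finset.sum_eq_single k]
  · rw [← Finset.sum_mul]
    have : ∑ ω : τ × κ → Bool, sb (ω (z, k)) * sb (ω (z, k)) = Cn (τ × κ) := by
      rw [← sum_one]
      exact Finset.sum_congr rfl fun ω _ => sb_mul_self _
    rw [this, Complex.mul_conj, Complex.ofReal_re, Complex.normSq_eq_norm_sq]
  · intro k' _ hk
    rw [← Finset.sum_mul, m2 (fun h => hk (congrArg Prod.snd h).symm), zero_mul]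
  · intro h; exact absurd (Finset.mem_univ _) h

/-- mixed second moment: the labelled product -/
theorem prod_avg (x y : κ → ℂ) (z : τ) :
    ∑ ω : τ × κ → Bool, (∑ k, (sb (ω (z, k)) : ℂ) * x k) * (∑ k, (sb (ω (z, k)) : ℂ) * y k) =
      (Cn (τ × κ) : ℂ) * ∑ k, x k * y k := by
  have h1 : ∀ ω : τ × κ → Bool,
      (∑ k, (sb (ω (z, k)) : ℂ) * x k) * (∑ k, (sb (ω (z, k)) : ℂ) * y k) =
      ∑ k, ∑ k', ((sb (ω (z, k)) * sb (ω (z, k')) : ℝ) : ℂ) * (x k * y k') := by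
    intro ω
    rw [Finset.sum_mul_sum]
    refine Finset.sum_congr rfl fun k _ => Finset.sum_congr rfl fun k' _ => ?_
    push_cast; ring
  rw [Finset.sum_congr rfl fun ω _ => h1 ω, Finset.sum_comm, Finset.mul_sum]
  refine Finset.sum_congr rfl fun k _ => ?_
  rw [Finset.sum_comm, Finset.sum_eq_single k]
  · rw [← Finset.sum_mul, ← Complex.ofReal_sum]
    have : ∑ ω : τ × κ → Bool, sb (ω (z, k)) * sb (ω (z, k)) = Cn (τ × κ) := by
      rw [← sum_one]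
      exact Finset.sum_congr rfl fun ω _ => sb_mul_self _
    rw [this]
  · intro k' _ hk
    rw [← Finset.sum_mul, ← Complex.ofReal_sum, m2 (fun h => hk (congrArg Prod.snd h).symm),
      Complex.ofReal_zero, zero_mul]
  · intro h; exact absurd (Finset.mem_univ _) h

end lab

end Crest.Agent.R079.Sgn
end

-- ▼ part R079/F24e_118
section

/-! R079, AL4 (helper118): the LINEAR form of `Frozen24` (bound by totals of the node budgets) and the
version for MIXTURES of atoms, weights inside the sum. -/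

set_option autoImplicit false
set_option linter.unusedVariables false

namespace Crest.Agent.R079.F24

open Finset Crest.Agent.R079.Grid Crest.Agent.R079.Pot Crest.Agent.R079.Glue Crest.Agent.R079.R244

/-- what is used about one edge: budget on the masked kernels, totals near the exits -/
structure EdgeT (R : Finset (ℕ × ℤ)) (κ h : ℕ) (g : Bud) (s ε : ℝ) (α γ δ : ℤ) (T T' : Finset ℤ)
    (a : ℤ → ℤ → ℂ) (F : ℤ → ℂ) (tt : ℕ → ℕ → ℝ) : Prop where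
  good : GoodB g
  hγ : |γ| ≤ 3
  hδ : |δ| ≤ 3
  bud : ∀ (σ : Bool) (m : ℕ) (w : ℤ) (N : ℕ) (q p : ℤ),
    g (fK σ α γ δ T T' a (msk (Rm R m) F) w) N q p ≤
      UU s ε (cK α γ δ T T' a (msk (Rm R m) F) w) N q p
  total : ∀ (m k : ℕ), k ≤ κ → ∀ Λ : Finset (ℤ × ℤ × ℤ),
    (∀ t ∈ Λ, ∀ i j : ℕ, i < 2 ^ (m + k) → j < 2 ^ (m + k) →
      α * t.1 + γ * (t.2.1 + (i : ℤ)) + δ * (t.2.2 + (j : ℤ)) ∈ Dp R m h) →
    ∑ t ∈ Λ, UU s ε (cK α γ δ T T' a (msk (Rm R m) F) t.1) (2 ^ (m + k)) t.2.1 t.2.2 ≤ tt m k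

variable {R : Finset (ℕ × ℤ)} {J : ℕ × ℤ} {κ h : ℕ} {s : ℝ}

/-- **own potentials of one level** -/
lemma sumE_leT (hR : IsRegion R J) {g : Bud} {ε : ℝ} {α γ δ : ℤ} {T T' : Finset ℤ}
    {a : ℤ → ℤ → ℂ} {F : ℤ → ℂ} {tt : ℕ → ℕ → ℝ} (hE : EdgeT R κ h g s ε α γ δ T T' a F tt)
    (m k : ℕ)
    (hm : m ≤ J.1) (hk : k ≤ κ) (hkh : 12 * 2 ^ k ≤ h) (σ : Bool) (Wf : Finset ℤ) (Lw : ℤ → ℕ) :
    ∑ w ∈ Wf, EgZ g (Lw w) (fK σ α γ δ T T' a (msk (Rs R (m + 1)) F) w)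
      (fK σ α γ δ T T' a (msk (Rs R m) F) w) (2 ^ (m + k)) ≤ tt m k := by
  classical
  obtain ⟨LL, hLL⟩ := Wsup Wf Lw
  set N := 2 ^ (m + k) with hN
  have hNz : (N : ℤ) = 2 ^ k * 2 ^ m := by rw [hN]; push_cast; rw [pow_add]; ring
  refine (Finset.sum_le_sum fun w hw => EgZ_mono hE.good _ _ N (Lw w) LL (hLL w hw)).trans ?_
  set P : ℤ × ℤ × ℤ → Prop := fun t => SeesZ (fK σ α γ δ T T' a (msk (Rs R (m + 1)) F) t.1)
      (fK σ α γ δ T T' a (msk (Rs R m) F) t.1) N t.2.1 t.2.2 with hP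
  set Λ := (Wf ×ˢ (Icc (-(LL : ℤ)) LL ×ˢ Icc (-(LL : ℤ)) LL)).filter P with hΛ
  have e : ∑ w ∈ Wf, EgZ g LL (fK σ α γ δ T T' a (msk (Rs R (m + 1)) F) w)
      (fK σ α γ δ T T' a (msk (Rs R m) F) w) N =
      ∑ t ∈ Λ, g (fK σ α γ δ T T' a (msk (Rm R m) F) t.1) N t.2.1 t.2.2 := by
    rw [hΛ, Finset.sum_filter, Finset.sum_product]
    refine Finset.sum_congr rfl fun w _ => ?_
    unfold EgZ
    rw [Finset.sum_product]
    rfl
  rw [e]
  refine (Finset.sum_le_sum fun t _ => hE.bud σ m t.1 N t.2.1 t.2.2).trans ?_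
  refine hE.total m k hk Λ ?_
  intro t ht i j hi hj
  rw [hΛ, Finset.mem_filter] at ht
  obtain ⟨i', j', hi', hj', hd⟩ := fK_sees R J hR m hm F σ α γ δ T T' a t.1 N t.2.1 t.2.2 ht.2
  refine mem_Dp R m h _ _ hd ?_
  have a1 := abs_smul_le γ i N hE.hγ hi
  have a2 := abs_smul_le γ i' N hE.hγ hi'
  have a3 := abs_smul_le δ j N hE.hδ hj
  have a4 := abs_smul_le δ j' N hE.hδ hj'
  have e : α * t.1 + γ * (t.2.1 + (i : ℤ)) + δ * (t.2.2 + (j : ℤ)) -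
      (α * t.1 + γ * (t.2.1 + (i' : ℤ)) + δ * (t.2.2 + (j' : ℤ))) =
      γ * (i : ℤ) + δ * (j : ℤ) - γ * (i' : ℤ) - δ * (j' : ℤ) := by ring
  have hhz : (12 * 2 ^ k : ℤ) ≤ h := by exact_mod_cast hkh
  have hb : 12 * (N : ℤ) ≤ h * 2 ^ m := by
    rw [hNz]
    have : (0 : ℤ) ≤ 2 ^ m := by positivity
    nlinarith
  rw [e]
  refine le_trans ?_ hb
  rw [abs_le] at a1 a2 a3 a4 ⊢
  constructor <;> linarith [a1.1, a1.2, a2.1, a2.2, a3.1, a3.2, a4.1, a4.2]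

/-- **joint potentials of one level** -/
lemma sumV_leT (hR : IsRegion R J) {gA gB gC : Bud} {εA εB εC : ℝ}
    {sj s0 s1 s2 : ℤ} (hsl : Slopes sj s0 s1 s2) {T0 T1 T2 : Finset ℤ}
    {a b c : ℤ → ℤ → ℂ} {F0 F1 F2 : ℤ → ℂ} {tA' tB' tC' : ℕ → ℕ → ℝ}
    (hA : EdgeT R κ h gA s εA (sj - s2) (s0 - s2) (s1 - s2) T0 T1 a F2 tA')
    (hB : EdgeT R κ h gB s εB (sj - s0) (s1 - s0) (s2 - s0) T1 T2 b F0 tB')
    (hC : EdgeT R κ h gC s εC (sj - s1) (s2 - s1) (s0 - s1) T2 T0 c F1 tC') (m : ℕ)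
    (hm : m ≤ J.1) (hh : 24 ≤ h) (σ0 σ1 σ2 : Bool) (Wf : Finset ℤ) (Lw : ℤ → ℕ) :
    ∑ w ∈ Wf, VgZ gA gB gC (Lw w) w
      (fK σ2 (sj - s2) (s0 - s2) (s1 - s2) T0 T1 a (msk (Rs R (m + 1)) F2) w)
      (fK σ0 (sj - s0) (s1 - s0) (s2 - s0) T1 T2 b (msk (Rs R (m + 1)) F0) w)
      (fK σ1 (sj - s1) (s2 - s1) (s0 - s1) T2 T0 c (msk (Rs R (m + 1)) F1) w)
      (fK σ2 (sj - s2) (s0 - s2) (s1 - s2) T0 T1 a (msk (Rs R m) F2) w)
      (fK σ0 (sj - s0) (s1 - s0) (s2 - s0) T1 T2 b (msk (Rs R m) F0) w)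
      (fK σ1 (sj - s1) (s2 - s1) (s0 - s1) T2 T0 c (msk (Rs R m) F1) w) (2 ^ m) ≤
      tA' m 0 + tB' m 0 + tC' m 0 := by
  classical
  obtain ⟨LL, hLL⟩ := Wsup Wf Lw
  refine (Finset.sum_le_sum fun w hw => VgZ_mono hA.good hB.good hC.good w _ _ _ _ _ _ _ (Lw w) LL
    (hLL w hw)).trans ?_
  set N := 2 ^ m with hN
  have hN0 : (0 : ℝ) < (N : ℝ) := by rw [hN]; positivity
  set uA : ℤ × ℤ × ℤ → ℝ := fun t =>
    UU s εA (cK (sj - s2) (s0 - s2) (s1 - s2) T0 T1 a (msk (Rm R m) F2) t.1) N t.2.1 t.2.2 with huA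
  set uB : ℤ × ℤ × ℤ → ℝ := fun t =>
    UU s εB (cK (sj - s0) (s1 - s0) (s2 - s0) T1 T2 b (msk (Rm R m) F0) t.1) N t.2.1 t.2.2 with huB
  set uC : ℤ × ℤ × ℤ → ℝ := fun t =>
    UU s εC (cK (sj - s1) (s2 - s1) (s0 - s1) T2 T0 c (msk (Rm R m) F1) t.1) N t.2.1 t.2.2 with huC
  set P : ℕ → ℤ × ℤ × ℤ → Prop := fun i t =>
    SeesZ (fK σ2 (sj - s2) (s0 - s2) (s1 - s2) T0 T1 a (msk (Rs R (m + 1)) F2) t.1)
          (fK σ2 (sj - s2) (s0 - s2) (s1 - s2) T0 T1 a (msk (Rs R m) F2) t.1) N t.2.1 t.2.2 ∨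
        SeesZ (fK σ0 (sj - s0) (s1 - s0) (s2 - s0) T1 T2 b (msk (Rs R (m + 1)) F0) t.1)
          (fK σ0 (sj - s0) (s1 - s0) (s2 - s0) T1 T2 b (msk (Rs R m) F0) t.1) N t.2.2
            (tc N i t.1 t.2.1 t.2.2) ∨
        SeesZ (fK σ1 (sj - s1) (s2 - s1) (s0 - s1) T2 T0 c (msk (Rs R (m + 1)) F1) t.1)
          (fK σ1 (sj - s1) (s2 - s1) (s0 - s1) T2 T0 c (msk (Rs R m) F1) t.1) N
            (tc N i t.1 t.2.1 t.2.2) t.2.1 with hP
  set Λ : ℕ → Finset (ℤ × ℤ × ℤ) := fun i =>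
    (Wf ×ˢ (Icc (-(LL : ℤ)) LL ×ˢ Icc (-(LL : ℤ)) LL)).filter (P i) with hΛ
  set φ : ℕ → ℤ × ℤ × ℤ → ℤ × ℤ × ℤ := fun i t => (t.1, t.2.2, tc N i t.1 t.2.1 t.2.2) with hφ
  set ψ : ℕ → ℤ × ℤ × ℤ → ℤ × ℤ × ℤ := fun i t => (t.1, tc N i t.1 t.2.1 t.2.2, t.2.1) with hψ
  have hφi : ∀ i, Function.Injective (φ i) := by
    rintro i ⟨x, y, z⟩ ⟨x', y', z'⟩ h
    simp only [hφ, Prod.mk.injEq, tc] at h
    obtain ⟨h1, h2, h3⟩ := h
    refine Prod.ext h1 (Prod.ext ?_ h2)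
    simp only
    linarith
  have hψi : ∀ i, Function.Injective (ψ i) := by
    rintro i ⟨x, y, z⟩ ⟨x', y', z'⟩ h
    simp only [hψ, Prod.mk.injEq, tc] at h
    obtain ⟨h1, h2, h3⟩ := h
    refine Prod.ext h1 (Prod.ext h3 ?_)
    simp only
    linarith
  have hclose : ∀ i, i < N → ∀ t ∈ Λ i, _ := fun i hi t ht =>
    close_all (J := J) hR m h hm hh F0 F1 F2 σ0 σ1 σ2 sj s0 s1 s2 hsl T0 T1 T2 a b c t.1 i hi
      t.2.1 t.2.2 (Finset.mem_filter.mp ht).2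
  have tA : ∀ i, i < N → ∑ t ∈ Λ i, uA t ≤ tA' m 0 := by
    intro i hi
    exact hA.total m 0 (Nat.zero_le _) (Λ i)
      (fun t ht i0 i1 h0 h1 => (hclose i hi t ht).1 i0 i1 h0 h1)
  have tB : ∀ i, i < N → ∑ t ∈ Λ i, uB (φ i t) ≤ tB' m 0 := by
    intro i hi
    rw [← Finset.sum_image (f := uB) (g := φ i) ((hφi i).injOn)]
    refine hB.total m 0 (Nat.zero_le _) ((Λ i).image (φ i)) ?_
    intro t ht i0 i1 h0 h1
    rw [Finset.mem_image] at ht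
    obtain ⟨t', ht', rfl⟩ := ht
    exact (hclose i hi t' ht').2.1 i0 i1 h0 h1
  have tC : ∀ i, i < N → ∑ t ∈ Λ i, uC (ψ i t) ≤ tC' m 0 := by
    intro i hi
    rw [← Finset.sum_image (f := uC) (g := ψ i) ((hψi i).injOn)]
    refine hC.total m 0 (Nat.zero_le _) ((Λ i).image (ψ i)) ?_
    intro t ht i0 i1 h0 h1
    rw [Finset.mem_image] at ht
    obtain ⟨t', ht', rfl⟩ := ht
    exact (hclose i hi t' ht').2.2 i0 i1 h0 h1
  -- value for one `i`
  set val : ℕ → ℤ × ℤ × ℤ → ℝ := fun i t =>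
    gA (fK σ2 (sj - s2) (s0 - s2) (s1 - s2) T0 T1 a (msk (Rm R m) F2) t.1) N t.2.1 t.2.2 +
    gB (fK σ0 (sj - s0) (s1 - s0) (s2 - s0) T1 T2 b (msk (Rm R m) F0) t.1) N t.2.2
      (tc N i t.1 t.2.1 t.2.2) +
    gC (fK σ1 (sj - s1) (s2 - s1) (s0 - s1) T2 T0 c (msk (Rm R m) F1) t.1) N
      (tc N i t.1 t.2.1 t.2.2) t.2.1 with hval
  have e : ∑ w ∈ Wf, VgZ gA gB gC LL w
      (fK σ2 (sj - s2) (s0 - s2) (s1 - s2) T0 T1 a (msk (Rs R (m + 1)) F2) w)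
      (fK σ0 (sj - s0) (s1 - s0) (s2 - s0) T1 T2 b (msk (Rs R (m + 1)) F0) w)
      (fK σ1 (sj - s1) (s2 - s1) (s0 - s1) T2 T0 c (msk (Rs R (m + 1)) F1) w)
      (fK σ2 (sj - s2) (s0 - s2) (s1 - s2) T0 T1 a (msk (Rs R m) F2) w)
      (fK σ0 (sj - s0) (s1 - s0) (s2 - s0) T1 T2 b (msk (Rs R m) F0) w)
      (fK σ1 (sj - s1) (s2 - s1) (s0 - s1) T2 T0 c (msk (Rs R m) F1) w) N =
      (1 / (N : ℝ)) * ∑ i ∈ range N, ∑ t ∈ Λ i, val i t := by
    unfold VgZ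
    rw [← Finset.mul_sum, Finset.sum_comm]
    congr 1
    refine Finset.sum_congr rfl fun i _ => ?_
    rw [hΛ]
    simp only
    rw [Finset.sum_filter, Finset.sum_product]
    refine Finset.sum_congr rfl fun w _ => ?_
    rw [Finset.sum_product]
    rfl
  rw [e]
  have h3 : ∀ i ∈ range N, ∑ t ∈ Λ i, val i t ≤ tA' m 0 + tB' m 0 + tC' m 0 := by
    intro i hi
    rw [Finset.mem_range] at hi
    have h4 : ∀ t ∈ Λ i, val i t ≤ uA t + uB (φ i t) + uC (ψ i t) := by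
      intro t _
      exact add_le_add (add_le_add (hA.bud _ _ _ _ _ _) (hB.bud _ _ _ _ _ _))
        (hC.bud _ _ _ _ _ _)
    refine (Finset.sum_le_sum h4).trans ?_
    rw [Finset.sum_add_distrib, Finset.sum_add_distrib]
    linarith [tA i hi, tB i hi, tC i hi]
  refine (mul_le_mul_of_nonneg_left (Finset.sum_le_sum h3) (by positivity)).trans ?_
  rw [Finset.sum_const, Finset.card_range, nsmul_eq_mul]
  refine le_of_eq ?_
  field_simp

/-! ### the linear form -/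

/-- node total of one edge -/
noncomputable def nbt (s ε : ℝ) (α γ δ : ℤ) (T T' : Finset ℤ) (a : ℤ → ℤ → ℂ) (F : ℤ → ℂ)
    (m k : ℕ) (l : ℤ) : ℝ :=
  2 * s * (∑ᶠ t : ℤ × ℤ × ℤ, e2 (cK α γ δ T T' a (res (m, l) F) t.1) (2 ^ (m + k)) t.2.1 t.2.2) +
  ε * (s⁻¹ *
    ∑ᶠ t : ℤ × ℤ × ℤ, e4 (cK α γ δ T T' a (res (m, l) F) t.1) (2 ^ (m + k)) t.2.1 t.2.2)

lemma UU_le_nbt {ε : ℝ} (hs : 0 ≤ s) (hε : 0 ≤ ε) {α γ δ : ℤ} (hα : α ≠ 0) (T T' : Finset ℤ)
    (a : ℤ → ℤ → ℂ) (F : ℤ → ℂ) (m k : ℕ) (l : ℤ) (S : Finset (ℤ × ℤ × ℤ)) :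
    ∑ t ∈ S, UU s ε (cK α γ δ T T' a (res (m, l) F) t.1) (2 ^ (m + k)) t.2.1 t.2.2 ≤
      nbt s ε α γ δ T T' a F m k l := by
  have e : ∑ t ∈ S, UU s ε (cK α γ δ T T' a (res (m, l) F) t.1) (2 ^ (m + k)) t.2.1 t.2.2 =
      2 * s * ∑ t ∈ S, e2 (cK α γ δ T T' a (res (m, l) F) t.1) (2 ^ (m + k)) t.2.1 t.2.2 +
      ε * (s⁻¹ * ∑ t ∈ S, e4 (cK α γ δ T T' a (res (m, l) F) t.1) (2 ^ (m + k)) t.2.1 t.2.2) := by
    unfold UU
    rw [Finset.sum_add_distrib, ← Finset.mul_sum, ← Finset.mul_sum, ← Finset.mul_sum]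
  rw [e]
  have a2 := sum_le_finsum_of_nonneg _ (fun t => e2_nonneg _ _ _ _)
      (support_finite (γ := γ) (δ := δ) hα T T' a (m, l) F (2 ^ (m + k)) e2 e2_congr e2_zero) S
  have a4 := sum_le_finsum_of_nonneg _ (fun t => e4_nonneg _ _ _ _)
      (support_finite (γ := γ) (δ := δ) hα T T' a (m, l) F (2 ^ (m + k)) e4 e4_congr e4_zero) S
  unfold nbt
  exact add_le_add (mul_le_mul_of_nonneg_left a2 (by positivity))
    (mul_le_mul_of_nonneg_left (mul_le_mul_of_nonneg_left a4 (inv_nonneg.mpr hs)) hε)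

/-- total of one edge near the exits of level `m` -/
noncomputable def ttL (R : Finset (ℕ × ℤ)) (h : ℕ) (s ε : ℝ) (α γ δ : ℤ) (T T' : Finset ℤ)
    (a : ℤ → ℤ → ℂ) (F : ℤ → ℂ) (m k : ℕ) : ℝ :=
  (2 * h + 1) ^ 3 * ∑ l ∈ En R m h, nbt s ε α γ δ T T' a F m k l

lemma total_le {ε : ℝ} (hs : 0 ≤ s) (hε : 0 ≤ ε) {α γ δ : ℤ} (hα : α ≠ 0)
    (hγ3 : |γ| ≤ 3) (hδ3 : |δ| ≤ 3) (hκh : 6 * 2 ^ κ ≤ h) (T T' : Finset ℤ)
    (a : ℤ → ℤ → ℂ) (F : ℤ → ℂ) (m k : ℕ) (hk : k ≤ κ) (Λ : Finset (ℤ × ℤ × ℤ))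
    (hΛ : ∀ t ∈ Λ, ∀ i j : ℕ, i < 2 ^ (m + k) → j < 2 ^ (m + k) →
      α * t.1 + γ * (t.2.1 + (i : ℤ)) + δ * (t.2.2 + (j : ℤ)) ∈ Dp R m h) :
    ∑ t ∈ Λ, UU s ε (cK α γ δ T T' a (msk (Rm R m) F) t.1) (2 ^ (m + k)) t.2.1 t.2.2 ≤
      ttL R h s ε α γ δ T T' a F m k := by
  have hkh : 6 * 2 ^ k ≤ h := by
    have : 2 ^ k ≤ 2 ^ κ := Nat.pow_le_pow_right (by norm_num) hk
    omega
  refine (Finset.sum_le_sum fun t ht => UU_box_le hs hε R m h k hkh F α γ δ hγ3 hδ3 T T' a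
    t.1 t.2.1 t.2.2 (hΛ t ht)).trans ?_
  rw [← Finset.mul_sum, Finset.sum_comm]
  unfold ttL
  refine mul_le_mul_of_nonneg_left ?_ (by positivity)
  exact Finset.sum_le_sum fun l _ => UU_le_nbt hs hε hα T T' a F m k l Λ

lemma edgeT2 (hs : 0 < s) {H : ℝ} (hH : 1 ≤ H) {α γ δ : ℤ} (hα : α ≠ 0) (hγ : |γ| ≤ 3)
    (hδ : |δ| ≤ 3) (hκh : 6 * 2 ^ κ ≤ h) (T T' : Finset ℤ) (a : ℤ → ℤ → ℂ) (F : ℤ → ℂ)
    (hb : ∀ w z z', ‖cK α γ δ T T' a F w z z'‖ ≤ H) :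
    EdgeT R κ h (g2Z s (H ^ 2)⁻¹) s 0 α γ δ T T' a F (ttL R h s 0 α γ δ T T' a F) where
  good := good2 hs.le (by positivity)
  hγ := hγ
  hδ := hδ
  bud σ m w N q p := by
    rw [fK_eq]
    refine g2_UU hs.le hH σ _ (fun z z' => ?_) N q p
    refine le_trans ?_ (hb w z z')
    unfold cK
    split_ifs
    · rw [norm_mul, norm_mul]
      refine mul_le_mul_of_nonneg_left ?_ (norm_nonneg _)
      unfold msk
      split_ifs
      · exact le_rfl
      · rw [norm_zero]; exact norm_nonneg _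
    · exact le_rfl
  total m k hk Λ hΛ := total_le hs.le le_rfl hα hγ hδ hκh T T' a F m k hk Λ hΛ

lemma edgeT4 (hs : 0 < s) {α γ δ : ℤ} (hα : α ≠ 0) (hγ : |γ| ≤ 3)
    (hδ : |δ| ≤ 3) (hκh : 6 * 2 ^ κ ≤ h) (T T' : Finset ℤ) (a : ℤ → ℤ → ℂ) (F : ℤ → ℂ) :
    EdgeT R κ h (g4Z s) s 1 α γ δ T T' a F (ttL R h s 1 α γ δ T T' a F) where
  good := good4 hs.le
  hγ := hγ
  hδ := hδ
  bud σ m w N q p := by
    rw [fK_eq]
    exact g4_UU hs.le σ _ N q p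
  total m k hk Λ hΛ := total_le hs.le zero_le_one hα hγ hδ hκh T T' a F m k hk Λ hΛ

/-- **one block, linear form** -/
lemma block24T {c : ℝ} (hc : 0 ≤ c) {gA gB gC : Bud} (hTri : TriG c κ gA gB gC)
    {εA εB εC : ℝ} {tA tB tC : ℕ → ℕ → ℝ}
    (l : ℤ) (hl : |l| ≤ 7) (hh : h = 12 * 2 ^ κ + 24) (hR : IsRegion R J) (j : Fin 4)
    (T : Fin 3 → Finset ℤ) (a b d : ℤ → ℤ → ℂ) (F : Fin 4 → ℤ → ℂ)
    (hA : EdgeT R κ h gA s εA (sl j - sl (j.succAbove 2))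
      (sl (j.succAbove 0) - sl (j.succAbove 2)) (sl (j.succAbove 1) - sl (j.succAbove 2))
      (T 0) (T 1) a (F (j.succAbove 2)) tA)
    (hB : EdgeT R κ h gB s εB (sl j - sl (j.succAbove 0))
      (sl (j.succAbove 1) - sl (j.succAbove 0)) (sl (j.succAbove 2) - sl (j.succAbove 0))
      (T 1) (T 2) b (F (j.succAbove 0)) tB)
    (hC : EdgeT R κ h gC s εC (sl j - sl (j.succAbove 1))
      (sl (j.succAbove 2) - sl (j.succAbove 1)) (sl (j.succAbove 0) - sl (j.succAbove 1))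
      (T 2) (T 0) d (F (j.succAbove 1)) tC)
    (σ2 σ0 σ1 : Bool) (Wf : Finset ℤ) (L1 : ℕ) :
    ∑ w ∈ Wf, ∑ m ∈ range (J.1 + 1), (1 / (2 : ℝ) ^ m) * ∑ i ∈ range (2 ^ m),
      ∑ p0 ∈ Icc (-(L1 : ℤ)) L1, ∑ p1 ∈ Icc (-(L1 : ℤ)) L1,
      |Lb3r (famA R j T a F σ2 w (m + 1)) (famB R j T b F σ0 w (m + 1))
        (famC R j T d F σ1 w (m + 1)) (2 ^ m) p0 p1 (l * 2 ^ m + (i : ℤ) - w - p0 - p1)| ≤
    c * ∑ m ∈ range (J.1 + 1), (tA m 0 + tB m 0 + tC m 0 +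
      ∑ k ∈ range κ, (tA m k + tB m k + tC m k)) := by
  classical
  obtain ⟨L, hL⟩ := exists_bound T
  have hsl := slopes_sl j
  have h1 : ∀ w, ∃ L' : ℕ,
    ∑ m ∈ range (J.1 + 1), (1 / (2 : ℝ) ^ m) * ∑ i ∈ range (2 ^ m), ∑ p0 ∈ Icc (-(L1 : ℤ)) L1,
      ∑ p1 ∈ Icc (-(L1 : ℤ)) L1,
      |Lb3r (famA R j T a F σ2 w (m + 1)) (famB R j T b F σ0 w (m + 1))
        (famC R j T d F σ1 w (m + 1)) (2 ^ m) p0 p1 (l * 2 ^ m + (i : ℤ) - w - p0 - p1)| ≤
    c * ∑ m ∈ range (J.1 + 1),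
      (VgZ gA gB gC L' w (famA R j T a F σ2 w (m + 1)) (famB R j T b F σ0 w (m + 1))
        (famC R j T d F σ1 w (m + 1)) (famA R j T a F σ2 w m) (famB R j T b F σ0 w m)
        (famC R j T d F σ1 w m) (2 ^ m) +
        ∑ s ∈ range κ, (EgZ gA L' (famA R j T a F σ2 w (m + 1)) (famA R j T a F σ2 w m) (2 ^ (m + s)) +
          EgZ gB L' (famB R j T b F σ0 w (m + 1)) (famB R j T b F σ0 w m) (2 ^ (m + s)) +
          EgZ gC L' (famC R j T d F σ1 w (m + 1)) (famC R j T d F σ1 w m) (2 ^ (m + s)))) := by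
    intro w
    exact hTri l hl w (famA R j T a F σ2 w) (famB R j T b F σ0 w) (famC R j T d F σ1 w) L
      (fun m x y hxy => fK_support _ _ _ _ _ _ _ _ _ L (hL 0) (hL 1) x y hxy)
      (fun m x y hxy => fK_support _ _ _ _ _ _ _ _ _ L (hL 1) (hL 2) x y hxy)
      (fun m x y hxy => fK_support _ _ _ _ _ _ _ _ _ L (hL 2) (hL 0) x y hxy)
      (fK_zero _ _ _ _ _ _ _ _ _ _) (fK_zero _ _ _ _ _ _ _ _ _ _) (fK_zero _ _ _ _ _ _ _ _ _ _)
      (J.1 + 1) L1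
  choose L' hL' using h1
  refine (Finset.sum_le_sum fun w _ => hL' w).trans ?_
  rw [← Finset.mul_sum, Finset.sum_comm]
  refine mul_le_mul_of_nonneg_left (Finset.sum_le_sum fun m hm => ?_) hc
  rw [Finset.mem_range] at hm
  have v1 := sumV_leT hR hsl hA hB hC m (by omega) (by omega) σ0 σ1 σ2 Wf L'
  have v2 : ∀ k ∈ range κ, ∑ w ∈ Wf,
      (EgZ gA (L' w) (famA R j T a F σ2 w (m + 1)) (famA R j T a F σ2 w m) (2 ^ (m + k)) +
        EgZ gB (L' w) (famB R j T b F σ0 w (m + 1)) (famB R j T b F σ0 w m) (2 ^ (m + k)) +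
        EgZ gC (L' w) (famC R j T d F σ1 w (m + 1)) (famC R j T d F σ1 w m) (2 ^ (m + k))) ≤
      tA m k + tB m k + tC m k := by
    intro k hk
    rw [Finset.mem_range] at hk
    have hsh : 12 * 2 ^ k ≤ h := by
      have : 2 ^ k ≤ 2 ^ κ := Nat.pow_le_pow_right (by norm_num) hk.le
      omega
    rw [Finset.sum_add_distrib, Finset.sum_add_distrib]
    have e1 : ∑ w ∈ Wf, EgZ gA (L' w) (famA R j T a F σ2 w (m + 1)) (famA R j T a F σ2 w m)
      (2 ^ (m + k)) ≤ tA m k := sumE_leT hR hA m k (by omega) hk.le hsh σ2 Wf L'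
    have e2 : ∑ w ∈ Wf, EgZ gB (L' w) (famB R j T b F σ0 w (m + 1)) (famB R j T b F σ0 w m)
      (2 ^ (m + k)) ≤ tB m k := sumE_leT hR hB m k (by omega) hk.le hsh σ0 Wf L'
    have e3 : ∑ w ∈ Wf, EgZ gC (L' w) (famC R j T d F σ1 w (m + 1)) (famC R j T d F σ1 w m)
      (2 ^ (m + k)) ≤ tC m k := sumE_leT hR hC m k (by omega) hk.le hsh σ1 Wf L'
    linarith
  have v3 := Finset.sum_le_sum v2
  rw [Finset.sum_add_distrib]
  have e : ∑ w ∈ Wf, ∑ k ∈ range κ,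
      (EgZ gA (L' w) (famA R j T a F σ2 w (m + 1)) (famA R j T a F σ2 w m) (2 ^ (m + k)) +
        EgZ gB (L' w) (famB R j T b F σ0 w (m + 1)) (famB R j T b F σ0 w m) (2 ^ (m + k)) +
        EgZ gC (L' w) (famC R j T d F σ1 w (m + 1)) (famC R j T d F σ1 w m) (2 ^ (m + k))) =
      ∑ k ∈ range κ, ∑ w ∈ Wf,
      (EgZ gA (L' w) (famA R j T a F σ2 w (m + 1)) (famA R j T a F σ2 w m) (2 ^ (m + k)) +
        EgZ gB (L' w) (famB R j T b F σ0 w (m + 1)) (famB R j T b F σ0 w m) (2 ^ (m + k)) +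
        EgZ gC (L' w) (famC R j T d F σ1 w (m + 1)) (famC R j T d F σ1 w m) (2 ^ (m + k))) :=
    Finset.sum_comm
  rw [e]
  have v1' : ∑ w ∈ Wf, VgZ gA gB gC (L' w) w (famA R j T a F σ2 w (m + 1))
      (famB R j T b F σ0 w (m + 1)) (famC R j T d F σ1 w (m + 1)) (famA R j T a F σ2 w m)
      (famB R j T b F σ0 w m) (famC R j T d F σ1 w m) (2 ^ m) ≤ tA m 0 + tB m 0 + tC m 0 := v1
  linarith

/-- node totals of the three edges (`i` = the edge with the `S₂` budget) -/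
noncomputable def nb3 (s : ℝ) (i : Fin 3) (j : Fin 4) (T : Fin 3 → Finset ℤ)
    (a b d : ℤ → ℤ → ℂ) (F : Fin 4 → ℤ → ℂ) (m k : ℕ) (l : ℤ) : ℝ :=
  nbt s (if i = 0 then 0 else 1) (sl j - sl (j.succAbove 2))
      (sl (j.succAbove 0) - sl (j.succAbove 2)) (sl (j.succAbove 1) - sl (j.succAbove 2))
      (T 0) (T 1) a (F (j.succAbove 2)) m k l +
  nbt s (if i = 1 then 0 else 1) (sl j - sl (j.succAbove 0))
      (sl (j.succAbove 1) - sl (j.succAbove 0)) (sl (j.succAbove 2) - sl (j.succAbove 0))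
      (T 1) (T 2) b (F (j.succAbove 0)) m k l +
  nbt s (if i = 2 then 0 else 1) (sl j - sl (j.succAbove 1))
      (sl (j.succAbove 2) - sl (j.succAbove 1)) (sl (j.succAbove 0) - sl (j.succAbove 1))
      (T 2) (T 0) d (F (j.succAbove 1)) m k l

/-- **linear form of `Frozen24`**: bound by the node totals over the nodes near the exits -/
theorem frozenLin : ∃ K : ℝ, 0 ≤ K ∧ ∃ κ h : ℕ, ∀ (bb : ℤ), bb = -1 ∨ bb = -7 →
    ∀ (R : Finset (ℕ × ℤ)) (J : ℕ × ℤ), IsRegion R J →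
    ∀ (j : Fin 4) (i : Fin 3) (s H : ℝ), 0 < s → s ≤ 1 → 1 ≤ H → ∀ (μ : ℝ), 0 ≤ μ →
    ∀ (T : Fin 3 → Finset ℤ) (a b c : ℤ → ℤ → ℂ) (F : Fin 4 → ℤ → ℂ),
      (i = 0 → ∀ w z z', ‖frAk j T a (F (j.succAbove 2)) w z z'‖ ≤ H) →
      (i = 1 → ∀ w z z', ‖frBk j T b (F (j.succAbove 0)) w z z'‖ ≤ H) →
      (i = 2 → ∀ w z z', ‖frCk j T c (F (j.succAbove 1)) w z z'‖ ≤ H) →
      F j = atom j μ T a b c →
      ∑ p ∈ R, ∑ x ∈ adm p.1 p.2, ‖Lbox (2 ^ p.1) bb F x‖ ≤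
        μ * (K * (1 + Real.log (H / s)) * ∑ m ∈ range (J.1 + 1),
          (∑ l ∈ En R m h, nb3 s i j T a b c F m 0 l +
            ∑ k ∈ range κ, ∑ l ∈ En R m h, nb3 s i j T a b c F m k l)) := by
  obtain ⟨K, hK, κ, hTri⟩ := triG
  obtain ⟨h, hh⟩ : ∃ h : ℕ, h = 12 * 2 ^ κ + 24 := ⟨_, rfl⟩
  refine ⟨8 * (K * (2 * h + 1) ^ 3), by positivity, κ, h, ?_⟩
  intro bb hbb R J hR j i s H hs hs1 hH μ hμ T a b d F hba hbb' hbc hFj
  have hlog : 0 ≤ Real.log (H / s) := Real.log_nonneg (by rw [le_div_iff₀ hs]; linarith)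
  set c : ℝ := K * (1 + Real.log (H / s)) with hc
  have hc0 : 0 ≤ c := by positivity
  have hκh : 6 * 2 ^ κ ≤ h := by omega
  have hsl := slopes_sl j
  have b2 : |sl (j.succAbove 0) - sl (j.succAbove 2)| ≤ 3 ∧
      |sl (j.succAbove 1) - sl (j.succAbove 2)| ≤ 3 := by
    constructor <;> rw [abs_le] <;> constructor <;>
      linarith [hsl.h0.1, hsl.h0.2, hsl.h1.1, hsl.h1.2, hsl.h2.1, hsl.h2.2]
  have b0 : |sl (j.succAbove 1) - sl (j.succAbove 0)| ≤ 3 ∧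
      |sl (j.succAbove 2) - sl (j.succAbove 0)| ≤ 3 := by
    constructor <;> rw [abs_le] <;> constructor <;>
      linarith [hsl.h0.1, hsl.h0.2, hsl.h1.1, hsl.h1.2, hsl.h2.1, hsl.h2.2]
  have b1 : |sl (j.succAbove 2) - sl (j.succAbove 1)| ≤ 3 ∧
      |sl (j.succAbove 0) - sl (j.succAbove 1)| ≤ 3 := by
    constructor <;> rw [abs_le] <;> constructor <;>
      linarith [hsl.h0.1, hsl.h0.2, hsl.h1.1, hsl.h1.2, hsl.h2.1, hsl.h2.2]
  have hT := hTri s hs hs1 H hH i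
  have hA : EdgeT R κ h (gi s (H ^ 2)⁻¹ i 0) s (if i = 0 then 0 else 1)
      (sl j - sl (j.succAbove 2))
      (sl (j.succAbove 0) - sl (j.succAbove 2)) (sl (j.succAbove 1) - sl (j.succAbove 2))
      (T 0) (T 1) a (F (j.succAbove 2)) (ttL R h s (if i = 0 then 0 else 1)
      (sl j - sl (j.succAbove 2))
      (sl (j.succAbove 0) - sl (j.succAbove 2)) (sl (j.succAbove 1) - sl (j.succAbove 2))
      (T 0) (T 1) a (F (j.succAbove 2))) := by
    by_cases hi : i = 0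
    · rw [gi, if_pos hi.symm, if_pos hi]
      exact edgeT2 hs hH hsl.nj2 b2.1 b2.2 hκh (T 0) (T 1) a _ (hba hi)
    · rw [gi, if_neg (fun h => hi h.symm), if_neg hi]
      exact edgeT4 hs hsl.nj2 b2.1 b2.2 hκh (T 0) (T 1) a _
  have hB : EdgeT R κ h (gi s (H ^ 2)⁻¹ i 1) s (if i = 1 then 0 else 1)
      (sl j - sl (j.succAbove 0))
      (sl (j.succAbove 1) - sl (j.succAbove 0)) (sl (j.succAbove 2) - sl (j.succAbove 0))
      (T 1) (T 2) b (F (j.succAbove 0)) (ttL R h s (if i = 1 then 0 else 1)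
      (sl j - sl (j.succAbove 0))
      (sl (j.succAbove 1) - sl (j.succAbove 0)) (sl (j.succAbove 2) - sl (j.succAbove 0))
      (T 1) (T 2) b (F (j.succAbove 0))) := by
    by_cases hi : i = 1
    · rw [gi, if_pos hi.symm, if_pos hi]
      exact edgeT2 hs hH hsl.nj0 b0.1 b0.2 hκh (T 1) (T 2) b _ (hbb' hi)
    · rw [gi, if_neg (fun h => hi h.symm), if_neg hi]
      exact edgeT4 hs hsl.nj0 b0.1 b0.2 hκh (T 1) (T 2) b _
  have hC : EdgeT R κ h (gi s (H ^ 2)⁻¹ i 2) s (if i = 2 then 0 else 1)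
      (sl j - sl (j.succAbove 1))
      (sl (j.succAbove 2) - sl (j.succAbove 1)) (sl (j.succAbove 0) - sl (j.succAbove 1))
      (T 2) (T 0) d (F (j.succAbove 1)) (ttL R h s (if i = 2 then 0 else 1)
      (sl j - sl (j.succAbove 1))
      (sl (j.succAbove 2) - sl (j.succAbove 1)) (sl (j.succAbove 0) - sl (j.succAbove 1))
      (T 2) (T 0) d (F (j.succAbove 1))) := by
    by_cases hi : i = 2
    · rw [gi, if_pos hi.symm, if_pos hi]
      exact edgeT2 hs hH hsl.nj1 b1.1 b1.2 hκh (T 2) (T 0) d _ (hbc hi)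
    · rw [gi, if_neg (fun h => hi h.symm), if_neg hi]
      exact edgeT4 hs hsl.nj1 b1.1 b1.2 hκh (T 2) (T 0) d _
  have hfin := frozen_sum _ bb hbb R J hR j T a b d F
    (fun l hl σ2 σ0 σ1 Wf L1 => block24T hc0 hT l hl hh hR j T a b d F hA hB hC
      σ2 σ0 σ1 Wf L1) μ hμ hFj
  refine hfin.trans (le_of_eq ?_)
  congr 1
  have e : ∀ m k : ℕ, ttL R h s (if i = 0 then 0 else 1) (sl j - sl (j.succAbove 2))
      (sl (j.succAbove 0) - sl (j.succAbove 2)) (sl (j.succAbove 1) - sl (j.succAbove 2))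
      (T 0) (T 1) a (F (j.succAbove 2)) m k +
      ttL R h s (if i = 1 then 0 else 1) (sl j - sl (j.succAbove 0))
      (sl (j.succAbove 1) - sl (j.succAbove 0)) (sl (j.succAbove 2) - sl (j.succAbove 0))
      (T 1) (T 2) b (F (j.succAbove 0)) m k +
      ttL R h s (if i = 2 then 0 else 1) (sl j - sl (j.succAbove 1))
      (sl (j.succAbove 2) - sl (j.succAbove 1)) (sl (j.succAbove 0) - sl (j.succAbove 1))
      (T 2) (T 0) d (F (j.succAbove 1)) m k =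
      (2 * (h : ℝ) + 1) ^ 3 * ∑ l ∈ En R m h, nb3 s i j T a b d F m k l := by
    intro m k
    unfold ttL nb3
    rw [Finset.sum_add_distrib, Finset.sum_add_distrib]
    ring
  have e' : ∀ m ∈ range (J.1 + 1),
      (ttL R h s (if i = 0 then 0 else 1) (sl j - sl (j.succAbove 2))
      (sl (j.succAbove 0) - sl (j.succAbove 2)) (sl (j.succAbove 1) - sl (j.succAbove 2))
      (T 0) (T 1) a (F (j.succAbove 2)) m 0 +
      ttL R h s (if i = 1 then 0 else 1) (sl j - sl (j.succAbove 0))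
      (sl (j.succAbove 1) - sl (j.succAbove 0)) (sl (j.succAbove 2) - sl (j.succAbove 0))
      (T 1) (T 2) b (F (j.succAbove 0)) m 0 +
      ttL R h s (if i = 2 then 0 else 1) (sl j - sl (j.succAbove 1))
      (sl (j.succAbove 2) - sl (j.succAbove 1)) (sl (j.succAbove 0) - sl (j.succAbove 1))
      (T 2) (T 0) d (F (j.succAbove 1)) m 0 +
      ∑ k ∈ range κ, (ttL R h s (if i = 0 then 0 else 1) (sl j - sl (j.succAbove 2))
      (sl (j.succAbove 0) - sl (j.succAbove 2)) (sl (j.succAbove 1) - sl (j.succAbove 2))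
      (T 0) (T 1) a (F (j.succAbove 2)) m k +
      ttL R h s (if i = 1 then 0 else 1) (sl j - sl (j.succAbove 0))
      (sl (j.succAbove 1) - sl (j.succAbove 0)) (sl (j.succAbove 2) - sl (j.succAbove 0))
      (T 1) (T 2) b (F (j.succAbove 0)) m k +
      ttL R h s (if i = 2 then 0 else 1) (sl j - sl (j.succAbove 1))
      (sl (j.succAbove 2) - sl (j.succAbove 1)) (sl (j.succAbove 0) - sl (j.succAbove 1))
      (T 2) (T 0) d (F (j.succAbove 1)) m k)) =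
      (2 * (h : ℝ) + 1) ^ 3 * (∑ l ∈ En R m h, nb3 s i j T a b d F m 0 l +
        ∑ k ∈ range κ, ∑ l ∈ En R m h, nb3 s i j T a b d F m k l) := by
    intro m _
    rw [e, Finset.sum_congr rfl fun k _ => e m k, ← Finset.mul_sum]
    ring
  rw [Finset.sum_congr rfl e', ← Finset.mul_sum, hc]
  ring

end Crest.Agent.R079.F24
end

-- ▼ part R079/F24f_118
section

/-! R079, AL4 (helper118): `Frozen24` for a finite MIXTURE of atoms, the weights inside the node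
averages (helper714's form). -/

set_option autoImplicit false
set_option linter.unusedVariables false

namespace Crest.Agent.R079.F24

open Finset Crest.Agent.R079.Grid Crest.Agent.R079.Pot Crest.Agent.R079.Glue Crest.Agent.R079.R244

lemma prod_update {N : ℕ} {bb x : ℤ} (j : Fin 4) (F : Fin 4 → ℤ → ℂ) (G : ℤ → ℂ)
    (u : Fin 4 → Fin (N + N)) :
    ∏ k, Function.update F j G k (yv N bb x u k) =
      G (yv N bb x u j) * ∏ k ∈ Finset.univ.erase j, F k (yv N bb x u k) := by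
  rw [← Finset.mul_prod_erase Finset.univ _ (Finset.mem_univ j), Function.update_self]
  congr 1
  refine Finset.prod_congr rfl fun k hk => ?_
  rw [Function.update_of_ne (Finset.ne_of_mem_erase hk)]

/-- linearity of `Lbox` in one slot -/
lemma Lbox_mix (N : ℕ) (bb x : ℤ) (j : Fin 4) (F : Fin 4 → ℤ → ℂ) {ι : Type} (S : Finset ι)
    (lam : ι → ℝ) (G : ι → ℤ → ℂ) (hF : ∀ y, F j y = ∑ n ∈ S, (lam n : ℂ) * G n y) :
    Lbox N bb F x = ∑ n ∈ S, (lam n : ℂ) * Lbox N bb (Function.update F j (G n)) x := by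
  unfold Lbox
  simp only [prod_update]
  have e : ∀ u : Fin 4 → Fin (N + N), ∏ k, F k (yv N bb x u k) =
      ∑ n ∈ S, (lam n : ℂ) * (G n (yv N bb x u j) *
        ∏ k ∈ Finset.univ.erase j, F k (yv N bb x u k)) := by
    intro u
    rw [← Finset.mul_prod_erase Finset.univ _ (Finset.mem_univ j), hF, Finset.sum_mul]
    exact Finset.sum_congr rfl fun n _ => by ring
  simp only [e]
  have e2 : ∑ u : Fin 4 → Fin (N + N), ((∏ i, hsg N (u i) : ℝ) : ℂ) *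
      ∑ n ∈ S, (lam n : ℂ) * (G n (yv N bb x u j) *
        ∏ k ∈ Finset.univ.erase j, F k (yv N bb x u k)) =
      ∑ n ∈ S, (lam n : ℂ) * ∑ u : Fin 4 → Fin (N + N), ((∏ i, hsg N (u i) : ℝ) : ℂ) *
        (G n (yv N bb x u j) * ∏ k ∈ Finset.univ.erase j, F k (yv N bb x u k)) := by
    simp only [Finset.mul_sum]
    rw [Finset.sum_comm]
    exact Finset.sum_congr rfl fun n _ => Finset.sum_congr rfl fun u _ => by ring
  rw [e2, Finset.mul_sum]
  exact Finset.sum_congr rfl fun n _ => by ring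

lemma norm_Lbox_mix (N : ℕ) (bb x : ℤ) (j : Fin 4) (F : Fin 4 → ℤ → ℂ) {ι : Type} (S : Finset ι)
    (lam : ι → ℝ) (hlam : ∀ n ∈ S, 0 ≤ lam n) (G : ι → ℤ → ℂ)
    (hF : ∀ y, F j y = ∑ n ∈ S, (lam n : ℂ) * G n y) :
    ‖Lbox N bb F x‖ ≤ ∑ n ∈ S, lam n * ‖Lbox N bb (Function.update F j (G n)) x‖ := by
  rw [Lbox_mix N bb x j F S lam G hF]
  refine (norm_sum_le _ _).trans (le_of_eq (Finset.sum_congr rfl fun n hn => ?_))
  rw [norm_mul, Complex.norm_real, Real.norm_of_nonneg (hlam n hn)]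

/-- averaged `S₂` bound of a mixture -/
def S2Mix {ι : Type} (S : Finset ι) (lam : ι → ℝ) (R : Finset (ℕ × ℤ)) (κ : ℕ) (V : ℝ)
    (fr : ι → (ℤ → ℂ) → ℤ → ℤ → ℤ → ℂ) (F : ℤ → ℂ) : Prop :=
  ∀ p ∈ R, ∀ k : ℕ, k ≤ κ →
    ∑ n ∈ S, lam n * ∑ᶠ t : ℤ × ℤ × ℤ, e2 (fr n (res p F) t.1) (2 ^ (p.1 + k)) t.2.1 t.2.2 ≤
      2 ^ (p.1 + 7) * V

/-- averaged `S₄` bound of a mixture -/
def S4Mix {ι : Type} (S : Finset ι) (lam : ι → ℝ) (R : Finset (ℕ × ℤ)) (κ : ℕ) (V σ : ℝ)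
    (fr : ι → (ℤ → ℂ) → ℤ → ℤ → ℤ → ℂ) (F : ℤ → ℂ) : Prop :=
  ∀ p ∈ R, ∀ k : ℕ, k ≤ κ →
    ∑ n ∈ S, lam n * ∑ᶠ t : ℤ × ℤ × ℤ, e4 (fr n (res p F) t.1) (2 ^ (p.1 + k)) t.2.1 t.2.2 ≤
      σ * (2 ^ (p.1 + 7) * V)

lemma nbt_mix {s V ε : ℝ} (hs : 0 < s) (hV : 0 ≤ V) (hε : 0 ≤ ε) (hε1 : ε ≤ 1) {ι : Type}
    (S : Finset ι) (lam : ι → ℝ) (R : Finset (ℕ × ℤ)) (κ : ℕ) (α γ δ : ℤ)
    (T T' : ι → Finset ℤ) (a : ι → ℤ → ℤ → ℂ) (F : ℤ → ℂ)
    (h2 : S2Mix S lam R κ V (fun n G w => cK α γ δ (T n) (T' n) (a n) G w) F)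
    (h4 : ε ≠ 0 → S4Mix S lam R κ V (s ^ 2) (fun n G w => cK α γ δ (T n) (T' n) (a n) G w) F)
    (m k : ℕ) (hk : k ≤ κ) (l : ℤ) (hl : (m, l) ∈ R) :
    ∑ n ∈ S, lam n * nbt s ε α γ δ (T n) (T' n) (a n) F m k l ≤ 3 * s * (2 ^ (m + 7) * V) := by
  have hB : 0 ≤ (2 : ℝ) ^ (m + 7) * V := by positivity
  have e : ∑ n ∈ S, lam n * nbt s ε α γ δ (T n) (T' n) (a n) F m k l =
      2 * s * (∑ n ∈ S, lam n * ∑ᶠ t : ℤ × ℤ × ℤ,
        e2 (cK α γ δ (T n) (T' n) (a n) (res (m, l) F) t.1) (2 ^ (m + k)) t.2.1 t.2.2) +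
      ε * (s⁻¹ * (∑ n ∈ S, lam n * ∑ᶠ t : ℤ × ℤ × ℤ,
        e4 (cK α γ δ (T n) (T' n) (a n) (res (m, l) F) t.1) (2 ^ (m + k)) t.2.1 t.2.2)) := by
    unfold nbt
    simp only [Finset.mul_sum]
    rw [← Finset.sum_add_distrib]
    exact Finset.sum_congr rfl fun n _ => by ring
  rw [e]
  have a2 := mul_le_mul_of_nonneg_left (h2 (m, l) hl k hk) (by positivity : 0 ≤ 2 * s)
  have a4 : ε * (s⁻¹ * (∑ n ∈ S, lam n * ∑ᶠ t : ℤ × ℤ × ℤ,
        e4 (cK α γ δ (T n) (T' n) (a n) (res (m, l) F) t.1) (2 ^ (m + k)) t.2.1 t.2.2)) ≤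
      s * (2 ^ (m + 7) * V) := by
    by_cases h0 : ε = 0
    · rw [h0, zero_mul]
      positivity
    · have b4 := mul_le_mul_of_nonneg_left (h4 h0 (m, l) hl k hk) (inv_nonneg.mpr hs.le)
      have c4 := mul_le_mul_of_nonneg_left b4 hε
      refine c4.trans ?_
      have d4 : s⁻¹ * (s ^ 2 * (2 ^ (m + 7) * V)) = s * (2 ^ (m + 7) * V) := by
        field_simp
      simp only
      rw [d4]
      exact mul_le_of_le_one_left (by positivity) hε1
  simp only at a2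
  linarith

/-- **(R244 mixture)** `Frozen24` for `F j = ∑ λ_n atom_n`, averages inside. -/
theorem frozenMix24 : ∃ K : ℝ, 0 ≤ K ∧ ∃ κ : ℕ, ∀ (bb : ℤ), bb = -1 ∨ bb = -7 →
    ∀ (R : Finset (ℕ × ℤ)) (J : ℕ × ℤ), IsRegion R J →
    ∀ (j : Fin 4) (i : Fin 3) (s H : ℝ), 0 < s → s ≤ 1 → 1 ≤ H → ∀ (V : ℝ), 0 ≤ V →
    ∀ {ι : Type} (S : Finset ι) (lam : ι → ℝ), (∀ n ∈ S, 0 ≤ lam n) →
    ∀ (T : ι → Fin 3 → Finset ℤ) (a b c : ι → ℤ → ℤ → ℂ) (F : Fin 4 → ℤ → ℂ),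
      S2Mix S lam R κ V (fun n => frAk j (T n) (a n)) (F (j.succAbove 2)) →
      S2Mix S lam R κ V (fun n => frBk j (T n) (b n)) (F (j.succAbove 0)) →
      S2Mix S lam R κ V (fun n => frCk j (T n) (c n)) (F (j.succAbove 1)) →
      (i ≠ 0 → S4Mix S lam R κ V (s ^ 2) (fun n => frAk j (T n) (a n)) (F (j.succAbove 2))) →
      (i ≠ 1 → S4Mix S lam R κ V (s ^ 2) (fun n => frBk j (T n) (b n)) (F (j.succAbove 0))) →
      (i ≠ 2 → S4Mix S lam R κ V (s ^ 2) (fun n => frCk j (T n) (c n)) (F (j.succAbove 1))) →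
      (i = 0 → ∀ n ∈ S, ∀ w z z', ‖frAk j (T n) (a n) (F (j.succAbove 2)) w z z'‖ ≤ H) →
      (i = 1 → ∀ n ∈ S, ∀ w z z', ‖frBk j (T n) (b n) (F (j.succAbove 0)) w z z'‖ ≤ H) →
      (i = 2 → ∀ n ∈ S, ∀ w z z', ‖frCk j (T n) (c n) (F (j.succAbove 1)) w z z'‖ ≤ H) →
      (∀ y, F j y = ∑ n ∈ S, (lam n : ℂ) * atom j 1 (T n) (a n) (b n) (c n) y) →
      ∑ p ∈ R, ∑ x ∈ adm p.1 p.2, ‖Lbox (2 ^ p.1) bb F x‖ ≤
        K * (s * (1 + Real.log (H / s)) * 2 ^ (J.1 + 7) * V) := by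
  obtain ⟨K, hK, κ, h, hL⟩ := frozenLin
  refine ⟨K * (9 * (1 + κ)) * (2 * (2 * (h + 128) + 1)), by positivity, κ, ?_⟩
  intro bb hbb R J hR j i s H hs hs1 hH V hV ι S lam hlam T a b c F h2a h2b h2c h4a h4b h4c
    hba hbb' hbc hFj
  have hlog : 0 ≤ Real.log (H / s) := Real.log_nonneg (by rw [le_div_iff₀ hs]; linarith)
  set G : ι → ℤ → ℂ := fun n => atom j 1 (T n) (a n) (b n) (c n) with hG
  have hup : ∀ (n : ι) (k : Fin 3), Function.update F j (G n) (j.succAbove k) = F (j.succAbove k) :=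
    fun n k => Function.update_of_ne (Fin.succAbove_ne j k) _ _
  -- one atom
  have h1 : ∀ n ∈ S, ∑ p ∈ R, ∑ x ∈ adm p.1 p.2, ‖Lbox (2 ^ p.1) bb (Function.update F j (G n)) x‖ ≤
      K * (1 + Real.log (H / s)) * ∑ m ∈ range (J.1 + 1),
          (∑ l ∈ En R m h, nb3 s i j (T n) (a n) (b n) (c n) F m 0 l +
            ∑ k ∈ range κ, ∑ l ∈ En R m h, nb3 s i j (T n) (a n) (b n) (c n) F m k l) := by
    intro n hn
    have := hL bb hbb R J hR j i s H hs hs1 hH 1 zero_le_one (T n) (a n) (b n) (c n)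
      (Function.update F j (G n)) (by rw [hup]; exact fun hi => hba hi n hn)
      (by rw [hup]; exact fun hi => hbb' hi n hn) (by rw [hup]; exact fun hi => hbc hi n hn)
      (by rw [Function.update_self])
    rw [one_mul] at this
    refine this.trans (le_of_eq ?_)
    unfold nb3
    simp only [hup]
  -- mixture
  have h2 : ∑ p ∈ R, ∑ x ∈ adm p.1 p.2, ‖Lbox (2 ^ p.1) bb F x‖ ≤
      ∑ n ∈ S, lam n * (K * (1 + Real.log (H / s)) * ∑ m ∈ range (J.1 + 1),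
          (∑ l ∈ En R m h, nb3 s i j (T n) (a n) (b n) (c n) F m 0 l +
            ∑ k ∈ range κ, ∑ l ∈ En R m h, nb3 s i j (T n) (a n) (b n) (c n) F m k l)) := by
    refine (Finset.sum_le_sum fun p _ => Finset.sum_le_sum fun x _ =>
      norm_Lbox_mix (2 ^ p.1) bb x j F S lam hlam G hFj).trans ?_
    have e : ∑ p ∈ R, ∑ x ∈ adm p.1 p.2, ∑ n ∈ S, lam n *
        ‖Lbox (2 ^ p.1) bb (Function.update F j (G n)) x‖ =
        ∑ n ∈ S, lam n * ∑ p ∈ R, ∑ x ∈ adm p.1 p.2,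
          ‖Lbox (2 ^ p.1) bb (Function.update F j (G n)) x‖ := by
      simp only [Finset.mul_sum]
      rw [Finset.sum_comm' (s := S) (t := fun _ => R) (t' := R) (s' := fun _ => S) (by simp)]
      exact Finset.sum_congr rfl fun p _ => Finset.sum_comm
    rw [e]
    exact Finset.sum_le_sum fun n hn => mul_le_mul_of_nonneg_left (h1 n hn) (hlam n hn)
  refine h2.trans ?_
  -- node averages
  have hnode : ∀ m k : ℕ, k ≤ κ → ∀ l, (m, l) ∈ R →
      ∑ n ∈ S, lam n * nb3 s i j (T n) (a n) (b n) (c n) F m k l ≤ 9 * s * (2 ^ (m + 7) * V) := by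
    intro m k hk l hl
    have q : ∀ i' : Fin 3, (0 : ℝ) ≤ (if i = i' then 0 else 1) ∧
        (if i = i' then (0 : ℝ) else 1) ≤ 1 := by
      intro i'
      split_ifs <;> norm_num
    have q' : ∀ i' : Fin 3, (if i = i' then (0 : ℝ) else 1) ≠ 0 → i ≠ i' := by
      intro i' h1 h2
      rw [if_pos h2] at h1
      exact h1 rfl
    have eA := nbt_mix hs hV (q 0).1 (q 0).2 S lam R κ _ _ _ (fun n => T n 0) (fun n => T n 1) a
      (F (j.succAbove 2)) h2a (fun h => h4a (q' 0 h)) m k hk l hl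
    have eB := nbt_mix hs hV (q 1).1 (q 1).2 S lam R κ _ _ _ (fun n => T n 1) (fun n => T n 2) b
      (F (j.succAbove 0)) h2b (fun h => h4b (q' 1 h)) m k hk l hl
    have eC := nbt_mix hs hV (q 2).1 (q 2).2 S lam R κ _ _ _ (fun n => T n 2) (fun n => T n 0) c
      (F (j.succAbove 1)) h2c (fun h => h4c (q' 2 h)) m k hk l hl
    have e : ∑ n ∈ S, lam n * nb3 s i j (T n) (a n) (b n) (c n) F m k l =
        ∑ n ∈ S, lam n * nbt s (if i = 0 then 0 else 1) (sl j - sl (j.succAbove 2))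
          (sl (j.succAbove 0) - sl (j.succAbove 2)) (sl (j.succAbove 1) - sl (j.succAbove 2))
          (T n 0) (T n 1) (a n) (F (j.succAbove 2)) m k l +
        ∑ n ∈ S, lam n * nbt s (if i = 1 then 0 else 1) (sl j - sl (j.succAbove 0))
          (sl (j.succAbove 1) - sl (j.succAbove 0)) (sl (j.succAbove 2) - sl (j.succAbove 0))
          (T n 1) (T n 2) (b n) (F (j.succAbove 0)) m k l +
        ∑ n ∈ S, lam n * nbt s (if i = 2 then 0 else 1) (sl j - sl (j.succAbove 1))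
          (sl (j.succAbove 2) - sl (j.succAbove 1)) (sl (j.succAbove 0) - sl (j.succAbove 1))
          (T n 2) (T n 0) (c n) (F (j.succAbove 1)) m k l := by
      rw [← Finset.sum_add_distrib, ← Finset.sum_add_distrib]
      refine Finset.sum_congr rfl fun n _ => ?_
      unfold nb3
      ring
    rw [e]
    linarith
  have hnodes : ∀ m k : ℕ, k ≤ κ → ∑ n ∈ S, lam n * ∑ l ∈ En R m h,
      nb3 s i j (T n) (a n) (b n) (c n) F m k l ≤
      (9 * s * V) * (((En R m h).card : ℝ) * 2 ^ (m + 7)) := by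
    intro m k hk
    simp only [Finset.mul_sum]
    rw [Finset.sum_comm]
    refine (Finset.sum_le_sum fun l hl => hnode m k hk l (mem_En R m h l hl)).trans (le_of_eq ?_)
    rw [Finset.sum_const, nsmul_eq_mul]
    ring
  have e : ∑ n ∈ S, lam n * (K * (1 + Real.log (H / s)) * ∑ m ∈ range (J.1 + 1),
          (∑ l ∈ En R m h, nb3 s i j (T n) (a n) (b n) (c n) F m 0 l +
            ∑ k ∈ range κ, ∑ l ∈ En R m h, nb3 s i j (T n) (a n) (b n) (c n) F m k l)) =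
      K * (1 + Real.log (H / s)) * ∑ m ∈ range (J.1 + 1),
        (∑ n ∈ S, lam n * ∑ l ∈ En R m h, nb3 s i j (T n) (a n) (b n) (c n) F m 0 l +
          ∑ k ∈ range κ, ∑ n ∈ S, lam n * ∑ l ∈ En R m h,
            nb3 s i j (T n) (a n) (b n) (c n) F m k l) := by
    have e1 : ∀ n, lam n * (K * (1 + Real.log (H / s)) * ∑ m ∈ range (J.1 + 1),
          (∑ l ∈ En R m h, nb3 s i j (T n) (a n) (b n) (c n) F m 0 l +
            ∑ k ∈ range κ, ∑ l ∈ En R m h, nb3 s i j (T n) (a n) (b n) (c n) F m k l)) =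
        K * (1 + Real.log (H / s)) * ∑ m ∈ range (J.1 + 1),
          (lam n * ∑ l ∈ En R m h, nb3 s i j (T n) (a n) (b n) (c n) F m 0 l +
            ∑ k ∈ range κ, lam n * ∑ l ∈ En R m h, nb3 s i j (T n) (a n) (b n) (c n) F m k l) := by
      intro n
      rw [mul_left_comm, Finset.mul_sum]
      congr 1
      refine Finset.sum_congr rfl fun m _ => ?_
      rw [mul_add, Finset.mul_sum (s := range κ)]
    rw [Finset.sum_congr rfl fun n _ => e1 n, ← Finset.mul_sum, Finset.sum_comm]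
    congr 1
    refine Finset.sum_congr rfl fun m _ => ?_
    rw [Finset.sum_add_distrib]
    congr 1
    exact Finset.sum_comm
  rw [e]
  have h3 : ∀ m ∈ range (J.1 + 1),
      (∑ n ∈ S, lam n * ∑ l ∈ En R m h, nb3 s i j (T n) (a n) (b n) (c n) F m 0 l +
          ∑ k ∈ range κ, ∑ n ∈ S, lam n * ∑ l ∈ En R m h,
            nb3 s i j (T n) (a n) (b n) (c n) F m k l) ≤
      ((1 + κ) * (9 * s * V)) * (2 * (2 * (h + 128) + 1) * (Dm R m).card) := by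
    intro m _
    have a0 := hnodes m 0 (Nat.zero_le _)
    have a1 := Finset.sum_le_sum fun k (hk : k ∈ range κ) =>
      hnodes m k (Finset.mem_range.mp hk).le
    rw [Finset.sum_const, Finset.card_range, nsmul_eq_mul] at a1
    have a2 : (1 + (κ : ℝ)) * ((9 * s * V) * (((En R m h).card : ℝ) * 2 ^ (m + 7))) ≤
        (1 + κ) * ((9 * s * V) * (2 * (2 * (h + 128) + 1) * (Dm R m).card)) :=
      mul_le_mul_of_nonneg_left (mul_le_mul_of_nonneg_left (card_En R m h) (by positivity))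
        (by positivity)
    linarith
  have h4 := Finset.sum_le_sum h3
  rw [← Finset.mul_sum, ← Finset.mul_sum] at h4
  have h5 := mul_le_mul_of_nonneg_left (sum_card_Dm R J hR)
    (by positivity : (0 : ℝ) ≤ ((1 + κ) * (9 * s * V)) * (2 * (2 * (h + 128) + 1)))
  have h7 := h4.trans ((le_of_eq (mul_assoc _ _ _).symm).trans h5)
  have h6 := mul_le_mul_of_nonneg_left h7
    (by positivity : (0 : ℝ) ≤ K * (1 + Real.log (H / s)))
  refine h6.trans (le_of_eq ?_)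
  ring

end Crest.Agent.R079.F24
end

-- ▼ part R079/PLS2_242
section

/-! R079 (helper242): **`labelled24`** = region version of the labelled (2,4,4) word, from 118's
`frozenMix24` by random signs.  Labels at the vertex `z0` (edges `a(z0,z1)`, `c(z2,z0)`). -/

set_option autoImplicit false
set_option linter.unusedSectionVars false

namespace Crest.Agent.R079.Sgn

open Finset Crest.Agent.R079.Grid Crest.Agent.R079.Pot Crest.Agent.R079.Glue Crest.Agent.R079.R244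
  Crest.Agent.R079.F24 Crest.Agent.R079.GlueK

section defs

variable {κ : Type} [Fintype κ] [DecidableEq κ]

/-- labelled box average of `‖X‖²` -/
noncomputable def e2K (X : ℤ → ℤ → κ → ℂ) (N : ℕ) (q p : ℤ) : ℝ :=
  (1 / (N : ℝ) ^ 2) * ∑ i ∈ range N, ∑ j ∈ range N, ∑ k, ‖X (q + (i : ℤ)) (p + (j : ℤ)) k‖ ^ 2

/-- labelled `S₄` fourth power (labels at the FIRST variable) -/
noncomputable def e4K (X : ℤ → ℤ → κ → ℂ) (N : ℕ) (q p : ℤ) : ℝ :=
  (1 / (N : ℝ) ^ 4) * ∑ j ∈ range N, ∑ j' ∈ range N,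
    ‖∑ i ∈ range N, ∑ k, X (q + (i : ℤ)) (p + (j : ℤ)) k *
      (starRingEnd ℂ) (X (q + (i : ℤ)) (p + (j' : ℤ)) k)‖ ^ 2

/-- diagonal error -/
noncomputable def dgK (X : ℤ → ℤ → κ → ℂ) (N : ℕ) (q p : ℤ) : ℝ :=
  (1 / (N : ℝ) ^ 4) * ∑ j ∈ range N, ∑ j' ∈ range N, ∑ i ∈ range N,
    (∑ k, ‖X (q + (i : ℤ)) (p + (j : ℤ)) k‖ ^ 2) * ∑ k, ‖X (q + (i : ℤ)) (p + (j' : ℤ)) k‖ ^ 2

/-- random combination of the labels, first variable -/
noncomputable def sg (T0 : Finset ℤ) (ω : T0 × κ → Bool) (X : ℤ → ℤ → κ → ℂ) (z z' : ℤ) : ℂ :=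
  if h : z ∈ T0 then ∑ k, (sb (ω (⟨z, h⟩, k)) : ℂ) * X z z' k else 0

/-- labelled frozen kernel -/
noncomputable def frK (j k e f : Fin 4) (T T' : Finset ℤ) (U : ℤ → ℤ → κ → ℂ) (F : ℤ → ℂ) (w : ℤ)
    (z z' : ℤ) (l : κ) : ℂ :=
  if z ∈ T ∧ z' ∈ T' then
    U z z' l * F ((sl j - sl k) * w + (sl e - sl k) * z + (sl f - sl k) * z') else 0

theorem frz_sg (j k e f : Fin 4) (T T' : Finset ℤ) (ω : T × κ → Bool) (U : ℤ → ℤ → κ → ℂ)
    (F : ℤ → ℂ) (w z z' : ℤ) :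
    frz j k e f T T' (sg T ω U) F w z z' = sg T ω (frK j k e f T T' U F w) z z' := by
  unfold frz sg frK
  by_cases hz : z ∈ T
  · by_cases hz' : z' ∈ T'
    · simp only [hz, hz', and_self, if_true, dif_pos]
      rw [Finset.sum_mul]
      exact Finset.sum_congr rfl fun l _ => by ring
    · simp [hz']
  · simp [hz]

theorem frz_sg' (j k e f : Fin 4) (T T' : Finset ℤ) (ω : T' × κ → Bool) (U : ℤ → ℤ → κ → ℂ)
    (F : ℤ → ℂ) (w z z' : ℤ) :
    frz j k e f T T' (fun x y => sg T' ω (fun b a l => U a b l) y x) F w z z' =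
      sg T' ω (fun b a l => frK j k e f T T' U F w a b l) z' z := by
  unfold frz sg frK
  by_cases hz' : z' ∈ T'
  · by_cases hz : z ∈ T
    · simp only [hz, hz', and_self, if_true, dif_pos]
      rw [Finset.sum_mul]
      exact Finset.sum_congr rfl fun l _ => by ring
    · simp [hz]
  · simp [hz']

theorem box_reindex {M : Type*} [AddCommMonoid M] (T0 : Finset ℤ) (F : ℤ → M)
    (hF : ∀ z, z ∉ T0 → F z = 0) (N : ℕ) (q : ℤ) :
    ∑ i ∈ range N, F (q + (i : ℤ)) = ∑ z : T0, if (z : ℤ) ∈ Ico q (q + N) then F z else 0 := by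
  rw [Finset.sum_coe_sort T0 (fun z => if z ∈ Ico q (q + N) then F z else 0)]
  have h1 : ∑ i ∈ range N, F (q + (i : ℤ)) = ∑ z ∈ Ico q (q + N), F z := by
    refine Finset.sum_bij (fun i _ => q + (i : ℤ)) ?_ ?_ ?_ ?_
    · intro i hi
      rw [Finset.mem_range] at hi
      rw [Finset.mem_Ico]
      omega
    · intro i _ i' _ h
      have : (i : ℤ) = i' := by linarith
      exact_mod_cast this
    · intro z hz
      rw [Finset.mem_Ico] at hz
      refine ⟨(z - q).toNat, ?_, ?_⟩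
      · rw [Finset.mem_range]; omega
      · omega
    · intro i _; rfl
  rw [h1, ← Finset.sum_filter]
  have h2 : T0.filter (fun z => z ∈ Ico q (q + N)) = (Ico q (q + N)).filter (fun z => z ∈ T0) := by
    ext z; simp only [Finset.mem_filter]; tauto
  rw [h2, Finset.sum_filter]
  refine Finset.sum_congr rfl fun z _ => ?_
  split_ifs with h
  · rfl
  · exact hF z h

/-- **average of `e4` over the signs** -/
theorem avg_e4 (T0 : Finset ℤ) (X : ℤ → ℤ → κ → ℂ) (hX : ∀ z, z ∉ T0 → ∀ z' k, X z z' k = 0)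
    (N : ℕ) (q p : ℤ) :
    ∑ ω : T0 × κ → Bool, e4 (sg T0 ω X) N q p ≤
      Cn (T0 × κ) * (e4K X N q p + 2 * dgK X N q p) := by
  unfold e4 e4K dgK
  rw [← Finset.mul_sum]
  have hc : (0 : ℝ) ≤ 1 / (N : ℝ) ^ 4 := by positivity
  have e : Cn (T0 × κ) * (1 / (N : ℝ) ^ 4 * ∑ j ∈ range N, ∑ j' ∈ range N,
      ‖∑ i ∈ range N, ∑ k, X (q + (i : ℤ)) (p + (j : ℤ)) k *
        (starRingEnd ℂ) (X (q + (i : ℤ)) (p + (j' : ℤ)) k)‖ ^ 2 +
      2 * (1 / (N : ℝ) ^ 4 * ∑ j ∈ range N, ∑ j' ∈ range N, ∑ i ∈ range N,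
        (∑ k, ‖X (q + (i : ℤ)) (p + (j : ℤ)) k‖ ^ 2) *
          ∑ k, ‖X (q + (i : ℤ)) (p + (j' : ℤ)) k‖ ^ 2)) =
      1 / (N : ℝ) ^ 4 * ∑ j ∈ range N, ∑ j' ∈ range N, Cn (T0 × κ) *
        (‖∑ i ∈ range N, ∑ k, X (q + (i : ℤ)) (p + (j : ℤ)) k *
          (starRingEnd ℂ) (X (q + (i : ℤ)) (p + (j' : ℤ)) k)‖ ^ 2 +
        2 * ∑ i ∈ range N, (∑ k, ‖X (q + (i : ℤ)) (p + (j : ℤ)) k‖ ^ 2) *
          ∑ k, ‖X (q + (i : ℤ)) (p + (j' : ℤ)) k‖ ^ 2) := by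
    simp only [mul_add, Finset.sum_add_distrib, ← Finset.mul_sum]
    ring
  rw [e]
  refine mul_le_mul_of_nonneg_left ?_ hc
  rw [Finset.sum_comm]
  refine Finset.sum_le_sum fun j _ => ?_
  rw [Finset.sum_comm]
  refine Finset.sum_le_sum fun j' _ => ?_
  set I : Finset ℤ := Ico q (q + N) with hI
  set x : T0 → κ → ℂ := fun z k => if (z : ℤ) ∈ I then X z (p + (j : ℤ)) k else 0 with hx
  set x' : T0 → κ → ℂ := fun z k => if (z : ℤ) ∈ I then X z (p + (j' : ℤ)) k else 0 with hx'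
  have h1 : ∀ ω : T0 × κ → Bool, ∑ i ∈ range N, sg T0 ω X (q + (i : ℤ)) (p + (j : ℤ)) *
      (starRingEnd ℂ) (sg T0 ω X (q + (i : ℤ)) (p + (j' : ℤ))) =
      ∑ z, (∑ k, (sb (ω (z, k)) : ℂ) * x z k) *
        (starRingEnd ℂ) (∑ k, (sb (ω (z, k)) : ℂ) * x' z k) := by
    intro ω
    rw [box_reindex T0 (fun z => sg T0 ω X z (p + (j : ℤ)) *
      (starRingEnd ℂ) (sg T0 ω X z (p + (j' : ℤ)))) (by
        intro z hz
        simp [sg, hz]) N q]
    refine Finset.sum_congr rfl fun z _ => ?_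
    simp only [hx, hx']
    by_cases hz : (z : ℤ) ∈ Ico q (q + N)
    · rw [if_pos hz]
      simp only [hI, hz, if_true]
      unfold sg
      rw [dif_pos z.2, dif_pos z.2]
    · rw [if_neg hz]
      simp [hI, hz]
  have h2 : ∑ z, ∑ k, x z k * (starRingEnd ℂ) (x' z k) =
      ∑ i ∈ range N, ∑ k, X (q + (i : ℤ)) (p + (j : ℤ)) k *
        (starRingEnd ℂ) (X (q + (i : ℤ)) (p + (j' : ℤ)) k) := by
    rw [box_reindex T0 (fun z => ∑ k, X z (p + (j : ℤ)) k *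
      (starRingEnd ℂ) (X z (p + (j' : ℤ)) k)) (by
        intro z hz
        simp [hX z hz]) N q]
    refine Finset.sum_congr rfl fun z _ => ?_
    simp only [hx, hx']
    by_cases hz : (z : ℤ) ∈ Ico q (q + N)
    · simp only [hI, hz, if_true]
    · simp [hI, hz]
  have h3 : ∑ z, (∑ k, ‖x z k‖ ^ 2) * ∑ k, ‖x' z k‖ ^ 2 =
      ∑ i ∈ range N, (∑ k, ‖X (q + (i : ℤ)) (p + (j : ℤ)) k‖ ^ 2) *
          ∑ k, ‖X (q + (i : ℤ)) (p + (j' : ℤ)) k‖ ^ 2 := by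
    rw [box_reindex T0 (fun z => (∑ k, ‖X z (p + (j : ℤ)) k‖ ^ 2) *
          ∑ k, ‖X z (p + (j' : ℤ)) k‖ ^ 2) (by
        intro z hz
        simp [hX z hz]) N q]
    refine Finset.sum_congr rfl fun z _ => ?_
    simp only [hx, hx']
    by_cases hz : (z : ℤ) ∈ Ico q (q + N)
    · simp only [hI, hz, if_true]
    · simp [hI, hz]
  have h := chaos x x'
  rw [h2, h3] at h
  refine le_trans (le_of_eq ?_) h
  exact Finset.sum_congr rfl fun ω _ => by rw [h1 ω]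

/-- **average of `e2` over the signs** -/
theorem avg_e2 (T0 : Finset ℤ) (X : ℤ → ℤ → κ → ℂ) (hX : ∀ z, z ∉ T0 → ∀ z' k, X z z' k = 0)
    (N : ℕ) (q p : ℤ) :
    ∑ ω : T0 × κ → Bool, e2 (sg T0 ω X) N q p = Cn (T0 × κ) * e2K X N q p := by
  unfold e2 e2K
  rw [← Finset.mul_sum]
  rw [mul_left_comm (Cn (T0 × κ))]
  congr 1
  rw [Finset.sum_comm, Finset.mul_sum]
  refine Finset.sum_congr rfl fun i _ => ?_
  rw [Finset.sum_comm, Finset.mul_sum]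
  refine Finset.sum_congr rfl fun j _ => ?_
  by_cases hz : q + (i : ℤ) ∈ T0
  · have h := lin (τ := T0) (κ := κ) (fun k => X (q + (i : ℤ)) (p + (j : ℤ)) k) ⟨_, hz⟩
    rw [← h]
    refine Finset.sum_congr rfl fun ω _ => ?_
    unfold sg
    rw [dif_pos hz]
  · have : ∀ ω : T0 × κ → Bool, ‖sg T0 ω X (q + (i : ℤ)) (p + (j : ℤ))‖ ^ 2 = 0 := by
      intro ω
      simp [sg, hz]
    rw [Finset.sum_congr rfl fun ω _ => this ω]
    simp [hX _ hz]

end defs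

/-- transposition of `e4` -/
theorem e4_tr (X : ℤ → ℤ → ℂ) (N : ℕ) (q p : ℤ) :
    e4 X N q p = e4 (fun x y => X y x) N p q := by
  unfold e4
  congr 1
  have h : ∀ (s : Finset ℕ) (A : ℕ → ℕ → ℂ),
      ((∑ j ∈ s, ∑ j' ∈ s, ‖∑ i ∈ s, A i j * (starRingEnd ℂ) (A i j')‖ ^ 2 : ℝ) : ℂ) =
      ∑ j ∈ s, ∑ j' ∈ s, ∑ i ∈ s, ∑ i' ∈ s,
        A i j * (starRingEnd ℂ) (A i j') * ((starRingEnd ℂ) (A i' j) * A i' j') := by
    intro s A
    push_cast
    refine Finset.sum_congr rfl fun j _ => Finset.sum_congr rfl fun j' _ => ?_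
    rw [← Complex.ofReal_pow, ← Complex.normSq_eq_norm_sq, ← Complex.mul_conj, map_sum,
      Finset.sum_mul_sum]
    refine Finset.sum_congr rfl fun i _ => Finset.sum_congr rfl fun i' _ => ?_
    rw [map_mul, Complex.conj_conj]
  have h1 := h (range N) (fun i j => X (q + (i : ℤ)) (p + (j : ℤ)))
  have h2 := h (range N) (fun i j => X (q + (j : ℤ)) (p + (i : ℤ)))
  have h3 : ∑ j ∈ range N, ∑ j' ∈ range N, ∑ i ∈ range N, ∑ i' ∈ range N,
        X (q + (i : ℤ)) (p + (j : ℤ)) * (starRingEnd ℂ) (X (q + (i : ℤ)) (p + (j' : ℤ))) *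
          ((starRingEnd ℂ) (X (q + (i' : ℤ)) (p + (j : ℤ))) * X (q + (i' : ℤ)) (p + (j' : ℤ))) =
      ∑ j ∈ range N, ∑ j' ∈ range N, ∑ i ∈ range N, ∑ i' ∈ range N,
        X (q + (j : ℤ)) (p + (i : ℤ)) * (starRingEnd ℂ) (X (q + (j' : ℤ)) (p + (i : ℤ))) *
          ((starRingEnd ℂ) (X (q + (j : ℤ)) (p + (i' : ℤ))) * X (q + (j' : ℤ)) (p + (i' : ℤ))) := by
    rw [Finset.sum_comm' (s := range N) (t := fun _ => range N) (t' := range N)
      (s' := fun _ => range N) (by simp)]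
    calc ∑ j' ∈ range N, ∑ j ∈ range N, ∑ i ∈ range N, ∑ i' ∈ range N,
        X (q + (i : ℤ)) (p + (j : ℤ)) * (starRingEnd ℂ) (X (q + (i : ℤ)) (p + (j' : ℤ))) *
          ((starRingEnd ℂ) (X (q + (i' : ℤ)) (p + (j : ℤ))) * X (q + (i' : ℤ)) (p + (j' : ℤ)))
        = ∑ j' ∈ range N, ∑ i ∈ range N, ∑ i' ∈ range N, ∑ j ∈ range N,
        X (q + (i : ℤ)) (p + (j : ℤ)) * (starRingEnd ℂ) (X (q + (i : ℤ)) (p + (j' : ℤ))) *
          ((starRingEnd ℂ) (X (q + (i' : ℤ)) (p + (j : ℤ))) * X (q + (i' : ℤ)) (p + (j' : ℤ))) := by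
          refine Finset.sum_congr rfl fun j' _ => ?_
          rw [Finset.sum_comm]
          refine Finset.sum_congr rfl fun i _ => ?_
          rw [Finset.sum_comm]
      _ = ∑ i ∈ range N, ∑ i' ∈ range N, ∑ j ∈ range N, ∑ j' ∈ range N,
        X (q + (i : ℤ)) (p + (j : ℤ)) * (starRingEnd ℂ) (X (q + (i : ℤ)) (p + (j' : ℤ))) *
          ((starRingEnd ℂ) (X (q + (i' : ℤ)) (p + (j : ℤ))) * X (q + (i' : ℤ)) (p + (j' : ℤ))) := by
          rw [Finset.sum_comm]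
          refine Finset.sum_congr rfl fun i _ => ?_
          rw [Finset.sum_comm]
          refine Finset.sum_congr rfl fun i' _ => ?_
          rw [Finset.sum_comm]
      _ = _ := by
          refine Finset.sum_congr rfl fun i _ => Finset.sum_congr rfl fun i' _ =>
            Finset.sum_congr rfl fun j _ => Finset.sum_congr rfl fun j' _ => ?_
          ring
  rw [h3, ← h2] at h1
  exact_mod_cast h1

end Crest.Agent.R079.Sgn
end

-- ▼ part R079/PLS3_242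
section

/-! R079 (helper242): `labelled24_0/1/2` = region version of the labelled (2,4,4) word (mixtures), from
118's `frozenMix24` by random signs. -/

set_option autoImplicit false
set_option linter.unusedSectionVars false

namespace Crest.Agent.R079.Sgn

open Finset Crest.Agent.R079.Grid Crest.Agent.R079.Pot Crest.Agent.R079.Glue Crest.Agent.R079.R244
  Crest.Agent.R079.F24 Crest.Agent.R079.GlueK

theorem mix_finsum {ι τ : Type*} (S : Finset ι) (lam : ι → ℝ) (f : ι → τ → ℝ)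
    (hfin : ∀ n ∈ S, (Function.support (f n)).Finite) (B : ℝ)
    (h : ∀ Λ : Finset τ, ∑ n ∈ S, lam n * ∑ t ∈ Λ, f n t ≤ B) :
    ∑ n ∈ S, lam n * ∑ᶠ t, f n t ≤ B := by
  classical
  set Λ : Finset τ := S.attach.biUnion (fun n => (hfin n.1 n.2).toFinset) with hΛ
  refine le_trans (le_of_eq ?_) (h Λ)
  refine Finset.sum_congr rfl fun n hn => ?_
  congr 1
  refine finsum_eq_sum_of_support_subset _ ?_
  intro t ht
  rw [Finset.mem_coe, hΛ, Finset.mem_biUnion]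
  exact ⟨⟨n, hn⟩, Finset.mem_attach _ _, by rw [Set.Finite.mem_toFinset]; exact ht⟩

theorem e2_tr (X : ℤ → ℤ → ℂ) (N : ℕ) (q p : ℤ) :
    e2 X N q p = e2 (fun x y => X y x) N p q := by
  unfold e2
  rw [Finset.sum_comm]

section defs

variable {κ : Type} [Fintype κ] [DecidableEq κ] {ι : Type}

/-- labelled `S₂` hypothesis of a mixture -/
def S2K (S : Finset ι) (lam : ι → ℝ) (R : Finset (ℕ × ℤ)) (κ0 : ℕ) (V : ℝ)
    (X : ι → (ℤ → ℂ) → ℤ → ℤ → ℤ → κ → ℂ) (F : ℤ → ℂ) : Prop :=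
  ∀ p ∈ R, ∀ k : ℕ, k ≤ κ0 → ∀ Λ : Finset (ℤ × ℤ × ℤ),
    ∑ n ∈ S, lam n * ∑ t ∈ Λ, e2K (X n (res p F) t.1) (2 ^ (p.1 + k)) t.2.1 t.2.2 ≤
      2 ^ (p.1 + 7) * V

/-- labelled `S₄` hypothesis of a mixture (with the diagonal error of the random signs) -/
def S4K (S : Finset ι) (lam : ι → ℝ) (R : Finset (ℕ × ℤ)) (κ0 : ℕ) (V σ : ℝ)
    (X : ι → (ℤ → ℂ) → ℤ → ℤ → ℤ → κ → ℂ) (F : ℤ → ℂ) : Prop :=
  ∀ p ∈ R, ∀ k : ℕ, k ≤ κ0 → ∀ Λ : Finset (ℤ × ℤ × ℤ),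
    ∑ n ∈ S, lam n * ∑ t ∈ Λ, (e4K (X n (res p F) t.1) (2 ^ (p.1 + k)) t.2.1 t.2.2 +
      2 * dgK (X n (res p F) t.1) (2 ^ (p.1 + k)) t.2.1 t.2.2) ≤ σ * (2 ^ (p.1 + 7) * V)

/-- support of the node boxes of a `frz` kernel -/
theorem supp_frz {j k e f : Fin 4} (hα : sl j - sl k ≠ 0) (T T' : Finset ℤ) (a : ℤ → ℤ → ℂ)
    (p : ℕ × ℤ) (F : ℤ → ℂ) (N : ℕ) (E : (ℤ → ℤ → ℂ) → ℕ → ℤ → ℤ → ℝ)
    (hE : ∀ X Y N q p, (∀ i j : ℕ, i < N → j < N →
      X (q + (i : ℤ)) (p + (j : ℤ)) = Y (q + (i : ℤ)) (p + (j : ℤ))) → E X N q p = E Y N q p)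
    (hE0 : ∀ N q p, E (fun _ _ => 0) N q p = 0) :
    (Function.support fun t : ℤ × ℤ × ℤ =>
      E (frz j k e f T T' a (res p F) t.1) N t.2.1 t.2.2).Finite :=
  support_finite (α := sl j - sl k) (γ := sl e - sl k) (δ := sl f - sl k) hα T T' a p F N E hE hE0

theorem frK_zero {j k e f : Fin 4} {T T' : Finset ℤ} {U : ℤ → ℤ → κ → ℂ} {F : ℤ → ℂ} {w z : ℤ}
    (hz : z ∉ T) (z' : ℤ) (l : κ) : frK j k e f T T' U F w z z' l = 0 := by
  unfold frK
  rw [if_neg (fun h => hz h.1)]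

theorem frK_zero' {j k e f : Fin 4} {T T' : Finset ℤ} {U : ℤ → ℤ → κ → ℂ} {F : ℤ → ℂ} {w z' : ℤ}
    (hz : z' ∉ T') (z : ℤ) (l : κ) : frK j k e f T T' U F w z z' l = 0 := by
  unfold frK
  rw [if_neg (fun h => hz h.2)]

theorem sum_prod_avg {τ : Type} [Fintype τ] [DecidableEq τ] (S : Finset ι) (lam : ι → ℝ)
    (Λ : Finset (ℤ × ℤ × ℤ)) (g : ι → (τ × κ → Bool) → (ℤ × ℤ × ℤ) → ℝ)
    (G : ι → (ℤ × ℤ × ℤ) → ℝ) (hlam : ∀ n ∈ S, 0 ≤ lam n)
    (h : ∀ n ∈ S, ∀ t, ∑ ω, g n ω t ≤ Cn (τ × κ) * G n t) :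
    ∑ n' ∈ S ×ˢ (univ : Finset (τ × κ → Bool)), lam n'.1 / Cn (τ × κ) *
      ∑ t ∈ Λ, g n'.1 n'.2 t ≤ ∑ n ∈ S, lam n * ∑ t ∈ Λ, G n t := by
  rw [Finset.sum_product]
  refine Finset.sum_le_sum fun n hn => ?_
  have hC := Cn_pos (α := τ × κ)
  have e : ∑ ω : τ × κ → Bool, lam n / Cn (τ × κ) * ∑ t ∈ Λ, g n ω t =
      lam n / Cn (τ × κ) * ∑ t ∈ Λ, ∑ ω, g n ω t := by
    rw [← Finset.mul_sum, Finset.sum_comm]
  rw [e]
  have h1 : ∑ t ∈ Λ, ∑ ω, g n ω t ≤ Cn (τ × κ) * ∑ t ∈ Λ, G n t := by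
    rw [Finset.mul_sum]
    exact Finset.sum_le_sum fun t _ => h n hn t
  have h2 := mul_le_mul_of_nonneg_left h1 (div_nonneg (hlam n hn) hC.le)
  refine h2.trans (le_of_eq ?_)
  field_simp

/-- labelled edge, labels at the first variable: `S₂` -/
theorem edge1_2 (S : Finset ι) (lam : ι → ℝ) (hlam : ∀ n ∈ S, 0 ≤ lam n) (R : Finset (ℕ × ℤ))
    (κ0 : ℕ) (V : ℝ) {j k e f : Fin 4} (hα : sl j - sl k ≠ 0) (T T' : Finset ℤ)
    (U : ι → ℤ → ℤ → κ → ℂ) (F : ℤ → ℂ)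
    (h : S2K S lam R κ0 V (fun n G w => frK j k e f T T' (U n) G w) F) :
    S2Mix (S ×ˢ (univ : Finset (T × κ → Bool))) (fun n' => lam n'.1 / Cn (T × κ)) R κ0 V
      (fun n' G w => frz j k e f T T' (sg T n'.2 (U n'.1)) G w) F := by
  intro p hp kk hkk
  refine mix_finsum _ _ _ (fun n' _ => supp_frz hα T T' _ p F _ e2 e2_congr e2_zero) _ ?_
  intro Λ
  refine (sum_prod_avg S lam Λ
    (fun n ω t => e2 (frz j k e f T T' (sg T ω (U n)) (res p F) t.1) (2 ^ (p.1 + kk)) t.2.1 t.2.2)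
    (fun n t => e2K (frK j k e f T T' (U n) (res p F) t.1) (2 ^ (p.1 + kk)) t.2.1 t.2.2)
    hlam ?_).trans (h p hp kk hkk Λ)
  intro n _ t
  refine le_of_eq ?_
  rw [← avg_e2 T _ (fun z hz z' l => frK_zero hz z' l)]
  refine Finset.sum_congr rfl fun ω _ => ?_
  congr 1
  funext z z'
  exact frz_sg j k e f T T' ω (U n) (res p F) t.1 z z'

/-- labelled edge, labels at the first variable: `S₄` -/
theorem edge1_4 (S : Finset ι) (lam : ι → ℝ) (hlam : ∀ n ∈ S, 0 ≤ lam n) (R : Finset (ℕ × ℤ))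
    (κ0 : ℕ) (V σ : ℝ) {j k e f : Fin 4} (hα : sl j - sl k ≠ 0) (T T' : Finset ℤ)
    (U : ι → ℤ → ℤ → κ → ℂ) (F : ℤ → ℂ)
    (h : S4K S lam R κ0 V σ (fun n G w => frK j k e f T T' (U n) G w) F) :
    S4Mix (S ×ˢ (univ : Finset (T × κ → Bool))) (fun n' => lam n'.1 / Cn (T × κ)) R κ0 V σ
      (fun n' G w => frz j k e f T T' (sg T n'.2 (U n'.1)) G w) F := by
  intro p hp kk hkk
  refine mix_finsum _ _ _ (fun n' _ => supp_frz hα T T' _ p F _ e4 e4_congr e4_zero) _ ?_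
  intro Λ
  refine (sum_prod_avg S lam Λ
    (fun n ω t => e4 (frz j k e f T T' (sg T ω (U n)) (res p F) t.1) (2 ^ (p.1 + kk)) t.2.1 t.2.2)
    (fun n t => e4K (frK j k e f T T' (U n) (res p F) t.1) (2 ^ (p.1 + kk)) t.2.1 t.2.2 +
      2 * dgK (frK j k e f T T' (U n) (res p F) t.1) (2 ^ (p.1 + kk)) t.2.1 t.2.2)
    hlam ?_).trans (h p hp kk hkk Λ)
  intro n _ t
  refine le_trans (le_of_eq ?_) (avg_e4 T _ (fun z hz z' l => frK_zero hz z' l) _ _ _)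
  refine Finset.sum_congr rfl fun ω _ => ?_
  congr 1
  funext z z'
  exact frz_sg j k e f T T' ω (U n) (res p F) t.1 z z'

/-- labelled edge, labels at the second variable: `S₂` -/
theorem edge2_2 (S : Finset ι) (lam : ι → ℝ) (hlam : ∀ n ∈ S, 0 ≤ lam n) (R : Finset (ℕ × ℤ))
    (κ0 : ℕ) (V : ℝ) {j k e f : Fin 4} (hα : sl j - sl k ≠ 0) (T T' : Finset ℤ)
    (U : ι → ℤ → ℤ → κ → ℂ) (F : ℤ → ℂ)
    (h : S2K S lam R κ0 V (fun n G w b a l => frK j k e f T T' (U n) G w a b l) F) :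
    S2Mix (S ×ˢ (univ : Finset (T' × κ → Bool))) (fun n' => lam n'.1 / Cn (T' × κ)) R κ0 V
      (fun n' G w => frz j k e f T T' (fun x y => sg T' n'.2 (fun b a l => U n'.1 a b l) y x) G w)
      F := by
  intro p hp kk hkk
  refine mix_finsum _ _ _ (fun n' _ => supp_frz hα T T' _ p F _ e2 e2_congr e2_zero) _ ?_
  intro Λ
  set swp : ℤ × ℤ × ℤ ↪ ℤ × ℤ × ℤ := ⟨fun t => (t.1, t.2.2, t.2.1), by
    rintro ⟨a, b, c⟩ ⟨a', b', c'⟩ h
    simp only [Prod.mk.injEq] at h ⊢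
    tauto⟩ with hswp
  refine (sum_prod_avg S lam Λ
    (fun n ω t => e2 (frz j k e f T T' (fun x y => sg T' ω (fun b a l => U n a b l) y x)
      (res p F) t.1) (2 ^ (p.1 + kk)) t.2.1 t.2.2)
    (fun n t => e2K (fun b a l => frK j k e f T T' (U n) (res p F) t.1 a b l)
      (2 ^ (p.1 + kk)) t.2.2 t.2.1) hlam ?_).trans ?_
  · intro n _ t
    refine le_of_eq ?_
    rw [← avg_e2 T' _ (fun z hz z' l => frK_zero' hz z' l)]
    refine Finset.sum_congr rfl fun ω _ => ?_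
    rw [e2_tr]
    congr 1
    funext z z'
    exact frz_sg' j k e f T T' ω (U n) (res p F) t.1 z' z
  · refine le_trans (le_of_eq ?_) (h p hp kk hkk (Λ.map swp))
    refine Finset.sum_congr rfl fun n _ => ?_
    rw [Finset.sum_map]
    rfl

/-- labelled edge, labels at the second variable: `S₄` -/
theorem edge2_4 (S : Finset ι) (lam : ι → ℝ) (hlam : ∀ n ∈ S, 0 ≤ lam n) (R : Finset (ℕ × ℤ))
    (κ0 : ℕ) (V σ : ℝ) {j k e f : Fin 4} (hα : sl j - sl k ≠ 0) (T T' : Finset ℤ)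
    (U : ι → ℤ → ℤ → κ → ℂ) (F : ℤ → ℂ)
    (h : S4K S lam R κ0 V σ (fun n G w b a l => frK j k e f T T' (U n) G w a b l) F) :
    S4Mix (S ×ˢ (univ : Finset (T' × κ → Bool))) (fun n' => lam n'.1 / Cn (T' × κ)) R κ0 V σ
      (fun n' G w => frz j k e f T T' (fun x y => sg T' n'.2 (fun b a l => U n'.1 a b l) y x) G w)
      F := by
  intro p hp kk hkk
  refine mix_finsum _ _ _ (fun n' _ => supp_frz hα T T' _ p F _ e4 e4_congr e4_zero) _ ?_
  intro Λ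
  set swp : ℤ × ℤ × ℤ ↪ ℤ × ℤ × ℤ := ⟨fun t => (t.1, t.2.2, t.2.1), by
    rintro ⟨a, b, c⟩ ⟨a', b', c'⟩ h
    simp only [Prod.mk.injEq] at h ⊢
    tauto⟩ with hswp
  refine (sum_prod_avg S lam Λ
    (fun n ω t => e4 (frz j k e f T T' (fun x y => sg T' ω (fun b a l => U n a b l) y x)
      (res p F) t.1) (2 ^ (p.1 + kk)) t.2.1 t.2.2)
    (fun n t => e4K (fun b a l => frK j k e f T T' (U n) (res p F) t.1 a b l)
      (2 ^ (p.1 + kk)) t.2.2 t.2.1 +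
      2 * dgK (fun b a l => frK j k e f T T' (U n) (res p F) t.1 a b l)
      (2 ^ (p.1 + kk)) t.2.2 t.2.1) hlam ?_).trans ?_
  · intro n _ t
    refine le_trans (le_of_eq ?_) (avg_e4 T' _ (fun z hz z' l => frK_zero' hz z' l) _ _ _)
    refine Finset.sum_congr rfl fun ω _ => ?_
    rw [e4_tr]
    congr 1
    funext z z'
    exact frz_sg' j k e f T T' ω (U n) (res p F) t.1 z' z
  · refine le_trans (le_of_eq ?_) (h p hp kk hkk (Λ.map swp))
    refine Finset.sum_congr rfl fun n _ => ?_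
    rw [Finset.sum_map]
    rfl

theorem sum_triv {τ : Type} [Fintype τ] [DecidableEq τ] (S : Finset ι) (lam : ι → ℝ)
    (g : ι → ℝ) :
    ∑ n' ∈ S ×ˢ (univ : Finset (τ × κ → Bool)), lam n'.1 / Cn (τ × κ) * g n'.1 =
      ∑ n ∈ S, lam n * g n := by
  rw [Finset.sum_product]
  refine Finset.sum_congr rfl fun n _ => ?_
  have hC := Cn_pos (α := τ × κ)
  show ∑ _y : τ × κ → Bool, lam n / Cn (τ × κ) * g n = lam n * g n
  rw [Finset.sum_const, Finset.card_univ, nsmul_eq_mul]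
  have : (Fintype.card (τ × κ → Bool) : ℝ) = Cn (τ × κ) := rfl
  rw [this]
  field_simp

theorem edge0_2 {τ : Type} [Fintype τ] [DecidableEq τ] (S : Finset ι) (lam : ι → ℝ)
    (R : Finset (ℕ × ℤ)) (κ0 : ℕ) (V : ℝ) (fr : ι → (ℤ → ℂ) → ℤ → ℤ → ℤ → ℂ) (F : ℤ → ℂ)
    (h : S2Mix S lam R κ0 V fr F) :
    S2Mix (S ×ˢ (univ : Finset (τ × κ → Bool))) (fun n' => lam n'.1 / Cn (τ × κ)) R κ0 V
      (fun n' => fr n'.1) F := by
  intro p hp kk hkk
  have := h p hp kk hkk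
  rwa [← sum_triv (τ := τ) (κ := κ)] at this

/-- sign average of one labelled vertex -/
theorem avg_vertex (T0 : Finset ℤ) (x y : κ → ℂ) (z : ℤ) (hz : z ∈ T0) (U W : ℤ → ℤ → κ → ℂ)
    (z1 z2 : ℤ) (B : ℂ) (hx : x = U z z1) (hy : y = W z z2) :
    ∑ ω : T0 × κ → Bool, sg T0 ω U z z1 * B * sg T0 ω W z z2 =
      (Cn (T0 × κ) : ℂ) * ((∑ k, x k * y k) * B) := by
  have h := prod_avg (τ := T0) (κ := κ) x y ⟨z, hz⟩
  rw [← mul_assoc, ← h, Finset.sum_mul]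
  refine Finset.sum_congr rfl fun ω _ => ?_
  unfold sg
  rw [dif_pos hz, dif_pos hz, hx, hy]
  ring

theorem cn_ne {τ : Type} [Fintype τ] [DecidableEq τ] : (Cn (τ × κ) : ℂ) ≠ 0 := by
  exact_mod_cast (Cn_pos (α := τ × κ)).ne'

/-- general bookkeeping of the kernel identity -/
theorem ker_id {τ : Type} [Fintype τ] [DecidableEq τ] (S : Finset ι) (lam : ι → ℝ) (j : Fin 4)
    (T : Fin 3 → Finset ℤ) (a b c : ι × (τ × κ → Bool) → ℤ → ℤ → ℂ) (Φ : ι → ℤ → ℤ → ℤ → ℂ)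
    (h : ∀ n ∈ S, ∀ z0 ∈ T 0, ∀ z1 ∈ T 1, ∀ z2 ∈ T 2,
      ∑ ω : τ × κ → Bool, a (n, ω) z0 z1 * b (n, ω) z1 z2 * c (n, ω) z2 z0 =
        (Cn (τ × κ) : ℂ) * Φ n z0 z1 z2) (y : ℤ) :
    ∑ n ∈ S, (lam n : ℂ) * kerF j 1 T (Φ n) y =
      ∑ n' ∈ S ×ˢ (univ : Finset (τ × κ → Bool)), ((lam n'.1 / Cn (τ × κ) : ℝ) : ℂ) *
        atom j 1 T (a n') (b n') (c n') y := by
  rw [Finset.sum_product]
  refine Finset.sum_congr rfl fun n hn => ?_
  have hC := cn_ne (κ := κ) (τ := τ)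
  show (lam n : ℂ) * kerF j 1 T (Φ n) y = ∑ ω : τ × κ → Bool,
    ((lam n / Cn (τ × κ) : ℝ) : ℂ) * atom j 1 T (a (n, ω)) (b (n, ω)) (c (n, ω)) y
  rw [← Finset.mul_sum]
  unfold kerF atom
  simp only [Complex.ofReal_one, one_mul]
  have e : ∑ ω : τ × κ → Bool, ∑ z0 ∈ T 0, ∑ z1 ∈ T 1, ∑ z2 ∈ T 2,
      (if cf j 0 * z0 + cf j 1 * z1 + cf j 2 * z2 = y then
        a (n, ω) z0 z1 * b (n, ω) z1 z2 * c (n, ω) z2 z0 else 0) =
      (Cn (τ × κ) : ℂ) * ∑ z0 ∈ T 0, ∑ z1 ∈ T 1, ∑ z2 ∈ T 2,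
        if cf j 0 * z0 + cf j 1 * z1 + cf j 2 * z2 = y then Φ n z0 z1 z2 else 0 := by
    simp only [Finset.mul_sum]
    rw [Finset.sum_comm]
    refine Finset.sum_congr rfl fun z0 hz0 => ?_
    rw [Finset.sum_comm]
    refine Finset.sum_congr rfl fun z1 hz1 => ?_
    rw [Finset.sum_comm]
    refine Finset.sum_congr rfl fun z2 hz2 => ?_
    split_ifs
    · exact h n hn z0 hz0 z1 hz1 z2 hz2
    · simp
  rw [e, Complex.ofReal_div]
  field_simp

end defs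

end Crest.Agent.R079.Sgn
end

-- ▼ part R079/PLS4_242
section

/-! R079 (helper242): **`labelled24_0 / _1 / _2`** = region version of the labelled (4,2,4) word
(mixtures `n ∈ S` with weights `lam`), labels at the vertex `0 / 1 / 2`, the `S₂` letter on the
opposite (unlabelled) edge. -/

set_option autoImplicit false
set_option linter.unusedSectionVars false

namespace Crest.Agent.R079.Sgn

open Finset Crest.Agent.R079.Grid Crest.Agent.R079.Pot Crest.Agent.R079.Glue Crest.Agent.R079.R244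
  Crest.Agent.R079.F24 Crest.Agent.R079.GlueK

theorem sl_ne {a b : Fin 4} (h : a ≠ b) : sl a - sl b ≠ 0 := by
  fin_cases a <;> fin_cases b <;> simp_all [sl]

theorem sl_sA (j : Fin 4) (i : Fin 3) : sl j - sl (j.succAbove i) ≠ 0 :=
  sl_ne (Fin.succAbove_ne j i).symm

/-- labels at the vertex `0`: edges `a` (first variable) and `c` (second variable); the `S₂` edge is
`b(z1,z2)` -/
theorem labelled24_0 : ∃ K : ℝ, 0 ≤ K ∧ ∃ κ0 : ℕ, ∀ (bb : ℤ), bb = -1 ∨ bb = -7 →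
    ∀ (R : Finset (ℕ × ℤ)) (J : ℕ × ℤ), IsRegion R J →
    ∀ (j : Fin 4) (s H : ℝ), 0 < s → s ≤ 1 → 1 ≤ H → ∀ (V : ℝ), 0 ≤ V →
    ∀ {κ : Type} [Fintype κ] [DecidableEq κ] {ι : Type} (S : Finset ι) (lam : ι → ℝ),
      (∀ n ∈ S, 0 ≤ lam n) →
    ∀ (T : Fin 3 → Finset ℤ) (U W : ι → ℤ → ℤ → κ → ℂ) (b : ι → ℤ → ℤ → ℂ) (F : Fin 4 → ℤ → ℂ),
      S2K S lam R κ0 V (fun n G w => frK j (j.succAbove 2) (j.succAbove 0) (j.succAbove 1)
        (T 0) (T 1) (U n) G w) (F (j.succAbove 2)) →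
      S4K S lam R κ0 V (s ^ 2) (fun n G w => frK j (j.succAbove 2) (j.succAbove 0) (j.succAbove 1)
        (T 0) (T 1) (U n) G w) (F (j.succAbove 2)) →
      S2Mix S lam R κ0 V (fun n => frBk j T (b n)) (F (j.succAbove 0)) →
      (∀ n ∈ S, ∀ w z z', ‖frBk j T (b n) (F (j.succAbove 0)) w z z'‖ ≤ H) →
      S2K S lam R κ0 V (fun n G w x y l => frK j (j.succAbove 1) (j.succAbove 2) (j.succAbove 0)
        (T 2) (T 0) (W n) G w y x l) (F (j.succAbove 1)) →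
      S4K S lam R κ0 V (s ^ 2) (fun n G w x y l => frK j (j.succAbove 1) (j.succAbove 2)
        (j.succAbove 0) (T 2) (T 0) (W n) G w y x l) (F (j.succAbove 1)) →
      (∀ y, F j y = ∑ n ∈ S, (lam n : ℂ) *
        kerF j 1 T (fun z0 z1 z2 => (∑ l, U n z0 z1 l * W n z2 z0 l) * b n z1 z2) y) →
      ∑ p ∈ R, ∑ x ∈ adm p.1 p.2, ‖Lbox (2 ^ p.1) bb F x‖ ≤
        K * (s * (1 + Real.log (H / s)) * 2 ^ (J.1 + 7) * V) := by
  obtain ⟨K, hK, κ0, hL⟩ := frozenMix24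
  refine ⟨K, hK, κ0, ?_⟩
  intro bb hbb R J hR j s H hs hs1 hH V hV κ _ _ ι S lam hlam T U W b F hU2 hU4 hb2 hbH hW2 hW4 hFj
  set S' : Finset (ι × (T 0 × κ → Bool)) := S ×ˢ univ with hS'
  set lam' : ι × (T 0 × κ → Bool) → ℝ := fun n' => lam n'.1 / Cn (T 0 × κ) with hlam'
  have hl' : ∀ n' ∈ S', 0 ≤ lam' n' := by
    intro n' hn'
    rw [hS', Finset.mem_product] at hn'
    exact div_nonneg (hlam _ hn'.1) Cn_pos.le
  have e1 := edge1_2 S lam hlam R κ0 V (sl_sA j 2) (T 0) (T 1) U _ hU2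
  have e2 := edge0_2 (κ := κ) (τ := T 0) S lam R κ0 V _ _ hb2
  have e3 := edge2_2 S lam hlam R κ0 V (sl_sA j 1) (T 2) (T 0) W _ hW2
  have e4 := edge1_4 S lam hlam R κ0 V _ (sl_sA j 2) (T 0) (T 1) U _ hU4
  have e5 := edge2_4 S lam hlam R κ0 V _ (sl_sA j 1) (T 2) (T 0) W _ hW4
  have hk : ∀ y, F j y = ∑ n' ∈ S', (lam' n' : ℂ) * atom j 1 T (sg (T 0) n'.2 (U n'.1)) (b n'.1)
      (fun x y => sg (T 0) n'.2 (fun b a l => W n'.1 a b l) y x) y := by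
    intro y
    rw [hFj y]
    refine ker_id (κ := κ) (τ := T 0) S lam j T (fun n' => sg (T 0) n'.2 (U n'.1))
      (fun n' => b n'.1) (fun n' x y => sg (T 0) n'.2 (fun b a l => W n'.1 a b l) y x)
      (fun n z0 z1 z2 => (∑ l, U n z0 z1 l * W n z2 z0 l) * b n z1 z2) ?_ y
    intro n _ z0 hz0 z1 _ z2 _
    exact avg_vertex (T 0) _ _ z0 hz0 (U n) (fun b a l => W n a b l) z1 z2 (b n z1 z2) rfl rfl
  have h := hL bb hbb R J hR j 1 s H hs hs1 hH V hV S' lam' hl' (fun _ => T)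
    (fun n' => sg (T 0) n'.2 (U n'.1)) (fun n' => b n'.1)
    (fun n' x y => sg (T 0) n'.2 (fun b a l => W n'.1 a b l) y x) F e1 e2 e3 (fun _ => e4)
    (fun h => absurd rfl h) (fun _ => e5) (fun h => absurd h (by decide))
    (fun _ n' hn' => hbH n'.1 (Finset.mem_product.1 hn').1) (fun h => absurd h (by decide)) hk
  exact h

/-- labels at the vertex `1`: edges `a` (second variable) and `b` (first variable); the `S₂` edge is
`c(z2,z0)` -/
theorem labelled24_1 : ∃ K : ℝ, 0 ≤ K ∧ ∃ κ0 : ℕ, ∀ (bb : ℤ), bb = -1 ∨ bb = -7 →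
    ∀ (R : Finset (ℕ × ℤ)) (J : ℕ × ℤ), IsRegion R J →
    ∀ (j : Fin 4) (s H : ℝ), 0 < s → s ≤ 1 → 1 ≤ H → ∀ (V : ℝ), 0 ≤ V →
    ∀ {κ : Type} [Fintype κ] [DecidableEq κ] {ι : Type} (S : Finset ι) (lam : ι → ℝ),
      (∀ n ∈ S, 0 ≤ lam n) →
    ∀ (T : Fin 3 → Finset ℤ) (U W : ι → ℤ → ℤ → κ → ℂ) (c : ι → ℤ → ℤ → ℂ) (F : Fin 4 → ℤ → ℂ),
      S2K S lam R κ0 V (fun n G w => frK j (j.succAbove 0) (j.succAbove 1) (j.succAbove 2)
        (T 1) (T 2) (U n) G w) (F (j.succAbove 0)) →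
      S4K S lam R κ0 V (s ^ 2) (fun n G w => frK j (j.succAbove 0) (j.succAbove 1) (j.succAbove 2)
        (T 1) (T 2) (U n) G w) (F (j.succAbove 0)) →
      S2Mix S lam R κ0 V (fun n => frCk j T (c n)) (F (j.succAbove 1)) →
      (∀ n ∈ S, ∀ w z z', ‖frCk j T (c n) (F (j.succAbove 1)) w z z'‖ ≤ H) →
      S2K S lam R κ0 V (fun n G w x y l => frK j (j.succAbove 2) (j.succAbove 0) (j.succAbove 1)
        (T 0) (T 1) (W n) G w y x l) (F (j.succAbove 2)) →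
      S4K S lam R κ0 V (s ^ 2) (fun n G w x y l => frK j (j.succAbove 2) (j.succAbove 0)
        (j.succAbove 1) (T 0) (T 1) (W n) G w y x l) (F (j.succAbove 2)) →
      (∀ y, F j y = ∑ n ∈ S, (lam n : ℂ) *
        kerF j 1 T (fun z0 z1 z2 => (∑ l, U n z1 z2 l * W n z0 z1 l) * c n z2 z0) y) →
      ∑ p ∈ R, ∑ x ∈ adm p.1 p.2, ‖Lbox (2 ^ p.1) bb F x‖ ≤
        K * (s * (1 + Real.log (H / s)) * 2 ^ (J.1 + 7) * V) := by
  obtain ⟨K, hK, κ0, hL⟩ := frozenMix24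
  refine ⟨K, hK, κ0, ?_⟩
  intro bb hbb R J hR j s H hs hs1 hH V hV κ _ _ ι S lam hlam T U W c F hU2 hU4 hb2 hbH hW2 hW4 hFj
  set S' : Finset (ι × (T 1 × κ → Bool)) := S ×ˢ univ with hS'
  set lam' : ι × (T 1 × κ → Bool) → ℝ := fun n' => lam n'.1 / Cn (T 1 × κ) with hlam'
  have hl' : ∀ n' ∈ S', 0 ≤ lam' n' := by
    intro n' hn'
    rw [hS', Finset.mem_product] at hn'
    exact div_nonneg (hlam _ hn'.1) Cn_pos.le
  have e1 := edge1_2 S lam hlam R κ0 V (sl_sA j 0) (T 1) (T 2) U _ hU2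
  have e2 := edge0_2 (κ := κ) (τ := T 1) S lam R κ0 V _ _ hb2
  have e3 := edge2_2 S lam hlam R κ0 V (sl_sA j 2) (T 0) (T 1) W _ hW2
  have e4 := edge1_4 S lam hlam R κ0 V _ (sl_sA j 0) (T 1) (T 2) U _ hU4
  have e5 := edge2_4 S lam hlam R κ0 V _ (sl_sA j 2) (T 0) (T 1) W _ hW4
  have hk : ∀ y, F j y = ∑ n' ∈ S', (lam' n' : ℂ) * atom j 1 T
      (fun x y => sg (T 1) n'.2 (fun b a l => W n'.1 a b l) y x) (sg (T 1) n'.2 (U n'.1))
      (c n'.1) y := by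
    intro y
    rw [hFj y]
    refine ker_id (κ := κ) (τ := T 1) S lam j T
      (fun n' x y => sg (T 1) n'.2 (fun b a l => W n'.1 a b l) y x)
      (fun n' => sg (T 1) n'.2 (U n'.1)) (fun n' => c n'.1)
      (fun n z0 z1 z2 => (∑ l, U n z1 z2 l * W n z0 z1 l) * c n z2 z0) ?_ y
    intro n _ z0 _ z1 hz1 z2 _
    refine Eq.trans ?_ (avg_vertex (T 1) _ _ z1 hz1 (U n) (fun b a l => W n a b l) z2 z0
      (c n z2 z0) rfl rfl)
    refine Finset.sum_congr rfl fun ω _ => ?_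
    ring
  have h := hL bb hbb R J hR j 2 s H hs hs1 hH V hV S' lam' hl' (fun _ => T)
    (fun n' x y => sg (T 1) n'.2 (fun b a l => W n'.1 a b l) y x)
    (fun n' => sg (T 1) n'.2 (U n'.1)) (fun n' => c n'.1) F e3 e1 e2 (fun _ => e5) (fun _ => e4)
    (fun h => absurd rfl h) (fun h => absurd h (by decide)) (fun h => absurd h (by decide))
    (fun _ n' hn' => hbH n'.1 (Finset.mem_product.1 hn').1) hk
  exact h

/-- labels at the vertex `2`: edges `b` (second variable) and `c` (first variable); the `S₂` edge is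
`a(z0,z1)` -/
theorem labelled24_2 : ∃ K : ℝ, 0 ≤ K ∧ ∃ κ0 : ℕ, ∀ (bb : ℤ), bb = -1 ∨ bb = -7 →
    ∀ (R : Finset (ℕ × ℤ)) (J : ℕ × ℤ), IsRegion R J →
    ∀ (j : Fin 4) (s H : ℝ), 0 < s → s ≤ 1 → 1 ≤ H → ∀ (V : ℝ), 0 ≤ V →
    ∀ {κ : Type} [Fintype κ] [DecidableEq κ] {ι : Type} (S : Finset ι) (lam : ι → ℝ),
      (∀ n ∈ S, 0 ≤ lam n) →
    ∀ (T : Fin 3 → Finset ℤ) (U W : ι → ℤ → ℤ → κ → ℂ) (a : ι → ℤ → ℤ → ℂ) (F : Fin 4 → ℤ → ℂ),
      S2K S lam R κ0 V (fun n G w => frK j (j.succAbove 1) (j.succAbove 2) (j.succAbove 0)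
        (T 2) (T 0) (U n) G w) (F (j.succAbove 1)) →
      S4K S lam R κ0 V (s ^ 2) (fun n G w => frK j (j.succAbove 1) (j.succAbove 2) (j.succAbove 0)
        (T 2) (T 0) (U n) G w) (F (j.succAbove 1)) →
      S2Mix S lam R κ0 V (fun n => frAk j T (a n)) (F (j.succAbove 2)) →
      (∀ n ∈ S, ∀ w z z', ‖frAk j T (a n) (F (j.succAbove 2)) w z z'‖ ≤ H) →
      S2K S lam R κ0 V (fun n G w x y l => frK j (j.succAbove 0) (j.succAbove 1) (j.succAbove 2)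
        (T 1) (T 2) (W n) G w y x l) (F (j.succAbove 0)) →
      S4K S lam R κ0 V (s ^ 2) (fun n G w x y l => frK j (j.succAbove 0) (j.succAbove 1)
        (j.succAbove 2) (T 1) (T 2) (W n) G w y x l) (F (j.succAbove 0)) →
      (∀ y, F j y = ∑ n ∈ S, (lam n : ℂ) *
        kerF j 1 T (fun z0 z1 z2 => (∑ l, U n z2 z0 l * W n z1 z2 l) * a n z0 z1) y) →
      ∑ p ∈ R, ∑ x ∈ adm p.1 p.2, ‖Lbox (2 ^ p.1) bb F x‖ ≤
        K * (s * (1 + Real.log (H / s)) * 2 ^ (J.1 + 7) * V) := by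
  obtain ⟨K, hK, κ0, hL⟩ := frozenMix24
  refine ⟨K, hK, κ0, ?_⟩
  intro bb hbb R J hR j s H hs hs1 hH V hV κ _ _ ι S lam hlam T U W a F hU2 hU4 hb2 hbH hW2 hW4 hFj
  set S' : Finset (ι × (T 2 × κ → Bool)) := S ×ˢ univ with hS'
  set lam' : ι × (T 2 × κ → Bool) → ℝ := fun n' => lam n'.1 / Cn (T 2 × κ) with hlam'
  have hl' : ∀ n' ∈ S', 0 ≤ lam' n' := by
    intro n' hn'
    rw [hS', Finset.mem_product] at hn'
    exact div_nonneg (hlam _ hn'.1) Cn_pos.le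
  have e1 := edge1_2 S lam hlam R κ0 V (sl_sA j 1) (T 2) (T 0) U _ hU2
  have e2 := edge0_2 (κ := κ) (τ := T 2) S lam R κ0 V _ _ hb2
  have e3 := edge2_2 S lam hlam R κ0 V (sl_sA j 0) (T 1) (T 2) W _ hW2
  have e4 := edge1_4 S lam hlam R κ0 V _ (sl_sA j 1) (T 2) (T 0) U _ hU4
  have e5 := edge2_4 S lam hlam R κ0 V _ (sl_sA j 0) (T 1) (T 2) W _ hW4
  have hk : ∀ y, F j y = ∑ n' ∈ S', (lam' n' : ℂ) * atom j 1 T (a n'.1)
      (fun x y => sg (T 2) n'.2 (fun b a l => W n'.1 a b l) y x) (sg (T 2) n'.2 (U n'.1)) y := by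
    intro y
    rw [hFj y]
    refine ker_id (κ := κ) (τ := T 2) S lam j T (fun n' => a n'.1)
      (fun n' x y => sg (T 2) n'.2 (fun b a l => W n'.1 a b l) y x)
      (fun n' => sg (T 2) n'.2 (U n'.1))
      (fun n z0 z1 z2 => (∑ l, U n z2 z0 l * W n z1 z2 l) * a n z0 z1) ?_ y
    intro n _ z0 _ z1 _ z2 hz2
    refine Eq.trans ?_ (avg_vertex (T 2) _ _ z2 hz2 (U n) (fun b a l => W n a b l) z0 z1
      (a n z0 z1) rfl rfl)
    refine Finset.sum_congr rfl fun ω _ => ?_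
    ring
  have h := hL bb hbb R J hR j 0 s H hs hs1 hH V hV S' lam' hl' (fun _ => T)
    (fun n' => a n'.1) (fun n' x y => sg (T 2) n'.2 (fun b a l => W n'.1 a b l) y x)
    (fun n' => sg (T 2) n'.2 (U n'.1)) F e2 e3 e1 (fun h => absurd rfl h) (fun _ => e5)
    (fun _ => e4) (fun _ n' hn' => hbH n'.1 (Finset.mem_product.1 hn').1)
    (fun h => absurd h (by decide)) (fun h => absurd h (by decide)) hk
  exact h

end Crest.Agent.R079.Sgn
end

-- ▼ part R079/SWc_360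

/-! R079, Step I, (S) words (helper360): **the two `S₄` costs** of the structured letter
(item (d) of the port map 973, the old `SWc`), in the form `Sgn.S2K` / `Sgn.S4K` of
`labelled24_0/_1/_2`.

`kK U z x x' = ∑_l U z x l conj (U z x' l)` is the frame of the labelled kernel `U` at the vertex
`z`.  For a function `F` with `∑_{iv p} |F|² ≤ A len p`, whose correlations are `≤ g len p` off
`d len p` shifts (`NCs`, = the conclusion of `NonCol37.noncoll_set`), and a labelled kernel with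
trace `≤ V`, leaf cost `≤ η V` (`HSk`) and diagonal `≤ Hk`:

  `S4K .. V σ ..` with `σ = 2^7 g² η + 2^14 A² d Hk + 2^8 A² Hk / 2^m0`   (killer edge),

any height of `F`.  The partner edge (Young) is the case `g = A`, `d = 0`. -/

set_option autoImplicit false
set_option linter.unusedSectionVars false

namespace Crest.Agent.R079.SWc360

open Finset Crest.Agent.R079.Grid Crest.Agent.R079.Glue Crest.Agent.R079.R244
  Crest.Agent.R079.Growth Crest.Agent.R079.Cell37 Crest.Agent.R079.CellH237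
  Crest.Agent.R079.Hank37 Crest.Agent.R079.Sgn

/-! ### Hankel kernels in `ℓ²` form -/

/-- `ℓ²` form of the Hankel bound -/
theorem hankel_l2 (Z : Finset ℤ) (k : ℤ → ℂ) (hk : ∀ z ∉ Z, k z = 0) {α β : ℤ} (hα : α ≠ 0)
    (hβ : β ≠ 0) (c : ℤ) {B : ℝ} (hB : ∀ ξ : ℝ, ‖∑ z ∈ Z, k z * ee (ξ * (z : ℝ))‖ ≤ B)
    (X Y : Finset ℤ) (f : ℤ → ℂ) :
    ∑ x ∈ X, ‖∑ y ∈ Y, f y * k (α * x + β * y + c)‖ ^ 2 ≤ B ^ 2 * ∑ y ∈ Y, ‖f y‖ ^ 2 := by
  have hB0 : 0 ≤ B := (norm_nonneg _).trans (hB 0)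
  set v : ℤ → ℂ := fun x => ∑ y ∈ Y, f y * k (α * x + β * y + c) with hv
  set S : ℝ := ∑ x ∈ X, ‖v x‖ ^ 2 with hS
  set T : ℝ := ∑ y ∈ Y, ‖f y‖ ^ 2 with hT
  have hS0 : 0 ≤ S := Finset.sum_nonneg fun _ _ => sq_nonneg _
  have hT0 : 0 ≤ T := Finset.sum_nonneg fun _ _ => sq_nonneg _
  have h := hankel_op Z X Y k (fun x => (starRingEnd ℂ) (v x)) f hα hβ c hB
  have h1 : ∀ z, (if z ∈ Z then k z else 0) = k z := by
    intro z
    split_ifs with hz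
    · rfl
    · exact (hk z hz).symm
  simp only [h1] at h
  have h2 : ∑ x ∈ X, ∑ y ∈ Y, k (α * x + β * y + c) * (starRingEnd ℂ) (v x) * f y = (S : ℂ) := by
    rw [hS]
    push_cast
    refine Finset.sum_congr rfl fun x _ => ?_
    have : ∑ y ∈ Y, k (α * x + β * y + c) * (starRingEnd ℂ) (v x) * f y =
        (starRingEnd ℂ) (v x) * v x := by
      rw [hv]
      simp only
      rw [Finset.mul_sum]
      exact Finset.sum_congr rfl fun y _ => by ring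
    rw [this, mul_comm, Complex.mul_conj, Complex.normSq_eq_norm_sq]
    push_cast
    rfl
  rw [h2] at h
  have h3 : ∑ x ∈ X, ‖(starRingEnd ℂ) (v x)‖ ^ 2 = S := by
    rw [hS]
    exact Finset.sum_congr rfl fun x _ => by rw [RCLike.norm_conj]
  rw [h3] at h
  have h4 : ‖(S : ℂ)‖ = S := by
    rw [Complex.norm_real, Real.norm_of_nonneg hS0]
  rw [h4] at h
  rcases eq_or_lt_of_le hS0 with h5 | h5
  · rw [← h5]; positivity
  · have h6 : 0 < Real.sqrt S := Real.sqrt_pos.2 h5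
    have h7 : Real.sqrt S * Real.sqrt S = S := Real.mul_self_sqrt hS0
    have h8 : Real.sqrt S ≤ B * Real.sqrt T := by
      have : Real.sqrt S * Real.sqrt S ≤ (B * Real.sqrt T) * Real.sqrt S := by
        rw [h7]; linarith [h]
      exact le_of_mul_le_mul_right this h6
    calc S = Real.sqrt S ^ 2 := by rw [sq, h7]
      _ ≤ (B * Real.sqrt T) ^ 2 := pow_le_pow_left₀ h6.le h8 2
      _ = B ^ 2 * T := by rw [mul_pow, Real.sq_sqrt hT0]

/-! ### injective sums -/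

/-- a sum along an arithmetic progression is at most the whole sum -/
theorem sum_prog_le {β : ℤ} (hβ : β ≠ 0) (c : ℤ) (Z Y : Finset ℤ) (φ : ℤ → ℝ)
    (h0 : ∀ y, 0 ≤ φ y) (hZ : ∀ y ∉ Z, φ y = 0) :
    ∑ y ∈ Y, φ (β * y + c) ≤ ∑ z ∈ Z, φ z := by
  classical
  have h1 : ∑ y ∈ Y, φ (β * y + c) = ∑ z ∈ Y.image (fun y => β * y + c), φ z := by
    rw [Finset.sum_image]
    intro x _ y _ h
    have h2 : β * x = β * y := by
      have : β * x + c = β * y + c := h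
      linarith
    exact mul_left_cancel₀ hβ h2
  rw [h1]
  have h2 : ∑ z ∈ Y.image (fun y => β * y + c), φ z ≤
      ∑ z ∈ Y.image (fun y => β * y + c) ∪ Z, φ z :=
    Finset.sum_le_sum_of_subset_of_nonneg Finset.subset_union_left fun _ _ _ => h0 _
  refine h2.trans (le_of_eq ?_)
  symm
  apply Finset.sum_subset Finset.subset_union_right
  intro x _ hx
  exact hZ x hx

/-- range sum as a sum over an interval -/
theorem sum_range_Ico {M : Type*} [AddCommMonoid M] (N : ℕ) (q : ℤ) (φ : ℤ → M) :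
    ∑ i ∈ range N, φ (q + (i : ℤ)) = ∑ z ∈ Ico q (q + N), φ z := by
  refine Finset.sum_bij (fun i _ => q + (i : ℤ)) ?_ ?_ ?_ ?_
  · intro i hi
    rw [Finset.mem_range] at hi
    rw [Finset.mem_Ico]
    omega
  · intro i _ i' _ h
    have : (i : ℤ) = i' := by linarith
    exact_mod_cast this
  · intro z hz
    rw [Finset.mem_Ico] at hz
    refine ⟨(z - q).toNat, ?_, ?_⟩
    · rw [Finset.mem_range]; omega
    · omega
  · intro i _; rfl

/-- sum over the box positions -/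
theorem sum_pos_le (N : ℕ) (Λ T : Finset ℤ) (φ : ℤ → ℝ) (h0 : ∀ z, 0 ≤ φ z)
    (hT : ∀ z ∉ T, φ z = 0) :
    ∑ q ∈ Λ, ∑ i ∈ range N, φ (q + (i : ℤ)) ≤ N * ∑ z ∈ T, φ z := by
  rw [Finset.sum_comm]
  have h1 : ∀ i ∈ range N, ∑ q ∈ Λ, φ (q + (i : ℤ)) ≤ ∑ z ∈ T, φ z := by
    intro i _
    have := sum_prog_le (β := 1) one_ne_zero (i : ℤ) T Λ φ h0 hT
    simpa only [one_mul] using this
  refine (Finset.sum_le_sum h1).trans (le_of_eq ?_)
  rw [Finset.sum_const, Finset.card_range, nsmul_eq_mul]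

/-! ### frames of labelled kernels -/

variable {κ : Type} [Fintype κ] [DecidableEq κ]

/-- labelled kernel times a line function -/
noncomputable def XU (T T' : Finset ℤ) (α γ δ : ℤ) (U : ℤ → ℤ → κ → ℂ) (G : ℤ → ℂ)
    (w z z' : ℤ) (l : κ) : ℂ :=
  if z ∈ T ∧ z' ∈ T' then U z z' l * G (α * w + γ * z + δ * z') else 0


theorem frK_swap (j k e f : Fin 4) (T T' : Finset ℤ) (W : ℤ → ℤ → κ → ℂ) (G : ℤ → ℂ) (w : ℤ) :
    (fun x y l => frK j k e f T T' W G w y x l) =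
      XU T' T (sl j - sl k) (sl f - sl k) (sl e - sl k) (fun x y l => W y x l) G w := by
  funext x y l
  unfold frK XU
  have e : (sl j - sl k) * w + (sl e - sl k) * y + (sl f - sl k) * x =
      (sl j - sl k) * w + (sl f - sl k) * x + (sl e - sl k) * y := by ring
  rw [e]
  by_cases h1 : x ∈ T' <;> by_cases h2 : y ∈ T <;> simp [h1, h2]

/-- masked labelled kernel -/
noncomputable def mU (T T' : Finset ℤ) (U : ℤ → ℤ → κ → ℂ) (z x : ℤ) (l : κ) : ℂ :=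
  if z ∈ T ∧ x ∈ T' then U z x l else 0

/-- **frame** at the vertex `z` (masked) -/
noncomputable def kK (T T' : Finset ℤ) (U : ℤ → ℤ → κ → ℂ) (z x x' : ℤ) : ℂ :=
  ∑ l, mU T T' U z x l * (starRingEnd ℂ) (mU T T' U z x' l)

/-- diagonal of the frame -/
noncomputable def kD (T T' : Finset ℤ) (U : ℤ → ℤ → κ → ℂ) (z x : ℤ) : ℝ :=
  ∑ l, ‖mU T T' U z x l‖ ^ 2

theorem kD_nonneg (T T' : Finset ℤ) (U : ℤ → ℤ → κ → ℂ) (z x : ℤ) : 0 ≤ kD T T' U z x :=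
  Finset.sum_nonneg fun _ _ => sq_nonneg _

theorem mU_zero_left {T T' : Finset ℤ} {U : ℤ → ℤ → κ → ℂ} {z x : ℤ} (h : z ∉ T) (l : κ) :
    mU T T' U z x l = 0 := by
  unfold mU
  rw [if_neg fun hh => h hh.1]

theorem mU_zero_right {T T' : Finset ℤ} {U : ℤ → ℤ → κ → ℂ} {z x : ℤ} (h : x ∉ T') (l : κ) :
    mU T T' U z x l = 0 := by
  unfold mU
  rw [if_neg fun hh => h hh.2]

theorem kK_zero {T T' : Finset ℤ} {U : ℤ → ℤ → κ → ℂ} {z : ℤ} (h : z ∉ T) (x x' : ℤ) :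
    kK T T' U z x x' = 0 := by
  unfold kK
  exact Finset.sum_eq_zero fun l _ => by rw [mU_zero_left h, zero_mul]

theorem kD_zero_left {T T' : Finset ℤ} {U : ℤ → ℤ → κ → ℂ} {z : ℤ} (h : z ∉ T) (x : ℤ) :
    kD T T' U z x = 0 := by
  unfold kD
  exact Finset.sum_eq_zero fun l _ => by rw [mU_zero_left h]; simp

theorem kD_zero_right {T T' : Finset ℤ} {U : ℤ → ℤ → κ → ℂ} {z x : ℤ} (h : x ∉ T') :
    kD T T' U z x = 0 := by
  unfold kD
  exact Finset.sum_eq_zero fun l _ => by rw [mU_zero_right h]; simp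

/-- Cauchy-Schwarz for the frame -/
theorem kK_le (T T' : Finset ℤ) (U : ℤ → ℤ → κ → ℂ) (z x x' : ℤ) :
    ‖kK T T' U z x x'‖ ^ 2 ≤ kD T T' U z x * kD T T' U z x' := by
  unfold kK kD
  have h1 : ‖∑ l, mU T T' U z x l * (starRingEnd ℂ) (mU T T' U z x' l)‖ ≤
      ∑ l, ‖mU T T' U z x l‖ * ‖mU T T' U z x' l‖ := by
    refine (norm_sum_le _ _).trans (Finset.sum_le_sum fun l _ => ?_)
    rw [norm_mul, RCLike.norm_conj]
  refine (pow_le_pow_left₀ (norm_nonneg _) h1 2).trans ?_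
  exact Finset.sum_mul_sq_le_sq_mul_sq _ _ _

theorem XU_eq (T T' : Finset ℤ) (α γ δ : ℤ) (U : ℤ → ℤ → κ → ℂ) (G : ℤ → ℂ) (w z z' : ℤ) (l : κ) :
    XU T T' α γ δ U G w z z' l = mU T T' U z z' l * G (α * w + γ * z + δ * z') := by
  unfold XU mU
  split_ifs <;> simp

theorem sum_XU (T T' : Finset ℤ) (α γ δ : ℤ) (U : ℤ → ℤ → κ → ℂ) (G : ℤ → ℂ) (w z x x' : ℤ) :
    ∑ l, XU T T' α γ δ U G w z x l * (starRingEnd ℂ) (XU T T' α γ δ U G w z x' l) =
      kK T T' U z x x' * (G (α * w + γ * z + δ * x) *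
        (starRingEnd ℂ) (G (α * w + γ * z + δ * x'))) := by
  unfold kK
  rw [Finset.sum_mul]
  refine Finset.sum_congr rfl fun l _ => ?_
  rw [XU_eq, XU_eq, map_mul]
  ring

theorem sum_XU_sq (T T' : Finset ℤ) (α γ δ : ℤ) (U : ℤ → ℤ → κ → ℂ) (G : ℤ → ℂ) (w z x : ℤ) :
    ∑ l, ‖XU T T' α γ δ U G w z x l‖ ^ 2 =
      kD T T' U z x * ‖G (α * w + γ * z + δ * x)‖ ^ 2 := by
  unfold kD
  rw [Finset.sum_mul]
  refine Finset.sum_congr rfl fun l _ => ?_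
  rw [XU_eq, norm_mul, mul_pow]

/-- `res` and `cr` -/
theorem res_mul (q : Nd) (F : Fn) (y h : ℤ) :
    res q F y * (starRingEnd ℂ) (res q F (y - h)) = cr q F h y := by
  unfold res cr iv
  by_cases h1 : y ∈ dI (q.1 + 7) q.2 <;> by_cases h2 : y - h ∈ dI (q.1 + 7) q.2 <;> simp [h1, h2]

theorem cr_zero (q : Nd) (F : Fn) (h y : ℤ) (hy : y ∉ iv q) : cr q F h y = 0 := by
  unfold cr
  rw [if_neg fun hh => hy hh.1]

/-- trivial bound of the correlation -/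
theorem acor_le (q : Nd) (F : Fn) (h : ℤ) (ξ : ℝ) :
    ‖acor q F h ξ‖ ≤ ∑ y ∈ iv q, ‖F y‖ ^ 2 := by
  unfold acor
  have h1 : ‖∑ y ∈ iv q, cr q F h y * ee (ξ * (y : ℝ))‖ ≤ ∑ y ∈ iv q, ‖cr q F h y‖ := by
    refine (norm_sum_le _ _).trans (Finset.sum_le_sum fun y _ => ?_)
    rw [norm_mul, norm_ee, mul_one]
  refine h1.trans ?_
  set a : ℤ → ℝ := fun y => if y ∈ iv q then ‖F y‖ ^ 2 else 0 with ha
  have h2 : ∀ y ∈ iv q, ‖cr q F h y‖ ≤ (a y + a (y - h)) / 2 := by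
    intro y hy
    unfold cr
    by_cases h3 : y ∈ iv q ∧ y - h ∈ iv q
    · rw [if_pos h3, norm_mul, RCLike.norm_conj]
      simp only [ha, if_pos h3.1, if_pos h3.2]
      nlinarith [sq_nonneg (‖F y‖ - ‖F (y - h)‖)]
    · rw [if_neg h3, norm_zero]
      simp only [ha]
      split_ifs <;> positivity
  refine (Finset.sum_le_sum h2).trans ?_
  rw [← Finset.sum_div, Finset.sum_add_distrib]
  have h4 : ∑ y ∈ iv q, a y = ∑ y ∈ iv q, ‖F y‖ ^ 2 :=
    Finset.sum_congr rfl fun y hy => by simp only [ha, if_pos hy]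
  have h5 : ∑ y ∈ iv q, a (y - h) ≤ ∑ y ∈ iv q, a y := by
    have := sum_prog_le (β := 1) one_ne_zero (-h) (iv q) (iv q) a
      (fun y => by simp only [ha]; split_ifs <;> positivity)
      (fun y hy => by simp only [ha, if_neg hy])
    simpa only [one_mul, ← sub_eq_add_neg] using this
  linarith

/-! ### one node, one kernel -/

section node

variable (T T' : Finset ℤ) (α γ δ : ℤ) (U : ℤ → ℤ → κ → ℂ) (q : Nd) (F : Fn)

/-- `S₄` part: sum over the frozen variable and the first box position -/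
theorem e4_core (hα : α ≠ 0) (hγ : γ ≠ 0) (M : ℤ → ℝ)
    (hM : ∀ h : ℤ, ∀ ξ : ℝ, ‖acor q F h ξ‖ ≤ M h) (N : ℕ) (Λ1 Λ2 : Finset ℤ) (x x' : ℤ) :
    ∑ w ∈ Λ1, ∑ q0 ∈ Λ2, ‖∑ i ∈ range N, ∑ l,
      XU T T' α γ δ U (res q F) w (q0 + (i : ℤ)) x l *
        (starRingEnd ℂ) (XU T T' α γ δ U (res q F) w (q0 + (i : ℤ)) x' l)‖ ^ 2 ≤
      M (δ * x - δ * x') ^ 2 * (N * ∑ z ∈ T, ‖kK T T' U z x x'‖ ^ 2) := by
  set h : ℤ := δ * x - δ * x' with hh
  rw [Finset.sum_comm]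
  have h1 : ∀ q0 ∈ Λ2, ∑ w ∈ Λ1, ‖∑ i ∈ range N, ∑ l,
      XU T T' α γ δ U (res q F) w (q0 + (i : ℤ)) x l *
        (starRingEnd ℂ) (XU T T' α γ δ U (res q F) w (q0 + (i : ℤ)) x' l)‖ ^ 2 ≤
      M h ^ 2 * ∑ i ∈ range N, ‖kK T T' U (q0 + (i : ℤ)) x x'‖ ^ 2 := by
    intro q0 _
    have h2 : ∀ w ∈ Λ1, ∑ i ∈ range N, ∑ l,
      XU T T' α γ δ U (res q F) w (q0 + (i : ℤ)) x l *
        (starRingEnd ℂ) (XU T T' α γ δ U (res q F) w (q0 + (i : ℤ)) x' l) =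
        ∑ z ∈ Ico q0 (q0 + N), kK T T' U z x x' * cr q F h (α * w + γ * z + δ * x) := by
      intro w _
      rw [← sum_range_Ico N q0 (fun z => kK T T' U z x x' * cr q F h (α * w + γ * z + δ * x))]
      refine Finset.sum_congr rfl fun i _ => ?_
      rw [sum_XU, ← res_mul]
      have e : α * w + γ * (q0 + (i : ℤ)) + δ * x - h = α * w + γ * (q0 + (i : ℤ)) + δ * x' := by
        rw [hh]; ring
      rw [e]
    rw [Finset.sum_congr rfl fun w hw => by rw [h2 w hw]]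
    have h3 := hankel_l2 (iv q) (cr q F h) (cr_zero q F h) hα hγ (δ * x) (hM h) Λ1
      (Ico q0 (q0 + N)) (fun z => kK T T' U z x x')
    rw [← sum_range_Ico N q0 (fun z => ‖kK T T' U z x x'‖ ^ 2)] at h3
    exact h3
  refine (Finset.sum_le_sum h1).trans ?_
  rw [← Finset.mul_sum]
  refine mul_le_mul_of_nonneg_left ?_ (sq_nonneg _)
  exact sum_pos_le N Λ2 T (fun z => ‖kK T T' U z x x'‖ ^ 2) (fun _ => sq_nonneg _)
    (fun z hz => by rw [kK_zero hz]; simp)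

/-- projections of a finite set of triples -/
theorem sum_prod_le (Λ : Finset (ℤ × ℤ × ℤ)) (Φ : ℤ → ℤ → ℤ → ℝ) (h0 : ∀ a b c, 0 ≤ Φ a b c) :
    ∑ t ∈ Λ, Φ t.1 t.2.1 t.2.2 ≤
      ∑ r ∈ Λ.image (fun t => t.2.2), ∑ w ∈ Λ.image (fun t => t.1),
        ∑ q0 ∈ Λ.image (fun t => t.2.1), Φ w q0 r := by
  have h1 : ∑ r ∈ Λ.image (fun t => t.2.2), ∑ w ∈ Λ.image (fun t => t.1),
        ∑ q0 ∈ Λ.image (fun t => t.2.1), Φ w q0 r =
      ∑ t ∈ (Λ.image (fun t => t.1)) ×ˢ ((Λ.image (fun t => t.2.1)) ×ˢ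
        (Λ.image (fun t => t.2.2))), Φ t.1 t.2.1 t.2.2 := by
    rw [Finset.sum_product]
    simp only [Finset.sum_product]
    rw [Finset.sum_comm]
    refine Finset.sum_congr rfl fun w _ => ?_
    rw [Finset.sum_comm]
  rw [h1]
  refine Finset.sum_le_sum_of_subset_of_nonneg ?_ fun t _ _ => h0 _ _ _
  intro t ht
  rw [Finset.mem_product, Finset.mem_product]
  exact ⟨Finset.mem_image_of_mem _ ht, Finset.mem_image_of_mem _ ht, Finset.mem_image_of_mem _ ht⟩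

/-- **`S₄` cost of one kernel at one node** -/
theorem e4_node (hα : α ≠ 0) (hγ : γ ≠ 0) (M : ℤ → ℝ)
    (hM : ∀ h : ℤ, ∀ ξ : ℝ, ‖acor q F h ξ‖ ≤ M h) (N : ℕ) (hN : 0 < N)
    (Λ : Finset (ℤ × ℤ × ℤ)) :
    ∑ t ∈ Λ, e4K (XU T T' α γ δ U (res q F) t.1) N t.2.1 t.2.2 ≤
      (1 / (N : ℝ) ^ 3) * ∑ r ∈ Λ.image (fun t => t.2.2), ∑ j ∈ range N, ∑ j' ∈ range N,
        M (δ * (r + (j : ℤ)) - δ * (r + (j' : ℤ))) ^ 2 *
          ∑ z ∈ T, ‖kK T T' U z (r + (j : ℤ)) (r + (j' : ℤ))‖ ^ 2 := by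
  have hN' : (0 : ℝ) < N := by exact_mod_cast hN
  refine (sum_prod_le Λ (fun w q0 r => e4K (XU T T' α γ δ U (res q F) w) N q0 r)
    (fun a b c => by unfold e4K; positivity)).trans ?_
  rw [Finset.mul_sum]
  refine Finset.sum_le_sum fun r _ => ?_
  unfold e4K
  simp only [← Finset.mul_sum]
  have e1 : (1 : ℝ) / (N : ℝ) ^ 3 = (1 / (N : ℝ) ^ 4) * N := by field_simp
  rw [e1, mul_assoc]
  refine mul_le_mul_of_nonneg_left ?_ (by positivity)
  have h1 : ∑ w ∈ Λ.image (fun t => t.1), ∑ q0 ∈ Λ.image (fun t => t.2.1),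
      ∑ j ∈ range N, ∑ j' ∈ range N, ‖∑ i ∈ range N, ∑ l,
        XU T T' α γ δ U (res q F) w (q0 + (i : ℤ)) (r + (j : ℤ)) l *
          (starRingEnd ℂ) (XU T T' α γ δ U (res q F) w (q0 + (i : ℤ)) (r + (j' : ℤ)) l)‖ ^ 2 =
      ∑ j ∈ range N, ∑ j' ∈ range N, ∑ w ∈ Λ.image (fun t => t.1),
        ∑ q0 ∈ Λ.image (fun t => t.2.1), ‖∑ i ∈ range N, ∑ l,
        XU T T' α γ δ U (res q F) w (q0 + (i : ℤ)) (r + (j : ℤ)) l *
          (starRingEnd ℂ) (XU T T' α γ δ U (res q F) w (q0 + (i : ℤ)) (r + (j' : ℤ)) l)‖ ^ 2 := by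
    simp only [Finset.sum_comm (s := Λ.image (fun t => t.2.1)) (t := range N)]
    simp only [Finset.sum_comm (s := Λ.image (fun t => t.1)) (t := range N)]
  rw [h1, Finset.mul_sum]
  refine Finset.sum_le_sum fun j _ => ?_
  rw [Finset.mul_sum]
  refine Finset.sum_le_sum fun j' _ => ?_
  refine (e4_core T T' α γ δ U q F hα hγ M hM N _ _ _ _).trans (le_of_eq ?_)
  ring

/-- **diagonal error of one kernel at one node** -/
theorem dg_node (hα : α ≠ 0) (hδ : δ ≠ 0) {B Hk : ℝ} (hB : ∑ y ∈ iv q, ‖F y‖ ^ 2 ≤ B)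
    (hHk : ∀ z x, kD T T' U z x ≤ Hk) (N : ℕ) (hN : 0 < N) (Λ : Finset (ℤ × ℤ × ℤ)) :
    ∑ t ∈ Λ, dgK (XU T T' α γ δ U (res q F) t.1) N t.2.1 t.2.2 ≤
      (1 / (N : ℝ) ^ 2) * (Hk * B ^ 2 * ∑ z ∈ T, ∑ x ∈ T', kD T T' U z x) := by
  have hN' : (0 : ℝ) < N := by exact_mod_cast hN
  have hB0 : 0 ≤ B := (Finset.sum_nonneg fun _ _ => sq_nonneg _).trans hB
  have hHk0 : 0 ≤ Hk := (kD_nonneg T T' U 0 0).trans (hHk 0 0)
  have hres : ∀ (β c : ℤ), β ≠ 0 → ∀ Y : Finset ℤ,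
      ∑ y ∈ Y, ‖res q F (β * y + c)‖ ^ 2 ≤ B := by
    intro β c hβ Y
    have h1 := sum_prog_le hβ c (iv q) Y (fun y => ‖res q F y‖ ^ 2) (fun _ => sq_nonneg _)
      (fun y hy => by
        unfold res
        unfold iv at hy
        rw [if_neg hy]; simp)
    refine h1.trans (le_trans (le_of_eq ?_) hB)
    refine Finset.sum_congr rfl fun y hy => ?_
    unfold res
    unfold iv at hy
    rw [if_pos hy]
  refine (sum_prod_le Λ (fun w q0 r => dgK (XU T T' α γ δ U (res q F) w) N q0 r)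
    (fun a b c => by unfold dgK; positivity)).trans ?_
  unfold dgK
  simp only [sum_XU_sq, ← Finset.mul_sum]
  have e1 : (1 : ℝ) / (N : ℝ) ^ 2 = (1 / (N : ℝ) ^ 4) * (N * N) := by field_simp
  rw [e1, mul_assoc]
  refine mul_le_mul_of_nonneg_left ?_ (by positivity)
  -- the summand
  set G : ℤ → ℝ := fun y => ‖res q F y‖ ^ 2 with hG
  have hG0 : ∀ y, 0 ≤ G y := fun y => sq_nonneg _
  have h1 : ∀ r w q0 : ℤ, ∑ j ∈ range N, ∑ j' ∈ range N, ∑ i ∈ range N,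
      kD T T' U (q0 + (i : ℤ)) (r + (j : ℤ)) * G (α * w + γ * (q0 + (i : ℤ)) + δ * (r + (j : ℤ))) *
        (kD T T' U (q0 + (i : ℤ)) (r + (j' : ℤ)) *
          G (α * w + γ * (q0 + (i : ℤ)) + δ * (r + (j' : ℤ)))) ≤
      Hk * B * ∑ j ∈ range N, ∑ i ∈ range N, kD T T' U (q0 + (i : ℤ)) (r + (j : ℤ)) *
        G (α * w + γ * (q0 + (i : ℤ)) + δ * (r + (j : ℤ))) := by
    intro r w q0
    rw [Finset.mul_sum]
    refine Finset.sum_le_sum fun j _ => ?_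
    rw [Finset.sum_comm, Finset.mul_sum]
    refine Finset.sum_le_sum fun i _ => ?_
    rw [← Finset.mul_sum, mul_comm]
    refine mul_le_mul_of_nonneg_right ?_ (mul_nonneg (kD_nonneg _ _ _ _ _) (hG0 _))
    have h2 : ∑ j' ∈ range N, kD T T' U (q0 + (i : ℤ)) (r + (j' : ℤ)) *
        G (α * w + γ * (q0 + (i : ℤ)) + δ * (r + (j' : ℤ))) ≤
        Hk * ∑ j' ∈ range N, G (α * w + γ * (q0 + (i : ℤ)) + δ * (r + (j' : ℤ))) := by
      rw [Finset.mul_sum]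
      exact Finset.sum_le_sum fun j' _ => mul_le_mul_of_nonneg_right (hHk _ _) (hG0 _)
    refine h2.trans (mul_le_mul_of_nonneg_left ?_ hHk0)
    have h3 := hres δ (α * w + γ * (q0 + (i : ℤ))) hδ (Ico r (r + N))
    rw [← sum_range_Ico N r (fun y => ‖res q F (δ * y + (α * w + γ * (q0 + (i : ℤ))))‖ ^ 2)] at h3
    refine le_trans (le_of_eq (Finset.sum_congr rfl fun j' _ => ?_)) h3
    simp only [hG]
    have e : α * w + γ * (q0 + (i : ℤ)) + δ * (r + (j' : ℤ)) =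
      δ * (r + (j' : ℤ)) + (α * w + γ * (q0 + (i : ℤ))) := by ring
    rw [e]
  refine (Finset.sum_le_sum fun r _ => Finset.sum_le_sum fun w _ => Finset.sum_le_sum
    fun q0 _ => h1 r w q0).trans ?_
  -- sum over w
  have h4 : ∀ r q0 : ℤ, ∑ w ∈ Λ.image (fun t => t.1), ∑ j ∈ range N, ∑ i ∈ range N,
      kD T T' U (q0 + (i : ℤ)) (r + (j : ℤ)) *
        G (α * w + γ * (q0 + (i : ℤ)) + δ * (r + (j : ℤ))) ≤
      B * ∑ j ∈ range N, ∑ i ∈ range N, kD T T' U (q0 + (i : ℤ)) (r + (j : ℤ)) := by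
    intro r q0
    rw [Finset.sum_comm, Finset.mul_sum]
    refine Finset.sum_le_sum fun j _ => ?_
    rw [Finset.sum_comm, Finset.mul_sum]
    refine Finset.sum_le_sum fun i _ => ?_
    rw [← Finset.mul_sum, mul_comm]
    refine mul_le_mul_of_nonneg_right ?_ (kD_nonneg _ _ _ _ _)
    have h3 := hres α (γ * (q0 + (i : ℤ)) + δ * (r + (j : ℤ))) hα (Λ.image (fun t => t.1))
    refine le_trans (le_of_eq (Finset.sum_congr rfl fun w _ => ?_)) h3
    simp only [hG]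
    have e : α * w + γ * (q0 + (i : ℤ)) + δ * (r + (j : ℤ)) =
      α * w + (γ * (q0 + (i : ℤ)) + δ * (r + (j : ℤ))) := by ring
    rw [e]
  have h5 : ∑ r ∈ Λ.image (fun t => t.2.2), ∑ w ∈ Λ.image (fun t => t.1),
      ∑ q0 ∈ Λ.image (fun t => t.2.1), Hk * B * ∑ j ∈ range N, ∑ i ∈ range N,
        kD T T' U (q0 + (i : ℤ)) (r + (j : ℤ)) *
        G (α * w + γ * (q0 + (i : ℤ)) + δ * (r + (j : ℤ))) ≤
      Hk * B * (B * ∑ r ∈ Λ.image (fun t => t.2.2), ∑ q0 ∈ Λ.image (fun t => t.2.1),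
        ∑ j ∈ range N, ∑ i ∈ range N, kD T T' U (q0 + (i : ℤ)) (r + (j : ℤ))) := by
    simp only [← Finset.mul_sum]
    refine mul_le_mul_of_nonneg_left ?_ (mul_nonneg hHk0 hB0)
    rw [Finset.mul_sum]
    refine Finset.sum_le_sum fun r _ => ?_
    rw [Finset.sum_comm, Finset.mul_sum]
    exact Finset.sum_le_sum fun q0 _ => h4 r q0
  refine h5.trans ?_
  have h6 : ∑ r ∈ Λ.image (fun t => t.2.2), ∑ q0 ∈ Λ.image (fun t => t.2.1),
        ∑ j ∈ range N, ∑ i ∈ range N, kD T T' U (q0 + (i : ℤ)) (r + (j : ℤ)) ≤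
      N * (N * ∑ z ∈ T, ∑ x ∈ T', kD T T' U z x) := by
    have h7 : ∀ r ∈ Λ.image (fun t => t.2.2), ∑ q0 ∈ Λ.image (fun t => t.2.1),
        ∑ j ∈ range N, ∑ i ∈ range N, kD T T' U (q0 + (i : ℤ)) (r + (j : ℤ)) ≤
        ∑ j ∈ range N, N * ∑ z ∈ T, kD T T' U z (r + (j : ℤ)) := by
      intro r _
      rw [Finset.sum_comm]
      refine Finset.sum_le_sum fun j _ => ?_
      exact sum_pos_le N _ T (fun z => kD T T' U z (r + (j : ℤ)))
        (fun z => kD_nonneg _ _ _ _ _) (fun z hz => kD_zero_left hz _)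
    refine (Finset.sum_le_sum h7).trans ?_
    simp only [← Finset.mul_sum]
    refine mul_le_mul_of_nonneg_left ?_ hN'.le
    have h8 := sum_pos_le N (Λ.image (fun t => t.2.2)) T' (fun x => ∑ z ∈ T, kD T T' U z x)
      (fun x => Finset.sum_nonneg fun z _ => kD_nonneg _ _ _ _ _)
      (fun x hx => Finset.sum_eq_zero fun z _ => kD_zero_right hx)
    refine h8.trans (le_of_eq ?_)
    rw [Finset.sum_comm]
  calc Hk * B * (B * ∑ r ∈ Λ.image (fun t => t.2.2), ∑ q0 ∈ Λ.image (fun t => t.2.1),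
        ∑ j ∈ range N, ∑ i ∈ range N, kD T T' U (q0 + (i : ℤ)) (r + (j : ℤ)))
      ≤ Hk * B * (B * (N * (N * ∑ z ∈ T, ∑ x ∈ T', kD T T' U z x))) := by gcongr
    _ = N * N * (Hk * B ^ 2 * ∑ z ∈ T, ∑ x ∈ T', kD T T' U z x) := by ring

end node

/-! ### hypotheses -/

/-- correlations `≤ g len p` off `d len p` shifts (the conclusion of `NonCol37.noncoll_set`) -/
def NCs (p : Nd) (g d : ℝ) (F : Fn) : Prop :=
  ∃ Bad : Finset ℤ, (Bad.card : ℝ) ≤ d * len p ∧ ∀ h ∉ Bad, ∀ ξ : ℝ, ‖acor p F h ξ‖ ≤ g * len p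

/-- everybody is `NCs` with `g = A`, `d = 0` (Young) -/
theorem ncs_of_l2 {p : Nd} {A : ℝ} {F : Fn} (h : ∑ y ∈ iv p, ‖F y‖ ^ 2 ≤ A * len p) :
    NCs p A 0 F :=
  ⟨∅, by simp, fun s _ ξ => (acor_le p F s ξ).trans h⟩

variable {ι : Type}

/-- leaf cost of the frames: box averages of `|k|²` -/
def HSk (S : Finset ι) (lam : ι → ℝ) (R : Finset (ℕ × ℤ)) (κ0 : ℕ) (B : ℝ) (T T' : Finset ℤ)
    (U : ι → ℤ → ℤ → κ → ℂ) : Prop :=
  ∀ p ∈ R, ∀ k : ℕ, k ≤ κ0 → ∀ Λ : Finset ℤ,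
    ∑ n ∈ S, lam n * ∑ r ∈ Λ, ∑ z ∈ T, (1 / ((2 ^ (p.1 + k) : ℕ) : ℝ) ^ 2) *
      ∑ j ∈ range (2 ^ (p.1 + k)), ∑ j' ∈ range (2 ^ (p.1 + k)),
        ‖kK T T' (U n) z (r + (j : ℤ)) (r + (j' : ℤ))‖ ^ 2 ≤ B

/-- number of partners at a bad shift -/
theorem count_bad {δ : ℤ} (hδ : δ ≠ 0) (Bad : Finset ℤ) (c r : ℤ) (N : ℕ) :
    ∑ j' ∈ range N, (if c - δ * (r + (j' : ℤ)) ∈ Bad then (1 : ℝ) else 0) ≤ Bad.card := by
  classical
  have h1 := sum_prog_le (β := -δ) (neg_ne_zero.2 hδ) c Bad (Ico r (r + N))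
    (fun y => if y ∈ Bad then (1 : ℝ) else 0) (fun y => by split_ifs <;> norm_num)
    (fun y hy => by rw [if_neg hy])
  rw [← sum_range_Ico N r (fun y => if -δ * y + c ∈ Bad then (1 : ℝ) else 0)] at h1
  have h2 : ∑ z ∈ Bad, (if z ∈ Bad then (1 : ℝ) else 0) = Bad.card := by
    rw [Finset.sum_congr rfl fun z hz => if_pos hz]
    simp
  rw [h2] at h1
  refine le_trans (le_of_eq (Finset.sum_congr rfl fun j' _ => ?_)) h1
  have e : c - δ * (r + (j' : ℤ)) = -δ * (r + (j' : ℤ)) + c := by ring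
  rw [e]

/-- **`S₄` cost of one kernel at one node, good and bad shifts** -/
theorem e4_good_bad (T T' : Finset ℤ) (α γ δ : ℤ) (U : ℤ → ℤ → κ → ℂ) (p : Nd) (F : Fn)
    (hα : α ≠ 0) (hγ : γ ≠ 0) (hδ : δ ≠ 0) {A g d Hk : ℝ} (_hg : 0 ≤ g)
    (hA : ∑ y ∈ iv p, ‖F y‖ ^ 2 ≤ A * len p) (hNC : NCs p g d F)
    (hHk : ∀ z x, kD T T' U z x ≤ Hk) (N : ℕ) (hN : 0 < N) (Λ : Finset (ℤ × ℤ × ℤ)) :
    ∑ t ∈ Λ, e4K (XU T T' α γ δ U (res p F) t.1) N t.2.1 t.2.2 ≤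
      (1 / (N : ℝ) ^ 3) * ((g * len p) ^ 2 * ∑ r ∈ Λ.image (fun t => t.2.2), ∑ z ∈ T,
        ∑ j ∈ range N, ∑ j' ∈ range N, ‖kK T T' U z (r + (j : ℤ)) (r + (j' : ℤ))‖ ^ 2) +
      (1 / (N : ℝ) ^ 2) * ((A * len p) ^ 2 * (d * len p * Hk *
        ∑ z ∈ T, ∑ x ∈ T', kD T T' U z x)) := by
  classical
  have hN' : (0 : ℝ) < N := by exact_mod_cast hN
  obtain ⟨Bad, hBc, hBad⟩ := hNC
  have hl : 0 < len p := QVar181.len_pos' p
  have hAl : 0 ≤ A * len p := (Finset.sum_nonneg fun _ _ => sq_nonneg _).trans hA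
  have hHk0 : 0 ≤ Hk := (kD_nonneg T T' U 0 0).trans (hHk 0 0)
  have hM : ∀ h : ℤ, ∀ ξ : ℝ, ‖acor p F h ξ‖ ≤ if h ∈ Bad then A * len p else g * len p := by
    intro h ξ
    split_ifs with hh
    · exact (acor_le p F h ξ).trans hA
    · exact hBad h hh ξ
  refine (e4_node T T' α γ δ U p F hα hγ _ hM N hN Λ).trans ?_
  set P : Finset ℤ := Λ.image (fun t => t.2.2) with hP
  set K2 : ℤ → ℤ → ℝ := fun x x' => ∑ z ∈ T, ‖kK T T' U z x x'‖ ^ 2 with hK2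
  have hK20 : ∀ x x', 0 ≤ K2 x x' := fun x x' => Finset.sum_nonneg fun _ _ => sq_nonneg _
  have h1 : ∀ r j j' : ℤ, (if δ * (r + j) - δ * (r + j') ∈ Bad then A * len p
      else g * len p) ^ 2 * K2 (r + j) (r + j') ≤
      (g * len p) ^ 2 * K2 (r + j) (r + j') +
        (A * len p) ^ 2 * ((if δ * (r + j) - δ * (r + j') ∈ Bad then (1 : ℝ) else 0) *
          K2 (r + j) (r + j')) := by
    intro r j j'
    have h0 := hK20 (r + j) (r + j')
    split_ifs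
    · have : 0 ≤ (g * len p) ^ 2 * K2 (r + j) (r + j') := by positivity
      linarith
    · have : (g * len p) ^ 2 * K2 (r + j) (r + j') +
        (A * len p) ^ 2 * (0 * K2 (r + j) (r + j')) = (g * len p) ^ 2 * K2 (r + j) (r + j') := by
        ring
      rw [this]
  have h2 : ∑ r ∈ P, ∑ j ∈ range N, ∑ j' ∈ range N,
      (if δ * (r + (j : ℤ)) - δ * (r + (j' : ℤ)) ∈ Bad then A * len p else g * len p) ^ 2 *
        K2 (r + (j : ℤ)) (r + (j' : ℤ)) ≤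
      (g * len p) ^ 2 * ∑ r ∈ P, ∑ j ∈ range N, ∑ j' ∈ range N, K2 (r + (j : ℤ)) (r + (j' : ℤ)) +
      (A * len p) ^ 2 * ∑ r ∈ P, ∑ j ∈ range N, ∑ j' ∈ range N,
        ((if δ * (r + (j : ℤ)) - δ * (r + (j' : ℤ)) ∈ Bad then (1 : ℝ) else 0) *
          K2 (r + (j : ℤ)) (r + (j' : ℤ))) := by
    simp only [Finset.mul_sum, ← Finset.sum_add_distrib]
    refine Finset.sum_le_sum fun r _ => Finset.sum_le_sum fun j _ => Finset.sum_le_sum
      fun j' _ => ?_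
    have := h1 r j j'
    simpa only [Finset.mul_sum] using this
  have h3 : ∑ r ∈ P, ∑ j ∈ range N, ∑ j' ∈ range N, K2 (r + (j : ℤ)) (r + (j' : ℤ)) =
      ∑ r ∈ P, ∑ z ∈ T, ∑ j ∈ range N, ∑ j' ∈ range N,
        ‖kK T T' U z (r + (j : ℤ)) (r + (j' : ℤ))‖ ^ 2 := by
    refine Finset.sum_congr rfl fun r _ => ?_
    simp only [hK2]
    rw [Finset.sum_comm (s := T)]
    refine Finset.sum_congr rfl fun j _ => ?_
    rw [Finset.sum_comm (s := T)]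
  have h4 : ∑ r ∈ P, ∑ j ∈ range N, ∑ j' ∈ range N,
        ((if δ * (r + (j : ℤ)) - δ * (r + (j' : ℤ)) ∈ Bad then (1 : ℝ) else 0) *
          K2 (r + (j : ℤ)) (r + (j' : ℤ))) ≤
      N * (d * len p * Hk * ∑ z ∈ T, ∑ x ∈ T', kD T T' U z x) := by
    have h5 : ∀ r j : ℤ, ∑ j' ∈ range N,
        ((if δ * (r + j) - δ * (r + (j' : ℤ)) ∈ Bad then (1 : ℝ) else 0) *
          K2 (r + j) (r + (j' : ℤ))) ≤ (d * len p * Hk) * ∑ z ∈ T, kD T T' U z (r + j) := by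
      intro r j
      have h6 : ∀ j' ∈ range N, ((if δ * (r + j) - δ * (r + (j' : ℤ)) ∈ Bad then (1 : ℝ) else 0) *
          K2 (r + j) (r + (j' : ℤ))) ≤
          (if δ * (r + j) - δ * (r + (j' : ℤ)) ∈ Bad then (1 : ℝ) else 0) *
            (Hk * ∑ z ∈ T, kD T T' U z (r + j)) := by
        intro j' _
        refine mul_le_mul_of_nonneg_left ?_ (by split_ifs <;> norm_num)
        simp only [hK2]
        rw [Finset.mul_sum]
        refine Finset.sum_le_sum fun z _ => ?_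
        refine (kK_le T T' U z _ _).trans ?_
        rw [mul_comm]
        exact mul_le_mul_of_nonneg_right (hHk _ _) (kD_nonneg _ _ _ _ _)
      refine (Finset.sum_le_sum h6).trans ?_
      rw [← Finset.sum_mul]
      have h7 := count_bad hδ Bad (δ * (r + j)) r N
      have h8 : 0 ≤ Hk * ∑ z ∈ T, kD T T' U z (r + j) :=
        mul_nonneg hHk0 (Finset.sum_nonneg fun z _ => kD_nonneg _ _ _ _ _)
      calc _ ≤ (d * len p) * (Hk * ∑ z ∈ T, kD T T' U z (r + j)) :=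
            mul_le_mul_of_nonneg_right (h7.trans hBc) h8
        _ = _ := by ring
    have h9 : ∑ r ∈ P, ∑ j ∈ range N, ∑ j' ∈ range N,
        ((if δ * (r + (j : ℤ)) - δ * (r + (j' : ℤ)) ∈ Bad then (1 : ℝ) else 0) *
          K2 (r + (j : ℤ)) (r + (j' : ℤ))) ≤
        (d * len p * Hk) * ∑ r ∈ P, ∑ j ∈ range N, ∑ z ∈ T, kD T T' U z (r + (j : ℤ)) := by
      rw [Finset.mul_sum]
      refine Finset.sum_le_sum fun r _ => ?_
      rw [Finset.mul_sum]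
      exact Finset.sum_le_sum fun j _ => h5 r j
    refine h9.trans ?_
    have hd0 : 0 ≤ d * len p := (Nat.cast_nonneg _).trans hBc
    have h10 := sum_pos_le N P T' (fun x => ∑ z ∈ T, kD T T' U z x)
      (fun x => Finset.sum_nonneg fun z _ => kD_nonneg _ _ _ _ _)
      (fun x hx => Finset.sum_eq_zero fun z _ => kD_zero_right hx)
    rw [Finset.sum_comm (s := T') (t := T)] at h10
    calc (d * len p * Hk) * ∑ r ∈ P, ∑ j ∈ range N, ∑ z ∈ T, kD T T' U z (r + (j : ℤ))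
        ≤ (d * len p * Hk) * (N * ∑ z ∈ T, ∑ x ∈ T', kD T T' U z x) :=
          mul_le_mul_of_nonneg_left h10 (mul_nonneg hd0 hHk0)
      _ = _ := by ring
  have h11 := h2.trans (add_le_add le_rfl (mul_le_mul_of_nonneg_left h4 (sq_nonneg (A * len p))))
  rw [h3] at h11
  calc (1 / (N : ℝ) ^ 3) * ∑ r ∈ P, ∑ j ∈ range N, ∑ j' ∈ range N,
        (if δ * (r + (j : ℤ)) - δ * (r + (j' : ℤ)) ∈ Bad then A * len p else g * len p) ^ 2 *
          K2 (r + (j : ℤ)) (r + (j' : ℤ))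
      ≤ (1 / (N : ℝ) ^ 3) * ((g * len p) ^ 2 * (∑ r ∈ P, ∑ z ∈ T, ∑ j ∈ range N, ∑ j' ∈ range N,
        ‖kK T T' U z (r + (j : ℤ)) (r + (j' : ℤ))‖ ^ 2) +
        (A * len p) ^ 2 * (N * (d * len p * Hk * ∑ z ∈ T, ∑ x ∈ T', kD T T' U z x))) :=
        mul_le_mul_of_nonneg_left h11 (by positivity)
    _ = _ := by
        field_simp

/-- **THE `S₄` COST OF A MIXTURE** (killer edge: `NCs` from non-collision; partner edge: `g = A`,
`d = 0`) -/
theorem s4K_of (S : Finset ι) (lam : ι → ℝ) (hlam : ∀ n ∈ S, 0 ≤ lam n) (R : Finset (ℕ × ℤ))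
    (κ0 : ℕ) (V : ℝ) (T T' : Finset ℤ) {α γ δ : ℤ} (hα : α ≠ 0) (hγ : γ ≠ 0) (hδ : δ ≠ 0)
    (U : ι → ℤ → ℤ → κ → ℂ) (F : Fn) {A g d Hk η σ : ℝ} {m0 : ℕ} (hg : 0 ≤ g) (hd : 0 ≤ d)
    (hm0 : ∀ p ∈ R, m0 ≤ p.1)
    (hA : ∀ p ∈ R, ∑ y ∈ iv p, ‖F y‖ ^ 2 ≤ A * len p) (hNC : ∀ p ∈ R, NCs p g d F)
    (hHk : ∀ n ∈ S, ∀ z x, kD T T' (U n) z x ≤ Hk) (hHk0 : 0 ≤ Hk)
    (hV : ∑ n ∈ S, lam n * ∑ z ∈ T, ∑ x ∈ T', kD T T' (U n) z x ≤ V)
    (hη : HSk S lam R κ0 (η * V) T T' U)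
    (hσ : 2 ^ 7 * g ^ 2 * η + 2 ^ 14 * A ^ 2 * d * Hk + 2 ^ 8 * A ^ 2 * Hk / 2 ^ m0 ≤ σ) :
    S4K S lam R κ0 V σ (fun n G w => XU T T' α γ δ (U n) G w) F := by
  intro p hp k hk Λ
  have hV0 : 0 ≤ V := (Finset.sum_nonneg fun n hn => mul_nonneg (hlam n hn)
    (Finset.sum_nonneg fun _ _ => Finset.sum_nonneg fun _ _ => kD_nonneg _ _ _ _ _)).trans hV
  have hηV : 0 ≤ η * V := by
    have := hη p hp k hk ∅
    simpa using this
  have hl : 0 < len p := QVar181.len_pos' p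
  set N : ℕ := 2 ^ (p.1 + k) with hN
  have hN0 : 0 < N := by positivity
  have hN' : (0 : ℝ) < N := by exact_mod_cast hN0
  set P : Finset ℤ := Λ.image (fun t => t.2.2) with hP
  set HH : ι → ℝ := fun n => ∑ r ∈ P, ∑ z ∈ T, ∑ j ∈ range N, ∑ j' ∈ range N,
        ‖kK T T' (U n) z (r + (j : ℤ)) (r + (j' : ℤ))‖ ^ 2 with hHH
  set TT : ι → ℝ := fun n => ∑ z ∈ T, ∑ x ∈ T', kD T T' (U n) z x with hTT
  have h1 : ∀ n ∈ S, ∑ t ∈ Λ, (e4K (XU T T' α γ δ (U n) (res p F) t.1) N t.2.1 t.2.2 +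
      2 * dgK (XU T T' α γ δ (U n) (res p F) t.1) N t.2.1 t.2.2) ≤
      (1 / (N : ℝ) ^ 3) * (g * len p) ^ 2 * HH n +
        ((1 / (N : ℝ) ^ 2) * ((A * len p) ^ 2 * (d * len p * Hk)) +
          2 * ((1 / (N : ℝ) ^ 2) * (Hk * (A * len p) ^ 2))) * TT n := by
    intro n hn
    have a1 := e4_good_bad T T' α γ δ (U n) p F hα hγ hδ hg (hA p hp) (hNC p hp) (hHk n hn) N hN0 Λ
    have a2 := dg_node T T' α γ δ (U n) p F hα hδ (hA p hp) (hHk n hn) N hN0 Λ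
    rw [Finset.sum_add_distrib, ← Finset.mul_sum]
    simp only [hHH, hTT]
    calc _ ≤ _ := add_le_add a1 (mul_le_mul_of_nonneg_left a2 (by norm_num : (0 : ℝ) ≤ 2))
      _ = _ := by ring
  have h2 : ∑ n ∈ S, lam n * ∑ t ∈ Λ, (e4K (XU T T' α γ δ (U n) (res p F) t.1) N t.2.1 t.2.2 +
      2 * dgK (XU T T' α γ δ (U n) (res p F) t.1) N t.2.1 t.2.2) ≤
      (1 / (N : ℝ) ^ 3) * (g * len p) ^ 2 * ∑ n ∈ S, lam n * HH n +
        ((1 / (N : ℝ) ^ 2) * ((A * len p) ^ 2 * (d * len p * Hk)) +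
          2 * ((1 / (N : ℝ) ^ 2) * (Hk * (A * len p) ^ 2))) * ∑ n ∈ S, lam n * TT n := by
    rw [Finset.mul_sum, Finset.mul_sum, ← Finset.sum_add_distrib]
    refine Finset.sum_le_sum fun n hn => ?_
    calc _ ≤ lam n * _ := mul_le_mul_of_nonneg_left (h1 n hn) (hlam n hn)
      _ = _ := by ring
  have h3 : ∑ n ∈ S, lam n * HH n ≤ (N : ℝ) ^ 2 * (η * V) := by
    have h4 := hη p hp k hk P
    have h5 : ∑ n ∈ S, lam n * ∑ r ∈ P, ∑ z ∈ T, (1 / ((2 ^ (p.1 + k) : ℕ) : ℝ) ^ 2) *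
        ∑ j ∈ range (2 ^ (p.1 + k)), ∑ j' ∈ range (2 ^ (p.1 + k)),
          ‖kK T T' (U n) z (r + (j : ℤ)) (r + (j' : ℤ))‖ ^ 2 =
        (1 / (N : ℝ) ^ 2) * ∑ n ∈ S, lam n * HH n := by
      rw [Finset.mul_sum]
      refine Finset.sum_congr rfl fun n _ => ?_
      simp only [hHH, ← Finset.mul_sum, ← hN]
      ring
    rw [h5] at h4
    have h6 : ∑ n ∈ S, lam n * HH n = (N : ℝ) ^ 2 * ((1 / (N : ℝ) ^ 2) * ∑ n ∈ S, lam n * HH n) := by
      field_simp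
    rw [h6]
    exact mul_le_mul_of_nonneg_left h4 (by positivity)
  refine h2.trans ?_
  have hc1 : 0 ≤ (1 / (N : ℝ) ^ 3) * (g * len p) ^ 2 := by positivity
  have hc2 : 0 ≤ (1 / (N : ℝ) ^ 2) * ((A * len p) ^ 2 * (d * len p * Hk)) +
          2 * ((1 / (N : ℝ) ^ 2) * (Hk * (A * len p) ^ 2)) := by positivity
  have h7 := add_le_add (mul_le_mul_of_nonneg_left h3 hc1) (mul_le_mul_of_nonneg_left hV hc2)
  refine h7.trans ?_
  -- numerics
  have hlen : len p = 2 ^ 7 * (2 : ℝ) ^ p.1 := by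
    unfold len
    rw [pow_add]; ring
  have hlN : len p ≤ 2 ^ 7 * N := by
    rw [hlen, hN]
    push_cast
    have : (2 : ℝ) ^ p.1 ≤ 2 ^ (p.1 + k) := pow_le_pow_right₀ (by norm_num) (by omega)
    linarith
  have hmN : (2 : ℝ) ^ m0 ≤ N := by
    rw [hN]
    push_cast
    exact pow_le_pow_right₀ (by norm_num) (by have := hm0 p hp; omega)
  have hx : len p / N ≤ 2 ^ 7 := by
    rw [div_le_iff₀ hN']
    exact hlN
  have hx0 : 0 ≤ len p / N := by positivity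
  have t1 : (1 / (N : ℝ) ^ 3) * (g * len p) ^ 2 * ((N : ℝ) ^ 2 * (η * V)) ≤
      2 ^ 7 * g ^ 2 * (η * V) * len p := by
    have e : (1 / (N : ℝ) ^ 3) * (g * len p) ^ 2 * ((N : ℝ) ^ 2 * (η * V)) =
        (g ^ 2 * (η * V) * len p) * (len p / N) := by field_simp
    rw [e]
    have h0 : 0 ≤ g ^ 2 * (η * V) * len p := by positivity
    calc _ ≤ (g ^ 2 * (η * V) * len p) * 2 ^ 7 := mul_le_mul_of_nonneg_left hx h0
      _ = _ := by ring
  have t2 : (1 / (N : ℝ) ^ 2) * ((A * len p) ^ 2 * (d * len p * Hk)) * V ≤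
      2 ^ 14 * A ^ 2 * d * Hk * V * len p := by
    have e : (1 / (N : ℝ) ^ 2) * ((A * len p) ^ 2 * (d * len p * Hk)) * V =
        (A ^ 2 * d * Hk * V * len p) * (len p / N) ^ 2 := by field_simp
    rw [e]
    have h0 : 0 ≤ A ^ 2 * d * Hk * V * len p := by positivity
    calc _ ≤ (A ^ 2 * d * Hk * V * len p) * (2 ^ 7) ^ 2 :=
          mul_le_mul_of_nonneg_left (pow_le_pow_left₀ hx0 hx 2) h0
      _ = _ := by ring
  have t3 : 2 * ((1 / (N : ℝ) ^ 2) * (Hk * (A * len p) ^ 2)) * V ≤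
      2 ^ 8 * A ^ 2 * Hk / 2 ^ m0 * V * len p := by
    have e : 2 * ((1 / (N : ℝ) ^ 2) * (Hk * (A * len p) ^ 2)) * V =
        (2 * A ^ 2 * Hk * V * len p) * (len p / N) * (1 / N) := by field_simp
    rw [e]
    have h0 : 0 ≤ 2 * A ^ 2 * Hk * V * len p := by positivity
    have h8 : (1 : ℝ) / N ≤ 1 / 2 ^ m0 := one_div_le_one_div_of_le (by positivity) hmN
    calc _ ≤ (2 * A ^ 2 * Hk * V * len p) * 2 ^ 7 * (1 / 2 ^ m0) :=
          mul_le_mul (mul_le_mul_of_nonneg_left hx h0) h8 (by positivity) (by positivity)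
      _ = _ := by ring
  have hfin : (2 : ℝ) ^ 7 * g ^ 2 * (η * V) * len p + (2 ^ 14 * A ^ 2 * d * Hk * V * len p +
      2 ^ 8 * A ^ 2 * Hk / 2 ^ m0 * V * len p) ≤ σ * (len p * V) := by
    have h0 : 0 ≤ len p * V := by positivity
    calc _ = (2 ^ 7 * g ^ 2 * η + 2 ^ 14 * A ^ 2 * d * Hk + 2 ^ 8 * A ^ 2 * Hk / 2 ^ m0) *
          (len p * V) := by ring
      _ ≤ _ := mul_le_mul_of_nonneg_right hσ h0
  have hgoal : σ * (2 ^ (p.1 + 7) * V) = σ * (len p * V) := rfl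
  rw [hgoal]
  refine le_trans ?_ hfin
  rw [add_mul]
  exact add_le_add t1 (add_le_add t2 t3)

/-- **THE `S₂` COST OF A MIXTURE** -/
theorem s2K_of (S : Finset ι) (lam : ι → ℝ) (hlam : ∀ n ∈ S, 0 ≤ lam n) (R : Finset (ℕ × ℤ))
    (κ0 : ℕ) (V V' : ℝ) (T T' : Finset ℤ) {α γ δ : ℤ} (hα : α ≠ 0)
    (U : ι → ℤ → ℤ → κ → ℂ) (F : Fn) {A : ℝ} (hA0 : 0 ≤ A)
    (hA : ∀ p ∈ R, ∑ y ∈ iv p, ‖F y‖ ^ 2 ≤ A * len p)
    (hV : ∑ n ∈ S, lam n * ∑ z ∈ T, ∑ x ∈ T', kD T T' (U n) z x ≤ V) (hVV : A * V ≤ V') :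
    S2K S lam R κ0 V' (fun n G w => XU T T' α γ δ (U n) G w) F := by
  intro p hp k hk Λ
  have hl : 0 < len p := QVar181.len_pos' p
  set N : ℕ := 2 ^ (p.1 + k) with hN
  have hN0 : 0 < N := by positivity
  have hN' : (0 : ℝ) < N := by exact_mod_cast hN0
  have h1 : ∀ n ∈ S, ∑ t ∈ Λ, e2K (XU T T' α γ δ (U n) (res p F) t.1) N t.2.1 t.2.2 ≤
      (A * len p) * ∑ z ∈ T, ∑ x ∈ T', kD T T' (U n) z x := by
    intro n _
    refine (sum_prod_le Λ (fun w q0 r => e2K (XU T T' α γ δ (U n) (res p F) w) N q0 r)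
      (fun a b c => by unfold e2K; positivity)).trans ?_
    unfold e2K
    simp only [sum_XU_sq, ← Finset.mul_sum]
    set G : ℤ → ℝ := fun y => ‖res p F y‖ ^ 2 with hG
    have hG0 : ∀ y, 0 ≤ G y := fun y => sq_nonneg _
    have hw : ∀ c : ℤ, ∑ w ∈ Λ.image (fun t => t.1), G (α * w + c) ≤ A * len p := by
      intro c
      have h3 := sum_prog_le hα c (iv p) (Λ.image (fun t => t.1)) G hG0
        (fun y hy => by
          simp only [hG]
          unfold res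
          unfold iv at hy
          rw [if_neg hy]; simp)
      refine h3.trans (le_trans (le_of_eq ?_) (hA p hp))
      refine Finset.sum_congr rfl fun y hy => ?_
      simp only [hG]
      unfold res
      unfold iv at hy
      rw [if_pos hy]
    have h4 : ∀ r q0 : ℤ, ∑ w ∈ Λ.image (fun t => t.1), ∑ i ∈ range N, ∑ j ∈ range N,
        kD T T' (U n) (q0 + (i : ℤ)) (r + (j : ℤ)) *
          G (α * w + γ * (q0 + (i : ℤ)) + δ * (r + (j : ℤ))) ≤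
        (A * len p) * ∑ i ∈ range N, ∑ j ∈ range N,
          kD T T' (U n) (q0 + (i : ℤ)) (r + (j : ℤ)) := by
      intro r q0
      rw [Finset.sum_comm, Finset.mul_sum]
      refine Finset.sum_le_sum fun i _ => ?_
      rw [Finset.sum_comm, Finset.mul_sum]
      refine Finset.sum_le_sum fun j _ => ?_
      rw [← Finset.mul_sum, mul_comm]
      refine mul_le_mul_of_nonneg_right ?_ (kD_nonneg _ _ _ _ _)
      refine le_trans (le_of_eq (Finset.sum_congr rfl fun w _ => ?_))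
        (hw (γ * (q0 + (i : ℤ)) + δ * (r + (j : ℤ))))
      have e : α * w + γ * (q0 + (i : ℤ)) + δ * (r + (j : ℤ)) =
        α * w + (γ * (q0 + (i : ℤ)) + δ * (r + (j : ℤ))) := by ring
      rw [e]
    have h5 : ∑ r ∈ Λ.image (fun t => t.2.2), ∑ w ∈ Λ.image (fun t => t.1),
        ∑ q0 ∈ Λ.image (fun t => t.2.1), ∑ i ∈ range N, ∑ j ∈ range N,
          kD T T' (U n) (q0 + (i : ℤ)) (r + (j : ℤ)) *
            G (α * w + γ * (q0 + (i : ℤ)) + δ * (r + (j : ℤ))) ≤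
        (A * len p) * (N * (N * ∑ z ∈ T, ∑ x ∈ T', kD T T' (U n) z x)) := by
      have h6 : ∀ r ∈ Λ.image (fun t => t.2.2), ∑ w ∈ Λ.image (fun t => t.1),
          ∑ q0 ∈ Λ.image (fun t => t.2.1), ∑ i ∈ range N, ∑ j ∈ range N,
            kD T T' (U n) (q0 + (i : ℤ)) (r + (j : ℤ)) *
              G (α * w + γ * (q0 + (i : ℤ)) + δ * (r + (j : ℤ))) ≤
          (A * len p) * ∑ j ∈ range N, N * ∑ z ∈ T, kD T T' (U n) z (r + (j : ℤ)) := by
        intro r _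
        rw [Finset.sum_comm]
        refine (Finset.sum_le_sum fun q0 _ => h4 r q0).trans ?_
        rw [← Finset.mul_sum]
        refine mul_le_mul_of_nonneg_left ?_ (by positivity)
        have h7 : ∑ q0 ∈ Λ.image (fun t => t.2.1), ∑ i ∈ range N, ∑ j ∈ range N,
            kD T T' (U n) (q0 + (i : ℤ)) (r + (j : ℤ)) =
            ∑ j ∈ range N, ∑ q0 ∈ Λ.image (fun t => t.2.1), ∑ i ∈ range N,
              kD T T' (U n) (q0 + (i : ℤ)) (r + (j : ℤ)) := by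
          rw [Finset.sum_comm (s := range N)]
          refine Finset.sum_congr rfl fun q0 _ => ?_
          rw [Finset.sum_comm]
        rw [h7]
        refine Finset.sum_le_sum fun j _ => ?_
        exact sum_pos_le N _ T (fun z => kD T T' (U n) z (r + (j : ℤ)))
          (fun z => kD_nonneg _ _ _ _ _) (fun z hz => kD_zero_left hz _)
      refine (Finset.sum_le_sum h6).trans ?_
      simp only [← Finset.mul_sum]
      refine mul_le_mul_of_nonneg_left ?_ (by positivity)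
      refine mul_le_mul_of_nonneg_left ?_ hN'.le
      have h8 := sum_pos_le N (Λ.image (fun t => t.2.2)) T' (fun x => ∑ z ∈ T, kD T T' (U n) z x)
        (fun x => Finset.sum_nonneg fun z _ => kD_nonneg _ _ _ _ _)
        (fun x hx => Finset.sum_eq_zero fun z _ => kD_zero_right hx)
      refine h8.trans (le_of_eq ?_)
      rw [Finset.sum_comm]
    calc _ ≤ (1 / (N : ℝ) ^ 2) * ((A * len p) * (N * (N *
          ∑ z ∈ T, ∑ x ∈ T', kD T T' (U n) z x))) := mul_le_mul_of_nonneg_left h5 (by positivity)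
      _ = _ := by field_simp
  have h2 : ∑ n ∈ S, lam n * ∑ t ∈ Λ, e2K (XU T T' α γ δ (U n) (res p F) t.1) N t.2.1 t.2.2 ≤
      (A * len p) * ∑ n ∈ S, lam n * ∑ z ∈ T, ∑ x ∈ T', kD T T' (U n) z x := by
    rw [Finset.mul_sum]
    refine Finset.sum_le_sum fun n hn => ?_
    calc _ ≤ lam n * _ := mul_le_mul_of_nonneg_left (h1 n hn) (hlam n hn)
      _ = _ := by ring
  refine h2.trans ?_
  have hgoal : (2 : ℝ) ^ (p.1 + 7) * V' = len p * V' := rfl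
  rw [hgoal]
  calc (A * len p) * ∑ n ∈ S, lam n * ∑ z ∈ T, ∑ x ∈ T', kD T T' (U n) z x
      ≤ (A * len p) * V := mul_le_mul_of_nonneg_left hV (by positivity)
    _ = len p * (A * V) := by ring
    _ ≤ len p * V' := mul_le_mul_of_nonneg_left hVV hl.le

end Crest.Agent.R079.SWc360
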