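import Crest.Agent.R079.GaU_571
import Crest.Agent.R079.PQ_263
import Crest.Agent.R079.GaW_571
import Crest.Agent.R079.GaF_371
import Crest.Agent.R079.Qb_247
import Crest.Agent.R079.ElU_440

-- ▼ part R079/GaR_571
section

/-! R079, Step I, (G) words (helper571): ONE (G) WORD = MOVE + killer words of the windows + rest words of
the stacks.

* `gword_static` : partner static; `gword_moving` : partner the truncated glued letter of another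
  functional. -/

set_option autoImplicit false

namespace Crest.Agent.R079.GaRx571

open Finset Crest.Agent.R079.Grid Crest.Agent.R079.Glue Crest.Agent.R079.Growth
  Crest.Agent.R079.QRed Crest.Agent.R079.TWin
open Crest.Agent.R079.RelW653 (vl NMP Jv Dv)
open Crest.Agent.R079.GaAx571 Crest.Agent.R079.GaBx571 Crest.Agent.R079.GaWx571
  Crest.Agent.R079.GaXx571 Crest.Agent.R079.GaMx571 Crest.Agent.R079.GaSx571
  Crest.Agent.R079.GaTx571 Crest.Agent.R079.GaVx571 Crest.Agent.R079.GaZx260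
  Crest.Agent.R079.GaFx371 Crest.Agent.R079.KLX279 Crest.Agent.R079.GaUx571
open Crest.Agent.R079.ThA159 Crest.Agent.R079.ThB159 Crest.Agent.R079.Stk
open Crest.Agent.R079.AsmA844 (v4)

variable {ι I' : Type*} [Fintype ι] [Fintype I']
  {j : Fin 4} {bb : ℤ} {e e' : Fin 3} {T : ι → Fin 3 → Finset ℤ}
  {g : ι → Fin 3 → ℤ → ℤ → ℂ} {c0 : ι → I'} {J : Nd} {Bd : I' → Nd → Finset (ℤ × ℤ × ℤ)}
  {pos : I' → ℤ × ℤ × ℤ → ℤ} {N : I' → Nd → (ℤ × ℤ × ℤ → ℂ) → ℝ} {ν : I' → ℝ}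
  {a : I' → ℤ × ℤ × ℤ → ℂ} {r : I' → ℝ} {κ : I' → ℝ} {X : Fn} {η : ℝ} {f : Nd → Fn}
  {R S : Finset Nd} {W : Nd → Finset Nd} {C : ℝ}

/-- the budget of the kernel letters -/
noncomputable def budZ (J : Nd) (X : Fn) (η δ : ℝ) (n b : ℕ) : ℝ :=
  b * √(4 * (len J * (av J X ^ 2 + η) + 2 * η * len J * (n - 1 : ℕ))) +
    √(len J * (av J X ^ 2 + η)) + (b + 1) * δ

/-- the budget of the glued letters -/
noncomputable def budG (J : Nd) (X : Fn) (η δ : ℝ) (n b : ℕ) : ℝ :=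
  b * √(2 * (len J * (av J X ^ 2 + η) + 2 * η * len J * (n - 1 : ℕ))) +
    √(2 * len J * av J X ^ 2 + 2 * (len J * (av J X ^ 2 + η))) + (b + 1) * δ

/-- common hypotheses of one (G) word -/
structure GW (j : Fin 4) (bb : ℤ) (e e' : Fin 3) (T : ι → Fin 3 → Finset ℤ)
    (g : ι → Fin 3 → ℤ → ℤ → ℂ) (c0 : ι → I') (J : Nd) (Bd : I' → Nd → Finset (ℤ × ℤ × ℤ))
    (pos : I' → ℤ × ℤ × ℤ → ℤ) (N : I' → Nd → (ℤ × ℤ × ℤ → ℂ) → ℝ) (ν : I' → ℝ)
    (a : I' → ℤ × ℤ × ℤ → ℂ) (r κ : I' → ℝ) (μ : ι → ℝ) (cn La kap : ℝ) (F : Fin 4 → ℤ → ℂ)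
    (P : Finset (ℤ × ℤ × ℤ)) (M : ℕ) (ε : ℕ → ℤ → ℂ) (R : Finset Nd) : Prop where
  bb7 : bb = -1 ∨ bb = -7
  ne : e ≠ e'
  mu0 : ∀ l, 0 ≤ μ l
  cn0 : 0 < cn
  La0 : 0 < La
  kap0 : 0 < kap
  muS : ∑ l, μ l ≤ La
  inj : Function.Injective c0
  kn : ∀ l, kap * μ l / (La * cn) ≤ κ (c0 l) * ν (c0 l)
  bnd : ∀ i, Bnd (Bd i) (pos i) (N i) (ν i)
  r0 : ∀ i, 0 ≤ r i
  kp0 : ∀ i, 0 ≤ κ i
  ok : BdOK j e T g c0 J Bd pos a
  rep : ∀ y ∈ iv J, F j y = ∑ l, ((μ l / cn : ℝ) : ℂ) *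
    atom j 1 (T l) (g l 0) (g l 1) (g l 2) y
  cov : ∀ l, Cov M (T l) P
  lev : ∀ q ∈ R, q.1 < M
  eps : ∀ m x, ‖ε m x‖ ≤ 1

/-- GOOD words: absolute bound atom by atom -/
def HG (j : Fin 4) (bb : ℤ) (e e' : Fin 3) (T : ι → Fin 3 → Finset ℤ)
    (g : ι → Fin 3 → ℤ → ℤ → ℂ) (c0 : ι → I') (J : Nd) (Bd : I' → Nd → Finset (ℤ × ℤ × ℤ))
    (cn : ℝ) (F : Fin 4 → ℤ → ℂ) (P : Finset (ℤ × ℤ × ℤ)) (M : ℕ) (R : Finset Nd)
    (Gd : ι → ℕ → ℤ × ℤ × ℤ → ℕ → Prop) (N1 H H' fa fb : ℝ) : Prop :=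
  ∀ (l : ι) (u : ℤ × ℤ × ℤ → ℂ) (v : ℤ → ℂ), (∀ ω ∈ Bd (c0 l) J, ‖u ω‖ ≤ H) →
    (∀ y ∈ iv J, ‖v y‖ ≤ H') →
    TA bb P M (fun n p i => Gd l n p i ∧ AdX R n (xv j bb n p))
      (Function.update (Function.update (lks j (T l) (g l) (fun s => cutJ J (F s))) e'
        (lk j (T l) (g l) e' v)) e (ker (Bd (c0 l) J) u)) ≤
      N1 * cn * (√((∑ ω ∈ Bd (c0 l) J, ‖u ω‖ ^ 2) / cn + fa) * √(∑ y ∈ iv J, ‖v y‖ ^ 2 + fb))

/-- killer words of the windows -/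
def HB (j : Fin 4) (bb : ℤ) (e e' : Fin 3) (T : ι → Fin 3 → Finset ℤ)
    (g : ι → Fin 3 → ℤ → ℤ → ℂ) (c0 : ι → I') (Bd : I' → Nd → Finset (ℤ × ℤ × ℤ))
    (pos : I' → ℤ × ℤ × ℤ → ℤ) (N : I' → Nd → (ℤ × ℤ × ℤ → ℂ) → ℝ)
    (a : I' → ℤ × ℤ × ℤ → ℂ) (r : I' → ℝ) (cn : ℝ) (F : Fin 4 → ℤ → ℂ)
    (P : Finset (ℤ × ℤ × ℤ)) (M : ℕ) (S : Finset Nd) (W : Nd → Finset Nd) (n : ℕ)
    (H1 h0 : ℝ) (f : Nd → Fn) (Yw : Nd → Fn) (eB : ℝ) : Prop :=
  ∀ K ∈ S, idx S K ≤ n → ∀ l : ι, TA bb P M (fun m p _ => AdX (W K) m (xv j bb m p))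
    (KB j (T l) (g l) F e e' (Bd (c0 l)) (pos (c0 l)) (N (c0 l)) (a (c0 l)) (r (c0 l)) H1 h0
      (W K) K f (Yw K)) ≤ cn * (eB * len K)

/-- rest words of the stacks -/
def HRst (j : Fin 4) (bb : ℤ) (e e' : Fin 3) (T : ι → Fin 3 → Finset ℤ)
    (g : ι → Fin 3 → ℤ → ℤ → ℂ) (J : Nd) (cn : ℝ) (F : Fin 4 → ℤ → ℂ)
    (P : Finset (ℤ × ℤ × ℤ)) (M : ℕ) (R S : Finset Nd) (n : ℕ)
    (Gd : ι → ℕ → ℤ × ℤ × ℤ → ℕ → Prop) (H1 : ℝ) (f : Nd → Fn) (Yk : ℕ → Fn) (eR : ℝ) : Prop :=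
  ∀ k < n, ∀ l : ι,
    TA bb P M (fun m p v => ¬ Gd l m p v ∧ AdX (Rk R S (k + 1)) m (xv j bb m p))
      (KL j (T l) (g l) F e e' J (fun y => tau H1 (gl (Rk R S (k + 1)) f y)) (Yk (k + 1))) ≤
      cn * (eR * len J)

variable {μ : ι → ℝ} {cn La kap : ℝ} {F : Fin 4 → ℤ → ℂ} {P : Finset (ℤ × ℤ × ℤ)} {M : ℕ}
  {ε : ℕ → ℤ → ℂ} {Gd : ι → ℕ → ℤ × ℤ × ℤ → ℕ → Prop}

omit [Fintype I'] in
/-- the error terms -/
theorem gword_err (hW : GW j bb e e' T g c0 J Bd pos N ν a r κ μ cn La kap F P M ε R) {n : ℕ}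
    {H1 h0 eB eR : ℝ} (heB : 0 ≤ eB) (heR : 0 ≤ eR) {Yk : ℕ → Fn} {Yw : Nd → Fn}
    (hB : HB j bb e e' T g c0 Bd pos N a r cn F P M S W n H1 h0 f Yw eB)
    (hRs : HRst j bb e e' T g J cn F P M R S n Gd H1 f Yk eR) :
    (∑ K ∈ S.filter (fun K => idx S K ≤ n), ∑ l, μ l / cn *
        TA bb P M (fun m p _ => AdX (W K) m (xv j bb m p))
          (KB j (T l) (g l) F e e' (Bd (c0 l)) (pos (c0 l)) (N (c0 l)) (a (c0 l)) (r (c0 l)) H1 h0
            (W K) K f (Yw K)) +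
      ∑ k ∈ range n, ∑ l, μ l / cn *
        TA bb P M (fun m p v => ¬ Gd l m p v ∧ AdX (Rk R S (k + 1)) m (xv j bb m p))
          (KL j (T l) (g l) F e e' J (fun y => tau H1 (gl (Rk R S (k + 1)) f y)) (Yk (k + 1)))) ≤
      La * eB * ∑ K ∈ S.filter (fun K => idx S K ≤ n), len K + n * (La * eR * len J) := by
  have hmul : ∀ (l : ι) {x y : ℝ}, 0 ≤ y → x ≤ cn * y → μ l / cn * x ≤ μ l * y := by
    intro l x y _ hx
    have h1 := mul_le_mul_of_nonneg_left hx (div_nonneg (hW.mu0 l) hW.cn0.le)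
    refine h1.trans (le_of_eq ?_)
    have := hW.cn0.ne'
    field_simp
  refine add_le_add ?_ ?_
  · rw [Finset.mul_sum]
    refine Finset.sum_le_sum fun K hK => ?_
    obtain ⟨hKS, hKn⟩ := Finset.mem_filter.1 hK
    have hl := (Growth.len_pos K).le
    have h1 : ∀ l : ι, μ l / cn * TA bb P M (fun m p _ => AdX (W K) m (xv j bb m p))
          (KB j (T l) (g l) F e e' (Bd (c0 l)) (pos (c0 l)) (N (c0 l)) (a (c0 l)) (r (c0 l)) H1 h0
            (W K) K f (Yw K)) ≤ μ l * (eB * len K) := fun l =>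
      hmul l (mul_nonneg heB hl) (hB K hKS hKn l)
    refine (Finset.sum_le_sum fun l _ => h1 l).trans ?_
    rw [← Finset.sum_mul, mul_assoc]
    exact mul_le_mul_of_nonneg_right hW.muS (mul_nonneg heB hl)
  · have hl := (Growth.len_pos J).le
    have h1 : ∀ k ∈ range n, ∑ l, μ l / cn *
        TA bb P M (fun m p v => ¬ Gd l m p v ∧ AdX (Rk R S (k + 1)) m (xv j bb m p))
          (KL j (T l) (g l) F e e' J (fun y => tau H1 (gl (Rk R S (k + 1)) f y)) (Yk (k + 1))) ≤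
        La * eR * len J := by
      intro k hk
      refine (Finset.sum_le_sum fun l _ => hmul l (mul_nonneg heR hl)
        (hRs k (Finset.mem_range.1 hk) l)).trans ?_
      rw [← Finset.sum_mul, mul_assoc]
      exact mul_le_mul_of_nonneg_right hW.muS (mul_nonneg heR hl)
    refine (Finset.sum_le_sum h1).trans (le_of_eq ?_)
    rw [Finset.sum_const, Finset.card_range, nsmul_eq_mul]

/-- **A (G) WORD, STATIC PARTNER** -/
theorem gword_static (hW : GW j bb e e' T g c0 J Bd pos N ν a r κ μ cn La kap F P M ε R)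
    (h : NMP (fun _ _ => True) (ThF Bd pos N ν a r κ) X η f) (hR : Full R J)
    (hP : TWin.Part R S W C) {n b : ℕ} (hn : n ≤ 2 ^ b) {N1 H H' fa fb H1 h0 h0' eB eR : ℝ}
    (hN1 : 0 ≤ N1) (hfa : 0 ≤ fa) (hfb : 0 ≤ fb) (heB : 0 ≤ eB) (heR : 0 ≤ eR)
    (hG : HG j bb e e' T g c0 J Bd cn F P M R Gd N1 H H' fa fb) (Y : Fn)
    (hY : ∀ y ∈ iv J, ‖Y y‖ ≤ h0') (hh0 : 0 ≤ h0) (hH : 2 ^ (b + 1) * h0 ≤ H)
    (hH' : 2 ^ (b + 1) * h0' ≤ H')
    (hB : HB j bb e e' T g c0 Bd pos N a r cn F P M S W n H1 h0 f (fun _ => Y) eB)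
    (hRs : HRst j bb e e' T g J cn F P M R S n Gd H1 f (fun _ => Y) eR) :
    ‖∑ K ∈ S.filter (fun K => idx S K ≤ n), ∑ q ∈ W K,
      v4 bb ε F (j.succAbove (e + 2)) (j.succAbove (e' + 2)) (fun y => tau H1 (gl (W K) f y))
        Y q‖ ≤
      N1 * (La / √kap) * budZ J X η √(kap * fa) n b *
        (nW (iv J) (fun _ => 1) Y + (b + 1) * √fb) +
      (La * eB * ∑ K ∈ S.filter (fun K => idx S K ≤ n), len K + n * (La * eR * len J)) := by
  have h1 := word_decomp (Gd := Gd) hW.bb7 hW.ne hW.mu0 hW.cn0 hW.bnd hW.r0 hW.ok hR hP n hW.rep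
    hW.cov hW.lev hW.eps f H1 h0 (fun _ => Y) (fun _ => Y) (fun _ _ _ _ _ => rfl)
  have h5 := gword_err (Yk := fun _ => Y) (Yw := fun _ => Y) hW heB heR hB hRs
  have hst := statI_joint j bb T g μ hW.mu0 c0 hW.inj P M (fun s => cutJ J (F s)) Bd J e e' hW.ne
    (R := R) (idx := fun q => idx S q - 1) hW.eps Gd hW.kp0 (fun i => (hW.bnd i).nu.le) hW.La0
    hW.kap0 hW.cn0 hN1 hfa hfb hW.muS hW.kn hG n
  have h4 := move_tZJ hW.bnd hW.r0 hW.kp0 h hR hP (fun _ => zero_le_one) hn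
    (mul_nonneg hN1 (div_nonneg hW.La0.le (Real.sqrt_nonneg _))) (Real.sqrt_nonneg _)
    (Real.sqrt_nonneg _) hst Y hh0 hY hH hH'
  exact h1.trans (add_le_add h4 h5)

section moving

variable {ι' : Type*} [Fintype ι'] {Ω' : ι' → Type*} {Bd' : ∀ i, Nd → Finset (Ω' i)}
  {pos' : ∀ i, Ω' i → ℤ} {N' : ∀ i, Nd → (Ω' i → ℂ) → ℝ} {ν' : ι' → ℝ} {a' : ∀ i, Ω' i → ℂ}
  {r' : ι' → ℝ} {κ' : ι' → ℝ} {X' : Fn} {η' : ℝ} {f' : Nd → Fn}

/-- **A (G) WORD, MOVING PARTNER** (truncated glued letter of another functional) -/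
theorem gword_moving (hW : GW j bb e e' T g c0 J Bd pos N ν a r κ μ cn La kap F P M ε R)
    (h : NMP (fun _ _ => True) (ThF Bd pos N ν a r κ) X η f)
    (hB' : ∀ i, Bnd (Bd' i) (pos' i) (N' i) (ν' i)) (hr' : ∀ i, 0 ≤ r' i) (hκ' : ∀ i, 0 ≤ κ' i)
    (h' : NMP (fun _ _ => True) (ThF Bd' pos' N' ν' a' r' κ') X' η' f') (hR : Full R J)
    (hP : TWin.Part R S W C) {n b : ℕ} (hn : n ≤ 2 ^ b) {N1 H H' fa fb H1 h0 h0' eB eR : ℝ}
    (hN1 : 0 ≤ N1) (hfa : 0 ≤ fa) (hfb : 0 ≤ fb) (heB : 0 ≤ eB) (heR : 0 ≤ eR)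
    (hG : HG j bb e e' T g c0 J Bd cn F P M R Gd N1 H H' fa fb)
    (hh0 : 0 ≤ h0) (hh0' : 0 ≤ h0') (hH : 2 ^ (b + 1) * h0 ≤ H) (hH' : 2 ^ (b + 1) * h0' ≤ H')
    (hB : HB j bb e e' T g c0 Bd pos N a r cn F P M S W n H1 h0 f
      (fun K y => tau h0' (gl (W K) f' y)) eB)
    (hRs : HRst j bb e e' T g J cn F P M R S n Gd H1 f
      (fun k y => tau h0' (gl (Rk R S k) f' y)) eR) :
    ‖∑ K ∈ S.filter (fun K => idx S K ≤ n), ∑ q ∈ W K,
      v4 bb ε F (j.succAbove (e + 2)) (j.succAbove (e' + 2)) (fun y => tau H1 (gl (W K) f y))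
        (fun y => tau h0' (gl (W K) f' y)) q‖ ≤
      N1 * (La / √kap) * budZ J X η √(kap * fa) n b * budG J X' η' √fb n b +
      (La * eB * ∑ K ∈ S.filter (fun K => idx S K ≤ n), len K + n * (La * eR * len J)) := by
  have h1 := word_decomp (Gd := Gd) hW.bb7 hW.ne hW.mu0 hW.cn0 hW.bnd hW.r0 hW.ok hR hP n hW.rep
    hW.cov hW.lev hW.eps f H1 h0 (fun k y => tau h0' (gl (Rk R S k) f' y))
      (fun K y => tau h0' (gl (W K) f' y)) (fun K hK _ y hy => by rw [gl_stack hR hP hK f' hy])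
  have h5 := gword_err (Yk := fun k y => tau h0' (gl (Rk R S k) f' y))
    (Yw := fun K y => tau h0' (gl (W K) f' y)) hW heB heR hB hRs
  have hst := statI_joint j bb T g μ hW.mu0 c0 hW.inj P M (fun s => cutJ J (F s)) Bd J e e' hW.ne
    (R := R) (idx := fun q => idx S q - 1) hW.eps Gd hW.kp0 (fun i => (hW.bnd i).nu.le) hW.La0
    hW.kap0 hW.cn0 hN1 hfa hfb hW.muS hW.kn hG n
  have h4 := move_tZJG hW.bnd hW.r0 hW.kp0 h hB' hr' hκ' h' hR hP hn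
    (mul_nonneg hN1 (div_nonneg hW.La0.le (Real.sqrt_nonneg _))) (Real.sqrt_nonneg _)
    (Real.sqrt_nonneg _) hst hh0 hh0' hH hH'
  exact h1.trans (add_le_add h4 h5)

end moving

end Crest.Agent.R079.GaRx571
end

-- ▼ part R079/PF_263
section

/-! R079, Step I (helper263): from the core representation `Rc` / `PRc.mix` to the finite FAMILY of
op-atoms in the words of 571 / 371.

* `exists_opDI` : 371's `exists_opD` with `T e = Ico (a e) (a e + n)`;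
* `Fam` : the family; `Rc.fam`; `exists_cube` : one cube of base points for all atoms;
* `Fam.TI_sum`, `Fam.v4_sum` : the node sums are `∑ l, μ l / 4 ^ I.1 * TT .. (lks i (T l) (g l) ..)`. -/

set_option autoImplicit false

namespace Crest.Agent.R079.PFx263

open Finset Crest.Agent.R079.Grid Crest.Agent.R079.Glue Crest.Agent.R079.Growth
  Crest.Agent.R079.QRed Crest.Agent.R079.Qh249 Crest.Agent.R079.TWin
  Crest.Agent.R079.GaAx571 Crest.Agent.R079.GaBx571 Crest.Agent.R079.OpS276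
open Crest.Agent.R079.Cel159 Crest.Agent.R079.ThA159 Crest.Agent.R079.ElGx69
open Crest.Agent.R079.DicOp679 (ext_val ext_le sum_Ico_fin)
open Crest.Agent.R079.OpLev Crest.Agent.R079.GaFx371 Crest.Agent.R079.GaWx571 Crest.Agent.R079.AsmA844
  Crest.Agent.R079.POx263

/-- **data of a unit op-atom**, with intervals (371's `exists_opD`) -/
theorem exists_opDI {i m e e' : Fin 4} (hd : Dst4 i m e e') {n : ℕ} (hn : 0 < n) {Ht Hf : ℝ}
    (hHf : 0 ≤ Hf) {ψ : ℤ → ℂ} (hψ : IsOpS i m e e' n Ht Hf ψ) :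
    ∃ (v : Fin 3) (T : Fin 3 → Finset ℤ) (g : Fin 3 → ℤ → ℤ → ℂ) (α : ℤ → ℝ),
      i.succAbove v = m ∧ OpD v n Ht Hf T g α ∧
      (∃ a : Fin 3 → ℤ, ∀ e, T e = Finset.Ico (a e) (a e + (n : ℤ))) ∧
      ψ = atom i 1 T (g 0) (g 1) (g 2) := by
  obtain ⟨w, q, u, M, U, V, a, hD, rfl⟩ := hψ
  obtain ⟨v, rfl⟩ := Fin.exists_succAbove_eq hd.jk
  obtain ⟨x, rfl⟩ := Fin.exists_succAbove_eq (Ne.symm hd.ke)
  obtain ⟨y, rfl⟩ := Fin.exists_succAbove_eq (Ne.symm hd.ke')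
  have h01 : v ≠ x := fun hh => hd.je (by rw [hh])
  have h02 : v ≠ y := fun hh => hd.je' (by rw [hh])
  have h12 : x ≠ y := fun hh => hd.ee' (by rw [hh])
  have hcard : ∀ w : ℤ, (Finset.Ico w (w + (n : ℤ))).card = n := by
    intro w; simp
  have hα0 : ∀ z, 0 ≤ wt w a z := wt_nonneg w hD.α0
  have hHt : 0 ≤ Ht := (hD.α0 ⟨0, hn⟩).trans (hD.αH ⟨0, hn⟩)
  have hval : ∀ c : Fin n, wt w a (w + ((c : ℕ) : ℤ)) = a c := wt_val w a
  have hxy : (x = v + 1 ∧ y = v + 2) ∨ (x = v + 2 ∧ y = v + 1) := by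
    exact f3c v x y h01 h02 h12
  rcases hxy with ⟨rfl, rfl⟩ | ⟨rfl, rfl⟩
  · -- order `v, e, e'`
    refine ⟨v, rot v (Finset.Ico w (w + (n : ℤ))) (Finset.Ico q (q + (n : ℤ)))
      (Finset.Ico u (u + (n : ℤ))), rot v (fun z z' => DicOp679.ext w q U z z') (fun z z' => M z z')
      (fun z z' => DicOp679.ext w u V z' z), wt w a, rfl, ?_, ⟨rot v w q u, fun e => ?_⟩, ?_⟩
    · refine ⟨?_, ?_, hα0, ?_, wt_le w hHt hD.αH, ?_, ?_, ?_, ?_⟩
      · intro e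
        unfold rot
        split_ifs <;> exact (hcard _).le
      · intro z z'
        rw [rot1]
        exact hD.m1 z z'
      · rw [rot0, sum_wt]
        exact hD.α1
      · intro z
        rw [rot0, rot1]
        exact sum_ext_sq w q U (wt w a) hval hα0 hD.U2 z
      · intro z
        rw [rot2, rot2]
        exact sum_ext_sq w u V (wt w a) hval hα0 hD.V2 z
      · intro z z'
        rw [rot0]
        exact ext_sq_le w q U (wt w a) hval hα0 hHf hD.UH z z'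
      · intro z z'
        rw [rot2]
        exact ext_sq_le w u V (wt w a) hval hα0 hHf hD.VH z z'
    · unfold rot
      split_ifs <;> rfl
    · funext y
      rw [atom_rot i v, opA_eq_opT]
      unfold DicOp679.opT
      rw [rot0, rot1, rot2, rot0, rot1, rot2, Complex.ofReal_one, one_mul, sum_Ico_fin]
      refine Finset.sum_congr rfl fun c _ => ?_
      rw [sum_Ico_fin]
      refine Finset.sum_congr rfl fun i1 _ => ?_
      rw [sum_Ico_fin]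
      refine Finset.sum_congr rfl fun i' _ => ?_
      rw [ext_val, ext_val]
      rfl
  · -- order `v, e', e`
    refine ⟨v, rot v (Finset.Ico w (w + (n : ℤ))) (Finset.Ico u (u + (n : ℤ)))
      (Finset.Ico q (q + (n : ℤ))), rot v (fun z z' => DicOp679.ext w u V z z') (fun z z' => M z' z)
      (fun z z' => DicOp679.ext w q U z' z), wt w a, rfl, ?_, ⟨rot v w u q, fun e => ?_⟩, ?_⟩
    · refine ⟨?_, ?_, hα0, ?_, wt_le w hHt hD.αH, ?_, ?_, ?_, ?_⟩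
      · intro e
        unfold rot
        split_ifs <;> exact (hcard _).le
      · intro z z'
        rw [rot1]
        exact hD.m1 z' z
      · rw [rot0, sum_wt]
        exact hD.α1
      · intro z
        rw [rot0, rot1]
        exact sum_ext_sq w u V (wt w a) hval hα0 hD.V2 z
      · intro z
        rw [rot2, rot2]
        exact sum_ext_sq w q U (wt w a) hval hα0 hD.U2 z
      · intro z z'
        rw [rot0]
        exact ext_sq_le w u V (wt w a) hval hα0 hHf hD.VH z z'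
      · intro z z'
        rw [rot2]
        exact ext_sq_le w q U (wt w a) hval hα0 hHf hD.UH z z'
    · unfold rot
      split_ifs <;> rfl
    · funext y
      rw [atom_rot i v, opA_eq_opT]
      unfold DicOp679.opT
      rw [rot0, rot1, rot2, rot0, rot1, rot2, Complex.ofReal_one, one_mul, sum_Ico_fin]
      refine Finset.sum_congr rfl fun c _ => ?_
      refine Finset.sum_comm.trans ?_
      rw [sum_Ico_fin]
      refine Finset.sum_congr rfl fun i' _ => ?_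
      rw [sum_Ico_fin]
      refine Finset.sum_congr rfl fun i1 _ => ?_
      rw [ext_val, ext_val]
      refine if_congr ?_ ?_ rfl
      · unfold DicOp679.lfm Crest.Agent.R079.Glue.cf
        constructor <;> intro h <;> linarith
      · ring


/-! ### the family -/

/-- finite family of op-atoms representing `f` on `iv I` -/
structure Fam (i m : Fin 4) (v : Fin 3) (I : Nd) (Ht Hf La : ℝ) (n : ℕ) (f : Fn)
    (T : Fin n → Fin 3 → Finset ℤ) (g : Fin n → Fin 3 → ℤ → ℤ → ℂ) (θ : Fin n → ℤ → ℝ)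
    (μ : Fin n → ℝ) : Prop where
  vm : i.succAbove v = m
  μ0 : ∀ l, 0 ≤ μ l
  μ1 : ∑ l, μ l ≤ La
  opD : ∀ l, OpD v (2 ^ I.1) Ht Hf (T l) (g l) (θ l)
  ico : ∀ l, ∃ a : Fin 3 → ℤ, ∀ e, T l e = Finset.Ico (a e) (a e + ((2 ^ I.1 : ℕ) : ℤ))
  rep : ∀ y ∈ iv I, f y = ∑ l, ((μ l / ((2 : ℝ) ^ I.1) ^ 2 : ℝ) : ℂ) *
    atom i 1 (T l) (g l 0) (g l 1) (g l 2) y

theorem Rc.fam {i m e e' : Fin 4} (hd : Dst4 i m e e') {I : Nd} {Ht Hf La : ℝ} (hHf : 0 ≤ Hf)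
    {f : Fn} (h : Rc i m e e' I Ht Hf La f) :
    ∃ (v : Fin 3) (n : ℕ) (T : Fin n → Fin 3 → Finset ℤ) (g : Fin n → Fin 3 → ℤ → ℤ → ℂ)
      (θ : Fin n → ℤ → ℝ) (μ : Fin n → ℝ), Fam i m v I Ht Hf La n f T g θ μ := by
  obtain ⟨n, ψ, α, h0, h1, h2, h3⟩ := h
  obtain ⟨v, hv⟩ := Fin.exists_succAbove_eq hd.jk
  have h4 : ∀ l, ∃ (T : Fin 3 → Finset ℤ) (g : Fin 3 → ℤ → ℤ → ℂ) (θ : ℤ → ℝ),
      OpD v (2 ^ I.1) Ht Hf T g θ ∧
      (∃ a : Fin 3 → ℤ, ∀ e, T e = Finset.Ico (a e) (a e + ((2 ^ I.1 : ℕ) : ℤ))) ∧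
      ψ l = atom i 1 T (g 0) (g 1) (g 2) := by
    intro l
    obtain ⟨v', T, g, θ, hv', hO, hI, hψ⟩ := exists_opDI hd (n := 2 ^ I.1) (by positivity) hHf (h1 l)
    have : v' = v := by
      have := hv'.trans hv.symm
      exact Fin.succAbove_right_injective this
    subst this
    exact ⟨T, g, θ, hO, hI, hψ⟩
  choose T g θ hO hI hψ using h4
  refine ⟨v, n, T, g, θ, α, hv, h0, h3, hO, hI, fun y hy => ?_⟩
  rw [h2 y hy]
  exact Finset.sum_congr rfl fun l _ => by rw [← hψ l]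

/-- one cube of base points for all atoms -/
theorem exists_cube {n : ℕ} (T : Fin n → Fin 3 → Finset ℤ) (M L0 : ℕ) :
    ∃ L1 : ℕ, L0 ≤ L1 ∧ ∀ l, Cov M (T l) (cube L1) := by
  classical
  -- a common bound of the finitely many positions
  have h1 : ∃ A : ℕ, ∀ l, ∀ e, ∀ z ∈ T l e, |z| ≤ (A : ℤ) := by
    set S : Finset ℤ := Finset.univ.biUnion fun l : Fin n => Finset.univ.biUnion fun e : Fin 3 =>
      T l e with hS
    refine ⟨∑ z ∈ S, z.natAbs, fun l e z hz => ?_⟩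
    have hzS : z ∈ S := by
      rw [hS]
      simp only [Finset.mem_biUnion, Finset.mem_univ, true_and]
      exact ⟨l, e, hz⟩
    have h2 : z.natAbs ≤ ∑ z ∈ S, z.natAbs :=
      Finset.single_le_sum (f := fun z : ℤ => z.natAbs) (fun _ _ => Nat.zero_le _) hzS
    rw [← Int.natCast_natAbs]
    exact_mod_cast h2
  obtain ⟨A, hA⟩ := h1
  refine ⟨A + 2 ^ (M + 1) + L0, Nat.le_add_left _ _, fun l => ?_⟩
  intro k hk t0 t1 t2 h0 h1 h2 z0 hz0 z1 hz1 z2 hz2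
  have hp : 2 ^ k + 2 ^ k ≤ 2 ^ (M + 1) := by
    have := Nat.pow_le_pow_right (show 0 < 2 by norm_num) hk.le
    rw [pow_succ]
    omega
  have a0 := abs_le.1 (hA l 0 z0 hz0)
  have a1 := abs_le.1 (hA l 1 z1 hz1)
  have a2 := abs_le.1 (hA l 2 z2 hz2)
  have b0 : (t0 : ℤ) ≤ ((2 ^ (M + 1) : ℕ) : ℤ) := by exact_mod_cast (h0.le.trans hp)
  have b1 : (t1 : ℤ) ≤ ((2 ^ (M + 1) : ℕ) : ℤ) := by exact_mod_cast (h1.le.trans hp)
  have b2 : (t2 : ℤ) ≤ ((2 ^ (M + 1) : ℕ) : ℤ) := by exact_mod_cast (h2.le.trans hp)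
  have c0 : (0 : ℤ) ≤ t0 := Int.natCast_nonneg _
  have c1 : (0 : ℤ) ≤ t1 := Int.natCast_nonneg _
  have c2 : (0 : ℤ) ≤ t2 := Int.natCast_nonneg _
  have cL : (0 : ℤ) ≤ L0 := Int.natCast_nonneg _
  have cM : (0 : ℤ) ≤ ((2 ^ (M + 1) : ℕ) : ℤ) := Int.natCast_nonneg _
  rw [mem_cube]
  simp only [Finset.mem_Icc]
  have e1 : ((A + 2 ^ (M + 1) + L0 : ℕ) : ℤ) = (A : ℤ) + ((2 ^ (M + 1) : ℕ) : ℤ) + (L0 : ℤ) := by
    push_cast; ring
  rw [e1]
  refine ⟨⟨?_, ?_⟩, ⟨?_, ?_⟩, ?_, ?_⟩ <;> linarith [a0.1, a0.2, a1.1, a1.2, a2.1, a2.2]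

section fam

variable {i m : Fin 4} {v : Fin 3} {I : Nd} {Ht Hf La : ℝ} {n : ℕ} {f : Fn}
  {T : Fin n → Fin 3 → Finset ℤ} {g : Fin n → Fin 3 → ℤ → ℤ → ℂ} {θ : Fin n → ℤ → ℝ}
  {μ : Fin n → ℝ}




end fam

/-- the core data of a nontrivial pair as a family -/
theorem PRc.fam {D : TRecN.Dict} {k b cl t La Ht Hf : ℝ} {W : Finset Nd} {I : Nd}
    {i m e e' : Fin 4} {F : Fin 4 → Fn} (hd : Dst4 i m e e') (hHf : 0 ≤ Hf)
    (h : PRc D k b cl t La Ht Hf W I i m e e' F) :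
    ∃ (v : Fin 3) (n : ℕ) (T : Fin n → Fin 3 → Finset ℤ) (g : Fin n → Fin 3 → ℤ → ℤ → ℂ)
      (θ : Fin n → ℤ → ℝ) (μ : Fin n → ℝ), Fam i m v I Ht Hf La n (F i) T g θ μ :=
  Rc.fam hd hHf h.mix

end Crest.Agent.R079.PFx263
namespace Crest.Agent.R079.PFx263.Fam
end Crest.Agent.R079.PFx263.Fam
end

-- ▼ part R079/GaD_571

/-! R079, Step I, (G) words (helper571): THE COMMON INSTANCE.

* `PhiE` : the functional of the slot `i.succAbove (e + 2)` for the family `Fam` (263) and a ladder of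
  `Kl` thresholds (440's `ThL0`), top `I`;
* `penPhi` : `PenC 0`; `phi_nmp` : near-minimisers of `PhiE` are near-minimisers of the `ThF` of `GW`;
* `gw_fam` : 571's `GW` for the family. -/

set_option autoImplicit false

namespace Crest.Agent.R079.GaDx571

open Finset Crest.Agent.R079.Grid Crest.Agent.R079.Glue Crest.Agent.R079.Growth
  Crest.Agent.R079.QRed Crest.Agent.R079.TWin
open Crest.Agent.R079.RelW653 (vl NMP Jv Dv)
open Crest.Agent.R079.RelV653 (PenC)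
open Crest.Agent.R079.GaAx571 Crest.Agent.R079.GaBx571 Crest.Agent.R079.GaWx571
  Crest.Agent.R079.GaXx571 Crest.Agent.R079.GaMx571 Crest.Agent.R079.GaSx571
  Crest.Agent.R079.GaTx571 Crest.Agent.R079.GaVx571 Crest.Agent.R079.GaZx260
  Crest.Agent.R079.GaFx371 Crest.Agent.R079.GaUx571 Crest.Agent.R079.GaRx571
open Crest.Agent.R079.Cel159 Crest.Agent.R079.ThA159 Crest.Agent.R079.ElU440
  Crest.Agent.R079.PFx263

variable {n : ℕ}

/-- bands of the family, one for each atom and each threshold -/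
noncomputable def BdF (i : Fin 4) (e : Fin 3) (T : Fin n → Fin 3 → Finset ℤ) (I : Nd) (Kl : ℕ) :
    Fin n × Fin Kl → Nd → Finset (ℤ × ℤ × ℤ) := fun c => BdE i e (T c.1) I

/-- norms -/
noncomputable def NF (i : Fin 4) (e : Fin 3) (T : Fin n → Fin 3 → Finset ℤ) (I : Nd) (kc Kl : ℕ) :
    Fin n × Fin Kl → Nd → (ℤ × ℤ × ℤ → ℂ) → ℝ :=
  fun c => NmP (SE i e (T c.1) I) Cel159.cf (okc (Ye i e) kc)

/-- side of the top -/
def sd (I : Nd) : ℕ := 2 ^ I.1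

lemma sd_pos (I : Nd) : 0 < sd I := by unfold sd; positivity

/-- **THE FUNCTIONAL** of the slot `i.succAbove (e + 2)` -/
noncomputable def PhiE (i : Fin 4) (e : Fin 3) (T : Fin n → Fin 3 → Finset ℤ)
    (g : Fin n → Fin 3 → ℤ → ℤ → ℂ) (μ : Fin n → ℝ) (I : Nd) (La kap : ℝ) (kc Kl : ℕ)
    (r : ℕ → ℝ) : Nd → Fn → ℝ :=
  ThL0 Kl (fun l => BdE i e (T l) I) (fun _ => poE i e)
    (fun l => NmP (SE i e (T l) I) Cel159.cf (okc (Ye i e) kc)) (fun _ => 1 / (sd I : ℝ) ^ 2)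
    (fun l ω => g l e ω.2.1 ω.2.2) (fun _ q => r q) (fun l => kap * μ l / La)

theorem phi_eq (i : Fin 4) (e : Fin 3) (T : Fin n → Fin 3 → Finset ℤ)
    (g : Fin n → Fin 3 → ℤ → ℤ → ℂ) (μ : Fin n → ℝ) (I : Nd) (La kap : ℝ) (kc Kl : ℕ)
    (r : ℕ → ℝ) : PhiE i e T g μ I La kap kc Kl r =
      ThF (BdF i e T I Kl) (fun _ => poE i e) (NF i e T I kc Kl)
        (fun _ => 1 / (sd I : ℝ) ^ 2) (fun c ω => g c.1 e ω.2.1 ω.2.2)
        (fun c => r c.2) (fun c => kap * μ c.1 / La) := rfl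

section

variable {i m : Fin 4} {v : Fin 3} {I : Nd} {Ht Hf La : ℝ} {f : Fn}
  {T : Fin n → Fin 3 → Finset ℤ} {g : Fin n → Fin 3 → ℤ → ℤ → ℂ} {θ : Fin n → ℤ → ℝ}
  {μ : Fin n → ℝ} (h : Fam i m v I Ht Hf La n f T g θ μ)

include h

theorem bndF (e : Fin 3) (kc Kl : ℕ) (c : Fin n × Fin Kl) :
    Bnd (BdF i e T I Kl c) (poE i e) (NF i e T I kc Kl c) (1 / (sd I : ℝ) ^ 2) :=
  bnd_E i e I (sd_pos I) (h.opD c.1).card kc

theorem penPhi (e : Fin 3) {kap : ℝ} (hkap : 0 ≤ kap) (hLa : 0 < La) (kc Kl : ℕ) {r : ℕ → ℝ}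
    (hr : ∀ q, 0 ≤ r q) :
    PenC 0 (fun _ _ => True) (PhiE i e T g μ I La kap kc Kl r) := by
  rw [phi_eq]
  exact pen_ThF (bndF h e kc Kl) (fun c => hr c.2)
    (fun c => div_nonneg (mul_nonneg hkap (h.μ0 c.1)) hLa.le)

omit h in
theorem mem_BdF (e : Fin 3) {Kl : ℕ} (c : Fin n × Fin Kl) {p : Nd} (hp : iv p ⊆ iv I)
    (w z z' : ℤ) : (w, z, z') ∈ BdF i e T I Kl c p ↔
      z ∈ T c.1 e ∧ z' ∈ T c.1 (e + 1) ∧ Ye i e w z z' ∈ iv p :=
  mem_BdE hp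

omit h in
/-- the band at a node does not depend on the top -/
theorem bdF_eq (e : Fin 3) {Kl : ℕ} (c : Fin n × Fin Kl) {p : Nd} (hp : iv p ⊆ iv I) :
    BdF i e T I Kl c p = BdE i e (T c.1) p p := by
  ext ⟨w, z, z'⟩
  exact (mem_BdE hp).trans (mem_BdE (Finset.Subset.refl _)).symm

/-- **571's `GW` for the family** -/
theorem gw_fam {bb : ℤ} (hbb : bb = -1 ∨ bb = -7) {e e' : Fin 3} (hee : e ≠ e') {J : Nd}
    (hJ : iv J ⊆ iv I) (hLa : 0 < La) {kap : ℝ} (hkap : 0 < kap) (kc : ℕ) {Kl : ℕ} (hKl : 0 < Kl)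
    {r : ℕ → ℝ} (hr : ∀ q, 0 ≤ r q) {F : Fin 4 → Fn} (hF : F i = f) {P : Finset (ℤ × ℤ × ℤ)}
    (hP : ∀ l, Cov (J.1 + 1) (T l) P) {R : Finset Nd} (hR : Full R J) {ε : ℕ → ℤ → ℂ}
    (hε : ∀ m x, ‖ε m x‖ ≤ 1) :
    GW i bb e e' T g (fun l => ((l, ⟨0, hKl⟩) : Fin n × Fin Kl)) J (BdF i e T I Kl)
      (fun _ => poE i e) (NF i e T I kc Kl) (fun _ => 1 / (sd I : ℝ) ^ 2)
      (fun c ω => g c.1 e ω.2.1 ω.2.2) (fun c => r c.2) (fun c => kap * μ c.1 / La) μ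
      ((sd I : ℝ) ^ 2) La kap F P (J.1 + 1) ε R where
  bb7 := hbb
  ne := hee
  mu0 := h.μ0
  cn0 := by have := sd_pos I; positivity
  La0 := hLa
  kap0 := hkap
  muS := h.μ1
  inj := fun a b hab => (Prod.mk.inj hab).1
  kn := fun l => le_of_eq (by
    have : (0 : ℝ) < sd I := by exact_mod_cast sd_pos I
    field_simp)
  bnd := bndF h e kc Kl
  r0 := fun c => hr c.2
  kp0 := fun c => div_nonneg (mul_nonneg hkap.le (h.μ0 c.1)) hLa.le
  ok :=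
    { mem := fun l p hp w z z' => mem_BdF e _ (hp.trans hJ) w z z'
      pos := fun _ _ _ _ => rfl
      gau := fun _ _ _ _ => rfl }
  rep := by
    intro y hy
    rw [hF, h.rep y (hJ hy)]
    refine Finset.sum_congr rfl fun l _ => ?_
    unfold sd
    push_cast
    rfl
  cov := hP
  lev := fun q hq => Nat.lt_succ_of_le (Growth.iv_level (hR.reg.1 q hq))
  eps := hε

end

end Crest.Agent.R079.GaDx571
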