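import Crest.Agent.R079.L0e_292
import Crest.Agent.R079.Qe_292
import Crest.Agent.R079.Qh_249
import Crest.Agent.R079.TS0_903
import Crest.Agent.R079.TSignW_815

-- ▼ part R079/MaxQ_398
section

/-! R079, L5 item 0 (helper398), part 1: running maximum of the local `L^q` averages (`2 ≤ q < 3`)
and the maximal theorem, potential `3 M^(3-q) a^q - (3-q) M^3` (292's argument). -/

set_option autoImplicit false

namespace Crest.Agent.R079.L0q

open Finset Grid L0e

/-- normalised local `L^q` norm of `f` on `dI k l` -/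
noncomputable def avq (q : ℝ) (k : ℕ) (l : ℤ) (f : ℤ → ℂ) : ℝ :=
  ((1 / 2 ^ k) * ∑ y ∈ dI k l, ‖f y‖ ^ q) ^ (1 / q)

lemma avq_base_nonneg (q : ℝ) (k : ℕ) (l : ℤ) (f : ℤ → ℂ) :
    0 ≤ (1 / 2 ^ k : ℝ) * ∑ y ∈ dI k l, ‖f y‖ ^ q :=
  mul_nonneg (by positivity) (Finset.sum_nonneg fun y _ => Real.rpow_nonneg (norm_nonneg _) _)

lemma avq_nonneg (q : ℝ) (k : ℕ) (l : ℤ) (f : ℤ → ℂ) : 0 ≤ avq q k l f :=
  Real.rpow_nonneg (avq_base_nonneg q k l f) _

lemma avq_rpow {q : ℝ} (hq : 0 < q) (k : ℕ) (l : ℤ) (f : ℤ → ℂ) :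
    avq q k l f ^ q = (1 / 2 ^ k) * ∑ y ∈ dI k l, ‖f y‖ ^ q := by
  unfold avq
  rw [← Real.rpow_mul (avq_base_nonneg q k l f), one_div_mul_cancel hq.ne', Real.rpow_one]

lemma sum_rpow_eq {q : ℝ} (hq : 0 < q) (k : ℕ) (l : ℤ) (f : ℤ → ℂ) :
    ∑ y ∈ dI k l, ‖f y‖ ^ q = 2 ^ k * avq q k l f ^ q := by
  rw [avq_rpow hq]
  have : (0 : ℝ) < 2 ^ k := by positivity
  field_simp

lemma avq_rpow_succ {q : ℝ} (hq : 0 < q) (k : ℕ) (l : ℤ) (f : ℤ → ℂ) :
    2 * avq q (k + 1) l f ^ q = avq q k (2 * l) f ^ q + avq q k (2 * l + 1) f ^ q := by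
  have h := sum_dI_succ k l (fun y => ‖f y‖ ^ q)
  rw [sum_rpow_eq hq, sum_rpow_eq hq, sum_rpow_eq hq, pow_succ] at h
  have h2 : (0 : ℝ) < 2 ^ k := by positivity
  have h3 : (2 : ℝ) ^ k * (2 * avq q (k + 1) l f ^ q) =
      2 ^ k * (avq q k (2 * l) f ^ q + avq q k (2 * l + 1) f ^ q) := by
    linear_combination h
  exact mul_left_cancel₀ h2.ne' h3

/-- running maximum from level `T + 7` down to level `T - d + 7`. -/
noncomputable def Mq (q : ℝ) (T : ℕ) (f : ℤ → ℂ) : ℕ → ℤ → ℝ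
  | 0, l => avq q (T + 7) l f
  | (d + 1), l => max (Mq q T f d (l / 2)) (avq q (T - (d + 1) + 7) l f)

lemma avq_le_Mq (q : ℝ) (T : ℕ) (f : ℤ → ℂ) (d : ℕ) (l : ℤ) :
    avq q (T - d + 7) l f ≤ Mq q T f d l := by
  cases d with
  | zero => exact le_refl _
  | succ d => exact le_max_right _ _

lemma Mq_nonneg (q : ℝ) (T : ℕ) (f : ℤ → ℂ) (d : ℕ) (l : ℤ) : 0 ≤ Mq q T f d l :=
  (avq_nonneg _ _ _ _).trans (avq_le_Mq q T f d l)

lemma Mq_mono (q : ℝ) (T : ℕ) (f : ℤ → ℂ) (d k : ℕ) (l : ℤ) :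
    Mq q T f d (l / 2 ^ k) ≤ Mq q T f (d + k) l := by
  induction k generalizing l with
  | zero => simp
  | succ k ih =>
    have e : l / 2 ^ (k + 1) = l / 2 / 2 ^ k := by
      rw [add_comm k 1, ← ediv_pow_pow, pow_one]
    rw [e]
    refine (ih (l / 2)).trans ?_
    exact le_max_left _ _











end Crest.Agent.R079.L0q
private theorem rz_635e18e0a2 : type_of% @_root_.Crest.Agent.R079.L0q.Mq.eq_def := @_root_.Crest.Agent.R079.L0q.Mq.eq_def -- L45
private theorem rz_9505c322bf : type_of% @_root_.Crest.Agent.R079.L0q.Mq.eq_1 := @_root_.Crest.Agent.R079.L0q.Mq.eq_1 -- L45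
end

-- ▼ part R079/TLocA_13
section

/-! R079, M4 (doc 2489 of helper911, "Norms"), piece LOCALISATION, part 1 (helper13): stopping at the
doubling of the running maxima.  `v i` = local norm of the letter `i ∈ S` at a node; if the class
bound holds on every full sub-region with the local norms there, it holds on `R` with
`∑_y ∏ Mx i y`. -/

set_option autoImplicit false

namespace Crest.Agent.R079.TLoc13

open Finset Crest.Agent.R079.Grid Crest.Agent.R079.Growth Crest.Agent.R079.QRed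
open Crest.Agent.R079.Qe292

section tops

variable {R : Finset Nd} {g : Nd → Nd → ℝ} {δ : ℝ} {J : Nd}

/-- the set of all tops below `I`, with an arbitrary weight `Λ` of the tops controlled by a
potential `Ψ` -/
lemma tops_gen (hR : Full R J) {Λ Ψ : Nd → ℝ} (hΛ : ∀ K, K ∈ R → 0 ≤ Λ K)
    (hΨ : ∀ I ∈ R, Λ I + ∑ c ∈ Tp R g δ I, Ψ c ≤ Ψ I) :
    ∀ (n : ℕ) (I : Nd), I ∈ R → I.1 < n → ∃ S : Finset Nd, S ⊆ R ∧ (∀ K ∈ S, iv K ⊆ iv I) ∧
      (∀ K ∈ S, ∀ K' ∈ S, K ≠ K' → Disjoint (Wd R g δ K) (Wd R g δ K')) ∧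
      (∀ p ∈ R, iv p ⊆ iv I → ∃ K ∈ S, p ∈ Wd R g δ K) ∧
      ∑ K ∈ S, Λ K ≤ Ψ I := by
  classical
  intro n
  induction n with
  | zero => intro I _ h; omega
  | succ n ih =>
    intro I hI hn
    have hex : ∀ c : Nd, ∃ S : Finset Nd, c ∈ Tp R g δ I → (S ⊆ R ∧ (∀ K ∈ S, iv K ⊆ iv c) ∧
      (∀ K ∈ S, ∀ K' ∈ S, K ≠ K' → Disjoint (Wd R g δ K) (Wd R g δ K')) ∧
      (∀ p ∈ R, iv p ⊆ iv c → ∃ K ∈ S, p ∈ Wd R g δ K) ∧
      ∑ K ∈ S, Λ K ≤ Ψ c) := by
      intro c
      by_cases hc : c ∈ Tp R g δ I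
      · have hl := Tp_level hI hc
        obtain ⟨S, hS⟩ := ih c (mem_Tp.1 hc).1 (by omega)
        exact ⟨S, fun _ => hS⟩
      · exact ⟨∅, fun h => absurd h hc⟩
    choose S hS using hex
    have hSR : ({I} ∪ (Tp R g δ I).biUnion S) ⊆ R := by
      refine Finset.union_subset (Finset.singleton_subset_iff.2 hI) ?_
      exact Finset.biUnion_subset.2 fun c hc => (hS c hc).1
    refine ⟨{I} ∪ (Tp R g δ I).biUnion S, hSR, ?_, ?_, ?_, ?_⟩
    · intro K hK
      rcases Finset.mem_union.1 hK with h | h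
      · rw [Finset.mem_singleton.1 h]
      · obtain ⟨c, hc, hKc⟩ := Finset.mem_biUnion.1 h
        exact ((hS c hc).2.1 K hKc).trans (mem_Tp.1 hc).2.1
    · -- disjointness
      have hA : ∀ K ∈ (Tp R g δ I).biUnion S, Disjoint (Wd R g δ I) (Wd R g δ K) := by
        intro K hK
        obtain ⟨c, hc, hKc⟩ := Finset.mem_biUnion.1 hK
        rw [Finset.disjoint_left]
        intro p hpI hpK
        have h1 : iv p ⊆ iv c := (mem_Wd.1 hpK).2.1.trans ((hS c hc).2.1 K hKc)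
        exact (mem_Tp.1 hc).2.2.1 (Wd_up hR hI hpI h1 (mem_Tp.1 hc).2.1)
      intro K hK K' hK' hne
      rcases Finset.mem_union.1 hK with h | h <;> rcases Finset.mem_union.1 hK' with h' | h'
      · rw [Finset.mem_singleton.1 h, Finset.mem_singleton.1 h'] at hne
        exact absurd rfl hne
      · rw [Finset.mem_singleton.1 h]
        exact hA K' h'
      · rw [Finset.mem_singleton.1 h']
        exact (hA K h).symm
      · obtain ⟨c, hc, hKc⟩ := Finset.mem_biUnion.1 h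
        obtain ⟨c', hc', hKc'⟩ := Finset.mem_biUnion.1 h'
        by_cases hcc : c = c'
        · subst hcc
          exact (hS c hc).2.2.1 K hKc K' hKc' hne
        · rw [Finset.disjoint_left]
          intro p hp hp'
          exact hcc (Tp_disj hR hI hc hc'
            ((mem_Wd.1 hp).2.1.trans ((hS c hc).2.1 K hKc))
            ((mem_Wd.1 hp').2.1.trans ((hS c' hc').2.1 K' hKc')))
    · -- cover
      intro p hp hpI
      by_cases hw : p ∈ Wd R g δ I
      · exact ⟨I, Finset.mem_union_left _ (Finset.mem_singleton_self I), hw⟩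
      · have hl := Qe292.iv_level hpI
        obtain ⟨c, hc, hpc⟩ := below_top hR hI (I.1 - p.1) p (by omega) hp hpI hw
        obtain ⟨K, hK, hK'⟩ := (hS c hc).2.2.2.1 p hp hpc
        exact ⟨K, Finset.mem_union_right _ (Finset.mem_biUnion.2 ⟨c, hc, hK⟩), hK'⟩
    · -- weights
      have h1 : ∑ K ∈ {I} ∪ (Tp R g δ I).biUnion S, Λ K
          ≤ Λ I + ∑ K ∈ (Tp R g δ I).biUnion S, Λ K := by
        have := Finset.sum_union_inter (s₁ := ({I} : Finset Nd))
          (s₂ := (Tp R g δ I).biUnion S) (f := Λ)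
        rw [Finset.sum_singleton] at this
        have h0 : 0 ≤ ∑ K ∈ {I} ∩ (Tp R g δ I).biUnion S, Λ K :=
          Finset.sum_nonneg fun K hK => hΛ K (hSR (Finset.mem_union_right _
            (Finset.mem_of_mem_inter_right hK)))
        linarith
      have h2 : ∑ K ∈ (Tp R g δ I).biUnion S, Λ K ≤ ∑ c ∈ Tp R g δ I, ∑ K ∈ S c, Λ K := by
        have hd : Set.PairwiseDisjoint (Tp R g δ I : Set Nd) S := by
          intro c hc c' hc' hne
          rw [Function.onFun, Finset.disjoint_left]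
          intro K hK hK'
          exact hne (Tp_disj hR hI (by exact_mod_cast hc) (by exact_mod_cast hc')
            ((hS c (by exact_mod_cast hc)).2.1 K hK)
            ((hS c' (by exact_mod_cast hc')).2.1 K hK'))
        rw [Finset.sum_biUnion hd]
      have h3 : ∑ c ∈ Tp R g δ I, ∑ K ∈ S c, Λ K ≤ ∑ c ∈ Tp R g δ I, Ψ c :=
        Finset.sum_le_sum fun c hc => (hS c hc).2.2.2.2
      have h4 := hΨ I hI
      linarith

end tops

/-! ### the running maximum over the strict ancestors -/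

section rm

variable (R : Finset Nd) (J : Nd) (v : Nd → ℝ)

open Classical in
/-- strict ancestors in `R`, and `J` -/
noncomputable def An (p : Nd) : Finset Nd := insert J (R.filter fun q => iv p ⊆ iv q ∧ q ≠ p)

lemma An_ne (p : Nd) : (An R J p).Nonempty := ⟨J, by unfold An; exact Finset.mem_insert_self _ _⟩

/-- running maximum over the strict ancestors -/
noncomputable def rm (p : Nd) : ℝ := (An R J p).sup' (An_ne R J p) v

variable {R J v}

lemma mem_An {p q : Nd} : q ∈ An R J p ↔ q = J ∨ (q ∈ R ∧ iv p ⊆ iv q ∧ q ≠ p) := by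
  unfold An
  rw [Finset.mem_insert, Finset.mem_filter]

lemma le_rm {p q : Nd} (h : q ∈ An R J p) : v q ≤ rm R J v p := by
  unfold rm
  exact Finset.le_sup' v h

lemma rm_le {p : Nd} {x : ℝ} (h : ∀ q ∈ An R J p, v q ≤ x) : rm R J v p ≤ x := by
  unfold rm
  exact Finset.sup'_le _ _ h

lemma rm_mono {p I : Nd} (h : iv p ⊆ iv I) : rm R J v I ≤ rm R J v p := by
  refine rm_le fun q hq => le_rm ?_
  rw [mem_An] at hq ⊢
  rcases hq with h1 | ⟨h1, h2, h3⟩
  · exact Or.inl h1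
  · refine Or.inr ⟨h1, h.trans h2, ?_⟩
    rintro rfl
    exact h3 (iv_antisymm h h2)

lemma An_sib {c q : Nd} (h : q ∈ An R J c) : q ∈ An R J (sib c) := by
  rw [mem_An] at h ⊢
  rcases h with h1 | ⟨h1, h2, h3⟩
  · exact Or.inl h1
  · refine Or.inr ⟨h1, ?_, ?_⟩
    · have h4 := par_sub h2 (Ne.symm h3)
      have h5 := iv_par (sib c)
      rw [par_sib] at h5
      exact h5.trans h4
    · rintro rfl
      have h4 := par_sub h2 (Ne.symm h3)
      have := Qe292.iv_level h4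
      simp only [par, sib] at this
      omega

lemma rm_sib (c : Nd) : rm R J v (sib c) = rm R J v c := by
  refine le_antisymm (rm_le fun q hq => le_rm ?_) (rm_le fun q hq => le_rm (An_sib hq))
  have := An_sib hq
  rwa [sib_sib] at this

end rm

lemma iv_disj_of {R : Finset Nd} {g : Nd → Nd → ℝ} {δ : ℝ} {J I : Nd} (hR : Full R J) (hI : I ∈ R)
    {c c' : Nd} (hc : c ∈ Tp R g δ I) (hc' : c' ∈ Tp R g δ I) (hne : c ≠ c') :
    Disjoint (iv c) (iv c') := by
  rw [Finset.disjoint_left]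
  intro y hy hy'
  rcases iv_nest hy hy' with h | h
  · exact hne (Tp_disj hR hI hc hc' subset_rfl h)
  · exact hne (Tp_disj hR hI hc hc' h subset_rfl)

/-- **stopping at the doubling of the running maxima** -/
theorem loc_global {ι : Type*} (S : Finset ι) {R : Finset Nd} {J : Nd} (hR : Full R J)
    (v : ι → Nd → ℝ) (D : ℝ) (hD : 1 ≤ D) (hv0 : ∀ i ∈ S, ∀ p ∈ R, 0 ≤ v i p)
    (hvD : ∀ i ∈ S, ∀ p ∈ R, par p ∈ R → v i p ≤ D * v i (par p))
    (Mx : ι → ℤ → ℝ) (hMx : ∀ i ∈ S, ∀ p ∈ R, ∀ y ∈ iv p, v i p ≤ Mx i y)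
    (c : Nd → ℂ) (a : ℝ) (ha : 0 ≤ a)
    (hyp : ∀ (W : Finset Nd) (I : Nd), Full W I → W ⊆ R → ∀ l : ι → ℝ, (∀ i ∈ S, 0 ≤ l i) →
      (∀ i ∈ S, ∀ p ∈ W, v i p ≤ l i) → ‖∑ p ∈ W, c p‖ ≤ a * (∏ i ∈ S, l i) * len I) :
    ‖∑ p ∈ R, c p‖ ≤ 2 * (2 * D) ^ S.card * a * ∑ y ∈ iv J, ∏ i ∈ S, Mx i y := by
  classical
  set m : ι → Nd → ℝ := fun i p => rm R J (v i) p with hm
  set lam : Nd → ℝ := fun p => ∏ i ∈ S, m i p with hlam
  set P : ℤ → ℝ := fun y => ∏ i ∈ S, Mx i y with hP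
  set g : Nd → Nd → ℝ := fun I p => if ∃ i ∈ S, 2 * m i I < m i p then 1 else 0 with hg
  have hm0 : ∀ i ∈ S, ∀ p, 0 ≤ m i p := fun i hi p =>
    (hv0 i hi J hR.top).trans (le_rm (mem_An.2 (Or.inl rfl)))
  have hlam0 : ∀ p, 0 ≤ lam p := fun p => Finset.prod_nonneg fun i hi => hm0 i hi p
  -- the running maximum is below `Mx`
  have hmM : ∀ i ∈ S, ∀ p ∈ R, ∀ y ∈ iv p, m i p ≤ Mx i y := by
    intro i hi p hp y hy
    refine rm_le fun q hq => ?_
    rcases mem_An.1 hq with h1 | ⟨h1, h2, _⟩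
    · rw [h1]
      exact hMx i hi J hR.top y (hR.reg.1 p hp hy)
    · exact hMx i hi q h1 y (h2 hy)
  have hlP : ∀ p ∈ R, ∀ y ∈ iv p, lam p ≤ P y := fun p hp y hy =>
    Finset.prod_le_prod (fun i hi => hm0 i hi p) fun i hi => hmM i hi p hp y hy
  -- doubling at the next tops
  have hdbl : ∀ I c', c' ∈ Tp R g (1 / 2) I → 2 * lam I ≤ lam c' := by
    intro I c' hc'
    have hb := Tp_bad hc'
    have hsub : iv c' ⊆ iv I := (mem_Tp.1 hc').2.1
    have hex : ∃ i ∈ S, 2 * m i I < m i c' := by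
      rcases hb with h | h
      · by_contra hcon
        simp only [hg, if_neg hcon] at h
        linarith
      · by_contra hcon
        have e : ∀ i, m i (sib c') = m i c' := fun i => rm_sib c'
        simp only [hg, e, if_neg hcon] at h
        linarith
    obtain ⟨i, hi, hlt⟩ := hex
    simp only [hlam]
    rw [← Finset.mul_prod_erase S (fun i => m i I) hi, ← Finset.mul_prod_erase S (fun i => m i c') hi]
    have h1 : ∏ x ∈ S.erase i, m x I ≤ ∏ x ∈ S.erase i, m x c' :=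
      Finset.prod_le_prod (fun x hx => hm0 x (Finset.mem_of_mem_erase hx) I)
        fun x _ => rm_mono hsub
    have h0 : 0 ≤ ∏ x ∈ S.erase i, m x I :=
      Finset.prod_nonneg fun x hx => hm0 x (Finset.mem_of_mem_erase hx) I
    have h2 := hm0 i hi I
    calc 2 * (m i I * ∏ x ∈ S.erase i, m x I) = (2 * m i I) * ∏ x ∈ S.erase i, m x I := by ring
      _ ≤ m i c' * ∏ x ∈ S.erase i, m x c' :=
        mul_le_mul hlt.le h1 h0 (hm0 i hi c')
  -- the potential
  set Ψ : Nd → ℝ := fun I => 2 * ∑ y ∈ iv I, P y - lam I * len I with hΨd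
  have hΨ : ∀ I ∈ R, lam I * len I + ∑ c' ∈ Tp R g (1 / 2) I, Ψ c' ≤ Ψ I := by
    intro I hI
    have h1 : ∑ c' ∈ Tp R g (1 / 2) I, Ψ c' ≤
        ∑ c' ∈ Tp R g (1 / 2) I, 2 * ∑ y ∈ iv c', (P y - lam I) := by
      refine Finset.sum_le_sum fun c' hc' => ?_
      simp only [hΨd]
      rw [Finset.sum_sub_distrib, Finset.sum_const, nsmul_eq_mul, Growth.card_iv]
      have h2 := mul_le_mul_of_nonneg_right (hdbl I c' hc') (Qe292.len_pos c').le
      linarith
    have h2 : ∑ c' ∈ Tp R g (1 / 2) I, 2 * ∑ y ∈ iv c', (P y - lam I) ≤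
        2 * ∑ y ∈ iv I, (P y - lam I) := by
      rw [← Finset.mul_sum]
      refine mul_le_mul_of_nonneg_left ?_ (by norm_num)
      have hd : Set.PairwiseDisjoint (Tp R g (1 / 2) I : Set Nd) iv := by
        intro c' hc' c'' hc'' hne
        exact iv_disj_of hR hI (by exact_mod_cast hc') (by exact_mod_cast hc'') hne
      rw [← Finset.sum_biUnion hd]
      refine Finset.sum_le_sum_of_subset_of_nonneg ?_ fun y hy _ => ?_
      · exact Finset.biUnion_subset.2 fun c' hc' => (mem_Tp.1 hc').2.1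
      · have := hlP I hI y hy
        linarith
    have h3 : 2 * ∑ y ∈ iv I, (P y - lam I) = 2 * ∑ y ∈ iv I, P y - 2 * (lam I * len I) := by
      rw [Finset.sum_sub_distrib, Finset.sum_const, nsmul_eq_mul, Growth.card_iv]
      ring
    simp only [hΨd] at *
    linarith
  obtain ⟨T, hTR, hTJ, hTd, hTc, hTl⟩ := tops_gen (g := g) (δ := 1 / 2) hR
    (Λ := fun K => lam K * len K) (Ψ := Ψ)
    (fun K _ => mul_nonneg (hlam0 K) (Qe292.len_pos K).le) hΨ (J.1 + 1) J hR.top (Nat.lt_succ_self _)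
  -- split the sum
  have hsplit : ∑ p ∈ R, c p = ∑ K ∈ T, ∑ p ∈ Wd R g (1 / 2) K, c p := by
    rw [← Finset.sum_biUnion]
    · refine Finset.sum_congr ?_ fun _ _ => rfl
      ext p
      rw [Finset.mem_biUnion]
      constructor
      · intro hp
        exact hTc p hp (hR.reg.1 p hp)
      · rintro ⟨K, _, hK⟩
        exact Wd_sub hK
    · intro K hK K' hK' hne
      exact hTd K (by exact_mod_cast hK) K' (by exact_mod_cast hK') hne
  have hwin : ∀ K ∈ T, ‖∑ p ∈ Wd R g (1 / 2) K, c p‖ ≤ a * ((2 * D) ^ S.card * lam K) * len K := by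
    intro K hK
    have h1 := hyp (Wd R g (1 / 2) K) K (Wd_full hR (hTR hK)) Wd_sub
      (fun i => 2 * D * m i K) (fun i hi => mul_nonneg (by linarith) (hm0 i hi K)) ?_
    · rw [Finset.prod_mul_distrib, Finset.prod_const] at h1
      exact h1
    · intro i hi p hp
      have hpR : p ∈ R := Wd_sub hp
      have hmp : m i p ≤ 2 * m i K := by
        have hgg : g K p ≤ 1 / 2 := by
          refine Wd_good (fun I => ?_) hp
          have : ¬ ∃ i ∈ S, 2 * m i I < m i I := by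
            rintro ⟨i, hi, h⟩
            have := hm0 i hi I
            linarith
          simp only [hg, if_neg this]
          norm_num
        by_contra hcon
        push Not at hcon
        have : ∃ i ∈ S, 2 * m i K < m i p := ⟨i, hi, hcon⟩
        simp only [hg, if_pos this] at hgg
        linarith
      have h0 := hm0 i hi K
      by_cases hpJ : p = J
      · have h2 : v i p ≤ m i p := by
          rw [hpJ]
          exact le_rm (mem_An.2 (Or.inl rfl))
        have h3 : 2 * m i K ≤ 2 * D * m i K := by nlinarith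
        linarith
      · have hpar : par p ∈ R := hR.reg.2 p hpR _ (iv_par p) (par_sub (hR.reg.1 p hpR) hpJ)
        have h2 : v i (par p) ≤ m i p := by
          refine le_rm (mem_An.2 (Or.inr ⟨hpar, iv_par p, ?_⟩))
          intro h
          have := congrArg Prod.fst h
          simp only [par] at this
          omega
        have h3 := hvD i hi p hpR hpar
        have h4 : D * v i (par p) ≤ D * (2 * m i K) :=
          mul_le_mul_of_nonneg_left (h2.trans hmp) (by linarith)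
        linarith
  rw [hsplit]
  refine (norm_sum_le _ _).trans ((Finset.sum_le_sum hwin).trans ?_)
  have e1 : ∑ K ∈ T, a * ((2 * D) ^ S.card * lam K) * len K
      = a * (2 * D) ^ S.card * ∑ K ∈ T, lam K * len K := by
    rw [Finset.mul_sum]
    exact Finset.sum_congr rfl fun K _ => by ring
  rw [e1]
  have h5 : ∑ K ∈ T, lam K * len K ≤ 2 * ∑ y ∈ iv J, P y := by
    refine hTl.trans ?_
    simp only [hΨd]
    have := mul_nonneg (hlam0 J) (Qe292.len_pos J).le
    linarith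
  have h6 : 0 ≤ a * (2 * D) ^ S.card := mul_nonneg ha (pow_nonneg (by linarith) _)
  calc a * (2 * D) ^ S.card * ∑ K ∈ T, lam K * len K
      ≤ a * (2 * D) ^ S.card * (2 * ∑ y ∈ iv J, P y) := mul_le_mul_of_nonneg_left h5 h6
    _ = _ := by ring

end Crest.Agent.R079.TLoc13
end

-- ▼ part R079/TLocB_13
section

/-! R079, M4 (doc 2489), piece LOCALISATION, part 2 (helper13): maximal theorem for the running
maximum of the local `L^q` averages in `ℓ^r`, all `0 < q < r` (398's potential with `3` replaced by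
`r`), and the localisation with one or two slots in a global `ℓ^r` norm. -/

set_option autoImplicit false

namespace Crest.Agent.R079.TLoc13

open Finset Crest.Agent.R079.Grid Crest.Agent.R079.Growth Crest.Agent.R079.QRed
open Crest.Agent.R079.Qe292 Crest.Agent.R079.L0q Crest.Agent.R079.L0e

lemma mul_self_rpow' {q r a : ℝ} (hq : 0 < q) (hqr : q < r) (ha : 0 ≤ a) :
    a ^ (r - q) * a ^ q = a ^ r := by
  rw [← Real.rpow_add_of_nonneg ha (by linarith) hq.le]
  congr 1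
  ring

/-- weighted AM-GM with a parameter -/
lemma amgm' {q r M a : ℝ} (hq : 0 < q) (hqr : q < r) (hM : 0 ≤ M) (ha : 0 ≤ a) :
    r * (M ^ (r - q) * a ^ q) ≤ (r - q) * M ^ r + q * a ^ r := by
  have hr : 0 < r := hq.trans hqr
  have h := Real.geom_mean_le_arith_mean2_weighted (w₁ := (r - q) / r) (w₂ := q / r)
    (p₁ := M ^ r) (p₂ := a ^ r) (div_nonneg (by linarith) hr.le) (div_nonneg hq.le hr.le)
    (Real.rpow_nonneg hM _) (Real.rpow_nonneg ha _) (by field_simp; ring)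
  have e1 : (M ^ r) ^ ((r - q) / r) = M ^ (r - q) := by
    rw [← Real.rpow_mul hM]
    congr 1
    field_simp
  have e2 : (a ^ r) ^ (q / r) = a ^ q := by
    rw [← Real.rpow_mul ha]
    congr 1
    field_simp
  rw [e1, e2] at h
  have h2 := mul_le_mul_of_nonneg_left h hr.le
  have e3 : r * ((r - q) / r * M ^ r + q / r * a ^ r) = (r - q) * M ^ r + q * a ^ r := by
    field_simp
  rw [e3] at h2
  exact h2

/-- the constant of the maximal theorem (before division by `r - q`) -/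
noncomputable def yc (q r : ℝ) : ℝ := q * (2 : ℝ) ^ ((r - q) / q)

lemma yc_nonneg {q r : ℝ} (hq : 0 < q) : 0 ≤ yc q r :=
  mul_nonneg hq.le (Real.rpow_nonneg (by norm_num) _)

lemma young' {q r M t : ℝ} (hq : 0 < q) (hqr : q < r) (hM : 0 ≤ M) (ht : 0 ≤ t) :
    r * (M ^ (r - q) * t ^ q) ≤ (r - q) / 2 * M ^ r + yc q r * t ^ r := by
  have hr : 0 < r := hq.trans hqr
  set u : ℝ := (2 : ℝ) ^ (-(1 / r)) with hu
  set w : ℝ := (2 : ℝ) ^ ((r - q) / (q * r)) with hw
  have hu0 : 0 ≤ u := Real.rpow_nonneg (by norm_num) _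
  have hw0 : 0 ≤ w := Real.rpow_nonneg (by norm_num) _
  have h := amgm' (M := u * M) (a := w * t) hq hqr (mul_nonneg hu0 hM) (mul_nonneg hw0 ht)
  rw [Real.mul_rpow hu0 hM, Real.mul_rpow hw0 ht, Real.mul_rpow hu0 hM, Real.mul_rpow hw0 ht] at h
  have e1 : u ^ (r - q) * w ^ q = 1 := by
    rw [hu, hw, ← Real.rpow_mul (by norm_num), ← Real.rpow_mul (by norm_num),
      ← Real.rpow_add (by norm_num)]
    have : -(1 / r) * (r - q) + (r - q) / (q * r) * q = 0 := by
      field_simp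
      ring
    rw [this, Real.rpow_zero]
  have e2 : u ^ r = 1 / 2 := by
    rw [hu, ← Real.rpow_mul (by norm_num)]
    have : -(1 / r) * r = -1 := by field_simp
    rw [this, Real.rpow_neg_one]
    norm_num
  have e3 : w ^ r = (2 : ℝ) ^ ((r - q) / q) := by
    rw [hw, ← Real.rpow_mul (by norm_num)]
    congr 1
    field_simp
  have e4 : u ^ (r - q) * M ^ (r - q) * (w ^ q * t ^ q) = M ^ (r - q) * t ^ q := by
    calc u ^ (r - q) * M ^ (r - q) * (w ^ q * t ^ q)
        = (u ^ (r - q) * w ^ q) * (M ^ (r - q) * t ^ q) := by ring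
      _ = _ := by rw [e1, one_mul]
  rw [e4, e2, e3] at h
  unfold yc
  linarith

lemma pot_child' {q r M a : ℝ} (hq : 0 < q) (hqr : q < r) (hM : 0 ≤ M) (ha : 0 ≤ a) :
    r * (M ^ (r - q) * a ^ q) - (r - q) * M ^ r ≤
      r * ((max M a) ^ (r - q) * a ^ q) - (r - q) * (max M a) ^ r := by
  rcases le_total M a with h | h
  · rw [max_eq_right h, mul_self_rpow' hq hqr ha]
    have := amgm' hq hqr hM ha
    linarith
  · rw [max_eq_left h]

/-- the potential -/
noncomputable def Wr (q r : ℝ) (T : ℕ) (f : ℤ → ℂ) (A B : ℤ) (d : ℕ) : ℝ :=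
  ∑ l ∈ Finset.Ico (A * 2 ^ d) (B * 2 ^ d),
    2 ^ (T - d + 7) * (r * (Mq q T f d l ^ (r - q) * avq q (T - d + 7) l f ^ q) -
      (r - q) * Mq q T f d l ^ r)

lemma Wr_zero {q r : ℝ} (hq : 0 < q) (hqr : q < r) (T : ℕ) (f : ℤ → ℂ) (A B : ℤ) :
    0 ≤ Wr q r T f A B 0 := by
  unfold Wr
  refine Finset.sum_nonneg fun l _ => ?_
  have h : (0 : ℝ) ≤ avq q (T + 7) l f := avq_nonneg _ _ _ _
  have e : r * (Mq q T f 0 l ^ (r - q) * avq q (T - 0 + 7) l f ^ q) -
      (r - q) * Mq q T f 0 l ^ r = q * avq q (T + 7) l f ^ r := by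
    simp only [Mq, Nat.sub_zero]
    rw [mul_self_rpow' hq hqr h]
    ring
  rw [e]
  have := Real.rpow_nonneg h r
  positivity

lemma Wr_succ {q r : ℝ} (hq : 0 < q) (hqr : q < r) (T : ℕ) (f : ℤ → ℂ) (A B : ℤ) (d : ℕ)
    (hd : d + 1 ≤ T) : Wr q r T f A B d ≤ Wr q r T f A B (d + 1) := by
  unfold Wr
  have e1 : A * (2 : ℤ) ^ (d + 1) = 2 * (A * 2 ^ d) := by ring
  have e2 : B * (2 : ℤ) ^ (d + 1) = 2 * (B * 2 ^ d) := by ring
  rw [e1, e2, sum_two]
  refine Finset.sum_le_sum fun l _ => ?_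
  obtain ⟨k, hk⟩ : ∃ k, T = d + 1 + k := Nat.exists_eq_add_of_le hd
  have k1 : T - d + 7 = (T - (d + 1) + 7) + 1 := by omega
  rw [k1]
  set n := T - (d + 1) + 7 with hn
  have hav := avq_rpow_succ hq n l f
  have m0 : Mq q T f (d + 1) (2 * l) = max (Mq q T f d l) (avq q n (2 * l) f) := by
    simp only [Mq]
    rw [show 2 * l / 2 = l by omega]
  have m1 : Mq q T f (d + 1) (2 * l + 1) = max (Mq q T f d l) (avq q n (2 * l + 1) f) := by
    simp only [Mq]
    rw [show (2 * l + 1) / 2 = l by omega]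
  rw [m0, m1]
  have c0 := pot_child' hq hqr (Mq_nonneg q T f d l) (avq_nonneg q n (2 * l) f)
  have c1 := pot_child' hq hqr (Mq_nonneg q T f d l) (avq_nonneg q n (2 * l + 1) f)
  have hp : (0 : ℝ) < 2 ^ n := by positivity
  rw [pow_succ, mul_assoc, ← mul_add]
  refine mul_le_mul_of_nonneg_left ?_ hp.le
  calc 2 * (r * (Mq q T f d l ^ (r - q) * avq q (n + 1) l f ^ q) - (r - q) * Mq q T f d l ^ r)
      = (r * (Mq q T f d l ^ (r - q) * avq q n (2 * l) f ^ q) - (r - q) * Mq q T f d l ^ r) +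
        (r * (Mq q T f d l ^ (r - q) * avq q n (2 * l + 1) f ^ q) -
          (r - q) * Mq q T f d l ^ r) := by
        linear_combination r * Mq q T f d l ^ (r - q) * hav
    _ ≤ _ := add_le_add c0 c1

lemma Wr_nonneg {q r : ℝ} (hq : 0 < q) (hqr : q < r) (T : ℕ) (f : ℤ → ℂ) (A B : ℤ) :
    ∀ d, d ≤ T → 0 ≤ Wr q r T f A B d
  | 0, _ => Wr_zero hq hqr T f A B
  | (d + 1), h => (Wr_nonneg hq hqr T f A B d (by omega)).trans (Wr_succ hq hqr T f A B d h)

/-- **maximal theorem**, exponents `0 < q < r`. -/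
theorem max_thm_r {q r : ℝ} (hq : 0 < q) (hqr : q < r) (T : ℕ) (f : ℤ → ℂ) (A B : ℤ) :
    ∑ l ∈ Finset.Ico (A * 2 ^ T) (B * 2 ^ T), 2 ^ 7 * Mq q T f T l ^ r ≤
      2 * yc q r / (r - q) *
        ∑ l ∈ Finset.Ico (A * 2 ^ T) (B * 2 ^ T), ∑ y ∈ dI 7 l, ‖f y‖ ^ r := by
  have h := Wr_nonneg hq hqr T f A B T le_rfl
  unfold Wr at h
  rw [Nat.sub_self, zero_add] at h
  have h2 : ∀ l : ℤ, (2 : ℝ) ^ 7 * (r * (Mq q T f T l ^ (r - q) * avq q 7 l f ^ q) -
      (r - q) * Mq q T f T l ^ r) ≤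
      yc q r * ∑ y ∈ dI 7 l, ‖f y‖ ^ r - ((r - q) / 2) * (2 ^ 7 * Mq q T f T l ^ r) := by
    intro l
    have hs := sum_rpow_eq hq 7 l f
    have hcard : ((dI 7 l).card : ℝ) = 2 ^ 7 := dI_card 7 l
    have h3 : ∑ y ∈ dI 7 l, (r * Mq q T f T l ^ (r - q)) * ‖f y‖ ^ q ≤
        ∑ y ∈ dI 7 l, ((r - q) / 2 * Mq q T f T l ^ r + yc q r * ‖f y‖ ^ r) :=
      Finset.sum_le_sum fun y _ => by
        have := young' hq hqr (Mq_nonneg q T f T l) (norm_nonneg (f y))
        linarith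
    rw [← Finset.mul_sum, hs, Finset.sum_add_distrib, Finset.sum_const, nsmul_eq_mul, hcard,
      ← Finset.mul_sum] at h3
    linarith
  have h4 := h.trans (Finset.sum_le_sum fun l (_ : l ∈ Finset.Ico (A * 2 ^ T) (B * 2 ^ T)) => h2 l)
  rw [Finset.sum_sub_distrib, ← Finset.mul_sum, ← Finset.mul_sum] at h4
  generalize (∑ i ∈ Finset.Ico (A * 2 ^ T) (B * 2 ^ T), ∑ y ∈ dI 7 i, ‖f y‖ ^ r) = X at h4 ⊢
  generalize (∑ i ∈ Finset.Ico (A * 2 ^ T) (B * 2 ^ T), 2 ^ 7 * Mq q T f T i ^ r) = Y at h4 ⊢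
  have hs : 0 < r - q := by linarith
  rw [div_mul_eq_mul_div, le_div_iff₀ hs]
  linarith

/-! ### pointwise maximal function on the interval of the top node -/

/-- running maximum at the point `y`, top level `T + 7` -/
noncomputable def Mp (q : ℝ) (T : ℕ) (f : ℤ → ℂ) (y : ℤ) : ℝ := Mq q T f T (y / 2 ^ 7)

lemma Mp_nonneg (q : ℝ) (T : ℕ) (f : ℤ → ℂ) (y : ℤ) : 0 ≤ Mp q T f y := Mq_nonneg _ _ _ _ _

/-- local `L^q` norm at a node -/
noncomputable def vq (q : ℝ) (f : ℤ → ℂ) (p : Nd) : ℝ := avq q (p.1 + 7) p.2 f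

lemma vq_nonneg (q : ℝ) (f : ℤ → ℂ) (p : Nd) : 0 ≤ vq q f p := avq_nonneg _ _ _ _

lemma vq_le_Mp (q : ℝ) (T : ℕ) (f : ℤ → ℂ) {p : Nd} (hp : p.1 ≤ T) {y : ℤ} (hy : y ∈ iv p) :
    vq q f p ≤ Mp q T f y := by
  have h1 := avq_le_Mq q T f (T - p.1) p.2
  have e : T - (T - p.1) + 7 = p.1 + 7 := by omega
  rw [e] at h1
  refine h1.trans ?_
  have h2 := Mq_mono q T f (T - p.1) p.1 (y / 2 ^ 7)
  rw [ediv_pow_pow, add_comm 7 p.1, Qh249.mem_iv.1 hy] at h2
  have e2 : T - p.1 + p.1 = T := by omega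
  rw [e2] at h2
  exact h2

lemma vq_par {q : ℝ} (hq : 1 ≤ q) (f : ℤ → ℂ) (p : Nd) : vq q f p ≤ 2 * vq q f (par p) := by
  have hq0 : 0 < q := by linarith
  have h := avq_rpow_succ hq0 (p.1 + 7) (p.2 / 2) f
  have h1 : avq q (p.1 + 7) p.2 f ^ q ≤ 2 * avq q (p.1 + 7 + 1) (p.2 / 2) f ^ q := by
    rw [h]
    have n0 := Real.rpow_nonneg (avq_nonneg q (p.1 + 7) (2 * (p.2 / 2)) f) q
    have n1 := Real.rpow_nonneg (avq_nonneg q (p.1 + 7) (2 * (p.2 / 2) + 1) f) q
    rcases Int.emod_two_eq_zero_or_one p.2 with h2 | h2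
    · have e : 2 * (p.2 / 2) = p.2 := by omega
      rw [e] at n0 n1 ⊢
      linarith
    · have e : 2 * (p.2 / 2) + 1 = p.2 := by omega
      rw [e] at n1 ⊢
      linarith
  have h2 : (2 : ℝ) * avq q (p.1 + 7 + 1) (p.2 / 2) f ^ q ≤
      (2 * avq q (p.1 + 7 + 1) (p.2 / 2) f) ^ q := by
    rw [Real.mul_rpow (by norm_num) (avq_nonneg _ _ _ _)]
    refine mul_le_mul_of_nonneg_right ?_ (Real.rpow_nonneg (avq_nonneg _ _ _ _) _)
    calc (2 : ℝ) = 2 ^ (1 : ℝ) := (Real.rpow_one 2).symm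
      _ ≤ 2 ^ q := Real.rpow_le_rpow_of_exponent_le (by norm_num) hq
  have h3 := h1.trans h2
  have h4 := (Real.rpow_le_rpow_iff (avq_nonneg _ _ _ _)
    (mul_nonneg (by norm_num) (avq_nonneg _ _ _ _)) hq0).1 h3
  unfold vq par
  have e : p.1 + 1 + 7 = p.1 + 7 + 1 := by omega
  simp only [e]
  exact h4

/-- the sum over the interval of a node, cut in the finest node intervals -/
lemma sum_iv (J : Nd) (g : ℤ → ℝ) :
    ∑ y ∈ iv J, g y = ∑ l ∈ Finset.Ico (J.2 * 2 ^ J.1) ((J.2 + 1) * 2 ^ J.1), ∑ y ∈ dI 7 l, g y := by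
  have hd : Set.PairwiseDisjoint
      (Finset.Ico (J.2 * 2 ^ J.1) ((J.2 + 1) * 2 ^ J.1) : Set ℤ) (dI 7) := by
    intro l _ l' _ hne
    exact dI_disj hne
  rw [← Finset.sum_biUnion hd]
  refine Finset.sum_congr ?_ fun _ _ => rfl
  ext y
  rw [Finset.mem_biUnion, Qh249.mem_iv]
  constructor
  · intro hy
    refine ⟨y / 2 ^ 7, ?_, mem_dI.2 rfl⟩
    rw [add_comm, ← ediv_pow_pow] at hy
    rw [Finset.mem_Ico]
    have h2 : (0 : ℤ) < 2 ^ J.1 := by positivity
    constructor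
    · rw [← hy]
      exact Int.ediv_mul_le _ h2.ne'
    · rw [← hy]
      have := Int.lt_ediv_add_one_mul_self (y / 2 ^ 7) h2
      exact this
  · rintro ⟨l, hl, hy⟩
    rw [mem_dI] at hy
    rw [Finset.mem_Ico] at hl
    rw [add_comm, ← ediv_pow_pow, hy]
    have h2 : (0 : ℤ) < 2 ^ J.1 := by positivity
    have h3 := (Int.le_ediv_iff_mul_le h2).2 hl.1
    have h4 := (Int.ediv_lt_iff_lt_mul h2).2 hl.2
    omega

/-- **maximal theorem at points** -/
theorem max_pt {q r : ℝ} (hq : 0 < q) (hqr : q < r) (J : Nd) (f : ℤ → ℂ) :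
    ∑ y ∈ iv J, Mp q J.1 f y ^ r ≤ 2 * yc q r / (r - q) * ∑ y ∈ iv J, ‖f y‖ ^ r := by
  have h := max_thm_r hq hqr J.1 f J.2 (J.2 + 1)
  rw [sum_iv, sum_iv J fun y => ‖f y‖ ^ r]
  refine le_trans (le_of_eq ?_) h
  refine Finset.sum_congr rfl fun l _ => ?_
  have e : ∀ y ∈ dI 7 l, Mp q J.1 f y ^ r = Mq q J.1 f J.1 l ^ r := by
    intro y hy
    unfold Mp
    rw [mem_dI.1 hy]
  rw [Finset.sum_congr rfl e, Finset.sum_const, nsmul_eq_mul, dI_card]

end Crest.Agent.R079.TLoc13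
end

-- ▼ part R079/TLoc_13
section

/-! R079, M4 (doc 2489), piece LOCALISATION, final form (helper13): a class bound for letters with
local `L^q` norms `≤ λ` on every full sub-region gives the bound with ONE or TWO slots only in the
global (normalised) `L^r` norm `vq r z J` on the top interval, `q < r`. -/

set_option autoImplicit false

namespace Crest.Agent.R079.TLoc13

open Finset Crest.Agent.R079.Grid Crest.Agent.R079.Growth Crest.Agent.R079.QRed
open Crest.Agent.R079.Qe292 Crest.Agent.R079.L0q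

/-- constant of the localisation -/
noncomputable def lc (q r : ℝ) : ℝ := (2 * yc q r / (r - q)) ^ (1 / r)

lemma lc_nonneg {q r : ℝ} (hq : 0 < q) (hqr : q < r) : 0 ≤ lc q r :=
  Real.rpow_nonneg (div_nonneg (mul_nonneg (by norm_num) (yc_nonneg hq)) (by linarith)) _

/-- Jensen on the interval of a node -/
lemma mean_rpow {r : ℝ} (hr : 1 ≤ r) (J : Nd) (g : ℤ → ℝ) (hg : ∀ y, 0 ≤ g y) :
    ((1 / len J) * ∑ y ∈ iv J, g y) ^ r ≤ (1 / len J) * ∑ y ∈ iv J, g y ^ r := by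
  have hl := Qe292.len_pos J
  have h := Real.rpow_arith_mean_le_arith_mean_rpow (iv J) (fun _ => 1 / len J) g
    (fun _ _ => by positivity) ?_ (fun y _ => hg y) hr
  · rw [← Finset.mul_sum, ← Finset.mul_sum] at h
    exact h
  · rw [Finset.sum_const, nsmul_eq_mul, Growth.card_iv]
    field_simp

lemma vq_rpow {r : ℝ} (hr : 0 < r) (f : ℤ → ℂ) (J : Nd) :
    vq r f J ^ r = (1 / len J) * ∑ y ∈ iv J, ‖f y‖ ^ r := by
  unfold vq len iv
  exact avq_rpow hr _ _ _

lemma lc_rpow {q r : ℝ} (hq : 0 < q) (hqr : q < r) : lc q r ^ r = 2 * yc q r / (r - q) := by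
  unfold lc
  rw [← Real.rpow_mul (div_nonneg (mul_nonneg (by norm_num) (yc_nonneg hq)) (by linarith)),
    one_div_mul_cancel (by linarith), Real.rpow_one]

lemma mean_Mp_rpow {q r : ℝ} (hq : 0 < q) (hqr : q < r) (J : Nd) (f : ℤ → ℂ) :
    (1 / len J) * ∑ y ∈ iv J, Mp q J.1 f y ^ r ≤ (lc q r * vq r f J) ^ r := by
  rw [Real.mul_rpow (lc_nonneg hq hqr) (vq_nonneg _ _ _), lc_rpow hq hqr,
    vq_rpow (hq.trans hqr)]
  have h := max_pt hq hqr J f
  have hl := Qe292.len_pos J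
  calc (1 / len J) * ∑ y ∈ iv J, Mp q J.1 f y ^ r
      ≤ (1 / len J) * (2 * yc q r / (r - q) * ∑ y ∈ iv J, ‖f y‖ ^ r) :=
        mul_le_mul_of_nonneg_left h (by positivity)
    _ = _ := by ring

lemma mean_Mp {q r : ℝ} (hq : 0 < q) (hqr : q < r) (hr : 1 ≤ r) (J : Nd) (f : ℤ → ℂ) :
    (1 / len J) * ∑ y ∈ iv J, Mp q J.1 f y ≤ lc q r * vq r f J := by
  have h1 := (mean_rpow hr J (Mp q J.1 f) fun y => Mp_nonneg _ _ _ _).trans
    (mean_Mp_rpow hq hqr J f)
  have hl := Qe292.len_pos J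
  exact (Real.rpow_le_rpow_iff (mul_nonneg (by positivity)
    (Finset.sum_nonneg fun y _ => Mp_nonneg _ _ _ _))
    (mul_nonneg (lc_nonneg hq hqr) (vq_nonneg _ _ _)) (by linarith)).1 h1


/-- **LOCALISATION, one slot** -/
theorem loc_one {q r : ℝ} (hq : 1 ≤ q) (hqr : q < r) {R : Finset Nd} {J : Nd} (hR : Full R J)
    (z : ℤ → ℂ) (c : Nd → ℂ) (a : ℝ) (ha : 0 ≤ a)
    (hyp : ∀ (W : Finset Nd) (I : Nd), Full W I → W ⊆ R → ∀ l : ℝ, 0 ≤ l →
      (∀ p ∈ W, vq q z p ≤ l) → ‖∑ p ∈ W, c p‖ ≤ a * l * len I) :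
    ‖∑ p ∈ R, c p‖ ≤ 8 * lc q r * a * vq r z J * len J := by
  have hq0 : 0 < q := by linarith
  have hlev : ∀ p ∈ R, p.1 ≤ J.1 := fun p hp => Qe292.iv_level (hR.reg.1 p hp)
  have h := loc_global (Finset.univ : Finset Unit) hR (fun _ p => vq q z p) 2 (by norm_num)
    (fun _ _ p _ => vq_nonneg q z p) (fun _ _ p _ _ => vq_par hq z p)
    (fun _ y => Mp q J.1 z y) (fun _ _ p hp y hy => vq_le_Mp q J.1 z (hlev p hp) hy) c a ha
    (fun W I hW hWR l hl hl' => by
      have := hyp W I hW hWR (l ()) (hl () (Finset.mem_univ _)) (hl' () (Finset.mem_univ _))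
      simpa using this)
  simp only [Finset.univ_unique, Finset.card_singleton, pow_one, Finset.prod_singleton] at h
  have h2 := mean_Mp hq0 hqr (by linarith) J z
  have hl := Qe292.len_pos J
  have h3 : ∑ y ∈ iv J, Mp q J.1 z y ≤ lc q r * vq r z J * len J := by
    have h4 := mul_le_mul_of_nonneg_right h2 hl.le
    have e : 1 / len J * ∑ y ∈ iv J, Mp q J.1 z y * len J
        = ∑ y ∈ iv J, Mp q J.1 z y := by
      rw [← Finset.sum_mul]
      field_simp
    have e' : 1 / len J * (∑ y ∈ iv J, Mp q J.1 z y) * len J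
        = ∑ y ∈ iv J, Mp q J.1 z y := by field_simp
    rw [e'] at h4
    exact h4
  refine h.trans ?_
  calc 2 * (2 * 2) * a * ∑ y ∈ iv J, Mp q J.1 z y
      ≤ 2 * (2 * 2) * a * (lc q r * vq r z J * len J) :=
        mul_le_mul_of_nonneg_left h3 (by positivity)
    _ = _ := by ring


end Crest.Agent.R079.TLoc13
end

-- ▼ part R079/TS2_815

/-! R079, global recursion, **[T2] `ConvLem`** (helper815): random signs (`TSign_815`) + localisation
(`TLoc_13`). -/

set_option autoImplicit false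

namespace Crest.Agent.R079.TRec.T2

open Finset Crest.Agent.R079.Grid Crest.Agent.R079.Growth Crest.Agent.R079.QRed
  Crest.Agent.R079.TSign

lemma upd_app (Y : Fin 4 → Nd → Fn) (i : Fin 4) (E : Nd → Fn) (p : Nd) :
    (fun j => (Function.update Y i E) j p) = Function.update (fun j => Y j p) i (E p) := by
  funext j
  by_cases h : j = i
  · subst h; simp
  · simp [Function.update_of_ne h]

/-- the node functional in one slot, as a linear map -/
noncomputable def Lp (bb : ℤ) (ε : ℕ → ℤ → ℂ) (F : Fin 4 → Fn) (i : Fin 4) (p : Nd) :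
    Fn →ₗ[ℂ] ℂ where
  toFun g := TI bb ε (Function.update F i g) p
  map_add' g h := by
    have := Qb247.TI_update_sum bb ε F i 2 ![g, h] ![1, 1] p
    simp only [Fin.sum_univ_two, Matrix.cons_val_zero, Matrix.cons_val_one, one_mul] at this
    rw [← this]
    rfl
  map_smul' c g := by
    have := Qb247.TI_update_sum bb ε F i 1 ![g] ![c] p
    simp only [Fin.sum_univ_one, Matrix.cons_val_fin_one] at this
    rw [RingHom.id_apply, smul_eq_mul, ← this]
    rfl

lemma Lp_apply (bb : ℤ) (ε : ℕ → ℤ → ℂ) (F : Fin 4 → Fn) (i : Fin 4) (p : Nd) (g : Fn) :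
    Lp bb ε F i p g = TI bb ε (Function.update F i g) p := rfl

/-- the node functional only sees the values on the node interval -/
lemma TI_congr (bb : ℤ) (hbb : bb = -1 ∨ bb = -7) (ε : ℕ → ℤ → ℂ) (F : Fin 4 → Fn) (i : Fin 4)
    (p : Nd) (g h : Fn) (hgh : ∀ y ∈ iv p, g y = h y) :
    TI bb ε (Function.update F i g) p = TI bb ε (Function.update F i h) p := by
  unfold TI
  refine Finset.sum_congr rfl fun x hx => ?_
  congr 1
  refine Qb247.Lbox_congr p.1 p.2 bb x hbb hx _ _ fun j y hy => ?_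
  by_cases hj : j = i
  · subst hj; simp only [Function.update_self]; exact hgh y hy
  · simp only [Function.update_of_ne hj]

/-- one linear functional -/
lemma conv_one {ι : Type*} [Fintype ι] [DecidableEq ι] (E : ι → Fn) (L : Fn →ₗ[ℂ] ℂ) (w : ι) :
    ∑ θ : Sg ι, sv (θ w) * L (zs E θ) = (2 : ℂ) ^ Fintype.card ι * L (E w) := by
  have hz : ∀ θ : Sg ι, zs E θ = ∑ v, sv (θ v) • E v := by
    intro θ; funext y; simp [zs, Finset.sum_apply]
  have h1 : ∀ θ : Sg ι, sv (θ w) * L (zs E θ) = ∑ v, (sv (θ w) * sv (θ v)) * L (E v) := by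
    intro θ
    rw [hz θ, map_sum, Finset.mul_sum]
    refine Finset.sum_congr rfl fun v _ => ?_
    rw [map_smul, smul_eq_mul]; ring
  rw [Finset.sum_congr rfl fun θ _ => h1 θ, Finset.sum_comm]
  have h2 : ∀ v, ∑ θ : Sg ι, (sv (θ w) * sv (θ v)) * L (E v)
      = (if w = v then (2 : ℂ) ^ Fintype.card ι else 0) * L (E v) := by
    intro v; rw [← Finset.sum_mul, sum_sv_mul]
  rw [Finset.sum_congr rfl fun v _ => h2 v]
  simp

variable {R : Finset Nd} {J : Nd} {T : Finset Nd}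

open Classical in
/-- top of the window of a node -/
noncomputable def wt (T : Finset Nd) (J p : Nd) : Nd := if h : ∃ I, Wn T I p then h.choose else J

lemma wt_wn (hR : Full R J) (hT : Tops R J T) {p : Nd} (hp : p ∈ R) : Wn T (wt T J p) p := by
  have h := hT.exists_wn hR hp
  unfold wt
  rw [dif_pos h]
  exact h.choose_spec

open Classical in
/-- signed coefficients -/
noncomputable def eg (T : Finset Nd) (J : Nd) (ε : ℕ → ℤ → ℂ) (θ : Sg {I // I ∈ T}) : ℕ → ℤ → ℂ :=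
  fun m x => (if h : wt T J (m, x / 2 ^ (m + 7)) ∈ T then sv (θ ⟨_, h⟩) else 1) * ε m x

lemma eg_le (ε : ℕ → ℤ → ℂ) (hε : ∀ m x, ‖ε m x‖ ≤ 1) (θ : Sg {I // I ∈ T}) (m : ℕ) (x : ℤ) :
    ‖eg T J ε θ m x‖ ≤ 1 := by
  unfold eg
  rw [norm_mul]
  refine mul_le_one₀ ?_ (norm_nonneg _) (hε m x)
  split_ifs with h
  · rw [norm_sv]
  · simp

lemma TI_eg (bb : ℤ) (ε : ℕ → ℤ → ℂ) (θ : Sg {I // I ∈ T}) (F : Fin 4 → Fn) (p : Nd)
    (h : wt T J p ∈ T) :
    TI bb (eg T J ε θ) F p = sv (θ ⟨wt T J p, h⟩) * TI bb ε F p := by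
  unfold TI
  rw [Finset.mul_sum]
  refine Finset.sum_congr rfl fun x hx => ?_
  have hx' : x / 2 ^ (p.1 + 7) = p.2 := div_of_mem (adm_sub p.1 p.2 hx)
  unfold eg
  have e : ((p.1, x / 2 ^ (p.1 + 7)) : Nd) = p := by rw [hx']
  have h' : wt T J (p.1, x / 2 ^ (p.1 + 7)) ∈ T := by rw [e]; exact h
  rw [dif_pos h']
  have e2 : (⟨wt T J (p.1, x / 2 ^ (p.1 + 7)), h'⟩ : {I // I ∈ T}) = ⟨wt T J p, h⟩ := by
    apply Subtype.ext; simp only [e]
  rw [e2]; ring

/-- letters cut to the window intervals -/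
noncomputable def Ec (T : Finset Nd) (E : Nd → Fn) (I : {I // I ∈ T}) : Fn :=
  fun y => if y ∈ iv I.1 then E I.1 y else 0

/-- **conversion identity** -/
theorem conv_tot (hR : Full R J) (hT : Tops R J T) (bb : ℤ) (hbb : bb = -1 ∨ bb = -7)
    (ε : ℕ → ℤ → ℂ) (i : Fin 4) (Y : Fin 4 → Nd → Fn) (E : Nd → Fn) (hE : Adp R T E) :
    TP bb ε R (Function.update Y i E) = (1 / (2 : ℂ) ^ Fintype.card {I // I ∈ T}) *
      ∑ θ : Sg {I // I ∈ T}, TP bb (eg T J ε θ) R (Function.update Y i (fun _ => zs (Ec T E) θ)) := by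
  classical
  unfold TP
  rw [Finset.sum_comm, Finset.mul_sum]
  refine Finset.sum_congr rfl fun p hp => ?_
  have hw := wt_wn hR hT hp
  rw [upd_app]
  have h1 : ∀ θ : Sg {I // I ∈ T},
      TI bb (eg T J ε θ) (fun j => (Function.update Y i (fun _ => zs (Ec T E) θ)) j p) p
      = sv (θ ⟨wt T J p, hw.1⟩) * Lp bb ε (fun j => Y j p) i p (zs (Ec T E) θ) := by
    intro θ
    rw [TI_eg bb ε θ _ p hw.1, upd_app]; rfl
  rw [Finset.sum_congr rfl fun θ _ => h1 θ, conv_one]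
  have h2 : (2 : ℂ) ^ Fintype.card {I // I ∈ T} ≠ 0 := pow_ne_zero _ two_ne_zero
  rw [← mul_assoc, one_div, inv_mul_cancel₀ h2, one_mul, Lp_apply]
  refine TI_congr bb hbb ε _ i p _ _ fun y hy => ?_
  unfold Ec
  rw [if_pos (hw.2.1 hy), hE p hp _ hw]

/-- second moment of the number of windows -/
theorem count_sqT (K : ℝ) (hK : 0 ≤ K)
    (hc : ∀ I ∈ T, ∑ I' ∈ T, (if iv I' ⊆ iv I then len I' else 0) ≤ K * len I)
    (hc' : ∑ I ∈ T, len I ≤ K * len J) :
    ∑ y ∈ iv J, (∑ I ∈ T, (if y ∈ iv I then (1 : ℝ) else 0)) ^ 2 ≤ 2 * K ^ 2 * len J := by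
  classical
  have h2 : ∀ i k : Nd, ∑ y ∈ iv J, (if y ∈ iv i ∧ y ∈ iv k then (1 : ℝ) else 0)
      ≤ (if iv k ⊆ iv i then len k else 0) + (if iv i ⊆ iv k then len i else 0) := by
    intro i k
    have l0 : ∀ p : Nd, 0 ≤ len p := fun p => by unfold len; positivity
    have n1 : 0 ≤ (if iv k ⊆ iv i then len k else 0) := by split_ifs <;> simp [l0]
    have n2 : 0 ≤ (if iv i ⊆ iv k then len i else 0) := by split_ifs <;> simp [l0]
    rw [← Finset.sum_filter, Finset.sum_const, nsmul_eq_mul, mul_one]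
    by_cases hne : ∃ y, y ∈ iv i ∧ y ∈ iv k
    · obtain ⟨y, hy1, hy2⟩ := hne
      rcases iv_nest hy1 hy2 with h | h
      · have : (((iv J).filter fun y => y ∈ iv i ∧ y ∈ iv k).card : ℝ) ≤ len i := by
          rw [← Growth.card_iv]
          exact_mod_cast Finset.card_le_card (fun z hz => by
            simp only [Finset.mem_filter] at hz; exact hz.2.1)
        rw [if_pos h]
        linarith
      · have : (((iv J).filter fun y => y ∈ iv i ∧ y ∈ iv k).card : ℝ) ≤ len k := by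
          rw [← Growth.card_iv]
          exact_mod_cast Finset.card_le_card (fun z hz => by
            simp only [Finset.mem_filter] at hz; exact hz.2.2)
        rw [if_pos h]
        linarith
    · push Not at hne
      rw [Finset.filter_eq_empty_iff.2 fun y _ hy => hne y hy.1 hy.2]
      simp only [Finset.card_empty, Nat.cast_zero]
      linarith
  calc ∑ y ∈ iv J, (∑ I ∈ T, (if y ∈ iv I then (1 : ℝ) else 0)) ^ 2
      = ∑ i ∈ T, ∑ k ∈ T, ∑ y ∈ iv J, (if y ∈ iv i ∧ y ∈ iv k then (1 : ℝ) else 0) := by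
        have h1 : ∀ y, (∑ I ∈ T, (if y ∈ iv I then (1 : ℝ) else 0)) ^ 2
            = ∑ i ∈ T, ∑ k ∈ T, (if y ∈ iv i ∧ y ∈ iv k then (1 : ℝ) else 0) := by
          intro y
          rw [sq, Finset.sum_mul_sum]
          refine Finset.sum_congr rfl fun i _ => Finset.sum_congr rfl fun k _ => ?_
          by_cases h : y ∈ iv i <;> by_cases h' : y ∈ iv k <;> simp [h, h']
        rw [Finset.sum_congr rfl fun y _ => h1 y, Finset.sum_comm]
        exact Finset.sum_congr rfl fun i _ => Finset.sum_comm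
    _ ≤ ∑ i ∈ T, ∑ k ∈ T, ((if iv k ⊆ iv i then len k else 0) +
        (if iv i ⊆ iv k then len i else 0)) :=
        Finset.sum_le_sum fun i _ => Finset.sum_le_sum fun k _ => h2 i k
    _ = 2 * ∑ i ∈ T, ∑ k ∈ T, (if iv k ⊆ iv i then len k else 0) := by
        simp only [Finset.sum_add_distrib]
        rw [Finset.sum_comm (f := fun i k => if iv i ⊆ iv k then len i else 0)]
        ring
    _ ≤ 2 * ∑ i ∈ T, K * len i := by
        refine mul_le_mul_of_nonneg_left (Finset.sum_le_sum fun i hi => hc i hi) (by norm_num)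
    _ ≤ 2 * K ^ 2 * len J := by
        rw [← Finset.mul_sum]
        nlinarith [mul_le_mul_of_nonneg_left hc' hK]

lemma sum_card {ι : Type*} [Fintype ι] (P : ι → Prop) [DecidablePred P] :
    (((Finset.univ.filter P).card : ℕ) : ℝ) = ∑ w, (if P w then (1 : ℝ) else 0) := by
  rw [Finset.card_filter]; push_cast; rfl

lemma av_sq (p : Nd) (X : Fn) : len p * av p X ^ 2 = ∑ y ∈ iv p, ‖X y‖ ^ 2 := by
  have hl := Growth.len_pos p
  unfold av av2
  rw [Real.sq_sqrt (by positivity)]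
  unfold len iv at *
  field_simp

/-- **norm of the signed letters** -/
theorem norm_signs (hR : Full R J) (hT : Tops R J T) (E : Nd → Fn) (C t κ : ℝ) (hC : 1 ≤ C)
    (ht : 0 < t) (ht1 : t ≤ 1) (hκ0 : 0 ≤ κ) (hκ1 : κ ≤ 1)
    (hav : ∀ p ∈ R, av p (E p) ≤ C) (hsup : ∀ p ∈ R, ∀ y ∈ iv p, ‖E p y‖ ≤ C * t⁻¹)
    (hcnt : Cnt R T (C * t⁻¹)) (hsq : Sq R T E C) :
    ∑ θ : Sg {I // I ∈ T}, ∑ y ∈ iv J, ‖zs (Ec T E) θ y‖ ^ (2 + κ)
      ≤ (2 : ℝ) ^ Fintype.card {I // I ∈ T} *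
        ((C * t⁻¹) ^ (3 * κ) * ((2 * C ^ 2) ^ (1 - κ) * (2 * (2 * C * t⁻¹) ^ 2) ^ κ) * len J) := by
  classical
  have hlen := Growth.len_pos J
  have hti : 1 ≤ t⁻¹ := (one_le_inv₀ ht).2 ht1
  have hM1 : 1 ≤ C * t⁻¹ := by nlinarith
  have hRJ : ∀ I ∈ T, iv I ⊆ iv J := fun I hI => hR.reg.1 I (hT.sub hI)
  -- counts
  have hc : ∀ I ∈ T, ∑ I' ∈ T, (if iv I' ⊆ iv I then len I' else 0) ≤ (2 * C * t⁻¹) * len I := by
    intro I hI
    have h1 := hcnt I (hT.sub hI)
    have h2 : ∑ I' ∈ T, (if iv I' ⊆ iv I then len I' else 0)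
        ≤ ∑ I' ∈ T, ((if iv I' ⊂ iv I then len I' else 0) + (if I' = I then len I' else 0)) := by
      refine Finset.sum_le_sum fun I' _ => ?_
      have l0 := (Growth.len_pos I').le
      by_cases h : iv I' ⊆ iv I
      · rw [if_pos h]
        by_cases h' : iv I ⊆ iv I'
        · have e : I' = I := Qe292.iv_antisymm h h'
          rw [if_pos e]
          have : 0 ≤ (if iv I' ⊂ iv I then len I' else 0) := by split_ifs <;> simp [l0]
          linarith
        · have hss : iv I' ⊂ iv I := ⟨h, h'⟩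
          rw [if_pos hss]
          have : 0 ≤ (if I' = I then len I' else 0) := by split_ifs <;> simp [l0]
          linarith
      · rw [if_neg h]
        have : 0 ≤ (if iv I' ⊂ iv I then len I' else 0) := by split_ifs <;> simp [l0]
        have : 0 ≤ (if I' = I then len I' else 0) := by split_ifs <;> simp [l0]
        linarith
    rw [Finset.sum_add_distrib, Finset.sum_ite_eq' T I, if_pos hI] at h2
    have h1' : ∑ I' ∈ T, (if iv I' ⊂ iv I then len I' else 0) ≤ C * t⁻¹ * len I := by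
      rw [← Finset.sum_filter]
      convert h1
    have hl := Growth.len_pos I
    nlinarith [mul_le_mul_of_nonneg_right hM1 hl.le]
  have hc' : ∑ I ∈ T, len I ≤ (2 * C * t⁻¹) * len J := by
    have h1 := hc J hT.top
    refine le_trans (le_of_eq (Finset.sum_congr rfl fun I hI => ?_)) h1
    rw [if_pos (hRJ I hI)]
  have hN := count_sqT (T := T) (J := J) (2 * C * t⁻¹) (by positivity) hc hc'
  -- total mass
  have hA : ∑ I ∈ T, ∑ y ∈ iv I, ‖E I y‖ ^ 2 ≤ 2 * C ^ 2 * len J := by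
    have h1 := hsq J hR.top
    have h2 : ∑ I ∈ T, ∑ y ∈ iv I, ‖E I y‖ ^ 2 ≤
        ∑ I ∈ T, ((if iv I ⊂ iv J then ∑ y ∈ iv I, ‖E I y‖ ^ 2 else 0) +
          (if I = J then ∑ y ∈ iv I, ‖E I y‖ ^ 2 else 0)) := by
      refine Finset.sum_le_sum fun I hI => ?_
      have l0 : 0 ≤ ∑ y ∈ iv I, ‖E I y‖ ^ 2 := by positivity
      by_cases h' : iv J ⊆ iv I
      · have e : I = J := Qe292.iv_antisymm (hRJ I hI) h'
        rw [if_pos e]
        have : 0 ≤ (if iv I ⊂ iv J then ∑ y ∈ iv I, ‖E I y‖ ^ 2 else 0) := by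
          split_ifs <;> simp [l0]
        linarith
      · have hss : iv I ⊂ iv J := ⟨hRJ I hI, h'⟩
        rw [if_pos hss]
        have : 0 ≤ (if I = J then ∑ y ∈ iv I, ‖E I y‖ ^ 2 else 0) := by split_ifs <;> simp [l0]
        linarith
    rw [Finset.sum_add_distrib, Finset.sum_ite_eq' T J, if_pos hT.top] at h2
    have h1' : ∑ I ∈ T, (if iv I ⊂ iv J then ∑ y ∈ iv I, ‖E I y‖ ^ 2 else 0) ≤ C * len J := by
      rw [← Finset.sum_filter]
      convert h1
    have h3 : ∑ y ∈ iv J, ‖E J y‖ ^ 2 ≤ C ^ 2 * len J := by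
      rw [← av_sq]
      have h4 := hav J hR.top
      have h5 : 0 ≤ av J (E J) := by unfold av av2; positivity
      have h6 : av J (E J) ^ 2 ≤ C ^ 2 := pow_le_pow_left₀ h5 h4 2
      nlinarith
    have h7 : C * len J ≤ C ^ 2 * len J := mul_le_mul_of_nonneg_right (by nlinarith) hlen.le
    nlinarith
  have hcard : ∀ y : ℤ, (((Finset.univ.filter fun w : {I // I ∈ T} =>
      y ∈ ((iv w.1 : Finset ℤ) : Set ℤ)).card : ℕ) : ℝ) = ∑ I ∈ T, (if y ∈ iv I then (1 : ℝ) else 0) := by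
    intro y
    rw [sum_card]
    simp only [Finset.mem_coe]
    exact Finset.sum_coe_sort T (fun I => if y ∈ iv I then (1 : ℝ) else 0)
  have hEc : ∀ (w : {I // I ∈ T}) (y : ℤ), y ∉ iv w.1 → Ec T E w y = 0 := by
    intro w y hy
    unfold Ec
    rw [if_neg hy]
  have h1 := avg_rpow (iv J) (Ec T E) (fun w => ((iv w.1 : Finset ℤ) : Set ℤ)) (C * t⁻¹) κ
    (2 * C ^ 2 * len J) (2 * (2 * C * t⁻¹) ^ 2 * len J) (by positivity) hκ0 hκ1 (fun w y => by
      by_cases h : y ∈ iv w.1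
      · simp only [Finset.mem_coe, h, if_true]
        unfold Ec
        rw [if_pos h]
        exact hsup w.1 (hT.sub w.2) y h
      · simp only [Finset.mem_coe, h, if_false]; rw [hEc w y h]; simp)
    (by
      rw [Finset.sum_comm]
      have h2 : ∀ w : {I // I ∈ T}, ∑ y ∈ iv J, ‖Ec T E w y‖ ^ 2 = ∑ y ∈ iv w.1, ‖E w.1 y‖ ^ 2 := by
        intro w
        rw [← Finset.sum_subset (hRJ w.1 w.2) fun y _ hy => by rw [hEc w y hy]; simp]
        refine Finset.sum_congr rfl fun y hy => ?_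
        unfold Ec
        rw [if_pos hy]
      rw [Finset.sum_congr rfl fun w _ => h2 w,
        Finset.sum_coe_sort T (fun I => ∑ y ∈ iv I, ‖E I y‖ ^ 2)]
      exact hA)
    (by
      rw [Finset.sum_congr rfl fun y _ => by rw [hcard y]]
      exact hN)
  refine h1.trans (le_of_eq ?_)
  congr 1
  rw [Real.mul_rpow (by positivity) hlen.le, Real.mul_rpow (by positivity) hlen.le]
  have e : len J = len J ^ (1 - κ) * len J ^ κ := by rw [← Real.rpow_add hlen]; simp
  calc _ = (C * t⁻¹) ^ (3 * κ) * ((2 * C ^ 2) ^ (1 - κ) * (2 * (2 * C * t⁻¹) ^ 2) ^ κ) *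
        (len J ^ (1 - κ) * len J ^ κ) := by ring
    _ = _ := by rw [← e]

/-- constant -/
noncomputable def cT (k C : ℝ) : ℝ :=
  C ^ (3 * (2 * k)) * ((2 * C ^ 2) ^ (1 - 2 * k) * (8 * C ^ 2) ^ (2 * k))

lemma pow_bound (k C t : ℝ) (hk : 0 < k) (hC : 1 ≤ C) (ht : 0 < t) :
    (C * t⁻¹) ^ (3 * (2 * k)) * ((2 * C ^ 2) ^ (1 - 2 * k) * (2 * (2 * C * t⁻¹) ^ 2) ^ (2 * k))
      = cT k C * t ^ (-(10 * k)) := by
  unfold cT
  have hC0 : 0 ≤ C := by linarith
  have e1 : (2 * (2 * C * t⁻¹) ^ 2) = (8 * C ^ 2) * (t⁻¹) ^ 2 := by ring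
  rw [e1, Real.mul_rpow hC0 (by positivity),
    Real.mul_rpow (x := 8 * C ^ 2) (y := (t⁻¹) ^ 2) (by positivity) (by positivity)]
  have e2 : (t⁻¹) ^ (3 * (2 * k)) * ((t⁻¹) ^ 2) ^ (2 * k) = t ^ (-(10 * k)) := by
    rw [← Real.rpow_natCast (t⁻¹) 2, ← Real.rpow_mul (by positivity),
      ← Real.rpow_add (by positivity), Real.inv_rpow ht.le, ← Real.rpow_neg ht.le]
    congr 1
    push_cast
    ring
  rw [← e2]
  ring

/-- power mean over the signs -/
lemma mean_le {ι : Type*} [Fintype ι] (r : ℝ) (hr : 1 ≤ r) (N X : ℝ) (hN : N = Fintype.card ι)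
    (hN0 : 0 < N) (v : ι → ℝ) (hv : ∀ a, 0 ≤ v a) (h : ∑ a, v a ^ r ≤ N * X) :
    (1 / N) * ∑ a, v a ≤ X ^ (1 / r) := by
  have hX0 : 0 ≤ X := by
    have h0 : 0 ≤ ∑ a, v a ^ r := Finset.sum_nonneg fun a _ => Real.rpow_nonneg (hv a) _
    exact nonneg_of_mul_nonneg_right (h0.trans h) hN0
  have h1 := Real.rpow_arith_mean_le_arith_mean_rpow (Finset.univ : Finset ι) (fun _ => 1 / N) v
    (fun _ _ => by positivity) (by
      rw [Finset.sum_const, nsmul_eq_mul, Finset.card_univ, ← hN]; field_simp) (fun a _ => hv a) hr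
  rw [← Finset.mul_sum, ← Finset.mul_sum] at h1
  have h2 : ((1 / N) * ∑ a, v a) ^ r ≤ X := by
    refine h1.trans ?_
    rw [one_div, inv_mul_le_iff₀ hN0]
    exact h
  have h0 : 0 ≤ (1 / N) * ∑ a, v a :=
    mul_nonneg (by positivity) (Finset.sum_nonneg fun a _ => hv a)
  have h3 := Real.rpow_le_rpow (Real.rpow_nonneg h0 _) h2 (by positivity : 0 ≤ 1 / r)
  rw [← Real.rpow_mul h0, mul_one_div_cancel (by linarith : r ≠ 0), Real.rpow_one] at h3
  exact h3

/-- **[T2b]** localisation of one static letter -/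
theorem loc_static (k : ℝ) (hk : 0 < k) (bb : ℤ) (i : Fin 4) (A : ℝ) (hA : 0 ≤ A) (hR : Full R J)
    (Y : Fin 4 → Nd → Fn) (ε : ℕ → ℤ → ℂ) (z : Fn)
    (hyp : ∀ R' J', Full R' J' → R' ⊆ R → ∀ w : Fn, (∀ p ∈ R', aq (2 + k) p w ≤ 1) →
      ‖TP bb ε R' (Function.update Y i (fun _ => w))‖ ≤ A * len J') :
    ‖TP bb ε R (Function.update Y i (fun _ => z))‖ ≤
      8 * TLoc13.lc (2 + k) (2 + 2 * k) * A * aq (2 + 2 * k) J z * len J := by
  have hvq : ∀ q p (f : Fn), TLoc13.vq q f p = aq q p f := fun q p f => rfl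
  have h := TLoc13.loc_one (q := 2 + k) (r := 2 + 2 * k) (by linarith) (by linarith) hR z
    (fun p => TI bb ε (fun j => (Function.update Y i (fun _ => z)) j p) p) A hA
    (fun W I hW hWR l hl hlev => by
      -- homogeneity, `l > 0` first
      have key : ∀ l' : ℝ, 0 < l' → l ≤ l' →
          ‖∑ p ∈ W, TI bb ε (fun j => (Function.update Y i (fun _ => z)) j p) p‖ ≤ A * l' * len I := by
        intro l' hl' hll
        have h1 := hyp W I hW hWR (fun y => ((l'⁻¹ : ℝ) : ℂ) * z y) (fun p hp => by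
          have h2 : aq (2 + k) p (fun y => ((l'⁻¹ : ℝ) : ℂ) * z y) = l'⁻¹ * aq (2 + k) p z := by
            unfold aq Lq853.avq
            have h3 : ∀ y, ‖((l'⁻¹ : ℝ) : ℂ) * z y‖ ^ (2 + k) = (l'⁻¹) ^ (2 + k) * ‖z y‖ ^ (2 + k) := by
              intro y
              rw [norm_mul, Complex.norm_real, Real.norm_of_nonneg (by positivity),
                Real.mul_rpow (by positivity) (norm_nonneg _)]
            rw [Finset.sum_congr rfl fun y _ => h3 y, ← Finset.mul_sum, ← mul_assoc,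
              mul_comm (1 / 2 ^ (p.1 + 7) : ℝ), mul_assoc,
              Real.mul_rpow (by positivity) (by positivity),
              ← Real.rpow_mul (by positivity), mul_one_div_cancel (by linarith : 2 + k ≠ 0),
              Real.rpow_one]
          rw [h2]
          have h4 := hlev p hp
          rw [hvq] at h4
          rw [inv_mul_le_iff₀ hl']
          linarith)
        have h5 : TP bb ε W (Function.update Y i (fun _ => fun y => ((l'⁻¹ : ℝ) : ℂ) * z y))
            = ((l'⁻¹ : ℝ) : ℂ) *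
              ∑ p ∈ W, TI bb ε (fun j => (Function.update Y i (fun _ => z)) j p) p := by
          unfold TP
          rw [Finset.mul_sum]
          refine Finset.sum_congr rfl fun p _ => ?_
          rw [upd_app, upd_app]
          have := (Lp bb ε (fun j => Y j p) i p).map_smul ((l'⁻¹ : ℝ) : ℂ) z
          rw [smul_eq_mul] at this
          exact this
        rw [h5, norm_mul, Complex.norm_real, Real.norm_of_nonneg (by positivity),
          inv_mul_le_iff₀ hl'] at h1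
        calc _ ≤ _ := h1
          _ = _ := by ring
      have hI := Growth.len_pos I
      refine le_of_forall_pos_le_add fun δ hδ => ?_
      rcases eq_or_lt_of_le hA with h0 | h0
      · have := key (l + 1) (by linarith) (by linarith)
        rw [← h0] at this ⊢
        simp only [zero_mul] at this ⊢
        linarith
      · have h6 := key (l + δ / (A * len I)) (by positivity) (by
          have : 0 < δ / (A * len I) := by positivity
          linarith)
        refine h6.trans (le_of_eq ?_)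
        field_simp)
  exact h

/-- **[T2] `ConvLem`** -/
theorem convLem : ConvLem := by
  classical
  intro k hk hk4 C hC
  refine ⟨8 * TLoc13.lc (2 + k) (2 + 2 * k) * cT k C ^ (1 / (2 + 2 * k)), ?_, ?_⟩
  · have hlc := TLoc13.lc_nonneg (q := 2 + k) (r := 2 + 2 * k) (by linarith) (by linarith)
    have : 0 ≤ cT k C := by unfold cT; positivity
    positivity
  intro bb i t A ht ht1 hA R J hR Y T E hT hE hav hsup hcnt hsq hyp ε hε
  have hlc := TLoc13.lc_nonneg (q := 2 + k) (r := 2 + 2 * k) (by linarith) (by linarith)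
  have hcT : 0 ≤ cT k C := by unfold cT; positivity
  have hlen := Growth.len_pos J
  set ι := {I // I ∈ T} with hι
  set r : ℝ := 2 + 2 * k with hr
  -- each signed letter
  have h1 : ∀ θ : Sg ι, ‖TP bb (eg T J ε θ) R (Function.update Y i (fun _ => zs (Ec T E) θ))‖
      ≤ 8 * TLoc13.lc (2 + k) r * A * aq r J (zs (Ec T E) θ) * len J := by
    intro θ
    exact loc_static k hk bb i A hA hR Y _ _ fun R' J' hR' hs w hw =>
      hyp (eg T J ε θ) ⟨hε.1, eg_le ε hε.2 θ⟩ R' J' hR' hs w hw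
  have h2 := norm_signs hR hT E C t (2 * k) hC ht ht1 (by linarith) (by linarith) hav hsup hcnt hsq
  rw [pow_bound k C t hk hC ht] at h2
  -- power mean
  have hN : ((2 : ℝ) ^ Fintype.card ι) = Fintype.card (Sg ι) := by
    simp [Sg]
  have h3 := mean_le (ι := Sg ι) r (by linarith) (2 ^ Fintype.card ι) (cT k C * t ^ (-(10 * k))) hN
    (by positivity) (fun θ => aq r J (zs (Ec T E) θ))
    (fun θ => Lq853.avq_nonneg _ _ _ _) (by
      have h4 : ∀ θ : Sg ι, aq r J (zs (Ec T E) θ) ^ r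
          = (1 / len J) * ∑ y ∈ iv J, ‖zs (Ec T E) θ y‖ ^ r := fun θ =>
        TLoc13.vq_rpow (r := r) (by linarith) (zs (Ec T E) θ) J
      rw [Finset.sum_congr rfl fun θ _ => h4 θ, ← Finset.mul_sum, one_div, inv_mul_le_iff₀ hlen]
      calc _ ≤ _ := h2
        _ = _ := by ring)
  rw [conv_tot hR hT bb hε.1 ε i Y E hE, norm_mul]
  have h5 : ‖(1 / (2 : ℂ) ^ Fintype.card ι)‖ = 1 / 2 ^ Fintype.card ι := by simp
  rw [h5]
  have h6 : (cT k C * t ^ (-(10 * k))) ^ (1 / r) ≤ cT k C ^ (1 / r) * t ^ (-(5 * k)) := by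
    rw [Real.mul_rpow hcT (by positivity), ← Real.rpow_mul ht.le]
    refine mul_le_mul_of_nonneg_left ?_ (by positivity)
    refine Real.rpow_le_rpow_of_exponent_ge ht ht1 ?_
    have hr2 : 2 ≤ r := by linarith
    have : 10 * k * (1 / r) ≤ 5 * k := by
      rw [mul_one_div, div_le_iff₀ (by linarith)]
      nlinarith
    linarith
  calc 1 / 2 ^ Fintype.card ι * ‖∑ θ : Sg ι, TP bb (eg T J ε θ) R
        (Function.update Y i (fun _ => zs (Ec T E) θ))‖
      ≤ 1 / 2 ^ Fintype.card ι * ∑ θ : Sg ι,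
          (8 * TLoc13.lc (2 + k) r * A * aq r J (zs (Ec T E) θ) * len J) :=
        mul_le_mul_of_nonneg_left ((norm_sum_le _ _).trans (Finset.sum_le_sum fun θ _ => h1 θ))
          (by positivity)
    _ = (8 * TLoc13.lc (2 + k) r * A * len J) *
          (1 / 2 ^ Fintype.card ι * ∑ θ : Sg ι, aq r J (zs (Ec T E) θ)) := by
        rw [← Finset.sum_mul, ← Finset.mul_sum]; ring
    _ ≤ (8 * TLoc13.lc (2 + k) r * A * len J) * (cT k C ^ (1 / r) * t ^ (-(5 * k))) :=
        mul_le_mul_of_nonneg_left (h3.trans h6) (by positivity)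
    _ = _ := by ring

end Crest.Agent.R079.TRec.T2
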