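import Crest.Agent.R079.Max_292
import Crest.Agent.R079.Spine_796

/-! R079, L0e (helper292), part 2: `BBFinite → GridBound`.

Classes of the integer `Int.log 2 (M₀ M₁ M₂)` (`M_j` = running maximum of the local `L²` averages, it
increases downwards) are unions of tree regions with disjoint tops. -/

set_option autoImplicit false

namespace Crest.Agent.R079.L0e

open Finset Grid

/-- product of the three running maxima at a node -/
noncomputable def G (T : ℕ) (F : Fin 4 → ℤ → ℂ) (p : ℕ × ℤ) : ℝ :=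
  Mr T (F 0) (T - p.1) p.2 * Mr T (F 1) (T - p.1) p.2 * Mr T (F 2) (T - p.1) p.2

/-- ancestor -/
def anc (p : ℕ × ℤ) (k : ℕ) : ℕ × ℤ := (p.1 + k, p.2 / 2 ^ k)

lemma anc_zero (p : ℕ × ℤ) : anc p 0 = p := by
  simp [anc]

lemma anc_anc (p : ℕ × ℤ) (i j : ℕ) : anc (anc p i) j = anc p (i + j) := by
  simp only [anc, Prod.mk.injEq]
  exact ⟨by omega, ediv_pow_pow _ _ _⟩

lemma Mr_anc (T : ℕ) (f : ℤ → ℂ) (p : ℕ × ℤ) (k : ℕ) (h : p.1 + k ≤ T) :
    Mr T f (T - (anc p k).1) (anc p k).2 ≤ Mr T f (T - p.1) p.2 := by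
  have e : T - p.1 = (T - (anc p k).1) + k := by
    simp only [anc]
    omega
  rw [e]
  exact Mr_mono T f _ k p.2

lemma G_nonneg (T : ℕ) (F : Fin 4 → ℤ → ℂ) (p : ℕ × ℤ) : 0 ≤ G T F p :=
  mul_nonneg (mul_nonneg (Mr_nonneg _ _ _ _) (Mr_nonneg _ _ _ _)) (Mr_nonneg _ _ _ _)

lemma G_anc (T : ℕ) (F : Fin 4 → ℤ → ℂ) (p : ℕ × ℤ) (k : ℕ) (h : p.1 + k ≤ T) :
    G T F (anc p k) ≤ G T F p := by
  unfold G
  exact mul_le_mul (mul_le_mul (Mr_anc _ _ _ _ h) (Mr_anc _ _ _ _ h) (Mr_nonneg _ _ _ _)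
    (Mr_nonneg _ _ _ _)) (Mr_anc _ _ _ _ h) (Mr_nonneg _ _ _ _)
    (mul_nonneg (Mr_nonneg _ _ _ _) (Mr_nonneg _ _ _ _))

/-- class -/
noncomputable def Nc (T : ℕ) (F : Fin 4 → ℤ → ℂ) (p : ℕ × ℤ) : ℤ := Int.log 2 (G T F p)

lemma Nc_le (T : ℕ) (F : Fin 4 → ℤ → ℂ) (p : ℕ × ℤ) (h : 0 < G T F p) :
    (2 : ℝ) ^ (Nc T F p) ≤ G T F p := by
  have := Int.zpow_log_le_self (b := 2) (r := G T F p) (by norm_num) h
  exact_mod_cast this

lemma lt_Nc (T : ℕ) (F : Fin 4 → ℤ → ℂ) (p : ℕ × ℤ) :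
    G T F p < 2 * (2 : ℝ) ^ (Nc T F p) := by
  have := Int.lt_zpow_succ_log_self (b := 2) (by norm_num) (G T F p)
  rw [zpow_add_one₀ (by norm_num)] at this
  push_cast at this
  unfold Nc
  linarith

/-- same class as the `k`-th ancestor -/
def Pc (T : ℕ) (F : Fin 4 → ℤ → ℂ) (p : ℕ × ℤ) (k : ℕ) : Prop :=
  0 < G T F (anc p k) ∧ Nc T F (anc p k) = Nc T F p

lemma Nc_anc (T : ℕ) (F : Fin 4 → ℤ → ℂ) (p : ℕ × ℤ) (k : ℕ) (h : p.1 + k ≤ T)
    (hG : 0 < G T F (anc p k)) : Nc T F (anc p k) ≤ Nc T F p :=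
  Int.log_mono_right hG (G_anc T F p k h)

open Classical in
/-- distance to the top of the class -/
noncomputable def kt (T : ℕ) (F : Fin 4 → ℤ → ℂ) (p : ℕ × ℤ) : ℕ :=
  Nat.findGreatest (Pc T F p) (T - p.1)

noncomputable def topn (T : ℕ) (F : Fin 4 → ℤ → ℂ) (p : ℕ × ℤ) : ℕ × ℤ := anc p (kt T F p)

lemma kt_le (T : ℕ) (F : Fin 4 → ℤ → ℂ) (p : ℕ × ℤ) : kt T F p ≤ T - p.1 := by
  classical
  exact Nat.findGreatest_le _

lemma Pc_kt (T : ℕ) (F : Fin 4 → ℤ → ℂ) (p : ℕ × ℤ) (h : 0 < G T F p) :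
    Pc T F p (kt T F p) := by
  classical
  unfold kt
  refine Nat.findGreatest_spec (P := Pc T F p) (m := 0) (Nat.zero_le _) ?_
  unfold Pc
  rw [anc_zero]
  exact ⟨h, rfl⟩

lemma le_kt (T : ℕ) (F : Fin 4 → ℤ → ℂ) (p : ℕ × ℤ) (k : ℕ) (hk : p.1 + k ≤ T)
    (h : Pc T F p k) : k ≤ kt T F p := by
  classical
  exact Nat.le_findGreatest (by omega) h

/-- universe of nodes below the tops `(T, l)`, `A ≤ l < B` -/
noncomputable def U (T : ℕ) (A B : ℤ) : Finset (ℕ × ℤ) :=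
  (Finset.range (T + 1)).biUnion fun m =>
    (Finset.Ico (A * 2 ^ (T - m)) (B * 2 ^ (T - m))).image fun l => (m, l)

lemma mem_U {T : ℕ} {A B : ℤ} {p : ℕ × ℤ} :
    p ∈ U T A B ↔ p.1 ≤ T ∧ A * 2 ^ (T - p.1) ≤ p.2 ∧ p.2 < B * 2 ^ (T - p.1) := by
  unfold U
  simp only [Finset.mem_biUnion, Finset.mem_range, Finset.mem_image, Finset.mem_Ico]
  constructor
  · rintro ⟨m, hm, l, hl, rfl⟩
    exact ⟨by omega, hl.1, hl.2⟩
  · rintro ⟨h1, h2, h3⟩
    exact ⟨p.1, by omega, p.2, ⟨h2, h3⟩, rfl⟩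

lemma anc_mem_U {T : ℕ} {A B : ℤ} {p : ℕ × ℤ} (h : p ∈ U T A B) (k : ℕ) (hk : p.1 + k ≤ T) :
    anc p k ∈ U T A B := by
  rw [mem_U] at h ⊢
  obtain ⟨h1, h2, h3⟩ := h
  have h0 : (0 : ℤ) < 2 ^ k := by positivity
  have e : T - p.1 = T - (p.1 + k) + k := by omega
  refine ⟨hk, ?_, ?_⟩
  · simp only [anc]
    rw [Int.le_ediv_iff_mul_le h0, mul_assoc, ← pow_add, ← e]
    exact h2
  · simp only [anc]
    rw [Int.ediv_lt_iff_lt_mul h0, mul_assoc, ← pow_add, ← e]
    exact h3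

open Classical in
/-- nodes of positive class -/
noncomputable def U' (T : ℕ) (F : Fin 4 → ℤ → ℂ) (A B : ℤ) : Finset (ℕ × ℤ) :=
  (U T A B).filter fun p => 0 < G T F p

open Classical in
/-- tops of the classes -/
noncomputable def tops (T : ℕ) (F : Fin 4 → ℤ → ℂ) (A B : ℤ) : Finset (ℕ × ℤ) :=
  (U' T F A B).filter fun p => p.1 + 1 ≤ T → ¬ Pc T F p 1

lemma topn_mem {T : ℕ} {F : Fin 4 → ℤ → ℂ} {A B : ℤ} {p : ℕ × ℤ} (h : p ∈ U' T F A B) :
    topn T F p ∈ tops T F A B := by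
  classical
  unfold U' at h
  rw [Finset.mem_filter] at h
  obtain ⟨h1, h2⟩ := h
  have h3 := mem_U.mp h1
  have hP := Pc_kt T F p h2
  have hk := kt_le T F p
  have hkT : p.1 + kt T F p ≤ T := by omega
  unfold tops U'
  rw [Finset.mem_filter, Finset.mem_filter]
  refine ⟨⟨anc_mem_U h1 _ hkT, hP.1⟩, ?_⟩
  intro h4 h5
  have h6 : (topn T F p).1 = p.1 + kt T F p := rfl
  rw [h6] at h4
  have h7 : Pc T F p (kt T F p + 1) := by
    unfold Pc topn at h5
    rw [anc_anc] at h5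
    exact ⟨h5.1, h5.2.trans hP.2⟩
  have := le_kt T F p _ (by omega) h7
  omega

open Classical in
/-- region of a top -/
noncomputable def RJ (T : ℕ) (F : Fin 4 → ℤ → ℂ) (A B : ℤ) (J : ℕ × ℤ) : Finset (ℕ × ℤ) :=
  (U' T F A B).filter fun p => topn T F p = J

lemma RJ_region (T : ℕ) (F : Fin 4 → ℤ → ℂ) (A B : ℤ) (J : ℕ × ℤ) :
    IsRegion (RJ T F A B J) J := by
  classical
  constructor
  · intro p hp
    unfold RJ at hp
    rw [Finset.mem_filter] at hp
    rw [← hp.2]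
    have := dI_sub (p.1 + 7) (kt T F p) p.2
    have e : (topn T F p).1 + 7 = p.1 + 7 + kt T F p := by
      simp only [topn, anc]; omega
    rw [e]
    exact this
  · intro p hp q h1 h2
    unfold RJ at hp ⊢
    rw [Finset.mem_filter] at hp ⊢
    obtain ⟨hp, htp⟩ := hp
    unfold U' at hp ⊢
    rw [Finset.mem_filter] at hp ⊢
    obtain ⟨hpU, hpG⟩ := hp
    have hpT := (mem_U.mp hpU).1
    obtain ⟨i, hi1, hi2⟩ := dI_sub_imp h1
    obtain ⟨j, hj1, hj2⟩ := dI_sub_imp h2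
    have hq : q = anc p i := by
      apply Prod.ext
      · simp only [anc]; omega
      · exact hi2
    have hJ : J = anc q j := by
      apply Prod.ext
      · simp only [anc]; omega
      · exact hj2
    have hk : kt T F p = i + j := by
      have h3 : J.1 = p.1 + kt T F p := by rw [← htp]; rfl
      have h4 : J.1 = p.1 + i + j := by rw [hJ, hq]; rfl
      omega
    have hkT := kt_le T F p
    have hP := Pc_kt T F p hpG
    rw [hk] at hP hkT
    have hJ2 : J = anc p (i + j) := by rw [hJ, hq, anc_anc]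
    have hqT : p.1 + i ≤ T := by omega
    have hqj : q.1 + j ≤ T := by rw [hq]; simp only [anc]; omega
    have hGJ : 0 < G T F (anc q j) := by rw [← hJ, hJ2]; exact hP.1
    have hGq : 0 < G T F q := hGJ.trans_le (G_anc T F q j hqj)
    have hN1 : Nc T F (anc q j) ≤ Nc T F q := Nc_anc T F q j hqj hGJ
    have hN2 : Nc T F q ≤ Nc T F p := by
      rw [hq]
      exact Nc_anc T F p i hqT (by rw [← hq]; exact hGq)
    have hN3 : Nc T F (anc q j) = Nc T F p := by rw [← hJ, hJ2]; exact hP.2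
    have hNq : Nc T F q = Nc T F p := le_antisymm hN2 (by rw [← hN3]; exact hN1)
    refine ⟨⟨?_, hGq⟩, ?_⟩
    · rw [hq]; exact anc_mem_U hpU i hqT
    · have hPq : Pc T F q j := ⟨hGJ, hN3.trans hNq.symm⟩
      have hle := le_kt T F q j hqj hPq
      have hge : kt T F q ≤ j := by
        have hkq := kt_le T F q
        have hPq2 := Pc_kt T F q hGq
        have h5 : Pc T F p (i + kt T F q) := by
          unfold Pc at hPq2 ⊢
          rw [hq] at hPq2
          rw [anc_anc] at hPq2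
          rw [← hq] at hPq2
          exact ⟨hPq2.1, hPq2.2.trans hNq⟩
        have hq1 : q.1 = p.1 + i := by rw [hq]; rfl
        have := le_kt T F p _ (by omega) h5
        omega
      unfold topn
      rw [le_antisymm hge hle, ← hJ]

lemma three_le {a b c a' b' c' : ℝ} (ha : 0 < a) (hb : 0 < b) (hc : 0 < c)
    (_h1 : a ≤ a') (h2 : b ≤ b') (h3 : c ≤ c') (h : a' * b' * c' ≤ 2 * (a * b * c)) :
    a' ≤ 2 * a := by
  by_contra hcon
  push Not at hcon
  have h4 : b * c ≤ b' * c' := mul_le_mul h2 h3 hc.le (hb.le.trans h2)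
  have h5 : 0 < b * c := mul_pos hb hc
  have h6 : a' * (b * c) ≤ a' * (b' * c') :=
    mul_le_mul_of_nonneg_left h4 (by linarith)
  have h7 : (2 * a) * (b * c) < a' * (b * c) := mul_lt_mul_of_pos_right hcon h5
  nlinarith

lemma av2_le_one (k : ℕ) (l : ℤ) (f : ℤ → ℂ) (hf : ∀ x, ‖f x‖ ≤ 1) : av2 k l f ≤ 1 := by
  have h := sum_sq_eq k l f
  have hcard : ((dI k l).card : ℝ) = 2 ^ k := by
    unfold dI
    rw [Int.card_Ico]
    have : ((l + 1) * 2 ^ k - l * 2 ^ k : ℤ) = ((2 ^ k : ℕ) : ℤ) := by push_cast; ring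
    rw [this, Int.toNat_natCast]
    push_cast
    ring
  have h2 : ∑ y ∈ dI k l, ‖f y‖ ^ 2 ≤ ∑ _y ∈ dI k l, (1 : ℝ) :=
    Finset.sum_le_sum fun y _ => by
      have := hf y
      have h0 := norm_nonneg (f y)
      nlinarith
  rw [Finset.sum_const, nsmul_eq_mul, hcard, mul_one, h] at h2
  have h3 : (0 : ℝ) < 2 ^ k := by positivity
  have h4 : av2 k l f ^ 2 ≤ 1 := by
    by_contra hc
    push Not at hc
    nlinarith
  have h5 := av2_nonneg k l f
  nlinarith

/-- local averages on the region of `J`. -/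
lemma RJ_av (T : ℕ) (F : Fin 4 → ℤ → ℂ) (A B : ℤ) (J p : ℕ × ℤ) (hp : p ∈ RJ T F A B J)
    (hF : ∀ x, ‖F 3 x‖ ≤ 1) (j : Fin 4) :
    av2 (p.1 + 7) p.2 (F j) ≤ (![2 * Mr T (F 0) (T - J.1) J.2, 2 * Mr T (F 1) (T - J.1) J.2,
      2 * Mr T (F 2) (T - J.1) J.2, 1] : Fin 4 → ℝ) j := by
  classical
  unfold RJ at hp
  rw [Finset.mem_filter] at hp
  obtain ⟨hp, htp⟩ := hp
  unfold U' at hp
  rw [Finset.mem_filter] at hp
  obtain ⟨hpU, hpG⟩ := hp
  have hpT := (mem_U.mp hpU).1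
  have hkT := kt_le T F p
  have hP := Pc_kt T F p hpG
  have hJ : J = anc p (kt T F p) := htp.symm
  have hk : p.1 + kt T F p ≤ T := by omega
  have hGJ : 0 < G T F J := by rw [hJ]; exact hP.1
  have hN : Nc T F J = Nc T F p := by rw [hJ]; exact hP.2
  have h2 : G T F p ≤ 2 * G T F J := by
    have a1 := lt_Nc T F p
    have a2 := Nc_le T F J hGJ
    rw [hN] at a2
    linarith
  have m0 := Mr_anc T (F 0) p _ hk
  have m1 := Mr_anc T (F 1) p _ hk
  have m2 := Mr_anc T (F 2) p _ hk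
  rw [← hJ] at m0 m1 m2
  have hav : ∀ f : ℤ → ℂ, av2 (p.1 + 7) p.2 f ≤ Mr T f (T - p.1) p.2 := by
    intro f
    have := av2_le_Mr T f (T - p.1) p.2
    rwa [show T - (T - p.1) + 7 = p.1 + 7 by omega] at this
  have n0 := Mr_nonneg T (F 0) (T - J.1) J.2
  have n1 := Mr_nonneg T (F 1) (T - J.1) J.2
  have n2 := Mr_nonneg T (F 2) (T - J.1) J.2
  have v0 := hav (F 0)
  have v1 := hav (F 1)
  have v2 := hav (F 2)
  unfold G at h2 hGJ
  generalize Mr T (F 0) (T - J.1) J.2 = a at *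
  generalize Mr T (F 1) (T - J.1) J.2 = b at *
  generalize Mr T (F 2) (T - J.1) J.2 = c at *
  generalize Mr T (F 0) (T - p.1) p.2 = a' at *
  generalize Mr T (F 1) (T - p.1) p.2 = b' at *
  generalize Mr T (F 2) (T - p.1) p.2 = c' at *
  have ha : 0 < a := by
    rcases n0.lt_or_eq with h | h
    · exact h
    · rw [← h] at hGJ; simp at hGJ
  have hb : 0 < b := by
    rcases n1.lt_or_eq with h | h
    · exact h
    · rw [← h] at hGJ; simp at hGJ
  have hc : 0 < c := by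
    rcases n2.lt_or_eq with h | h
    · exact h
    · rw [← h] at hGJ; simp at hGJ
  fin_cases j
  · exact v0.trans (three_le ha hb hc m0 m1 m2 h2)
  · refine v1.trans (three_le hb ha hc m1 m0 m2 ?_)
    have e1 : b' * a' * c' = a' * b' * c' := by ring
    have e2 : b * a * c = a * b * c := by ring
    rw [e1, e2]
    exact h2
  · refine v2.trans (three_le hc ha hb m2 m0 m1 ?_)
    have e1 : c' * a' * b' = a' * b' * c' := by ring
    have e2 : c * a * b = a * b * c := by ring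
    rw [e1, e2]
    exact h2
  · exact av2_le_one _ _ _ hF




lemma dI_card (k : ℕ) (l : ℤ) : ((dI k l).card : ℝ) = 2 ^ k := by
  unfold dI
  rw [Int.card_Ico]
  have : ((l + 1) * 2 ^ k - l * 2 ^ k : ℤ) = ((2 ^ k : ℕ) : ℤ) := by push_cast; ring
  rw [this, Int.toNat_natCast]
  push_cast
  ring


lemma holder3 {ι : Type*} (S : Finset ι) (w a b c : ι → ℝ) (hw : ∀ i ∈ S, 0 ≤ w i)
    (ha : ∀ i ∈ S, 0 ≤ a i) (hb : ∀ i ∈ S, 0 ≤ b i) (hc : ∀ i ∈ S, 0 ≤ c i) (X Y Z : ℝ)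
    (hX : 0 ≤ X) (hY : 0 ≤ Y) (hZ : 0 ≤ Z)
    (h1 : ∑ i ∈ S, w i * a i ^ 3 ≤ X ^ 3) (h2 : ∑ i ∈ S, w i * b i ^ 3 ≤ Y ^ 3)
    (h3 : ∑ i ∈ S, w i * c i ^ 3 ≤ Z ^ 3) :
    ∑ i ∈ S, w i * (a i * b i * c i) ≤ X * Y * Z := by
  have zero : ∀ (u : ι → ℝ), (∀ i ∈ S, 0 ≤ u i) → ∑ i ∈ S, w i * u i ^ 3 ≤ 0 →
      ∀ i ∈ S, w i * u i = 0 := by
    intro u hu h i hi
    have h0 : ∀ i ∈ S, 0 ≤ w i * u i ^ 3 := fun i hi => mul_nonneg (hw i hi)
      (pow_nonneg (hu i hi) 3)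
    have h4 : ∑ i ∈ S, w i * u i ^ 3 = 0 := le_antisymm h (Finset.sum_nonneg h0)
    have h5 := (Finset.sum_eq_zero_iff_of_nonneg h0).mp h4 i hi
    rcases mul_eq_zero.mp h5 with h | h
    · rw [h, zero_mul]
    · rw [pow_eq_zero_iff (by norm_num)] at h
      rw [h, mul_zero]
  rcases hX.lt_or_eq with hX | hX
  · rcases hY.lt_or_eq with hY | hY
    · rcases hZ.lt_or_eq with hZ | hZ
      · have hp : ∀ i ∈ S, w i * (a i * b i * c i) ≤ (X * Y * Z) / 3 *
            (w i * a i ^ 3 / X ^ 3 + w i * b i ^ 3 / Y ^ 3 + w i * c i ^ 3 / Z ^ 3) := by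
          intro i hi
          have hx : 0 ≤ a i / X := div_nonneg (ha i hi) hX.le
          have hy : 0 ≤ b i / Y := div_nonneg (hb i hi) hY.le
          have hz : 0 ≤ c i / Z := div_nonneg (hc i hi) hZ.le
          have key : ∀ x y z : ℝ, 0 ≤ x → 0 ≤ y → 0 ≤ z →
              x * y * z ≤ (x ^ 3 + y ^ 3 + z ^ 3) / 3 := by
            intro x y z hx hy hz
            nlinarith [mul_nonneg (by positivity : (0 : ℝ) ≤ x + y + z)
              (by positivity : (0 : ℝ) ≤ (x - y) ^ 2 + (y - z) ^ 2 + (z - x) ^ 2)]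
          have hk := key _ _ _ hx hy hz
          have e1 : w i * (a i * b i * c i) = (X * Y * Z) * w i * (a i / X * (b i / Y) * (c i / Z)) := by
            field_simp
          rw [e1]
          have hw' : 0 ≤ (X * Y * Z) * w i := by
            have := hw i hi
            positivity
          refine (mul_le_mul_of_nonneg_left hk hw').trans (le_of_eq ?_)
          rw [div_pow, div_pow, div_pow]
          ring
        refine (Finset.sum_le_sum hp).trans ?_
        rw [← Finset.mul_sum, Finset.sum_add_distrib, Finset.sum_add_distrib, ← Finset.sum_div,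
          ← Finset.sum_div, ← Finset.sum_div]
        have i1 : (∑ i ∈ S, w i * a i ^ 3) / X ^ 3 ≤ 1 := by
          rw [div_le_one (by positivity)]; exact h1
        have i2 : (∑ i ∈ S, w i * b i ^ 3) / Y ^ 3 ≤ 1 := by
          rw [div_le_one (by positivity)]; exact h2
        have i3 : (∑ i ∈ S, w i * c i ^ 3) / Z ^ 3 ≤ 1 := by
          rw [div_le_one (by positivity)]; exact h3
        have hpos : 0 ≤ X * Y * Z / 3 := by positivity
        calc _ ≤ X * Y * Z / 3 * (1 + 1 + 1) := mul_le_mul_of_nonneg_left (by linarith) hpos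
          _ = _ := by ring
      · rw [← hZ] at h3 ⊢
        have h4 := zero c hc (by simpa using h3)
        rw [Finset.sum_eq_zero (fun i hi => by
          calc w i * (a i * b i * c i) = a i * b i * (w i * c i) := by ring
            _ = 0 := by rw [h4 i hi, mul_zero])]
        simp
    · rw [← hY] at h2 ⊢
      have h4 := zero b hb (by simpa using h2)
      rw [Finset.sum_eq_zero (fun i hi => by
        calc w i * (a i * b i * c i) = a i * c i * (w i * b i) := by ring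
          _ = 0 := by rw [h4 i hi, mul_zero])]
      simp
  · rw [← hX] at h1 ⊢
    have h4 := zero a ha (by simpa using h1)
    rw [Finset.sum_eq_zero (fun i hi => by
      calc w i * (a i * b i * c i) = b i * c i * (w i * a i) := by ring
        _ = 0 := by rw [h4 i hi, mul_zero])]
    simp

lemma l3_nonneg (f : ℤ → ℂ) : 0 ≤ l3 f := by
  unfold l3
  exact Real.rpow_nonneg (finsum_nonneg fun x => by positivity) _

lemma l3_cube (f : ℤ → ℂ) : l3 f ^ 3 = ∑ᶠ x : ℤ, ‖f x‖ ^ 3 := by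
  unfold l3
  have h : (0 : ℝ) ≤ ∑ᶠ x : ℤ, ‖f x‖ ^ 3 := finsum_nonneg fun x => by positivity
  rw [← Real.rpow_natCast, ← Real.rpow_mul h]
  norm_num

lemma sum_leaf_le (f : ℤ → ℂ) (hf : (Function.support f).Finite) (S : Finset ℤ) :
    ∑ l ∈ S, ∑ y ∈ dI 7 l, ‖f y‖ ^ 3 ≤ l3 f ^ 3 := by
  classical
  rw [l3_cube]
  have hsupp : Function.support (fun x => ‖f x‖ ^ 3) ⊆ (hf.toFinset : Set ℤ) := by
    intro x hx
    rw [Function.mem_support] at hx
    rw [Set.Finite.coe_toFinset, Function.mem_support]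
    intro h
    apply hx
    rw [h]
    simp
  rw [← Finset.sum_biUnion (fun l _ l' _ h => dI_disj h)]
  rw [finsum_eq_sum_of_support_subset (s := hf.toFinset ∪ S.biUnion fun l => dI 7 l) _
    (hsupp.trans (by
      rw [Finset.coe_union]
      exact Set.subset_union_left))]
  exact Finset.sum_le_sum_of_subset_of_nonneg Finset.subset_union_right
    fun x _ _ => by positivity


open Classical in
/-- coefficients restricted to the nodes of `R` -/
noncomputable def epsR (ε : ℕ → ℤ → ℂ) (R : Finset (ℕ × ℤ)) (m : ℕ) (x : ℤ) : ℂ :=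
  if (m, x / 2 ^ (m + 7)) ∈ R then ε m x else 0

lemma epsR_le (ε : ℕ → ℤ → ℂ) (R : Finset (ℕ × ℤ)) (hε : ∀ m x, ‖ε m x‖ ≤ 1) (m : ℕ) (x : ℤ) :
    ‖epsR ε R m x‖ ≤ 1 := by
  unfold epsR
  split_ifs
  · exact hε m x
  · simp

open Classical in
lemma TI_epsR (b : ℤ) (ε : ℕ → ℤ → ℂ) (R : Finset (ℕ × ℤ)) (F : Fin 4 → ℤ → ℂ) (p : ℕ × ℤ) :
    TI b (epsR ε R) F p = if p ∈ R then TI b ε F p else 0 := by
  have hx : ∀ x ∈ adm p.1 p.2, x / 2 ^ (p.1 + 7) = p.2 := by
    intro x hx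
    rw [← mem_dI]
    unfold adm at hx
    unfold dI
    rw [Finset.mem_Ico] at hx ⊢
    have h0 : (0 : ℤ) < 2 ^ (p.1 + 1) := by positivity
    constructor
    · linarith [hx.1]
    · have := hx.2
      omega
  unfold TI
  split_ifs with h
  · refine Finset.sum_congr rfl fun x hx' => ?_
    unfold epsR
    rw [hx x hx', if_pos h]
  · refine Finset.sum_eq_zero fun x hx' => ?_
    unfold epsR
    rw [hx x hx', if_neg h, zero_mul]



end Crest.Agent.R079.L0e
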