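import Crest.Agent.R079.Qe_292
import Crest.Agent.R079.L0e_292

/-! R079, leaf (Qf) of `QDefs_248` (helper248): from arbitrary to full regions (add the siblings,
coefficients `0` there). -/

set_option autoImplicit false

namespace Crest.Agent.R079.Qf248

open Finset Crest.Agent.R079.Grid Crest.Agent.R079.Growth Crest.Agent.R079.QRed
  Crest.Agent.R079.Qe292

open Classical in
/-- sibling closure -/
noncomputable def cl (R : Finset Nd) (J : Nd) : Finset Nd :=
  R ∪ (R.filter (fun p => p ≠ J)).image sib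

lemma mem_cl {R : Finset Nd} {J p : Nd} : p ∈ cl R J ↔ p ∈ R ∨ ∃ q ∈ R, q ≠ J ∧ sib q = p := by
  classical
  unfold cl
  rw [Finset.mem_union, Finset.mem_image]
  simp only [Finset.mem_filter, and_assoc]

lemma sub_cl (R : Finset Nd) (J : Nd) : R ⊆ cl R J := fun _ hp => mem_cl.2 (Or.inl hp)

lemma par_in {R : Finset Nd} {J : Nd} (hR : IsRegion R J) {q : Nd} (hq : q ∈ R) (hne : q ≠ J) :
    par q ∈ R := hR.2 q hq (par q) (iv_par q) (par_sub (hR.1 q hq) hne)

lemma full_cl {R : Finset Nd} {J : Nd} (hR : IsRegion R J) (hJ : J ∈ R) : Full (cl R J) J := by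
  have hsub : ∀ p ∈ cl R J, iv p ⊆ iv J := by
    intro p hp
    rcases mem_cl.1 hp with h | ⟨q, hq, hne, rfl⟩
    · exact hR.1 p h
    · have h1 := iv_par (sib q)
      rw [par_sib] at h1
      exact h1.trans (par_sub (hR.1 q hq) hne)
  refine ⟨⟨hsub, ?_⟩, sub_cl R J hJ, ?_⟩
  · intro p hp q hpq hqJ
    rcases mem_cl.1 hp with h | ⟨p', hp', hne, rfl⟩
    · exact sub_cl R J (hR.2 p h q hpq hqJ)
    · by_cases he : sib p' = q
      · rw [← he]; exact hp
      · have h1 : iv (par (sib p')) ⊆ iv q := par_sub hpq he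
        rw [par_sib] at h1
        exact sub_cl R J (hR.2 p' hp' q ((iv_par p').trans h1) hqJ)
  · refine bin_of ?_
    intro c hc hpc
    rcases mem_cl.1 hc with h | ⟨c', hc', hne, rfl⟩
    · have hne : c ≠ J := by
        rintro rfl
        have := iv_level (hsub _ hpc)
        simp only [par] at this
        omega
      exact mem_cl.2 (Or.inr ⟨c, h, hne, rfl⟩)
    · rw [sib_sib]
      exact sub_cl R J hc'

lemma av_sib_le {p : Nd} {f : Fn} {a : ℝ} (ha : 0 ≤ a) (h : av (par p) f ≤ a) :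
    av (sib p) f ≤ Real.sqrt 2 * a := by
  have h1 := L0e.av2_sq_succ (p.1 + 7) (p.2 / 2) f
  have h2 : av (par p) f = av2 (p.1 + 7 + 1) (p.2 / 2) f := by
    have e : p.1 + 1 + 7 = p.1 + 7 + 1 := by omega
    show av2 (p.1 + 1 + 7) (p.2 / 2) f = _
    rw [e]
  have h3 : av (sib p) f ^ 2 ≤ 2 * av (par p) f ^ 2 := by
    rw [h2, h1]
    rcases Int.emod_two_eq_zero_or_one p.2 with h | h
    · have e : av (sib p) f = av2 (p.1 + 7) (2 * (p.2 / 2) + 1) f := by
        unfold av sib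
        simp only
        rw [show 4 * (p.2 / 2) + 1 - p.2 = 2 * (p.2 / 2) + 1 by omega]
      rw [e]
      nlinarith [sq_nonneg (av2 (p.1 + 7) (2 * (p.2 / 2)) f)]
    · have e : av (sib p) f = av2 (p.1 + 7) (2 * (p.2 / 2)) f := by
        unfold av sib
        simp only
        rw [show 4 * (p.2 / 2) + 1 - p.2 = 2 * (p.2 / 2) by omega]
      rw [e]
      nlinarith [sq_nonneg (av2 (p.1 + 7) (2 * (p.2 / 2) + 1) f)]
  have h0 : 0 ≤ av (par p) f := av2_nonneg _ _ _
  refine abs_le_of_sq_le_sq' ?_ (by positivity) |>.2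
  rw [mul_pow, Real.sq_sqrt (by norm_num : (0 : ℝ) ≤ 2)]
  nlinarith


lemma av_smul (p : Nd) (c : ℝ) (hc : 0 ≤ c) (f : Fn) :
    av p (fun y => (c : ℂ) * f y) = c * av p f := by
  unfold av av2
  have e : ∀ y, ‖(c : ℂ) * f y‖ ^ 2 = c ^ 2 * ‖f y‖ ^ 2 := by
    intro y
    rw [norm_mul, Complex.norm_real, Real.norm_eq_abs, abs_of_nonneg hc, mul_pow]
  simp only [e]
  rw [← Finset.mul_sum, mul_left_comm, Real.sqrt_mul (sq_nonneg c), Real.sqrt_sq hc]

lemma Lbox_smul (N : ℕ) (b x : ℤ) (F : Fin 4 → ℤ → ℂ) (c : Fin 4 → ℂ) :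
    Lbox N b (fun j y => c j * F j y) x = (∏ j, c j) * Lbox N b F x := by
  unfold Lbox
  rw [Finset.mul_sum, Finset.mul_sum, Finset.mul_sum]
  refine Finset.sum_congr rfl fun u _ => ?_
  rw [Finset.prod_mul_distrib]
  ring

lemma TI_smul (b : ℤ) (ε : ℕ → ℤ → ℂ) (F : Fin 4 → ℤ → ℂ) (c : Fin 4 → ℂ) (p : Nd) :
    TI b ε (fun j y => c j * F j y) p = (∏ j, c j) * TI b ε F p := by
  unfold TI
  rw [Finset.mul_sum]
  refine Finset.sum_congr rfl fun x _ => ?_
  rw [Lbox_smul]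
  ring


end Crest.Agent.R079.Qf248
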