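import Crest.Agent.R079.AsmA_844
import Crest.Agent.R079.TS3a_351
import Crest.Agent.R079.TS2_815

/-! R079, doc 2541 (673) / 2531 Step I: ONE GENERATION in the `It260.Gen` form from TOTAL word bounds
(helper934).

`v4 bb ε F a b` is bilinear in the two free letters (`a ≠ b`).  `SpT` = splitting of two normalised
letters `X = g + P + e`, `Y = g' + P' + e'` on the windows of `T` (letters depend on the window), with
the totals of the words `(g + P, Y)`, `(X, g' + P')`, `(g + P, g' + P')` given separately. -/

set_option autoImplicit false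

namespace Crest.Agent.R079.GenT934

open Finset Crest.Agent.R079.Grid Crest.Agent.R079.Growth Crest.Agent.R079.QRed
open Crest.Agent.R079.TRec Crest.Agent.R079.AsmA844

/-- bilinear node form (arguments in the order of `It260`) -/
structure Bil (v : Fn → Fn → Nd → ℂ) : Prop where
  add1 : ∀ p X X' Y, v (fun y => X y + X' y) Y p = v X Y p + v X' Y p
  add2 : ∀ p X Y Y', v X (fun y => Y y + Y' y) p = v X Y p + v X Y' p
  smul1 : ∀ p (c : ℂ) X Y, v (fun y => c * X y) Y p = c * v X Y p
  smul2 : ∀ p (c : ℂ) X Y, v X (fun y => c * Y y) p = c * v X Y p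

theorem bil_v4 (bb : ℤ) (ε : ℕ → ℤ → ℂ) (F : Fin 4 → Fn) {a b : Fin 4} (hab : a ≠ b) :
    Bil (v4 bb ε F a b) where
  add1 p X X' Y := by
    unfold v4
    rw [Function.update_comm hab, Function.update_comm hab, Function.update_comm hab]
    have := (T2.Lp bb ε (Function.update F b Y) a p).map_add X X'
    exact this
  add2 p X Y Y' := (T2.Lp bb ε (Function.update F a X) b p).map_add Y Y'
  smul1 p c X Y := by
    unfold v4
    rw [Function.update_comm hab, Function.update_comm hab]
    exact (T2.Lp bb ε (Function.update F b Y) a p).map_smul c X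
  smul2 p c X Y := (T2.Lp bb ε (Function.update F a X) b p).map_smul c Y

/-- the size class scales -/
theorem Sm_smul {k : ℝ} (hk : 0 < k) {s : ℝ} {R : Finset Nd} {X Y : Fn} (h : Sm k s R X Y) {c : ℝ}
    (hc : 0 ≤ c) : Sm k (c * s) R (fun y => (c : ℂ) * X y) (fun y => (c : ℂ) * Y y) := by
  intro p hp
  have h1 := h p hp
  have hq : (0 : ℝ) < 2 + k := by linarith
  rw [S351.aq_smul hq p c hc, S351.aq_smul hq p c hc]
  exact ⟨mul_le_mul_of_nonneg_left h1.1 hc, mul_le_mul_of_nonneg_left h1.2 hc⟩





end Crest.Agent.R079.GenT934
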