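import Crest.Agent.R079.TDef_853
import Crest.Agent.R079.Qf_248
import Crest.Agent.R079.QVar_181

/-! R079, TDef_853, [S1] (helper653): scaling of `RuleA` and `BN`, algebra of the local `L^q` averages
`aq`, interpolation between `av` and the sup norm for the pieces of a windowed residual. -/

set_option autoImplicit false
set_option linter.unusedVariables false

namespace Crest.Agent.R079.TRec

open Finset Crest.Agent.R079.Grid Crest.Agent.R079.Growth Crest.Agent.R079.QRed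
  Crest.Agent.R079.QVar181

/-! ### `aq` -/

lemma aq_eq (q : ℝ) (p : Nd) (f : Fn) :
    aq q p f = ((1 / len p) * ∑ y ∈ iv p, ‖f y‖ ^ q) ^ (1 / q) := rfl


lemma aq_arg_nonneg (q : ℝ) (p : Nd) (f : Fn) : 0 ≤ (1 / len p) * ∑ y ∈ iv p, ‖f y‖ ^ q :=
  mul_nonneg (one_div_nonneg.2 (len_pos' p).le)
    (Finset.sum_nonneg fun y _ => Real.rpow_nonneg (norm_nonneg _) _)



lemma aq_smul {q : ℝ} (hq : 0 < q) (p : Nd) (c : ℂ) (f : Fn) :
    aq q p (fun y => c * f y) = ‖c‖ * aq q p f := by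
  rw [aq_eq, aq_eq]
  have e : ∀ y, ‖c * f y‖ ^ q = ‖c‖ ^ q * ‖f y‖ ^ q := fun y => by
    rw [norm_mul, Real.mul_rpow (norm_nonneg _) (norm_nonneg _)]
  simp only [e]
  rw [← Finset.mul_sum, mul_left_comm, Real.mul_rpow (Real.rpow_nonneg (norm_nonneg _) _)
    (aq_arg_nonneg q p f), ← Real.rpow_mul (norm_nonneg _), mul_one_div_cancel hq.ne',
    Real.rpow_one]

/-- triangle inequality -/
lemma aq_add_le {q : ℝ} (hq : 1 ≤ q) (p : Nd) (f g : Fn) :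
    aq q p (fun y => f y + g y) ≤ aq q p f + aq q p g := by
  have hq0 : 0 < q := by linarith
  have hL := len_pos' p
  have hs : ∀ h : Fn, aq q p h = (1 / len p) ^ (1 / q) * (∑ y ∈ iv p, ‖h y‖ ^ q) ^ (1 / q) := by
    intro h
    rw [aq_eq, Real.mul_rpow (by positivity)
      (Finset.sum_nonneg fun y _ => Real.rpow_nonneg (norm_nonneg _) _)]
  rw [hs, hs, hs, ← mul_add]
  refine mul_le_mul_of_nonneg_left ?_ (Real.rpow_nonneg (by positivity) _)
  refine le_trans ?_ (Real.Lp_add_le_of_nonneg (iv p) hq (f := fun y => ‖f y‖)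
    (g := fun y => ‖g y‖) (fun y _ => norm_nonneg _) (fun y _ => norm_nonneg _))
  refine Real.rpow_le_rpow (Finset.sum_nonneg fun y _ => Real.rpow_nonneg (norm_nonneg _) _) ?_
    (by positivity)
  exact Finset.sum_le_sum fun y _ => Real.rpow_le_rpow (norm_nonneg _) (norm_add_le _ _) hq0.le

lemma aq_neg (q : ℝ) (p : Nd) (f : Fn) : aq q p (fun y => -f y) = aq q p f := by
  rw [aq_eq, aq_eq]
  simp only [norm_neg]

lemma aq_sub_le {q : ℝ} (hq : 1 ≤ q) (p : Nd) (f g : Fn) :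
    aq q p (fun y => f y - g y) ≤ aq q p f + aq q p g := by
  have h := aq_add_le hq p f (fun y => -g y)
  rw [aq_neg] at h
  simpa only [sub_eq_add_neg] using h

/-- **interpolation** between `av` (`L²`) and the sup norm -/
theorem aq_le_interp {q : ℝ} (hq : 2 ≤ q) (p : Nd) {f : Fn} {a s : ℝ} (ha : 0 ≤ a) (hs : 0 ≤ s)
    (h2 : av p f ≤ a) (hsup : ∀ y ∈ iv p, ‖f y‖ ≤ s) :
    aq q p f ≤ (a ^ 2 * s ^ (q - 2)) ^ (1 / q) := by
  rw [aq_eq]
  refine Real.rpow_le_rpow (aq_arg_nonneg q p f) ?_ (by positivity)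
  have hL := len_pos' p
  have h1 : ∑ y ∈ iv p, ‖f y‖ ^ q ≤ ∑ y ∈ iv p, ‖f y‖ ^ 2 * s ^ (q - 2) := by
    refine Finset.sum_le_sum fun y hy => ?_
    have e : ‖f y‖ ^ q = ‖f y‖ ^ (2 : ℝ) * ‖f y‖ ^ (q - 2) := by
      rcases (norm_nonneg (f y)).eq_or_lt with h0 | h0
      · rw [← h0, Real.zero_rpow (by linarith), Real.zero_rpow (by norm_num), zero_mul]
      · rw [← Real.rpow_add h0]; congr 1; ring
    rw [e, Real.rpow_two]
    exact mul_le_mul_of_nonneg_left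
      (Real.rpow_le_rpow (norm_nonneg _) (hsup y hy) (by linarith)) (by positivity)
  have h3 : av p f ^ 2 ≤ a ^ 2 := by
    have h0 : 0 ≤ av p f := Real.sqrt_nonneg _
    gcongr
  rw [av_sq] at h3
  have hsq : 0 ≤ s ^ (q - 2) := Real.rpow_nonneg hs _
  calc (1 / len p) * ∑ y ∈ iv p, ‖f y‖ ^ q
      ≤ (1 / len p) * ∑ y ∈ iv p, ‖f y‖ ^ 2 * s ^ (q - 2) := by gcongr
    _ = ((1 / len p) * ∑ y ∈ iv p, ‖f y‖ ^ 2) * s ^ (q - 2) := by
        rw [← Finset.sum_mul, mul_assoc]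
    _ ≤ a ^ 2 * s ^ (q - 2) := by gcongr

lemma two_lt_qx {k q3 : ℝ} (hk : 0 < k) (hq3 : 2 < q3) (j : Fin 4) : 2 < qx k q3 j := by
  unfold qx; split_ifs <;> linarith

/-- exponent form: `av ≤ C t^b`, `sup ≤ C t^(-x)` give `aq q ≤ C t^((2 b - x (q-2))/q)` -/
theorem aq_le_pow {q : ℝ} (hq : 2 ≤ q) (p : Nd) {f : Fn} {C t b x : ℝ} (hC : 0 ≤ C) (ht : 0 < t)
    (h2 : av p f ≤ C * t ^ b) (hsup : ∀ y ∈ iv p, ‖f y‖ ≤ C * t ^ (-x)) :
    aq q p f ≤ C * t ^ ((2 * b - x * (q - 2)) / q) := by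
  have hq0 : 0 < q := by linarith
  have htb : 0 ≤ t ^ b := (Real.rpow_pos_of_pos ht b).le
  have htx : 0 ≤ t ^ (-x) := (Real.rpow_pos_of_pos ht _).le
  refine (aq_le_interp hq p (mul_nonneg hC htb) (mul_nonneg hC htx) h2 hsup).trans (le_of_eq ?_)
  have e1 : (C * t ^ b) ^ 2 * (C * t ^ (-x)) ^ (q - 2)
      = C ^ q * t ^ (2 * b - x * (q - 2)) := by
    rw [Real.mul_rpow hC htx, mul_pow, ← Real.rpow_mul ht.le]
    have e2 : (t ^ b) ^ 2 = t ^ (2 * b) := by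
      rw [← Real.rpow_natCast, ← Real.rpow_mul ht.le]; congr 1; push_cast; ring
    have e3 : C ^ 2 * C ^ (q - 2) = C ^ q := by
      rcases hC.eq_or_lt with h0 | h0
      · rw [← h0]
        rw [Real.zero_rpow hq0.ne']; ring
      · rw [← Real.rpow_two, ← Real.rpow_add h0]; congr 1; ring
    have e4 : t ^ (2 * b) * t ^ (-x * (q - 2)) = t ^ (2 * b - x * (q - 2)) := by
      rw [← Real.rpow_add ht]; congr 1; ring
    rw [e2, ← e3, ← e4]; ring
  rw [e1, Real.mul_rpow (Real.rpow_nonneg hC _) (Real.rpow_pos_of_pos ht _).le,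
    ← Real.rpow_mul hC, ← Real.rpow_mul ht.le, mul_one_div_cancel hq0.ne', Real.rpow_one,
    mul_one_div]

/-! ### the pieces of a windowed residual -/

section WRd

variable {D : Dict} {k q3 sg c1 C : ℝ} {j : Fin 4} {t : ℝ} {R : Finset Nd} {J : Nd}
  {T : Finset Nd} {G : Fn} {H E X : Nd → Fn}

/-- gain of the small letter -/
theorem WRd.aqE (h : WRd D k q3 sg c1 C j t R J T G H E X) (hk : 0 < k) (hq3 : 2 < q3)
    (hC : 0 ≤ C) (ht : 0 < t) {p : Nd} (hp : p ∈ R) :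
    aq (qx k q3 j) p (E p) ≤ C * t ^ ((c1 - sx sg j * (qx k q3 j - 2)) / qx k q3 j) := by
  have := aq_le_pow (two_lt_qx hk hq3 j).le p hC ht (h.eav p hp) (h.esup p hp)
  convert this using 4
  ring

theorem WRd.aqH (h : WRd D k q3 sg c1 C j t R J T G H E X) (hk : 0 < k) (hq3 : 2 < q3)
    (hC : 0 ≤ C) (ht : 0 < t) {p : Nd} (hp : p ∈ R) :
    aq (qx k q3 j) p (H p) ≤ C * t ^ (-(sx sg j * (qx k q3 j - 2) / qx k q3 j)) := by
  have h0 : av p (H p) ≤ C * t ^ (0 : ℝ) := by rw [Real.rpow_zero, mul_one]; exact h.hav p hp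
  have := aq_le_pow (two_lt_qx hk hq3 j).le p hC ht h0 (h.hsup p hp)
  convert this using 3
  ring

/-- the loss exponent of `H`, `E`, `X` -/
theorem WRd.aqE' (h : WRd D k q3 sg c1 C j t R J T G H E X) (hk : 0 < k) (hq3 : 2 < q3)
    (hc1 : 0 ≤ c1) (hC : 0 ≤ C) (ht : 0 < t) (ht1 : t ≤ 1) {p : Nd} (hp : p ∈ R) :
    aq (qx k q3 j) p (E p) ≤ C * t ^ (-(sx sg j * (qx k q3 j - 2) / qx k q3 j)) := by
  refine (h.aqE hk hq3 hC ht hp).trans ?_
  have hq := two_lt_qx hk hq3 j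
  refine mul_le_mul_of_nonneg_left (Real.rpow_le_rpow_of_exponent_ge ht ht1 ?_) hC
  rw [← neg_div]
  apply div_le_div_of_nonneg_right _ (by linarith)
  linarith

theorem WRd.aqX (h : WRd D k q3 sg c1 C j t R J T G H E X) (hk : 0 < k) (hq3 : 2 < q3)
    (hsg : 0 ≤ sg) (hc1 : 0 ≤ c1) (hC : 1 ≤ C) (ht : 0 < t) (ht1 : t ≤ 1) {p : Nd} (hp : p ∈ R) :
    aq (qx k q3 j) p (X p) ≤ 3 * C * t ^ (-(sx sg j * (qx k q3 j - 2) / qx k q3 j)) := by
  have hq := two_lt_qx hk hq3 j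
  have hx : 0 ≤ sx sg j := by unfold sx; split_ifs <;> linarith
  have e : X p = fun y => (G y - H p y) - E p y := by funext y; exact h.eq p hp y
  have h1 := aq_sub_le (q := qx k q3 j) (by linarith) p (fun y => G y - H p y) (E p)
  have h2 := aq_sub_le (q := qx k q3 j) (by linarith) p G (H p)
  have h3 := h.aqH hk hq3 (by linarith) ht hp
  have h4 := h.aqE' hk hq3 hc1 (by linarith) ht ht1 hp
  have h5 := h.nrm p hp
  have h6 : 1 ≤ t ^ (-(sx sg j * (qx k q3 j - 2) / qx k q3 j)) := by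
    apply Real.one_le_rpow_of_pos_of_le_one_of_nonpos ht ht1
    have : 0 ≤ sx sg j * (qx k q3 j - 2) / qx k q3 j := by
      apply div_nonneg (mul_nonneg hx (by linarith)) (by linarith)
    linarith
  rw [e]
  have h7 : aq (qx k q3 j) p (fun y => (G y - H p y) - E p y)
      ≤ 1 + C * t ^ (-(sx sg j * (qx k q3 j - 2) / qx k q3 j))
        + C * t ^ (-(sx sg j * (qx k q3 j - 2) / qx k q3 j)) := by linarith
  nlinarith


end WRd

/-! ### scaling -/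

lemma TR_smul (bb : ℤ) (ε : ℕ → ℤ → ℂ) (R : Finset Nd) (F : Fin 4 → Fn) (c : Fin 4 → ℂ) :
    TR bb ε R (fun j y => c j * F j y) = (∏ j, c j) * TR bb ε R F := by
  unfold TR
  rw [Finset.mul_sum]
  exact Finset.sum_congr rfl fun p _ => Qf248.TI_smul bb ε F c p

lemma TR_scale (bb : ℤ) (ε : ℕ → ℤ → ℂ) (R : Finset Nd) (F : Fin 4 → Fn) (b : Fin 4 → ℝ)
    (hb : ∀ j, 0 < b j) :
    ‖TR bb ε R F‖ = (∏ j, b j) * ‖TR bb ε R (fun j y => ((b j)⁻¹ : ℂ) * F j y)‖ := by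
  rw [TR_smul, norm_mul]
  have h1 : ‖∏ j, ((b j : ℂ))⁻¹‖ = (∏ j, b j)⁻¹ := by
    rw [norm_prod, ← Finset.prod_inv_distrib]
    refine Finset.prod_congr rfl fun j _ => ?_
    rw [norm_inv, Complex.norm_real, Real.norm_of_nonneg (hb j).le]
  rw [h1, ← mul_assoc, mul_inv_cancel₀ (Finset.prod_pos fun j _ => hb j).ne', one_mul]

/-- `BN` for arbitrary positive norms -/
theorem BN_scaled_pos {k q3 : ℝ} (hk : 0 < k) (hq3 : 2 < q3) {N : ℕ} {B : ℝ} (h : BN k q3 N B)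
    {bb : ℤ} {ε : ℕ → ℤ → ℂ} (hA : Adm bb ε) {R : Finset Nd} {J : Nd} (hR : Full R J)
    (hJ : J.1 ≤ N) {F : Fin 4 → Fn} {a : Fin 4 → ℝ} (ha : ∀ j, 0 < a j)
    (hF : ∀ j, ∀ p ∈ R, aq (qx k q3 j) p (F j) ≤ a j) :
    ‖TR bb ε R F‖ ≤ B * (∏ j, a j) * len J := by
  rw [TR_scale bb ε R F a ha]
  have h1 := h bb ε hA R J hR hJ (fun j y => ((a j)⁻¹ : ℂ) * F j y) (by
    intro j p hp
    rw [aq_smul (by linarith [two_lt_qx hk hq3 j]), norm_inv, Complex.norm_real,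
      Real.norm_of_nonneg (ha j).le, inv_mul_le_iff₀ (ha j), mul_one]
    exact hF j p hp)
  have h2 : 0 ≤ ∏ j, a j := Finset.prod_nonneg fun j _ => (ha j).le
  calc (∏ j, a j) * ‖TR bb ε R (fun j y => ((a j)⁻¹ : ℂ) * F j y)‖
      ≤ (∏ j, a j) * (B * len J) := by gcongr
    _ = _ := by ring

/-- **`BN` for arbitrary norms `a j ≥ 0`** (three small letters) -/
theorem BN_scaled {k q3 : ℝ} (hk : 0 < k) (hq3 : 2 < q3) {N : ℕ} {B : ℝ} (h : BN k q3 N B)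
    {bb : ℤ} {ε : ℕ → ℤ → ℂ} (hA : Adm bb ε) {R : Finset Nd} {J : Nd} (hR : Full R J)
    (hJ : J.1 ≤ N) {F : Fin 4 → Fn} {a : Fin 4 → ℝ} (ha : ∀ j, 0 ≤ a j)
    (hF : ∀ j, ∀ p ∈ R, aq (qx k q3 j) p (F j) ≤ a j) :
    ‖TR bb ε R F‖ ≤ B * (∏ j, a j) * len J := by
  have hlim : Filter.Tendsto (fun x : ℝ => B * (∏ j, (a j + x)) * len J)
      (nhdsWithin 0 (Set.Ioi 0)) (nhds (B * (∏ j, (a j + 0)) * len J)) := by
    have hc : Continuous fun x : ℝ => B * (∏ j, (a j + x)) * len J := by fun_prop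
    exact (hc.tendsto 0).mono_left nhdsWithin_le_nhds
  simp only [add_zero] at hlim
  refine ge_of_tendsto hlim ?_
  filter_upwards [self_mem_nhdsWithin] with x hx
  have hx0 : 0 < x := hx
  exact BN_scaled_pos hk hq3 h hA hR hJ (fun j => by linarith [ha j])
    (fun j p hp => (hF j p hp).trans (by linarith))

lemma Lv_smul {D : Dict} {j : Fin 4} {t s : ℝ} {p : Nd} {g : Fn} (h : Lv D j t s p g) (c : ℂ) :
    Lv D j t (‖c‖ * s) p (fun y => c * g y) := by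
  intro φ hφ
  have h1 := h φ hφ
  have e : ∑ y ∈ iv p, c * g y * φ y = c * ∑ y ∈ iv p, g y * φ y := by
    rw [Finset.mul_sum]
    exact Finset.sum_congr rfl fun y _ => by ring
  rw [e, norm_mul, mul_assoc]
  exact mul_le_mul_of_nonneg_left h1 (norm_nonneg _)

lemma Lv_mono {D : Dict} {j : Fin 4} {t s s' : ℝ} {p : Nd} {g : Fn} (h : Lv D j t s p g)
    (hs : s ≤ s') : Lv D j t s' p g := fun φ hφ =>
  (h φ hφ).trans (mul_le_mul_of_nonneg_right hs (len_pos' p).le)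

lemma Fz_smul {D : Dict} {j : Fin 4} {t M : ℝ} {p : Nd} {f : Fn} (h : Fz D j t M p f) (c : ℂ) :
    Fz D j t (‖c‖ * M) p (fun y => c * f y) := by
  obtain ⟨n, φ, d, hφ, hf, hM⟩ := h
  refine ⟨n, φ, fun i => c * d i, hφ, fun y hy => ?_, ?_⟩
  · dsimp only
    rw [hf y hy, Finset.mul_sum]
    exact Finset.sum_congr rfl fun i _ => by ring
  · simp only [norm_mul]
    rw [← Finset.mul_sum]
    exact mul_le_mul_of_nonneg_left hM (norm_nonneg _)

lemma Fz_mono {D : Dict} {j : Fin 4} {t M M' : ℝ} {p : Nd} {f : Fn} (h : Fz D j t M p f)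
    (hM : M ≤ M') : Fz D j t M' p f := by
  obtain ⟨n, φ, d, hφ, hf, hm⟩ := h
  exact ⟨n, φ, d, hφ, hf, hm.trans hM⟩






end Crest.Agent.R079.TRec
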