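import Crest.Agent.R079.OpKa_276
import Crest.Agent.R079.BadN_360
import Crest.Agent.R079.KLd_276

-- ▼ part R079/OpKb_276
section

/-! R079 (helper276): **cut of the tall parts of the free letters** next to a frozen letter of polynomial
mass (`cut_all`), cut of the killer (`LvS.cut`). -/

set_option autoImplicit false

namespace Crest.Agent.R079.OpK276

open Finset Crest.Agent.R079.Grid Crest.Agent.R079.Growth Crest.Agent.R079.QRed
  Crest.Agent.R079.Qe292 Crest.Agent.R079.TRec Crest.Agent.R079.T6ax252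
  Crest.Agent.R079.TFrz679

/-- letters of the slots of `S` cut at height `H` -/
noncomputable def cutS (H : ℝ) (S : Finset (Fin 4)) (F : Fin 4 → Fn) (j : Fin 4) : Fn :=
  if j ∈ S then BadN360.lo H (F j) else F j

/-- `L²` size of the tall part of the slot `j` -/
noncomputable def etaq (k q3 H : ℝ) (j : Fin 4) : ℝ := H ^ (-((qx k q3 j - 2) / 2))

theorem etaq_nonneg {k q3 H : ℝ} (hH : 0 < H) (j : Fin 4) : 0 ≤ etaq k q3 H j :=
  (Real.rpow_pos_of_pos hH _).le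

theorem norm_TR_abs {bb : ℤ} {ε : ℕ → ℤ → ℂ} (hA : Adm bb ε) (R : Finset Nd) (F : Fin 4 → Fn) :
    ‖TR bb ε R F‖ ≤ ∑ p ∈ R, ∑ x ∈ adm p.1 p.2, ‖Lbox (2 ^ p.1) bb F x‖ :=
  Qb247.norm_TR_le hA.2 R F

theorem av_cutS {k q3 : ℝ} (hk : 0 < k) (hq3 : 2 < q3) {H : ℝ} {S : Finset (Fin 4)}
    {F : Fin 4 → Fn} {j : Fin 4} {p : Nd} (h : aq (qx k q3 j) p (F j) ≤ 1) :
    av p (cutS H S F j) ≤ 1 := by
  have hq : 2 ≤ qx k q3 j := (two_lt_qx hk hq3 j).le
  have h1 : av p (F j) ≤ 1 := (TAsm398.av_le_aq hq p (F j)).trans h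
  unfold cutS
  split_ifs
  · exact (BadN360.av_lo H p _).trans h1
  · exact h1

/-- one more slot is cut -/
theorem cut_step : ∃ K : ℝ, 0 ≤ K ∧ ∀ {bb : ℤ} {ε : ℕ → ℤ → ℂ}, Adm bb ε → ∀ {W : Finset Nd} {I : Nd},
    Full W I → ∀ {k q3 : ℝ}, 0 < k → 2 < q3 → ∀ {F : Fin 4 → Fn} {i : Fin 4},
    (∀ j, j ≠ i → ∀ p ∈ W, aq (qx k q3 j) p (F j) ≤ 1) → ∀ {M H : ℝ}, 0 < H → 0 ≤ M →
    Rep i I (F i) M → ∀ (S : Finset (Fin 4)) (a : Fin 4), i ∉ S → a ∉ S → a ≠ i →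
    ‖TR bb ε W (cutS H S F)‖ ≤ ‖TR bb ε W (cutS H (insert a S) F)‖ +
      K * M * etaq k q3 H a * len I := by
  obtain ⟨K, hK, hQ⟩ := BadN360.abs_qb
  refine ⟨K, hK, ?_⟩
  intro bb ε hA W I hW k q3 hk hq3 F i hF M H hH hM hrep S a hiS haS hai
  have hW' : ∀ p ∈ W, iv p ⊆ iv I := fun p hp => hW.reg.1 p hp
  have h1 := TR_comb (ε := ε) hA hW' (cutS H S F) a (n := 2)
    ![BadN360.lo H (F a), BadN360.hi H (F a)] (fun _ => 1) (by
      intro y _
      have : cutS H S F a = F a := by unfold cutS; rw [if_neg haS]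
      rw [this, Fin.sum_univ_two]
      simpa using BadN360.lo_add_hi H (F a) y)
  rw [Fin.sum_univ_two] at h1
  simp only [Matrix.cons_val_zero, Matrix.cons_val_one, one_mul] at h1
  have e1 : Function.update (cutS H S F) a (BadN360.lo H (F a)) = cutS H (insert a S) F := by
    funext j
    by_cases hj : j = a
    · subst hj
      rw [Function.update_self]
      unfold cutS
      rw [if_pos (Finset.mem_insert_self _ _)]
    · rw [Function.update_of_ne hj]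
      unfold cutS
      by_cases hjS : j ∈ S
      · rw [if_pos hjS, if_pos (Finset.mem_insert_of_mem hjS)]
      · rw [if_neg hjS, if_neg (fun h => by
          rcases Finset.mem_insert.1 h with h | h
          · exact hj h
          · exact hjS h)]
  rw [e1] at h1
  set G := Function.update (cutS H S F) a (BadN360.hi H (F a)) with hG
  set A : Fin 4 → ℝ := fun j => if j = a then etaq k q3 H a else if j = i then
    ∑ p ∈ W, av p (F i) else 1 with hAdef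
  have hav0 : ∀ (p : Nd) (f : Fn), 0 ≤ av p f := fun p f => Real.sqrt_nonneg _
  have hA0 : ∀ j, 0 ≤ A j := by
    intro j
    simp only [hAdef]
    split_ifs
    · exact etaq_nonneg hH a
    · exact Finset.sum_nonneg fun p _ => hav0 _ _
    · exact zero_le_one
  have hGi : G i = F i := by
    rw [hG, Function.update_of_ne (Ne.symm hai)]
    unfold cutS
    rw [if_neg hiS]
  have hGA : ∀ j, ∀ p ∈ W, av p (G j) ≤ A j := by
    intro j p hp
    by_cases hja : j = a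
    · subst hja
      rw [hG, Function.update_self]
      simp only [hAdef, if_true]
      exact BadN360.av_hi (two_lt_qx hk hq3 j) hH (hF j hai p hp)
    · by_cases hji : j = i
      · subst hji
        rw [hGi]
        simp only [hAdef, if_neg hja, if_true]
        exact Finset.single_le_sum (f := fun p => av p (F j)) (fun p _ => hav0 _ _) hp
      · rw [hG, Function.update_of_ne hja]
        simp only [hAdef, if_neg hja, if_neg hji]
        exact av_cutS hk hq3 (hF j hji p hp)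
  have h2 := hQ bb hA.1 W I hW.reg G A hA0 hGA i M (by rw [hGi]; exact hrep)
  have h3 : ∏ j : Fin 3, A (i.succAbove j) = etaq k q3 H a := by
    obtain ⟨b, hb⟩ := Fin.exists_succAbove_eq hai
    rw [Finset.prod_eq_single b]
    · simp only [hAdef, hb, if_true]
    · intro c _ hc
      have h4 : i.succAbove c ≠ a := fun h => hc (Fin.succAbove_right_injective (by rw [h, hb]))
      simp only [hAdef, if_neg h4, if_neg (Fin.succAbove_ne i c)]
    · intro h; exact absurd (Finset.mem_univ _) h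
  rw [h3] at h2
  rw [h1]
  exact (norm_add_le _ _).trans (add_le_add le_rfl ((norm_TR_abs hA W G).trans h2))

/-- all free letters are cut -/
theorem cut_all : ∃ K : ℝ, 0 ≤ K ∧ ∀ {bb : ℤ} {ε : ℕ → ℤ → ℂ}, Adm bb ε → ∀ {W : Finset Nd} {I : Nd},
    Full W I → ∀ {k q3 : ℝ}, 0 < k → 2 < q3 → ∀ {F : Fin 4 → Fn} {i : Fin 4},
    (∀ j, j ≠ i → ∀ p ∈ W, aq (qx k q3 j) p (F j) ≤ 1) → ∀ {M H : ℝ}, 0 < H → 0 ≤ M →
    Rep i I (F i) M →
    ‖TR bb ε W F‖ ≤ ‖TR bb ε W (cutS H ((Finset.univ : Finset (Fin 4)).erase i) F)‖ +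
      K * M * (∑ j ∈ (Finset.univ : Finset (Fin 4)).erase i, etaq k q3 H j) * len I := by
  classical
  obtain ⟨K, hK, hS⟩ := cut_step
  refine ⟨K, hK, ?_⟩
  intro bb ε hA W I hW k q3 hk hq3 F i hF M H hH hM hrep
  have key : ∀ S : Finset (Fin 4), i ∉ S → ‖TR bb ε W F‖ ≤ ‖TR bb ε W (cutS H S F)‖ +
      K * M * (∑ j ∈ S, etaq k q3 H j) * len I := by
    intro S
    induction S using Finset.induction_on with
    | empty =>
      intro _
      have : cutS H ∅ F = F := by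
        funext j; unfold cutS; rw [if_neg (Finset.notMem_empty j)]
      rw [this, Finset.sum_empty]
      simp
    | insert a S ha ih =>
      intro hi
      have hiS : i ∉ S := fun h => hi (Finset.mem_insert_of_mem h)
      have hai : a ≠ i := fun h => hi (by rw [← h]; exact Finset.mem_insert_self _ _)
      have h1 := ih hiS
      have h2 := hS hA hW hk hq3 hF hH hM hrep S a hiS ha hai
      rw [Finset.sum_insert ha]
      have : K * M * (etaq k q3 H a + ∑ j ∈ S, etaq k q3 H j) * len I =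
        K * M * etaq k q3 H a * len I + K * M * (∑ j ∈ S, etaq k q3 H j) * len I := by ring
      rw [this]
      linarith
  exact key _ (Finset.notMem_erase i _)

/-- size of the three tall parts -/
theorem sum_etaq {k q3 H : ℝ} (hk : 0 < k) (hkq : 2 + k ≤ q3) (hH : 1 ≤ H) (i : Fin 4) :
    ∑ j ∈ (Finset.univ : Finset (Fin 4)).erase i, etaq k q3 H j ≤ 3 * H ^ (-(k / 2)) := by
  have h1 : ∀ j, etaq k q3 H j ≤ H ^ (-(k / 2)) := by
    intro j
    unfold etaq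
    refine Real.rpow_le_rpow_of_exponent_le hH ?_
    have : 2 + k ≤ qx k q3 j := by unfold qx; split_ifs <;> linarith
    linarith
  calc _ ≤ ∑ _j ∈ (Finset.univ : Finset (Fin 4)).erase i, H ^ (-(k / 2)) :=
        Finset.sum_le_sum fun j _ => h1 j
    _ = 3 * H ^ (-(k / 2)) := by
        rw [Finset.sum_const, Finset.card_erase_of_mem (Finset.mem_univ i)]
        simp

/-- tall part in `L¹` -/
theorem sum_hi_le {k : ℝ} (hk : 0 < k) {H : ℝ} (hH : 0 < H) {p : Nd} {G : Fn}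
    (hG : aq (2 + k) p G ≤ 1) : ∑ y ∈ iv p, ‖BadN360.hi H G y‖ ≤ H ^ (-(1 + k)) * len p := by
  have hL := Growth.len_pos p
  have hq0 : (0 : ℝ) < 2 + k := by linarith
  have h1 : (1 / len p) * ∑ y ∈ iv p, ‖G y‖ ^ (2 + k) ≤ 1 := by
    by_contra hcon
    push Not at hcon
    have := Real.one_lt_rpow hcon (show 0 < 1 / (2 + k) by positivity)
    rw [← aq_eq] at this
    linarith
  have h2 : ∑ y ∈ iv p, ‖G y‖ ^ (2 + k) ≤ len p := by
    rw [one_div, inv_mul_le_iff₀ hL] at h1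
    linarith
  have h3 : ∀ y, ‖BadN360.hi H G y‖ ≤ H ^ (-(1 + k)) * ‖G y‖ ^ (2 + k) := by
    intro y
    unfold BadN360.hi
    split_ifs with h
    · rw [norm_zero]
      have := Real.rpow_pos_of_pos hH (-(1 + k))
      have := Real.rpow_nonneg (norm_nonneg (G y)) (2 + k)
      positivity
    · push Not at h
      have hG0 : 0 < ‖G y‖ := hH.trans h
      have e1 : ‖G y‖ ^ (2 + k) = ‖G y‖ * ‖G y‖ ^ (1 + k) := by
        have := Real.rpow_add hG0 1 (1 + k)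
        rw [Real.rpow_one] at this
        rw [← this]; congr 1; ring
      have e2 : H ^ (1 + k) ≤ ‖G y‖ ^ (1 + k) :=
        Real.rpow_le_rpow hH.le h.le (by linarith)
      have e3 : H ^ (-(1 + k)) * H ^ (1 + k) = 1 := by
        rw [← Real.rpow_add hH]; simp
      have e4 : 0 < H ^ (-(1 + k)) := Real.rpow_pos_of_pos hH _
      rw [e1]
      calc ‖G y‖ = ‖G y‖ * (H ^ (-(1 + k)) * H ^ (1 + k)) := by rw [e3, mul_one]
        _ ≤ ‖G y‖ * (H ^ (-(1 + k)) * ‖G y‖ ^ (1 + k)) := by gcongr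
        _ = _ := by ring
  calc ∑ y ∈ iv p, ‖BadN360.hi H G y‖ ≤ ∑ y ∈ iv p, H ^ (-(1 + k)) * ‖G y‖ ^ (2 + k) :=
        Finset.sum_le_sum fun y _ => h3 y
    _ = H ^ (-(1 + k)) * ∑ y ∈ iv p, ‖G y‖ ^ (2 + k) := by rw [Finset.mul_sum]
    _ ≤ _ := mul_le_mul_of_nonneg_left h2 (Real.rpow_pos_of_pos hH _).le

/-- the level of the cut killer -/
theorem lvS_cut {g x f : ℝ} {m : Fin 4} {t s : ℝ} (ht : 0 < t) {p : Nd} {G : Fn}
    (h : OpS276.LvS g x f m t s p G) {k : ℝ} (hk : 0 < k) {H : ℝ} (hH : 0 < H)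
    (hG : aq (2 + k) p G ≤ 1) :
    OpS276.LvS g x f m t (s + t ^ (-g) * H ^ (-(1 + k))) p (BadN360.lo H G) := by
  intro φ hφ
  have h1 := h φ hφ
  have hsup : ∀ y, ‖φ y‖ ≤ t ^ (-g) := by
    obtain ⟨j, e, e', n, hd, ψ, ⟨w, q, u, m', U, V, α, hD, rfl⟩, rfl⟩ := hφ
    intro y
    have ht0 : 0 ≤ t ^ (-g) := (Real.rpow_pos_of_pos ht _).le
    show ‖((t ^ (-g) / (n : ℝ) ^ 2 : ℝ) : ℂ) * _‖ ≤ _
    rw [norm_mul, Complex.norm_real, Real.norm_of_nonneg (by positivity)]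
    rcases Nat.eq_zero_or_pos n with hn | hn
    · subst hn; simpa using ht0
    · have hn' : (0 : ℝ) < n := by exact_mod_cast hn
      calc t ^ (-g) / (n : ℝ) ^ 2 * ‖OLevSw.opA m j e e' n w q u m' U V y‖ ≤
          t ^ (-g) / (n : ℝ) ^ 2 * (n : ℝ) ^ 2 :=
            mul_le_mul_of_nonneg_left (OpS276.sup_opA hd hD w q u y) (by positivity)
        _ = t ^ (-g) := by field_simp
  have h2 := sum_hi_le hk hH hG
  have e1 : ∑ y ∈ iv p, BadN360.lo H G y * φ y =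
      ∑ y ∈ iv p, G y * φ y - ∑ y ∈ iv p, BadN360.hi H G y * φ y := by
    rw [← Finset.sum_sub_distrib]
    refine Finset.sum_congr rfl fun y _ => ?_
    rw [BadN360.lo_add_hi H G y]; ring
  rw [e1]
  have h3 : ‖∑ y ∈ iv p, BadN360.hi H G y * φ y‖ ≤ t ^ (-g) * (H ^ (-(1 + k)) * len p) := by
    refine (norm_sum_le _ _).trans ?_
    calc ∑ y ∈ iv p, ‖BadN360.hi H G y * φ y‖ ≤ ∑ y ∈ iv p, t ^ (-g) * ‖BadN360.hi H G y‖ := by
          refine Finset.sum_le_sum fun y _ => ?_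
          rw [norm_mul, mul_comm]
          exact mul_le_mul_of_nonneg_right (hsup y) (norm_nonneg _)
      _ = t ^ (-g) * ∑ y ∈ iv p, ‖BadN360.hi H G y‖ := by rw [Finset.mul_sum]
      _ ≤ _ := mul_le_mul_of_nonneg_left h2 (Real.rpow_pos_of_pos ht _).le
  calc _ ≤ ‖∑ y ∈ iv p, G y * φ y‖ + ‖∑ y ∈ iv p, BadN360.hi H G y * φ y‖ := norm_sub_le _ _
    _ ≤ s * len p + t ^ (-g) * (H ^ (-(1 + k)) * len p) := add_le_add h1 h3
    _ = _ := by ring

end Crest.Agent.R079.OpK276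
end

-- ▼ part R079/OpKc_276

/-! R079 (helper276): **OpKill**: ONE op-atom of arbitrary side, position and special vertex in the frozen
slot, from the kill lemma `KillN` for atoms of side `2^I.1` with special vertex = killer slot and bounded
letters. -/

set_option autoImplicit false

namespace Crest.Agent.R079.OpK276

open Finset Crest.Agent.R079.Grid Crest.Agent.R079.Growth Crest.Agent.R079.QRed
  Crest.Agent.R079.Qe292 Crest.Agent.R079.TRec Crest.Agent.R079.T6ax252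
  Crest.Agent.R079.TFrz679 Crest.Agent.R079.OLevSw Crest.Agent.R079.OpS276

/-- `L¹` norm of a unit op-atom -/
theorem l1_opA {k j e e' : Fin 4} {n : ℕ} {Ht Hf : ℝ} {m : ℤ → ℤ → ℂ} {U V : Fin n → Fin n → ℂ}
    {α : Fin n → ℝ} (hD : SD n Ht Hf m U V α) (w q u : ℤ) (S : Finset ℤ) :
    ∑ y ∈ S, ‖opA k j e e' n w q u m U V y‖ ≤ (n : ℝ) ^ 3 := by
  have hn0 : (0 : ℝ) ≤ n := Nat.cast_nonneg n
  set L : Fin n → Fin n → Fin n → ℤ := fun c i i' => (sl j - sl k) * (w + ((c : ℕ) : ℤ)) +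
    (sl e - sl k) * (q + ((i : ℕ) : ℤ)) + (sl e' - sl k) * (u + ((i' : ℕ) : ℤ)) with hL
  have h1 : ∀ y, ‖opA k j e e' n w q u m U V y‖ ≤
      ∑ c : Fin n, ∑ i : Fin n, ∑ i' : Fin n, if L c i i' = y then ‖U c i‖ * ‖V c i'‖ else 0 := by
    intro y
    unfold opA
    refine (norm_sum_le _ _).trans (Finset.sum_le_sum fun c _ => ?_)
    refine (norm_sum_le _ _).trans (Finset.sum_le_sum fun i _ => ?_)
    refine (norm_sum_le _ _).trans (Finset.sum_le_sum fun i' _ => ?_)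
    simp only [hL]
    split_ifs
    · rw [norm_mul, norm_mul]
      have := hD.m1 (q + ((i : ℕ) : ℤ)) (u + ((i' : ℕ) : ℤ))
      calc ‖m (q + ((i : ℕ) : ℤ)) (u + ((i' : ℕ) : ℤ))‖ * ‖U c i‖ * ‖V c i'‖ ≤
          1 * ‖U c i‖ * ‖V c i'‖ := by gcongr
        _ = _ := by rw [one_mul]
    · simp
  have h2 : ∑ y ∈ S, ‖opA k j e e' n w q u m U V y‖ ≤
      ∑ c : Fin n, ∑ i : Fin n, ∑ i' : Fin n, ‖U c i‖ * ‖V c i'‖ := by
    refine (Finset.sum_le_sum fun y _ => h1 y).trans ?_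
    rw [Finset.sum_comm]
    refine Finset.sum_le_sum fun c _ => ?_
    rw [Finset.sum_comm]
    refine Finset.sum_le_sum fun i _ => ?_
    rw [Finset.sum_comm]
    refine Finset.sum_le_sum fun i' _ => ?_
    rw [Finset.sum_ite_eq]
    split_ifs
    · exact le_rfl
    · positivity
  refine h2.trans ?_
  have h3 : ∀ (W : Fin n → Fin n → ℂ), (∀ c, ∑ i, ‖W c i‖ ^ 2 ≤ n * α c) → ∀ c,
      ∑ i, ‖W c i‖ ≤ n * Real.sqrt (α c) := by
    intro W hW c
    have h4 : (∑ i, ‖W c i‖) ^ 2 ≤ (n : ℝ) * ∑ i, ‖W c i‖ ^ 2 := by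
      have := sq_sum_le_card_mul_sum_sq (s := (Finset.univ : Finset (Fin n)))
        (f := fun i => ‖W c i‖)
      simpa using this
    have h5 : (∑ i, ‖W c i‖) ^ 2 ≤ (n * Real.sqrt (α c)) ^ 2 := by
      rw [mul_pow, Real.sq_sqrt (hD.α0 c)]
      refine h4.trans ((mul_le_mul_of_nonneg_left (hW c) hn0).trans (le_of_eq ?_))
      ring
    exact (abs_le_of_sq_le_sq' h5 (by positivity)).2
  calc ∑ c : Fin n, ∑ i : Fin n, ∑ i' : Fin n, ‖U c i‖ * ‖V c i'‖ =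
      ∑ c : Fin n, (∑ i, ‖U c i‖) * ∑ i', ‖V c i'‖ := by
        refine Finset.sum_congr rfl fun c _ => ?_
        rw [Finset.sum_mul_sum]
    _ ≤ ∑ c : Fin n, (n * Real.sqrt (α c)) * (n * Real.sqrt (α c)) :=
        Finset.sum_le_sum fun c _ => mul_le_mul (h3 U hD.U2 c) (h3 V hD.V2 c)
          (Finset.sum_nonneg fun _ _ => norm_nonneg _) (by positivity)
    _ = (n : ℝ) ^ 2 * ∑ c, α c := by
        rw [Finset.mul_sum]
        refine Finset.sum_congr rfl fun c _ => ?_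
        have := Real.sq_sqrt (hD.α0 c)
        calc (n * Real.sqrt (α c)) * (n * Real.sqrt (α c)) =
            (n : ℝ) ^ 2 * Real.sqrt (α c) ^ 2 := by ring
          _ = _ := by rw [this]
    _ ≤ (n : ℝ) ^ 2 * n := mul_le_mul_of_nonneg_left hD.α1 (by positivity)
    _ = _ := by ring

/-- caps may be raised -/
theorem IsOpS.mono {k j e e' : Fin 4} {n : ℕ} {Ht Hf Ht' Hf' : ℝ} {φ : Fn}
    (h : IsOpS k j e e' n Ht Hf φ) (h1 : Ht ≤ Ht') (h2 : Hf ≤ Hf') :
    IsOpS k j e e' n Ht' Hf' φ := by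
  obtain ⟨w, q, u, m, U, V, α, hD, rfl⟩ := h
  exact ⟨w, q, u, m, U, V, α, ⟨hD.m1, hD.α0, hD.U2, hD.V2, hD.α1, fun c => (hD.αH c).trans h1,
    fun c i => (hD.UH c i).trans (mul_le_mul_of_nonneg_right h2 (hD.α0 c)),
    fun c i => (hD.VH c i).trans (mul_le_mul_of_nonneg_right h2 (hD.α0 c))⟩, rfl⟩

theorem exists_two : ∀ {i m : Fin 4}, i ≠ m → ∃ e1 e2 : Fin 4,
    m ≠ i ∧ m ≠ e1 ∧ m ≠ e2 ∧ i ≠ e1 ∧ i ≠ e2 ∧ e1 ≠ e2 := by
  intro i m
  revert i m
  decide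

/-- **the kill lemma** for ONE atom of side `2^I.1`, special vertex = killer slot `m`, all other letters of
height `≤ H` -/
def KillN (Φ : ℝ → ℝ → ℝ → ℝ → ℝ → ℝ) : Prop :=
  ∀ (i m e e' : Fin 4), i ≠ 3 → m ≠ 3 → Dst4 i m e e' → ∀ bb ε, Adm bb ε → ∀ W I, Full W I →
    ∀ (F : Fin 4 → Fn) (s D Ht Hf H : ℝ), 0 < s → s ≤ 1 → 0 < D → D ≤ 1 → 1 ≤ Ht → 1 ≤ Hf → 1 ≤ H →
    ∀ ψ, IsOpS i m e e' (2 ^ I.1) Ht Hf ψ → (∀ y ∈ iv I, F i y = ψ y / ((2 ^ I.1 : ℕ) : ℂ) ^ 2) →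
    (∀ j, j ≠ i → ∀ p ∈ W, av p (F j) ≤ 1) → (∀ j, j ≠ i → ∀ y, ‖F j y‖ ≤ H) →
    (∀ c : ℤ → ℤ → ℂ, (∀ z z', ‖c z z'‖ ≤ 1) →
      KLx446.ExD W c (F m) (sl i - sl m) (sl e - sl m) (sl e' - sl m) s D) →
    ‖TR bb ε W F‖ ≤ Φ s D Ht Hf H * len I

theorem len_eq (I : Nd) : len I = 128 * ((2 ^ I.1 : ℕ) : ℝ) := by
  unfold len
  push_cast
  rw [pow_add]
  ring

/-- an atom of arbitrary side, special vertex = killer slot: from `KillN` (bounded letters) -/
theorem one_side {Φ : ℝ → ℝ → ℝ → ℝ → ℝ → ℝ} (hKN : KillN Φ) {k q3 : ℝ} (hk : 0 < k) (hkq : 2 + k ≤ q3)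
    {N : ℕ} {B : ℝ} (hB : 0 ≤ B) (hBN : BN k q3 N B) {bb : ℤ} {ε : ℕ → ℤ → ℂ} (hA : Adm bb ε)
    {W : Finset Nd} {I : Nd} (hW : Full W I) (hI : I.1 ≤ N) {i m e e' : Fin 4} (hi3 : i ≠ 3)
    (hm3 : m ≠ 3) (hd : Dst4 i m e e') {F : Fin 4 → Fn}
    (hF : ∀ j, j ≠ i → ∀ p ∈ W, aq (qx k q3 j) p (F j) ≤ 1) {s D Ht Hf H Ht' Hf' τ : ℝ} (hs : 0 < s)
    (hs1 : s ≤ 1) (hD : 0 < D) (hD1 : D ≤ 1) (hHf : 1 ≤ Hf) (hHt : 1 ≤ Ht) (hH : 1 ≤ H)
    (hτ : 0 < τ) (hτ1 : τ ≤ 1) (hHt' : (Hf + 1) * Ht + 1 ≤ Ht') (hHt2 : τ⁻¹ * Ht ≤ Ht')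
    (hHf' : τ⁻¹ * Hf ≤ Hf') {n : ℕ} {ψ : Fn} (hψ : IsOpS i m e e' n Ht Hf ψ)
    (hFi : ∀ y ∈ iv I, F i y = ψ y / (n : ℂ) ^ 2) (hFH : ∀ j, j ≠ i → ∀ y, ‖F j y‖ ≤ H)
    (hE : ∀ c : ℤ → ℤ → ℂ, (∀ z z', ‖c z z'‖ ≤ 1) →
      KLx446.ExD W c (F m) (sl i - sl m) (sl e - sl m) (sl e' - sl m) s D) :
    ‖TR bb ε W F‖ ≤ (959 * Φ s D Ht' Hf' H + 3 * B * τ ^ (1 / (2 * (2 + k)))) * len I := by
  have hW' : ∀ p ∈ W, iv p ⊆ iv I := fun p hp => hW.reg.1 p hp
  have hL := Growth.len_pos I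
  have hq3 : 0 < q3 := by linarith
  have hτi : 1 ≤ τ⁻¹ := (one_le_inv₀ hτ).2 hτ1
  have hHf0 : 0 ≤ Hf := by linarith
  have hHf1 : 1 ≤ Hf' := by nlinarith
  have hHff : Hf ≤ Hf' := by nlinarith
  have hHt1 : 1 ≤ Ht' := by nlinarith
  have hp0 : 0 ≤ τ ^ (1 / (2 * (2 + k))) := Real.rpow_nonneg hτ.le _
  have hFav : ∀ j, j ≠ i → ∀ p ∈ W, av p (F j) ≤ 1 := fun j hj p hp =>
    (TAsm398.av_le_aq (two_lt_qx hk (by linarith) j).le p (F j)).trans (hF j hj p hp)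
  -- nonnegativity of `Φ`
  have hkill : ∀ ψ' : Fn, IsOpS i m e e' (2 ^ I.1) Ht' Hf' ψ' →
      ‖TR bb ε W (Function.update F i (fun y => ψ' y / ((2 ^ I.1 : ℕ) : ℂ) ^ 2))‖ ≤
        Φ s D Ht' Hf' H * len I := by
    intro ψ' hψ'
    have hmi : m ≠ i := hd.jk
    refine hKN i m e e' hi3 hm3 hd bb ε hA W I hW _ s D Ht' Hf' H hs hs1 hD hD1 hHt1 hHf1 hH ψ' hψ'
      (fun y _ => by rw [Function.update_self]) (fun j hj p hp => by
        rw [Function.update_of_ne hj]; exact hFav j hj p hp) (fun j hj y => by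
        rw [Function.update_of_ne hj]; exact hFH j hj y) (fun c hc => by
        rw [Function.update_of_ne hmi]; exact hE c hc)
  have hzero : IsOpS i m e e' (2 ^ I.1) Ht' Hf' (fun _ => 0) := by
    refine ⟨0, 0, 0, fun _ _ => 0, fun _ _ => 0, fun _ _ => 0, fun _ => 0,
      ⟨fun _ _ => by simp, fun _ => le_rfl, fun _ => by simp, fun _ => by simp, by simp,
        fun _ => by linarith, fun _ _ => by simp, fun _ _ => by simp⟩, ?_⟩
    funext y
    unfold opA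
    simp
  have hΦ0 : 0 ≤ Φ s D Ht' Hf' H := by
    have h1 := (norm_nonneg _).trans (hkill _ hzero)
    by_contra hcon
    push Not at hcon
    have := mul_neg_of_neg_of_pos hcon hL
    linarith
  have hN0 : 0 < 2 ^ I.1 := by positivity
  rcases le_or_gt (2 ^ I.1) n with hn | hn
  · -- large side
    obtain ⟨L, μ, ψ', hμ0, hψ', hμ1, hval⟩ := restr_opS hd hN0 hn (J := I) (by rw [len_eq])
      hHf0 hψ
    have h1 := TR_comb (ε := ε) hA hW' F i (fun l y => ψ' l y / ((2 ^ I.1 : ℕ) : ℂ) ^ 2)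
      (fun l => ((μ l : ℝ) : ℂ)) (fun y hy => by rw [hFi y hy]; exact hval y hy)
    rw [h1]
    calc ‖∑ l, ((μ l : ℝ) : ℂ) * TR bb ε W
          (Function.update F i (fun y => ψ' l y / ((2 ^ I.1 : ℕ) : ℂ) ^ 2))‖ ≤
        ∑ l, μ l * (Φ s D Ht' Hf' H * len I) := by
          refine (norm_sum_le _ _).trans (Finset.sum_le_sum fun l _ => ?_)
          rw [norm_mul, Complex.norm_real, Real.norm_of_nonneg (hμ0 l)]
          exact mul_le_mul_of_nonneg_left
            (hkill _ (IsOpS.mono (hψ' l) hHt' hHff)) (hμ0 l)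
      _ = (∑ l, μ l) * (Φ s D Ht' Hf' H * len I) := by rw [Finset.sum_mul]
      _ ≤ 959 * (Φ s D Ht' Hf' H * len I) :=
          mul_le_mul_of_nonneg_right hμ1 (by positivity)
      _ ≤ _ := by
          have : 0 ≤ 3 * B * τ ^ (1 / (2 * (2 + k))) * len I := by positivity
          linarith
  · rcases Nat.eq_zero_or_pos n with hn0 | hn0
    · -- no atom
      subst hn0
      have h1 := TR_comb (ε := ε) hA hW' F i (n := 0) (fun _ _ => 0) (fun _ => 0) (fun y hy => by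
        rw [hFi y hy]; simp)
      rw [h1]
      simp only [Finset.univ_eq_empty, Finset.sum_empty, norm_zero]
      positivity
    · have hnr : (0 : ℝ) < n := by exact_mod_cast hn0
      rcases le_or_gt (τ * (2 ^ I.1 : ℕ)) (n : ℝ) with hnt | hnt
      · -- comparable side
        obtain ⟨ψ', hψ', hval⟩ := emb_opS hn0 hn.le hHf0 hψ
        have hr : ((2 ^ I.1 : ℕ) : ℝ) / n ≤ τ⁻¹ := by
          rw [div_le_iff₀ hnr, inv_mul_eq_div, le_div_iff₀ hτ]
          linarith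
        have h1 := TR_scale (ε := ε) hA hW' F i (fun y => ψ' y / ((2 ^ I.1 : ℕ) : ℂ) ^ 2) 1
          (fun y hy => by rw [hFi y hy, one_mul]; exact hval y)
        rw [h1, one_mul]
        refine (hkill _ (IsOpS.mono hψ' ((mul_le_mul_of_nonneg_right hr (by linarith)).trans hHt2)
          ((mul_le_mul_of_nonneg_right hr hHf0).trans hHf'))).trans ?_
        have h2 : 0 ≤ 3 * B * τ ^ (1 / (2 * (2 + k))) * len I := by positivity
        have h3 : 0 ≤ Φ s D Ht' Hf' H * len I := by positivity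
        linarith
      · -- small side
        obtain ⟨w, q, u, m', U, V, α, hSD, rfl⟩ := hψ
        have hsup : ∀ y ∈ iv I, ‖F i y‖ ≤ 1 := by
          intro y hy
          rw [hFi y hy, norm_div, norm_pow, Complex.norm_natCast, div_le_one (by positivity)]
          exact sup_opA hd hSD w q u y
        have hl1 : ∑ y ∈ iv I, ‖F i y‖ ≤ 1 * τ * len I := by
          have h1 : ∑ y ∈ iv I, ‖F i y‖ = (∑ y ∈ iv I, ‖opA i m e e' n w q u m' U V y‖) / n ^ 2 := by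
            rw [Finset.sum_div]
            refine Finset.sum_congr rfl fun y hy => ?_
            rw [hFi y hy, norm_div, norm_pow, Complex.norm_natCast]
          rw [h1, div_le_iff₀ (by positivity)]
          refine (l1_opA hSD w q u (iv I)).trans ?_
          rw [len_eq]
          have h2 : (n : ℝ) ≤ 1 * τ * (128 * ((2 ^ I.1 : ℕ) : ℝ)) := by
            have : 0 ≤ τ * ((2 ^ I.1 : ℕ) : ℝ) := by positivity
            linarith
          calc (n : ℝ) ^ 3 = n * (n : ℝ) ^ 2 := by ring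
            _ ≤ _ := mul_le_mul_of_nonneg_right h2 (by positivity)
        have h1 := smallL1_B hk hq3 hB hBN hA hW hI hi3 hF one_pos hτ hτ1 hsup hl1
        refine h1.trans ?_
        have h3 : 0 ≤ 959 * Φ s D Ht' Hf' H * len I := by positivity
        linarith

/-- **one atom of arbitrary side and special vertex**, letters bounded -/
theorem one_atom {Φ : ℝ → ℝ → ℝ → ℝ → ℝ → ℝ} (hKN : KillN Φ) {k q3 : ℝ} (hk : 0 < k) (hkq : 2 + k ≤ q3)
    {N : ℕ} {B : ℝ} (hB : 0 ≤ B) (hBN : BN k q3 N B) {bb : ℤ} {ε : ℕ → ℤ → ℂ} (hA : Adm bb ε)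
    {W : Finset Nd} {I : Nd} (hW : Full W I) (hI : I.1 ≤ N) {i m : Fin 4} (hi3 : i ≠ 3)
    (hm3 : m ≠ 3) (him : i ≠ m) {F : Fin 4 → Fn}
    (hF : ∀ j, j ≠ i → ∀ p ∈ W, aq (qx k q3 j) p (F j) ≤ 1) {s D Ht Hf H Ht' Hf' τ : ℝ} (hs : 0 < s)
    (hs1 : s ≤ 1) (hD : 0 < D) (hD1 : D ≤ 1) (hHf : 1 ≤ Hf) (hHt : 1 ≤ Ht) (hH : 1 ≤ H)
    (hτ : 0 < τ) (hτ1 : τ ≤ 1) (hHt' : (Hf + 1) * Ht + 1 ≤ Ht') (hHt2 : τ⁻¹ * Ht ≤ Ht')
    (hHf' : τ⁻¹ * Hf ≤ Hf') {n : ℕ} {j e e' : Fin 4} (hd : Dst4 i j e e') {ψ : Fn}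
    (hψ : IsOpS i j e e' n Ht Hf ψ)
    (hFi : ∀ y ∈ iv I, F i y = ψ y / (n : ℂ) ^ 2) (hFH : ∀ j, j ≠ i → ∀ y, ‖F j y‖ ≤ H)
    (hE : ∀ e1 e2 : Fin 4, Dst4 i m e1 e2 → ∀ c : ℤ → ℤ → ℂ, (∀ z z', ‖c z z'‖ ≤ 1) →
      KLx446.ExD W c (F m) (sl i - sl m) (sl e1 - sl m) (sl e2 - sl m) s D) :
    ‖TR bb ε W F‖ ≤ 324 * (959 * Φ s D Ht' Hf' H + 3 * B * τ ^ (1 / (2 * (2 + k)))) * len I := by
  have hW' : ∀ p ∈ W, iv p ⊆ iv I := fun p hp => hW.reg.1 p hp
  have hL := Growth.len_pos I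
  -- the two other slots
  obtain ⟨e1, e2, hd'⟩ : ∃ e1 e2 : Fin 4, Dst4 i m e1 e2 := by
    obtain ⟨e1, e2, h1, h2, h3, h4, h5, h6⟩ := exists_two him
    exact ⟨e1, e2, h1, h2, h3, h4, h5, h6⟩
  rcases Nat.eq_zero_or_pos n with hn0 | hn0
  · subst hn0
    have h1 := one_side hKN hk hkq hB hBN hA hW hI hi3 hm3 hd' (F := F) hF hs hs1 hD hD1 hHf hHt
      hH hτ hτ1 hHt' hHt2 hHf' (n := 0) (ψ := fun _ => 0)
      ⟨0, 0, 0, fun _ _ => 0, fun _ _ => 0, fun _ _ => 0, fun _ => 0,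
        ⟨fun _ _ => by simp, fun _ => le_rfl, fun _ => by simp, fun _ => by simp, by simp,
          fun _ => by linarith, fun _ _ => by simp, fun _ _ => by simp⟩, by
            funext y; unfold opA; simp⟩ (fun y hy => by rw [hFi y hy]; simp) hFH
      (hE e1 e2 hd')
    refine h1.trans ?_
    have h2 := (norm_nonneg _).trans h1
    linarith
  · obtain ⟨M, ψ', hM, hψ', hsum⟩ := isOpS_any hd.jk (Ne.symm hd.ke) (Ne.symm hd.ke') hd.je hd.je'
      hd.ee' hn0 (by linarith : (0 : ℝ) ≤ Hf) hψ m e1 e2 hd'.jk (Ne.symm hd'.ke) (Ne.symm hd'.ke')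
      hd'.je hd'.je' hd'.ee'
    set R := (959 * Φ s D Ht' Hf' H + 3 * B * τ ^ (1 / (2 * (2 + k)))) * len I with hR
    have h1 : ∀ l, ‖TR bb ε W (Function.update F i (fun y => ψ' l y / (n : ℂ) ^ 2))‖ ≤ R := by
      intro l
      have hmi : m ≠ i := hd'.jk
      refine one_side hKN hk hkq hB hBN hA hW hI hi3 hm3 hd' (fun j hj p hp => by
        rw [Function.update_of_ne hj]; exact hF j hj p hp) hs hs1 hD hD1 hHf hHt hH hτ hτ1 hHt'
        hHt2 hHf' (hψ' l) (fun y _ => by rw [Function.update_self]) (fun j hj y => by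
        rw [Function.update_of_ne hj]; exact hFH j hj y) (by
        rw [Function.update_of_ne hmi]; exact hE e1 e2 hd')
    have hR0 : 0 ≤ R := by
      have h2 := one_side hKN hk hkq hB hBN hA hW hI hi3 hm3 hd' (F := Function.update F i 0)
        (fun j hj p hp => by rw [Function.update_of_ne hj]; exact hF j hj p hp) hs hs1 hD hD1 hHf
        hHt hH hτ hτ1 hHt' hHt2 hHf' (n := 0) (ψ := fun _ => 0)
        ⟨0, 0, 0, fun _ _ => 0, fun _ _ => 0, fun _ _ => 0, fun _ => 0,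
          ⟨fun _ _ => by simp, fun _ => le_rfl, fun _ => by simp, fun _ => by simp, by simp,
            fun _ => by linarith, fun _ _ => by simp, fun _ _ => by simp⟩, by
              funext y; unfold opA; simp⟩ (fun y _ => by rw [Function.update_self]; simp)
        (fun j hj y => by rw [Function.update_of_ne hj]; exact hFH j hj y) (by
          rw [Function.update_of_ne hd'.jk]; exact hE e1 e2 hd')
      exact (norm_nonneg _).trans h2
    have h3 := TR_comb (ε := ε) hA hW' F i (fun l y => ψ' l y / (n : ℂ) ^ 2) (fun _ => 1)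
      (fun y hy => by
        rw [hFi y hy, hsum]
        simp only [one_mul]
        rw [Finset.sum_div])
    rw [h3]
    calc ‖∑ l, (1 : ℂ) * TR bb ε W (Function.update F i (fun y => ψ' l y / (n : ℂ) ^ 2))‖ ≤
        ∑ _l : Fin M, R := by
          refine (norm_sum_le _ _).trans (Finset.sum_le_sum fun l _ => ?_)
          rw [one_mul]
          exact h1 l
      _ = M * R := by simp
      _ ≤ 324 * R := by
          have : (M : ℝ) ≤ 324 := by exact_mod_cast hM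
          exact mul_le_mul_of_nonneg_right this hR0
      _ = _ := by rw [hR]; ring

end Crest.Agent.R079.OpK276
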