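import Crest.Agent.R079.KLe_446
import Crest.Agent.R079.TwL_253
import Crest.Agent.R079.KLx_279
import Crest.Agent.R079.OpKc_276

-- ▼ part R079/KLw_446
section

/-! R079, KILL LEMMA, part W (helper446): the two words of the killer, summed over the frozen value.

* `good_words` : good boxes, ARBITRARY families `A_w`, `B_w`, price `τ = 81 s + 170 A √ε`;
* `rest_words` : the other boxes, arbitrary families with energies MASKED by the static set `RsP`,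
                 price `τ` = any bound of the killer on all boxes of the region. -/

set_option autoImplicit false

namespace Crest.Agent.R079.KLx446

open Finset Crest.Agent.R079.Grid Crest.Agent.R079.Glue Crest.Agent.R079.Growth
  Crest.Agent.R079.QRed Crest.Agent.R079.BadTx138 Crest.Agent.R079.KC996 Crest.Agent.R079.KLdx138
  Crest.Agent.R079.TwLx253

/-- the killer kernel at one frozen value has finite support -/
lemma fs_kw {c : ℤ → ℤ → ℂ} {X0 X1 Y0 Y1 : ℤ}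
    (hc : ∀ x y, c x y ≠ 0 → X0 ≤ x ∧ x < X1 ∧ Y0 ≤ y ∧ y < Y1) (K : Fn) (α β γ : ℤ) (σ : Bool) (w : ℤ) :
    ∀ x y, pr σ (kw c K α β γ w x y) ≠ 0 → X0 ≤ x ∧ x < X1 ∧ Y0 ≤ y ∧ y < Y1 := by
  intro x y h
  refine hc x y fun h0 => h ?_
  unfold kw
  rw [h0, zero_mul]
  unfold pr
  split_ifs <;> simp

lemma fs_of_box {A : ℤ → ℤ → ℝ} {X0 X1 Y0 Y1 : ℤ}
    (h : ∀ x y, A x y ≠ 0 → X0 ≤ x ∧ x < X1 ∧ Y0 ≤ y ∧ y < Y1) : FS A :=
  fs_of_mem (T := Ico X0 X1) (T' := Ico Y0 Y1) fun x y hxy => by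
    obtain ⟨h1, h2, h3, h4⟩ := h x y hxy
    exact ⟨Finset.mem_Ico.2 ⟨h1, h2⟩, Finset.mem_Ico.2 ⟨h3, h4⟩⟩

lemma abs_kw_le {c : ℤ → ℤ → ℂ} (hc : ∀ x y, ‖c x y‖ ≤ 1) {K : Fn} {HC : ℝ} (hK : ∀ y, ‖K y‖ ≤ HC)
    (α β γ : ℤ) (σ : Bool) (w x y : ℤ) : |pr σ (kw c K α β γ w x y)| ≤ HC := by
  refine (abs_pr_le _ _).trans ?_
  unfold kw
  rw [norm_mul]
  calc ‖c x y‖ * ‖K (α * w + β * x + γ * y)‖ ≤ 1 * HC :=
        mul_le_mul (hc _ _) (hK _) (norm_nonneg _) zero_le_one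
    _ = HC := one_mul _

lemma mt_of_ex {C : ℤ → ℤ → ℝ} {m : ℕ} {p0 p2 X0 X1 Y0 Y1 : ℤ}
    (hC : ∀ x y, C x y ≠ 0 → X0 ≤ x ∧ x < X1 ∧ Y0 ≤ y ∧ y < Y1)
    (h : ∃ i j : ℕ, i < 2 ^ (m + 1) ∧ j < 2 ^ (m + 1) ∧ C (p2 + i) (p0 + j) ≠ 0) :
    Mt X0 X1 Y0 Y1 m p2 p0 := by
  obtain ⟨i, j, hi, hj, hne⟩ := h
  obtain ⟨h1, h2, h3, h4⟩ := hC _ _ hne
  have hi' : (i : ℤ) < 2 ^ (m + 1) := by exact_mod_cast hi
  have hj' : (j : ℤ) < 2 ^ (m + 1) := by exact_mod_cast hj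
  have hi0 : (0 : ℤ) ≤ i := Int.natCast_nonneg i
  have hj0 : (0 : ℤ) ≤ j := Int.natCast_nonneg j
  exact ⟨by linarith, by linarith, by linarith, by linarith⟩

lemma om_le {R : Finset Nd} {J : Nd} (hR : IsRegion R J) {α β γ w : ℤ} {m : ℕ} {q u : ℤ}
    (h : Om R α β γ w m q u) : m ≤ J.1 := by
  have hm0 : (0 : ℤ) < 2 ^ m := by positivity
  exact Rm_level hR (h q (Finset.mem_Ico.2 ⟨le_rfl, by linarith⟩) u
    (Finset.mem_Ico.2 ⟨le_rfl, by linarith⟩))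

/-- **GOOD WORDS** (arbitrary families of partners) -/
theorem good_words : ∃ KK : ℝ, 0 ≤ KK ∧ ∀ (l : ℤ), |l| ≤ 7 → ∀ (k k0 k1 k2 : Fin 4), D4 k k0 k1 k2 →
    ∀ (R : Finset Nd) (J : Nd), Full R J → ∀ (c : ℤ → ℤ → ℂ) (K : Fn) (X0 X1 Y0 Y1 : ℤ),
    (∀ x y, ‖c x y‖ ≤ 1) → (∀ x y, c x y ≠ 0 → X0 ≤ x ∧ x < X1 ∧ Y0 ≤ y ∧ y < Y1) →
    ∀ (s ε Av : ℝ), 0 ≤ s → 0 ≤ ε → 0 ≤ Av → 0 < 81 * s + 170 * Av * √ε →
    (∀ p ∈ R, av p K ≤ Av) → ∀ (HC : ℝ), (∀ y, ‖K y‖ ≤ HC) → ∀ (σ : Bool)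
    (A B : ℤ → ℤ → ℤ → ℝ) (HA HB fa fb SA SB : ℝ) (W1 : Finset ℤ),
    (∀ w, FS (A w)) → (∀ w, FS (B w)) → 0 < fa → 0 < fb →
    (∀ w x y, |A w x y| ≤ HA) → (∀ w x y, |B w x y| ≤ HB) →
    (∀ w, w ∉ W1 → (∀ x y, A w x y = 0) ∨ (∀ x y, B w x y = 0)) →
    (∀ X Y : Finset ℤ, ∑ w ∈ W1, ∑ x ∈ X, ∑ y ∈ Y, A w x y ^ 2 ≤ SA) →
    (∀ X Y : Finset ℤ, ∑ w ∈ W1, ∑ x ∈ X, ∑ y ∈ Y, B w x y ^ 2 ≤ SB) →
    ∀ (Wf : Finset ℤ) (L1 : ℕ), ∑ w ∈ Wf, Tw (fun m p0 p1 p2 => Gd k k0 k1 k2 R m w p0 p1 p2 ∧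
      GoodB R J c K (sl k - sl k1) (sl k2 - sl k1) (sl k0 - sl k1) s ε w m p0 p2) (A w) (B w)
      (fun z z' => pr σ (kw c K (sl k - sl k1) (sl k2 - sl k1) (sl k0 - sl k1) w z z'))
      (J.1 + 1) L1 l w ≤
      KK * (1 + Real.log (1 + HC ^ 2 *
        (((Ico (X0 - 2 ^ (J.1 + 1)) (X1 + 2 ^ (J.1 + 1))).card : ℝ) * len J) *
        (HA ^ 2 / fa + HB ^ 2 / fb) / (81 * s + 170 * Av * √ε) ^ 2)) *
        ((81 * s + 170 * Av * √ε) * √(SA + W1.card * fa) * √(SB + W1.card * fb)) := by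
  obtain ⟨KK, hKK, hmain⟩ := sum_tw'
  refine ⟨KK, hKK, ?_⟩
  intro l hl k k0 k1 k2 h4 R J hR c K X0 X1 Y0 Y1 hc1 hc0 s ε Av hs hε hAv hτ hK HC hHC σ A B HA HB
    fa fb SA SB W1 sA sB hfa hfb hA hB h0 eA eB Wf L1
  refine hmain l hl R J (sl k - sl k1) (sl k2 - sl k1) (sl k0 - sl k1) (X0 - 2 ^ (J.1 + 1))
    (X1 + 2 ^ (J.1 + 1)) (Y0 - 2 ^ (J.1 + 1)) (Y1 + 2 ^ (J.1 + 1))
    (fun w => AlG R (sl k - sl k1) (sl k2 - sl k1) (sl k0 - sl k1) w (X0 - 2 ^ (J.1 + 1))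
      (X1 + 2 ^ (J.1 + 1)) (Y0 - 2 ^ (J.1 + 1)) (Y1 + 2 ^ (J.1 + 1))
      (Pw R J c K (sl k - sl k1) (sl k2 - sl k1) (sl k0 - sl k1) s ε w)) hR.reg h4.cof
    (fun w => alC_good hR.reg h4.cof (lp_pw _ _ _ _ _ _ _ _ _ _)) A B
    (fun w z z' => pr σ (kw c K (sl k - sl k1) (sl k2 - sl k1) (sl k0 - sl k1) w z z'))
    (81 * s + 170 * Av * √ε) HA HB HC fa fb SA SB W1 sA sB
    (fun w => fs_of_box (fs_kw hc0 K _ _ _ σ w)) hτ hfa hfb hA hB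
    (fun w x y => abs_kw_le hc1 hHC _ _ _ σ w x y) h0 eA eB ?_
    (fun w m p0 p1 p2 => Gd k k0 k1 k2 R m w p0 p1 p2 ∧
      GoodB R J c K (sl k - sl k1) (sl k2 - sl k1) (sl k0 - sl k1) s ε w m p0 p2) ?_ Wf L1
  · intro w m q p hal
    have hm : m ≤ J.1 := om_le hR.reg hal.1.1
    have := opZ_of_opB (N := 2 ^ m) (q := q) (p := p)
      (K := kw c K (sl k - sl k1) (sl k2 - sl k1) (sl k0 - sl k1) w)
      (c := (81 * s + 170 * Av * √ε) * 2 ^ m) (by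
        push_cast
        exact op_good hR h4.cof hc1 hs hε hAv hK hm hal.1.1 hal.2) σ
    rw [mul_comm]
    exact this
  · rintro w m hm p0 p1 p2 ⟨hg, hgood⟩ hex
    exact al4_good hm hg (mt_of_ex (fs_kw hc0 K _ _ _ σ w) hex) hgood

open Classical in
/-- **REST WORDS** (arbitrary families of partners, masked energies) -/
theorem rest_words : ∃ KK : ℝ, 0 ≤ KK ∧ ∀ (l : ℤ), |l| ≤ 7 → ∀ (k k0 k1 k2 : Fin 4), D4 k k0 k1 k2 →
    ∀ (R : Finset Nd) (J : Nd), Full R J → ∀ (c : ℤ → ℤ → ℂ) (K : Fn) (X0 X1 Y0 Y1 : ℤ),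
    (∀ x y, ‖c x y‖ ≤ 1) → (∀ x y, c x y ≠ 0 → X0 ≤ x ∧ x < X1 ∧ Y0 ≤ y ∧ y < Y1) →
    ∀ (s ε τ : ℝ), 0 < τ →
    (∀ w m q u, Om R (sl k - sl k1) (sl k2 - sl k1) (sl k0 - sl k1) w m q u →
      OpB (kw c K (sl k - sl k1) (sl k2 - sl k1) (sl k0 - sl k1) w) (Ico q (q + 2 ^ m))
        (Ico u (u + 2 ^ m)) (τ * 2 ^ m)) →
    ∀ (HC : ℝ), (∀ y, ‖K y‖ ≤ HC) → ∀ (σ : Bool)
    (A B : ℤ → ℤ → ℤ → ℝ) (HA HB fa fb SA SB : ℝ) (W1 : Finset ℤ),
    (∀ w, FS (A w)) → (∀ w, FS (B w)) → 0 < fa → 0 < fb →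
    (∀ w x y, |A w x y| ≤ HA) → (∀ w x y, |B w x y| ≤ HB) →
    (∀ w, w ∉ W1 → (∀ x y, A w x y = 0) ∨ (∀ x y, B w x y = 0)) →
    (∀ X Y : Finset ℤ, ∑ w ∈ W1, ∑ x ∈ X, ∑ y ∈ Y,
      (if RsP R J c K (sl k - sl k1) (sl k2 - sl k1) (sl k0 - sl k1) s ε w (-w - x - y) x then
        A w x y ^ 2 else 0) ≤ SA) →
    (∀ X Y : Finset ℤ, ∑ w ∈ W1, ∑ x ∈ X, ∑ y ∈ Y,
      (if RsP R J c K (sl k - sl k1) (sl k2 - sl k1) (sl k0 - sl k1) s ε w y (-w - x - y) then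
        B w x y ^ 2 else 0) ≤ SB) →
    ∀ (Wf : Finset ℤ) (L1 : ℕ), ∑ w ∈ Wf, Tw (fun m p0 p1 p2 => Gd k k0 k1 k2 R m w p0 p1 p2 ∧
      ¬ GoodB R J c K (sl k - sl k1) (sl k2 - sl k1) (sl k0 - sl k1) s ε w m p0 p2) (A w) (B w)
      (fun z z' => pr σ (kw c K (sl k - sl k1) (sl k2 - sl k1) (sl k0 - sl k1) w z z'))
      (J.1 + 1) L1 l w ≤
      KK * (1 + Real.log (1 + HC ^ 2 *
        (((Ico (X0 - 2 ^ (J.1 + 1)) (X1 + 2 ^ (J.1 + 1))).card : ℝ) * len J) *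
        (HA ^ 2 / fa + HB ^ 2 / fb) / τ ^ 2)) *
        (τ * √(SA + W1.card * fa) * √(SB + W1.card * fb)) := by
  obtain ⟨KK, hKK, hmain⟩ := sum_tw'
  refine ⟨KK, hKK, ?_⟩
  intro l hl k k0 k1 k2 h4 R J hR c K X0 X1 Y0 Y1 hc1 hc0 s ε τ hτ hop HC hHC σ A B HA HB
    fa fb SA SB W1 sA sB hfa hfb hA hB h0 eA eB Wf L1
  set α := sl k - sl k1 with hα
  set β := sl k2 - sl k1 with hβ
  set γ := sl k0 - sl k1 with hγ
  -- masked families
  set A' : ℤ → ℤ → ℤ → ℝ := fun w x y => if RsP R J c K α β γ s ε w (-w - x - y) x then A w x y else 0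
    with hA'
  set B' : ℤ → ℤ → ℤ → ℝ := fun w x y => if RsP R J c K α β γ s ε w y (-w - x - y) then B w x y else 0
    with hB'
  have hHA : 0 ≤ HA := (abs_nonneg _).trans (hA 0 0 0)
  have hHB : 0 ≤ HB := (abs_nonneg _).trans (hB 0 0 0)
  have hfs : ∀ {D D' : ℤ → ℤ → ℝ}, FS D → (∀ x y, D' x y ≠ 0 → D x y ≠ 0) → FS D' := by
    rintro D D' ⟨S, hS⟩ h
    exact ⟨S, fun x y hxy => hS x y (h x y hxy)⟩
  have hstep : ∀ w ∈ Wf, Tw (fun m p0 p1 p2 => Gd k k0 k1 k2 R m w p0 p1 p2 ∧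
      ¬ GoodB R J c K α β γ s ε w m p0 p2) (A w) (B w)
      (fun z z' => pr σ (kw c K α β γ w z z')) (J.1 + 1) L1 l w ≤
      Tw (fun m p0 p1 p2 => Gd k k0 k1 k2 R m w p0 p1 p2 ∧
      ¬ GoodB R J c K α β γ s ε w m p0 p2) (A' w) (B' w)
      (fun z z' => pr σ (kw c K α β γ w z z')) (J.1 + 1) L1 l w := by
    intro w _
    refine Tw_le hl fun m _ p0 p1 p2 hw hG _ => ⟨hG, ?_⟩
    refine Lb3r_congr fun z0 h0 z1 h1 z2 h2 => ?_
    have e1 : A' w z0 z1 = A w z0 z1 := by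
      simp only [hA']
      rw [if_pos]
      exact rest_A hG.1 hw hG.2 h0 h1
    have e2 : B' w z1 z2 = B w z1 z2 := by
      simp only [hB']
      rw [if_pos]
      exact rest_B hG.1 hw hG.2 h1 h2
    rw [e1, e2]
  refine (Finset.sum_le_sum hstep).trans ?_
  refine hmain l hl R J α β γ (X0 - 2 ^ (J.1 + 1))
    (X1 + 2 ^ (J.1 + 1)) (Y0 - 2 ^ (J.1 + 1)) (Y1 + 2 ^ (J.1 + 1))
    (fun w => AlR R α β γ w (X0 - 2 ^ (J.1 + 1))
      (X1 + 2 ^ (J.1 + 1)) (Y0 - 2 ^ (J.1 + 1)) (Y1 + 2 ^ (J.1 + 1))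
      (Pw R J c K α β γ s ε w)) hR.reg h4.cof
    (fun w => alC_rest hR.reg h4.cof (lp_pw _ _ _ _ _ _ _ _ _ _)) A' B'
    (fun w z z' => pr σ (kw c K α β γ w z z'))
    τ HA HB HC fa fb SA SB W1 (fun w => hfs (sA w) fun x y h => ?_)
    (fun w => hfs (sB w) fun x y h => ?_)
    (fun w => fs_of_box (fs_kw hc0 K _ _ _ σ w)) hτ hfa hfb (fun w x y => ?_) (fun w x y => ?_)
    (fun w x y => abs_kw_le hc1 hHC _ _ _ σ w x y) (fun w hw => ?_) (fun X Y => ?_) (fun X Y => ?_) ?_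
    (fun w m p0 p1 p2 => Gd k k0 k1 k2 R m w p0 p1 p2 ∧
      ¬ GoodB R J c K α β γ s ε w m p0 p2) ?_ Wf L1
  · intro h'
    apply h
    simp only [hA', h', ite_self]
  · intro h'
    apply h
    simp only [hB', h', ite_self]
  · simp only [hA']
    split_ifs
    · exact hA w x y
    · simpa using hHA
  · simp only [hB']
    split_ifs
    · exact hB w x y
    · simpa using hHB
  · rcases h0 w hw with h | h
    · left
      intro x y
      simp only [hA', h, ite_self]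
    · right
      intro x y
      simp only [hB', h, ite_self]
  · refine le_trans (le_of_eq ?_) (eA X Y)
    refine Finset.sum_congr rfl fun w _ => Finset.sum_congr rfl fun x _ =>
      Finset.sum_congr rfl fun y _ => ?_
    simp only [hA']
    split_ifs <;> simp
  · refine le_trans (le_of_eq ?_) (eB X Y)
    refine Finset.sum_congr rfl fun w _ => Finset.sum_congr rfl fun x _ =>
      Finset.sum_congr rfl fun y _ => ?_
    simp only [hB']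
    split_ifs <;> simp
  · intro w m q p hal
    have := opZ_of_opB (N := 2 ^ m) (q := q) (p := p) (K := kw c K α β γ w) (c := τ * 2 ^ m) (by
        push_cast
        exact hop w m q p hal.1.1) σ
    rw [mul_comm]
    exact this
  · rintro w m hm p0 p1 p2 ⟨hg, hbad⟩ hex
    exact al4_rest hm hg (mt_of_ex (fs_kw hc0 K _ _ _ σ w) hex) hbad

end Crest.Agent.R079.KLx446
end

-- ▼ part R079/KLf_446
section

/-! R079, KILL LEMMA, part F (helper446): the words of one atom against the killer. -/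

set_option autoImplicit false

namespace Crest.Agent.R079.KLx446

open Finset Crest.Agent.R079.Grid Crest.Agent.R079.Glue Crest.Agent.R079.Growth
  Crest.Agent.R079.QRed Crest.Agent.R079.BadTx138 Crest.Agent.R079.KC996 Crest.Agent.R079.KLdx138
  Crest.Agent.R079.TwLx253

/-- exceptional density only sees the letter on the nodes of the region -/
lemma exD_congr {R : Finset Nd} {c : ℤ → ℤ → ℂ} {K K' : Fn} {α β γ : ℤ} {s D : ℝ}
    (h : ∀ p ∈ R, ∀ y ∈ iv p, K y = K' y) (hE : ExD R c K α β γ s D) : ExD R c K' α β γ s D := by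
  classical
  intro p hp w a b
  refine le_trans (le_of_eq ?_) (hE p hp w a b)
  congr 2
  refine Finset.filter_congr fun w' _ => ?_
  have e : kp c K' α β γ p w' = kp c K α β γ p w' := by
    funext x y
    unfold kp
    split_ifs with hm
    · rw [h p hp _ hm]
    · rfl
  unfold OpP
  rw [e]

/-- the values `w` with a point of a bounded box in a bounded strip -/
lemma w_range {a w v M : ℤ} (ha : a ≠ 0) (h : |a * w - v| ≤ M) : |w - v / a| ≤ M + 1 := by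
  have h1 := Int.mul_ediv_add_emod v a
  have h2 := Int.emod_nonneg v ha
  have h3 := Int.emod_lt_abs v ha
  have h4 : 1 ≤ |a| := Int.one_le_abs ha
  have hM : 0 ≤ M := (abs_nonneg _).trans h
  have h5 : a * (w - v / a) = (a * w - v) + v % a := by linarith
  have h6 : |a| * |w - v / a| ≤ M + |a| := by
    rw [← abs_mul, h5]
    refine (abs_add_le _ _).trans ?_
    rw [abs_of_nonneg h2]
    linarith
  have h7 : |a| * |w - v / a| ≤ |a| * (M + 1) := by nlinarith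
  exact le_of_mul_le_mul_left h7 (by linarith)

/-- the frozen values seen by one letter -/
lemma fr4_w {T T' : Finset ℤ} {a : ℤ → ℤ → ℂ} {F : ℤ → ℂ} {J : Nd} (hF : ∀ y, y ∉ iv J → F y = 0)
    {α β γ : ℤ} (hα : α ≠ 0) (hβ : |β| ≤ 3) (hγ : |γ| ≤ 3) {t t' : ℤ}
    (hT : T ⊆ Ico t (t + 2 ^ J.1)) (hT' : T' ⊆ Ico t' (t' + 2 ^ J.1)) :
    ∃ w0 : ℤ, ∀ w, w ∉ Ico w0 (w0 + ((271 * 2 ^ J.1 : ℕ) : ℤ)) → ∀ z z', fr4 T T' a F α β γ w z z' = 0 := by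
  set n : ℤ := 2 ^ J.1 with hn
  have hn1 : 1 ≤ n := one_le_pow₀ (by norm_num)
  set v : ℤ := J.2 * 2 ^ (J.1 + 7) - β * t - γ * t' with hv
  refine ⟨v / α - (134 * n + 1), ?_⟩
  intro w hw z z'
  unfold fr4
  split_ifs with h
  · by_contra hne
    have hy : α * w + β * z + γ * z' ∈ iv J := by
      by_contra hy
      exact hne (by rw [hF _ hy, mul_zero])
    rw [mem_iv_Ico] at hy
    have h1 := Finset.mem_Ico.1 (hT h.1)
    have h2 := Finset.mem_Ico.1 (hT' h.2)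
    have e : (2 : ℤ) ^ (J.1 + 7) = 128 * n := by rw [pow_add]; norm_num; ring
    have hb : |β * (z - t)| ≤ 3 * n := by
      rw [abs_mul]
      refine mul_le_mul hβ ?_ (abs_nonneg _) (by norm_num)
      rw [abs_le]
      constructor <;> linarith
    have hc : |γ * (z' - t')| ≤ 3 * n := by
      rw [abs_mul]
      refine mul_le_mul hγ ?_ (abs_nonneg _) (by norm_num)
      rw [abs_le]
      constructor <;> linarith
    have h3 : |α * w - v| ≤ 134 * n := by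
      rw [abs_le] at hb hc ⊢
      rw [e] at hy
      rw [hv, e]
      constructor <;> nlinarith [hb.1, hb.2, hc.1, hc.2, hy.1, hy.2]
    have h4 := w_range hα h3
    rw [abs_le] at h4
    apply hw
    rw [Finset.mem_Ico]
    push_cast
    rw [← hn]
    constructor <;> linarith [h4.1, h4.2]
  · rfl


end Crest.Agent.R079.KLx446
end

-- ▼ part R079/KLr_138
section

/-! R079, KILL LEMMA, assembly pieces (helper138, for 446's KLe/KLf):
(i) `hs_om`  : Hilbert–Schmidt norm of the frozen killer on a box all of whose shadows are in nodes of the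
    level of the box; (ii) `op_om`, `opZ_om`; (iii) `rest_AB` : energies of the masked line letters
    `kA`, `kB` on the rest, in the coordinates of the letters. -/

set_option autoImplicit false
set_option linter.unusedVariables false

namespace Crest.Agent.R079.KLrx138

open Finset Crest.Agent.R079.Grid Crest.Agent.R079.Glue Crest.Agent.R079.Growth
  Crest.Agent.R079.QRed Crest.Agent.R079.BadTx138 Crest.Agent.R079.KLx446
  Crest.Agent.R079.KLdx138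

/-! ### (i), (ii) -/

variable {R : Finset Nd} {J : Nd} {K : Fn} {c : ℤ → ℤ → ℂ} {α β γ : ℤ} {A : ℝ}

/-- a row of an alive box -/
lemma row_om (hK : ∀ p ∈ R, av p K ≤ A) (hγ : γ ≠ 0) (hγ3 : |γ| ≤ 3) {m : ℕ} {η0 u : ℤ}
    (h : ∀ y ∈ Ico u (u + 2 ^ m), η0 + γ * y ∈ Rm R m) :
    ∑ y ∈ Ico u (u + 2 ^ m), ‖K (η0 + γ * y)‖ ^ 2 ≤ 256 * 2 ^ m * A ^ 2 := by
  classical
  have hinj : Set.InjOn (fun y : ℤ => η0 + γ * y) (Ico u (u + 2 ^ m) : Finset ℤ) := by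
    intro x _ y _ hxy
    have h1 : η0 + γ * x = η0 + γ * y := hxy
    have : γ * x = γ * y := by linarith
    exact mul_left_cancel₀ hγ this
  set l0 : ℤ := (η0 + γ * u - 3 * 2 ^ m) / 2 ^ (m + 7) with hl0
  have e1 : ∑ y ∈ Ico u (u + 2 ^ m), ‖K (η0 + γ * y)‖ ^ 2 =
      ∑ z ∈ (Ico u (u + 2 ^ m)).image (fun y : ℤ => η0 + γ * y), ‖msk (Rm R m) K z‖ ^ 2 := by
    rw [Finset.sum_image hinj]
    refine Finset.sum_congr rfl fun y hy => ?_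
    unfold msk
    rw [if_pos (h y hy)]
  have hsub : (Ico u (u + 2 ^ m)).image (fun y : ℤ => η0 + γ * y) ⊆
      (Icc l0 (l0 + 1)).biUnion fun l => dI (m + 7) l := by
    intro z hz
    rw [Finset.mem_image] at hz
    obtain ⟨y, hy, rfl⟩ := hz
    rw [Finset.mem_Ico] at hy
    have hp : (0 : ℤ) < 2 ^ (m + 7) := by positivity
    have h1 : |γ * (y - u)| ≤ 3 * 2 ^ m := by
      rw [abs_mul]
      have h2 : |y - u| ≤ 2 ^ m := by
        rw [abs_of_nonneg (by linarith [hy.1])]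
        linarith [hy.2]
      exact mul_le_mul hγ3 h2 (abs_nonneg _) (by norm_num)
    have h2 := abs_le.1 h1
    have e : η0 + γ * y = η0 + γ * u + γ * (y - u) := by ring
    rw [Finset.mem_biUnion]
    refine ⟨(η0 + γ * y) / 2 ^ (m + 7), ?_, (Glue.mem_dI_iff _ _ _).2 rfl⟩
    rw [Finset.mem_Icc]
    constructor
    · rw [hl0]
      refine Int.ediv_le_ediv hp ?_
      rw [e]; linarith [h2.1]
    · have h9 : (η0 + γ * y) / 2 ^ (m + 7) ≤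
          (η0 + γ * u - 3 * 2 ^ m + 1 * 2 ^ (m + 7)) / 2 ^ (m + 7) := by
        refine Int.ediv_le_ediv hp ?_
        have h3 : (2 : ℤ) ^ (m + 7) = 128 * 2 ^ m := by rw [pow_add]; ring
        rw [e, h3]
        have : (0 : ℤ) < 2 ^ m := by positivity
        linarith [h2.2]
      rw [Int.add_mul_ediv_right _ _ hp.ne'] at h9
      exact h9
  rw [e1]
  refine (Finset.sum_le_sum_of_subset_of_nonneg hsub fun _ _ _ => by positivity).trans ?_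
  refine (sum_biUnion_le' _ _ (fun y => ‖msk (Rm R m) K y‖ ^ 2) fun y => by positivity).trans ?_
  refine (Finset.sum_le_sum fun l _ => sum_msk_dI R m K A hK l).trans (le_of_eq ?_)
  rw [Finset.sum_const, nsmul_eq_mul, Int.card_Icc,
    show l0 + 1 + 1 - l0 = ((2 : ℕ) : ℤ) by push_cast; ring, Int.toNat_natCast, pow_add]
  push_cast
  ring

/-- **(i)** -/
theorem hs_om (hC : Cof α β γ) (hK : ∀ p ∈ R, av p K ≤ A) (hc : ∀ x y, ‖c x y‖ ≤ 1) {w : ℤ} {m : ℕ}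
    {q u : ℤ} (hOm : Om R α β γ w m q u) :
    ∑ x ∈ Ico q (q + 2 ^ m), ∑ y ∈ Ico u (u + 2 ^ m), ‖kw c K α β γ w x y‖ ^ 2 ≤
      256 * A ^ 2 * 4 ^ m := by
  have h1 : ∀ x ∈ Ico q (q + (2 : ℤ) ^ m), ∑ y ∈ Ico u (u + 2 ^ m), ‖kw c K α β γ w x y‖ ^ 2 ≤
      256 * 2 ^ m * A ^ 2 := by
    intro x hx
    refine le_trans (Finset.sum_le_sum fun y _ => ?_)
      (row_om hK hC.γ0 hC.γ3 (η0 := α * w + β * x) (fun y hy => hOm x hx y hy))
    unfold kw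
    rw [norm_mul, mul_pow]
    have h2 := pow_le_pow_left₀ (norm_nonneg _) (hc x y) 2
    rw [one_pow] at h2
    exact (mul_le_mul_of_nonneg_right h2 (sq_nonneg _)).trans (le_of_eq (one_mul _))
  refine (Finset.sum_le_sum h1).trans (le_of_eq ?_)
  rw [Finset.sum_const, nsmul_eq_mul, Int.card_Ico,
    show q + (2 : ℤ) ^ m - q = ((2 ^ m : ℕ) : ℤ) by push_cast; ring, Int.toNat_natCast]
  push_cast
  have h4 : (4 : ℝ) ^ m = 2 ^ m * 2 ^ m := by rw [← mul_pow]; norm_num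
  rw [h4]
  ring

/-- operator norm below the Hilbert–Schmidt norm -/
theorem opB_hs {K : ℤ → ℤ → ℂ} {I J : Finset ℤ} {t : ℝ}
    (h : ∑ x ∈ I, ∑ y ∈ J, ‖K x y‖ ^ 2 ≤ t ^ 2) : OpB K I J t := by
  intro u v
  have h1 : ‖∑ x ∈ I, ∑ y ∈ J, u x * K x y * v y‖ ≤
      ∑ z ∈ I ×ˢ J, ‖K z.1 z.2‖ * (‖u z.1‖ * ‖v z.2‖) := by
    rw [Finset.sum_product]
    refine (norm_sum_le _ _).trans (Finset.sum_le_sum fun x _ => ?_)
    refine (norm_sum_le _ _).trans (Finset.sum_le_sum fun y _ => ?_)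
    rw [norm_mul, norm_mul]
    exact le_of_eq (by ring)
  have h2 : (∑ z ∈ I ×ˢ J, ‖K z.1 z.2‖ * (‖u z.1‖ * ‖v z.2‖)) ^ 2 ≤
      (∑ z ∈ I ×ˢ J, ‖K z.1 z.2‖ ^ 2) * ∑ z ∈ I ×ˢ J, (‖u z.1‖ * ‖v z.2‖) ^ 2 :=
    Finset.sum_mul_sq_le_sq_mul_sq _ _ _
  have h3 : ∑ z ∈ I ×ˢ J, (‖u z.1‖ * ‖v z.2‖) ^ 2 = (∑ x ∈ I, ‖u x‖ ^ 2) * ∑ y ∈ J, ‖v y‖ ^ 2 := by
    rw [Finset.sum_product, Finset.sum_mul_sum]
    exact Finset.sum_congr rfl fun x _ => Finset.sum_congr rfl fun y _ => mul_pow _ _ _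
  have h4 : ∑ z ∈ I ×ˢ J, ‖K z.1 z.2‖ ^ 2 = ∑ x ∈ I, ∑ y ∈ J, ‖K x y‖ ^ 2 := Finset.sum_product _ _ _
  rw [h3, h4] at h2
  refine (pow_le_pow_left₀ (norm_nonneg _) h1 2).trans (h2.trans ?_)
  exact mul_le_mul_of_nonneg_right h (mul_nonneg (Finset.sum_nonneg fun _ _ => sq_nonneg _)
    (Finset.sum_nonneg fun _ _ => sq_nonneg _))

/-- **(ii)** operator norm `16 A` side -/
theorem op_om (hC : Cof α β γ) (hK : ∀ p ∈ R, av p K ≤ A) (hc : ∀ x y, ‖c x y‖ ≤ 1) {w : ℤ} {m : ℕ}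
    {q u : ℤ} (hOm : Om R α β γ w m q u) :
    OpB (kw c K α β γ w) (Ico q (q + 2 ^ m)) (Ico u (u + 2 ^ m)) (16 * A * 2 ^ m) := by
  refine opB_hs ((hs_om hC hK hc hOm).trans (le_of_eq ?_))
  have h4 : (4 : ℝ) ^ m = 2 ^ m * 2 ^ m := by rw [← mul_pow]; norm_num
  rw [h4]
  ring


/-! ### (iii) energies of the rest -/

/-- shadows of a zero sum point coincide -/
lemma sha_zero (k k0 k1 k2 : Fin 4) (w z0 z1 : ℤ) :
    sha k k2 k0 k1 w z0 z1 = sha k k1 k2 k0 w (-w - z0 - z1) z0 := by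
  unfold sha; ring

lemma sha_zero' (k k0 k1 k2 : Fin 4) (w z1 z2 : ℤ) :
    sha k k0 k1 k2 w z1 z2 = sha k k1 k2 k0 w z2 (-w - z1 - z2) := by
  unfold sha; ring

open Classical in
/-- rest energy in face coordinates with an arbitrary position set, classical indicator -/
theorem rest_face : ∃ C0 : ℝ, 0 ≤ C0 ∧ ∀ (R : Finset Nd) (J : Nd), Full R J →
    ∀ (c : ℤ → ℤ → ℂ) (K : Fn) (α β γ : ℤ), Cof α β γ → ∀ (s ε D : ℝ), 0 < ε → 0 ≤ D →
    ExD R c K α β γ s D → ∀ (th : ℤ → ℝ) (Ht : ℝ) (t1 : ℤ) (n : ℕ), (∀ z, 0 ≤ th z) → 1 ≤ Ht →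
    (∀ z, th z ≤ Ht) → (∀ z, th z ≠ 0 → t1 ≤ z ∧ z < t1 + n) →
    ∀ (X : Fn) (A : ℝ), (∀ p ∈ R, av p X ≤ A) → ∀ (w0 : ℤ) (N : ℕ) (W1 : Finset ℤ),
    W1 ⊆ Ico w0 (w0 + N) → ∀ (Xf Yf : Finset ℤ),
    ∑ w ∈ W1, ∑ x ∈ Xf, ∑ y ∈ Yf, (if RsP R J c K α β γ s ε w x y then
      th (-w - x - y) * ‖X (α * w + β * x + γ * y)‖ ^ 2 else 0) ≤
    C0 * A ^ 2 * (D / ε) * Ht ^ (1 / 3 : ℝ) * ((N + 2 ^ J.1) * 2 ^ J.1 *
      (∑ z ∈ Ico t1 (t1 + n), th z + n + 2 ^ J.1)) := by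
  obtain ⟨C0, hC0, h⟩ := rest_energy
  refine ⟨C0, hC0, ?_⟩
  intro R J hR c K α β γ hC s ε D hε hD0 hD th Ht t1 n hth hHt hthH hsupp X A hX w0 N W1 hW Xf Yf
  refine le_trans ?_ (h R J hR c K α β γ hC s ε D hε hD0 hD th Ht t1 n hth hHt hthH hsupp X A hX w0 N
    Xf Yf)
  refine (Finset.sum_le_sum_of_subset_of_nonneg hW fun w _ _ =>
    Finset.sum_nonneg fun x _ => Finset.sum_nonneg fun y _ => ?_).trans (le_of_eq ?_)
  · split_ifs
    · exact mul_nonneg (hth _) (sq_nonneg _)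
    · exact le_rfl
  · rfl

open Classical in
/-- **(iii) ENERGIES OF THE MASKED LINE LETTERS ON THE REST.** -/
theorem rest_AB : ∃ C0 : ℝ, 0 ≤ C0 ∧ ∀ (k k0 k1 k2 : Fin 4), D4 k k0 k1 k2 →
    ∀ (R : Finset Nd) (J : Nd), Full R J →
    ∀ (c : ℤ → ℤ → ℂ) (K : Fn) (s ε D : ℝ), 0 < ε → 0 ≤ D →
    ExD R c K (sl k - sl k1) (sl k2 - sl k1) (sl k0 - sl k1) s D →
    ∀ (th : ℤ → ℝ) (Ht Hf : ℝ) (t1 : ℤ) (n : ℕ), (∀ z, 0 ≤ th z) → 1 ≤ Ht → 0 ≤ Hf →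
    (∀ z, th z ≤ Ht) → (∀ z, th z ≠ 0 → t1 ≤ z ∧ z < t1 + n) →
    ∀ (F : Fin 4 → Fn) (w0 : ℤ) (N : ℕ) (W1 : Finset ℤ), W1 ⊆ Ico w0 (w0 + N) →
    (∀ (T0 T1 : Finset ℤ) (a : ℤ → ℤ → ℂ) (A : ℝ), (∀ z0 z1, ‖a z0 z1‖ ^ 2 ≤ Hf * th z1) →
      (∀ p ∈ R, av p (F k2) ≤ A) → ∀ (Xf Yf : Finset ℤ),
      ∑ w ∈ W1, ∑ z0 ∈ Xf, ∑ z1 ∈ Yf,
        (if RsP R J c K (sl k - sl k1) (sl k2 - sl k1) (sl k0 - sl k1) s ε w (-w - z0 - z1) z0 then
          ‖kA k k0 k1 k2 T0 T1 a F w z0 z1‖ ^ 2 else 0) ≤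
      Hf * (C0 * A ^ 2 * (D / ε) * Ht ^ (1 / 3 : ℝ) * ((N + 2 ^ J.1) * 2 ^ J.1 *
        (∑ z ∈ Ico t1 (t1 + n), th z + n + 2 ^ J.1)))) ∧
    (∀ (T1 T2 : Finset ℤ) (b : ℤ → ℤ → ℂ) (A : ℝ), (∀ z1 z2, ‖b z1 z2‖ ^ 2 ≤ Hf * th z1) →
      (∀ p ∈ R, av p (F k0) ≤ A) → ∀ (Xf Yf : Finset ℤ),
      ∑ w ∈ W1, ∑ z1 ∈ Xf, ∑ z2 ∈ Yf,
        (if RsP R J c K (sl k - sl k1) (sl k2 - sl k1) (sl k0 - sl k1) s ε w z2 (-w - z1 - z2) then
          ‖kB k k0 k1 k2 T1 T2 b F w z1 z2‖ ^ 2 else 0) ≤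
      Hf * (C0 * A ^ 2 * (D / ε) * Ht ^ (1 / 3 : ℝ) * ((N + 2 ^ J.1) * 2 ^ J.1 *
        (∑ z ∈ Ico t1 (t1 + n), th z + n + 2 ^ J.1)))) := by
  obtain ⟨C0, hC0, h⟩ := rest_face
  refine ⟨C0, hC0, ?_⟩
  intro k k0 k1 k2 hk R J hR c K s ε D hε hD0 hD th Ht Hf t1 n hth hHt hHf hthH hsupp F w0 N W1 hW
  have hC := hk.cof
  set α := sl k - sl k1 with hα
  set β := sl k2 - sl k1 with hβ
  set γ := sl k0 - sl k1 with hγ
  constructor
  · intro T0 T1 a A ha hA Xf Yf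
    set G : ℤ → ℤ → ℤ → ℝ := fun w x y => if RsP R J c K α β γ s ε w x y then
      th (-w - x - y) * ‖F k2 (α * w + β * x + γ * y)‖ ^ 2 else 0 with hG
    have hG0 : ∀ w x y, 0 ≤ G w x y := by
      intro w x y
      rw [hG]; simp only
      split_ifs
      · exact mul_nonneg (hth _) (sq_nonneg _)
      · exact le_rfl
    set P : Finset ℤ := ((W1 ×ˢ Xf) ×ˢ Yf).image (fun t => -t.1.1 - t.1.2 - t.2) with hP
    have h1 : ∀ w ∈ W1, ∀ z0 ∈ Xf, ∀ z1 ∈ Yf,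
        (if RsP R J c K α β γ s ε w (-w - z0 - z1) z0 then
          ‖kA k k0 k1 k2 T0 T1 a F w z0 z1‖ ^ 2 else 0) ≤ Hf * G w (-w - z0 - z1) z0 := by
      intro w _ z0 _ z1 _
      rw [hG]; simp only
      split_ifs with hr
      swap
      · rw [mul_zero]
      rw [show -w - (-w - z0 - z1) - z0 = z1 by ring]
      have e : sha k k1 k2 k0 w (-w - z0 - z1) z0 = α * w + β * (-w - z0 - z1) + γ * z0 := rfl
      rw [← e, ← sha_zero]
      unfold kA fr4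
      split_ifs
      · rw [norm_mul, mul_pow, ← mul_assoc]
        exact mul_le_mul_of_nonneg_right (ha z0 z1) (sq_nonneg _)
      · rw [norm_zero, zero_pow (by norm_num)]
        exact mul_nonneg hHf (mul_nonneg (hth _) (sq_nonneg _))
    have h2 : ∀ w ∈ W1, ∀ z0 ∈ Xf, ∑ z1 ∈ Yf, Hf * G w (-w - z0 - z1) z0 ≤
        Hf * ∑ x ∈ P, G w x z0 := by
      intro w hw z0 hz0
      rw [← Finset.mul_sum]
      refine mul_le_mul_of_nonneg_left ?_ hHf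
      have hinj : Set.InjOn (fun z1 : ℤ => -w - z0 - z1) (Yf : Set ℤ) := by
        intro z _ z' _ hz
        have : -w - z0 - z = -w - z0 - z' := hz
        linarith
      rw [← Finset.sum_image (f := fun x => G w x z0) hinj]
      refine Finset.sum_le_sum_of_subset_of_nonneg ?_ fun _ _ _ => hG0 _ _ _
      intro x hx
      rw [Finset.mem_image] at hx
      obtain ⟨z1, hz1, rfl⟩ := hx
      rw [hP, Finset.mem_image]
      exact ⟨((w, z0), z1), Finset.mem_product.2 ⟨Finset.mem_product.2 ⟨hw, hz0⟩, hz1⟩, rfl⟩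
    refine (Finset.sum_le_sum fun w hw => Finset.sum_le_sum fun z0 hz0 =>
      (Finset.sum_le_sum fun z1 hz1 => h1 w hw z0 hz0 z1 hz1).trans (h2 w hw z0 hz0)).trans ?_
    have h3 := h R J hR c K α β γ hC s ε D hε hD0 hD th Ht t1 n hth hHt hthH hsupp (F k2) A hA w0 N W1 hW
      P Xf
    refine le_trans (le_of_eq ?_) (mul_le_mul_of_nonneg_left h3 hHf)
    rw [Finset.mul_sum]
    refine Finset.sum_congr rfl fun w _ => ?_
    rw [← Finset.mul_sum, Finset.sum_comm]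
  · intro T1 T2 b A hb hA Xf Yf
    set G : ℤ → ℤ → ℤ → ℝ := fun w x y => if RsP R J c K α β γ s ε w x y then
      th (-w - x - y) * ‖F k0 (α * w + β * x + γ * y)‖ ^ 2 else 0 with hG
    have hG0 : ∀ w x y, 0 ≤ G w x y := by
      intro w x y
      rw [hG]; simp only
      split_ifs
      · exact mul_nonneg (hth _) (sq_nonneg _)
      · exact le_rfl
    set P : Finset ℤ := ((W1 ×ˢ Xf) ×ˢ Yf).image (fun t => -t.1.1 - t.1.2 - t.2) with hP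
    have h1 : ∀ w ∈ W1, ∀ z1 ∈ Xf, ∀ z2 ∈ Yf,
        (if RsP R J c K α β γ s ε w z2 (-w - z1 - z2) then
          ‖kB k k0 k1 k2 T1 T2 b F w z1 z2‖ ^ 2 else 0) ≤ Hf * G w z2 (-w - z1 - z2) := by
      intro w _ z1 _ z2 _
      rw [hG]; simp only
      split_ifs with hr
      swap
      · rw [mul_zero]
      rw [show -w - z2 - (-w - z1 - z2) = z1 by ring]
      have e : sha k k1 k2 k0 w z2 (-w - z1 - z2) = α * w + β * z2 + γ * (-w - z1 - z2) := rfl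
      rw [← e, ← sha_zero']
      unfold kB fr4
      split_ifs
      · rw [norm_mul, mul_pow, ← mul_assoc]
        exact mul_le_mul_of_nonneg_right (hb z1 z2) (sq_nonneg _)
      · rw [norm_zero, zero_pow (by norm_num)]
        exact mul_nonneg hHf (mul_nonneg (hth _) (sq_nonneg _))
    have h2 : ∀ w ∈ W1, ∀ z2 ∈ Yf, ∑ z1 ∈ Xf, Hf * G w z2 (-w - z1 - z2) ≤
        Hf * ∑ y ∈ P, G w z2 y := by
      intro w hw z2 hz2
      rw [← Finset.mul_sum]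
      refine mul_le_mul_of_nonneg_left ?_ hHf
      have hinj : Set.InjOn (fun z1 : ℤ => -w - z1 - z2) (Xf : Set ℤ) := by
        intro z _ z' _ hz
        have : -w - z - z2 = -w - z' - z2 := hz
        linarith
      rw [← Finset.sum_image (f := fun y => G w z2 y) hinj]
      refine Finset.sum_le_sum_of_subset_of_nonneg ?_ fun _ _ _ => hG0 _ _ _
      intro x hx
      rw [Finset.mem_image] at hx
      obtain ⟨z1, hz1, rfl⟩ := hx
      rw [hP, Finset.mem_image]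
      exact ⟨((w, z1), z2), Finset.mem_product.2 ⟨Finset.mem_product.2 ⟨hw, hz1⟩, hz2⟩, rfl⟩
    have h4 : ∀ w ∈ W1, ∑ z1 ∈ Xf, ∑ z2 ∈ Yf,
        (if RsP R J c K α β γ s ε w z2 (-w - z1 - z2) then
          ‖kB k k0 k1 k2 T1 T2 b F w z1 z2‖ ^ 2 else 0) ≤ Hf * ∑ z2 ∈ Yf, ∑ y ∈ P, G w z2 y := by
      intro w hw
      rw [Finset.sum_comm, Finset.mul_sum]
      exact Finset.sum_le_sum fun z2 hz2 =>
        (Finset.sum_le_sum fun z1 hz1 => h1 w hw z1 hz1 z2 hz2).trans (h2 w hw z2 hz2)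
    refine (Finset.sum_le_sum h4).trans ?_
    rw [← Finset.mul_sum]
    exact mul_le_mul_of_nonneg_left (h R J hR c K α β γ hC s ε D hε hD0 hD th Ht t1 n hth hHt hthH
      hsupp (F k0) A hA w0 N W1 hW Yf P) hHf

end Crest.Agent.R079.KLrx138
end

-- ▼ part R079/KLg_446

/-! R079, KILL LEMMA, final part (helper446): **`killN`** = 276's `KillN Φ` with
`Φ = C ((1 + log (1 + H⁴ Hf Ht / s²)) s + (1 + log (1 + 5 H⁴ Ht / D)) Hf D Ht^(1/3) / s²)`. -/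

set_option autoImplicit false

namespace Crest.Agent.R079.KLx446

open Finset Crest.Agent.R079.Grid Crest.Agent.R079.Glue Crest.Agent.R079.Growth
  Crest.Agent.R079.QRed Crest.Agent.R079.BadTx138 Crest.Agent.R079.KC996 Crest.Agent.R079.KLdx138
  Crest.Agent.R079.TwLx253 Crest.Agent.R079.KLX279

lemma av_cutJ {J p : Nd} (h : iv p ⊆ iv J) (F : Fn) : av p (cutJ J F) = av p F := by
  unfold av av2
  congr 2
  refine Finset.sum_congr rfl fun y hy => ?_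
  rw [cutJ_on (h hy)]

open Classical in
/-- masked gauge -/
noncomputable def mg (T T' : Finset ℤ) (c : ℤ → ℤ → ℂ) (x y : ℤ) : ℂ :=
  if x ∈ T ∧ y ∈ T' then c x y else 0

lemma mg_le {T T' : Finset ℤ} {c : ℤ → ℤ → ℂ} (h : ∀ x y, ‖c x y‖ ≤ 1) (x y : ℤ) :
    ‖mg T T' c x y‖ ≤ 1 := by
  unfold mg
  split_ifs
  · exact h x y
  · simp

lemma fr4_eq_kw (T T' : Finset ℤ) (c : ℤ → ℤ → ℂ) (K : Fn) (α β γ w x y : ℤ) :
    fr4 T T' c K α β γ w x y = kw (mg T T' c) K α β γ w x y := by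
  unfold fr4 kw mg
  split_ifs <;> simp

/-- the main part: the words of one atom -/
theorem kill_words : ∃ C : ℝ, 0 ≤ C ∧ ∀ (k k0 k1 k2 : Fin 4), D4 k k0 k1 k2 →
    ∀ (R : Finset Nd) (J : Nd), Full R J → ∀ (F : Fin 4 → Fn) (s D Ht Hf H : ℝ),
    0 < s → s ≤ 1 → 0 < D → D ≤ 1 → 1 ≤ Ht → 1 ≤ Hf → 1 ≤ H →
    (∀ j, j ≠ k → ∀ p ∈ R, av p (F j) ≤ 1) → (∀ j, j ≠ k → ∀ y, ‖F j y‖ ≤ H) →
    ∀ (T0 T1 T2 : Finset ℤ) (a b c : ℤ → ℤ → ℂ) (th : ℤ → ℝ),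
    OpK (2 ^ J.1) Ht Hf T0 T1 T2 a b c th →
    ExD R (mg T2 T0 c) (F k1) (sl k - sl k1) (sl k2 - sl k1) (sl k0 - sl k1) s D →
    ∀ l : ℤ, |l| ≤ 7 → ∀ (σ0 σ1 σ2 : Bool) (Wf : Finset ℤ) (L1 : ℕ),
      ∑ w ∈ Wf, Tw (fun m' p0 p1 p2 => Gd k k0 k1 k2 R m' w p0 p1 p2)
        (fun z z' => pr σ0 (fr4 T0 T1 a (cutJ J (F k2)) (sl k - sl k2) (sl k0 - sl k2)
          (sl k1 - sl k2) w z z'))
        (fun z z' => pr σ1 (fr4 T1 T2 b (cutJ J (F k0)) (sl k - sl k0) (sl k1 - sl k0)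
          (sl k2 - sl k0) w z z'))
        (fun z z' => pr σ2 (fr4 T2 T0 c (cutJ J (F k1)) (sl k - sl k1) (sl k2 - sl k1)
          (sl k0 - sl k1) w z z')) (J.1 + 1) L1 l w ≤
      C * (((1 + Real.log (1 + H ^ 4 * Hf * Ht / s ^ 2)) * s +
        (1 + Real.log (1 + 5 * H ^ 4 * Ht / D)) * (Hf * D * Ht ^ (1 / 3 : ℝ) / s ^ 2)) *
        ((2 : ℝ) ^ J.1) ^ 3) := by
  classical
  obtain ⟨K1, hK1, hgood⟩ := good_words
  obtain ⟨K2, hK2, hrest⟩ := rest_words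
  obtain ⟨C0, hC0, hAB⟩ := KLrx138.rest_AB
  refine ⟨K1 * (251 * 399) + K2 * (16 * (816 * C0 + 271)), by positivity, ?_⟩
  intro k k0 k1 k2 h4 R J hR F s D Ht Hf H hs hs1 hD hD1 hHt hHf hH hav hFH T0 T1 T2 a b c th hO hE
    l hl σ0 σ1 σ2 Wf L1
  set α := sl k - sl k1 with hα
  set β := sl k2 - sl k1 with hβ
  set γ := sl k0 - sl k1 with hγ
  have hsub : ∀ p ∈ R, iv p ⊆ iv J := fun p hp => hR.reg.1 p hp
  have hJR : J ∈ R := hR.top
  set n : ℝ := (2 : ℝ) ^ J.1 with hn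
  have hn0 : 0 < n := by positivity
  have hlen : len J = 128 * n := by unfold len; rw [pow_add]; norm_num; ring
  set F' : Fin 4 → Fn := fun j => cutJ J (F j) with hF'
  have hF'av : ∀ j, j ≠ k → ∀ p ∈ R, av p (F' j) ≤ 1 := fun j hj p hp => by
    simp only [hF']
    rw [av_cutJ (hsub p hp)]
    exact hav j hj p hp
  have hF'H : ∀ j, j ≠ k → ∀ y, ‖F' j y‖ ≤ H := fun j hj y => norm_cutJ_le.trans (hFH j hj y)
  have hF'0 : ∀ j, ∀ y, y ∉ iv J → F' j y = 0 := fun j y hy => cutJ_off hy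
  set c' := mg T2 T0 c with hc'
  have hE' : ExD R c' (F' k1) α β γ s D := exD_congr (fun p hp y hy => by
    simp only [hF']
    rw [cutJ_on (hsub p hp hy)]) hE
  set A : ℤ → ℤ → ℤ → ℝ := fun w z z' => pr σ0 (fr4 T0 T1 a (F' k2) (sl k - sl k2) (sl k0 - sl k2)
          (sl k1 - sl k2) w z z') with hA
  set B : ℤ → ℤ → ℤ → ℝ := fun w z z' => pr σ1 (fr4 T1 T2 b (F' k0) (sl k - sl k0) (sl k1 - sl k0)
          (sl k2 - sl k0) w z z') with hB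
  obtain ⟨q0, hq0⟩ := hO.i0
  obtain ⟨q1, hq1⟩ := hO.i1
  obtain ⟨q2, hq2⟩ := hO.i2
  -- supports
  have hcs : ∀ x y, c' x y ≠ 0 → q2 ≤ x ∧ x < q2 + 2 ^ J.1 ∧ q0 ≤ y ∧ y < q0 + 2 ^ J.1 := by
    intro x y h
    rw [hc'] at h
    unfold mg at h
    by_cases hm : x ∈ T2 ∧ y ∈ T0
    · have h1 := hm.1
      have h2 := hm.2
      rw [hq2, Finset.mem_Ico] at h1
      rw [hq0, Finset.mem_Ico] at h2
      push_cast at h1 h2
      exact ⟨h1.1, h1.2, h2.1, h2.2⟩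
    · rw [if_neg hm] at h
      exact absurd rfl h
  have hc1 : ∀ x y, ‖c' x y‖ ≤ 1 := mg_le hO.c1
  have hprz : ∀ σ : Bool, pr σ (0 : ℂ) = 0 := fun σ => by unfold pr; split_ifs <;> simp
  have hAfs : ∀ w, FS (A w) := fun w => fs_of_mem (T := T0) (T' := T1) fun x y hxy => by
    refine supp_line (a := a) (F := F' k2) (al := sl k - sl k2) (be := sl k0 - sl k2)
      (ga := sl k1 - sl k2) (w := w) fun h0 => hxy ?_
    simp only [hA]
    rw [h0, hprz]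
  have hBfs : ∀ w, FS (B w) := fun w => fs_of_mem (T := T1) (T' := T2) fun x y hxy => by
    refine supp_line (a := b) (F := F' k0) (al := sl k - sl k0) (be := sl k1 - sl k0)
      (ga := sl k2 - sl k0) (w := w) fun h0 => hxy ?_
    simp only [hB]
    rw [h0, hprz]
  -- sup
  have hH0 : 0 ≤ H := by linarith
  have hHf0 : 0 ≤ Hf := by linarith
  set HA : ℝ := √(Hf * Ht) * H with hHA
  have hHA2 : HA ^ 2 = H ^ 2 * Hf * Ht := by
    rw [hHA, mul_pow, Real.sq_sqrt (by positivity)]; ring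
  have hAs : ∀ w x y, |A w x y| ≤ HA := fun w x y =>
    (abs_pr_le _ _).trans (sup_line (Real.sqrt_nonneg _) hH0
      (fun z _ z' _ => Real.le_sqrt_of_sq_le (hO.a_sup hHf0 z z')) (hF'H k2 h4.h2.symm) _ _ _)
  have hBs : ∀ w x y, |B w x y| ≤ HA := fun w x y =>
    (abs_pr_le _ _).trans (sup_line (Real.sqrt_nonneg _) hH0
      (fun z _ z' _ => Real.le_sqrt_of_sq_le (hO.b_sup hHf0 z z')) (hF'H k0 h4.h0.symm) _ _ _)
  -- frozen values
  obtain ⟨w0, hw0⟩ := fr4_w (T := T0) (T' := T1) (a := a) (F := F' k2) (J := J)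
    (α := sl k - sl k2) (β := sl k0 - sl k2) (γ := sl k1 - sl k2) (hF'0 k2)
    ((sl_facts _ _).1 h4.h2) (sl_facts _ _).2 (sl_facts _ _).2 (t := q0) (t' := q1)
    (by rw [hq0]; push_cast; exact le_rfl) (by rw [hq1]; push_cast; exact le_rfl)
  set W1 : Finset ℤ := Ico w0 (w0 + ((271 * 2 ^ J.1 : ℕ) : ℤ)) with hW1
  have hW1c : (W1.card : ℝ) = 271 * n := by
    rw [hW1, Int.card_Ico, add_sub_cancel_left, Int.toNat_natCast]
    push_cast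
    rfl
  have h0 : ∀ w, w ∉ W1 → (∀ x y, A w x y = 0) ∨ (∀ x y, B w x y = 0) := fun w hw =>
    Or.inl fun x y => by
      simp only [hA]
      rw [hw0 w hw, hprz]
  -- energies
  have hn2 : ((2 ^ J.1 : ℕ) : ℝ) = n := by push_cast; rfl
  have hXe : ∀ j, j ≠ k → ∑ y ∈ iv J, ‖F' j y‖ ^ 2 ≤ 128 * n := fun j hj => by
    refine (sum_sq_av (hF'av j hj J hJR)).trans (le_of_eq ?_)
    rw [hlen]; ring
  have hEA : ∀ X Y : Finset ℤ, ∑ w ∈ W1, ∑ x ∈ X, ∑ y ∈ Y, A w x y ^ 2 ≤ 128 * n ^ 3 := fun X Y => by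
    refine (en_line_pr (T := T0) (T' := T1) (a := a) (be := sl k0 - sl k2) (ga := sl k1 - sl k2)
      ((sl_facts _ _).1 h4.h2) (hF'0 k2) σ0 W1 X Y).trans ?_
    have h1 := hO.a_all
    rw [hn2] at h1
    calc _ ≤ n ^ 2 * (128 * n) := mul_le_mul h1 (hXe k2 h4.h2.symm)
          (Finset.sum_nonneg fun _ _ => sq_nonneg _) (by positivity)
      _ = _ := by ring
  have hEB : ∀ X Y : Finset ℤ, ∑ w ∈ W1, ∑ x ∈ X, ∑ y ∈ Y, B w x y ^ 2 ≤ 128 * n ^ 3 := fun X Y => by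
    refine (en_line_pr (T := T1) (T' := T2) (a := b) (be := sl k1 - sl k0) (ga := sl k2 - sl k0)
      ((sl_facts _ _).1 h4.h0) (hF'0 k0) σ1 W1 X Y).trans ?_
    have h1 := hO.b_all
    rw [hn2] at h1
    calc _ ≤ n ^ 2 * (128 * n) := mul_le_mul h1 (hXe k0 h4.h0.symm)
          (Finset.sum_nonneg fun _ _ => sq_nonneg _) (by positivity)
      _ = _ := by ring
  have hcard : ((Ico (q2 - 2 ^ (J.1 + 1)) (q2 + 2 ^ J.1 + 2 ^ (J.1 + 1))).card : ℝ) = 5 * n := by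
    rw [Int.card_Ico, show q2 + 2 ^ J.1 + 2 ^ (J.1 + 1) - (q2 - 2 ^ (J.1 + 1)) =
      ((5 * 2 ^ J.1 : ℕ) : ℤ) by push_cast; rw [pow_succ]; ring, Int.toNat_natCast]
    push_cast
    rfl
  -- the killer
  have hCeq : ∀ w, (fun z z' => pr σ2 (fr4 T2 T0 c (F' k1) α β γ w z z')) =
      fun z z' => pr σ2 (kw c' (F' k1) α β γ w z z') := fun w => by
    funext z z'
    rw [fr4_eq_kw]
  -- GOOD
  have hG : ∑ w ∈ Wf, Tw (fun m p0 p1 p2 => Gd k k0 k1 k2 R m w p0 p1 p2 ∧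
      GoodB R J c' (F' k1) α β γ s (s ^ 2) w m p0 p2) (A w) (B w)
      (fun z z' => pr σ2 (kw c' (F' k1) α β γ w z z')) (J.1 + 1) L1 l w ≤
      K1 * (1 + Real.log (1 + H ^ 4 * Hf * Ht / s ^ 2)) * (251 * s * (399 * n ^ 3)) := by
    have hτ : 81 * s + 170 * 1 * √(s ^ 2) = 251 * s := by
      rw [Real.sqrt_sq hs.le]; ring
    have h1 := hgood l hl k k0 k1 k2 h4 R J hR c' (F' k1) q2 (q2 + 2 ^ J.1) q0 (q0 + 2 ^ J.1) hc1
      hcs s (s ^ 2) 1 hs.le (sq_nonneg _) zero_le_one (by rw [hτ]; positivity)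
      (hF'av k1 h4.h1.symm) H (hF'H k1 h4.h1.symm) σ2 A B HA HA (n ^ 2) (n ^ 2) (128 * n ^ 3)
      (128 * n ^ 3) W1 hAfs hBfs (by positivity) (by positivity) hAs hBs h0 hEA hEB Wf L1
    refine h1.trans ?_
    rw [hτ, hcard, hW1c, hlen, hHA2]
    have e1 : 128 * n ^ 3 + 271 * n * n ^ 2 = 399 * n ^ 3 := by ring
    rw [e1]
    have e2 : 251 * s * √(399 * n ^ 3) * √(399 * n ^ 3) = 251 * s * (399 * n ^ 3) := by
      rw [mul_assoc, Real.mul_self_sqrt (by positivity)]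
    rw [e2]
    refine mul_le_mul_of_nonneg_right ?_ (by positivity)
    refine mul_le_mul_of_nonneg_left ?_ hK1
    refine add_le_add le_rfl (Real.log_le_log (by positivity) ?_)
    refine add_le_add le_rfl ?_
    have e3 : H ^ 2 * (5 * n * (128 * n)) * (H ^ 2 * Hf * Ht / n ^ 2 + H ^ 2 * Hf * Ht / n ^ 2) /
        (251 * s) ^ 2 = (1280 / 63001) * (H ^ 4 * Hf * Ht / s ^ 2) := by
      field_simp
      ring
    rw [e3]
    have h5 : 0 ≤ H ^ 4 * Hf * Ht / s ^ 2 := by positivity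
    linarith
  -- REST
  set ρ : ℝ := Hf * D * Ht ^ (1 / 3 : ℝ) / s ^ 2 with hρ
  have hHt3 : 1 ≤ Ht ^ (1 / 3 : ℝ) := Real.one_le_rpow hHt (by norm_num)
  have hρ0 : 0 < ρ := by positivity
  have hAB' := hAB k k0 k1 k2 h4 R J hR c' (F' k1) s (s ^ 2) D (by positivity) hD.le hE' th Ht Hf q1
    (2 ^ J.1) hO.th0 hHt hHf0 hO.thH (fun z hz => by
      by_contra hcon
      refine hz (hO.ths z fun hm => hcon ?_)
      rw [hq1, Finset.mem_Ico] at hm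
      exact hm) F' w0 (271 * 2 ^ J.1) W1 le_rfl
  have hbd : Hf * (C0 * 1 ^ 2 * (D / s ^ 2) * Ht ^ (1 / 3 : ℝ) *
      ((((271 * 2 ^ J.1 : ℕ) : ℝ) + 2 ^ J.1) * 2 ^ J.1 *
      (∑ z ∈ Ico q1 (q1 + ((2 ^ J.1 : ℕ) : ℤ)), th z + ((2 ^ J.1 : ℕ) : ℝ) + 2 ^ J.1))) ≤
      816 * C0 * ρ * n ^ 3 := by
    have h1 : ∑ z ∈ Ico q1 (q1 + ((2 ^ J.1 : ℕ) : ℤ)), th z ≤ n := by
      have := hO.thS
      rw [hq1, hn2] at this
      exact this
    have e1 : ((271 * 2 ^ J.1 : ℕ) : ℝ) = 271 * n := by push_cast; rfl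
    rw [e1, hn2, ← hn]
    have h2 : (271 * n + n) * n * (∑ z ∈ Ico q1 (q1 + ((2 ^ J.1 : ℕ) : ℤ)), th z + n + n) ≤
        816 * n ^ 3 := by
      calc _ ≤ (271 * n + n) * n * (n + n + n) := by
            refine mul_le_mul_of_nonneg_left ?_ (by positivity)
            linarith
        _ = _ := by ring
    calc _ ≤ Hf * (C0 * 1 ^ 2 * (D / s ^ 2) * Ht ^ (1 / 3 : ℝ) * (816 * n ^ 3)) := by
          refine mul_le_mul_of_nonneg_left ?_ hHf0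
          exact mul_le_mul_of_nonneg_left h2 (by positivity)
      _ = _ := by rw [hρ]; ring
  have hRA : ∀ X Y : Finset ℤ, ∑ w ∈ W1, ∑ x ∈ X, ∑ y ∈ Y,
      (if RsP R J c' (F' k1) α β γ s (s ^ 2) w (-w - x - y) x then A w x y ^ 2 else 0) ≤
      816 * C0 * ρ * n ^ 3 := by
    intro X Y
    refine le_trans ?_ ((hAB'.1 T0 T1 a 1 hO.aH (hF'av k2 h4.h2.symm) X Y).trans hbd)
    refine Finset.sum_le_sum fun w _ => Finset.sum_le_sum fun x _ => Finset.sum_le_sum fun y _ => ?_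
    split_ifs
    · rw [← sq_abs]
      exact pow_le_pow_left₀ (abs_nonneg _) (abs_pr_le _ _) 2
    · exact le_rfl
  have hRB : ∀ X Y : Finset ℤ, ∑ w ∈ W1, ∑ x ∈ X, ∑ y ∈ Y,
      (if RsP R J c' (F' k1) α β γ s (s ^ 2) w y (-w - x - y) then B w x y ^ 2 else 0) ≤
      816 * C0 * ρ * n ^ 3 := by
    intro X Y
    refine le_trans ?_ ((hAB'.2 T1 T2 b 1 hO.bH (hF'av k0 h4.h0.symm) X Y).trans hbd)
    refine Finset.sum_le_sum fun w _ => Finset.sum_le_sum fun x _ => Finset.sum_le_sum fun y _ => ?_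
    split_ifs
    · rw [← sq_abs]
      exact pow_le_pow_left₀ (abs_nonneg _) (abs_pr_le _ _) 2
    · exact le_rfl
  have hRr : ∑ w ∈ Wf, Tw (fun m p0 p1 p2 => Gd k k0 k1 k2 R m w p0 p1 p2 ∧
      ¬ GoodB R J c' (F' k1) α β γ s (s ^ 2) w m p0 p2) (A w) (B w)
      (fun z z' => pr σ2 (kw c' (F' k1) α β γ w z z')) (J.1 + 1) L1 l w ≤
      K2 * (1 + Real.log (1 + 5 * H ^ 4 * Ht / D)) * (16 * ((816 * C0 + 271) * ρ * n ^ 3)) := by
    have h1 := hrest l hl k k0 k1 k2 h4 R J hR c' (F' k1) q2 (q2 + 2 ^ J.1) q0 (q0 + 2 ^ J.1) hc1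
      hcs s (s ^ 2) 16 (by norm_num) (fun w m q u hOm => by
        have := KLrx138.op_om h4.cof (hF'av k1 h4.h1.symm) hc1 hOm
        rw [mul_one] at this
        exact this) H (hF'H k1 h4.h1.symm) σ2 A B HA HA (ρ * n ^ 2) (ρ * n ^ 2)
      (816 * C0 * ρ * n ^ 3) (816 * C0 * ρ * n ^ 3) W1 hAfs hBfs (by positivity) (by positivity)
      hAs hBs h0 hRA hRB Wf L1
    refine h1.trans ?_
    rw [hcard, hW1c, hlen, hHA2]
    have e1 : 816 * C0 * ρ * n ^ 3 + 271 * n * (ρ * n ^ 2) = (816 * C0 + 271) * ρ * n ^ 3 := by ring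
    rw [e1]
    have e2 : 16 * √((816 * C0 + 271) * ρ * n ^ 3) * √((816 * C0 + 271) * ρ * n ^ 3) =
        16 * ((816 * C0 + 271) * ρ * n ^ 3) := by
      rw [mul_assoc, Real.mul_self_sqrt (by positivity)]
    rw [e2]
    refine mul_le_mul_of_nonneg_right ?_ (by positivity)
    refine mul_le_mul_of_nonneg_left ?_ hK2
    refine add_le_add le_rfl (Real.log_le_log (by positivity) ?_)
    refine add_le_add le_rfl ?_
    have e3 : H ^ 2 * (5 * n * (128 * n)) * (H ^ 2 * Hf * Ht / (ρ * n ^ 2) +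
        H ^ 2 * Hf * Ht / (ρ * n ^ 2)) / 16 ^ 2 = 5 * H ^ 4 * (Hf * Ht / ρ) := by
      field_simp
      ring
    rw [e3, show 5 * H ^ 4 * Ht / D = 5 * H ^ 4 * (Ht / D) by ring]
    refine mul_le_mul_of_nonneg_left ?_ (by positivity)
    rw [div_le_div_iff₀ hρ0 hD]
    -- `Hf Ht D ≤ Ht ρ`
    have h5 : Hf * D ≤ ρ := by
      rw [hρ, le_div_iff₀ (by positivity)]
      calc Hf * D * s ^ 2 ≤ Hf * D * 1 := by
            refine mul_le_mul_of_nonneg_left ?_ (by positivity)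
            exact pow_le_one₀ hs.le hs1
        _ ≤ Hf * D * Ht ^ (1 / 3 : ℝ) := mul_le_mul_of_nonneg_left hHt3 (by positivity)
    calc Hf * Ht * D = Ht * (Hf * D) := by ring
      _ ≤ Ht * ρ := mul_le_mul_of_nonneg_left h5 (by linarith)
  -- sum
  have hsplit : ∑ w ∈ Wf, Tw (fun m' p0 p1 p2 => Gd k k0 k1 k2 R m' w p0 p1 p2) (A w) (B w)
      (fun z z' => pr σ2 (fr4 T2 T0 c (F' k1) α β γ w z z')) (J.1 + 1) L1 l w ≤
      K1 * (1 + Real.log (1 + H ^ 4 * Hf * Ht / s ^ 2)) * (251 * s * (399 * n ^ 3)) +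
      K2 * (1 + Real.log (1 + 5 * H ^ 4 * Ht / D)) * (16 * ((816 * C0 + 271) * ρ * n ^ 3)) := by
    refine le_trans ?_ (add_le_add hG hRr)
    rw [← Finset.sum_add_distrib]
    refine Finset.sum_le_sum fun w _ => ?_
    rw [hCeq w]
    refine Tw_split _ _ _ _ _ _ _ fun m p0 p1 p2 hg => ?_
    by_cases hgd : GoodB R J c' (F' k1) α β γ s (s ^ 2) w m p0 p2
    · exact Or.inl ⟨hg, hgd⟩
    · exact Or.inr ⟨hg, hgd⟩
  refine hsplit.trans ?_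
  have hl1 : 0 ≤ Real.log (1 + H ^ 4 * Hf * Ht / s ^ 2) := Real.log_nonneg (by
    have : 0 ≤ H ^ 4 * Hf * Ht / s ^ 2 := by positivity
    linarith)
  have hl2 : 0 ≤ Real.log (1 + 5 * H ^ 4 * Ht / D) := Real.log_nonneg (by
    have : 0 ≤ 5 * H ^ 4 * Ht / D := by positivity
    linarith)
  set La := 1 + Real.log (1 + H ^ 4 * Hf * Ht / s ^ 2) with hLa
  set Lb := 1 + Real.log (1 + 5 * H ^ 4 * Ht / D) with hLb
  have hLa0 : 0 ≤ La := by linarith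
  have hLb0 : 0 ≤ Lb := by linarith
  have t1 : 0 ≤ K1 * (251 * 399) * (Lb * ρ * n ^ 3) := by positivity
  have t2 : 0 ≤ K2 * (16 * (816 * C0 + 271)) * (La * s * n ^ 3) := by positivity
  nlinarith [t1, t2]

/-- **THE KILL LEMMA** in 276's literal -/
theorem killN : ∃ C : ℝ, 0 ≤ C ∧ OpK276.KillN (fun s D Ht Hf H =>
    C * ((1 + Real.log (1 + H ^ 4 * Hf * Ht / s ^ 2)) * s +
      (1 + Real.log (1 + 5 * H ^ 4 * Ht / D)) * (Hf * D * Ht ^ (1 / 3 : ℝ) / s ^ 2))) := by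
  obtain ⟨C, hC, hmain⟩ := kill_words
  refine ⟨C / 16, by positivity, ?_⟩
  intro i m e e' hi hm hd bb ε hA W I hW F s D Ht Hf H hs hs1 hD hD1 hHt hHf hH ψ hψ hFi hav hFH hE
  set n : ℝ := (2 : ℝ) ^ I.1 with hn
  have hn0 : 0 < n := by positivity
  have hlen : len I = 128 * n := by unfold len; rw [pow_add]; norm_num; ring
  set Q : ℝ := (1 + Real.log (1 + H ^ 4 * Hf * Ht / s ^ 2)) * s +
      (1 + Real.log (1 + 5 * H ^ 4 * Ht / D)) * (Hf * D * Ht ^ (1 / 3 : ℝ) / s ^ 2) with hQ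
  have h1 := TR_opS (κ := 1 / n ^ 2) hd (by linarith) (by linarith) (C * (Q * n ^ 3)) hA hW.reg F
    (by positivity) hψ (fun y hy => by
      rw [hFi y hy, hn]
      push_cast
      ring) (fun T0 T1 T2 a b c th hO l hl σ0 σ1 σ2 Wf L1 =>
      hmain i e' m e (d4_of hd) W I hW F s D Ht Hf H hs hs1 hD hD1 hHt hHf hH hav hFH T0 T1 T2 a b c
        th hO (hE _ (mg_le hO.c1)) l hl σ0 σ1 σ2 Wf L1)
  refine h1.trans (le_of_eq ?_)
  show 1 / n ^ 2 * (8 * (C * (Q * n ^ 3))) = C / 16 * Q * len I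
  rw [hlen]
  field_simp
  ring

end Crest.Agent.R079.KLx446
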