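import Crest.Agent.R079.CKh_217
import Crest.Agent.R079.KLdd_138
import Crest.Agent.R079.KLg_446

-- ▼ part R079/MaxL_533
section

/-! R079 (helper533): **logarithmic maximal majorant** on `ℤ`: for `0 ≤ θ ≤ Ht` finitely supported there is
`g ≥ 0` dominating all centred averages of `θ` with `∑_T g ≤ C (1 + log Ht) (∑ θ + #T)` for every finite
set `T` (weak type (1,1) on the levels `2^k`, `k ≤ log₂ Ht`).  Replaces `BadTx138.exists_max_int` whose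
loss is a power of `Ht`. -/

set_option autoImplicit false

namespace Crest.Agent.R079.MaxLx533

open Finset Crest.Agent.R079.Grid Crest.Agent.R079.CKh217

/-- `x` is in or next to a cell whose `th`-average exceeds `γ` -/
def InB (th : ℤ → ℝ) (γ : ℝ) (x : ℤ) : Prop :=
  ∃ (m : ℕ) (l : ℤ), bad th γ m l ∧ |x / 2 ^ m - l| ≤ 1

lemma ediv_close {a b c : ℤ} (hc : 0 < c) (h : |a - b| ≤ 1) : |a / c - b / c| ≤ 1 := by
  rw [abs_le] at h
  have h1 : a / c ≤ (b + 1 * c) / c := Int.ediv_le_ediv hc (by linarith [h.2])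
  have h2 : b / c ≤ (a + 1 * c) / c := Int.ediv_le_ediv hc (by linarith [h.1])
  rw [Int.add_mul_ediv_right _ _ hc.ne'] at h1 h2
  rw [abs_le]
  constructor <;> linarith

/-- **size of the bad set** -/
theorem card_InB {th : ℤ → ℝ} (hth : ∀ x, 0 ≤ th x) {S : Finset ℤ} (hS : ∀ x, x ∉ S → th x = 0)
    {γ : ℝ} (hγ : 0 < γ) (T : Finset ℤ) (hT : ∀ x ∈ T, InB th γ x) :
    γ * (T.card : ℝ) ≤ 3 * ∑ x ∈ S, th x := by
  classical
  obtain ⟨M0, hM0⟩ : ∃ M0 : ℕ, ∑ y ∈ S, th y ≤ γ * 2 ^ M0 := by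
    obtain ⟨M0, h⟩ := pow_unbounded_of_one_lt ((∑ y ∈ S, th y) / γ) (by norm_num : (1 : ℝ) < 2)
    exact ⟨M0, by rw [div_lt_iff₀ hγ] at h; linarith⟩
  have hsub : T ⊆ (Mx th γ S M0).biUnion fun c =>
      dI c.1 (c.2 - 1) ∪ (dI c.1 c.2 ∪ dI c.1 (c.2 + 1)) := by
    intro x hx
    obtain ⟨m, l, hb, hl⟩ := hT x hx
    obtain ⟨j, hj⟩ := exists_mx hth hS hγ.le hM0 hb
    rw [Finset.mem_biUnion]
    refine ⟨_, hj, ?_⟩
    have h1 : |x / 2 ^ (m + j) - l / 2 ^ j| ≤ 1 := by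
      rw [← L0e.ediv_pow_pow]
      exact ediv_close (by positivity) hl
    rw [abs_le] at h1
    simp only [Finset.mem_union, L0e.mem_dI]
    omega
  have hcard : (T.card : ℝ) ≤ 3 * ∑ c ∈ Mx th γ S M0, (2 : ℝ) ^ c.1 := by
    have h1 : T.card ≤ ∑ c ∈ Mx th γ S M0, 3 * 2 ^ c.1 := by
      refine (Finset.card_le_card hsub).trans (Finset.card_biUnion_le.trans ?_)
      refine Finset.sum_le_sum fun c _ => ?_
      have hd : ∀ (m : ℕ) (l : ℤ), (dI m l).card = 2 ^ m := by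
        intro m l
        unfold dI
        rw [Int.card_Ico]
        have : (l + 1) * 2 ^ m - l * 2 ^ m = ((2 ^ m : ℕ) : ℤ) := by
          push_cast; ring
        rw [this, Int.toNat_natCast]
      refine (Finset.card_union_le _ _).trans ?_
      have h2 := Finset.card_union_le (dI c.1 c.2) (dI c.1 (c.2 + 1))
      rw [hd, hd] at h2
      rw [hd]
      omega
    have h2 : (T.card : ℝ) ≤ ((∑ c ∈ Mx th γ S M0, 3 * 2 ^ c.1 : ℕ) : ℝ) := by exact_mod_cast h1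
    refine h2.trans (le_of_eq ?_)
    push_cast
    rw [Finset.mul_sum]
  have h3 := mx_total (M0 := M0) (γ := γ) hth hS
  calc γ * (T.card : ℝ) ≤ γ * (3 * ∑ c ∈ Mx th γ S M0, (2 : ℝ) ^ c.1) :=
        mul_le_mul_of_nonneg_left hcard hγ.le
    _ = 3 * (γ * ∑ c ∈ Mx th γ S M0, (2 : ℝ) ^ c.1) := by ring
    _ ≤ 3 * ∑ x ∈ S, th x := by linarith

/-- dyadic layer cake -/
lemma layer (a : ℝ) (P : ℕ → Prop) [DecidablePred P] (hP : ∀ k, 2 ^ k < a → P k) (k0 : ℕ)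
    (ha : a ≤ 2 ^ k0) : a ≤ 1 + ∑ k ∈ Finset.range k0, (if P k then (2 : ℝ) ^ k else 0) := by
  induction k0 with
  | zero => simpa using ha
  | succ n ih =>
    by_cases h : (2 : ℝ) ^ n < a
    · have h1 : ∑ k ∈ Finset.range (n + 1), (if P k then (2 : ℝ) ^ k else 0) =
          ∑ k ∈ Finset.range (n + 1), (2 : ℝ) ^ k := by
        refine Finset.sum_congr rfl fun k hk => ?_
        rw [Finset.mem_range] at hk
        rw [if_pos]
        refine hP k (lt_of_le_of_lt ?_ h)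
        exact pow_le_pow_right₀ (by norm_num) (by omega)
      rw [h1, geom_sum_eq (by norm_num)]
      norm_num
      linarith
    · rw [not_lt] at h
      refine (ih h).trans ?_
      rw [Finset.sum_range_succ]
      have : (0 : ℝ) ≤ if P n then (2 : ℝ) ^ n else 0 := by
        split_ifs <;> positivity
      linarith

open Classical in
/-- the majorant -/
noncomputable def mj (th : ℤ → ℝ) (k0 : ℕ) (x : ℤ) : ℝ :=
  6 * (1 + ∑ k ∈ Finset.range k0, if InB th (2 ^ k) x then (2 : ℝ) ^ k else 0)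

lemma mj_nonneg (th : ℤ → ℝ) (k0 : ℕ) (x : ℤ) : 0 ≤ mj th k0 x := by
  classical
  unfold mj
  have : (0 : ℝ) ≤ ∑ k ∈ Finset.range k0, if InB th (2 ^ k) x then (2 : ℝ) ^ k else 0 :=
    Finset.sum_nonneg fun k _ => by split_ifs <;> positivity
  linarith


lemma cell_le {th : ℤ → ℝ} {k0 : ℕ} (hH : ∀ x, th x ≤ 2 ^ k0) (x : ℤ) (m : ℕ) (l : ℤ)
    (hl : |x / 2 ^ m - l| ≤ 1) :
    ∑ y ∈ dI m l, th y ≤ 2 ^ m * (mj th k0 x / 6) := by
  classical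
  have hp : (0 : ℝ) < 2 ^ m := by positivity
  set a : ℝ := (∑ y ∈ dI m l, th y) / 2 ^ m with ha
  have e : ∑ y ∈ dI m l, th y = 2 ^ m * a := by
    rw [ha, mul_div_cancel₀ _ hp.ne']
  rw [e]
  refine mul_le_mul_of_nonneg_left ?_ hp.le
  have h1 : a ≤ 2 ^ k0 := by
    rw [ha, div_le_iff₀ hp]
    have h2 := Finset.sum_le_card_nsmul (dI m l) th (2 ^ k0) fun y _ => hH y
    rw [nsmul_eq_mul] at h2
    have h3 : ((dI m l).card : ℝ) = 2 ^ m := by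
      unfold dI
      rw [Int.card_Ico]
      have : (l + 1) * 2 ^ m - l * 2 ^ m = ((2 ^ m : ℕ) : ℤ) := by
        push_cast; ring
      rw [this, Int.toNat_natCast]
      push_cast
      ring
    rw [h3] at h2
    linarith
  have h2 := layer a (fun k => InB th (2 ^ k) x) (fun k hk => ⟨m, l, by
    unfold bad
    rw [e]
    rw [mul_comm]
    exact mul_lt_mul_of_pos_left hk hp, hl⟩) k0 h1
  unfold mj
  linarith

theorem mj_avg {th : ℤ → ℝ} (hth : ∀ x, 0 ≤ th x) {k0 : ℕ} (hH : ∀ x, th x ≤ 2 ^ k0) (x : ℤ) (K : ℕ) :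
    ∑ d ∈ Icc (-(K : ℤ)) K, th (x + d) ≤ (2 * K + 1) * mj th k0 x := by
  classical
  obtain ⟨m, hm1, hm2⟩ : ∃ m : ℕ, 2 * K + 1 ≤ 2 ^ m ∧ 2 ^ m ≤ 2 * (2 * K + 1) := by
    refine ⟨Nat.clog 2 (2 * K + 1), Nat.le_pow_clog (by norm_num) _, ?_⟩
    rcases Nat.eq_zero_or_pos K with h | h
    · subst h
      simp
    · have h1 := Nat.pow_pred_clog_lt_self (b := 2) (by norm_num) (x := 2 * K + 1) (by omega)
      have h2 : 0 < Nat.clog 2 (2 * K + 1) := Nat.clog_pos (by norm_num) (by omega)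
      obtain ⟨c, hc⟩ : ∃ c, Nat.clog 2 (2 * K + 1) = c + 1 := ⟨_, (Nat.succ_pred_eq_of_pos h2).symm⟩
      rw [hc] at h1 ⊢
      simp only [Nat.pred_eq_sub_one, Nat.add_sub_cancel] at h1
      rw [pow_succ]
      omega
  have hP : (0 : ℤ) < 2 ^ m := by positivity
  have hKm : ((2 * K + 1 : ℕ) : ℤ) ≤ 2 ^ m := by exact_mod_cast hm1
  push_cast at hKm
  set l0 := x / 2 ^ m with hl0
  have e1 : l0 * 2 ^ m ≤ x := Int.ediv_mul_le _ hP.ne'
  have e2 : x < (l0 + 1) * 2 ^ m := Int.lt_ediv_add_one_mul_self x hP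
  have hsum : ∑ d ∈ Icc (-(K : ℤ)) K, th (x + d) = ∑ y ∈ Icc (x - K) (x + K), th y := by
    refine Finset.sum_bij (fun d _ => x + d) ?_ ?_ ?_ ?_
    · intro d hd
      rw [Finset.mem_Icc] at hd ⊢
      constructor <;> linarith [hd.1, hd.2]
    · intro d _ d' _ h
      linarith
    · intro y hy
      rw [Finset.mem_Icc] at hy
      exact ⟨y - x, by rw [Finset.mem_Icc]; constructor <;> linarith [hy.1, hy.2], by ring⟩
    · intro d _
      rfl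
  have hcov : Icc (x - K) (x + K) ⊆ (Finset.Icc (l0 - 1) (l0 + 1)).biUnion (fun l => dI m l) := by
    intro y hy
    rw [Finset.mem_Icc] at hy
    rw [Finset.mem_biUnion]
    refine ⟨y / 2 ^ m, ?_, L0e.mem_dI.2 rfl⟩
    rw [Finset.mem_Icc]
    constructor
    · refine Int.le_ediv_of_mul_le hP ?_
      nlinarith [hy.1]
    · have : y / 2 ^ m < l0 + 2 := Int.ediv_lt_of_lt_mul hP (by nlinarith [hy.2])
      omega
  have h1 : ∀ l ∈ Finset.Icc (l0 - 1) (l0 + 1), ∑ y ∈ dI m l, th y ≤ 2 ^ m * (mj th k0 x / 6) := by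
    intro l hl
    rw [Finset.mem_Icc] at hl
    refine cell_le hH x m l ?_
    rw [← hl0, abs_le]
    omega
  have h3 : (Finset.Icc (l0 - 1) (l0 + 1)).card = 3 := by
    rw [Int.card_Icc]
    have : l0 + 1 + 1 - (l0 - 1) = ((3 : ℕ) : ℤ) := by push_cast; ring
    rw [this, Int.toNat_natCast]
  have hm2' : (2 : ℝ) ^ m ≤ 2 * (2 * K + 1) := by exact_mod_cast hm2
  calc ∑ d ∈ Icc (-(K : ℤ)) K, th (x + d) = ∑ y ∈ Icc (x - K) (x + K), th y := hsum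
    _ ≤ ∑ y ∈ (Finset.Icc (l0 - 1) (l0 + 1)).biUnion (fun l => dI m l), th y :=
        Finset.sum_le_sum_of_subset_of_nonneg hcov fun y _ _ => hth y
    _ = ∑ l ∈ Finset.Icc (l0 - 1) (l0 + 1), ∑ y ∈ dI m l, th y :=
        Finset.sum_biUnion fun a _ b _ hab => L0e.dI_disj hab
    _ ≤ ∑ _l ∈ Finset.Icc (l0 - 1) (l0 + 1), 2 ^ m * (mj th k0 x / 6) := Finset.sum_le_sum h1
    _ = 2 ^ m * (mj th k0 x / 2) := by
        rw [Finset.sum_const, nsmul_eq_mul, h3]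
        push_cast
        ring
    _ ≤ (2 * (2 * K + 1)) * (mj th k0 x / 2) :=
        mul_le_mul_of_nonneg_right hm2' (by linarith [mj_nonneg th k0 x])
    _ = (2 * K + 1) * mj th k0 x := by ring

theorem mj_sum {th : ℤ → ℝ} (hth : ∀ x, 0 ≤ th x) {S : Finset ℤ} (hS : ∀ x, x ∉ S → th x = 0)
    (k0 : ℕ) (T : Finset ℤ) : ∑ x ∈ T, mj th k0 x ≤ 6 * T.card + 18 * k0 * ∑ x ∈ S, th x := by
  classical
  unfold mj
  rw [← Finset.mul_sum, Finset.sum_add_distrib, Finset.sum_comm]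
  have h1 : ∀ k ∈ Finset.range k0, ∑ x ∈ T, (if InB th (2 ^ k) x then (2 : ℝ) ^ k else 0) ≤
      3 * ∑ x ∈ S, th x := by
    intro k _
    rw [← Finset.sum_filter, Finset.sum_const, nsmul_eq_mul, mul_comm]
    exact card_InB hth hS (by positivity) _ fun x hx => (Finset.mem_filter.1 hx).2
  have h2 := Finset.sum_le_sum h1
  rw [Finset.sum_const, Finset.card_range, nsmul_eq_mul] at h2
  rw [Finset.sum_const, nsmul_eq_mul, mul_one]
  linarith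

/-- **LOGARITHMIC MAXIMAL MAJORANT.** -/
theorem exists_max_log : ∃ C : ℝ, 0 ≤ C ∧ ∀ (th : ℤ → ℝ) (Ht : ℝ), (∀ x, 0 ≤ th x) → 1 ≤ Ht →
    (∀ x, th x ≤ Ht) → ∀ (S : Finset ℤ), (∀ x, x ∉ S → th x = 0) → ∃ g : ℤ → ℝ, (∀ x, 0 ≤ g x) ∧
      (∀ (x : ℤ) (K : ℕ), ∑ d ∈ Icc (-(K : ℤ)) K, th (x + d) ≤ (2 * K + 1) * g x) ∧
      ∀ T : Finset ℤ, ∑ x ∈ T, g x ≤ C * (1 + Real.log Ht) * (T.card + ∑ x ∈ S, th x) := by
  refine ⟨36, by norm_num, ?_⟩
  intro th Ht hth hHt hH S hS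
  have hlog : 0 ≤ Real.log Ht := Real.log_nonneg hHt
  obtain ⟨k0, hk0, hk1⟩ : ∃ k0 : ℕ, Ht ≤ 2 ^ k0 ∧ (k0 : ℝ) ≤ 2 * (1 + Real.log Ht) := by
    refine ⟨⌈Real.logb 2 Ht⌉₊, ?_, ?_⟩
    · have h1 : Real.logb 2 Ht ≤ ⌈Real.logb 2 Ht⌉₊ := Nat.le_ceil _
      have h2 : (2 : ℝ) ^ (Real.logb 2 Ht) = Ht :=
        Real.rpow_logb (by norm_num) (by norm_num) (by linarith)
      rw [← Real.rpow_natCast]
      calc Ht = (2 : ℝ) ^ (Real.logb 2 Ht) := h2.symm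
        _ ≤ _ := Real.rpow_le_rpow_of_exponent_le (by norm_num) h1
    · have h0 : 0 ≤ Real.logb 2 Ht := Real.logb_nonneg (by norm_num) hHt
      have h1 : (⌈Real.logb 2 Ht⌉₊ : ℝ) < Real.logb 2 Ht + 1 := Nat.ceil_lt_add_one h0
      have h2 : Real.logb 2 Ht ≤ 2 * Real.log Ht := by
        unfold Real.logb
        rw [div_le_iff₀ (Real.log_pos (by norm_num))]
        nlinarith [Real.log_two_gt_d9]
      linarith
  refine ⟨mj th k0, mj_nonneg th k0, fun x K => mj_avg hth (fun y => (hH y).trans hk0) x K, ?_⟩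
  intro T
  have hV : 0 ≤ ∑ x ∈ S, th x := Finset.sum_nonneg fun x _ => hth x
  have hT : (0 : ℝ) ≤ T.card := by positivity
  have h1 := mj_sum hth hS k0 T
  have h2 : 18 * (k0 : ℝ) * ∑ x ∈ S, th x ≤ 36 * (1 + Real.log Ht) * ∑ x ∈ S, th x :=
    mul_le_mul_of_nonneg_right (by linarith) hV
  have h3 : (6 : ℝ) * T.card ≤ 36 * (1 + Real.log Ht) * T.card :=
    mul_le_mul_of_nonneg_right (by linarith) hT
  calc ∑ x ∈ T, mj th k0 x ≤ 6 * T.card + 18 * k0 * ∑ x ∈ S, th x := h1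
    _ ≤ 36 * (1 + Real.log Ht) * T.card + 36 * (1 + Real.log Ht) * ∑ x ∈ S, th x := by linarith
    _ = _ := by ring

end Crest.Agent.R079.MaxLx533
end

-- ▼ part R079/KLdl_533
section

/-! R079 (helper533), KILL LEMMA task [KD] with the logarithmic maximal majorant: the energy of the rest
loses only `1 + log Ht`.  The proof is helper138's `rest_energy` with `exists_max_log` in place of
`exists_max_int`. -/

set_option autoImplicit false
set_option linter.unusedVariables false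

namespace Crest.Agent.R079.KLdx138

open Finset Crest.Agent.R079.Grid Crest.Agent.R079.Glue Crest.Agent.R079.Growth
  Crest.Agent.R079.QRed Crest.Agent.R079.BadTx138 Crest.Agent.R079.KLx446

/-- **[KD] ENERGY OF THE REST**, logarithmic in the cap of the weight. -/
theorem rest_energy_log : ∃ C0 : ℝ, 0 ≤ C0 ∧ ∀ (R : Finset Nd) (J : Nd), Full R J →
    ∀ (c : ℤ → ℤ → ℂ) (K : Fn) (α β γ : ℤ), Cof α β γ → ∀ (s ε D : ℝ), 0 < ε → 0 ≤ D →
    ExD R c K α β γ s D → ∀ (th : ℤ → ℝ) (Ht : ℝ) (z0 : ℤ) (n : ℕ), (∀ z, 0 ≤ th z) → 1 ≤ Ht →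
    (∀ z, th z ≤ Ht) → (∀ z, th z ≠ 0 → z0 ≤ z ∧ z < z0 + n) →
    ∀ (X : Fn) (A : ℝ), (∀ p ∈ R, av p X ≤ A) → ∀ (w0 : ℤ) (N : ℕ) (Xf Yf : Finset ℤ),
    letI := Classical.dec
    ∑ w ∈ Ico w0 (w0 + N), ∑ x ∈ Xf, ∑ y ∈ Yf, (if RsP R J c K α β γ s ε w x y then
      th (-w - x - y) * ‖X (α * w + β * x + γ * y)‖ ^ 2 else 0) ≤
    C0 * A ^ 2 * (D / ε) * (1 + Real.log Ht) * ((N + 2 ^ J.1) * 2 ^ J.1 *
      (∑ z ∈ Ico z0 (z0 + n), th z + n + 2 ^ J.1)) := by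
  classical
  obtain ⟨Cm, hCm, hmax⟩ := Crest.Agent.R079.MaxLx533.exists_max_log
  refine ⟨(3073 * 2 ^ 15) * ((2 * 512 + 7) * 162) * (2 * (2 * 2 ^ 7)) * (1031 * Cm), by positivity, ?_⟩
  intro R J hR c K α β γ hC s ε D hε hD0 hD th Ht z0 n hth hHt hthH hsupp X A hX w0 N Xf Yf
  -- a common bound for the indices
  obtain ⟨T, hTx, hTy⟩ : ∃ T : ℤ, (∀ x ∈ Xf, |x| + 256 * 2 ^ J.1 ≤ T) ∧
      ∀ y ∈ Yf, |y| + 256 * 2 ^ J.1 ≤ T := by
    refine ⟨∑ x ∈ Xf, |x| + ∑ y ∈ Yf, |y| + 256 * 2 ^ J.1, fun x hx => ?_, fun y hy => ?_⟩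
    · have h1 := Finset.single_le_sum (f := fun x : ℤ => |x|) (fun _ _ => abs_nonneg _) hx
      have h2 : 0 ≤ ∑ y ∈ Yf, |y| := Finset.sum_nonneg fun _ _ => abs_nonneg _
      linarith
    · have h1 := Finset.single_le_sum (f := fun x : ℤ => |x|) (fun _ _ => abs_nonneg _) hy
      have h2 : 0 ≤ ∑ x ∈ Xf, |x| := Finset.sum_nonneg fun _ _ => abs_nonneg _
      linarith
  -- the majorant
  set JJ : ℤ := 2 ^ J.1 with hJJ
  have hJJ0 : 0 < JJ := by rw [hJJ]; positivity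
  obtain ⟨g, hg0, hg1, hg2⟩ := hmax th Ht hth hHt hthH (Ico z0 (z0 + n)) (by
    intro x hx
    by_contra hne
    exact hx (Finset.mem_Ico.2 (hsupp x hne)))
  set Sg : Finset ℤ := Ico (z0 - 515 * JJ) (z0 + n + 515 * JJ) with hSg
  have hsg : ∑ x ∈ Sg, g x ≤ Cm * (1 + Real.log Ht) * (Sg.card + ∑ z ∈ Ico z0 (z0 + n), th z) :=
    hg2 Sg
  have hSgc : (Sg.card : ℝ) ≤ n + 1030 * 2 ^ J.1 := by
    rw [hSg, Int.card_Ico]
    rw [show z0 + n + 515 * JJ - (z0 - 515 * JJ) = ((n + 1030 * 2 ^ J.1 : ℕ) : ℤ) by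
      push_cast; rw [hJJ]; ring, Int.toNat_natCast]
    push_cast
    exact le_rfl
  -- the fixed `w` bounds
  set BT : ℤ → Finset (ℕ × ℤ × ℤ) := fun w => BTs R J c K α β γ s ε th T w with hBT
  have step1 : ∑ w ∈ Ico w0 (w0 + N), ∑ x ∈ Xf, ∑ y ∈ Yf,
      (if RsP R J c K α β γ s ε w x y then
        th (-w - x - y) * ‖X (α * w + β * x + γ * y)‖ ^ 2 else 0) ≤
      (3073 * 2 ^ 15 * A ^ 2) * ∑ w ∈ Ico w0 (w0 + N), ∑ B ∈ BT w,
        (4 : ℝ) ^ B.1 * avT th 0 512 B w := by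
    rw [Finset.mul_sum]
    exact Finset.sum_le_sum fun w _ => one_w hR hC hX hth Xf Yf T hTx hTy w
  -- the used cubes
  set LT : ℤ → (ℕ × ℤ × ℤ) → Finset (ℕ × ℤ × ℤ) := fun w B => LTs R J c K α β γ s w B with hLT
  set U : Finset (ℕ × ℤ × ℤ × ℤ) := (Ico w0 (w0 + N)).biUnion fun w => (BT w).biUnion fun B =>
    (LT w B).image fun L => (L.1, w / 2 ^ L.1, L.2.1, L.2.2) with hU
  have memBT : ∀ w, ∀ B ∈ BT w, B.1 ≤ J.1 ∧ MxB R J c K α β γ s ε w B ∧ avT th 0 512 B w ≠ 0 := by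
    intro w B hB
    rw [hBT] at hB
    simp only at hB
    unfold BTs at hB
    rw [Finset.mem_filter, Finset.mem_product, Finset.mem_range] at hB
    exact ⟨by omega, hB.2.1, hB.2.2⟩
  have step2 : ∑ w ∈ Ico w0 (w0 + N), ∑ B ∈ BT w, (4 : ℝ) ^ B.1 * avT th 0 512 B w ≤
      (2 * 512 + 7) * ((162 * D) / ε) * ∑ u ∈ U, cubeS g 0 u := by
    have h := bad_tiles hth hg1 U (ExT R J c K α β γ s) (ρ := 162 * D) (cc := ε) (by positivity) hε
      (fun u _ => card_ExT hR hC hD hD0 u.1 u.2.1 u.2.2.1 u.2.2.2) (Ico w0 (w0 + N)) BT LT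
      (by
        intro w hw B hB L hL
        obtain ⟨h1, h2, h3, h4⟩ := mem_LTs hL
        refine ⟨h1, h2, h3, ?_, h4⟩
        rw [hU, Finset.mem_biUnion]
        refine ⟨w, hw, ?_⟩
        rw [Finset.mem_biUnion]
        refine ⟨B, hB, ?_⟩
        rw [Finset.mem_image]
        exact ⟨L, hL, rfl⟩)
      (by
        intro w hw B hB B' hB' hne
        rw [Finset.disjoint_left]
        intro L hL hL'
        apply hne
        obtain ⟨h1, h2, h3, -⟩ := mem_LTs hL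
        obtain ⟨h1', h2', h3', -⟩ := mem_LTs hL'
        rcases le_total B.1 B'.1 with hle | hle
        · exact mx_eq (memBT w B hB).2.1 (memBT w B' hB').2.1 hle h1 h2 h3 h2' h3'
        · exact (mx_eq (memBT w B' hB').2.1 (memBT w B hB).2.1 hle h1' h2' h3' h2 h3).symm)
      (by
        intro w hw B hB
        exact LTs_area (memBT w B hB).2.1.1) 0 512
    exact_mod_cast h
  -- the cubes
  have step3 : ∑ u ∈ U, cubeS g 0 u ≤ (Ico (w0 - JJ) (w0 + N + JJ)).card * (∑ x ∈ Sg, g x) *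
      ∑ p ∈ Lfs R J, ((enl p).card : ℝ) := by
    refine sum_cubes (α := α) (β := β) (γ := γ) hg0 hC.βγ U (Lfs R J) _ Sg ?_
    intro u hu
    rw [hU, Finset.mem_biUnion] at hu
    obtain ⟨w, hw, hu⟩ := hu
    rw [Finset.mem_biUnion] at hu
    obtain ⟨B, hB, hu⟩ := hu
    rw [Finset.mem_image] at hu
    obtain ⟨L, hL, rfl⟩ := hu
    obtain ⟨hBJ, hMx, hav⟩ := memBT w B hB
    rw [Finset.mem_Ico] at hw
    exact cube_pt hR hC hsupp hw hBJ hav hL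
  have hW : ((Ico (w0 - JJ) (w0 + N + JJ)).card : ℝ) ≤ 2 * (N + 2 ^ J.1) := by
    rw [Int.card_Ico]
    rw [show w0 + N + JJ - (w0 - JJ) = ((N + 2 * 2 ^ J.1 : ℕ) : ℤ) by
      push_cast; rw [hJJ]; ring, Int.toNat_natCast]
    push_cast
    have : (0 : ℝ) ≤ N := by positivity
    linarith
  have hP : ∑ p ∈ Lfs R J, ((enl p).card : ℝ) ≤ 2 * 2 ^ 7 * 2 ^ J.1 := by
    refine (Finset.sum_le_sum fun p _ => card_enl p).trans ?_
    rw [← Finset.mul_sum]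
    have := sum_leaves hR
    rw [pow_add] at this
    linarith
  set Θ : ℝ := ∑ z ∈ Ico z0 (z0 + (n : ℤ)), th z with hΘ
  have hΘ0 : 0 ≤ Θ := Finset.sum_nonneg fun _ _ => hth _
  have hH13 : 0 ≤ 1 + Real.log Ht := by
    have := Real.log_nonneg hHt
    linarith
  have hsg' : ∑ x ∈ Sg, g x ≤ (1031 * Cm) * ((1 + Real.log Ht) * (Θ + n + 2 ^ J.1)) := by
    refine hsg.trans ?_
    have h1 : (Sg.card : ℝ) + Θ ≤ 1031 * (Θ + n + 2 ^ J.1) := by
      have hn : (0 : ℝ) ≤ n := by positivity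
      have hj : (0 : ℝ) ≤ 2 ^ J.1 := by positivity
      linarith
    calc Cm * (1 + Real.log Ht) * (Sg.card + Θ)
        ≤ Cm * (1 + Real.log Ht) * (1031 * (Θ + n + 2 ^ J.1)) :=
          mul_le_mul_of_nonneg_left h1 (mul_nonneg hCm hH13)
      _ = _ := by ring
  have hsg0 : 0 ≤ ∑ x ∈ Sg, g x := Finset.sum_nonneg fun _ _ => hg0 _
  have step4 : ∑ u ∈ U, cubeS g 0 u ≤ (2 * (N + 2 ^ J.1)) *
      ((1031 * Cm) * ((1 + Real.log Ht) * (Θ + n + 2 ^ J.1))) * (2 * 2 ^ 7 * 2 ^ J.1) := by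
    refine step3.trans ?_
    refine mul_le_mul ?_ hP (Finset.sum_nonneg fun _ _ => by positivity) (by positivity)
    exact mul_le_mul hW hsg' hsg0 (by positivity)
  have hA2 : 0 ≤ 3073 * 2 ^ 15 * A ^ 2 := by positivity
  have hDe : 0 ≤ (2 * 512 + 7) * ((162 * D) / ε) := by positivity
  refine step1.trans ?_
  refine (mul_le_mul_of_nonneg_left (step2.trans (mul_le_mul_of_nonneg_left step4 hDe)) hA2).trans ?_
  refine le_of_eq ?_
  field_simp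

end Crest.Agent.R079.KLdx138
end

-- ▼ part R079/KLh_446

/-! R079, KILL LEMMA, logarithmic form (helper446): copy of 138's `rest_AB` and of `kill_words` with
533's `rest_energy_log` (`1 + log Ht` in place of `Ht^(1/3)`): **`killN_log`**. -/

set_option autoImplicit false
set_option linter.unusedVariables false

namespace Crest.Agent.R079.KLx446

open Finset Crest.Agent.R079.Grid Crest.Agent.R079.Glue Crest.Agent.R079.Growth
  Crest.Agent.R079.QRed Crest.Agent.R079.BadTx138 Crest.Agent.R079.KC996 Crest.Agent.R079.KLdx138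
  Crest.Agent.R079.TwLx253 Crest.Agent.R079.KLX279

open Classical in
/-- rest energy in face coordinates with an arbitrary position set, classical indicator -/
theorem rest_face_log : ∃ C0 : ℝ, 0 ≤ C0 ∧ ∀ (R : Finset Nd) (J : Nd), Full R J →
    ∀ (c : ℤ → ℤ → ℂ) (K : Fn) (α β γ : ℤ), Cof α β γ → ∀ (s ε D : ℝ), 0 < ε → 0 ≤ D →
    ExD R c K α β γ s D → ∀ (th : ℤ → ℝ) (Ht : ℝ) (t1 : ℤ) (n : ℕ), (∀ z, 0 ≤ th z) → 1 ≤ Ht →
    (∀ z, th z ≤ Ht) → (∀ z, th z ≠ 0 → t1 ≤ z ∧ z < t1 + n) →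
    ∀ (X : Fn) (A : ℝ), (∀ p ∈ R, av p X ≤ A) → ∀ (w0 : ℤ) (N : ℕ) (W1 : Finset ℤ),
    W1 ⊆ Ico w0 (w0 + N) → ∀ (Xf Yf : Finset ℤ),
    ∑ w ∈ W1, ∑ x ∈ Xf, ∑ y ∈ Yf, (if RsP R J c K α β γ s ε w x y then
      th (-w - x - y) * ‖X (α * w + β * x + γ * y)‖ ^ 2 else 0) ≤
    C0 * A ^ 2 * (D / ε) * (1 + Real.log Ht) * ((N + 2 ^ J.1) * 2 ^ J.1 *
      (∑ z ∈ Ico t1 (t1 + n), th z + n + 2 ^ J.1)) := by
  obtain ⟨C0, hC0, h⟩ := rest_energy_log
  refine ⟨C0, hC0, ?_⟩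
  intro R J hR c K α β γ hC s ε D hε hD0 hD th Ht t1 n hth hHt hthH hsupp X A hX w0 N W1 hW Xf Yf
  refine le_trans ?_ (h R J hR c K α β γ hC s ε D hε hD0 hD th Ht t1 n hth hHt hthH hsupp X A hX w0 N
    Xf Yf)
  refine (Finset.sum_le_sum_of_subset_of_nonneg hW fun w _ _ =>
    Finset.sum_nonneg fun x _ => Finset.sum_nonneg fun y _ => ?_).trans (le_of_eq ?_)
  · split_ifs
    · exact mul_nonneg (hth _) (sq_nonneg _)
    · exact le_rfl
  · rfl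

open Classical in
/-- **(iii) ENERGIES OF THE MASKED LINE LETTERS ON THE REST.** -/
theorem rest_AB_log : ∃ C0 : ℝ, 0 ≤ C0 ∧ ∀ (k k0 k1 k2 : Fin 4), D4 k k0 k1 k2 →
    ∀ (R : Finset Nd) (J : Nd), Full R J →
    ∀ (c : ℤ → ℤ → ℂ) (K : Fn) (s ε D : ℝ), 0 < ε → 0 ≤ D →
    ExD R c K (sl k - sl k1) (sl k2 - sl k1) (sl k0 - sl k1) s D →
    ∀ (th : ℤ → ℝ) (Ht Hf : ℝ) (t1 : ℤ) (n : ℕ), (∀ z, 0 ≤ th z) → 1 ≤ Ht → 0 ≤ Hf →
    (∀ z, th z ≤ Ht) → (∀ z, th z ≠ 0 → t1 ≤ z ∧ z < t1 + n) →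
    ∀ (F : Fin 4 → Fn) (w0 : ℤ) (N : ℕ) (W1 : Finset ℤ), W1 ⊆ Ico w0 (w0 + N) →
    (∀ (T0 T1 : Finset ℤ) (a : ℤ → ℤ → ℂ) (A : ℝ), (∀ z0 z1, ‖a z0 z1‖ ^ 2 ≤ Hf * th z1) →
      (∀ p ∈ R, av p (F k2) ≤ A) → ∀ (Xf Yf : Finset ℤ),
      ∑ w ∈ W1, ∑ z0 ∈ Xf, ∑ z1 ∈ Yf,
        (if RsP R J c K (sl k - sl k1) (sl k2 - sl k1) (sl k0 - sl k1) s ε w (-w - z0 - z1) z0 then
          ‖kA k k0 k1 k2 T0 T1 a F w z0 z1‖ ^ 2 else 0) ≤
      Hf * (C0 * A ^ 2 * (D / ε) * (1 + Real.log Ht) * ((N + 2 ^ J.1) * 2 ^ J.1 *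
        (∑ z ∈ Ico t1 (t1 + n), th z + n + 2 ^ J.1)))) ∧
    (∀ (T1 T2 : Finset ℤ) (b : ℤ → ℤ → ℂ) (A : ℝ), (∀ z1 z2, ‖b z1 z2‖ ^ 2 ≤ Hf * th z1) →
      (∀ p ∈ R, av p (F k0) ≤ A) → ∀ (Xf Yf : Finset ℤ),
      ∑ w ∈ W1, ∑ z1 ∈ Xf, ∑ z2 ∈ Yf,
        (if RsP R J c K (sl k - sl k1) (sl k2 - sl k1) (sl k0 - sl k1) s ε w z2 (-w - z1 - z2) then
          ‖kB k k0 k1 k2 T1 T2 b F w z1 z2‖ ^ 2 else 0) ≤
      Hf * (C0 * A ^ 2 * (D / ε) * (1 + Real.log Ht) * ((N + 2 ^ J.1) * 2 ^ J.1 *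
        (∑ z ∈ Ico t1 (t1 + n), th z + n + 2 ^ J.1)))) := by
  obtain ⟨C0, hC0, h⟩ := rest_face_log
  refine ⟨C0, hC0, ?_⟩
  intro k k0 k1 k2 hk R J hR c K s ε D hε hD0 hD th Ht Hf t1 n hth hHt hHf hthH hsupp F w0 N W1 hW
  have hC := hk.cof
  set α := sl k - sl k1 with hα
  set β := sl k2 - sl k1 with hβ
  set γ := sl k0 - sl k1 with hγ
  constructor
  · intro T0 T1 a A ha hA Xf Yf
    set G : ℤ → ℤ → ℤ → ℝ := fun w x y => if RsP R J c K α β γ s ε w x y then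
      th (-w - x - y) * ‖F k2 (α * w + β * x + γ * y)‖ ^ 2 else 0 with hG
    have hG0 : ∀ w x y, 0 ≤ G w x y := by
      intro w x y
      rw [hG]; simp only
      split_ifs
      · exact mul_nonneg (hth _) (sq_nonneg _)
      · exact le_rfl
    set P : Finset ℤ := ((W1 ×ˢ Xf) ×ˢ Yf).image (fun t => -t.1.1 - t.1.2 - t.2) with hP
    have h1 : ∀ w ∈ W1, ∀ z0 ∈ Xf, ∀ z1 ∈ Yf,
        (if RsP R J c K α β γ s ε w (-w - z0 - z1) z0 then
          ‖kA k k0 k1 k2 T0 T1 a F w z0 z1‖ ^ 2 else 0) ≤ Hf * G w (-w - z0 - z1) z0 := by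
      intro w _ z0 _ z1 _
      rw [hG]; simp only
      split_ifs with hr
      swap
      · rw [mul_zero]
      rw [show -w - (-w - z0 - z1) - z0 = z1 by ring]
      have e : sha k k1 k2 k0 w (-w - z0 - z1) z0 = α * w + β * (-w - z0 - z1) + γ * z0 := rfl
      rw [← e, ← KLrx138.sha_zero]
      unfold kA fr4
      split_ifs
      · rw [norm_mul, mul_pow, ← mul_assoc]
        exact mul_le_mul_of_nonneg_right (ha z0 z1) (sq_nonneg _)
      · rw [norm_zero, zero_pow (by norm_num)]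
        exact mul_nonneg hHf (mul_nonneg (hth _) (sq_nonneg _))
    have h2 : ∀ w ∈ W1, ∀ z0 ∈ Xf, ∑ z1 ∈ Yf, Hf * G w (-w - z0 - z1) z0 ≤
        Hf * ∑ x ∈ P, G w x z0 := by
      intro w hw z0 hz0
      rw [← Finset.mul_sum]
      refine mul_le_mul_of_nonneg_left ?_ hHf
      have hinj : Set.InjOn (fun z1 : ℤ => -w - z0 - z1) (Yf : Set ℤ) := by
        intro z _ z' _ hz
        have : -w - z0 - z = -w - z0 - z' := hz
        linarith
      rw [← Finset.sum_image (f := fun x => G w x z0) hinj]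
      refine Finset.sum_le_sum_of_subset_of_nonneg ?_ fun _ _ _ => hG0 _ _ _
      intro x hx
      rw [Finset.mem_image] at hx
      obtain ⟨z1, hz1, rfl⟩ := hx
      rw [hP, Finset.mem_image]
      exact ⟨((w, z0), z1), Finset.mem_product.2 ⟨Finset.mem_product.2 ⟨hw, hz0⟩, hz1⟩, rfl⟩
    refine (Finset.sum_le_sum fun w hw => Finset.sum_le_sum fun z0 hz0 =>
      (Finset.sum_le_sum fun z1 hz1 => h1 w hw z0 hz0 z1 hz1).trans (h2 w hw z0 hz0)).trans ?_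
    have h3 := h R J hR c K α β γ hC s ε D hε hD0 hD th Ht t1 n hth hHt hthH hsupp (F k2) A hA w0 N W1 hW
      P Xf
    refine le_trans (le_of_eq ?_) (mul_le_mul_of_nonneg_left h3 hHf)
    rw [Finset.mul_sum]
    refine Finset.sum_congr rfl fun w _ => ?_
    rw [← Finset.mul_sum, Finset.sum_comm]
  · intro T1 T2 b A hb hA Xf Yf
    set G : ℤ → ℤ → ℤ → ℝ := fun w x y => if RsP R J c K α β γ s ε w x y then
      th (-w - x - y) * ‖F k0 (α * w + β * x + γ * y)‖ ^ 2 else 0 with hG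
    have hG0 : ∀ w x y, 0 ≤ G w x y := by
      intro w x y
      rw [hG]; simp only
      split_ifs
      · exact mul_nonneg (hth _) (sq_nonneg _)
      · exact le_rfl
    set P : Finset ℤ := ((W1 ×ˢ Xf) ×ˢ Yf).image (fun t => -t.1.1 - t.1.2 - t.2) with hP
    have h1 : ∀ w ∈ W1, ∀ z1 ∈ Xf, ∀ z2 ∈ Yf,
        (if RsP R J c K α β γ s ε w z2 (-w - z1 - z2) then
          ‖kB k k0 k1 k2 T1 T2 b F w z1 z2‖ ^ 2 else 0) ≤ Hf * G w z2 (-w - z1 - z2) := by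
      intro w _ z1 _ z2 _
      rw [hG]; simp only
      split_ifs with hr
      swap
      · rw [mul_zero]
      rw [show -w - z2 - (-w - z1 - z2) = z1 by ring]
      have e : sha k k1 k2 k0 w z2 (-w - z1 - z2) = α * w + β * z2 + γ * (-w - z1 - z2) := rfl
      rw [← e, ← KLrx138.sha_zero']
      unfold kB fr4
      split_ifs
      · rw [norm_mul, mul_pow, ← mul_assoc]
        exact mul_le_mul_of_nonneg_right (hb z1 z2) (sq_nonneg _)
      · rw [norm_zero, zero_pow (by norm_num)]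
        exact mul_nonneg hHf (mul_nonneg (hth _) (sq_nonneg _))
    have h2 : ∀ w ∈ W1, ∀ z2 ∈ Yf, ∑ z1 ∈ Xf, Hf * G w z2 (-w - z1 - z2) ≤
        Hf * ∑ y ∈ P, G w z2 y := by
      intro w hw z2 hz2
      rw [← Finset.mul_sum]
      refine mul_le_mul_of_nonneg_left ?_ hHf
      have hinj : Set.InjOn (fun z1 : ℤ => -w - z1 - z2) (Xf : Set ℤ) := by
        intro z _ z' _ hz
        have : -w - z - z2 = -w - z' - z2 := hz
        linarith
      rw [← Finset.sum_image (f := fun y => G w z2 y) hinj]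
      refine Finset.sum_le_sum_of_subset_of_nonneg ?_ fun _ _ _ => hG0 _ _ _
      intro x hx
      rw [Finset.mem_image] at hx
      obtain ⟨z1, hz1, rfl⟩ := hx
      rw [hP, Finset.mem_image]
      exact ⟨((w, z1), z2), Finset.mem_product.2 ⟨Finset.mem_product.2 ⟨hw, hz1⟩, hz2⟩, rfl⟩
    have h4 : ∀ w ∈ W1, ∑ z1 ∈ Xf, ∑ z2 ∈ Yf,
        (if RsP R J c K α β γ s ε w z2 (-w - z1 - z2) then
          ‖kB k k0 k1 k2 T1 T2 b F w z1 z2‖ ^ 2 else 0) ≤ Hf * ∑ z2 ∈ Yf, ∑ y ∈ P, G w z2 y := by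
      intro w hw
      rw [Finset.sum_comm, Finset.mul_sum]
      exact Finset.sum_le_sum fun z2 hz2 =>
        (Finset.sum_le_sum fun z1 hz1 => h1 w hw z1 hz1 z2 hz2).trans (h2 w hw z2 hz2)
    refine (Finset.sum_le_sum h4).trans ?_
    rw [← Finset.mul_sum]
    exact mul_le_mul_of_nonneg_left (h R J hR c K α β γ hC s ε D hε hD0 hD th Ht t1 n hth hHt hthH
      hsupp (F k0) A hA w0 N W1 hW Yf P) hHf



/-- the main part: the words of one atom -/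
theorem kill_words_log : ∃ C : ℝ, 0 ≤ C ∧ ∀ (k k0 k1 k2 : Fin 4), D4 k k0 k1 k2 →
    ∀ (R : Finset Nd) (J : Nd), Full R J → ∀ (F : Fin 4 → Fn) (s D Ht Hf H : ℝ),
    0 < s → s ≤ 1 → 0 < D → D ≤ 1 → 1 ≤ Ht → 1 ≤ Hf → 1 ≤ H →
    (∀ j, j ≠ k → ∀ p ∈ R, av p (F j) ≤ 1) → (∀ j, j ≠ k → ∀ y, ‖F j y‖ ≤ H) →
    ∀ (T0 T1 T2 : Finset ℤ) (a b c : ℤ → ℤ → ℂ) (th : ℤ → ℝ),
    OpK (2 ^ J.1) Ht Hf T0 T1 T2 a b c th →
    ExD R (mg T2 T0 c) (F k1) (sl k - sl k1) (sl k2 - sl k1) (sl k0 - sl k1) s D →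
    ∀ l : ℤ, |l| ≤ 7 → ∀ (σ0 σ1 σ2 : Bool) (Wf : Finset ℤ) (L1 : ℕ),
      ∑ w ∈ Wf, Tw (fun m' p0 p1 p2 => Gd k k0 k1 k2 R m' w p0 p1 p2)
        (fun z z' => pr σ0 (fr4 T0 T1 a (cutJ J (F k2)) (sl k - sl k2) (sl k0 - sl k2)
          (sl k1 - sl k2) w z z'))
        (fun z z' => pr σ1 (fr4 T1 T2 b (cutJ J (F k0)) (sl k - sl k0) (sl k1 - sl k0)
          (sl k2 - sl k0) w z z'))
        (fun z z' => pr σ2 (fr4 T2 T0 c (cutJ J (F k1)) (sl k - sl k1) (sl k2 - sl k1)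
          (sl k0 - sl k1) w z z')) (J.1 + 1) L1 l w ≤
      C * (((1 + Real.log (1 + H ^ 4 * Hf * Ht / s ^ 2)) * s +
        (1 + Real.log (1 + 5 * H ^ 4 * Ht / D)) * (Hf * D * (1 + Real.log Ht) / s ^ 2)) *
        ((2 : ℝ) ^ J.1) ^ 3) := by
  classical
  obtain ⟨K1, hK1, hgood⟩ := good_words
  obtain ⟨K2, hK2, hrest⟩ := rest_words
  obtain ⟨C0, hC0, hAB⟩ := rest_AB_log
  refine ⟨K1 * (251 * 399) + K2 * (16 * (816 * C0 + 271)), by positivity, ?_⟩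
  intro k k0 k1 k2 h4 R J hR F s D Ht Hf H hs hs1 hD hD1 hHt hHf hH hav hFH T0 T1 T2 a b c th hO hE
    l hl σ0 σ1 σ2 Wf L1
  set Lt : ℝ := 1 + Real.log Ht with hLt
  have hLt1 : 1 ≤ Lt := by
    have := Real.log_nonneg hHt
    rw [hLt]; linarith
  have hLt0 : 0 < Lt := by linarith
  set α := sl k - sl k1 with hα
  set β := sl k2 - sl k1 with hβ
  set γ := sl k0 - sl k1 with hγ
  have hsub : ∀ p ∈ R, iv p ⊆ iv J := fun p hp => hR.reg.1 p hp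
  have hJR : J ∈ R := hR.top
  set n : ℝ := (2 : ℝ) ^ J.1 with hn
  have hn0 : 0 < n := by positivity
  have hlen : len J = 128 * n := by unfold len; rw [pow_add]; norm_num; ring
  set F' : Fin 4 → Fn := fun j => cutJ J (F j) with hF'
  have hF'av : ∀ j, j ≠ k → ∀ p ∈ R, av p (F' j) ≤ 1 := fun j hj p hp => by
    simp only [hF']
    rw [av_cutJ (hsub p hp)]
    exact hav j hj p hp
  have hF'H : ∀ j, j ≠ k → ∀ y, ‖F' j y‖ ≤ H := fun j hj y => norm_cutJ_le.trans (hFH j hj y)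
  have hF'0 : ∀ j, ∀ y, y ∉ iv J → F' j y = 0 := fun j y hy => cutJ_off hy
  set c' := mg T2 T0 c with hc'
  have hE' : ExD R c' (F' k1) α β γ s D := exD_congr (fun p hp y hy => by
    simp only [hF']
    rw [cutJ_on (hsub p hp hy)]) hE
  set A : ℤ → ℤ → ℤ → ℝ := fun w z z' => pr σ0 (fr4 T0 T1 a (F' k2) (sl k - sl k2) (sl k0 - sl k2)
          (sl k1 - sl k2) w z z') with hA
  set B : ℤ → ℤ → ℤ → ℝ := fun w z z' => pr σ1 (fr4 T1 T2 b (F' k0) (sl k - sl k0) (sl k1 - sl k0)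
          (sl k2 - sl k0) w z z') with hB
  obtain ⟨q0, hq0⟩ := hO.i0
  obtain ⟨q1, hq1⟩ := hO.i1
  obtain ⟨q2, hq2⟩ := hO.i2
  -- supports
  have hcs : ∀ x y, c' x y ≠ 0 → q2 ≤ x ∧ x < q2 + 2 ^ J.1 ∧ q0 ≤ y ∧ y < q0 + 2 ^ J.1 := by
    intro x y h
    rw [hc'] at h
    unfold mg at h
    by_cases hm : x ∈ T2 ∧ y ∈ T0
    · have h1 := hm.1
      have h2 := hm.2
      rw [hq2, Finset.mem_Ico] at h1
      rw [hq0, Finset.mem_Ico] at h2
      push_cast at h1 h2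
      exact ⟨h1.1, h1.2, h2.1, h2.2⟩
    · rw [if_neg hm] at h
      exact absurd rfl h
  have hc1 : ∀ x y, ‖c' x y‖ ≤ 1 := mg_le hO.c1
  have hprz : ∀ σ : Bool, pr σ (0 : ℂ) = 0 := fun σ => by unfold pr; split_ifs <;> simp
  have hAfs : ∀ w, FS (A w) := fun w => fs_of_mem (T := T0) (T' := T1) fun x y hxy => by
    refine supp_line (a := a) (F := F' k2) (al := sl k - sl k2) (be := sl k0 - sl k2)
      (ga := sl k1 - sl k2) (w := w) fun h0 => hxy ?_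
    simp only [hA]
    rw [h0, hprz]
  have hBfs : ∀ w, FS (B w) := fun w => fs_of_mem (T := T1) (T' := T2) fun x y hxy => by
    refine supp_line (a := b) (F := F' k0) (al := sl k - sl k0) (be := sl k1 - sl k0)
      (ga := sl k2 - sl k0) (w := w) fun h0 => hxy ?_
    simp only [hB]
    rw [h0, hprz]
  -- sup
  have hH0 : 0 ≤ H := by linarith
  have hHf0 : 0 ≤ Hf := by linarith
  set HA : ℝ := √(Hf * Ht) * H with hHA
  have hHA2 : HA ^ 2 = H ^ 2 * Hf * Ht := by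
    rw [hHA, mul_pow, Real.sq_sqrt (by positivity)]; ring
  have hAs : ∀ w x y, |A w x y| ≤ HA := fun w x y =>
    (abs_pr_le _ _).trans (sup_line (Real.sqrt_nonneg _) hH0
      (fun z _ z' _ => Real.le_sqrt_of_sq_le (hO.a_sup hHf0 z z')) (hF'H k2 h4.h2.symm) _ _ _)
  have hBs : ∀ w x y, |B w x y| ≤ HA := fun w x y =>
    (abs_pr_le _ _).trans (sup_line (Real.sqrt_nonneg _) hH0
      (fun z _ z' _ => Real.le_sqrt_of_sq_le (hO.b_sup hHf0 z z')) (hF'H k0 h4.h0.symm) _ _ _)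
  -- frozen values
  obtain ⟨w0, hw0⟩ := fr4_w (T := T0) (T' := T1) (a := a) (F := F' k2) (J := J)
    (α := sl k - sl k2) (β := sl k0 - sl k2) (γ := sl k1 - sl k2) (hF'0 k2)
    ((sl_facts _ _).1 h4.h2) (sl_facts _ _).2 (sl_facts _ _).2 (t := q0) (t' := q1)
    (by rw [hq0]; push_cast; exact le_rfl) (by rw [hq1]; push_cast; exact le_rfl)
  set W1 : Finset ℤ := Ico w0 (w0 + ((271 * 2 ^ J.1 : ℕ) : ℤ)) with hW1
  have hW1c : (W1.card : ℝ) = 271 * n := by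
    rw [hW1, Int.card_Ico, add_sub_cancel_left, Int.toNat_natCast]
    push_cast
    rfl
  have h0 : ∀ w, w ∉ W1 → (∀ x y, A w x y = 0) ∨ (∀ x y, B w x y = 0) := fun w hw =>
    Or.inl fun x y => by
      simp only [hA]
      rw [hw0 w hw, hprz]
  -- energies
  have hn2 : ((2 ^ J.1 : ℕ) : ℝ) = n := by push_cast; rfl
  have hXe : ∀ j, j ≠ k → ∑ y ∈ iv J, ‖F' j y‖ ^ 2 ≤ 128 * n := fun j hj => by
    refine (sum_sq_av (hF'av j hj J hJR)).trans (le_of_eq ?_)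
    rw [hlen]; ring
  have hEA : ∀ X Y : Finset ℤ, ∑ w ∈ W1, ∑ x ∈ X, ∑ y ∈ Y, A w x y ^ 2 ≤ 128 * n ^ 3 := fun X Y => by
    refine (en_line_pr (T := T0) (T' := T1) (a := a) (be := sl k0 - sl k2) (ga := sl k1 - sl k2)
      ((sl_facts _ _).1 h4.h2) (hF'0 k2) σ0 W1 X Y).trans ?_
    have h1 := hO.a_all
    rw [hn2] at h1
    calc _ ≤ n ^ 2 * (128 * n) := mul_le_mul h1 (hXe k2 h4.h2.symm)
          (Finset.sum_nonneg fun _ _ => sq_nonneg _) (by positivity)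
      _ = _ := by ring
  have hEB : ∀ X Y : Finset ℤ, ∑ w ∈ W1, ∑ x ∈ X, ∑ y ∈ Y, B w x y ^ 2 ≤ 128 * n ^ 3 := fun X Y => by
    refine (en_line_pr (T := T1) (T' := T2) (a := b) (be := sl k1 - sl k0) (ga := sl k2 - sl k0)
      ((sl_facts _ _).1 h4.h0) (hF'0 k0) σ1 W1 X Y).trans ?_
    have h1 := hO.b_all
    rw [hn2] at h1
    calc _ ≤ n ^ 2 * (128 * n) := mul_le_mul h1 (hXe k0 h4.h0.symm)
          (Finset.sum_nonneg fun _ _ => sq_nonneg _) (by positivity)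
      _ = _ := by ring
  have hcard : ((Ico (q2 - 2 ^ (J.1 + 1)) (q2 + 2 ^ J.1 + 2 ^ (J.1 + 1))).card : ℝ) = 5 * n := by
    rw [Int.card_Ico, show q2 + 2 ^ J.1 + 2 ^ (J.1 + 1) - (q2 - 2 ^ (J.1 + 1)) =
      ((5 * 2 ^ J.1 : ℕ) : ℤ) by push_cast; rw [pow_succ]; ring, Int.toNat_natCast]
    push_cast
    rfl
  -- the killer
  have hCeq : ∀ w, (fun z z' => pr σ2 (fr4 T2 T0 c (F' k1) α β γ w z z')) =
      fun z z' => pr σ2 (kw c' (F' k1) α β γ w z z') := fun w => by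
    funext z z'
    rw [fr4_eq_kw]
  -- GOOD
  have hG : ∑ w ∈ Wf, Tw (fun m p0 p1 p2 => Gd k k0 k1 k2 R m w p0 p1 p2 ∧
      GoodB R J c' (F' k1) α β γ s (s ^ 2) w m p0 p2) (A w) (B w)
      (fun z z' => pr σ2 (kw c' (F' k1) α β γ w z z')) (J.1 + 1) L1 l w ≤
      K1 * (1 + Real.log (1 + H ^ 4 * Hf * Ht / s ^ 2)) * (251 * s * (399 * n ^ 3)) := by
    have hτ : 81 * s + 170 * 1 * √(s ^ 2) = 251 * s := by
      rw [Real.sqrt_sq hs.le]; ring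
    have h1 := hgood l hl k k0 k1 k2 h4 R J hR c' (F' k1) q2 (q2 + 2 ^ J.1) q0 (q0 + 2 ^ J.1) hc1
      hcs s (s ^ 2) 1 hs.le (sq_nonneg _) zero_le_one (by rw [hτ]; positivity)
      (hF'av k1 h4.h1.symm) H (hF'H k1 h4.h1.symm) σ2 A B HA HA (n ^ 2) (n ^ 2) (128 * n ^ 3)
      (128 * n ^ 3) W1 hAfs hBfs (by positivity) (by positivity) hAs hBs h0 hEA hEB Wf L1
    refine h1.trans ?_
    rw [hτ, hcard, hW1c, hlen, hHA2]
    have e1 : 128 * n ^ 3 + 271 * n * n ^ 2 = 399 * n ^ 3 := by ring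
    rw [e1]
    have e2 : 251 * s * √(399 * n ^ 3) * √(399 * n ^ 3) = 251 * s * (399 * n ^ 3) := by
      rw [mul_assoc, Real.mul_self_sqrt (by positivity)]
    rw [e2]
    refine mul_le_mul_of_nonneg_right ?_ (by positivity)
    refine mul_le_mul_of_nonneg_left ?_ hK1
    refine add_le_add le_rfl (Real.log_le_log (by positivity) ?_)
    refine add_le_add le_rfl ?_
    have e3 : H ^ 2 * (5 * n * (128 * n)) * (H ^ 2 * Hf * Ht / n ^ 2 + H ^ 2 * Hf * Ht / n ^ 2) /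
        (251 * s) ^ 2 = (1280 / 63001) * (H ^ 4 * Hf * Ht / s ^ 2) := by
      field_simp
      ring
    rw [e3]
    have h5 : 0 ≤ H ^ 4 * Hf * Ht / s ^ 2 := by positivity
    linarith
  -- REST
  set ρ : ℝ := Hf * D * Lt / s ^ 2 with hρ
  have hHt3 : 1 ≤ Lt := hLt1
  have hρ0 : 0 < ρ := by positivity
  have hAB' := hAB k k0 k1 k2 h4 R J hR c' (F' k1) s (s ^ 2) D (by positivity) hD.le hE' th Ht Hf q1
    (2 ^ J.1) hO.th0 hHt hHf0 hO.thH (fun z hz => by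
      by_contra hcon
      refine hz (hO.ths z fun hm => hcon ?_)
      rw [hq1, Finset.mem_Ico] at hm
      exact hm) F' w0 (271 * 2 ^ J.1) W1 le_rfl
  have hbd : Hf * (C0 * 1 ^ 2 * (D / s ^ 2) * Lt *
      ((((271 * 2 ^ J.1 : ℕ) : ℝ) + 2 ^ J.1) * 2 ^ J.1 *
      (∑ z ∈ Ico q1 (q1 + ((2 ^ J.1 : ℕ) : ℤ)), th z + ((2 ^ J.1 : ℕ) : ℝ) + 2 ^ J.1))) ≤
      816 * C0 * ρ * n ^ 3 := by
    have h1 : ∑ z ∈ Ico q1 (q1 + ((2 ^ J.1 : ℕ) : ℤ)), th z ≤ n := by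
      have := hO.thS
      rw [hq1, hn2] at this
      exact this
    have e1 : ((271 * 2 ^ J.1 : ℕ) : ℝ) = 271 * n := by push_cast; rfl
    rw [e1, hn2, ← hn]
    have h2 : (271 * n + n) * n * (∑ z ∈ Ico q1 (q1 + ((2 ^ J.1 : ℕ) : ℤ)), th z + n + n) ≤
        816 * n ^ 3 := by
      calc _ ≤ (271 * n + n) * n * (n + n + n) := by
            refine mul_le_mul_of_nonneg_left ?_ (by positivity)
            linarith
        _ = _ := by ring
    calc _ ≤ Hf * (C0 * 1 ^ 2 * (D / s ^ 2) * Lt * (816 * n ^ 3)) := by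
          refine mul_le_mul_of_nonneg_left ?_ hHf0
          exact mul_le_mul_of_nonneg_left h2 (by positivity)
      _ = _ := by rw [hρ]; ring
  have hRA : ∀ X Y : Finset ℤ, ∑ w ∈ W1, ∑ x ∈ X, ∑ y ∈ Y,
      (if RsP R J c' (F' k1) α β γ s (s ^ 2) w (-w - x - y) x then A w x y ^ 2 else 0) ≤
      816 * C0 * ρ * n ^ 3 := by
    intro X Y
    refine le_trans ?_ ((hAB'.1 T0 T1 a 1 hO.aH (hF'av k2 h4.h2.symm) X Y).trans hbd)
    refine Finset.sum_le_sum fun w _ => Finset.sum_le_sum fun x _ => Finset.sum_le_sum fun y _ => ?_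
    split_ifs
    · rw [← sq_abs]
      exact pow_le_pow_left₀ (abs_nonneg _) (abs_pr_le _ _) 2
    · exact le_rfl
  have hRB : ∀ X Y : Finset ℤ, ∑ w ∈ W1, ∑ x ∈ X, ∑ y ∈ Y,
      (if RsP R J c' (F' k1) α β γ s (s ^ 2) w y (-w - x - y) then B w x y ^ 2 else 0) ≤
      816 * C0 * ρ * n ^ 3 := by
    intro X Y
    refine le_trans ?_ ((hAB'.2 T1 T2 b 1 hO.bH (hF'av k0 h4.h0.symm) X Y).trans hbd)
    refine Finset.sum_le_sum fun w _ => Finset.sum_le_sum fun x _ => Finset.sum_le_sum fun y _ => ?_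
    split_ifs
    · rw [← sq_abs]
      exact pow_le_pow_left₀ (abs_nonneg _) (abs_pr_le _ _) 2
    · exact le_rfl
  have hRr : ∑ w ∈ Wf, Tw (fun m p0 p1 p2 => Gd k k0 k1 k2 R m w p0 p1 p2 ∧
      ¬ GoodB R J c' (F' k1) α β γ s (s ^ 2) w m p0 p2) (A w) (B w)
      (fun z z' => pr σ2 (kw c' (F' k1) α β γ w z z')) (J.1 + 1) L1 l w ≤
      K2 * (1 + Real.log (1 + 5 * H ^ 4 * Ht / D)) * (16 * ((816 * C0 + 271) * ρ * n ^ 3)) := by
    have h1 := hrest l hl k k0 k1 k2 h4 R J hR c' (F' k1) q2 (q2 + 2 ^ J.1) q0 (q0 + 2 ^ J.1) hc1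
      hcs s (s ^ 2) 16 (by norm_num) (fun w m q u hOm => by
        have := KLrx138.op_om h4.cof (hF'av k1 h4.h1.symm) hc1 hOm
        rw [mul_one] at this
        exact this) H (hF'H k1 h4.h1.symm) σ2 A B HA HA (ρ * n ^ 2) (ρ * n ^ 2)
      (816 * C0 * ρ * n ^ 3) (816 * C0 * ρ * n ^ 3) W1 hAfs hBfs (by positivity) (by positivity)
      hAs hBs h0 hRA hRB Wf L1
    refine h1.trans ?_
    rw [hcard, hW1c, hlen, hHA2]
    have e1 : 816 * C0 * ρ * n ^ 3 + 271 * n * (ρ * n ^ 2) = (816 * C0 + 271) * ρ * n ^ 3 := by ring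
    rw [e1]
    have e2 : 16 * √((816 * C0 + 271) * ρ * n ^ 3) * √((816 * C0 + 271) * ρ * n ^ 3) =
        16 * ((816 * C0 + 271) * ρ * n ^ 3) := by
      rw [mul_assoc, Real.mul_self_sqrt (by positivity)]
    rw [e2]
    refine mul_le_mul_of_nonneg_right ?_ (by positivity)
    refine mul_le_mul_of_nonneg_left ?_ hK2
    refine add_le_add le_rfl (Real.log_le_log (by positivity) ?_)
    refine add_le_add le_rfl ?_
    have e3 : H ^ 2 * (5 * n * (128 * n)) * (H ^ 2 * Hf * Ht / (ρ * n ^ 2) +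
        H ^ 2 * Hf * Ht / (ρ * n ^ 2)) / 16 ^ 2 = 5 * H ^ 4 * (Hf * Ht / ρ) := by
      field_simp
      ring
    rw [e3, show 5 * H ^ 4 * Ht / D = 5 * H ^ 4 * (Ht / D) by ring]
    refine mul_le_mul_of_nonneg_left ?_ (by positivity)
    rw [div_le_div_iff₀ hρ0 hD]
    -- `Hf Ht D ≤ Ht ρ`
    have h5 : Hf * D ≤ ρ := by
      rw [hρ, le_div_iff₀ (by positivity)]
      calc Hf * D * s ^ 2 ≤ Hf * D * 1 := by
            refine mul_le_mul_of_nonneg_left ?_ (by positivity)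
            exact pow_le_one₀ hs.le hs1
        _ ≤ Hf * D * Lt := mul_le_mul_of_nonneg_left hHt3 (by positivity)
    calc Hf * Ht * D = Ht * (Hf * D) := by ring
      _ ≤ Ht * ρ := mul_le_mul_of_nonneg_left h5 (by linarith)
  -- sum
  have hsplit : ∑ w ∈ Wf, Tw (fun m' p0 p1 p2 => Gd k k0 k1 k2 R m' w p0 p1 p2) (A w) (B w)
      (fun z z' => pr σ2 (fr4 T2 T0 c (F' k1) α β γ w z z')) (J.1 + 1) L1 l w ≤
      K1 * (1 + Real.log (1 + H ^ 4 * Hf * Ht / s ^ 2)) * (251 * s * (399 * n ^ 3)) +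
      K2 * (1 + Real.log (1 + 5 * H ^ 4 * Ht / D)) * (16 * ((816 * C0 + 271) * ρ * n ^ 3)) := by
    refine le_trans ?_ (add_le_add hG hRr)
    rw [← Finset.sum_add_distrib]
    refine Finset.sum_le_sum fun w _ => ?_
    rw [hCeq w]
    refine Tw_split _ _ _ _ _ _ _ fun m p0 p1 p2 hg => ?_
    by_cases hgd : GoodB R J c' (F' k1) α β γ s (s ^ 2) w m p0 p2
    · exact Or.inl ⟨hg, hgd⟩
    · exact Or.inr ⟨hg, hgd⟩
  refine hsplit.trans ?_
  have hl1 : 0 ≤ Real.log (1 + H ^ 4 * Hf * Ht / s ^ 2) := Real.log_nonneg (by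
    have : 0 ≤ H ^ 4 * Hf * Ht / s ^ 2 := by positivity
    linarith)
  have hl2 : 0 ≤ Real.log (1 + 5 * H ^ 4 * Ht / D) := Real.log_nonneg (by
    have : 0 ≤ 5 * H ^ 4 * Ht / D := by positivity
    linarith)
  set La := 1 + Real.log (1 + H ^ 4 * Hf * Ht / s ^ 2) with hLa
  set Lb := 1 + Real.log (1 + 5 * H ^ 4 * Ht / D) with hLb
  have hLa0 : 0 ≤ La := by linarith
  have hLb0 : 0 ≤ Lb := by linarith
  have t1 : 0 ≤ K1 * (251 * 399) * (Lb * ρ * n ^ 3) := by positivity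
  have t2 : 0 ≤ K2 * (16 * (816 * C0 + 271)) * (La * s * n ^ 3) := by positivity
  nlinarith [t1, t2]

/-- **THE KILL LEMMA** in 276's literal -/
theorem killN_log : ∃ C : ℝ, 0 ≤ C ∧ OpK276.KillN (fun s D Ht Hf H =>
    C * ((1 + Real.log (1 + H ^ 4 * Hf * Ht / s ^ 2)) * s +
      (1 + Real.log (1 + 5 * H ^ 4 * Ht / D)) * (Hf * D * (1 + Real.log Ht) / s ^ 2))) := by
  obtain ⟨C, hC, hmain⟩ := kill_words_log
  refine ⟨C / 16, by positivity, ?_⟩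
  intro i m e e' hi hm hd bb ε hA W I hW F s D Ht Hf H hs hs1 hD hD1 hHt hHf hH ψ hψ hFi hav hFH hE
  set n : ℝ := (2 : ℝ) ^ I.1 with hn
  have hn0 : 0 < n := by positivity
  have hlen : len I = 128 * n := by unfold len; rw [pow_add]; norm_num; ring
  set Q : ℝ := (1 + Real.log (1 + H ^ 4 * Hf * Ht / s ^ 2)) * s +
      (1 + Real.log (1 + 5 * H ^ 4 * Ht / D)) * (Hf * D * (1 + Real.log Ht) / s ^ 2) with hQ
  have h1 := TR_opS (κ := 1 / n ^ 2) hd (by linarith) (by linarith) (C * (Q * n ^ 3)) hA hW.reg F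
    (by positivity) hψ (fun y hy => by
      rw [hFi y hy, hn]
      push_cast
      ring) (fun T0 T1 T2 a b c th hO l hl σ0 σ1 σ2 Wf L1 =>
      hmain i e' m e (d4_of hd) W I hW F s D Ht Hf H hs hs1 hD hD1 hHt hHf hH hav hFH T0 T1 T2 a b c
        th hO (hE _ (mg_le hO.c1)) l hl σ0 σ1 σ2 Wf L1)
  refine h1.trans (le_of_eq ?_)
  show 1 / n ^ 2 * (8 * (C * (Q * n ^ 3))) = C / 16 * Q * len I
  rw [hlen]
  field_simp
  ring

end Crest.Agent.R079.KLx446
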