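import Crest.Agent.R079.Lq1_853
import Crest.Agent.R079.L0A_406
import Crest.Agent.R079.GridDefs_569
import Mathlib
import Crest.Agent.R079.BoxDefs_406
import Crest.Agent.R079.Spine_796
import Crest.Agent.R079.L0e_292
import Crest.Agent.R079.QDefs_248

-- ▼ part R079/Lq2_853
section

/-! R079, L5 item 0 (helper853), part 2: **class bound ⟹ GridBound**.

`BBq q` = bound of the tree regions by local `L^q` averages in the slots `0,1,2` and the sup norm in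
slot `3`; `gridBound_of_BBq : 1 ≤ q → q < 3 → BBq q → GridBound`. -/

set_option autoImplicit false

namespace Crest.Agent.R079.Lq853

open Finset Grid L0e

/-- normalised local `L^q` norm on `dI k l` -/
noncomputable def avq (q : ℝ) (k : ℕ) (l : ℤ) (f : ℤ → ℂ) : ℝ :=
  ((1 / 2 ^ k) * ∑ y ∈ dI k l, ‖f y‖ ^ q) ^ (1 / q)

/-- class bound: local `L^q` in the slots `0,1,2`, sup norm in slot `3`. -/
def BBq (q : ℝ) : Prop :=
  ∃ C : ℝ, 0 ≤ C ∧ ∀ b : ℤ, b = -1 ∨ b = -7 → ∀ ε : ℕ → ℤ → ℂ, (∀ m x, ‖ε m x‖ ≤ 1) →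
    ∀ (R : Finset (ℕ × ℤ)) (J : ℕ × ℤ), IsRegion R J →
    ∀ (F : Fin 4 → ℤ → ℂ) (A : Fin 4 → ℝ), (∀ j, 0 ≤ A j) →
      (∀ j, j ≠ 3 → ∀ p ∈ R, avq q (p.1 + 7) p.2 (F j) ≤ A j) → (∀ x, ‖F 3 x‖ ≤ A 3) →
      ‖∑ p ∈ R, TI b ε F p‖ ≤ C * 2 ^ (J.1 + 7) * ∏ j, A j

lemma avq_nonneg (q : ℝ) (k : ℕ) (l : ℤ) (f : ℤ → ℂ) : 0 ≤ avq q k l f := by
  unfold avq
  exact Real.rpow_nonneg (mul_nonneg (by positivity)
    (Finset.sum_nonneg fun y _ => Real.rpow_nonneg (norm_nonneg _) _)) _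

/-- auxiliary letter `|f|^(q/2)` -/
noncomputable def aux (q : ℝ) (f : ℤ → ℂ) (y : ℤ) : ℂ := ((‖f y‖ ^ (q / 2) : ℝ) : ℂ)

lemma norm_aux (q : ℝ) (f : ℤ → ℂ) (y : ℤ) : ‖aux q f y‖ = ‖f y‖ ^ (q / 2) := by
  unfold aux
  rw [Complex.norm_real, Real.norm_of_nonneg (Real.rpow_nonneg (norm_nonneg _) _)]

lemma norm_aux_rpow (q s : ℝ) (f : ℤ → ℂ) (y : ℤ) :
    ‖aux q f y‖ ^ s = ‖f y‖ ^ (q / 2 * s) := by
  rw [norm_aux, ← Real.rpow_mul (norm_nonneg _)]

lemma avq_eq (q : ℝ) (hq : 0 < q) (k : ℕ) (l : ℤ) (f : ℤ → ℂ) :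
    avq q k l f = av2 k l (aux q f) ^ (2 / q) := by
  unfold avq av2
  have e : ∑ y ∈ dI k l, ‖aux q f y‖ ^ 2 = ∑ y ∈ dI k l, ‖f y‖ ^ q := by
    refine Finset.sum_congr rfl fun y _ => ?_
    rw [← Real.rpow_natCast, norm_aux_rpow]
    congr 1
    push_cast
    ring
  rw [e, Real.sqrt_eq_rpow, ← Real.rpow_mul]
  · congr 1
    field_simp
  · exact mul_nonneg (by positivity)
      (Finset.sum_nonneg fun y _ => Real.rpow_nonneg (norm_nonneg _) _)

/-- auxiliary tuple -/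
noncomputable def auxF (q : ℝ) (F : Fin 4 → ℤ → ℂ) : Fin 4 → ℤ → ℂ :=
  ![aux q (F 0), aux q (F 1), aux q (F 2), F 3]

lemma av2_aux_zero (q : ℝ) (hq : 0 < q) (k : ℕ) (l : ℤ) (f : ℤ → ℂ)
    (h : av2 k l (aux q f) = 0) : av2 k l f = 0 := by
  have h1 := sum_sq_eq k l (aux q f)
  rw [h] at h1
  have h2 : ∑ y ∈ dI k l, ‖aux q f y‖ ^ 2 = 0 := by rw [h1]; ring
  rw [Finset.sum_eq_zero_iff_of_nonneg (fun y _ => by positivity)] at h2
  have h3 : ∀ y ∈ dI k l, ‖f y‖ = 0 := by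
    intro y hy
    have h4 := h2 y hy
    rw [pow_eq_zero_iff (by norm_num), norm_aux] at h4
    rw [Real.rpow_eq_zero (norm_nonneg _) (by positivity)] at h4
    exact h4
  unfold av2
  rw [Finset.sum_eq_zero fun y hy => by rw [h3 y hy]; norm_num]
  simp

lemma leaf_total_th (q : ℝ) (hq : 0 < q) (hq3 : q < 3) (T : ℕ) (F : Fin 4 → ℤ → ℂ) (A B : ℤ)
    (hF : ∀ j, (Function.support (F j)).Finite) :
    ∑ l ∈ Finset.Ico (A * 2 ^ T) (B * 2 ^ T), 2 ^ 7 * G T (auxF q F) (0, l) ^ (2 / q) ≤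
      (4 / (6 / q - 2) * 2 ^ (6 / q) + 1) ^ 3 * (l3 (F 0) * l3 (F 1) * l3 (F 2)) := by
  set s : ℝ := 6 / q with hs
  have hs2 : 2 < s := by
    rw [hs, lt_div_iff₀ hq]
    linarith
  set K : ℝ := 4 / (s - 2) * 2 ^ s with hK
  have hK0 : 0 ≤ K := by
    have : 0 < s - 2 := by linarith
    positivity
  have hM : ∀ f : ℤ → ℂ, (Function.support f).Finite →
      ∑ l ∈ Finset.Ico (A * 2 ^ T) (B * 2 ^ T), 2 ^ 7 * (Mr T (aux q f) T l ^ (2 / q)) ^ 3 ≤
      ((K + 1) * l3 f) ^ 3 := by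
    intro f hf
    have h1 := max_thm_s s hs2 T (aux q f) A B
    have e1 : ∀ l, (Mr T (aux q f) T l ^ (2 / q)) ^ 3 = Mr T (aux q f) T l ^ s := by
      intro l
      rw [← Real.rpow_natCast, ← Real.rpow_mul (Mr_nonneg _ _ _ _)]
      congr 1
      rw [hs]
      push_cast
      ring
    have e2 : ∀ y, ‖aux q f y‖ ^ s = ‖f y‖ ^ 3 := by
      intro y
      rw [norm_aux_rpow, ← Real.rpow_natCast]
      congr 1
      rw [hs]
      push_cast
      field_simp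
      norm_num
    simp only [e1]
    refine h1.trans ?_
    simp only [e2]
    have h2 := sum_leaf_le f hf (Finset.Ico (A * 2 ^ T) (B * 2 ^ T))
    have h3 : K * ∑ l ∈ Finset.Ico (A * 2 ^ T) (B * 2 ^ T), ∑ y ∈ dI 7 l, ‖f y‖ ^ 3 ≤
        K * l3 f ^ 3 := mul_le_mul_of_nonneg_left h2 hK0
    refine h3.trans ?_
    rw [mul_pow]
    refine mul_le_mul_of_nonneg_right ?_ (pow_nonneg (L0e.l3_nonneg f) 3)
    nlinarith [pow_nonneg hK0 3, pow_nonneg hK0 2]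
  have h := holder3 (Finset.Ico (A * 2 ^ T) (B * 2 ^ T)) (fun _ => 2 ^ 7)
    (fun l => Mr T (aux q (F 0)) T l ^ (2 / q)) (fun l => Mr T (aux q (F 1)) T l ^ (2 / q))
    (fun l => Mr T (aux q (F 2)) T l ^ (2 / q)) (fun _ _ => by positivity)
    (fun _ _ => Real.rpow_nonneg (Mr_nonneg _ _ _ _) _)
    (fun _ _ => Real.rpow_nonneg (Mr_nonneg _ _ _ _) _)
    (fun _ _ => Real.rpow_nonneg (Mr_nonneg _ _ _ _) _)
    ((K + 1) * l3 (F 0)) ((K + 1) * l3 (F 1)) ((K + 1) * l3 (F 2))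
    (mul_nonneg (by linarith) (L0e.l3_nonneg _))
    (mul_nonneg (by linarith) (L0e.l3_nonneg _)) (mul_nonneg (by linarith) (L0e.l3_nonneg _))
    (hM (F 0) (hF 0)) (hM (F 1) (hF 1)) (hM (F 2) (hF 2))
  have e : ∀ l : ℤ, G T (auxF q F) (0, l) ^ (2 / q) = Mr T (aux q (F 0)) T l ^ (2 / q) *
      Mr T (aux q (F 1)) T l ^ (2 / q) * Mr T (aux q (F 2)) T l ^ (2 / q) := by
    intro l
    have e0 : G T (auxF q F) (0, l) = Mr T (aux q (F 0)) T l * Mr T (aux q (F 1)) T l *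
        Mr T (aux q (F 2)) T l := by
      unfold G auxF
      simp
    rw [e0, Real.mul_rpow (mul_nonneg (Mr_nonneg _ _ _ _) (Mr_nonneg _ _ _ _))
      (Mr_nonneg _ _ _ _), Real.mul_rpow (Mr_nonneg _ _ _ _) (Mr_nonneg _ _ _ _)]
  simp only [e]
  refine h.trans (le_of_eq ?_)
  ring

/-- **class bound ⟹ GridBound** -/
theorem gridBound_of_BBq (q : ℝ) (hq1 : 1 ≤ q) (hq3 : q < 3) : BBq q → GridBound := by
  classical
  have hq : 0 < q := by linarith
  have hth1 : (1 / 2 : ℝ) ≤ 2 / q := by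
    rw [div_le_div_iff₀ (by norm_num) hq]
    linarith
  have hth2 : 2 / q ≤ 2 := by
    rw [div_le_iff₀ hq]
    linarith
  have hth0 : 0 ≤ 2 / q := by positivity
  rintro ⟨C, hC, hBB⟩
  set K : ℝ := (4 / (6 / q - 2) * 2 ^ (6 / q) + 1) ^ 3 with hK
  have hK0 : 0 ≤ K := by
    have : 0 < 6 / q - 2 := by
      have : 2 < 6 / q := by
        rw [lt_div_iff₀ hq]
        linarith
      linarith
    positivity
  refine ⟨(2 ^ (2 / q)) ^ 3 * C * (16 * K), by positivity, ?_⟩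
  intro b hb ε hε R F hF hF3
  -- universe
  obtain ⟨T, hT⟩ : ∃ T : ℕ, ∀ p ∈ R, p.1 ≤ T :=
    ⟨R.sup Prod.fst, fun p hp => Finset.le_sup (f := Prod.fst) hp⟩
  obtain ⟨L, hL⟩ : ∃ L : ℤ, ∀ p ∈ R, |p.2| < L := by
    refine ⟨1 + ∑ p ∈ R, |p.2|, fun p hp => ?_⟩
    have := Finset.single_le_sum (f := fun p : ℕ × ℤ => |p.2|) (fun q _ => abs_nonneg q.2) hp
    omega
  have hRU : R ⊆ U T (-L) L := by
    intro p hp
    rw [mem_U]
    have h1 := hL p hp
    have h2 : (1 : ℤ) ≤ 2 ^ (T - p.1) := one_le_pow₀ (by norm_num)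
    have h3 : L ≤ L * 2 ^ (T - p.1) := by
      have : 0 ≤ L := (abs_nonneg p.2).trans h1.le
      nlinarith
    rw [abs_lt] at h1
    refine ⟨hT p hp, ?_, ?_⟩ <;> linarith [h1.1, h1.2]
  set ε' := epsR ε R with hε'
  have hε1 : ∀ m x, ‖ε' m x‖ ≤ 1 := epsR_le ε R hε
  set F' := auxF q F with hF'
  have hF'3 : ∀ x, ‖F' 3 x‖ ≤ 1 := hF3
  have s1 : ∑ p ∈ R, TI b ε F p = ∑ p ∈ U T (-L) L, TI b ε' F p := by
    rw [← Finset.sum_subset hRU]
    · refine Finset.sum_congr rfl fun p hp => ?_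
      rw [hε', TI_epsR, if_pos hp]
    · intro p _ hp
      rw [hε', TI_epsR, if_neg hp]
  have s2 : ∑ p ∈ U T (-L) L, TI b ε' F p = ∑ p ∈ U' T F' (-L) L, TI b ε' F p := by
    unfold U'
    rw [Finset.sum_filter]
    refine Finset.sum_congr rfl fun p hp => ?_
    split_ifs with h
    · rfl
    · have hG : G T F' p = 0 := le_antisymm (not_lt.mp h) (G_nonneg T F' p)
      have hpT := (mem_U.mp hp).1
      have hav : ∀ f : ℤ → ℂ, av2 (p.1 + 7) p.2 f ≤ Mr T f (T - p.1) p.2 := by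
        intro f
        have := av2_le_Mr T f (T - p.1) p.2
        rwa [show T - (T - p.1) + 7 = p.1 + 7 by omega] at this
      have hz : ∃ j, av2 (p.1 + 7) p.2 (F j) = 0 := by
        unfold G at hG
        rcases mul_eq_zero.mp hG with h1 | h1
        · rcases mul_eq_zero.mp h1 with h2 | h2
          · exact ⟨0, av2_aux_zero q hq _ _ _ (le_antisymm
              (by rw [← h2]; exact hav (aux q (F 0))) (av2_nonneg _ _ _))⟩
          · exact ⟨1, av2_aux_zero q hq _ _ _ (le_antisymm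
              (by rw [← h2]; exact hav (aux q (F 1))) (av2_nonneg _ _ _))⟩
        · exact ⟨2, av2_aux_zero q hq _ _ _ (le_antisymm
              (by rw [← h1]; exact hav (aux q (F 2))) (av2_nonneg _ _ _))⟩
      obtain ⟨j, hj⟩ := hz
      have h4 := norm_TI_le b hb ε' hε1 F p
      rw [Finset.prod_eq_zero (Finset.mem_univ j) hj, mul_zero] at h4
      exact norm_le_zero_iff.mp h4
  have s3 : ∑ p ∈ U' T F' (-L) L, TI b ε' F p =
      ∑ J ∈ tops T F' (-L) L, ∑ p ∈ RJ T F' (-L) L J, TI b ε' F p := by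
    unfold RJ
    rw [Finset.sum_fiberwise_of_maps_to]
    exact fun p hp => topn_mem hp
  rw [s1, s2, s3]
  have hJ : ∀ J ∈ tops T F' (-L) L, ‖∑ p ∈ RJ T F' (-L) L J, TI b ε' F p‖ ≤
      (2 ^ (2 / q)) ^ 3 * C * (2 ^ (J.1 + 7) * G T F' J ^ (2 / q)) := by
    intro J _
    have n0 := Mr_nonneg T (aux q (F 0)) (T - J.1) J.2
    have n1 := Mr_nonneg T (aux q (F 1)) (T - J.1) J.2
    have n2 := Mr_nonneg T (aux q (F 2)) (T - J.1) J.2
    have hav : ∀ p ∈ RJ T F' (-L) L J, ∀ j : Fin 4, av2 (p.1 + 7) p.2 (F' j) ≤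
        (![2 * Mr T (F' 0) (T - J.1) J.2, 2 * Mr T (F' 1) (T - J.1) J.2,
          2 * Mr T (F' 2) (T - J.1) J.2, 1] : Fin 4 → ℝ) j :=
      fun p hp j => RJ_av T F' (-L) L J p hp hF'3 j
    have h := hBB b hb ε' hε1 (RJ T F' (-L) L J) J (RJ_region T F' (-L) L J) F
      ![(2 * Mr T (aux q (F 0)) (T - J.1) J.2) ^ (2 / q),
        (2 * Mr T (aux q (F 1)) (T - J.1) J.2) ^ (2 / q),
        (2 * Mr T (aux q (F 2)) (T - J.1) J.2) ^ (2 / q), 1] (by
          intro j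
          fin_cases j
          · exact Real.rpow_nonneg (mul_nonneg (by norm_num) n0) _
          · exact Real.rpow_nonneg (mul_nonneg (by norm_num) n1) _
          · exact Real.rpow_nonneg (mul_nonneg (by norm_num) n2) _
          · exact zero_le_one)
      (by
        intro j hj3 p hp
        rw [avq_eq q hq]
        fin_cases j
        · exact Real.rpow_le_rpow (av2_nonneg _ _ _) (hav p hp 0) hth0
        · exact Real.rpow_le_rpow (av2_nonneg _ _ _) (hav p hp 1) hth0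
        · exact Real.rpow_le_rpow (av2_nonneg _ _ _) (hav p hp 2) hth0
        · exact absurd rfl hj3)
      hF3
    refine h.trans (le_of_eq ?_)
    rw [Fin.prod_univ_four]
    have e0 : G T F' J = Mr T (aux q (F 0)) (T - J.1) J.2 * Mr T (aux q (F 1)) (T - J.1) J.2 *
        Mr T (aux q (F 2)) (T - J.1) J.2 := rfl
    rw [e0, Real.mul_rpow (mul_nonneg n0 n1) n2, Real.mul_rpow n0 n1]
    simp only [Matrix.cons_val_zero, Matrix.cons_val_one, Matrix.cons_val]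
    rw [Real.mul_rpow (by norm_num) n0, Real.mul_rpow (by norm_num) n1,
      Real.mul_rpow (by norm_num) n2]
    ring
  calc ‖∑ J ∈ tops T F' (-L) L, ∑ p ∈ RJ T F' (-L) L J, TI b ε' F p‖
      ≤ ∑ J ∈ tops T F' (-L) L, (2 ^ (2 / q)) ^ 3 * C * (2 ^ (J.1 + 7) * G T F' J ^ (2 / q)) :=
        (norm_sum_le _ _).trans (Finset.sum_le_sum hJ)
    _ = (2 ^ (2 / q)) ^ 3 * C * ∑ J ∈ tops T F' (-L) L, 2 ^ (J.1 + 7) * G T F' J ^ (2 / q) := by
        rw [Finset.mul_sum]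
    _ ≤ (2 ^ (2 / q)) ^ 3 * C * (16 * (K * (l3 (F 0) * l3 (F 1) * l3 (F 2)))) := by
        refine mul_le_mul_of_nonneg_left ?_ (by positivity)
        refine (sum_tops_th (2 / q) hth1 hth2 T F' (-L) L).trans ?_
        exact mul_le_mul_of_nonneg_left (leaf_total_th q hq hq3 T F (-L) L hF) (by norm_num)
    _ = _ := by ring

end Crest.Agent.R079.Lq853
end

-- ▼ part R079/L0B_406
section

/-! R079, LAYER 0 (helper406), part B: the principal value as a limit of box averages. -/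

set_option autoImplicit false
set_option linter.unusedSectionVars false

open MeasureTheory Set Filter Topology

namespace Crest.Agent.R079.L0

section
variable {B : ℝ} {f₁ f₂ f₃ : ℝ → ℂ}

lemma Ph_int (h1 : Good B f₁) (h2 : Good B f₂) (h3 : Good B f₃) (x : ℝ) :
    Integrable fun t => Ph f₁ f₂ f₃ x t := by
  have hi : Integrable fun t => f₁ (x - t) := h1.int.comp_sub_left x
  refine Integrable.mono' ((hi.norm).const_mul (B ^ 2)) ?_ (ae_of_all _ fun t => ?_)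
  · have hc : Continuous fun t => Ph f₁ f₂ f₃ x t :=
      (Ph_cont h1 h2 h3).comp (continuous_const.prodMk continuous_id)
    exact hc.aestronglyMeasurable
  · exact Ph_bd h1 h2 h3 x t

lemma Ph_cont' (h1 : Good B f₁) (h2 : Good B f₂) (h3 : Good B f₃) (x : ℝ) :
    Continuous fun t => Ph f₁ f₂ f₃ x t :=
  (Ph_cont h1 h2 h3).comp (continuous_const.prodMk continuous_id)

lemma Ph_lip (h1 : Good B f₁) (h2 : Good B f₂) (h3 : Good B f₃) (x t u : ℝ) :
    ‖Ph f₁ f₂ f₃ x t - Ph f₁ f₂ f₃ x u‖ ≤ 6 * B ^ 3 * |t - u| := by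
  have hB := h1.nonneg
  set a := f₁ (x - t)
  set b := f₂ (x - 2 * t)
  set c := f₃ (x - 3 * t)
  set a' := f₁ (x - u)
  set b' := f₂ (x - 2 * u)
  set c' := f₃ (x - 3 * u)
  have ea : ‖a - a'‖ ≤ B * |t - u| := by
    have := h1.lip (x - t) (x - u)
    rwa [show x - t - (x - u) = -(t - u) by ring, abs_neg] at this
  have eb : ‖b - b'‖ ≤ 2 * B * |t - u| := by
    have := h2.lip (x - 2 * t) (x - 2 * u)
    rw [show x - 2 * t - (x - 2 * u) = -(2 * (t - u)) by ring, abs_neg, abs_mul,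
      abs_of_pos (by norm_num : (0 : ℝ) < 2)] at this
    linarith
  have ec : ‖c - c'‖ ≤ 3 * B * |t - u| := by
    have := h3.lip (x - 3 * t) (x - 3 * u)
    rw [show x - 3 * t - (x - 3 * u) = -(3 * (t - u)) by ring, abs_neg, abs_mul,
      abs_of_pos (by norm_num : (0 : ℝ) < 3)] at this
    linarith
  have key : Ph f₁ f₂ f₃ x t - Ph f₁ f₂ f₃ x u = (a - a') * b * c + a' * (b - b') * c +
      a' * b' * (c - c') := by
    show a * b * c - a' * b' * c' = _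
    ring
  have nb : ‖b‖ ≤ B := h2.bd _
  have nc : ‖c‖ ≤ B := h3.bd _
  have na' : ‖a'‖ ≤ B := h1.bd _
  have nb' : ‖b'‖ ≤ B := h2.bd _
  rw [key]
  calc ‖(a - a') * b * c + a' * (b - b') * c + a' * b' * (c - c')‖
      ≤ ‖a - a'‖ * ‖b‖ * ‖c‖ + ‖a'‖ * ‖b - b'‖ * ‖c‖ + ‖a'‖ * ‖b'‖ * ‖c - c'‖ := by
        refine (norm_add₃_le).trans ?_
        simp only [norm_mul]
        rfl
    _ ≤ (B * |t - u|) * B * B + B * (2 * B * |t - u|) * B + B * B * (3 * B * |t - u|) := by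
        gcongr
    _ = 6 * B ^ 3 * |t - u| := by ring

/-- symmetric difference quotient -/
noncomputable def Dx (f₁ f₂ f₃ : ℝ → ℂ) (x t : ℝ) : ℂ :=
  (Ph f₁ f₂ f₃ x t - Ph f₁ f₂ f₃ x (-t)) / (t : ℂ)

lemma Dx_int (h1 : Good B f₁) (h2 : Good B f₂) (h3 : Good B f₃) (x : ℝ) :
    IntegrableOn (Dx f₁ f₂ f₃ x) (Ioi 0) := by
  have hB := h1.nonneg
  have hmeas : Measurable (Dx f₁ f₂ f₃ x) := by
    unfold Dx
    have m1 := (Ph_cont' h1 h2 h3 x).measurable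
    have m2 : Measurable fun t : ℝ => Ph f₁ f₂ f₃ x (-t) := m1.comp measurable_neg
    exact (m1.sub m2).div Complex.measurable_ofReal
  have hsplit : Ioi (0 : ℝ) = Ioc 0 1 ∪ Ioi 1 := (Ioc_union_Ioi_eq_Ioi zero_le_one).symm
  rw [hsplit]
  refine IntegrableOn.union ?_ ?_
  · refine Integrable.mono' (g := fun _ => 12 * B ^ 3) ?_ hmeas.aestronglyMeasurable ?_
    · exact integrableOn_const (by simp) 
    · refine (ae_restrict_iff' measurableSet_Ioc).2 (ae_of_all _ fun t ht => ?_)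
      rw [Dx, norm_div, Complex.norm_real, Real.norm_of_nonneg ht.1.le, div_le_iff₀ ht.1]
      refine (Ph_lip h1 h2 h3 x t (-t)).trans ?_
      rw [show t - -t = 2 * t by ring, abs_of_pos (by linarith [ht.1])]
      linarith
  · have hi := Ph_int h1 h2 h3 x
    have hi2 : Integrable fun t => Ph f₁ f₂ f₃ x (-t) := hi.comp_neg
    refine Integrable.mono' (g := fun t => ‖Ph f₁ f₂ f₃ x t‖ + ‖Ph f₁ f₂ f₃ x (-t)‖)
      (hi.norm.add hi2.norm).integrableOn hmeas.aestronglyMeasurable ?_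
    refine (ae_restrict_iff' measurableSet_Ioi).2 (ae_of_all _ fun t ht => ?_)
    have ht1 : (1 : ℝ) < t := ht
    have ht0 : (0 : ℝ) < t := by linarith
    rw [Dx, norm_div, Complex.norm_real, Real.norm_of_nonneg ht0.le, div_le_iff₀ ht0]
    refine (norm_sub_le _ _).trans ?_
    have : 0 ≤ ‖Ph f₁ f₂ f₃ x t‖ + ‖Ph f₁ f₂ f₃ x (-t)‖ := by positivity
    nlinarith

/-- the principal value -/
noncomputable def PV (f₁ f₂ f₃ : ℝ → ℂ) (x : ℝ) : ℂ := ∫ t in Ioi (0 : ℝ), Dx f₁ f₂ f₃ x t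

lemma trunc_eq (h1 : Good B f₁) (h2 : Good B f₂) (h3 : Good B f₃) (x : ℝ) {ε : ℝ}
    (hε : 0 < ε) :
    ∫ t in (Icc (-ε) ε)ᶜ, f₁ (x - t) * f₂ (x - 2 * t) * f₃ (x - 3 * t) / (t : ℂ) =
      ∫ t in Ioi ε, Dx f₁ f₂ f₃ x t := by
  have hset : (Icc (-ε) ε)ᶜ = Iio (-ε) ∪ Ioi ε := by
    ext t
    simp only [mem_compl_iff, mem_Icc, not_and_or, not_le, mem_union, mem_Iio, mem_Ioi]
  have hi := Ph_int h1 h2 h3 x
  have hi2 : Integrable fun t => Ph f₁ f₂ f₃ x (-t) := hi.comp_neg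
  have m1 := (Ph_cont' h1 h2 h3 x).measurable
  have hdiv : ∀ (F : ℝ → ℂ), Integrable F → Measurable F →
      ∀ s : Set ℝ, MeasurableSet s → (∀ t ∈ s, ε ≤ |t|) → IntegrableOn (fun t => F t / (t : ℂ)) s := by
    intro F hF hFm s hs hse
    refine Integrable.mono' (g := fun t => ε⁻¹ * ‖F t‖) ((hF.norm.const_mul _).integrableOn)
      (hFm.div Complex.measurable_ofReal).aestronglyMeasurable ?_
    refine (ae_restrict_iff' hs).2 (ae_of_all _ fun t ht => ?_)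
    have h := hse t ht
    rw [norm_div, Complex.norm_real, Real.norm_eq_abs, div_eq_inv_mul]
    gcongr
  have hI1 : IntegrableOn (fun t : ℝ => Ph f₁ f₂ f₃ x t / (t : ℂ)) (Iio (-ε)) :=
    hdiv _ hi m1 _ measurableSet_Iio fun t ht => by
      have ht : t < -ε := ht
      rw [abs_of_neg (by linarith)]
      linarith
  have hI2 : IntegrableOn (fun t : ℝ => Ph f₁ f₂ f₃ x t / (t : ℂ)) (Ioi ε) :=
    hdiv _ hi m1 _ measurableSet_Ioi fun t ht => by
      have ht : ε < t := ht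
      rw [abs_of_pos (by linarith)]
      linarith
  have hI3 : IntegrableOn (fun t : ℝ => Ph f₁ f₂ f₃ x (-t) / (t : ℂ)) (Ioi ε) :=
    hdiv _ hi2 (m1.comp measurable_neg) _ measurableSet_Ioi fun t ht => by
      have ht : ε < t := ht
      rw [abs_of_pos (by linarith)]
      linarith
  change ∫ t in (Icc (-ε) ε)ᶜ, Ph f₁ f₂ f₃ x t / (t : ℂ) = _
  rw [hset, setIntegral_union (by
    rw [Set.disjoint_left]
    intro t h1 h2
    have h1 : t < -ε := h1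
    have h2 : ε < t := h2
    linarith) measurableSet_Ioi hI1 hI2]
  have hneg : ∫ t in Iio (-ε), Ph f₁ f₂ f₃ x t / (t : ℂ) =
      ∫ t in Ioi ε, -(Ph f₁ f₂ f₃ x (-t) / (t : ℂ)) := by
    have h := integral_comp_neg_Ioi (-ε) (fun t : ℝ => Ph f₁ f₂ f₃ x t / (t : ℂ))
    rw [neg_neg] at h
    have h2 := integral_comp_neg_Ioi ε (fun t : ℝ => Ph f₁ f₂ f₃ x t / (t : ℂ))
    rw [← integral_Iic_eq_integral_Iio, ← h2]
    refine setIntegral_congr_fun measurableSet_Ioi fun t _ => ?_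
    push_cast
    rw [div_neg]
  have hI3' : IntegrableOn (fun t : ℝ => -(Ph f₁ f₂ f₃ x (-t) / (t : ℂ))) (Ioi ε) := hI3.neg
  rw [hneg, ← integral_add hI3' hI2]
  refine setIntegral_congr_fun measurableSet_Ioi fun t _ => ?_
  simp only [Dx]
  ring

theorem eq_PV (h1 : Good B f₁) (h2 : Good B f₂) (h3 : Good B f₃) (x : ℝ) {T : ℂ}
    (hT : Tendsto (fun ε : ℝ => ∫ t in (Set.Icc (-ε) ε)ᶜ,
      f₁ (x - t) * f₂ (x - 2 * t) * f₃ (x - 3 * t) / (t : ℂ)) (𝓝[>] 0) (𝓝 T)) :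
    T = PV f₁ f₂ f₃ x := by
  have h4 : Tendsto (fun ε : ℝ => ∫ t in Ioi ε, Dx f₁ f₂ f₃ x t) (𝓝[>] 0) (𝓝 T) := by
    refine hT.congr' ?_
    filter_upwards [self_mem_nhdsWithin] with ε hε
    exact trunc_eq h1 h2 h3 x hε
  -- sequence 2^{-n}
  have h5 : Tendsto (fun n : ℕ => ((1 / 2 : ℝ) ^ n)) atTop (𝓝[>] 0) := by
    rw [tendsto_nhdsWithin_iff]
    refine ⟨tendsto_pow_atTop_nhds_zero_of_lt_one (by norm_num) (by norm_num), ?_⟩
    exact Eventually.of_forall fun n => by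
      show (0 : ℝ) < (1 / 2) ^ n
      positivity
  have h6 := h4.comp h5
  have hU : (⋃ n : ℕ, Ioi ((1 / 2 : ℝ) ^ n)) = Ioi 0 := by
    ext t
    simp only [mem_iUnion, mem_Ioi]
    constructor
    · rintro ⟨n, hn⟩
      exact lt_trans (by positivity) hn
    · intro ht
      exact exists_pow_lt_of_lt_one ht (by norm_num)
  have h7 := tendsto_setIntegral_of_monotone (μ := volume) (f := Dx f₁ f₂ f₃ x)
    (s := fun n : ℕ => Ioi ((1 / 2 : ℝ) ^ n)) (fun n => measurableSet_Ioi)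
    (fun a b hab => Ioi_subset_Ioi (pow_le_pow_of_le_one (by norm_num) (by norm_num) hab))
    (by rw [hU]; exact Dx_int h1 h2 h3 x)
  rw [hU] at h7
  exact tendsto_nhds_unique h6 h7


/-- scale integral -/
noncomputable def Jm (f₁ f₂ f₃ : ℝ → ℂ) (x : ℝ) (m : ℕ) (w : ℝ) : ℂ :=
  ∫ r in Ioo ((1 / 2 : ℝ) ^ m) (2 ^ m), (Ph f₁ f₂ f₃ x (r * w) - Ph f₁ f₂ f₃ x (-(r * w))) / (r : ℂ)

lemma quot_pos (x : ℝ) {w : ℝ} (hw : 0 < w) (r : ℝ) :
    (Ph f₁ f₂ f₃ x (r * w) - Ph f₁ f₂ f₃ x (-(r * w))) / (r : ℂ) =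
      (w : ℂ) * Dx f₁ f₂ f₃ x (r * w) := by
  have hw' : (w : ℂ) ≠ 0 := by exact_mod_cast hw.ne'
  rw [Dx]
  rcases eq_or_ne r 0 with rfl | hr
  · simp
  have hr' : (r : ℂ) ≠ 0 := by exact_mod_cast hr
  push_cast
  field_simp

lemma quot_int_pos (h1 : Good B f₁) (h2 : Good B f₂) (h3 : Good B f₃) (x : ℝ) {w : ℝ}
    (hw : 0 < w) :
    IntegrableOn (fun r : ℝ => (Ph f₁ f₂ f₃ x (r * w) - Ph f₁ f₂ f₃ x (-(r * w))) / (r : ℂ))
      (Ioi 0) ∧
    ∫ r in Ioi (0 : ℝ), (Ph f₁ f₂ f₃ x (r * w) - Ph f₁ f₂ f₃ x (-(r * w))) / (r : ℂ) =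
      PV f₁ f₂ f₃ x ∧
    ∫ r in Ioi (0 : ℝ), ‖(Ph f₁ f₂ f₃ x (r * w) - Ph f₁ f₂ f₃ x (-(r * w))) / (r : ℂ)‖ =
      ∫ r in Ioi (0 : ℝ), ‖Dx f₁ f₂ f₃ x r‖ := by
  have hD := Dx_int h1 h2 h3 x
  have hw' : (w : ℂ) ≠ 0 := by exact_mod_cast hw.ne'
  simp only [quot_pos x hw]
  have hi : IntegrableOn (fun r : ℝ => Dx f₁ f₂ f₃ x (r * w)) (Ioi 0) := by
    have := (integrableOn_Ioi_comp_mul_right_iff (Dx f₁ f₂ f₃ x) 0 hw).2
    rw [zero_mul] at this
    exact this hD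
  refine ⟨hi.const_mul _, ?_, ?_⟩
  · rw [integral_const_mul, integral_comp_mul_right_Ioi (fun r => Dx f₁ f₂ f₃ x r) 0 hw,
      zero_mul, Complex.real_smul, ← mul_assoc]
    rw [PV]
    push_cast
    rw [mul_inv_cancel₀ hw', one_mul]
  · simp only [norm_mul, Complex.norm_real, Real.norm_of_nonneg hw.le]
    rw [integral_const_mul, integral_comp_mul_right_Ioi (fun r => ‖Dx f₁ f₂ f₃ x r‖) 0 hw,
      zero_mul, smul_eq_mul, ← mul_assoc, mul_inv_cancel₀ hw.ne', one_mul]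

lemma iUnion_Ioo : (⋃ n : ℕ, Ioo ((1 / 2 : ℝ) ^ n) (2 ^ n)) = Ioi 0 := by
  ext t
  simp only [mem_iUnion, mem_Ioi, mem_Ioo]
  constructor
  · rintro ⟨n, hn, _⟩
    exact lt_trans (by positivity) hn
  · intro ht
    obtain ⟨a, ha⟩ := exists_pow_lt_of_lt_one ht (by norm_num : (1 / 2 : ℝ) < 1)
    obtain ⟨b, hb⟩ := pow_unbounded_of_one_lt t (by norm_num : (1 : ℝ) < 2)
    refine ⟨max a b, lt_of_le_of_lt ?_ ha, lt_of_lt_of_le hb ?_⟩
    · exact pow_le_pow_of_le_one (by norm_num) (by norm_num) (le_max_left _ _)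
    · exact pow_le_pow_right₀ (by norm_num) (le_max_right _ _)

lemma Ioo_mono : Monotone fun n : ℕ => Ioo ((1 / 2 : ℝ) ^ n) (2 ^ n) := by
  intro a b hab
  exact Ioo_subset_Ioo (pow_le_pow_of_le_one (by norm_num) (by norm_num) hab)
    (pow_le_pow_right₀ (by norm_num) hab)

lemma Ioo_sub_Ioi (m : ℕ) : Ioo ((1 / 2 : ℝ) ^ m) (2 ^ m) ⊆ Ioi 0 := fun r hr =>
  lt_trans (by positivity) hr.1

lemma Jm_pos (h1 : Good B f₁) (h2 : Good B f₂) (h3 : Good B f₃) (x : ℝ) {w : ℝ} (hw : 0 < w) :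
    Tendsto (fun m => Jm f₁ f₂ f₃ x m w) atTop (𝓝 (PV f₁ f₂ f₃ x)) ∧
    ∀ m, ‖Jm f₁ f₂ f₃ x m w‖ ≤ ∫ r in Ioi (0 : ℝ), ‖Dx f₁ f₂ f₃ x r‖ := by
  obtain ⟨hi, hv, hn⟩ := quot_int_pos h1 h2 h3 x hw
  constructor
  · have h7 := tendsto_setIntegral_of_monotone (μ := volume)
      (f := fun r : ℝ => (Ph f₁ f₂ f₃ x (r * w) - Ph f₁ f₂ f₃ x (-(r * w))) / (r : ℂ))
      (s := fun n : ℕ => Ioo ((1 / 2 : ℝ) ^ n) (2 ^ n)) (fun n => measurableSet_Ioo) Ioo_mono
      (by rw [iUnion_Ioo]; exact hi)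
    rw [iUnion_Ioo, hv] at h7
    exact h7
  · intro m
    rw [← hn]
    refine (norm_integral_le_integral_norm _).trans ?_
    exact setIntegral_mono_set hi.norm (ae_of_all _ fun r => norm_nonneg _)
      (HasSubset.Subset.eventuallyLE (Ioo_sub_Ioi m))

lemma Jm_neg (x : ℝ) (m : ℕ) (w : ℝ) : Jm f₁ f₂ f₃ x m (-w) = -Jm f₁ f₂ f₃ x m w := by
  rw [Jm, Jm, ← integral_neg]
  refine integral_congr_ae (ae_of_all _ fun r => ?_)
  simp only [mul_neg, neg_neg]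
  ring

lemma Jm_zero (x : ℝ) (m : ℕ) : Jm f₁ f₂ f₃ x m 0 = 0 := by
  simp [Jm]

theorem Jm_tendsto (h1 : Good B f₁) (h2 : Good B f₂) (h3 : Good B f₃) (x w : ℝ) :
    Tendsto (fun m => Jm f₁ f₂ f₃ x m w) atTop (𝓝 (((Real.sign w : ℝ) : ℂ) * PV f₁ f₂ f₃ x)) ∧
    ∀ m, ‖Jm f₁ f₂ f₃ x m w‖ ≤ ∫ r in Ioi (0 : ℝ), ‖Dx f₁ f₂ f₃ x r‖ := by
  rcases lt_trichotomy w 0 with hw | rfl | hw
  · obtain ⟨ha, hb⟩ := Jm_pos h1 h2 h3 x (neg_pos.2 hw)
    have e : ∀ m, Jm f₁ f₂ f₃ x m w = -Jm f₁ f₂ f₃ x m (-w) := fun m => by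
      rw [Jm_neg, neg_neg]
    constructor
    · simp only [e, Real.sign_of_neg hw]
      simpa using ha.neg
    · intro m
      rw [e, norm_neg]
      exact hb m
  · constructor
    · simp [Jm_zero]
    · intro m
      rw [Jm_zero, norm_zero]
      exact integral_nonneg fun r => norm_nonneg _
  · obtain ⟨ha, hb⟩ := Jm_pos h1 h2 h3 x hw
    refine ⟨?_, hb⟩
    simpa [Real.sign_of_pos hw] using ha

end

end Crest.Agent.R079.L0
end

-- ▼ part R079/L0C_406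
section

/-! R079, LAYER 0 (helper406), part C: the approximations `T_m` and the constant `c0`. -/

set_option autoImplicit false
set_option linter.unusedSectionVars false

open MeasureTheory Set Filter Topology

namespace Crest.Agent.R079.L0

/-! ### cube facts -/

lemma cube_refl (q : Fin 4 → ℝ) : (1 - q) ∈ cube ↔ q ∈ cube := by
  simp only [cube, mem_Icc, Pi.le_def, Pi.zero_apply, Pi.one_apply, Pi.sub_apply]
  constructor
  · rintro ⟨h1, h2⟩
    exact ⟨fun i => by linarith [h2 i], fun i => by linarith [h1 i]⟩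
  · rintro ⟨h1, h2⟩
    exact ⟨fun i => by linarith [h2 i], fun i => by linarith [h1 i]⟩

lemma ep_refl {x : ℝ} (hx : x ≠ 1 / 2) : ep (1 - x) = -ep x := by
  unfold ep
  rcases lt_or_gt_of_ne hx with h | h
  · rw [if_neg (by linarith), if_pos h]
  · rw [if_pos (by linarith), if_neg (by linarith)]
    norm_num

lemma ae_ne_half : ∀ᵐ q : Fin 4 → ℝ, ∀ i, q i ≠ 1 / 2 := by
  rw [ae_all_iff]
  intro i
  exact Measure.ae_eval_ne (μ := fun _ : Fin 4 => (volume : Measure ℝ)) i (1 / 2)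

lemma ep4_refl {q : Fin 4 → ℝ} (hq : ∀ i, q i ≠ 1 / 2) : ep4 (1 - q) = ep4 q := by
  unfold ep4
  simp only [Pi.sub_apply, Pi.one_apply, ep_refl (hq _), Fin.prod_univ_four]
  ring

/-- reflection in the centre of the cube -/
lemma cube_reflect (G : (Fin 4 → ℝ) → ℂ) :
    ∫ q in cube, ((ep4 q : ℝ) : ℂ) * G (1 - q) = ∫ q in cube, ((ep4 q : ℝ) : ℂ) * G q := by
  have hm : MeasurableSet cube := measurableSet_Icc
  rw [← integral_indicator hm, ← integral_indicator hm]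
  rw [← integral_sub_left_eq_self (fun q => cube.indicator (fun q => ((ep4 q : ℝ) : ℂ) * G q) q)
    volume (1 : Fin 4 → ℝ)]
  refine integral_congr_ae ?_
  filter_upwards [ae_ne_half] with q hq
  by_cases h : q ∈ cube
  · rw [indicator_of_mem h, indicator_of_mem ((cube_refl q).2 h), ep4_refl hq]
  · rw [indicator_of_notMem h, indicator_of_notMem (fun h' => h ((cube_refl q).1 h'))]

lemma integral_ep : ∫ x in Icc (0 : ℝ) 1, ep x = 0 := by
  have h1 : ∫ x in Icc (0 : ℝ) 1, ep x = ∫ x in (0 : ℝ)..1, ep x := by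
    rw [integral_Icc_eq_integral_Ioc, intervalIntegral.integral_of_le zero_le_one]
  have hii : ∀ a b : ℝ, IntervalIntegrable ep volume a b := fun a b => by
    refine (intervalIntegrable_const (c := (1 : ℝ))).mono_fun
      measurable_ep.aestronglyMeasurable (ae_of_all _ fun x => ?_)
    simp [Real.norm_eq_abs, ep_abs]
  rw [h1, ← intervalIntegral.integral_add_adjacent_intervals (hii 0 (1 / 2)) (hii (1 / 2) 1)]
  have h2 : ∫ x in (0 : ℝ)..(1 / 2), ep x = ∫ x in (0 : ℝ)..(1 / 2), (1 : ℝ) := by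
    refine intervalIntegral.integral_congr_ae ?_
    have hne : ∀ᵐ x : ℝ, x ≠ 1 / 2 := by
      rw [ae_iff]
      simp
    filter_upwards [hne] with x hx hx2
    rw [uIoc_of_le (by norm_num)] at hx2
    rw [ep, if_pos (lt_of_le_of_ne hx2.2 hx)]
  have h3 : ∫ x in (1 / 2 : ℝ)..1, ep x = ∫ x in (1 / 2 : ℝ)..1, (-1 : ℝ) := by
    refine intervalIntegral.integral_congr_ae (ae_of_all _ fun x hx => ?_)
    rw [uIoc_of_le (by norm_num)] at hx
    rw [ep, if_neg (not_lt.2 hx.1.le)]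
  rw [h2, h3]
  simp
  norm_num

lemma cube_eq : cube = univ.pi fun _ : Fin 4 => Icc (0 : ℝ) 1 := by
  rw [cube, ← pi_univ_Icc]
  rfl

lemma integral_ep4 : ∫ q in cube, ep4 q = 0 := by
  have h : (volume.restrict cube : Measure (Fin 4 → ℝ)) =
      Measure.pi fun _ : Fin 4 => (volume.restrict (Icc (0 : ℝ) 1)) := by
    rw [cube_eq, volume_pi, Measure.restrict_pi_pi]
  rw [h]
  have := integral_fintype_prod_eq_prod (𝕜 := ℝ) (ι := Fin 4) (E := fun _ => ℝ)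
    (μ := fun _ => volume.restrict (Icc (0 : ℝ) 1)) (fun _ x => ep x)
  unfold ep4
  rw [this]
  simp [integral_ep]

/-- `w(q)` -/
noncomputable def wq (q : Fin 4 → ℝ) : ℝ := -1 / 2 + ∑ i, q i

lemma measurable_wq : Measurable wq := by
  unfold wq
  fun_prop

/-- the constant -/
noncomputable def c0 : ℝ := ∫ q in cube, ep4 q * Real.sign (wq q)

lemma ae_wq_ne : ∀ᵐ q : Fin 4 → ℝ, wq q ≠ 0 := by
  let S : AffineSubspace ℝ (Fin 4 → ℝ) :=
    { carrier := {q | wq q = 0}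
      smul_vsub_vadd_mem' := by
        intro c p1 p2 p3 h1 h2 h3
        simp only [mem_ofPred_eq, wq] at *
        simp only [vsub_eq_sub, vadd_eq_add, Pi.add_apply, Pi.smul_apply, Pi.sub_apply,
          smul_eq_mul, Finset.sum_add_distrib, ← Finset.mul_sum, Finset.sum_sub_distrib]
        have e1 : ∑ i, p1 i = 1 / 2 := by linarith
        have e2 : ∑ i, p2 i = 1 / 2 := by linarith
        rw [e1, e2]
        linarith }
  have hS : S ≠ ⊤ := by
    intro h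
    have : (0 : Fin 4 → ℝ) ∈ S := by rw [h]; trivial
    have h2 : wq 0 = 0 := this
    simp [wq] at h2
  have := Measure.addHaar_affineSubspace volume S hS
  rw [ae_iff]
  have hset : {a : Fin 4 → ℝ | ¬ wq a ≠ 0} = (S : Set (Fin 4 → ℝ)) := by
    ext a
    show ¬ wq a ≠ 0 ↔ wq a = 0
    exact not_not
  rw [hset]
  exact this

lemma c0_neg : c0 < 0 := by
  have hm : MeasurableSet cube := measurableSet_Icc
  have hms : Measurable fun q : Fin 4 → ℝ => Real.sign (wq q) := by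
    have : Measurable Real.sign := by
      unfold Real.sign
      exact Measurable.ite measurableSet_Iio measurable_const
        (Measurable.ite measurableSet_Ioi measurable_const measurable_const)
    exact this.comp measurable_wq
  have hb : ∀ w : ℝ, |Real.sign w| ≤ 1 := by
    intro w
    rcases Real.sign_apply_eq w with h | h | h <;> simp [h]
  have i1 : Integrable (fun q => ep4 q * Real.sign (wq q)) (volume.restrict cube) := by
    refine Integrable.mono' (integrable_const (1 : ℝ))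
      (measurable_ep4.mul hms).aestronglyMeasurable (ae_of_all _ fun q => ?_)
    rw [Real.norm_eq_abs, abs_mul, ep4_abs, one_mul]
    exact hb _
  have i2 : Integrable (fun q => ep4 q) (volume.restrict cube) := by
    refine Integrable.mono' (integrable_const (1 : ℝ)) measurable_ep4.aestronglyMeasurable
      (ae_of_all _ fun q => ?_)
    rw [Real.norm_eq_abs, ep4_abs]
  let S : Set (Fin 4 → ℝ) := {q | wq q < 0}
  have hS : MeasurableSet S := measurableSet_lt measurable_wq measurable_const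
  have h1 : c0 = ∫ q in cube, S.indicator (fun _ => (-2 : ℝ)) q := by
    have : c0 = ∫ q in cube, (ep4 q * Real.sign (wq q) - ep4 q) := by
      rw [integral_sub i1 i2, integral_ep4, sub_zero, c0]
    rw [this]
    refine integral_congr_ae ?_
    have hae : ∀ᵐ q ∂(volume.restrict cube), wq q ≠ 0 := ae_restrict_of_ae ae_wq_ne
    filter_upwards [hae, ae_restrict_mem hm] with q hq hqc
    by_cases h : wq q < 0
    · rw [indicator_of_mem (show q ∈ S from h), Real.sign_of_neg h]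
      have hq1 : ∀ i, q i < 1 / 2 := by
        intro i
        have hnn : ∀ j, 0 ≤ q j := fun j => hqc.1 j
        have := Finset.single_le_sum (f := q) (s := Finset.univ) (fun j _ => hnn j)
          (Finset.mem_univ i)
        unfold wq at h
        linarith
      have : ep4 q = 1 := by
        unfold ep4
        refine Finset.prod_eq_one fun i _ => ?_
        rw [ep, if_pos (hq1 i)]
      rw [this]; norm_num
    · have h2 : 0 < wq q := lt_of_le_of_ne (not_lt.1 h) (Ne.symm hq)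
      rw [indicator_of_notMem (show q ∉ S from h), Real.sign_of_pos h2]
      ring
  rw [h1, integral_indicator_const _ hS]
  have hpos : 0 < (volume.restrict cube S) := by
    rw [Measure.restrict_apply hS]
    have hO : IsOpen (univ.pi fun _ : Fin 4 => Ioo (0 : ℝ) (1 / 8)) :=
      isOpen_set_pi finite_univ fun i _ => isOpen_Ioo
    have hne : (univ.pi fun _ : Fin 4 => Ioo (0 : ℝ) (1 / 8)).Nonempty :=
      ⟨fun _ => 1 / 16, fun i _ => ⟨by norm_num, by norm_num⟩⟩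
    refine lt_of_lt_of_le (hO.measure_pos volume hne) (measure_mono fun q hq => ?_)
    have hq' : ∀ i, 0 < q i ∧ q i < 1 / 8 := fun i => hq i (mem_univ i)
    refine ⟨?_, ⟨fun i => (hq' i).1.le, fun i => by
      have := (hq' i).2
      simp only [Pi.one_apply]
      linarith⟩⟩
    show wq q < 0
    unfold wq
    rw [Fin.sum_univ_four]
    linarith [(hq' 0).2, (hq' 1).2, (hq' 2).2, (hq' 3).2]
  have hfin : (volume.restrict cube S) ≠ ⊤ := measure_ne_top _ _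
  have hr : 0 < (volume.restrict cube).real S := ENNReal.toReal_pos hpos.ne' hfin
  rw [smul_eq_mul]
  linarith

section
variable {B : ℝ} {f₁ f₂ f₃ : ℝ → ℂ}

/-- `∫ Φ(r w) dr / r` -/
noncomputable def Iv (f₁ f₂ f₃ : ℝ → ℂ) (x : ℝ) (m : ℕ) (w : ℝ) : ℂ :=
  ∫ r in Ioo ((1 / 2 : ℝ) ^ m) (2 ^ m), Ph f₁ f₂ f₃ x (r * w) / (r : ℂ)

lemma inv_le {m : ℕ} {r : ℝ} (hr : r ∈ Ioo ((1 / 2 : ℝ) ^ m) (2 ^ m)) : r⁻¹ ≤ 2 ^ m := by
  have h0 : (0 : ℝ) < (1 / 2) ^ m := by positivity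
  have h1 : r⁻¹ ≤ ((1 / 2 : ℝ) ^ m)⁻¹ := inv_anti₀ h0 hr.1.le
  refine h1.trans (le_of_eq ?_)
  rw [← inv_pow]
  norm_num

lemma Iv_int (h1 : Good B f₁) (h2 : Good B f₂) (h3 : Good B f₃) (x : ℝ) (m : ℕ) (w : ℝ) :
    IntegrableOn (fun r : ℝ => Ph f₁ f₂ f₃ x (r * w) / (r : ℂ)) (Ioo ((1 / 2 : ℝ) ^ m) (2 ^ m)) := by
  have hc := (Ph_cont' h1 h2 h3 x).measurable
  refine Integrable.mono' (g := fun _ => B ^ 3 * 2 ^ m) (integrableOn_const (by simp))
    ((hc.comp (measurable_id.mul_const w)).div Complex.measurable_ofReal).aestronglyMeasurable ?_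
  refine (ae_restrict_iff' measurableSet_Ioo).2 (ae_of_all _ fun r hr => ?_)
  have hr0 : 0 < r := Ioo_sub_Ioi m hr
  rw [norm_div, Complex.norm_real, Real.norm_of_nonneg hr0.le, div_eq_mul_inv]
  have hB := h1.nonneg
  exact mul_le_mul (Ph_bd3 h1 h2 h3 _ _) (inv_le hr) (by positivity) (by positivity)

lemma Iv_bd (h1 : Good B f₁) (h2 : Good B f₂) (h3 : Good B f₃) (x : ℝ) (m : ℕ) (w : ℝ) :
    ‖Iv f₁ f₂ f₃ x m w‖ ≤ B ^ 3 * 2 ^ m * (volume.real (Ioo ((1 / 2 : ℝ) ^ m) (2 ^ m))) := by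
  refine norm_setIntegral_le_of_norm_le_const (by simp) fun r hr => ?_
  have hr0 : 0 < r := Ioo_sub_Ioi m hr
  rw [norm_div, Complex.norm_real, Real.norm_of_nonneg hr0.le, div_eq_mul_inv]
  have hB := h1.nonneg
  exact mul_le_mul (Ph_bd3 h1 h2 h3 _ _) (inv_le hr) (by positivity) (by positivity)

lemma Iv_meas (h1 : Good B f₁) (h2 : Good B f₂) (h3 : Good B f₃) (x : ℝ) (m : ℕ) :
    Measurable (Iv f₁ f₂ f₃ x m) := by
  have hc := (Ph_cont' h1 h2 h3 x).measurable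
  have : StronglyMeasurable (fun p : ℝ × ℝ => Ph f₁ f₂ f₃ x (p.2 * p.1) / (p.2 : ℂ)) := by
    refine Measurable.stronglyMeasurable ?_
    exact (hc.comp (measurable_snd.mul measurable_fst)).div
      (Complex.measurable_ofReal.comp measurable_snd)
  exact (this.integral_prod_right' (ν := volume.restrict (Ioo ((1 / 2 : ℝ) ^ m) (2 ^ m)))).measurable

lemma Jm_eq (h1 : Good B f₁) (h2 : Good B f₂) (h3 : Good B f₃) (x : ℝ) (m : ℕ) (w : ℝ) :
    Jm f₁ f₂ f₃ x m w = Iv f₁ f₂ f₃ x m w - Iv f₁ f₂ f₃ x m (-w) := by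
  rw [Jm, Iv, Iv, ← integral_sub (Iv_int h1 h2 h3 x m w) (Iv_int h1 h2 h3 x m (-w))]
  refine integral_congr_ae (ae_of_all _ fun r => ?_)
  simp only [mul_neg, sub_div]

/-- the box average with shift `β` -/
noncomputable def Ab (f₁ f₂ f₃ : ℝ → ℂ) (β : ℝ) (m : ℕ) (x : ℝ) : ℂ :=
  ∫ q in cube, ((ep4 q : ℝ) : ℂ) * Iv f₁ f₂ f₃ x m (β + ∑ i, q i)

/-- approximation of the principal value -/
noncomputable def Tm (f₁ f₂ f₃ : ℝ → ℂ) (m : ℕ) (x : ℝ) : ℂ :=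
  Ab f₁ f₂ f₃ (-1 / 2) m x - Ab f₁ f₂ f₃ (-7 / 2) m x

lemma epI_int (h1 : Good B f₁) (h2 : Good B f₂) (h3 : Good B f₃) (x : ℝ) (m : ℕ)
    {w : (Fin 4 → ℝ) → ℝ} (hw : Measurable w) :
    Integrable (fun q => ((ep4 q : ℝ) : ℂ) * Iv f₁ f₂ f₃ x m (w q)) (volume.restrict cube) := by
  refine Integrable.mono' (integrable_const (B ^ 3 * 2 ^ m *
    (volume.real (Ioo ((1 / 2 : ℝ) ^ m) (2 ^ m)))))
    (measurable_ep4c.mul ((Iv_meas h1 h2 h3 x m).comp hw)).aestronglyMeasurable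
    (ae_of_all _ fun q => ?_)
  rw [norm_mul, Complex.norm_real, Real.norm_eq_abs, ep4_abs, one_mul]
  exact Iv_bd h1 h2 h3 x m _

lemma Tm_eq (h1 : Good B f₁) (h2 : Good B f₂) (h3 : Good B f₃) (x : ℝ) (m : ℕ) :
    Tm f₁ f₂ f₃ m x = ∫ q in cube, ((ep4 q : ℝ) : ℂ) * Jm f₁ f₂ f₃ x m (wq q) := by
  have e : Ab f₁ f₂ f₃ (-7 / 2) m x =
      ∫ q in cube, ((ep4 q : ℝ) : ℂ) * Iv f₁ f₂ f₃ x m (-(wq q)) := by
    rw [Ab, ← cube_reflect (fun q => Iv f₁ f₂ f₃ x m (-7 / 2 + ∑ i, q i))]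
    refine integral_congr_ae (ae_of_all _ fun q => ?_)
    have : -7 / 2 + ∑ i, (1 - q) i = -(wq q) := by
      simp only [wq, Pi.sub_apply, Pi.one_apply, Fin.sum_univ_four]
      ring
    simp only [this]
  rw [Tm, e, Ab]
  have i1 := epI_int h1 h2 h3 x m (w := fun q => -1 / 2 + ∑ i, q i) measurable_wq
  have i2 := epI_int h1 h2 h3 x m (w := fun q => -(wq q)) measurable_wq.neg
  rw [← integral_sub i1 i2]
  refine integral_congr_ae (ae_of_all _ fun q => ?_)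
  simp only
  rw [Jm_eq h1 h2 h3]
  simp only [wq]
  ring

lemma Jm_meas (h1 : Good B f₁) (h2 : Good B f₂) (h3 : Good B f₃) (x : ℝ) (m : ℕ) :
    Measurable (Jm f₁ f₂ f₃ x m) := by
  have : Jm f₁ f₂ f₃ x m = fun w => Iv f₁ f₂ f₃ x m w - Iv f₁ f₂ f₃ x m (-w) := by
    funext w
    exact Jm_eq h1 h2 h3 x m w
  rw [this]
  exact (Iv_meas h1 h2 h3 x m).sub ((Iv_meas h1 h2 h3 x m).comp measurable_neg)

theorem Tm_tendsto (h1 : Good B f₁) (h2 : Good B f₂) (h3 : Good B f₃) (x : ℝ) :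
    Tendsto (fun m => Tm f₁ f₂ f₃ m x) atTop (𝓝 ((c0 : ℂ) * PV f₁ f₂ f₃ x)) := by
  have hlim : (c0 : ℂ) * PV f₁ f₂ f₃ x = ∫ q in cube, ((ep4 q : ℝ) : ℂ) *
      (((Real.sign (wq q) : ℝ) : ℂ) * PV f₁ f₂ f₃ x) := by
    rw [c0]
    simp only [← mul_assoc]
    rw [integral_mul_const]
    congr 1
    rw [← integral_complex_ofReal]
    refine integral_congr_ae (ae_of_all _ fun q => ?_)
    simp
  rw [hlim]
  simp only [Tm_eq h1 h2 h3]
  refine tendsto_integral_of_dominated_convergence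
    (fun _ => ∫ r in Ioi (0 : ℝ), ‖Dx f₁ f₂ f₃ x r‖) ?_ (integrable_const _) ?_ ?_
  · intro m
    exact (measurable_ep4c.mul ((Jm_meas h1 h2 h3 x m).comp measurable_wq)).aestronglyMeasurable
  · intro m
    refine ae_of_all _ fun q => ?_
    rw [norm_mul, Complex.norm_real, Real.norm_eq_abs, ep4_abs, one_mul]
    exact (Jm_tendsto h1 h2 h3 x _).2 m
  · refine ae_of_all _ fun q => ?_
    exact ((Jm_tendsto h1 h2 h3 x _).1).const_mul _

end

end Crest.Agent.R079.L0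
end

-- ▼ part R079/L0Main_406
section

/-! R079, LAYER 0 (helper406), main file: `S0106 ⇐ BoxBound (-1/2) ∧ BoxBound (-7/2)`. -/

set_option autoImplicit false
set_option linter.unusedSectionVars false

open MeasureTheory Set Filter Topology

namespace Crest.Agent.R079.L0

section
variable {B : ℝ} {f₁ f₂ f₃ g : ℝ → ℂ}

/-- parameter space of the box averages -/
noncomputable def nu (m : ℕ) : Measure (ℝ × (Fin 4 → ℝ)) :=
  (volume.restrict (Ioo ((1 / 2 : ℝ) ^ m) (2 ^ m))).prod (volume.restrict cube)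

instance finI (m : ℕ) : IsFiniteMeasure (volume.restrict (Ioo ((1 / 2 : ℝ) ^ m) (2 ^ m))) := by
  constructor
  rw [Measure.restrict_apply_univ]
  simp

instance (m : ℕ) : IsFiniteMeasure (nu m) := by
  unfold nu
  infer_instance

/-- weight -/
noncomputable def Wz (z : ℝ × (Fin 4 → ℝ)) : ℂ := ((ep4 z.2 : ℝ) : ℂ) / (z.1 : ℂ)

lemma measurable_Wz : Measurable Wz :=
  (measurable_ep4c.comp measurable_snd).div (Complex.measurable_ofReal.comp measurable_fst)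

lemma measurable_tz (β : ℝ) : Measurable (fun z : ℝ × (Fin 4 → ℝ) => tq β z.1 z.2) := by
  unfold tq
  fun_prop

lemma Wz_bd (m : ℕ) : ∀ᵐ z ∂(nu m), ‖Wz z‖ ≤ (2 : ℝ) ^ m := by
  have hcube : MeasurableSet cube := measurableSet_Icc
  rw [nu, Measure.prod_restrict, ae_restrict_iff' (measurableSet_Ioo.prod hcube)]
  refine ae_of_all _ fun z hz => ?_
  have hr : z.1 ∈ Ioo ((1 / 2 : ℝ) ^ m) (2 ^ m) := hz.1
  have hr0 : 0 < z.1 := Ioo_sub_Ioi m hr
  rw [Wz, norm_div, Complex.norm_real, Complex.norm_real, Real.norm_eq_abs, ep4_abs,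
    Real.norm_of_nonneg hr0.le, one_div]
  exact inv_le hr

lemma WPh_int (h1 : Good B f₁) (h2 : Good B f₂) (h3 : Good B f₃) (β : ℝ) (m : ℕ) (x : ℝ) :
    Integrable (fun z => Wz z * Ph f₁ f₂ f₃ x (tq β z.1 z.2)) (nu m) := by
  refine Integrable.mono' (integrable_const ((2 : ℝ) ^ m * B ^ 3))
    (measurable_Wz.mul (((Ph_cont' h1 h2 h3 x).measurable).comp
      (measurable_tz β))).aestronglyMeasurable ?_
  filter_upwards [Wz_bd m] with z hz
  rw [norm_mul]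
  exact mul_le_mul hz (Ph_bd3 h1 h2 h3 _ _) (norm_nonneg _) (by positivity)

/-- the box average as one integral -/
lemma Ab_eq (h1 : Good B f₁) (h2 : Good B f₂) (h3 : Good B f₃) (β : ℝ) (m : ℕ) (x : ℝ) :
    Ab f₁ f₂ f₃ β m x = ∫ z, Wz z * Ph f₁ f₂ f₃ x (tq β z.1 z.2) ∂(nu m) := by
  have hi := WPh_int h1 h2 h3 β m x
  unfold nu at hi ⊢
  rw [integral_prod_symm _ hi]
  unfold Ab Iv
  refine integral_congr_ae (ae_of_all _ fun q => ?_)
  simp only
  rw [← integral_const_mul]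
  refine integral_congr_ae (ae_of_all _ fun r => ?_)
  simp only [Wz, tq]
  ring

lemma Ab_int (h1 : Good B f₁) (h2 : Good B f₂) (h3 : Good B f₃) (β : ℝ) (m : ℕ) :
    Integrable (Ab f₁ f₂ f₃ β m) := by
  have hmeas : Measurable (fun p : (ℝ × (Fin 4 → ℝ)) × ℝ =>
      Wz p.1 * Ph f₁ f₂ f₃ p.2 (tq β p.1.1 p.1.2)) := by
    refine (measurable_Wz.comp measurable_fst).mul ?_
    exact (Ph_cont h1 h2 h3).measurable.comp
      (measurable_snd.prodMk ((measurable_tz β).comp measurable_fst))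
  have h1' : ∀ x : ℝ, ‖(fun _ : ℝ => (1 : ℂ)) x‖ ≤ 1 := fun x => by simp
  have i1 : ∀ t : ℝ, Integrable fun x => Ph f₁ f₂ f₃ x t := fun t => by
    have := int_gPh h1 h2 h3 (g := fun _ => 1) measurable_const h1' t
    simpa using this
  have i2 : ∀ t : ℝ, ∫ x, ‖Ph f₁ f₂ f₃ x t‖ ≤ B ^ 2 * ∫ x, ‖f₁ x‖ := fun t => by
    have := int_norm_gPh h1 h2 h3 (g := fun _ => 1) measurable_const h1' t
    simpa using this
  have hint : Integrable (fun p : (ℝ × (Fin 4 → ℝ)) × ℝ =>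
      Wz p.1 * Ph f₁ f₂ f₃ p.2 (tq β p.1.1 p.1.2)) ((nu m).prod volume) := by
    rw [integrable_prod_iff hmeas.aestronglyMeasurable]
    refine ⟨ae_of_all _ fun z => (i1 (tq β z.1 z.2)).const_mul (Wz z), ?_⟩
    refine Integrable.mono' (integrable_const ((2 : ℝ) ^ m * (B ^ 2 * ∫ x, ‖f₁ x‖)))
      hmeas.aestronglyMeasurable.norm.integral_prod_right' ?_
    filter_upwards [Wz_bd m] with z hz
    rw [Real.norm_of_nonneg (integral_nonneg fun x => norm_nonneg _)]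
    simp only [norm_mul (Wz z)]
    rw [integral_const_mul]
    exact mul_le_mul hz (i2 (tq β z.1 z.2)) (integral_nonneg fun x => norm_nonneg _)
      (by positivity)
  have h := hint.integral_prod_right
  refine h.congr (ae_of_all _ fun x => ?_)
  exact (Ab_eq h1 h2 h3 β m x).symm

lemma Tm_int (h1 : Good B f₁) (h2 : Good B f₂) (h3 : Good B f₃) (m : ℕ) :
    Integrable (Tm f₁ f₂ f₃ m) :=
  (Ab_int h1 h2 h3 _ m).sub (Ab_int h1 h2 h3 _ m)

lemma Ab_meas (h1 : Good B f₁) (h2 : Good B f₂) (h3 : Good B f₃) (β : ℝ) (m : ℕ) :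
    Measurable (Ab f₁ f₂ f₃ β m) := by
  have hmeas : StronglyMeasurable (fun p : ℝ × (ℝ × (Fin 4 → ℝ)) =>
      Wz p.2 * Ph f₁ f₂ f₃ p.1 (tq β p.2.1 p.2.2)) := by
    refine Measurable.stronglyMeasurable ?_
    refine (measurable_Wz.comp measurable_snd).mul ?_
    exact (Ph_cont h1 h2 h3).measurable.comp
      (measurable_fst.prodMk ((measurable_tz β).comp measurable_snd))
  have h := (hmeas.integral_prod_right' (ν := nu m)).measurable
  have e : Ab f₁ f₂ f₃ β m = fun x => ∫ z, Wz z * Ph f₁ f₂ f₃ x (tq β z.1 z.2) ∂(nu m) := by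
    funext x
    exact Ab_eq h1 h2 h3 β m x
  rw [e]
  exact h

lemma Tm_meas (h1 : Good B f₁) (h2 : Good B f₂) (h3 : Good B f₃) (m : ℕ) :
    Measurable (Tm f₁ f₂ f₃ m) :=
  (Ab_meas h1 h2 h3 _ m).sub (Ab_meas h1 h2 h3 _ m)

/-- the total box form at scale `r` -/
noncomputable def Gr (f₁ f₂ f₃ g : ℝ → ℂ) (β r : ℝ) : ℂ :=
  ∫ q in cube, ((ep4 q : ℝ) : ℂ) * Hf f₁ f₂ f₃ g (tq β r q)

lemma Gr_meas (h1 : Good B f₁) (h2 : Good B f₂) (h3 : Good B f₃) (hg : Measurable g) (β : ℝ) :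
    Measurable (Gr f₁ f₂ f₃ g β) := by
  have hmeas : StronglyMeasurable (fun p : ℝ × (Fin 4 → ℝ) =>
      ((ep4 p.2 : ℝ) : ℂ) * Hf f₁ f₂ f₃ g (tq β p.1 p.2)) := by
    refine Measurable.stronglyMeasurable ?_
    refine (measurable_ep4c.comp measurable_snd).mul ?_
    exact (Hf_meas h1 h2 h3 hg).measurable.comp (measurable_tz β)
  exact (hmeas.integral_prod_right' (ν := volume.restrict cube)).measurable

lemma Gr_bd (h1 : Good B f₁) (h2 : Good B f₂) (h3 : Good B f₃) (hg : Measurable g)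
    (hg1 : ∀ x, ‖g x‖ ≤ 1) (β r : ℝ) :
    ‖Gr f₁ f₂ f₃ g β r‖ ≤ (B ^ 2 * ∫ x, ‖f₁ x‖) * volume.real cube := by
  have hfin : volume cube < ⊤ := isCompact_Icc.measure_lt_top
  refine norm_setIntegral_le_of_norm_le_const hfin fun q _ => ?_
  rw [norm_mul, Complex.norm_real, Real.norm_eq_abs, ep4_abs, one_mul]
  exact Hf_bd h1 h2 h3 hg hg1 _

lemma pair_Ab (h1 : Good B f₁) (h2 : Good B f₂) (h3 : Good B f₃) (hg : Measurable g)
    (hg1 : ∀ x, ‖g x‖ ≤ 1) (β : ℝ) (m : ℕ) :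
    ∫ x : ℝ, g x * Ab f₁ f₂ f₃ β m x =
      ∫ r in Ioo ((1 / 2 : ℝ) ^ m) (2 ^ m), Gr f₁ f₂ f₃ g β r / (r : ℂ) := by
  have e1 : ∫ x : ℝ, g x * Ab f₁ f₂ f₃ β m x =
      ∫ z, Wz z * Hf f₁ f₂ f₃ g (tq β z.1 z.2) ∂(nu m) := by
    rw [← fubini_param (nu m) measurable_Wz (measurable_tz β) (by positivity) (Wz_bd m)
      h1 h2 h3 hg hg1]
    refine integral_congr_ae (ae_of_all _ fun x => ?_)
    simp only
    rw [Ab_eq h1 h2 h3]
  have hi : Integrable (fun z => Wz z * Hf f₁ f₂ f₃ g (tq β z.1 z.2)) (nu m) := by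
    refine Integrable.mono' (integrable_const ((2 : ℝ) ^ m * (B ^ 2 * ∫ x, ‖f₁ x‖)))
      (measurable_Wz.mul (((Hf_meas h1 h2 h3 hg).measurable).comp
        (measurable_tz β))).aestronglyMeasurable ?_
    filter_upwards [Wz_bd m] with z hz
    rw [norm_mul]
    exact mul_le_mul hz (Hf_bd h1 h2 h3 hg hg1 _) (norm_nonneg _) (by positivity)
  rw [e1]
  unfold nu at hi ⊢
  rw [integral_prod _ hi]
  refine integral_congr_ae (ae_of_all _ fun r => ?_)
  simp only [Gr]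
  rw [div_eq_mul_inv, ← integral_mul_const]
  refine integral_congr_ae (ae_of_all _ fun q => ?_)
  simp only [Wz]
  ring

/-! ### dyadic decomposition -/

lemma sum_Ico_eq {E : Type*} [AddCommMonoid E] (m : ℕ) (F : ℤ → E) :
    ∑ k ∈ Finset.Ico (-(m : ℤ)) m, F k = ∑ j ∈ Finset.range (2 * m), F ((j : ℤ) - m) := by
  refine Finset.sum_nbij' (fun k => (k + m).toNat) (fun j => (j : ℤ) - m) ?_ ?_ ?_ ?_ ?_
  · intro k hk
    simp only [Finset.mem_Ico, Finset.mem_range] at hk ⊢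
    omega
  · intro j hj
    simp only [Finset.mem_Ico, Finset.mem_range] at hj ⊢
    omega
  · intro k hk
    simp only [Finset.mem_Ico] at hk
    omega
  · intro j hj
    omega
  · intro k hk
    simp only [Finset.mem_Ico] at hk
    congr 1
    omega

/-- dyadic decomposition of `∫ G(r) dr/r` -/
theorem dyadic {G : ℝ → ℂ} (hG : Measurable G) {M : ℝ} (hGM : ∀ r, ‖G r‖ ≤ M) (m : ℕ) :
    ∫ r in Ioo ((1 / 2 : ℝ) ^ m) (2 ^ m), G r / (r : ℂ) =
      ∫ ρ in (1 : ℝ)..2, (∑ k ∈ Finset.Ico (-(m : ℤ)) m, G (ρ * (2 : ℝ) ^ k)) / (ρ : ℂ) := by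
  have hint : ∀ a b : ℝ, 0 < a → 0 < b → IntervalIntegrable (fun r : ℝ => G r / (r : ℂ))
      volume a b := by
    intro a b ha hb
    refine (intervalIntegrable_const (c := M / min a b)).mono_fun
      (hG.div Complex.measurable_ofReal).aestronglyMeasurable ?_
    refine (ae_restrict_iff' measurableSet_uIoc).2 (ae_of_all _ fun r hr => ?_)
    have hr1 : min a b < r := hr.1
    have hm : 0 < min a b := lt_min ha hb
    have hr0 : 0 < r := hm.trans hr1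
    have hM : 0 ≤ M := (norm_nonneg _).trans (hGM 0)
    show ‖G r / (r : ℂ)‖ ≤ ‖M / min a b‖
    rw [norm_div, Complex.norm_real, Real.norm_of_nonneg hr0.le, Real.norm_of_nonneg
      (div_nonneg hM hm.le)]
    exact div_le_div₀ hM (hGM r) hm hr1.le
  have h2p : ∀ k : ℤ, 0 < (2 : ℝ) ^ k := fun k => zpow_pos (by norm_num) k
  have e0 : ((1 / 2 : ℝ) ^ m) = (2 : ℝ) ^ (((0 : ℕ) : ℤ) - m) := by
    rw [Nat.cast_zero, zero_sub, zpow_neg, zpow_natCast, one_div, inv_pow]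
  have e1 : (2 : ℝ) ^ m = (2 : ℝ) ^ (((2 * m : ℕ) : ℤ) - m) := by
    rw [← zpow_natCast]
    congr 1
    push_cast
    ring
  have hle : ((1 / 2 : ℝ) ^ m) ≤ 2 ^ m := by
    have h1 : (1 / 2 : ℝ) ^ m ≤ 1 := pow_le_one₀ (by norm_num) (by norm_num)
    have h2 : (1 : ℝ) ≤ 2 ^ m := one_le_pow₀ (by norm_num)
    exact h1.trans h2
  rw [← integral_Ioc_eq_integral_Ioo, ← intervalIntegral.integral_of_le hle]
  have hstep : ∀ k : ℤ, ∫ r in ((2 : ℝ) ^ k)..((2 : ℝ) ^ (k + 1)), G r / (r : ℂ) =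
      ∫ ρ in (1 : ℝ)..2, G (ρ * (2 : ℝ) ^ k) / (ρ : ℂ) := by
    intro k
    have hc := h2p k
    have h := intervalIntegral.integral_comp_mul_right (a := 1) (b := 2)
      (fun r : ℝ => G r / (r : ℂ)) hc.ne'
    have h2 : (2 : ℝ) * 2 ^ k = 2 ^ (k + 1) := by
      rw [zpow_add₀ (by norm_num), zpow_one]; ring
    rw [one_mul, h2] at h
    have h3 : ∫ r in ((2 : ℝ) ^ k)..((2 : ℝ) ^ (k + 1)), G r / (r : ℂ) =
        ((2 : ℝ) ^ k) • ∫ ρ in (1 : ℝ)..2, G (ρ * (2 : ℝ) ^ k) / ((ρ * (2 : ℝ) ^ k : ℝ) : ℂ) := by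
      rw [h, smul_smul, mul_inv_cancel₀ hc.ne', one_smul]
    rw [h3, ← intervalIntegral.integral_smul]
    refine intervalIntegral.integral_congr_ae (ae_of_all _ fun ρ hρ => ?_)
    rw [uIoc_of_le (by norm_num)] at hρ
    have hρ0 : (ρ : ℂ) ≠ 0 := by
      have : (0 : ℝ) < ρ := lt_trans one_pos hρ.1
      exact_mod_cast this.ne'
    have hc' : (((2 : ℝ) ^ k : ℝ) : ℂ) ≠ 0 := by exact_mod_cast hc.ne'
    rw [Complex.real_smul, Complex.ofReal_mul]
    field_simp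
  have hsum := intervalIntegral.sum_integral_adjacent_intervals (μ := volume)
    (f := fun r : ℝ => G r / (r : ℂ)) (a := fun j : ℕ => (2 : ℝ) ^ ((j : ℤ) - m)) (n := 2 * m)
    (fun k _ => hint _ _ (h2p _) (h2p _))
  rw [e0, e1, ← hsum]
  have hterm : ∀ k ∈ Finset.range (2 * m),
      ∫ r in ((2 : ℝ) ^ ((k : ℤ) - m))..((2 : ℝ) ^ (((k + 1 : ℕ) : ℤ) - m)), G r / (r : ℂ) =
        ∫ ρ in (1 : ℝ)..2, G (ρ * (2 : ℝ) ^ ((k : ℤ) - m)) / (ρ : ℂ) := by
    intro k _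
    have : (((k + 1 : ℕ) : ℤ) - m) = ((k : ℤ) - m) + 1 := by push_cast; ring
    rw [this]
    exact hstep _
  rw [Finset.sum_congr rfl hterm]
  rw [← intervalIntegral.integral_finsetSum]
  · refine intervalIntegral.integral_congr_ae (ae_of_all _ fun ρ _ => ?_)
    rw [sum_Ico_eq, Finset.sum_div]
  · intro k _
    refine (intervalIntegrable_const (c := M)).mono_fun
      ((hG.comp (measurable_id.mul_const _)).div
        Complex.measurable_ofReal).aestronglyMeasurable ?_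
    refine (ae_restrict_iff' measurableSet_uIoc).2 (ae_of_all _ fun r hr => ?_)
    rw [uIoc_of_le (by norm_num)] at hr
    have hM : 0 ≤ M := (norm_nonneg _).trans (hGM 0)
    have hr0 : (0 : ℝ) < r := lt_trans one_pos hr.1
    show ‖G (r * (2 : ℝ) ^ ((k : ℤ) - m)) / (r : ℂ)‖ ≤ ‖M‖
    rw [norm_div, Complex.norm_real, Real.norm_of_nonneg hr0.le, Real.norm_of_nonneg hM]
    exact (div_le_self (norm_nonneg _) hr.1.le).trans (hGM _)

lemma dyadic_bound {G : ℝ → ℂ} (hG : Measurable G) {M : ℝ} (hGM : ∀ r, ‖G r‖ ≤ M) (m : ℕ)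
    {K : ℝ} (hK : ∀ ρ ∈ Icc (1 : ℝ) 2,
      ‖∑ k ∈ Finset.Ico (-(m : ℤ)) m, G (ρ * (2 : ℝ) ^ k)‖ ≤ K) :
    ‖∫ r in Ioo ((1 / 2 : ℝ) ^ m) (2 ^ m), G r / (r : ℂ)‖ ≤ K := by
  rw [dyadic hG hGM m]
  have h := intervalIntegral.norm_integral_le_of_norm_le_const (a := 1) (b := 2) (C := K)
    (f := fun ρ : ℝ => (∑ k ∈ Finset.Ico (-(m : ℤ)) m, G (ρ * (2 : ℝ) ^ k)) / (ρ : ℂ))
    (fun ρ hρ => by
      rw [uIoc_of_le (by norm_num)] at hρ
      have hr0 : (0 : ℝ) < ρ := lt_trans one_pos hρ.1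
      rw [norm_div, Complex.norm_real, Real.norm_of_nonneg hr0.le]
      exact (div_le_self (norm_nonneg _) hρ.1.le).trans (hK ρ ⟨hρ.1.le, hρ.2⟩))
  refine h.trans (le_of_eq ?_)
  norm_num

end

/-- one half of the pairing -/
lemma pair_bound {β C : ℝ} (f₁ f₂ f₃ : SchwartzMap ℝ ℂ) {B : ℝ}
    (h1 : Good B f₁) (h2 : Good B f₂) (h3 : Good B f₃) {g : ℝ → ℂ} (hg : Measurable g)
    (hg1 : ∀ x, ‖g x‖ ≤ 1) (m : ℕ)
    (hC : ∀ ρ ∈ Icc (1 : ℝ) 2,
      ‖∑ k ∈ Finset.Ico (-(m : ℤ)) m, ∫ s : ℝ, Lb β (ρ * (2 : ℝ) ^ k) s ![f₁, f₂, f₃, g]‖ ≤ C) :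
    ‖∫ x : ℝ, g x * Ab f₁ f₂ f₃ β m x‖ ≤ C := by
  rw [pair_Ab h1 h2 h3 hg hg1]
  refine dyadic_bound (Gr_meas h1 h2 h3 hg β) (Gr_bd h1 h2 h3 hg hg1 β) m fun ρ hρ => ?_
  have := hC ρ hρ
  simp only [int_Lb h1 h2 h3 hg hg1] at this
  exact this

theorem s0106_of_boxBound (hB1 : BoxBound (-1 / 2)) (hB2 : BoxBound (-7 / 2)) : Target := by
  obtain ⟨C1, hC1, H1⟩ := hB1
  obtain ⟨C2, hC2, H2⟩ := hB2
  refine ⟨(C1 + C2) / |c0|, fun f₁ f₂ f₃ Tv hTv => ?_⟩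
  obtain ⟨b1, g1⟩ := good_schwartz f₁
  obtain ⟨b2, g2⟩ := good_schwartz f₂
  obtain ⟨b3, g3⟩ := good_schwartz f₃
  let B : ℝ := max b1 (max b2 b3)
  have h1 : Good B f₁ := g1.mono (le_max_left _ _)
  have h2 : Good B f₂ := g2.mono ((le_max_left _ _).trans (le_max_right _ _))
  have h3 : Good B f₃ := g3.mono ((le_max_right _ _).trans (le_max_right _ _))
  set F3 : ℝ := n3 f₁ * n3 f₂ * n3 f₃ with hF3
  have hF3' : 0 ≤ F3 := by
    have : ∀ f : ℝ → ℂ, 0 ≤ n3 f := fun f => ENNReal.toReal_nonneg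
    exact mul_nonneg (mul_nonneg (this _) (this _)) (this _)
  have hPV : Tv = PV f₁ f₂ f₃ := by
    funext x
    exact eq_PV h1 h2 h3 x (hTv x)
  have hc0 : c0 ≠ 0 := c0_neg.ne
  have hc0' : 0 < |c0| := abs_pos.2 hc0
  -- uniform bound
  have hT : ∀ m : ℕ, ∫ x, ‖Tm f₁ f₂ f₃ m x‖ ≤ (C1 + C2) * F3 := by
    intro m
    let g : ℝ → ℂ := fun x => (starRingEnd ℂ) (Tm f₁ f₂ f₃ m x) / ((‖Tm f₁ f₂ f₃ m x‖ : ℝ) : ℂ)
    have hTmm := Tm_meas h1 h2 h3 m
    have hg : Measurable g :=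
      (Complex.continuous_conj.measurable.comp hTmm).div
        (Complex.measurable_ofReal.comp hTmm.norm)
    have hg1 : ∀ x, ‖g x‖ ≤ 1 := by
      intro x
      simp only [g, norm_div, RCLike.norm_conj, Complex.norm_real, norm_norm]
      exact div_self_le_one _
    have hgT : ∀ x, g x * Tm f₁ f₂ f₃ m x = ((‖Tm f₁ f₂ f₃ m x‖ : ℝ) : ℂ) := by
      intro x
      simp only [g]
      by_cases h0 : Tm f₁ f₂ f₃ m x = 0
      · simp [h0]
      · have hn : ((‖Tm f₁ f₂ f₃ m x‖ : ℝ) : ℂ) ≠ 0 := by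
          exact_mod_cast (norm_pos_iff.2 h0).ne'
        rw [div_mul_eq_mul_div, mul_comm, Complex.mul_conj, Complex.normSq_eq_norm_sq]
        push_cast
        field_simp
    have e : ((∫ x, ‖Tm f₁ f₂ f₃ m x‖ : ℝ) : ℂ) = ∫ x, g x * Tm f₁ f₂ f₃ m x := by
      rw [← integral_complex_ofReal]
      exact integral_congr_ae (ae_of_all _ fun x => (hgT x).symm)
    have hi : ∀ β, Integrable fun x => g x * Ab f₁ f₂ f₃ β m x := fun β => by
      refine Integrable.mono' (Ab_int h1 h2 h3 β m).norm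
        (hg.mul (Ab_meas h1 h2 h3 β m)).aestronglyMeasurable (ae_of_all _ fun x => ?_)
      rw [norm_mul]
      exact mul_le_of_le_one_left (norm_nonneg _) (hg1 x)
    have e2 : ∫ x, g x * Tm f₁ f₂ f₃ m x =
        (∫ x, g x * Ab f₁ f₂ f₃ (-1 / 2) m x) - ∫ x, g x * Ab f₁ f₂ f₃ (-7 / 2) m x := by
      rw [← integral_sub (hi _) (hi _)]
      refine integral_congr_ae (ae_of_all _ fun x => ?_)
      simp only [Tm, mul_sub]
    have hnn : 0 ≤ ∫ x, ‖Tm f₁ f₂ f₃ m x‖ := integral_nonneg fun x => norm_nonneg _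
    calc ∫ x, ‖Tm f₁ f₂ f₃ m x‖ = ‖((∫ x, ‖Tm f₁ f₂ f₃ m x‖ : ℝ) : ℂ)‖ := by
          rw [Complex.norm_real, Real.norm_of_nonneg hnn]
      _ = ‖(∫ x, g x * Ab f₁ f₂ f₃ (-1 / 2) m x) - ∫ x, g x * Ab f₁ f₂ f₃ (-7 / 2) m x‖ := by
          rw [e, e2]
      _ ≤ ‖∫ x, g x * Ab f₁ f₂ f₃ (-1 / 2) m x‖ + ‖∫ x, g x * Ab f₁ f₂ f₃ (-7 / 2) m x‖ :=
          norm_sub_le _ _
      _ ≤ C1 * F3 + C2 * F3 := by
          refine add_le_add ?_ ?_
          · exact pair_bound f₁ f₂ f₃ h1 h2 h3 hg hg1 m fun ρ hρ => H1 f₁ f₂ f₃ g hg hg1 ρ hρ m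
          · exact pair_bound f₁ f₂ f₃ h1 h2 h3 hg hg1 m fun ρ hρ => H2 f₁ f₂ f₃ g hg hg1 ρ hρ m
      _ = (C1 + C2) * F3 := by ring
  have hT' : ∀ m : ℕ, eLpNorm (Tm f₁ f₂ f₃ m) 1 volume ≤ ENNReal.ofReal ((C1 + C2) * F3) := by
    intro m
    rw [eLpNorm_one_eq_lintegral_enorm]
    rw [← ofReal_integral_norm_eq_lintegral_enorm (Tm_int h1 h2 h3 m)]
    exact ENNReal.ofReal_le_ofReal (hT m)
  have hfat := Lp.eLpNorm_lim_le_liminf_eLpNorm (p := 1) (μ := volume)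
    (f := fun m => Tm f₁ f₂ f₃ m)
    (fun m => (Tm_meas h1 h2 h3 m).aestronglyMeasurable)
    (fun x => (c0 : ℂ) * PV f₁ f₂ f₃ x)
    (ae_of_all _ fun x => Tm_tendsto h1 h2 h3 x)
  have hlim : eLpNorm (fun x => (c0 : ℂ) * PV f₁ f₂ f₃ x) 1 volume ≤
      ENNReal.ofReal ((C1 + C2) * F3) := by
    refine hfat.trans ?_
    refine liminf_le_of_frequently_le' ?_
    exact Frequently.of_forall fun m => hT' m
  have hTvc : Tv = fun x => ((c0 : ℂ))⁻¹ • ((c0 : ℂ) * PV f₁ f₂ f₃ x) := by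
    rw [hPV]
    funext x
    have : (c0 : ℂ) ≠ 0 := by exact_mod_cast hc0
    rw [smul_eq_mul]
    field_simp
  have hn3 : ∀ f : SchwartzMap ℝ ℂ, ENNReal.ofReal (n3 f) = eLpNorm (⇑f) 3 volume := fun f =>
    ENNReal.ofReal_toReal (f.eLpNorm_lt_top 3 volume).ne
  have hn3' : ∀ f : ℝ → ℂ, 0 ≤ n3 f := fun f => ENNReal.toReal_nonneg
  calc eLpNorm Tv 1 volume
      = eLpNorm (((c0 : ℂ))⁻¹ • fun x => (c0 : ℂ) * PV f₁ f₂ f₃ x) 1 volume := by
        rw [hTvc]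
        rfl
    _ = ‖((c0 : ℂ))⁻¹‖ₑ * eLpNorm (fun x => (c0 : ℂ) * PV f₁ f₂ f₃ x) 1 volume :=
        eLpNorm_const_smul _ _ _ _
    _ ≤ ENNReal.ofReal (|c0|⁻¹) * ENNReal.ofReal ((C1 + C2) * F3) := by
        refine mul_le_mul' (le_of_eq ?_) hlim
        rw [← ofReal_norm, norm_inv, Complex.norm_real, Real.norm_eq_abs]
    _ = ENNReal.ofReal ((C1 + C2) / |c0| * F3) := by
        rw [← ENNReal.ofReal_mul (by positivity)]
        congr 1
        rw [div_eq_mul_inv]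
        ring
    _ = ENNReal.ofReal ((C1 + C2) / |c0|) * (eLpNorm (⇑f₁) 3 volume * eLpNorm (⇑f₂) 3 volume *
          eLpNorm (⇑f₃) 3 volume) := by
        rw [ENNReal.ofReal_mul (div_nonneg (add_nonneg hC1 hC2) hc0'.le), hF3,
          ENNReal.ofReal_mul (mul_nonneg (hn3' _) (hn3' _)), ENNReal.ofReal_mul (hn3' _),
          hn3, hn3, hn3]

end Crest.Agent.R079.L0
end

-- ▼ part R079/RiemA_133
section

/-! R079, L0z part A (helper133): the lattice bound for infinitely supported functions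
(truncation + dominated convergence), in `ℝ≥0∞` form. -/

set_option autoImplicit false

namespace Crest.Agent.R079.Riem133

open Crest.Agent.R079.Grid Finset Filter Topology
open scoped ENNReal

/-- truncation to `[-n,n]` -/
noncomputable def trunc (n : ℕ) (f : ℤ → ℂ) (x : ℤ) : ℂ :=
  if x ∈ Finset.Icc (-(n : ℤ)) n then f x else 0

lemma trunc_norm_le (n : ℕ) (f : ℤ → ℂ) (x : ℤ) : ‖trunc n f x‖ ≤ ‖f x‖ := by
  unfold trunc; split <;> simp

lemma trunc_support (n : ℕ) (f : ℤ → ℂ) :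
    Function.support (trunc n f) ⊆ (Finset.Icc (-(n : ℤ)) n : Set ℤ) := by
  intro x hx
  by_contra h
  apply hx
  unfold trunc
  rw [if_neg]
  exact fun h' => h (by simpa using h')

lemma trunc_support_finite (n : ℕ) (f : ℤ → ℂ) : (Function.support (trunc n f)).Finite :=
  (Finset.finite_toSet _).subset (trunc_support n f)

lemma trunc_tendsto (f : ℤ → ℂ) (x : ℤ) :
    Tendsto (fun n : ℕ => trunc n f x) atTop (𝓝 (f x)) := by
  apply tendsto_const_nhds.congr'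
  filter_upwards [eventually_ge_atTop x.natAbs] with n hn
  unfold trunc
  rw [if_pos]
  rw [Finset.mem_Icc]
  constructor <;> omega

/-- `ℓ³` norm in `ℝ≥0∞` -/
noncomputable def L3 (f : ℤ → ℂ) : ℝ≥0∞ := (∑' x : ℤ, ‖f x‖ₑ ^ 3) ^ (1 / 3 : ℝ)

lemma l3_trunc_le (n : ℕ) (f : ℤ → ℂ) : ENNReal.ofReal (l3 (trunc n f)) ≤ L3 f := by
  unfold l3 L3
  have hs : Function.support (fun x : ℤ => ‖trunc n f x‖ ^ 3) ⊆ (Finset.Icc (-(n : ℤ)) n : Set ℤ) := by
    intro x hx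
    apply trunc_support n f
    intro h
    apply hx
    simp [h]
  rw [finsum_eq_sum_of_support_subset _ hs]
  rw [← ENNReal.ofReal_rpow_of_nonneg (Finset.sum_nonneg fun _ _ => by positivity) (by norm_num)]
  apply ENNReal.rpow_le_rpow _ (by norm_num)
  rw [ENNReal.ofReal_sum_of_nonneg (fun _ _ => by positivity)]
  refine le_trans (Finset.sum_le_sum (g := fun x => ‖f x‖ₑ ^ 3) fun x _ => ?_) (ENNReal.sum_le_tsum _)
  rw [ENNReal.ofReal_pow (norm_nonneg _), ofReal_norm]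
  have h2 : ‖trunc n f x‖ₑ ≤ ‖f x‖ₑ := by
    rw [← ofReal_norm, ← ofReal_norm]
    exact ENNReal.ofReal_le_ofReal (trunc_norm_le n f x)
  gcongr

lemma yv_eq (N : ℕ) (b x : ℤ) (u : Fin 4 → Fin (N + N)) (j : Fin 4) :
    yv N b x u j = x + yv N b 0 u j := by
  unfold yv; ring

lemma hs_norm (N : ℕ) (u : Fin 4 → Fin (N + N)) : ‖((∏ i, hsg N (u i) : ℝ) : ℂ)‖ = 1 := by
  rw [Complex.norm_real, norm_prod]
  apply Finset.prod_eq_one
  intro i _
  unfold hsg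
  split <;> simp

/-- dominating function -/
noncomputable def bnd (N : ℕ) (b : ℤ) (B : ℝ) (f : ℤ → ℂ) (x : ℤ) : ℝ :=
  ‖(1 / ((N : ℂ) + N) ^ 4)‖ * ∑ u : Fin 4 → Fin (N + N), ‖f (yv N b x u 0)‖ * (B * B * B)

lemma Lbox_le_bnd (N : ℕ) (b : ℤ) {B : ℝ} (F : Fin 4 → ℤ → ℂ) (f : ℤ → ℂ)
    (hf : ∀ x, ‖F 0 x‖ ≤ ‖f x‖) (hB : ∀ j x, ‖F j x‖ ≤ B) (x : ℤ) :
    ‖Lbox N b F x‖ ≤ bnd N b B f x := by
  have hB0 : 0 ≤ B := le_trans (norm_nonneg _) (hB 0 0)
  unfold Lbox bnd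
  rw [norm_mul]
  apply mul_le_mul_of_nonneg_left _ (norm_nonneg _)
  refine le_trans (norm_sum_le _ _) (Finset.sum_le_sum fun u _ => ?_)
  rw [norm_mul, hs_norm, one_mul, norm_prod, Fin.prod_univ_four]
  have h0 := hf (yv N b x u 0)
  have h1 := hB 1 (yv N b x u 1)
  have h2 := hB 2 (yv N b x u 2)
  have h3 := hB 3 (yv N b x u 3)
  calc ‖F 0 (yv N b x u 0)‖ * ‖F 1 (yv N b x u 1)‖ * ‖F 2 (yv N b x u 2)‖ * ‖F 3 (yv N b x u 3)‖
      ≤ ‖f (yv N b x u 0)‖ * B * B * B := by gcongr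
    _ = _ := by ring

lemma bnd_summable (N : ℕ) (b : ℤ) (B : ℝ) (f : ℤ → ℂ) (hf : Summable fun x => ‖f x‖) :
    Summable (bnd N b B f) := by
  unfold bnd
  apply Summable.mul_left
  apply summable_sum
  intro u _
  apply Summable.mul_right
  have : (fun x : ℤ => ‖f (yv N b x u 0)‖) = (fun x => ‖f x‖) ∘ (fun x : ℤ => x + yv N b 0 u 0) := by
    funext x
    simp only [Function.comp]
    rw [yv_eq]
  rw [this]
  exact hf.comp_injective (add_left_injective _)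

lemma Lbox_summable (N : ℕ) (b : ℤ) {B : ℝ} (F : Fin 4 → ℤ → ℂ) (hf : Summable fun x => ‖F 0 x‖)
    (hB : ∀ j x, ‖F j x‖ ≤ B) : Summable (fun x => Lbox N b F x) :=
  Summable.of_norm_bounded (bnd_summable N b B (F 0) hf) (fun x => Lbox_le_bnd N b F (F 0) (fun _ => le_rfl) hB x)

lemma Lbox_support_finite (N : ℕ) (b : ℤ) (F : Fin 4 → ℤ → ℂ) (hF : (Function.support (F 0)).Finite) :
    (Function.support (fun x => Lbox N b F x)).Finite := by
  have hsub : Function.support (fun x => Lbox N b F x) ⊆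
      ⋃ u : Fin 4 → Fin (N + N), (fun x : ℤ => x + yv N b 0 u 0) ⁻¹' (Function.support (F 0)) := by
    intro x hx
    by_contra h
    apply hx
    simp only [Set.mem_iUnion, not_exists, Set.mem_preimage, Function.mem_support, not_not] at h
    show Lbox N b F x = 0
    unfold Lbox
    rw [Finset.sum_eq_zero, mul_zero]
    intro u _
    have h0 : ∏ j, F j (yv N b x u j) = 0 := by
      apply Finset.prod_eq_zero (Finset.mem_univ (0 : Fin 4))
      rw [yv_eq]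
      exact h u
    rw [h0, mul_zero]
  apply Set.Finite.subset _ hsub
  apply Set.finite_iUnion
  intro u
  exact hF.preimage (add_left_injective _).injOn

lemma Lbox_tendsto (N : ℕ) (b : ℤ) (F : Fin 4 → ℤ → ℂ) (x : ℤ) :
    Tendsto (fun n : ℕ => Lbox N b (fun j => trunc n (F j)) x) atTop (𝓝 (Lbox N b F x)) := by
  unfold Lbox
  apply Tendsto.const_mul
  apply tendsto_finsetSum
  intro u _
  apply Tendsto.const_mul
  apply tendsto_finsetProd
  intro j _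
  exact trunc_tendsto (F j) _

/-- the literal hypothesis extracted from `LatBound` -/
def LatB (C : ℝ) (b : ℤ) : Prop :=
  ∀ (M : ℕ) (F : Fin 4 → ℤ → ℂ) (S : Finset ℕ),
    (∀ j, (Function.support (F j)).Finite) → (∀ x, ‖F 3 x‖ ≤ 1) → (∀ m ∈ S, m < M) →
      ‖∑ m ∈ S, ∑ᶠ x : ℤ, Lbox (2 ^ m) b F x‖ ≤ C * (l3 (F 0) * l3 (F 1) * l3 (F 2))

lemma l3_nonneg (f : ℤ → ℂ) : 0 ≤ l3 f := by
  unfold l3
  apply Real.rpow_nonneg
  exact finsum_nonneg fun _ => by positivity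

theorem lat_ext {C : ℝ} (hC : 0 ≤ C) {b : ℤ} (H : LatB C b) (F : Fin 4 → ℤ → ℂ) (S : Finset ℕ)
    {B : ℝ} (hf : Summable fun x => ‖F 0 x‖) (hB : ∀ j x, ‖F j x‖ ≤ B) (h3 : ∀ x, ‖F 3 x‖ ≤ 1) :
    ‖∑ m ∈ S, ∑' x : ℤ, Lbox (2 ^ m) b F x‖ₑ ≤ ENNReal.ofReal C * (L3 (F 0) * L3 (F 1) * L3 (F 2)) := by
  have hlim : Tendsto (fun n : ℕ => ‖∑ m ∈ S, ∑' x : ℤ, Lbox (2 ^ m) b (fun j => trunc n (F j)) x‖ₑ) atTop
      (𝓝 ‖∑ m ∈ S, ∑' x : ℤ, Lbox (2 ^ m) b F x‖ₑ) := by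
    refine (continuous_enorm.tendsto _).comp ?_
    apply tendsto_finsetSum
    intro m _
    apply tendsto_tsum_of_dominated_convergence (bound := bnd (2 ^ m) b B (F 0))
      (bnd_summable _ _ _ _ hf)
    · intro x
      exact Lbox_tendsto _ _ _ _
    · refine Eventually.of_forall fun n x => ?_
      exact Lbox_le_bnd _ _ _ _ (fun x => trunc_norm_le _ _ _)
        (fun j x => (trunc_norm_le _ _ _).trans (hB j x)) x
  refine le_of_tendsto hlim (Eventually.of_forall fun n => ?_)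
  have h1 := H (S.sup id + 1) (fun j => trunc n (F j)) S (fun j => trunc_support_finite n (F j))
    (fun x => (trunc_norm_le _ _ _).trans (h3 x))
    (fun m hm => Nat.lt_succ_of_le (Finset.le_sup (f := id) hm))
  have h2 : ∑ m ∈ S, ∑' x : ℤ, Lbox (2 ^ m) b (fun j => trunc n (F j)) x =
      ∑ m ∈ S, ∑ᶠ x : ℤ, Lbox (2 ^ m) b (fun j => trunc n (F j)) x := by
    apply Finset.sum_congr rfl
    intro m _
    exact tsum_eq_finsum (Lbox_support_finite _ _ _ (trunc_support_finite n (F 0)))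
  rw [h2, ← ofReal_norm]
  refine le_trans (ENNReal.ofReal_le_ofReal h1) ?_
  rw [ENNReal.ofReal_mul hC, ENNReal.ofReal_mul (mul_nonneg (l3_nonneg _) (l3_nonneg _)),
    ENNReal.ofReal_mul (l3_nonneg _)]
  gcongr <;> exact l3_trunc_le _ _

end Crest.Agent.R079.Riem133
end

-- ▼ part R079/RiemB_133
section

/-! R079, L0z part B (helper133): unfolding `∫_ℝ = ∫_{(0,1]} ∑_{x ∈ ℤ}` and the real-position form. -/

set_option autoImplicit false

namespace Crest.Agent.R079.Riem133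

open Crest.Agent.R079.Grid MeasureTheory Set Filter Topology
open scoped ENNReal

lemma lint_shift (h : ℝ → ℝ≥0∞) (x : ℤ) :
    ∫⁻ s in Ioc (x : ℝ) (x + 1), h s = ∫⁻ ξ in Ioc (0 : ℝ) 1, h (ξ + x) := by
  rw [← lintegral_indicator measurableSet_Ioc, ← lintegral_indicator measurableSet_Ioc,
    ← lintegral_add_right_eq_self _ (x : ℝ)]
  congr 1
  funext ξ
  simp only [indicator, mem_Ioc]
  congr 1
  apply propext
  constructor <;> rintro ⟨h1, h2⟩ <;> constructor <;> linarith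

lemma int_shift (h : ℝ → ℂ) (x : ℤ) :
    ∫ s in Ioc (x : ℝ) (x + 1), h s = ∫ ξ in Ioc (0 : ℝ) 1, h (ξ + x) := by
  rw [← integral_indicator measurableSet_Ioc, ← integral_indicator measurableSet_Ioc,
    ← integral_add_right_eq_self _ (x : ℝ)]
  congr 1
  funext ξ
  simp only [indicator, mem_Ioc]
  congr 1
  apply propext
  constructor <;> rintro ⟨h1, h2⟩ <;> constructor <;> linarith

lemma lint_unfold (h : ℝ → ℝ≥0∞) (hm : Measurable h) :
    ∫⁻ s, h s = ∫⁻ ξ in Ioc (0 : ℝ) 1, ∑' x : ℤ, h (ξ + x) := by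
  have hm' : ∀ x : ℤ, Measurable (fun ξ : ℝ => h (ξ + x)) := fun x =>
    hm.comp (measurable_id.add_const _)
  rw [lintegral_tsum (f := fun (x : ℤ) (ξ : ℝ) => h (ξ + x)) (fun x => (hm' x).aemeasurable)]
  rw [← setLIntegral_univ, ← iUnion_Ioc_intCast ℝ,
    lintegral_iUnion (fun _ => measurableSet_Ioc) (pairwise_disjoint_Ioc_intCast ℝ)]
  congr 1
  funext x
  exact lint_shift h x

lemma int_unfold (h : ℝ → ℂ) (hm : Measurable h) (hi : Integrable h) :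
    ∫ s, h s = ∫ ξ in Ioc (0 : ℝ) 1, ∑' x : ℤ, h (ξ + x) := by
  have hm' : ∀ x : ℤ, Measurable (fun ξ : ℝ => h (ξ + x)) := fun x =>
    hm.comp (measurable_id.add_const _)
  rw [integral_tsum (f := fun (x : ℤ) (ξ : ℝ) => h (ξ + x)) (fun x => (hm' x).aestronglyMeasurable)]
  · rw [← setIntegral_univ, ← iUnion_Ioc_intCast ℝ,
      integral_iUnion (fun _ => measurableSet_Ioc) (pairwise_disjoint_Ioc_intCast ℝ) hi.integrableOn]
    congr 1
    funext x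
    exact int_shift h x
  · rw [← lintegral_tsum (f := fun (x : ℤ) (ξ : ℝ) => ‖h (ξ + x)‖ₑ)
      (fun x => (hm' x).enorm.aemeasurable)]
    have := lint_unfold (fun s => ‖h s‖ₑ) hm.enorm
    rw [← this]
    exact hi.2.ne

/-- real-position lattice form -/
noncomputable def Lr (N : ℕ) (b : ℤ) (ψ : Fin 4 → ℝ → ℂ) (s : ℝ) : ℂ :=
  (1 / ((N : ℂ) + N) ^ 4) * ∑ u : Fin 4 → Fin (N + N),
    ((∏ i, hsg N (u i) : ℝ) : ℂ) * ∏ j, ψ j (s + (yv N b 0 u j : ℤ))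

lemma Lr_eq (N : ℕ) (b : ℤ) (ψ : Fin 4 → ℝ → ℂ) (ξ : ℝ) (x : ℤ) :
    Lr N b ψ (ξ + x) = Lbox N b (fun j n => ψ j (ξ + n)) x := by
  unfold Lr Lbox
  congr 1
  apply Finset.sum_congr rfl
  intro u _
  congr 1
  apply Finset.prod_congr rfl
  intro j _
  rw [yv_eq N b x u j]
  push_cast
  congr 1
  ring

lemma prod_integrable {ψ : Fin 4 → ℝ → ℂ} {B : ℝ} (hm : ∀ j, Measurable (ψ j))
    (hi : Integrable (ψ 0)) (hB : ∀ j y, ‖ψ j y‖ ≤ B) (c : Fin 4 → ℝ) :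
    Integrable (fun s => ∏ j, ψ j (s + c j)) := by
  have hB0 : 0 ≤ B := le_trans (norm_nonneg _) (hB 0 0)
  have h1 : (fun s => ∏ j, ψ j (s + c j)) =
      fun s => ψ 0 (s + c 0) * (ψ 1 (s + c 1) * ψ 2 (s + c 2) * ψ 3 (s + c 3)) := by
    funext s
    rw [Fin.prod_univ_four]
    ring
  rw [h1]
  have hmm : ∀ j, Measurable (fun s => ψ j (s + c j)) := fun j =>
    (hm j).comp (measurable_id.add_const _)
  refine Integrable.mul_bdd (c := B * B * B) (hi.comp_add_right (c 0))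
    (((hmm 1).mul (hmm 2)).mul (hmm 3)).aestronglyMeasurable (Eventually.of_forall fun s => ?_)
  rw [norm_mul, norm_mul]
  have := hB 1 (s + c 1)
  have := hB 2 (s + c 2)
  have := hB 3 (s + c 3)
  gcongr

lemma Lr_measurable (N : ℕ) (b : ℤ) {ψ : Fin 4 → ℝ → ℂ} (hm : ∀ j, Measurable (ψ j)) :
    Measurable (Lr N b ψ) := by
  unfold Lr
  apply Measurable.const_mul
  apply Finset.measurable_fun_sum
  intro u _
  apply Measurable.const_mul
  apply Finset.measurable_fun_prod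
  intro j _
  exact (hm j).comp (measurable_id.add_const _)

lemma Lr_integrable (N : ℕ) (b : ℤ) {ψ : Fin 4 → ℝ → ℂ} {B : ℝ} (hm : ∀ j, Measurable (ψ j))
    (hi : Integrable (ψ 0)) (hB : ∀ j y, ‖ψ j y‖ ≤ B) : Integrable (Lr N b ψ) := by
  unfold Lr
  apply Integrable.const_mul
  apply integrable_finsetSum
  intro u _
  apply Integrable.const_mul
  exact prod_integrable hm hi hB _

/-- `L³` norm in `ℝ≥0∞` -/
noncomputable def N3 (φ : ℝ → ℂ) : ℝ≥0∞ := (∫⁻ y, ‖φ y‖ₑ ^ 3) ^ (1 / 3 : ℝ)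

lemma holder3 {μ : Measure ℝ} {f g h : ℝ → ℝ≥0∞} (hf : Measurable f) (hg : Measurable g)
    (hh : Measurable h) :
    ∫⁻ a, f a ^ (1 / 3 : ℝ) * g a ^ (1 / 3 : ℝ) * h a ^ (1 / 3 : ℝ) ∂μ ≤
      (∫⁻ a, f a ∂μ) ^ (1 / 3 : ℝ) * (∫⁻ a, g a ∂μ) ^ (1 / 3 : ℝ) * (∫⁻ a, h a ∂μ) ^ (1 / 3 : ℝ) := by
  have := ENNReal.lintegral_prod_norm_pow_le (μ := μ) (Finset.univ : Finset (Fin 3)) (f := ![f, g, h])
    (by
      intro i _
      fin_cases i
      · exact hf.aemeasurable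
      · exact hg.aemeasurable
      · exact hh.aemeasurable) (p := fun _ => (1 / 3 : ℝ)) (by simp) (fun _ _ => by norm_num)
  simpa [Fin.prod_univ_three] using this

theorem K1 {C : ℝ} (hC : 0 ≤ C) {b : ℤ} (H : LatB C b) (ψ : Fin 4 → ℝ → ℂ) (S : Finset ℕ)
    {B : ℝ} (hm : ∀ j, Measurable (ψ j)) (hi : Integrable (ψ 0)) (hB : ∀ j y, ‖ψ j y‖ ≤ B)
    (h3 : ∀ y, ‖ψ 3 y‖ ≤ 1) :
    ‖∫ s, ∑ m ∈ S, Lr (2 ^ m) b ψ s‖ₑ ≤ ENNReal.ofReal C * (N3 (ψ 0) * N3 (ψ 1) * N3 (ψ 2)) := by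
  have hmeas : Measurable (fun s => ∑ m ∈ S, Lr (2 ^ m) b ψ s) :=
    Finset.measurable_fun_sum _ fun m _ => Lr_measurable _ _ hm
  have hint : Integrable (fun s => ∑ m ∈ S, Lr (2 ^ m) b ψ s) :=
    integrable_finsetSum _ fun m _ => Lr_integrable _ _ hm hi hB
  rw [int_unfold _ hmeas hint]
  refine le_trans (enorm_integral_le_lintegral_enorm _) ?_
  -- a.e. summability
  have hae : ∀ᵐ ξ ∂(volume.restrict (Ioc (0 : ℝ) 1)), Summable (fun x : ℤ => ‖ψ 0 (ξ + x)‖) := by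
    have h1 := lint_unfold (fun s => ‖ψ 0 s‖ₑ) (hm 0).enorm
    have h2 : ∫⁻ ξ in Ioc (0 : ℝ) 1, ∑' x : ℤ, ‖ψ 0 (ξ + x)‖ₑ ≠ ∞ := by
      rw [← h1]; exact hi.2.ne
    have h3 := ae_lt_top' (AEMeasurable.ennreal_tsum fun x : ℤ =>
      (((hm 0).comp (measurable_id.add_const (x : ℝ))).enorm).aemeasurable) h2
    filter_upwards [h3] with ξ hξ
    have h4 : ∑' x : ℤ, ‖ψ 0 (ξ + x)‖ₑ ≠ ∞ := hξ.ne
    simp only [enorm] at h4
    have h5 := ENNReal.tsum_coe_ne_top_iff_summable.1 h4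
    exact NNReal.summable_coe.2 h5
  have key : ∀ᵐ ξ ∂(volume.restrict (Ioc (0 : ℝ) 1)),
      ‖∑' x : ℤ, ∑ m ∈ S, Lr (2 ^ m) b ψ (ξ + x)‖ₑ ≤ ENNReal.ofReal C *
        ((∑' x : ℤ, ‖ψ 0 (ξ + x)‖ₑ ^ 3) ^ (1 / 3 : ℝ) * (∑' x : ℤ, ‖ψ 1 (ξ + x)‖ₑ ^ 3) ^ (1 / 3 : ℝ) *
          (∑' x : ℤ, ‖ψ 2 (ξ + x)‖ₑ ^ 3) ^ (1 / 3 : ℝ)) := by
    filter_upwards [hae] with ξ hξ
    have h1 : ∑' x : ℤ, ∑ m ∈ S, Lr (2 ^ m) b ψ (ξ + x) =
        ∑ m ∈ S, ∑' x : ℤ, Lbox (2 ^ m) b (fun j n => ψ j (ξ + n)) x := by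
      rw [← Summable.tsum_finsetSum]
      · congr 1
        funext x
        exact Finset.sum_congr rfl fun m _ => Lr_eq _ _ _ _ _
      · intro m _
        exact Lbox_summable _ _ _ hξ (fun j x => hB j _)
    rw [h1]
    exact lat_ext hC H (fun j n => ψ j (ξ + n)) S hξ (fun j x => hB j _) (fun x => h3 _)
  refine le_trans (lintegral_mono_ae key) ?_
  have hmt : ∀ j, Measurable (fun ξ : ℝ => ∑' x : ℤ, ‖ψ j (ξ + x)‖ₑ ^ 3) := fun j =>
    Measurable.ennreal_tsum fun x => (((hm j).comp (measurable_id.add_const (x : ℝ))).enorm).pow_const 3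
  rw [lintegral_const_mul _ (by
    exact (((hmt 0).pow_const _).mul ((hmt 1).pow_const _)).mul ((hmt 2).pow_const _))]
  gcongr
  refine le_trans (holder3 (hmt 0) (hmt 1) (hmt 2)) ?_
  apply le_of_eq
  unfold N3
  rw [lint_unfold _ ((hm 0).enorm.pow_const 3), lint_unfold _ ((hm 1).enorm.pow_const 3),
    lint_unfold _ ((hm 2).enorm.pow_const 3)]

end Crest.Agent.R079.Riem133
end

-- ▼ part R079/RiemC_133
section

/-! R079, L0z part C (helper133): splitting the unit cube into `n^4` cells. -/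

set_option autoImplicit false

namespace Crest.Agent.R079.Riem133

open MeasureTheory Set Filter Topology
open scoped ENNReal

/-- half open unit cube -/
def Q : Set (Fin 4 → ℝ) := Set.univ.pi fun _ => Ico (0 : ℝ) 1

/-- cells -/
def cell (n : ℕ) (u : Fin 4 → Fin n) : Set (Fin 4 → ℝ) :=
  Set.univ.pi fun i => Ico (((u i : ℕ) : ℝ) / n) ((((u i : ℕ) : ℝ) + 1) / n)

/-- affine chart of a cell -/
noncomputable def aff (n : ℕ) (u : Fin 4 → Fin n) (θ : Fin 4 → ℝ) : Fin 4 → ℝ :=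
  fun i => (((u i : ℕ) : ℝ) + θ i) / n

lemma measurableSet_Q : MeasurableSet Q := MeasurableSet.univ_pi fun _ => measurableSet_Ico

lemma measurableSet_cell (n : ℕ) (u : Fin 4 → Fin n) : MeasurableSet (cell n u) :=
  MeasurableSet.univ_pi fun _ => measurableSet_Ico

lemma aff_mem {n : ℕ} (hn : 0 < n) (u : Fin 4 → Fin n) (θ : Fin 4 → ℝ) :
    aff n u θ ∈ cell n u ↔ θ ∈ Q := by
  have hn' : (0 : ℝ) < n := by exact_mod_cast hn
  simp only [aff, cell, Q, Set.mem_pi, mem_univ, forall_true_left, mem_Ico]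
  refine forall_congr' fun i => ?_
  rw [div_le_div_iff_of_pos_right hn', div_lt_div_iff_of_pos_right hn']
  constructor <;> rintro ⟨h1, h2⟩ <;> constructor <;> linarith

lemma cell_union {n : ℕ} (hn : 0 < n) : ⋃ u : Fin 4 → Fin n, cell n u = Q := by
  have hn' : (0 : ℝ) < n := by exact_mod_cast hn
  ext q
  simp only [mem_iUnion, cell, Q, Set.mem_pi, mem_univ, forall_true_left, mem_Ico]
  constructor
  · rintro ⟨u, hu⟩ i
    obtain ⟨h1, h2⟩ := hu i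
    refine ⟨le_trans (by positivity) h1, lt_of_lt_of_le h2 ?_⟩
    rw [div_le_one hn']
    exact_mod_cast (u i).2
  · intro hq
    refine ⟨fun i => ⟨⌊(n : ℝ) * q i⌋₊, ?_⟩, fun i => ?_⟩
    · rw [Nat.floor_lt (by have := (hq i).1; positivity)]
      have := (hq i).2
      nlinarith
    · have h0 : 0 ≤ (n : ℝ) * q i := by have := (hq i).1; positivity
      have h1 := Nat.floor_le h0
      have h2 := Nat.lt_floor_add_one ((n : ℝ) * q i)
      simp only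
      constructor
      · rw [div_le_iff₀ hn']; linarith
      · rw [lt_div_iff₀ hn']; linarith

lemma cell_disj {n : ℕ} (hn : 0 < n) : Pairwise (Function.onFun Disjoint (cell n)) := by
  have hn' : (0 : ℝ) < n := by exact_mod_cast hn
  intro u v huv
  rw [Function.onFun, Set.disjoint_left]
  intro q hu hv
  apply huv
  funext i
  simp only [cell, Set.mem_pi, mem_univ, forall_true_left, mem_Ico] at hu hv
  obtain ⟨a1, a2⟩ := hu i
  obtain ⟨b1, b2⟩ := hv i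
  rw [div_le_iff₀ hn'] at a1 b1
  rw [lt_div_iff₀ hn'] at a2 b2
  have h1 : ((u i : ℕ) : ℝ) < ((v i : ℕ) : ℝ) + 1 := by linarith
  have h2 : ((v i : ℕ) : ℝ) < ((u i : ℕ) : ℝ) + 1 := by linarith
  have h3 : (u i : ℕ) < (v i : ℕ) + 1 := by exact_mod_cast h1
  have h4 : (v i : ℕ) < (u i : ℕ) + 1 := by exact_mod_cast h2
  apply Fin.ext
  omega

lemma indicator_aff {n : ℕ} (hn : 0 < n) (u : Fin 4 → Fin n) (I : (Fin 4 → ℝ) → ℂ) :
    Q.indicator (fun θ => I (aff n u θ)) = fun θ => (cell n u).indicator I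
      ((1 / (n : ℝ)) • θ + (fun i => ((u i : ℕ) : ℝ) / n)) := by
  funext θ
  have h : (1 / (n : ℝ)) • θ + (fun i => ((u i : ℕ) : ℝ) / n) = aff n u θ := by
    funext i
    simp only [aff, Pi.add_apply, Pi.smul_apply, smul_eq_mul]
    ring
  rw [h]
  by_cases hθ : θ ∈ Q
  · rw [indicator_of_mem hθ, indicator_of_mem ((aff_mem hn u θ).2 hθ)]
  · rw [indicator_of_notMem hθ, indicator_of_notMem (fun h => hθ ((aff_mem hn u θ).1 h))]

lemma cell_int {n : ℕ} (hn : 0 < n) (u : Fin 4 → Fin n) (I : (Fin 4 → ℝ) → ℂ) :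
    ∫ q in cell n u, I q = (1 / (n : ℂ) ^ 4) * ∫ θ in Q, I (aff n u θ) := by
  have hn' : (0 : ℝ) < n := by exact_mod_cast hn
  rw [← integral_indicator (measurableSet_cell n u), ← integral_indicator measurableSet_Q,
    indicator_aff hn u I]
  have h1 := Measure.integral_comp_smul (volume : Measure (Fin 4 → ℝ))
    (fun x => (cell n u).indicator I (x + (fun i => ((u i : ℕ) : ℝ) / n))) (1 / (n : ℝ))
  rw [h1, integral_add_right_eq_self]
  rw [Module.finrank_fin_fun]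
  have h2 : |((1 / (n : ℝ)) ^ 4)⁻¹| = (n : ℝ) ^ 4 := by
    rw [abs_of_pos (by positivity)]
    field_simp
  rw [h2]
  rw [Complex.real_smul]
  push_cast
  have : (n : ℂ) ≠ 0 := by exact_mod_cast hn.ne'
  field_simp

lemma cell_integrable {n : ℕ} (hn : 0 < n) (u : Fin 4 → Fin n) {I : (Fin 4 → ℝ) → ℂ}
    (hI : IntegrableOn I Q) : IntegrableOn (fun θ => I (aff n u θ)) Q := by
  have hn' : (0 : ℝ) < n := by exact_mod_cast hn
  rw [← integrable_indicator_iff measurableSet_Q, indicator_aff hn u I]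
  have h0 : Integrable ((cell n u).indicator I) := by
    rw [integrable_indicator_iff (measurableSet_cell n u)]
    apply hI.mono_set
    rw [← cell_union hn]
    exact subset_iUnion _ u
  have h1 : Integrable (fun x => (cell n u).indicator I (x + (fun i => ((u i : ℕ) : ℝ) / n))) :=
    h0.comp_add_right _
  exact h1.comp_smul (R := 1 / (n : ℝ)) (by positivity)

/-- splitting of the half open cube -/
lemma cube_split {n : ℕ} (hn : 0 < n) {I : (Fin 4 → ℝ) → ℂ} (hI : IntegrableOn I Q) :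
    ∫ q in Q, I q = ∫ θ in Q, (1 / (n : ℂ) ^ 4) * ∑ u : Fin 4 → Fin n, I (aff n u θ) := by
  rw [integral_const_mul, integral_finsetSum _ (fun u _ => cell_integrable hn u hI)]
  rw [Finset.mul_sum]
  have h1 : ∫ q in Q, I q = ∫ q in ⋃ u : Fin 4 → Fin n, cell n u, I q := by rw [cell_union hn]
  rw [h1, integral_iUnion (fun u => measurableSet_cell n u) (cell_disj hn) (by rwa [cell_union hn]),
    tsum_fintype]
  exact Finset.sum_congr rfl fun u _ => cell_int hn u I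

lemma Q_ae_eq : Q =ᵐ[volume] (Icc 0 1 : Set (Fin 4 → ℝ)) := by
  have := Measure.univ_pi_Ico_ae_eq_Icc (μ := fun _ : Fin 4 => (volume : Measure ℝ))
    (f := fun _ => (0 : ℝ)) (g := fun _ => (1 : ℝ))
  exact this


end Crest.Agent.R079.Riem133
end

-- ▼ part R079/RiemD_133
section

/-! R079, L0z part D (helper133): one scale of the box form = average over the cell offset `θ`
of lattice forms. -/

set_option autoImplicit false

namespace Crest.Agent.R079.Riem133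

open Crest.Agent.R079.Grid MeasureTheory Set Filter Topology
open scoped ENNReal

/-- offset of slot `j` -/
noncomputable def cj (θ : Fin 4 → ℝ) (j : Fin 4) : ℝ := ∑ i, ((Grid.sl i - Grid.sl j : ℤ) : ℝ) * θ i

/-- rescaled and shifted functions -/
noncomputable def psi (δ : ℝ) (f : Fin 4 → ℝ → ℂ) (θ : Fin 4 → ℝ) (j : Fin 4) (y : ℝ) : ℂ :=
  f j (δ * (y + cj θ j))

lemma sl_cast (i : Fin 4) : L0.sl i = ((Grid.sl i : ℤ) : ℝ) := by
  fin_cases i <;> simp [L0.sl, Grid.sl]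

lemma psi_measurable {δ : ℝ} {f : Fin 4 → ℝ → ℂ} (hm : ∀ j, Measurable (f j)) (θ : Fin 4 → ℝ)
    (j : Fin 4) : Measurable (psi δ f θ j) :=
  (hm j).comp ((measurable_id.add_const _).const_mul δ)

lemma psi_integrable {δ : ℝ} (hδ : 0 < δ) {f : Fin 4 → ℝ → ℂ} (hi : Integrable (f 0))
    (θ : Fin 4 → ℝ) : Integrable (psi δ f θ 0) := by
  have h1 : Integrable (fun y => f 0 (δ * y)) := hi.comp_mul_left' hδ.ne'
  exact h1.comp_add_right (cj θ 0)

lemma ep_aff {N : ℕ} (hN : 0 < N) (u : Fin 4 → Fin (N + N)) {θ : Fin 4 → ℝ} (hθ : θ ∈ Q) (i : Fin 4) :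
    L0.ep (aff (N + N) u θ i) = hsg N (u i) := by
  have hN' : (0 : ℝ) < N := by exact_mod_cast hN
  have h0 : θ i ∈ Ico (0 : ℝ) 1 := hθ i (mem_univ i)
  unfold L0.ep hsg aff
  have h1 : ((((u i : ℕ) : ℝ) + θ i) / ((N + N : ℕ) : ℝ) < 1 / 2) ↔ ((u i : ℕ) < N) := by
    push_cast
    rw [div_lt_iff₀ (by positivity)]
    constructor
    · intro h
      have h2 : ((u i : ℕ) : ℝ) < N := by linarith [h0.1]
      exact_mod_cast h2
    · intro h
      have h2 : ((u i : ℕ) : ℝ) + 1 ≤ N := by exact_mod_cast h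
      linarith [h0.2]
  simp only [h1]

lemma yq_aff {δ : ℝ} {N : ℕ} (hN : 0 < N) (b : ℤ) (u : Fin 4 → Fin (N + N)) (θ : Fin 4 → ℝ) (s : ℝ)
    (j : Fin 4) :
    L0.yq ((b : ℝ) / 2) (δ * ((N : ℝ) + N)) s (aff (N + N) u θ) j =
      s + δ * ((yv N b 0 u j : ℤ) + cj θ j) := by
  have hN' : (0 : ℝ) < N := by exact_mod_cast hN
  unfold L0.yq L0.xq L0.tq aff yv cj
  simp only [sl_cast, Fin.sum_univ_four]
  push_cast
  field_simp
  ring

lemma yq_cont (β N : ℝ) (j : Fin 4) : Continuous (fun p : ℝ × (Fin 4 → ℝ) => L0.yq β N p.1 p.2 j) := by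
  unfold L0.yq L0.xq L0.tq
  fun_prop

lemma ep_meas : Measurable L0.ep := by
  unfold L0.ep
  exact Measurable.ite measurableSet_Iio measurable_const measurable_const

lemma ep4_meas : Measurable L0.ep4 := by
  unfold L0.ep4
  apply Finset.measurable_fun_prod
  intro i _
  exact ep_meas.comp (measurable_pi_apply i)

lemma ep4_norm (q : Fin 4 → ℝ) : ‖((L0.ep4 q : ℝ) : ℂ)‖ = 1 := by
  rw [Complex.norm_real]
  unfold L0.ep4
  rw [norm_prod]
  apply Finset.prod_eq_one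
  intro i _
  unfold L0.ep
  split <;> simp

/-- integrand -/
noncomputable def hh (β N : ℝ) (f : Fin 4 → ℝ → ℂ) (s : ℝ) (q : Fin 4 → ℝ) : ℂ :=
  ((L0.ep4 q : ℝ) : ℂ) * ∏ j, f j (L0.yq β N s q j)

lemma hh_integrable (β N : ℝ) {f : Fin 4 → ℝ → ℂ} {B : ℝ} (hm : ∀ j, Measurable (f j))
    (hi : Integrable (f 0)) (hB : ∀ j y, ‖f j y‖ ≤ B) :
    Integrable (Function.uncurry (hh β N f)) ((volume : Measure ℝ).prod (volume.restrict Q)) := by
  have hB0 : 0 ≤ B := le_trans (norm_nonneg _) (hB 0 0)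
  have hmeas : ∀ j, Measurable (fun p : ℝ × (Fin 4 → ℝ) => f j (L0.yq β N p.1 p.2 j)) := fun j =>
    (hm j).comp (yq_cont β N j).measurable
  have hfin : IsFiniteMeasure (volume.restrict Q) := by
    constructor
    rw [Measure.restrict_apply_univ]
    unfold Q
    rw [Real.volume_pi_Ico]
    simp
  -- dominating function
  have hdom : Integrable (fun p : ℝ × (Fin 4 → ℝ) => f 0 (L0.yq β N p.1 p.2 0) * ((B * B * B : ℝ) : ℂ))
      ((volume : Measure ℝ).prod (volume.restrict Q)) := by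
    apply Integrable.mul_const
    rw [integrable_prod_iff' (hmeas 0).aestronglyMeasurable]
    have hshift : ∀ q : Fin 4 → ℝ, (fun s : ℝ => f 0 (L0.yq β N s q 0)) =
        fun s => f 0 (s + (L0.yq β N 0 q 0)) := by
      intro q
      funext s
      congr 1
      unfold L0.yq L0.xq
      ring
    constructor
    · refine Eventually.of_forall fun q => ?_
      show Integrable (fun s : ℝ => f 0 (L0.yq β N s q 0)) volume
      rw [hshift q]
      exact hi.comp_add_right _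
    · have : (fun q : Fin 4 → ℝ => ∫ s : ℝ, ‖f 0 (L0.yq β N s q 0)‖) = fun _ => ∫ s : ℝ, ‖f 0 s‖ := by
        funext q
        have h1 : (fun s : ℝ => ‖f 0 (L0.yq β N s q 0)‖) = fun s => ‖f 0 (s + (L0.yq β N 0 q 0))‖ := by
          funext s
          exact congrArg norm (congrFun (hshift q) s)
        rw [h1]
        exact integral_add_right_eq_self (fun s => ‖f 0 s‖) _
      show Integrable (fun q : Fin 4 → ℝ => ∫ s : ℝ, ‖f 0 (L0.yq β N s q 0)‖) _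
      rw [this]
      exact integrable_const _
  refine hdom.mono ?_ (Eventually.of_forall fun p => ?_)
  · apply Measurable.aestronglyMeasurable
    unfold hh
    show Measurable (fun p : ℝ × (Fin 4 → ℝ) => ((L0.ep4 p.2 : ℝ) : ℂ) * ∏ j, f j (L0.yq β N p.1 p.2 j))
    apply Measurable.mul
    · exact Complex.measurable_ofReal.comp (ep4_meas.comp measurable_snd)
    · exact Finset.measurable_fun_prod _ fun j _ => hmeas j
  · show ‖hh β N f p.1 p.2‖ ≤ _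
    unfold hh
    rw [norm_mul, ep4_norm, one_mul, norm_prod, Fin.prod_univ_four, norm_mul, Complex.norm_real,
      Real.norm_of_nonneg (by positivity : (0:ℝ) ≤ B * B * B)]
    have h1 := hB 1 (L0.yq β N p.1 p.2 1)
    have h2 := hB 2 (L0.yq β N p.1 p.2 2)
    have h3 := hB 3 (L0.yq β N p.1 p.2 3)
    calc _ ≤ ‖f 0 (L0.yq β N p.1 p.2 0)‖ * B * B * B := by gcongr
      _ = _ := by ring

/-- the inner integral on a cell -/
lemma inner_cell {δ : ℝ} (hδ : 0 < δ) {N : ℕ} (hN : 0 < N) (b : ℤ) (f : Fin 4 → ℝ → ℂ)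
    (u : Fin 4 → Fin (N + N)) {θ : Fin 4 → ℝ} (hθ : θ ∈ Q) :
    ∫ s : ℝ, hh ((b : ℝ) / 2) (δ * ((N : ℝ) + N)) f s (aff (N + N) u θ) =
      (δ : ℂ) * (((∏ i, hsg N (u i) : ℝ) : ℂ) *
        ∫ s : ℝ, ∏ j, psi δ f θ j (s + (yv N b 0 u j : ℤ))) := by
  unfold hh
  have h1 : L0.ep4 (aff (N + N) u θ) = ∏ i, hsg N (u i) := by
    unfold L0.ep4
    exact Finset.prod_congr rfl fun i _ => ep_aff hN u hθ i
  rw [h1, integral_const_mul]
  have h2 := Measure.integral_comp_mul_left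
    (fun s : ℝ => ∏ j, f j (s + δ * ((yv N b 0 u j : ℤ) + cj θ j))) δ
  have h3 : (fun s : ℝ => ∏ j, f j (δ * s + δ * ((yv N b 0 u j : ℤ) + cj θ j))) =
      fun s => ∏ j, psi δ f θ j (s + (yv N b 0 u j : ℤ)) := by
    funext s
    apply Finset.prod_congr rfl
    intro j _
    unfold psi
    congr 1
    ring
  rw [h3] at h2
  rw [h2]
  have h4 : (fun s : ℝ => ∏ j, f j (L0.yq ((b : ℝ) / 2) (δ * ((N : ℝ) + N)) s (aff (N + N) u θ) j)) =
      fun s => ∏ j, f j (s + δ * ((yv N b 0 u j : ℤ) + cj θ j)) := by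
    funext s
    apply Finset.prod_congr rfl
    intro j _
    rw [yq_aff hN]
  rw [h4, abs_of_pos (by positivity), Complex.real_smul]
  push_cast
  have : (δ : ℂ) ≠ 0 := by exact_mod_cast hδ.ne'
  field_simp

lemma scale_aux {δ : ℝ} (hδ : 0 < δ) {N : ℕ} (hN : 0 < N) (b : ℤ) {f : Fin 4 → ℝ → ℂ} {B : ℝ}
    (hm : ∀ j, Measurable (f j)) (hi : Integrable (f 0)) (hB : ∀ j y, ‖f j y‖ ≤ B)
    {θ : Fin 4 → ℝ} (hθ : θ ∈ Q) :
    (1 / ((N + N : ℕ) : ℂ) ^ 4) * ∑ u : Fin 4 → Fin (N + N),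
        ∫ s : ℝ, hh ((b : ℝ) / 2) (δ * ((N : ℝ) + N)) f s (aff (N + N) u θ) =
      (δ : ℂ) * ∫ s : ℝ, Lr N b (psi δ f θ) s := by
  unfold Lr
  rw [integral_const_mul, integral_finsetSum]
  · simp_rw [inner_cell hδ hN b f _ hθ, integral_const_mul]
    rw [← Finset.mul_sum]
    push_cast
    ring
  · intro u _
    apply Integrable.const_mul
    exact prod_integrable (psi_measurable hm θ) (psi_integrable hδ hi θ) (fun j y => hB j _) _

/-- one scale -/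
theorem scale_eq {δ : ℝ} (hδ : 0 < δ) {N : ℕ} (hN : 0 < N) (b : ℤ) {f : Fin 4 → ℝ → ℂ} {B : ℝ}
    (hm : ∀ j, Measurable (f j)) (hi : Integrable (f 0)) (hB : ∀ j y, ‖f j y‖ ≤ B) :
    (∫ s : ℝ, L0.Lb ((b : ℝ) / 2) (δ * ((N : ℝ) + N)) s f =
      ∫ θ in Q, (δ : ℂ) * ∫ s : ℝ, Lr N b (psi δ f θ) s) ∧
    IntegrableOn (fun θ => (δ : ℂ) * ∫ s : ℝ, Lr N b (psi δ f θ) s) Q := by
  have hNN : 0 < N + N := by omega
  set β : ℝ := (b : ℝ) / 2 with hβ
  set Nr : ℝ := δ * ((N : ℝ) + N) with hNr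
  have hint := hh_integrable β Nr hm hi hB
  have hI : IntegrableOn (fun q => ∫ s : ℝ, hh β Nr f s q) Q := hint.integral_prod_right
  have h1 : ∫ s : ℝ, L0.Lb β Nr s f = ∫ q in Q, ∫ s : ℝ, hh β Nr f s q := by
    rw [← integral_integral_swap hint]
    congr 1
    funext s
    unfold L0.Lb L0.cube
    rw [← setIntegral_congr_set Q_ae_eq]
    rfl
  have h2 := cube_split hNN hI
  constructor
  · rw [h1, h2]
    apply setIntegral_congr_fun measurableSet_Q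
    intro θ hθ
    exact scale_aux hδ hN b hm hi hB hθ
  · have h3 : IntegrableOn (fun θ => (1 / ((N + N : ℕ) : ℂ) ^ 4) * ∑ u : Fin 4 → Fin (N + N),
        ∫ s : ℝ, hh β Nr f s (aff (N + N) u θ)) Q := by
      apply Integrable.const_mul
      apply integrable_finsetSum
      intro u _
      exact cell_integrable hNN u hI
    refine h3.congr_fun ?_ measurableSet_Q
    intro θ hθ
    exact scale_aux hδ hN b hm hi hB hθ

end Crest.Agent.R079.Riem133
end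

-- ▼ part R079/Riem_133
section

/-! R079, **L0z** (helper133): `Grid.LatBound → BoxBound (-1/2) ∧ BoxBound (-7/2)`.

No limit in the mesh: with `δ = ρ 2^{-(m+1)}` the box form of side `ρ 2^k` is EXACTLY the average over
the offsets `(θ, ξ) ∈ [0,1)^4 × (0,1]` of the lattice forms of the samples
`n ↦ f_j (δ (n + ξ + c_j(θ)))`, and Hölder in `ξ` gives back the `L³` norms. -/

set_option autoImplicit false

namespace Crest.Agent.R079.Riem133

open Crest.Agent.R079.Grid MeasureTheory Set Filter Topology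
open scoped ENNReal

lemma N3_psi {δ : ℝ} (hδ : 0 < δ) {f : Fin 4 → ℝ → ℂ} (hm : ∀ j, Measurable (f j)) (θ : Fin 4 → ℝ)
    (j : Fin 4) : N3 (psi δ f θ j) = (ENNReal.ofReal δ⁻¹) ^ (1 / 3 : ℝ) * N3 (f j) := by
  unfold N3 psi
  rw [← ENNReal.mul_rpow_of_nonneg _ _ (by norm_num)]
  congr 1
  have h1 : ∫⁻ y : ℝ, ‖f j (δ * (y + cj θ j))‖ₑ ^ 3 = ∫⁻ y : ℝ, ‖f j (δ * y)‖ₑ ^ 3 :=
    lintegral_add_right_eq_self (fun y => ‖f j (δ * y)‖ₑ ^ 3) _
  rw [h1]
  have h2 : ∫⁻ y : ℝ, ‖f j (δ * y)‖ₑ ^ 3 = ∫⁻ y, ‖f j y‖ₑ ^ 3 ∂(Measure.map (δ * ·) volume) := by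
    rw [lintegral_map ((hm j).enorm.pow_const 3) (measurable_const_mul δ)]
  rw [h2, Real.map_volume_mul_left hδ.ne', lintegral_smul_measure, abs_of_pos (by positivity)]
  rfl

theorem main {C : ℝ} (hC : 0 ≤ C) {b : ℤ} (H : LatB C b) {f : Fin 4 → ℝ → ℂ} {B : ℝ}
    (hm : ∀ j, Measurable (f j)) (hi : Integrable (f 0)) (hB : ∀ j y, ‖f j y‖ ≤ B)
    (h3 : ∀ y, ‖f 3 y‖ ≤ 1) {ρ : ℝ} (hρ : 0 < ρ) (m : ℕ) :
    ‖∑ k ∈ Finset.Ico (-(m : ℤ)) m, ∫ s : ℝ, L0.Lb ((b : ℝ) / 2) (ρ * (2 : ℝ) ^ k) s f‖ₑ ≤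
      ENNReal.ofReal C * (N3 (f 0) * N3 (f 1) * N3 (f 2)) := by
  set δ : ℝ := ρ * (2 : ℝ) ^ (-((m : ℤ) + 1)) with hδdef
  have hδ : 0 < δ := by positivity
  -- reindexing
  have hre : ∑ k ∈ Finset.Ico (-(m : ℤ)) m, ∫ s : ℝ, L0.Lb ((b : ℝ) / 2) (ρ * (2 : ℝ) ^ k) s f =
      ∑ i ∈ Finset.range (2 * m), ∫ s : ℝ, L0.Lb ((b : ℝ) / 2)
        (δ * (((2 ^ i : ℕ) : ℝ) + ((2 ^ i : ℕ) : ℝ))) s f := by
    refine Finset.sum_nbij' (fun k => (k + m).toNat) (fun i => (i : ℤ) - m) ?_ ?_ ?_ ?_ ?_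
    · intro k hk
      rw [Finset.mem_Ico] at hk
      rw [Finset.mem_range]
      omega
    · intro i hi
      rw [Finset.mem_range] at hi
      rw [Finset.mem_Ico]
      omega
    · intro k hk
      rw [Finset.mem_Ico] at hk
      omega
    · intro i hi
      simp
    · intro k hk
      rw [Finset.mem_Ico] at hk
      have h1 : δ * (((2 ^ (k + m).toNat : ℕ) : ℝ) + ((2 ^ (k + m).toNat : ℕ) : ℝ)) = ρ * (2 : ℝ) ^ k := by
        have h2 : (((2 ^ (k + m).toNat : ℕ) : ℝ)) = (2 : ℝ) ^ (k + m) := by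
          push_cast
          rw [← zpow_natCast]
          congr 1
          omega
        rw [h2, hδdef, ← two_mul, mul_assoc]
        congr 1
        rw [← mul_assoc, ← zpow_add_one₀ (by norm_num), ← zpow_add₀ (by norm_num)]
        congr 1
        ring
      rw [h1]
  rw [hre]
  have hsc := fun i : ℕ => scale_eq hδ (N := 2 ^ i) (by positivity) b hm hi hB
  have h4 : ∑ i ∈ Finset.range (2 * m), ∫ s : ℝ, L0.Lb ((b : ℝ) / 2)
        (δ * (((2 ^ i : ℕ) : ℝ) + ((2 ^ i : ℕ) : ℝ))) s f =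
      ∫ θ in Q, (δ : ℂ) * ∫ s : ℝ, ∑ i ∈ Finset.range (2 * m), Lr (2 ^ i) b (psi δ f θ) s := by
    rw [Finset.sum_congr rfl fun i _ => (hsc i).1, ← integral_finsetSum _ fun i _ => (hsc i).2]
    congr 1
    funext θ
    rw [← Finset.mul_sum, integral_finsetSum]
    intro i _
    exact Lr_integrable _ _ (psi_measurable hm θ) (psi_integrable hδ hi θ) (fun j y => hB j _)
  rw [h4]
  refine le_trans (enorm_integral_le_lintegral_enorm _) ?_
  have hbd : ∀ θ : Fin 4 → ℝ,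
      ‖(δ : ℂ) * ∫ s : ℝ, ∑ i ∈ Finset.range (2 * m), Lr (2 ^ i) b (psi δ f θ) s‖ₑ ≤
      ENNReal.ofReal C * (N3 (f 0) * N3 (f 1) * N3 (f 2)) := by
    intro θ
    rw [enorm_mul]
    have h5 := K1 hC H (psi δ f θ) (Finset.range (2 * m)) (psi_measurable hm θ)
      (psi_integrable hδ hi θ) (fun j y => hB j _) (fun y => h3 _)
    refine le_trans (mul_le_mul_right h5 _) ?_
    rw [N3_psi hδ hm, N3_psi hδ hm, N3_psi hδ hm]
    have h6 : ‖(δ : ℂ)‖ₑ = ENNReal.ofReal δ := by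
      rw [← ofReal_norm, Complex.norm_real, Real.norm_of_nonneg hδ.le]
    have h7 : ENNReal.ofReal δ * ((ENNReal.ofReal δ⁻¹) ^ (1 / 3 : ℝ) * (ENNReal.ofReal δ⁻¹) ^ (1 / 3 : ℝ) *
        (ENNReal.ofReal δ⁻¹) ^ (1 / 3 : ℝ)) = 1 := by
      have h8 : (ENNReal.ofReal δ⁻¹) ^ (1 / 3 : ℝ) * (ENNReal.ofReal δ⁻¹) ^ (1 / 3 : ℝ) *
          (ENNReal.ofReal δ⁻¹) ^ (1 / 3 : ℝ) = ENNReal.ofReal δ⁻¹ := by
        rw [← ENNReal.rpow_add_of_nonneg _ _ (by norm_num) (by norm_num),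
          ← ENNReal.rpow_add_of_nonneg _ _ (by norm_num) (by norm_num)]
        norm_num
      rw [h8, ← ENNReal.ofReal_mul hδ.le, mul_inv_cancel₀ hδ.ne', ENNReal.ofReal_one]
    rw [h6]
    apply le_of_eq
    calc _ = (ENNReal.ofReal δ * ((ENNReal.ofReal δ⁻¹) ^ (1 / 3 : ℝ) * (ENNReal.ofReal δ⁻¹) ^ (1 / 3 : ℝ) *
        (ENNReal.ofReal δ⁻¹) ^ (1 / 3 : ℝ))) * (ENNReal.ofReal C * (N3 (f 0) * N3 (f 1) * N3 (f 2))) := by
          ring
      _ = _ := by rw [h7, one_mul]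
  refine le_trans (lintegral_mono (μ := volume.restrict Q) hbd) ?_
  rw [lintegral_const, Measure.restrict_apply_univ]
  have hQ : volume Q = 1 := by
    unfold Q
    rw [Real.volume_pi_Ico]
    simp
  rw [hQ, mul_one]

lemma N3_schwartz (f : SchwartzMap ℝ ℂ) : N3 f = ENNReal.ofReal (L0.n3 f) := by
  unfold L0.n3
  rw [ENNReal.ofReal_toReal (f.memLp 3 volume).2.ne]
  rw [eLpNorm_eq_lintegral_rpow_enorm_toReal (by norm_num) (by norm_num)]
  unfold N3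
  have : (3 : ℝ≥0∞).toReal = 3 := by simp
  rw [this]
  congr 1
  apply lintegral_congr
  intro y
  norm_cast

theorem boxBound_of {C : ℝ} (hC : 0 ≤ C) {b : ℤ} (H : LatB C b) : L0.BoxBound ((b : ℝ) / 2) := by
  refine ⟨C, hC, ?_⟩
  intro f₁ f₂ f₃ g hg hg1 ρ hρ m
  obtain ⟨C1, _, h1⟩ := f₁.decay 0 0
  obtain ⟨C2, _, h2⟩ := f₂.decay 0 0
  obtain ⟨C3, _, h3⟩ := f₃.decay 0 0
  have hmeas : ∀ j, Measurable ((![⇑f₁, ⇑f₂, ⇑f₃, g] : Fin 4 → ℝ → ℂ) j) := by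
    intro j
    fin_cases j
    · exact f₁.continuous.measurable
    · exact f₂.continuous.measurable
    · exact f₃.continuous.measurable
    · exact hg
  have hbd : ∀ j y, ‖(![⇑f₁, ⇑f₂, ⇑f₃, g] : Fin 4 → ℝ → ℂ) j y‖ ≤ max (max C1 C2) (max C3 1) := by
    intro j y
    fin_cases j
    · exact le_trans (by simpa using h1 y) (le_trans (le_max_left _ _) (le_max_left _ _))
    · exact le_trans (by simpa using h2 y) (le_trans (le_max_right _ _) (le_max_left _ _))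
    · exact le_trans (by simpa using h3 y) (le_trans (le_max_left _ _) (le_max_right _ _))
    · exact le_trans (hg1 y) (le_trans (le_max_right _ _) (le_max_right _ _))
  have hmain := main hC H hmeas (f₁.integrable) hbd hg1 (lt_of_lt_of_le one_pos hρ.1) m
  rw [← ofReal_norm] at hmain
  have h0 : N3 ((![⇑f₁, ⇑f₂, ⇑f₃, g] : Fin 4 → ℝ → ℂ) 0) = ENNReal.ofReal (L0.n3 f₁) := N3_schwartz f₁
  have h0' : N3 ((![⇑f₁, ⇑f₂, ⇑f₃, g] : Fin 4 → ℝ → ℂ) 1) = ENNReal.ofReal (L0.n3 f₂) := N3_schwartz f₂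
  have h0'' : N3 ((![⇑f₁, ⇑f₂, ⇑f₃, g] : Fin 4 → ℝ → ℂ) 2) = ENNReal.ofReal (L0.n3 f₃) := N3_schwartz f₃
  have hn : ∀ f : ℝ → ℂ, 0 ≤ L0.n3 f := fun f => ENNReal.toReal_nonneg
  rw [h0, h0', h0'', ← ENNReal.ofReal_mul (hn _), ← ENNReal.ofReal_mul (mul_nonneg (hn _) (hn _)),
    ← ENNReal.ofReal_mul hC] at hmain
  exact (ENNReal.ofReal_le_ofReal_iff (by have := hn f₁; have := hn f₂; have := hn f₃; positivity)).1 hmain

/-- **L0z** -/
theorem l0z : Spine.L0zProp := by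
  rintro ⟨C, hC, H⟩
  have h1 : LatB C (-1) := fun M F S => H (-1) (Or.inl rfl) M F S
  have h2 : LatB C (-7) := fun M F S => H (-7) (Or.inr rfl) M F S
  constructor
  · have := boxBound_of hC h1
    simpa using this
  · have := boxBound_of hC h2
    simpa using this

end Crest.Agent.R079.Riem133
end

-- ▼ part R079/Main_796
section

/-! R079 MAIN (helper796): the whole of Layer 0 plugged in: literal `S0106` from the lattice
tree bound `Grid.BBFinite` (or from `Grid.GridBound`). -/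

set_option autoImplicit false

namespace Crest.Agent.R079.Main


/-- literal `S0106` from `Grid.GridBound`. -/
theorem target_of_GridBound' (h : Grid.GridBound) : L0.Target :=
  Spine.target_of_GridBound Riem133.l0z L0.s0106_of_boxBound h


end Crest.Agent.R079.Main
end

-- ▼ part R079/LqMain_853
section

/-! R079 (helper853): literal `S0106` from the class bound `BBq q`, any `1 ≤ q < 3`. -/

set_option autoImplicit false

namespace Crest.Agent.R079.Lq853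

/-- literal `S0106` (as `L0.Target`) from the class bound. -/
theorem target_of_BBq (q : ℝ) (hq1 : 1 ≤ q) (hq3 : q < 3) (h : BBq q) : L0.Target :=
  Main.target_of_GridBound' (gridBound_of_BBq q hq1 hq3 h)

end Crest.Agent.R079.Lq853
end

-- ▼ part R079/TDef_853

/-! R079, GLOBAL RECURSION (doc 2489 of 911, parameters repaired: msg 853), FROZEN LITERALS (helper853).

`RuleA` (= MIX) + `FrzBd` + three small letters (`BN`) ⟹ `∃ B, ∀ N, BN N B` ⟹ `BBq (2+k)` ⟹ `S0106`.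

Slots `0,1,2`: local `L^(2+k)`, dictionary of sup `t^(-1)`; slot `3`: local `L^q3`, dictionary of sup
`t^(-sg)` (`sg` small: cells / non-collision).  `D j t` = set of (atom)/(price at parameter `t`). -/

set_option autoImplicit false

namespace Crest.Agent.R079.TRec

open Finset Crest.Agent.R079.Grid Crest.Agent.R079.Growth Crest.Agent.R079.QRed

/-- local `L^q` average of a node -/
noncomputable def aq (q : ℝ) (p : Nd) (f : Fn) : ℝ := Lq853.avq q (p.1 + 7) p.2 f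

/-- exponents `(2+k, 2+k, 2+k, q3)` -/
noncomputable def qx (k q3 : ℝ) (j : Fin 4) : ℝ := if j = 3 then q3 else 2 + k

/-- sup exponents `(1, 1, 1, sg)` -/
noncomputable def sx (sg : ℝ) (j : Fin 4) : ℝ := if j = 3 then sg else 1

/-- abstract dictionary: `D j t` = the set of (atom of slot `j`) / (its price at parameter `t`) -/
abbrev Dict : Type := Fin 4 → ℝ → Set Fn

/-- what the recursion needs of the dictionary -/
structure Dic (D : Dict) (sg : ℝ) : Prop where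
  /-- sup norm -/
  sup : ∀ j t, 0 < t → t ≤ 1 → ∀ φ ∈ D j t, ∀ y, ‖φ y‖ ≤ t ^ (-(sx sg j))
  /-- smaller parameter = more (renormalised) functions -/
  mono : ∀ j s t, 0 < s → s ≤ t → t ≤ 1 → ∀ φ ∈ D j t, ∃ φ' ∈ D j s, ∃ c : ℝ, 0 ≤ c ∧ c ≤ 1 ∧
    φ = fun y => (c : ℂ) * φ' y
  /-- closed under complex conjugation -/
  conj : ∀ j t, ∀ φ ∈ D j t, (fun y => (starRingEnd ℂ) (φ y)) ∈ D j t
  /-- point masses are atoms of the slots `0,1,2` (a priori bound at finite resolution) -/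
  pt : ∀ j, j ≠ 3 → ∀ t, 0 < t → t ≤ 1 → ∀ y : ℤ,
    (fun x => if x = y then ((t : ℂ))⁻¹ else 0) ∈ D j t

/-- level `≤ s` (in units of the prices) at the node `p` -/
def Lv (D : Dict) (j : Fin 4) (t s : ℝ) (p : Nd) (g : Fn) : Prop :=
  ∀ φ ∈ D j t, ‖∑ y ∈ iv p, g y * φ y‖ ≤ s * len p

/-- frozen of mass `≤ M` (in units of the prices) on `iv p` -/
def Fz (D : Dict) (j : Fin 4) (t M : ℝ) (p : Nd) (f : Fn) : Prop :=
  ∃ (n : ℕ) (φ : Fin n → Fn) (c : Fin n → ℂ), (∀ i, φ i ∈ D j t) ∧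
    (∀ y ∈ iv p, f y = ∑ i, c i * φ i y) ∧ ∑ i, ‖c i‖ ≤ M

/-- static tuple, loc-normalised on `R` -/
def nrm (k q3 : ℝ) (R : Finset Nd) (F : Fin 4 → Fn) : Prop :=
  ∀ j, ∀ p ∈ R, aq (qx k q3 j) p (F j) ≤ 1

/-- `B` bounds all full regions with top level `≤ N` -/
def BN (k q3 : ℝ) (N : ℕ) (B : ℝ) : Prop :=
  ∀ bb ε, Adm bb ε → ∀ R J, Full R J → J.1 ≤ N → ∀ F, nrm k q3 R F → ‖TR bb ε R F‖ ≤ B * len J


/-- frozen letters of the slots `0,1,2` at a FIXED parameter (no gain) -/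
def FrzBd (D : Dict) (k q3 : ℝ) : Prop :=
  ∀ t, 0 < t → t ≤ 1 → ∃ K : ℝ, 0 ≤ K ∧ ∀ bb ε, Adm bb ε → ∀ W I, Full W I → ∀ F, nrm k q3 W F →
    ∀ i : Fin 4, i ≠ 3 → Fz D i t 1 I (F i) → ‖TR bb ε W F‖ ≤ K * len I

/-- admissible parameters; `bt` = total margin -/
structure Ok (k q3 sg c0 c3 e c1 bt : ℝ) : Prop where
  k0 : 0 < k
  k1 : k < 1
  hq3 : 2 < q3
  sg0 : 0 ≤ sg
  sg1 : sg ≤ 1
  e0 : 0 < e
  e1 : e ≤ 1
  c10 : 0 < c1
  c11 : c1 ≤ 1
  bt0 : 0 < bt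
  /-- windows are paid by rule (A) -/
  hA : bt + 20 * k ≤ c0 - (1 + e) * c1
  /-- killer in slot 3 (used once, next to two small letters) -/
  h3 : bt + 20 * k ≤ c3 - (1 + e) * sg * (q3 - 2)
  /-- absorption of three small letters, one of them in slot 3 -/
  hC : bt + 20 * k ≤ (c1 - (1 + e) * sg * (q3 - 2)) / q3
  /-- losses of the recursion -/
  hk : 40 * k ≤ e * bt


/-! ### moving letters -/

/-- total form of MOVING letters (`Y j p` = letter of slot `j` at the node `p`) -/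
noncomputable def TP (bb : ℤ) (ε : ℕ → ℤ → ℂ) (R : Finset Nd) (Y : Fin 4 → Nd → Fn) : ℂ :=
  ∑ p ∈ R, TI bb ε (fun j => Y j p) p

/-- tops of a partition of `R` into full windows -/
structure Tops (R : Finset Nd) (J : Nd) (T : Finset Nd) : Prop where
  sub : T ⊆ R
  top : J ∈ T
  sib : ∀ (m : ℕ) (l : ℤ), (m + 1, l) ∈ R → ((m, 2 * l) ∈ T ↔ (m, 2 * l + 1) ∈ T)

/-- `I` is the top of the window of `p` -/
def Wn (T : Finset Nd) (I p : Nd) : Prop :=
  I ∈ T ∧ iv p ⊆ iv I ∧ ∀ I' ∈ T, iv p ⊆ iv I' → iv I ⊆ iv I'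

/-- `X` is static on the windows -/
def Adp (R T : Finset Nd) (X : Nd → Fn) : Prop := ∀ p ∈ R, ∀ I, Wn T I p → X p = X I

open Classical in
/-- number of windows strictly below each node -/
def Cnt (R T : Finset Nd) (A : ℝ) : Prop :=
  ∀ p ∈ R, ∑ I ∈ T.filter (fun I => iv I ⊂ iv p), len I ≤ A * len p

open Classical in
/-- square Carleson condition strictly below each node -/
def Sq (R T : Finset Nd) (E : Nd → Fn) (A : ℝ) : Prop :=
  ∀ p ∈ R, ∑ I ∈ T.filter (fun I => iv I ⊂ iv p), ∑ y ∈ iv I, ‖E I y‖ ^ 2 ≤ A * len p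

/-- **windowed residual** `X = G - H - E` of slot `j`, level `t`, window fineness `t^c1` -/
structure WRd (D : Dict) (k q3 sg c1 C : ℝ) (j : Fin 4) (t : ℝ) (R : Finset Nd) (J : Nd)
    (T : Finset Nd) (G : Fn) (H E X : Nd → Fn) : Prop where
  tops : Tops R J T
  adH : Adp R T H
  adE : Adp R T E
  eq : ∀ p ∈ R, ∀ y, X p y = G y - H p y - E p y
  nrm : ∀ p ∈ R, aq (qx k q3 j) p G ≤ 1
  lev : ∀ p ∈ R, Lv D j t C p (X p)
  frz : ∀ p ∈ R, Fz D j t C p (H p)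
  hav : ∀ p ∈ R, av p (H p) ≤ C
  eav : ∀ p ∈ R, av p (E p) ≤ C * t ^ (c1 / 2)
  hsup : ∀ p ∈ R, ∀ y ∈ iv p, ‖H p y‖ ≤ C * t ^ (-(sx sg j))
  esup : ∀ p ∈ R, ∀ y ∈ iv p, ‖E p y‖ ≤ C * t ^ (-(sx sg j))
  cnt : Cnt R T (C * t ^ (-c1))
  sq : Sq R T E C

/-- **[T1] WINDOWS**: common windows of four static letters at level `t`; `C` absolute -/
def WinLem : Prop :=
  ∃ C : ℝ, 1 ≤ C ∧ ∀ (D : Dict) (k q3 sg c1 : ℝ), Dic D sg → 0 < k → k < 1 → 2 < q3 → 0 ≤ sg →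
    sg ≤ 1 → 0 < c1 → c1 ≤ 1 → ∀ R J, Full R J → ∀ G : Fin 4 → Fn, nrm k q3 R G →
    ∀ t, 0 < t → t ≤ 1 → ∃ (T : Finset Nd) (H E : Fin 4 → Nd → Fn),
      ∀ j, WRd D k q3 sg c1 C j t R J T (G j) (H j) (E j)
        (fun p y => G j y - H j p y - E j p y)

/-- **[T2] CONVERSION** (random signs + localisation): a small moving letter `E` of slot `i` may be
replaced by a static one -/
def ConvLem : Prop :=
  ∀ k : ℝ, 0 < k → k ≤ 1 / 4 → ∀ C : ℝ, 1 ≤ C → ∃ C' : ℝ, 0 ≤ C' ∧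
    ∀ (bb : ℤ) (i : Fin 4) (t A : ℝ), 0 < t → t ≤ 1 → 0 ≤ A → ∀ R J, Full R J →
    ∀ (Y : Fin 4 → Nd → Fn) (T : Finset Nd) (E : Nd → Fn), Tops R J T → Adp R T E →
      (∀ p ∈ R, av p (E p) ≤ C) → (∀ p ∈ R, ∀ y ∈ iv p, ‖E p y‖ ≤ C * t⁻¹) →
      Cnt R T (C * t⁻¹) → Sq R T E C →
      (∀ ε, Adm bb ε → ∀ R' J', Full R' J' → R' ⊆ R → ∀ z : Fn,
        (∀ p ∈ R', aq (2 + k) p z ≤ 1) →
        ‖TP bb ε R' (Function.update Y i (fun _ => z))‖ ≤ A * len J') →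
      ∀ ε, Adm bb ε → ‖TP bb ε R (Function.update Y i E)‖ ≤ C' * t ^ (-(5 * k)) * A * len J



/-- `A` bounds all tuples with ONE windowed residual of level `t` (slot `m ≠ 3`), three static -/
def An (D : Dict) (k q3 sg c1 C : ℝ) (N : ℕ) (t A : ℝ) : Prop :=
  ∀ bb ε, Adm bb ε → ∀ R J, Full R J → J.1 ≤ N → ∀ m : Fin 4, m ≠ 3 → ∀ T G H E X,
    WRd D k q3 sg c1 C m t R J T G H E X → ∀ F : Fin 4 → Fn,
    (∀ j, j ≠ m → ∀ p ∈ R, aq (qx k q3 j) p (F j) ≤ 1) →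
    ‖TP bb ε R (Function.update (fun j _ => F j) m X)‖ ≤ A * len J

/-- `A` bounds all tuples with TWO windowed residuals (levels `t'`, `t`; slots `m ≠ m'`, both `≠ 3`) -/
def Bn (D : Dict) (k q3 sg c1 C : ℝ) (N : ℕ) (t' t A : ℝ) : Prop :=
  ∀ bb ε, Adm bb ε → ∀ R J, Full R J → J.1 ≤ N → ∀ m m' : Fin 4, m ≠ 3 → m' ≠ 3 → m ≠ m' →
    ∀ T G H E X, WRd D k q3 sg c1 C m t' R J T G H E X →
    ∀ T' G' H' E' X', WRd D k q3 sg c1 C m' t R J T' G' H' E' X' → ∀ F : Fin 4 → Fn,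
    (∀ j, j ≠ m → j ≠ m' → ∀ p ∈ R, aq (qx k q3 j) p (F j) ≤ 1) →
    ‖TP bb ε R (Function.update (Function.update (fun j _ => F j) m X) m' X')‖ ≤ A * len J



/-- **[T4a] A PRIORI** at finite resolution -/
def AprLem : Prop :=
  ∀ (D : Dict) (k q3 sg c0 c3 e c1 bt C : ℝ), Ok k q3 sg c0 c3 e c1 bt → Dic D sg → 1 ≤ C →
    ∀ N, ∃ K : ℝ, 0 ≤ K ∧ ∀ t, 0 < t → t ≤ 1 → An D k q3 sg c1 C N t (K * t)

/-- **[T4b] TOP STEP** (fixed parameter `t`) -/
def TopLem : Prop :=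
  ∃ Cw : ℝ, 1 ≤ Cw ∧ ∀ (D : Dict) (k q3 sg c0 c3 e c1 bt C : ℝ), Ok k q3 sg c0 c3 e c1 bt →
    Dic D sg → Cw ≤ C → FrzBd D k q3 → ∃ K : ℝ, 0 ≤ K ∧ ∀ t, 0 < t → t ≤ 1 → ∃ Kt : ℝ, 0 ≤ Kt ∧
    ∀ N B A, 0 ≤ B → BN k q3 N B → 0 ≤ A → An D k q3 sg c1 C N t A →
      BN k q3 N (Kt + K * t ^ (-(20 * k)) * A + K * B * t ^ bt)

/-- **[T5]** exit: full regions ⟹ class bound of `LqMain_853` -/
def ExitLem : Prop :=
  ∀ k q3 : ℝ, 0 < k → k < 1 → 2 < q3 → (∃ B : ℝ, 0 ≤ B ∧ ∀ N, BN k q3 N B) → Lq853.BBq (2 + k)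

/-! ### wiring (to be proved: T1-T5) -/


end Crest.Agent.R079.TRec
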