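import Crest.Agent.R079.TS0_903
import Crest.Agent.R079.TS1_653
import Crest.Agent.R079.Qb_247

/-! R079, global recursion, [T3a] (helper903): `TwoLem` = two windowed residuals (slots `m ≠ m'`, both
`≠ 3`).  The coarser one is expanded, `X' = G' - H' - E'`: `G'` by `An`, `E'` by one conversion, `H'`
(frozen, pushed to the parameter `τ^(1+e)`, `τ = t^(1+e)`) by the scaled rule (A) at the parameter `τ`
on the common windows. -/

set_option autoImplicit false

namespace Crest.Agent.R079.TRec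

open Finset Crest.Agent.R079.Grid Crest.Agent.R079.Growth Crest.Agent.R079.QRed

namespace T3b

variable {R : Finset Nd} {J : Nd}

/-- heights of sub-regions -/
theorem ht_le {R' : Finset Nd} {J' : Nd} (hR : Full R J) (hR' : Full R' J') (hs : R' ⊆ R) :
    J'.1 ≤ J.1 := iv_level (hR.reg.1 J' (hs hR'.top))

lemma upd_at (Y : Fin 4 → Nd → Fn) (i : Fin 4) (X : Nd → Fn) (p : Nd) :
    (fun j => Function.update Y i X j p) = Function.update (fun j => Y j p) i (X p) := by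
  funext j
  by_cases h : j = i
  · subst h; simp
  · simp [h]

/-- linearity: expansion of a residual -/
theorem TP_sub3 (bb : ℤ) (ε : ℕ → ℤ → ℂ) (Y : Fin 4 → Nd → Fn) (i : Fin 4)
    {X H E : Nd → Fn} {G : Fn} (h : ∀ p ∈ R, ∀ y, X p y = G y - H p y - E p y) :
    TP bb ε R (Function.update Y i X) =
      TP bb ε R (Function.update Y i (fun _ => G)) - TP bb ε R (Function.update Y i H)
        - TP bb ε R (Function.update Y i E) := by
  unfold TP
  rw [← Finset.sum_sub_distrib, ← Finset.sum_sub_distrib]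
  refine Finset.sum_congr rfl fun p hp => ?_
  rw [upd_at, upd_at, upd_at, upd_at]
  have e : X p = fun y => ∑ k : Fin 3,
      (![1, -1, -1] : Fin 3 → ℂ) k * (![G, H p, E p] : Fin 3 → Fn) k y := by
    funext y
    rw [h p hp y, Fin.sum_univ_three]
    simp
    ring
  rw [e, Qb247.TI_update_sum, Fin.sum_univ_three]
  simp
  ring

/-- frozen at a coarse parameter = frozen at a finer one -/
theorem Fz_finer {D : Dict} {sg : ℝ} (hD : Dic D sg) {j : Fin 4} {s t M : ℝ} {p : Nd} {f : Fn}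
    (hs : 0 < s) (hst : s ≤ t) (ht : t ≤ 1) (h : Fz D j t M p f) : Fz D j s M p f := by
  obtain ⟨n, φ, c, hφ, hf, hM⟩ := h
  choose φ' hφ' a ha0 ha1 hφa using fun i => hD.mono j s t hs hst ht (φ i) (hφ i)
  refine ⟨n, φ', fun i => c i * a i, hφ', ?_, ?_⟩
  · intro y hy
    rw [hf y hy]
    refine Finset.sum_congr rfl fun i _ => ?_
    rw [hφa i]
    ring
  · refine (Finset.sum_le_sum fun i _ => ?_).trans hM
    rw [norm_mul, Complex.norm_real, Real.norm_of_nonneg (ha0 i)]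
    exact mul_le_of_le_one_right (norm_nonneg _) (ha1 i)

section num

variable {k q3 sg c0 c3 e c1 bt : ℝ}

theorem k_small (o : Ok k q3 sg c0 c3 e c1 bt) : k ≤ 1 / 80 := by
  have h1 := o.hC
  have h2 : 0 ≤ (1 + e) * sg * (q3 - 2) :=
    mul_nonneg (mul_nonneg (by linarith [o.e0]) o.sg0) (by linarith [o.hq3])
  have h3 : (c1 - (1 + e) * sg * (q3 - 2)) / q3 ≤ 1 / 2 := by
    rw [div_le_iff₀ (by linarith [o.hq3])]
    linarith [o.hq3, o.c11]
  have h4 : e * bt ≤ 1 * bt := mul_le_mul_of_nonneg_right o.e1 o.bt0.le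
  linarith [o.hk, o.k0]


theorem c0_pos (o : Ok k q3 sg c0 c3 e c1 bt) : 0 < c0 := by
  have h1 : 0 < (1 + e) * c1 := mul_pos (by linarith [o.e0]) o.c10
  linarith [o.hA, o.k0, o.bt0]

/-- the total exponent of the `H`-word -/
theorem expo (o : Ok k q3 sg c0 c3 e c1 bt) {t : ℝ} (ht : 0 < t) (ht1 : t ≤ 1) :
    t ^ (-k) * t ^ (-k) * ((t ^ (1 + e)) ^ c0 * (t ^ (1 + e)) ^ (-c1)) ≤ t ^ (bt + 18 * k) := by
  rw [← Real.rpow_mul ht.le, ← Real.rpow_mul ht.le, ← Real.rpow_add ht, ← Real.rpow_add ht,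
    ← Real.rpow_add ht]
  refine Real.rpow_le_rpow_of_exponent_ge ht ht1 ?_
  have h1 := o.hA
  have h2 : 0 ≤ e * c0 := mul_nonneg o.e0.le (c0_pos o).le
  nlinarith

end num

section slots

variable {D : Dict} {k q3 sg c1 C : ℝ} {j : Fin 4} {t : ℝ} {T : Finset Nd} {G : Fn}
  {H E X : Nd → Fn}

lemma qx_ne (hj : j ≠ 3) : qx k q3 j = 2 + k := by simp [qx, hj]

lemma sx_ne (hj : j ≠ 3) : sx sg j = 1 := by simp [sx, hj]

lemma loss (hk : 0 < k) (ht : 0 < t) (ht1 : t ≤ 1) (hj : j ≠ 3) :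
    t ^ (-(sx sg j * (qx k q3 j - 2) / qx k q3 j)) ≤ t ^ (-(k / 2)) := by
  rw [qx_ne hj, sx_ne hj]
  refine Real.rpow_le_rpow_of_exponent_ge ht ht1 ?_
  have : 1 * (2 + k - 2) / (2 + k) ≤ k / 2 := by
    rw [div_le_div_iff₀ (by linarith) (by norm_num)]
    nlinarith
  linarith

theorem X_le (h : WRd D k q3 sg c1 C j t R J T G H E X) (hj : j ≠ 3) (hk : 0 < k) (hq3 : 2 < q3)
    (hsg : 0 ≤ sg) (hc1 : 0 ≤ c1) (hC : 1 ≤ C) (ht : 0 < t) (ht1 : t ≤ 1) {p : Nd} (hp : p ∈ R) :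
    aq (qx k q3 j) p (X p) ≤ 3 * C * t ^ (-(k / 2)) :=
  (h.aqX hk hq3 hsg hc1 hC ht ht1 hp).trans
    (mul_le_mul_of_nonneg_left (loss hk ht ht1 hj) (by linarith))

theorem H_le (h : WRd D k q3 sg c1 C j t R J T G H E X) (hj : j ≠ 3) (hk : 0 < k) (hq3 : 2 < q3)
    (hC : 1 ≤ C) (ht : 0 < t) (ht1 : t ≤ 1) {p : Nd} (hp : p ∈ R) :
    aq (qx k q3 j) p (H p) ≤ C * t ^ (-(k / 2)) :=
  (h.aqH hk hq3 (by linarith) ht hp).trans
    (mul_le_mul_of_nonneg_left (loss hk ht ht1 hj) (by linarith))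

end slots


end T3b


end Crest.Agent.R079.TRec
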