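import Crest.Agent.R079.TS3b_351
import Crest.Agent.R079.TDef_853
import Crest.Agent.R079.Qf_248
import Crest.Agent.R079.TS3b_903
import Crest.Agent.R079.TS2_815
import Crest.Agent.R079.TWL_649
import Crest.Agent.R079.TTop_13
import Crest.Agent.R079.TApr_964
import Crest.Agent.R079.TAsm_398
import Crest.Agent.R079.TDfb_853

-- ▼ part R079/TX_229
section

/-! R079 (helper229): **[T5] `ExitLem`** of `TDef_853`: the full-region bounds `BN k q3 N B` (all `N`)
give the class bound `Lq853.BBq (2 + k)` (sibling closure of 248, homogeneity). -/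

set_option autoImplicit false

namespace Crest.Agent.R079.TX229

open Crest.Agent.R079.TRec
open Finset Crest.Agent.R079.Grid Crest.Agent.R079.Growth Crest.Agent.R079.QRed
  Crest.Agent.R079.Qe292 Crest.Agent.R079.Qf248

lemma aq_eq (q : ℝ) (hq : 0 < q) (p : Nd) (f : Fn) :
    aq q p f = av p (Lq853.aux q f) ^ (2 / q) := Lq853.avq_eq q hq _ _ f

lemma aq_nonneg (q : ℝ) (p : Nd) (f : Fn) : 0 ≤ aq q p f := Lq853.avq_nonneg q _ _ f

/-- siblings: the local average is at most twice that of the parent -/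
lemma aq_sib_le {q : ℝ} (hq : 1 ≤ q) {p : Nd} {f : Fn} {a : ℝ} (h : aq q (par p) f ≤ a) :
    aq q (sib p) f ≤ 2 * a := by
  have hq0 : 0 < q := by linarith
  have h0 : 0 ≤ av (par p) (Lq853.aux q f) := av2_nonneg _ _ _
  have h1 : av (sib p) (Lq853.aux q f) ≤ Real.sqrt 2 * av (par p) (Lq853.aux q f) :=
    av_sib_le h0 le_rfl
  have h2 : (0 : ℝ) ≤ 2 / q := by positivity
  rw [aq_eq q hq0] at h ⊢
  have h3 : av (sib p) (Lq853.aux q f) ^ (2 / q) ≤
      (Real.sqrt 2 * av (par p) (Lq853.aux q f)) ^ (2 / q) :=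
    Real.rpow_le_rpow (av2_nonneg _ _ _) h1 h2
  refine h3.trans ?_
  rw [Real.mul_rpow (Real.sqrt_nonneg _) h0]
  have h4 : Real.sqrt 2 ^ (2 / q) ≤ 2 := by
    rw [Real.sqrt_eq_rpow, ← Real.rpow_mul (by norm_num : (0 : ℝ) ≤ 2)]
    calc (2 : ℝ) ^ (1 / 2 * (2 / q)) ≤ (2 : ℝ) ^ (1 : ℝ) := by
          refine Real.rpow_le_rpow_of_exponent_le (by norm_num) ?_
          rw [show 1 / 2 * (2 / q) = 1 / q by ring, div_le_one hq0]
          exact hq
      _ = 2 := Real.rpow_one 2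
  have h5 : 0 ≤ av (par p) (Lq853.aux q f) ^ (2 / q) := Real.rpow_nonneg h0 _
  nlinarith

lemma aq_cl_le {q : ℝ} (hq : 1 ≤ q) {R : Finset Nd} {J : Nd} (hR : IsRegion R J) {f : Fn} {a : ℝ}
    (h : ∀ p ∈ R, aq q p f ≤ a) : ∀ p ∈ cl R J, aq q p f ≤ 2 * a := by
  intro p hp
  rcases mem_cl.1 hp with hp | ⟨r, hr, hne, rfl⟩
  · have h0 := (aq_nonneg q p f).trans (h p hp)
    linarith [h p hp]
  · exact aq_sib_le hq (h _ (par_in hR hr hne))

lemma aq_smul {q : ℝ} (hq : 0 < q) (p : Nd) (c : ℝ) (hc : 0 ≤ c) (f : Fn) :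
    aq q p (fun y => (c : ℂ) * f y) = c * aq q p f := by
  unfold aq Lq853.avq
  have e : ∀ y, ‖(c : ℂ) * f y‖ ^ q = c ^ q * ‖f y‖ ^ q := by
    intro y
    rw [norm_mul, Complex.norm_real, Real.norm_of_nonneg hc, Real.mul_rpow hc (norm_nonneg _)]
  simp only [e]
  rw [← Finset.mul_sum, mul_left_comm, Real.mul_rpow (Real.rpow_nonneg hc _)
    (mul_nonneg (by positivity) (Finset.sum_nonneg fun y _ => Real.rpow_nonneg (norm_nonneg _) _)),
    ← Real.rpow_mul hc, mul_one_div_cancel hq.ne', Real.rpow_one]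

/-- sup norm bounds the local average -/
lemma aq_le_of_sup {q : ℝ} (hq : 0 < q) (p : Nd) {f : Fn} {a : ℝ} (ha : 0 ≤ a)
    (h : ∀ y, ‖f y‖ ≤ a) : aq q p f ≤ a := by
  unfold aq Lq853.avq
  have h1 : (1 / 2 ^ (p.1 + 7) : ℝ) * ∑ y ∈ Grid.dI (p.1 + 7) p.2, ‖f y‖ ^ q ≤ a ^ q := by
    have h2 : ∑ y ∈ Grid.dI (p.1 + 7) p.2, ‖f y‖ ^ q ≤ ∑ _y ∈ Grid.dI (p.1 + 7) p.2, a ^ q :=
      Finset.sum_le_sum fun y _ => Real.rpow_le_rpow (norm_nonneg _) (h y) hq.le
    rw [Finset.sum_const, nsmul_eq_mul] at h2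
    rw [L0e.dI_card] at h2
    calc (1 / 2 ^ (p.1 + 7) : ℝ) * ∑ y ∈ Grid.dI (p.1 + 7) p.2, ‖f y‖ ^ q
        ≤ (1 / 2 ^ (p.1 + 7) : ℝ) * (2 ^ (p.1 + 7) * a ^ q) :=
          mul_le_mul_of_nonneg_left h2 (by positivity)
      _ = a ^ q := by field_simp
  calc ((1 / 2 ^ (p.1 + 7) : ℝ) * ∑ y ∈ Grid.dI (p.1 + 7) p.2, ‖f y‖ ^ q) ^ (1 / q)
      ≤ (a ^ q) ^ (1 / q) := Real.rpow_le_rpow (mul_nonneg (by positivity)
        (Finset.sum_nonneg fun y _ => Real.rpow_nonneg (norm_nonneg _) _)) h1 (by positivity)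
    _ = a := by rw [← Real.rpow_mul ha, mul_one_div_cancel hq.ne', Real.rpow_one]

/-- **[T5]** exit -/
theorem exitLem : ExitLem := by
  classical
  rintro k q3 hk hk1 hq3 ⟨C, hC, hB⟩
  refine ⟨16 * C, by positivity, ?_⟩
  intro b hb ε hε R J hR F A hA hF hF3
  rcases R.eq_empty_or_nonempty with rfl | hne
  · rw [Finset.sum_empty, norm_zero]
    exact mul_nonneg (by positivity) (Finset.prod_nonneg fun j _ => hA j)
  have hJ : J ∈ R := by
    obtain ⟨p, hp⟩ := hne
    exact hR.2 p hp J (hR.1 p hp) (Finset.Subset.refl _)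
  have hq : (1 : ℝ) ≤ 2 + k := by linarith
  have key : ∀ δ : ℝ, 0 < δ →
      ‖∑ p ∈ R, TI b ε F p‖ ≤ 16 * C * 2 ^ (J.1 + 7) * ∏ j, (A j + δ) := by
    intro δ hδ
    have hA' : ∀ j, 0 < A j + δ := fun j => by have := hA j; linarith
    set c : Fin 4 → ℝ := fun j => 1 / (2 * (A j + δ)) with hc
    have hcpos : ∀ j, 0 < c j := fun j => by
      have := hA' j
      rw [hc]; positivity
    have hloc : nrm k q3 (cl R J) (fun j y => (c j : ℂ) * F j y) := by
      intro j p hp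
      by_cases hj : j = 3
      · subst hj
        have hq3' : 0 < q3 := by linarith
        have e : qx k q3 3 = q3 := by unfold qx; rw [if_pos rfl]
        rw [e, aq_smul hq3' p (c 3) (hcpos 3).le]
        have h1 : aq q3 p (F 3) ≤ A 3 + δ := (aq_le_of_sup hq3' p (hA 3) hF3).trans (by linarith)
        calc c 3 * aq q3 p (F 3) ≤ c 3 * (A 3 + δ) := mul_le_mul_of_nonneg_left h1 (hcpos 3).le
          _ = 1 / 2 := by
              rw [hc]
              have := hA' 3
              field_simp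
          _ ≤ 1 := by norm_num
      · have e : qx k q3 j = 2 + k := by unfold qx; rw [if_neg hj]
        rw [e, aq_smul (by linarith) p (c j) (hcpos j).le]
        have h1 := aq_cl_le hq hR (a := A j + δ) (f := F j)
          (fun q hq => (hF j hj q hq).trans (by linarith)) p hp
        calc c j * aq (2 + k) p (F j) ≤ c j * (2 * (A j + δ)) :=
              mul_le_mul_of_nonneg_left h1 (hcpos j).le
          _ = 1 := by
              rw [hc]
              have := hA' j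
              field_simp
    have h1 := hB J.1 b (L0e.epsR ε R) ⟨hb, L0e.epsR_le ε R hε⟩ (cl R J) J (full_cl hR hJ) le_rfl _
      hloc
    have e1 : TR b (L0e.epsR ε R) (cl R J) (fun j y => (c j : ℂ) * F j y) =
        (∏ j, (c j : ℂ)) * ∑ p ∈ R, TI b ε F p := by
      unfold TR
      simp only [Qf248.TI_smul b (L0e.epsR ε R) F (fun j => (c j : ℂ))]
      rw [← Finset.mul_sum]
      congr 1
      rw [← Finset.sum_subset (sub_cl R J)]
      · refine Finset.sum_congr rfl fun p hp => ?_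
        rw [L0e.TI_epsR, if_pos hp]
      · intro p _ hp
        rw [L0e.TI_epsR, if_neg hp]
    rw [e1, norm_mul, norm_prod] at h1
    have e2 : ∏ j, ‖((c j : ℝ) : ℂ)‖ = ∏ j, c j := by
      refine Finset.prod_congr rfl fun j _ => ?_
      rw [Complex.norm_real, Real.norm_eq_abs, abs_of_pos (hcpos j)]
    rw [e2] at h1
    have e3 : (∏ j, c j) * (16 * ∏ j, (A j + δ)) = 1 := by
      rw [hc]
      simp only [Finset.prod_div_distrib, Finset.prod_mul_distrib, Finset.prod_const_one,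
        Finset.prod_const, Finset.card_univ, Fintype.card_fin]
      have h5 : 0 < ∏ j, (A j + δ) := Finset.prod_pos fun j _ => hA' j
      field_simp
      norm_num
    have h6 : 0 ≤ 16 * ∏ j, (A j + δ) :=
      mul_nonneg (by norm_num) (Finset.prod_nonneg fun j _ => (hA' j).le)
    calc ‖∑ p ∈ R, TI b ε F p‖
        = (16 * ∏ j, (A j + δ)) * ((∏ j, c j) * ‖∑ p ∈ R, TI b ε F p‖) := by
          rw [← mul_assoc, mul_comm (16 * ∏ j, (A j + δ)), e3, one_mul]
      _ ≤ (16 * ∏ j, (A j + δ)) * (C * len J) := mul_le_mul_of_nonneg_left h1 h6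
      _ = _ := by unfold len; ring
  have hcont : Filter.Tendsto (fun δ : ℝ => 16 * C * 2 ^ (J.1 + 7) * ∏ j, (A j + δ))
      (nhdsWithin 0 (Set.Ioi 0)) (nhds (16 * C * 2 ^ (J.1 + 7) * ∏ j, (A j + 0))) := by
    refine Filter.Tendsto.mono_left ?_ nhdsWithin_le_nhds
    refine (Continuous.tendsto ?_ 0)
    fun_prop
  simp only [add_zero] at hcont
  refine ge_of_tendsto hcont ?_
  filter_upwards [self_mem_nhdsWithin] with δ hδ
  exact key δ hδ


end Crest.Agent.R079.TX229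
end

-- ▼ part R079/TRec2_13

/-! R079, recursion v2: assembly `StepLem2 → AprLem → TopLem → RecGoal2` (helper13, second of
398; after `TAsm_398`), and `StepLem2 → Analytic2 → L0.Target`. -/

set_option autoImplicit false

namespace Crest.Agent.R079.TRec.TRec213

open Finset Crest.Agent.R079.Grid Crest.Agent.R079.Growth Crest.Agent.R079.QRed
open Crest.Agent.R079.TRec.TAsm398

lemma ruleA2_mono {D : Dict} {k q3 c0 e t0 t0' K : ℝ} (h : RuleA2 D k q3 c0 e t0 K)
    (ht : t0' ≤ t0) : RuleA2 D k q3 c0 e t0' K :=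
  fun N B hB hBN t h0 h1 => h N B hB hBN t h0 (h1.trans ht)

lemma ruleS_mono {D : Dict} {k q3 cS CS s1 e t0 t0' K : ℝ} (h : RuleS D k q3 cS CS s1 e t0 K)
    (ht : t0' ≤ t0) : RuleS D k q3 cS CS s1 e t0' K :=
  fun N B hB hBN t h0 h1 => h N B hB hBN t h0 (h1.trans ht)

/-- **MAIN ASSEMBLY** -/
theorem recGoal2_of (hS : StepLem2) (hP : AprLem) (hT : TopLem) : RecGoal2 := by
  obtain ⟨Cs, hCs1, hS⟩ := hS
  obtain ⟨Ct, hCt1, hT⟩ := hT
  intro D k q3 c0 cS CS s1 e c1 bt κ t0 K K0 hok ht0 hK hD hA hRS hF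
  have hok1 := hok.ok
  set C := max Cs Ct with hC
  have hC1 : 1 ≤ C := hCs1.trans (le_max_left _ _)
  -- exponents
  have hk := hok.k0
  have hq3 := hok.hq3
  have hbt0 := hok.bt0
  have he0 := hok.e0
  have hebt : e * bt ≤ bt := by nlinarith [hok.e1]
  have h40 := hok.hk
  have hK0 : (0 : ℝ) ≤ K0 := Nat.cast_nonneg _
  have hkκ : k ≤ κ := by nlinarith [hok.kκ]
  have hκ0 : 0 < κ := by linarith
  have hbt1 : bt ≤ 1 := by
    have h1 := hok.hC
    have h2 := hok.c11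
    linarith
  -- the three inputs
  obtain ⟨K1, hK10, hS⟩ := hS D k q3 c0 cS CS s1 e c1 bt κ (min t0 1) K C K0 hok (lt_min ht0 one_pos)
    (min_le_right _ _) hK (le_max_left _ _) hD (ruleA2_mono hA (min_le_left _ _))
    (ruleS_mono hRS (min_le_left _ _))
  obtain ⟨K2, hK20, hT⟩ := hT D k q3 0 c0 (bt + 20 * k) e c1 bt C hok1 hD (le_max_right _ _) hF
  have hP := hP D k q3 0 c0 (bt + 20 * k) e c1 bt C hok1 hD hC1
  obtain ⟨t1, ht10, ht1, ht11, hsm⟩ := TIter.exists_small (C := K2) (γ := bt) (δ := 1 / 4)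
    (t0 := min t0 1) hbt0 (by norm_num) (lt_min ht0 one_pos)
  -- best constants
  let B : ℕ → ℝ := fun N => sInf {B : ℝ | 0 ≤ B ∧ BN k q3 N B}
  let a : ℕ → ℝ → ℝ := fun N t => sInf {A : ℝ | 0 ≤ A ∧ An D k q3 0 c1 C N t A}
  have hB : ∀ N, 0 ≤ B N ∧ BN k q3 N (B N) := fun N => bn_inf (bn_apr hk hq3 N)
  have hane : ∀ N t, 0 < t → t ≤ 1 → ∃ A : ℝ, 0 ≤ A ∧ An D k q3 0 c1 C N t A := by
    intro N t h0 h1
    obtain ⟨M, hM0, hM⟩ := hP N
    exact ⟨M * t, by positivity, hM t h0 h1⟩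
  have ha : ∀ N t, 0 < t → t ≤ 1 → 0 ≤ a N t ∧ An D k q3 0 c1 C N t (a N t) :=
    fun N t h0 h1 => an_inf (hane N t h0 h1)
  obtain ⟨M, hM⟩ : ∃ M, ∀ N, B N ≤ M := by
    classical
    -- the constants of the top step
    let Kf : ℝ → ℝ := fun t => if h : 0 < t ∧ t ≤ 1 then Classical.choose (hT t h.1 h.2) else 0
    refine TIter.bootstrap a B Kf (C := max K1 K2) (α := 20 * κ) (β := bt) (ε := e) (t0 := t1)
      (hK10.trans (le_max_left _ _)) he0 (by linarith) (by linarith) ht10 (fun N => (hB N).1)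
      ?_ ?_ ?_
    · intro N
      obtain ⟨M, hM0, hM⟩ := hP N
      refine ⟨M, fun t h0 h1 => ?_⟩
      refine (an_inf_le (by positivity) (hM t h0 (h1.trans ht11))).trans ?_
      refine mul_le_mul_of_nonneg_left ?_ hM0
      calc t = t ^ (1 : ℝ) := (Real.rpow_one t).symm
        _ ≤ t ^ bt := Real.rpow_le_rpow_of_exponent_ge h0 (h1.trans ht11) hbt1
    · intro N t h0 h1
      have hs0 : 0 < t ^ (1 + e) := Real.rpow_pos_of_pos h0 _
      have hs1 : t ^ (1 + e) ≤ 1 := Real.rpow_le_one h0.le (h1.trans ht11) (by linarith)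
      have hA' := ha N (t ^ (1 + e)) hs0 hs1
      have hB' := hB N
      have h2 := hS N (B N) t (a N (t ^ (1 + e))) hB'.1 hB'.2 h0 (h1.trans ht1) hA'.1 hA'.2
      have hp1 : 0 ≤ t ^ (-(20 * κ)) := Real.rpow_nonneg h0.le _
      have hp2 : 0 ≤ t ^ bt := Real.rpow_nonneg h0.le _
      have h1B : 0 ≤ 1 + B N := by linarith [hB'.1]
      refine (an_inf_le (add_nonneg (mul_nonneg (mul_nonneg hK10 hp1) hA'.1)
        (mul_nonneg (mul_nonneg hK10 h1B) hp2)) h2).trans ?_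
      have hmx : K1 ≤ max K1 K2 := le_max_left _ _
      exact add_le_add
        (mul_le_mul_of_nonneg_right (mul_le_mul_of_nonneg_right hmx hp1) hA'.1)
        (mul_le_mul_of_nonneg_right (mul_le_mul_of_nonneg_right hmx h1B) hp2)
    · intro t h0 h1 N
      have ht1' : t ≤ 1 := h1.trans ht11
      have hKf : Kf t = Classical.choose (hT t h0 ht1') := dif_pos ⟨h0, ht1'⟩
      obtain ⟨hc0, hc⟩ := Classical.choose_spec (hT t h0 ht1')
      rw [← hKf] at hc0 hc
      have hA' := ha N t h0 ht1'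
      have hB' := hB N
      have h2 := hc N (B N) (a N t) hB'.1 hB'.2 hA'.1 hA'.2
      have hp1 : 0 ≤ t ^ (-(20 * k)) := Real.rpow_nonneg h0.le _
      have hp2 : 0 ≤ t ^ bt := Real.rpow_nonneg h0.le _
      refine (bn_inf_le (add_nonneg (add_nonneg hc0 (mul_nonneg (mul_nonneg hK20 hp1) hA'.1))
        (mul_nonneg (mul_nonneg hK20 hB'.1) hp2)) h2).trans ?_
      have hmx : K2 ≤ max K1 K2 := le_max_right _ _
      have h3 : K2 * t ^ bt ≤ 1 / 4 :=
        (mul_le_mul_of_nonneg_left (Real.rpow_le_rpow h0.le h1 hbt0.le) hK20).trans hsm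
      have h4 : K2 * B N * t ^ bt ≤ 1 / 4 * B N := by
        calc K2 * B N * t ^ bt = (K2 * t ^ bt) * B N := by ring
          _ ≤ 1 / 4 * B N := mul_le_mul_of_nonneg_right h3 hB'.1
      have h6 : t ^ (-(20 * k)) ≤ t ^ (-(20 * κ)) :=
        Real.rpow_le_rpow_of_exponent_ge h0 ht1' (by linarith)
      have h7 : K2 * t ^ (-(20 * k)) ≤ max K1 K2 * t ^ (-(20 * κ)) :=
        mul_le_mul hmx h6 hp1 (hK20.trans hmx)
      have h5 : K2 * t ^ (-(20 * k)) * a N t ≤ max K1 K2 * t ^ (-(20 * κ)) * a N t :=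
        mul_le_mul_of_nonneg_right h7 hA'.1
      linarith
  refine ⟨max M 0, le_max_right _ _, fun N bb ε h R J hR hJ F hF4 => ?_⟩
  refine ((hB N).2 bb ε h R J hR hJ F hF4).trans ?_
  exact mul_le_mul_of_nonneg_right ((hM N).trans (le_max_left _ _)) (Growth.len_pos J).le

/-- everything except the new step is proved -/
theorem recGoal2_of_step (hS : StepLem2) : RecGoal2 :=
  recGoal2_of hS aprLem (TTop13.topLem TWL649.winLem T2.convLem)

/-- `S0106` from the new step and the analytic input v2 -/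
theorem target_of_analytic2 (hS : StepLem2) (hA : Analytic2) : L0.Target := by
  obtain ⟨D, k, q3, c0, cS, CS, s1, e, c1, bt, κ, t0, K, K0, hok, ht0, hK, hD, hR, hRS, hF⟩ := hA
  have hok1 := hok.ok
  have h := recGoal2_of_step hS D k q3 c0 cS CS s1 e c1 bt κ t0 K K0 hok ht0 hK hD hR hRS hF
  exact Lq853.target_of_BBq (2 + k) (by have := hok1.k0; linarith) (by have := hok1.k1; linarith)
    (TX229.exitLem k q3 hok1.k0 hok1.k1 hok1.hq3 h)

end Crest.Agent.R079.TRec.TRec213
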