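import Crest.Agent.R079.TS4c_351
import Crest.Agent.R079.TS3d_903
import Crest.Agent.R079.TRec2_13
import Crest.Agent.R079.Dic_679

-- ▼ part R079/TStg_853

/-! R079, STAGGERED DICTIONARIES (helper853).  Slot `j` has the plain price `t ^ γ j`,
`0 < γ j ≤ 1`, point masses of height `t⁻¹`, and an arbitrary admissible family `S` (`Fam` of 679).
With `γ 0 < γ 1 < γ 2`, `γ i (1+e) < γ m` for `i < m`, the pairs `i < m` of `RuleA2` are trivial kills
(mass `t^(-γ i (1+e))` times level `t^(γ m)`), and only `(1;0), (2;0), (2;1)` are critical.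
`target_of_pairs`: `S0106` from the ordered pairs and `RuleS` for one such dictionary. -/

set_option autoImplicit false

namespace Crest.Agent.R079.TStg853

open Finset Crest.Agent.R079.Grid Crest.Agent.R079.Glue Crest.Agent.R079.Growth Crest.Agent.R079.QRed
open Crest.Agent.R079.TFrz679 Crest.Agent.R079.TRec Crest.Agent.R079.Dic679

















/-! ### pairs -/

/-- `RuleA2` for ONE ordered pair (frozen `i` at `t^(1+e)`; killer `m` of level `t`) -/
def Pair (D : Dict) (k q3 c0 e t0 K : ℝ) (i m : Fin 4) : Prop :=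
  ∀ (N : ℕ) (B : ℝ), 0 ≤ B → BN k q3 N B → ∀ t, 0 < t → t ≤ t0 → ∀ bb ε, Adm bb ε → ∀ W I,
    Full W I → I.1 ≤ N → ∀ F, nrm k q3 W F → Fz D i (t ^ (1 + e)) 1 I (F i) →
      (∀ p ∈ W, Lv D m t 1 p (F m)) → ‖TR bb ε W F‖ ≤ K * (1 + B) * t ^ c0 * len I


/-- constants and exponents may be taken worse -/
theorem Pair.mono {D : Dict} {k q3 c0 c0' e t0 t0' K K' : ℝ} {i m : Fin 4}
    (h : Pair D k q3 c0 e t0 K i m) (hc : c0' ≤ c0) (ht : t0' ≤ t0) (ht1 : t0' ≤ 1)
    (hK : 0 ≤ K) (hKK : K ≤ K') : Pair D k q3 c0' e t0' K' i m := by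
  intro N B hB hBN t h0 h1 bb ε hε W I hW hI F hF hfz hlv
  refine (h N B hB hBN t h0 (h1.trans ht) bb ε hε W I hW hI F hF hfz hlv).trans ?_
  have e1 : t ^ c0 ≤ t ^ c0' := Real.rpow_le_rpow_of_exponent_ge h0 (h1.trans ht1) hc
  have hl : 0 < len I := Growth.len_pos I
  have hK' : 0 ≤ K' := hK.trans hKK
  have hB1 : 0 ≤ 1 + B := by linarith
  have e2 : 0 ≤ t ^ c0 := by positivity
  gcongr


end Crest.Agent.R079.TStg853
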