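import Crest.Agent.R079.BAt_112
import Crest.Agent.R079.DicOp_679
import Crest.Agent.R079.TStg_853
import Crest.Agent.R079.TNS0_533
import Crest.Agent.R079.Cell_37
import Crest.Agent.R079.OpS_276
import Crest.Agent.R079.CellH2_37
import Crest.Agent.R079.RuS3_256
import Crest.Agent.R079.TNDef_533
import Crest.Agent.R079.Cell2_37
import Crest.Agent.R079.T6b_252

-- ▼ part R079/DicB_112
section

/-! R079, RuleS assembly (n4) (helper112): masses in BOUNDED atoms (`BAt112.RepB`).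

`repB_bdd` : atoms with bounded kernels; `repB3`, `repB_opT` : op-test functions (any vertex, two
independent heights); `BPl γ` : bounded atoms at price `t ^ γ j`; `FamB` : admissible families with
bounded mass; `fam_of_famB`, `FamB.union`; `HB` of the generated dictionary `TStg853.DG`. -/

set_option autoImplicit false
set_option linter.unusedVariables false

namespace Crest.Agent.R079.DicB112

open Finset Crest.Agent.R079.Grid Crest.Agent.R079.Glue Crest.Agent.R079.Growth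
  Crest.Agent.R079.QRed Crest.Agent.R079.BAt112 Crest.Agent.R079.TFrz679
  Crest.Agent.R079.Dic679 Crest.Agent.R079.DicOp679

theorem n2_le {T T' : Finset ℤ} {a : ℤ → ℤ → ℂ} (h : ∀ z z', ‖a z z'‖ ≤ 1) {L : ℝ}
    (hL : (T.card : ℝ) * T'.card ≤ L) : n2 T T' a ≤ L := by
  unfold n2
  calc ∑ z ∈ T, ∑ z' ∈ T', ‖a z z'‖ ^ 2 ≤ ∑ z ∈ T, ∑ z' ∈ T', (1 : ℝ) := by
        refine Finset.sum_le_sum fun z _ => Finset.sum_le_sum fun z' _ => ?_
        exact pow_le_one₀ (norm_nonneg _) (h z z')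
    _ = (T.card : ℝ) * T'.card := by simp
    _ ≤ L := hL

/-- normalised kernel -/
noncomputable def nk (T T' : Finset ℤ) (a : ℤ → ℤ → ℂ) (h : ℝ) (z z' : ℤ) : ℂ :=
  cut T T' a z z' / (h : ℂ)

theorem nk_le {T T' : Finset ℤ} {a : ℤ → ℤ → ℂ} {h : ℝ} (h0 : 0 ≤ h)
    (ha : ∀ z ∈ T, ∀ z' ∈ T', ‖a z z'‖ ≤ h) (z z' : ℤ) : ‖nk T T' a h z z'‖ ≤ 1 := by
  unfold nk cut
  rw [norm_div, Complex.norm_real, Real.norm_of_nonneg h0]
  split_ifs with hz
  · exact div_le_one_of_le₀ (ha z hz.1 z' hz.2) h0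
  · simp

theorem nk_eq {T T' : Finset ℤ} {a : ℤ → ℤ → ℂ} {h : ℝ} (h0 : 0 ≤ h)
    (ha : ∀ z ∈ T, ∀ z' ∈ T', ‖a z z'‖ ≤ h) {z z' : ℤ} (hz : z ∈ T) (hz' : z' ∈ T') :
    a z z' = (h : ℂ) * nk T T' a h z z' := by
  unfold nk
  rw [cut_on hz hz']
  rcases eq_or_lt_of_le h0 with h1 | h1
  · have := ha z hz z' hz'
    rw [← h1] at this
    have h2 : a z z' = 0 := norm_le_zero_iff.1 this
    rw [h2]; simp
  · have : (h : ℂ) ≠ 0 := by exact_mod_cast h1.ne'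
    field_simp

/-- **atoms with bounded kernels are multiples of bounded atoms** -/
theorem repB_bdd {j : Fin 4} {κ : ℝ} (hκ : 0 ≤ κ) {T : Fin 3 → Finset ℤ} {a b c : ℤ → ℤ → ℂ}
    {ha hb hc : ℝ} (ha0 : 0 ≤ ha) (hb0 : 0 ≤ hb) (hc0 : 0 ≤ hc)
    (h0 : ∀ z ∈ T 0, ∀ z' ∈ T 1, ‖a z z'‖ ≤ ha) (h1 : ∀ z ∈ T 1, ∀ z' ∈ T 2, ‖b z z'‖ ≤ hb)
    (h2 : ∀ z ∈ T 2, ∀ z' ∈ T 0, ‖c z z'‖ ≤ hc) {L : ℝ} (hL : 0 < L)
    (l0 : ((T 0).card : ℝ) * (T 1).card ≤ L) (l1 : ((T 1).card : ℝ) * (T 2).card ≤ L)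
    (l2 : ((T 2).card : ℝ) * (T 0).card ≤ L) {M : ℝ} (h : κ * L * (ha * hb * hc) ≤ M) (p : Nd) :
    RepB j p (atom j κ T a b c) M := by
  refine RepB.of_bat (φ := atom j (1 / L) T (nk (T 0) (T 1) a ha) (nk (T 1) (T 2) b hb)
    (nk (T 2) (T 0) c hc)) ⟨1 / L, by positivity, T, _, _, _, ⟨nk_le ha0 h0, nk_le hb0 h1,
      nk_le hc0 h2, ?_, ?_, ?_, fun y => rfl⟩⟩ ((κ * L * (ha * hb * hc) : ℝ) : ℂ) ?_ p
      (fun y _ => ?_)
  · rw [div_mul_eq_mul_div, one_mul]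
    exact div_le_one_of_le₀ (n2_le (nk_le ha0 h0) l0) hL.le
  · rw [div_mul_eq_mul_div, one_mul]
    exact div_le_one_of_le₀ (n2_le (nk_le hb0 h1) l1) hL.le
  · rw [div_mul_eq_mul_div, one_mul]
    exact div_le_one_of_le₀ (n2_le (nk_le hc0 h2) l2) hL.le
  · rw [Complex.norm_real, Real.norm_of_nonneg (by positivity)]
    exact h
  · unfold atom
    have e1 : ∑ z0 ∈ T 0, ∑ z1 ∈ T 1, ∑ z2 ∈ T 2,
        (if cf j 0 * z0 + cf j 1 * z1 + cf j 2 * z2 = y then a z0 z1 * b z1 z2 * c z2 z0 else 0) =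
        ((ha * hb * hc : ℝ) : ℂ) * ∑ z0 ∈ T 0, ∑ z1 ∈ T 1, ∑ z2 ∈ T 2,
        (if cf j 0 * z0 + cf j 1 * z1 + cf j 2 * z2 = y then nk (T 0) (T 1) a ha z0 z1 *
          nk (T 1) (T 2) b hb z1 z2 * nk (T 2) (T 0) c hc z2 z0 else 0) := by
      simp only [Finset.mul_sum]
      refine Finset.sum_congr rfl fun z0 hz0 => Finset.sum_congr rfl fun z1 hz1 =>
        Finset.sum_congr rfl fun z2 hz2 => ?_
      rw [mul_ite, mul_zero]
      refine if_congr Iff.rfl ?_ rfl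
      rw [nk_eq ha0 h0 hz0 hz1, nk_eq hb0 h1 hz1 hz2, nk_eq hc0 h2 hz2 hz0]
      push_cast
      ring
    rw [e1]
    have hL' : (L : ℂ) ≠ 0 := by exact_mod_cast hL.ne'
    push_cast
    field_simp

set_option maxHeartbeats 2000000 in
/-- three-fold sum with an arbitrary vertex: bounded mass -/
theorem repB3 {k : Fin 4} (i0 i1 i2 : Fin 3) (h01 : i0 ≠ i1) (h02 : i0 ≠ i2) (h12 : i1 ≠ i2)
    (Tj Te Te' : Finset ℤ) {n : ℕ} (hn : 0 < n) (cj : Tj.card ≤ n) (ce : Te.card ≤ n)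
    (ce' : Te'.card ≤ n) (m U V : ℤ → ℤ → ℂ) {HU HV κ M : ℝ} (hκ : 0 ≤ κ) (hHU : 0 ≤ HU)
    (hHV : 0 ≤ HV) (hm : ∀ z z', ‖m z z'‖ ≤ 1)
    (hU : ∀ z z', ‖U z z'‖ ≤ HU) (hV : ∀ z z', ‖V z z'‖ ≤ HV)
    (hMM : κ * ((n : ℝ) ^ 2 * (HU * HV)) ≤ M) (p : Nd) :
    RepB k p (fun y => (κ : ℂ) * ∑ zj ∈ Tj, ∑ ze ∈ Te, ∑ ze' ∈ Te',
      if cf k i0 * zj + cf k i1 * ze + cf k i2 * ze' = y then m ze ze' * U zj ze * V zj ze'
      else 0) M := by
  have hL : (0 : ℝ) < (n : ℝ) ^ 2 := by positivity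
  have hcc : ∀ S S' : Finset ℤ, S.card ≤ n → S'.card ≤ n → (S.card : ℝ) * S'.card ≤ (n : ℝ) ^ 2 := by
    intro S S' h h'
    have h1 : (S.card : ℝ) ≤ n := by exact_mod_cast h
    have h2 : (S'.card : ℝ) ≤ n := by exact_mod_cast h'
    rw [sq]
    exact mul_le_mul h1 h2 (by positivity) (by positivity)
  have hb1 : κ * (n : ℝ) ^ 2 * (HU * 1 * HV) ≤ M := by
    refine le_trans (le_of_eq ?_) hMM; ring
  have hb1' : κ * (n : ℝ) ^ 2 * (HV * 1 * HU) ≤ M := by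
    refine le_trans (le_of_eq ?_) hMM; ring
  have hb2 : κ * (n : ℝ) ^ 2 * (HU * HV * 1) ≤ M := by
    refine le_trans (le_of_eq ?_) hMM; ring
  have hb2' : κ * (n : ℝ) ^ 2 * (HV * HU * 1) ≤ M := by
    refine le_trans (le_of_eq ?_) hMM; ring
  have hb3 : κ * (n : ℝ) ^ 2 * (1 * HV * HU) ≤ M := by
    refine le_trans (le_of_eq ?_) hMM; ring
  have hb3' : κ * (n : ℝ) ^ 2 * (1 * HU * HV) ≤ M := by
    refine le_trans (le_of_eq ?_) hMM; ring
  have key : ∀ {f g : Fn}, (∀ y, f y = g y) → RepB k p g M → RepB k p f M := by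
    intro f g hfg hg
    have : f = g := funext hfg
    rw [this]; exact hg
  fin_cases i0 <;> fin_cases i1 <;> fin_cases i2 <;>
    first
    | exact absurd rfl h01
    | exact absurd rfl h02
    | exact absurd rfl h12
    | skip
  · -- (0,1,2)
    refine key (g := atom k κ ![Tj, Te, Te'] (fun z0 z1 => U z0 z1) (fun z1 z2 => m z1 z2)
      (fun z2 z0 => V z0 z2)) (fun y => ?_) (repB_bdd hκ hHU zero_le_one hHV ?_ ?_ ?_ hL
        (hcc _ _ cj ce) (hcc _ _ ce ce') (hcc _ _ ce' cj) hb1 p)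
    · unfold atom
      congr 1
      refine Finset.sum_congr rfl fun a _ => Finset.sum_congr rfl fun b _ =>
        Finset.sum_congr rfl fun c _ => ?_
      refine if_congr (by constructor <;> intro h <;> (simp at h ⊢; linarith)) (by ring) rfl
    · exact fun _ _ _ _ => hU _ _
    · exact fun _ _ _ _ => hm _ _
    · exact fun _ _ _ _ => hV _ _
  · -- (0,2,1)
    refine key (g := atom k κ ![Tj, Te', Te] (fun z0 z1 => V z0 z1) (fun z1 z2 => m z2 z1)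
      (fun z2 z0 => U z0 z2)) (fun y => ?_) (repB_bdd hκ hHV zero_le_one hHU ?_ ?_ ?_ hL
        (hcc _ _ cj ce') (hcc _ _ ce' ce) (hcc _ _ ce cj) hb1' p)
    · unfold atom
      congr 1
      refine Finset.sum_congr rfl fun a _ => ?_
      rw [Finset.sum_comm]
      refine Finset.sum_congr rfl fun b _ => Finset.sum_congr rfl fun c _ => ?_
      refine if_congr (by constructor <;> intro h <;> (simp at h ⊢; linarith)) (by ring) rfl
    · exact fun _ _ _ _ => hV _ _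
    · exact fun _ _ _ _ => hm _ _
    · exact fun _ _ _ _ => hU _ _
  · -- (1,0,2)
    refine key (g := atom k κ ![Te, Tj, Te'] (fun z0 z1 => U z1 z0) (fun z1 z2 => V z1 z2)
      (fun z2 z0 => m z0 z2)) (fun y => ?_) (repB_bdd hκ hHU hHV zero_le_one ?_ ?_ ?_ hL
        (hcc _ _ ce cj) (hcc _ _ cj ce') (hcc _ _ ce' ce) hb2 p)
    · unfold atom
      congr 1
      rw [Finset.sum_comm]
      refine Finset.sum_congr rfl fun a _ => Finset.sum_congr rfl fun b _ =>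
        Finset.sum_congr rfl fun c _ => ?_
      refine if_congr (by constructor <;> intro h <;> (simp at h ⊢; linarith)) (by ring) rfl
    · exact fun _ _ _ _ => hU _ _
    · exact fun _ _ _ _ => hV _ _
    · exact fun _ _ _ _ => hm _ _
  · -- (1,2,0)
    refine key (g := atom k κ ![Te', Tj, Te] (fun z0 z1 => V z1 z0) (fun z1 z2 => U z1 z2)
      (fun z2 z0 => m z2 z0)) (fun y => ?_) (repB_bdd hκ hHV hHU zero_le_one ?_ ?_ ?_ hL
        (hcc _ _ ce' cj) (hcc _ _ cj ce) (hcc _ _ ce ce') hb2' p)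
    · unfold atom
      congr 1
      have e1 : ∀ (G : ℤ → ℤ → ℤ → ℂ), ∑ a ∈ Tj, ∑ b ∈ Te, ∑ c ∈ Te', G a b c =
          ∑ c ∈ Te', ∑ a ∈ Tj, ∑ b ∈ Te, G a b c := by
        intro G
        rw [Finset.sum_comm]
        rw [Finset.sum_congr rfl fun b _ => Finset.sum_comm]
        rw [Finset.sum_comm]
        refine Finset.sum_congr rfl fun c _ => ?_
        rw [Finset.sum_comm]
      rw [e1]
      refine Finset.sum_congr rfl fun a _ => Finset.sum_congr rfl fun b _ =>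
        Finset.sum_congr rfl fun c _ => ?_
      refine if_congr (by constructor <;> intro h <;> (simp at h ⊢; linarith)) (by ring) rfl
    · exact fun _ _ _ _ => hV _ _
    · exact fun _ _ _ _ => hU _ _
    · exact fun _ _ _ _ => hm _ _
  · -- (2,0,1)
    refine key (g := atom k κ ![Te, Te', Tj] (fun z0 z1 => m z0 z1) (fun z1 z2 => V z2 z1)
      (fun z2 z0 => U z2 z0)) (fun y => ?_) (repB_bdd hκ zero_le_one hHV hHU ?_ ?_ ?_ hL
        (hcc _ _ ce ce') (hcc _ _ ce' cj) (hcc _ _ cj ce) hb3 p)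
    · unfold atom
      congr 1
      have e1 : ∀ (G : ℤ → ℤ → ℤ → ℂ), ∑ a ∈ Tj, ∑ b ∈ Te, ∑ c ∈ Te', G a b c =
          ∑ b ∈ Te, ∑ c ∈ Te', ∑ a ∈ Tj, G a b c := by
        intro G
        rw [Finset.sum_comm]
        refine Finset.sum_congr rfl fun b _ => ?_
        rw [Finset.sum_comm]
      rw [e1]
      refine Finset.sum_congr rfl fun a _ => Finset.sum_congr rfl fun b _ =>
        Finset.sum_congr rfl fun c _ => ?_
      refine if_congr (by constructor <;> intro h <;> (simp at h ⊢; linarith)) (by ring) rfl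
    · exact fun _ _ _ _ => hm _ _
    · exact fun _ _ _ _ => hV _ _
    · exact fun _ _ _ _ => hU _ _
  · -- (2,1,0)
    refine key (g := atom k κ ![Te', Te, Tj] (fun z0 z1 => m z1 z0) (fun z1 z2 => U z2 z1)
      (fun z2 z0 => V z2 z0)) (fun y => ?_) (repB_bdd hκ zero_le_one hHU hHV ?_ ?_ ?_ hL
        (hcc _ _ ce' ce) (hcc _ _ ce cj) (hcc _ _ cj ce') hb3' p)
    · unfold atom
      congr 1
      have e1 : ∀ (G : ℤ → ℤ → ℤ → ℂ), ∑ a ∈ Tj, ∑ b ∈ Te, ∑ c ∈ Te', G a b c =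
          ∑ c ∈ Te', ∑ b ∈ Te, ∑ a ∈ Tj, G a b c := by
        intro G
        rw [Finset.sum_comm]
        rw [Finset.sum_congr rfl fun b _ => Finset.sum_comm]
        rw [Finset.sum_comm]
      rw [e1]
      refine Finset.sum_congr rfl fun a _ => Finset.sum_congr rfl fun b _ =>
        Finset.sum_congr rfl fun c _ => ?_
      refine if_congr (by constructor <;> intro h <;> (simp at h ⊢; linarith)) (by ring) rfl
    · exact fun _ _ _ _ => hm _ _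
    · exact fun _ _ _ _ => hU _ _
    · exact fun _ _ _ _ => hV _ _

/-- **bounded mass of an op-test function** (no condition on the weights, only heights) -/
theorem repB_opT {k j e e' : Fin 4} (hjk : j ≠ k) (hje : j ≠ e) (hje' : j ≠ e') (hke : k ≠ e)
    (hke' : k ≠ e') (hee' : e ≠ e') {n : ℕ} {m : ℤ → ℤ → ℂ} {U V : Fin n → Fin n → ℂ}
    (hm : ∀ z z', ‖m z z'‖ ≤ 1) (w q u : ℤ) {HU HV κ M : ℝ} (hκ : 0 ≤ κ)
    (hHU : 0 ≤ HU) (hHV : 0 ≤ HV) (hU : ∀ c i, ‖U c i‖ ≤ HU) (hV : ∀ c i, ‖V c i‖ ≤ HV)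
    (hMM : κ * ((n : ℝ) ^ 2 * (HU * HV)) ≤ M) (p : Nd) :
    RepB k p (fun y => (κ : ℂ) * opT k j e e' n w q u m U V y) M := by
  rcases Nat.eq_zero_or_pos n with hn | hn
  · subst hn
    refine RepB.of_bat (BAt.pt k 0) 0 (by simpa using hMM) p fun y _ => ?_
    simp [opT]
  obtain ⟨i0, rfl⟩ := Fin.exists_succAbove_eq hjk
  obtain ⟨i1, rfl⟩ := Fin.exists_succAbove_eq (Ne.symm hke)
  obtain ⟨i2, rfl⟩ := Fin.exists_succAbove_eq (Ne.symm hke')
  have h01 : i0 ≠ i1 := fun hh => hje (by rw [hh])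
  have h02 : i0 ≠ i2 := fun hh => hje' (by rw [hh])
  have h12 : i1 ≠ i2 := fun hh => hee' (by rw [hh])
  have hcard : ∀ w : ℤ, (Finset.Ico w (w + (n : ℤ))).card ≤ n := by
    intro w; simp
  have := repB3 (k := k) i0 i1 i2 h01 h02 h12 (Finset.Ico w (w + (n : ℤ)))
    (Finset.Ico q (q + (n : ℤ))) (Finset.Ico u (u + (n : ℤ))) hn (hcard w) (hcard q) (hcard u)
    m (ext w q U) (ext w u V) hκ hHU hHV hm (ext_le w q U hHU hU) (ext_le w u V hHV hV) hMM p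
  have hfun : (fun y => (κ : ℂ) * opT k (k.succAbove i0) (k.succAbove i1) (k.succAbove i2) n w q u
      m U V y) = (fun y => (κ : ℂ) * ∑ zj ∈ Finset.Ico w (w + (n : ℤ)),
        ∑ ze ∈ Finset.Ico q (q + (n : ℤ)), ∑ ze' ∈ Finset.Ico u (u + (n : ℤ)),
      if cf k i0 * zj + cf k i1 * ze + cf k i2 * ze' = y then
        m ze ze' * ext w q U zj ze * ext w u V zj ze' else 0) := by
    funext y
    congr 1
    unfold opT
    rw [sum_Ico_fin]
    refine Finset.sum_congr rfl fun c _ => ?_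
    rw [sum_Ico_fin]
    refine Finset.sum_congr rfl fun i _ => ?_
    rw [sum_Ico_fin]
    refine Finset.sum_congr rfl fun i' _ => ?_
    rw [ext_val, ext_val]
    rfl
  rw [hfun]
  exact this

theorem RepB.conj {j : Fin 4} {p : Nd} {f : Fn} {M : ℝ} (h : RepB j p f M) :
    RepB j p (fun y => (starRingEnd ℂ) (f y)) M := by
  obtain ⟨n, φ, c, h1, h2, h3⟩ := h
  refine ⟨n, fun i y => (starRingEnd ℂ) (φ i y), fun i => (starRingEnd ℂ) (c i),
    fun i => (h1 i).conj, fun y hy => ?_, ?_⟩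
  · show (starRingEnd ℂ) (f y) = _
    rw [h2 y hy, map_sum]
    exact Finset.sum_congr rfl fun i _ => map_mul _ _ _
  · simpa only [RCLike.norm_conj] using h3

theorem RepB.cmul {j : Fin 4} {p : Nd} {f : Fn} {M : ℝ} (h : RepB j p f M) (z : ℂ) :
    RepB j p (fun y => z * f y) (‖z‖ * M) := by
  obtain ⟨n, φ, c, h1, h2, h3⟩ := h
  refine ⟨n, φ, fun i => z * c i, h1, fun y hy => ?_, ?_⟩
  · show z * f y = _
    rw [h2 y hy, Finset.mul_sum]
    exact Finset.sum_congr rfl fun i _ => by ring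
  · calc ∑ i, ‖z * c i‖ = ‖z‖ * ∑ i, ‖c i‖ := by
          rw [Finset.mul_sum]; exact Finset.sum_congr rfl fun i _ => norm_mul _ _
      _ ≤ _ := mul_le_mul_of_nonneg_left h3 (norm_nonneg _)


theorem RepB.zero {j : Fin 4} {p : Nd} {M : ℝ} (hM : 0 ≤ M) : RepB j p (fun _ => 0) M :=
  ⟨0, Fin.elim0, Fin.elim0, fun i => i.elim0, fun y _ => by simp, by simpa using hM⟩

theorem RepB.add {j : Fin 4} {p : Nd} {f g : Fn} {M M' : ℝ} (h : RepB j p f M)
    (h' : RepB j p g M') : RepB j p (fun y => f y + g y) (M + M') := by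
  obtain ⟨n, φ, c, h1, h2, h3⟩ := h
  obtain ⟨n', φ', c', h1', h2', h3'⟩ := h'
  refine ⟨n + n', Fin.append φ φ', Fin.append c c', fun i => ?_, fun y hy => ?_, ?_⟩
  · refine Fin.addCases (fun i => ?_) (fun i => ?_) i
    · rw [Fin.append_left]; exact h1 i
    · rw [Fin.append_right]; exact h1' i
  · show f y + g y = _
    rw [h2 y hy, h2' y hy, Fin.sum_univ_add]
    simp only [Fin.append_left, Fin.append_right]
  · rw [Fin.sum_univ_add]
    simp only [Fin.append_left, Fin.append_right]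
    linarith

/-! ### admissible families with bounded mass -/

/-- admissible family: sup `≤ t⁻¹`, mass `≤ A t^(-C)` in BOUNDED atoms -/
structure FamB (S : Fin 4 → ℝ → Set Fn) : Prop where
  sup : ∀ j, j ≠ 3 → ∀ t, 0 < t → t ≤ 1 → ∀ φ ∈ S j t, ∀ y, ‖φ y‖ ≤ t⁻¹
  mass : ∃ A C : ℝ, 0 ≤ A ∧ 0 ≤ C ∧ ∀ j, j ≠ 3 → ∀ t, 0 < t → t ≤ 1 → ∀ φ ∈ S j t, ∀ p : Nd,
    RepB j p φ (A * t ^ (-C))

theorem FamB.fam {S : Fin 4 → ℝ → Set Fn} (h : FamB S) : Fam S := by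
  obtain ⟨A, C, hA, hC, hm⟩ := h.mass
  exact ⟨h.sup, A, C, hA, hC, fun j hj t ht ht1 φ hφ p => (hm j hj t ht ht1 φ hφ p).rep⟩

theorem FamB.union {S S' : Fin 4 → ℝ → Set Fn} (h : FamB S) (h' : FamB S') :
    FamB (fun j t => S j t ∪ S' j t) := by
  refine ⟨?_, ?_⟩
  · rintro j hj t ht ht1 φ (hφ | hφ) y
    · exact h.sup j hj t ht ht1 φ hφ y
    · exact h'.sup j hj t ht ht1 φ hφ y
  · obtain ⟨A, C, hA, hC, hm⟩ := h.mass
    obtain ⟨A', C', hA', hC', hm'⟩ := h'.mass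
    refine ⟨A + A', C + C', by positivity, by positivity, ?_⟩
    rintro j hj t ht ht1 φ (hφ | hφ) p
    · refine (hm j hj t ht ht1 φ hφ p).mono ?_
      have e1 : t ^ (-C) ≤ t ^ (-(C + C')) :=
        Real.rpow_le_rpow_of_exponent_ge ht ht1 (by linarith)
      have e2 : 0 ≤ A' * t ^ (-(C + C')) := by positivity
      have e3 := mul_le_mul_of_nonneg_left e1 hA
      linarith
    · refine (hm' j hj t ht ht1 φ hφ p).mono ?_
      have e1 : t ^ (-C') ≤ t ^ (-(C + C')) :=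
        Real.rpow_le_rpow_of_exponent_ge ht ht1 (by linarith)
      have e2 : 0 ≤ A * t ^ (-(C + C')) := by positivity
      have e3 := mul_le_mul_of_nonneg_left e1 hA'
      linarith

theorem FamB.empty : FamB (fun _ _ => (∅ : Set Fn)) := by
  refine ⟨?_, ⟨0, 0, le_rfl, le_rfl, ?_⟩⟩
  · rintro j hj t ht ht1 φ hφ
    exact absurd hφ (Set.notMem_empty φ)
  · rintro j hj t ht ht1 φ hφ
    exact absurd hφ (Set.notMem_empty φ)














end Crest.Agent.R079.DicB112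
end

-- ▼ part R079/WA_112
section

/-! R079 (helper112): **WEIGHTED ATOMS → NODE-DEPENDENT COST DICTIONARY** (`TRecN.Dict` of 533).

A weighted family `A j t` is a set of pairs `(φ, w)`, `w : Nd → ℝ` the cost of the atom `φ` at the
nodes.  `gau S p f = inf {∑ |c_i| w_i(p) : f = ∑ c_i φ_i on iv p}`.

* `WFam A` : nonnegative, super-averaging, sup `≤ w t⁻¹`, monotone, conjugation, mass
  `≤ A₀ t^(-C₀) w` in bounded atoms, point masses;
* `cst_gau`, `dic_gau : WFam A → TRecN.Dic (gD A) 0`, `frzBd_gau`;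
* `lv_mem` : level against the members, `lv_of_mem` : converse;
* `repB_gau` : frozen letters are mixtures of bounded atoms. -/

set_option autoImplicit false
set_option linter.unusedVariables false

namespace Crest.Agent.R079.WA112

open Finset Crest.Agent.R079.Grid Crest.Agent.R079.Glue Crest.Agent.R079.Growth
  Crest.Agent.R079.QRed Crest.Agent.R079.BAt112 Crest.Agent.R079.TFrz679
  Crest.Agent.R079.DicB112

/-- weighted atoms -/
abbrev WA : Type := Fn × (Nd → ℝ)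

/-- `M` is the cost of a decomposition of `f` on `iv p` -/
def Dec (S : Set WA) (p : Nd) (f : Fn) : Set ℝ :=
  {M | ∃ (n : ℕ) (x : Fin n → WA) (c : Fin n → ℂ), (∀ i, x i ∈ S) ∧
    (∀ y ∈ iv p, f y = ∑ i, c i * (x i).1 y) ∧ M = ∑ i, ‖c i‖ * (x i).2 p}

/-- gauge of the family at the node `p` -/
noncomputable def gau (S : Set WA) (p : Nd) (f : Fn) : ℝ := sInf (Dec S p f)

/-- what is needed of one family for `Cst` -/
structure WS (S : Set WA) : Prop where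
  nonneg : ∀ x ∈ S, ∀ p, 0 ≤ x.2 p
  super : ∀ x ∈ S, ∀ (m : ℕ) (l : ℤ), x.2 (m, 2 * l) + x.2 (m, 2 * l + 1) ≤ 2 * x.2 (m + 1, l)
  pt : ∀ y : ℤ, ∃ x ∈ S, ∃ u : ℂ, u ≠ 0 ∧ ∀ z, x.1 z = if z = y then u else 0

variable {S : Set WA}

theorem dec_nonneg (hS : WS S) {p : Nd} {f : Fn} {M : ℝ} (h : M ∈ Dec S p f) : 0 ≤ M := by
  obtain ⟨n, x, c, h1, h2, rfl⟩ := h
  exact Finset.sum_nonneg fun i _ => mul_nonneg (norm_nonneg _) (hS.nonneg _ (h1 i) p)

theorem dec_bdd (hS : WS S) (p : Nd) (f : Fn) : BddBelow (Dec S p f) :=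
  ⟨0, fun _ h => dec_nonneg hS h⟩

theorem dec_congr {p : Nd} {f g : Fn} (e : ∀ y ∈ iv p, f y = g y) : Dec S p f = Dec S p g := by
  ext M
  constructor
  · rintro ⟨n, x, c, h1, h2, h3⟩
    exact ⟨n, x, c, h1, fun y hy => (e y hy).symm.trans (h2 y hy), h3⟩
  · rintro ⟨n, x, c, h1, h2, h3⟩
    exact ⟨n, x, c, h1, fun y hy => (e y hy).trans (h2 y hy), h3⟩

theorem dec_zero (p : Nd) : (0 : ℝ) ∈ Dec S p (fun _ => 0) :=
  ⟨0, Fin.elim0, Fin.elim0, fun i => i.elim0, fun y _ => by simp, by simp⟩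

theorem dec_one {p : Nd} {f : Fn} {x : WA} (hx : x ∈ S) {c : ℂ} (h : ∀ y ∈ iv p, f y = c * x.1 y) :
    ‖c‖ * x.2 p ∈ Dec S p f :=
  ⟨1, fun _ => x, fun _ => c, fun _ => hx, fun y hy => by simpa using h y hy, by simp⟩

theorem dec_add {p : Nd} {f g : Fn} {M M' : ℝ} (h : M ∈ Dec S p f) (h' : M' ∈ Dec S p g) :
    M + M' ∈ Dec S p (fun y => f y + g y) := by
  obtain ⟨n, x, c, h1, h2, h3⟩ := h
  obtain ⟨n', x', c', h1', h2', h3'⟩ := h'
  refine ⟨n + n', Fin.append x x', Fin.append c c', fun i => ?_, fun y hy => ?_, ?_⟩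
  · refine Fin.addCases (fun i => ?_) (fun i => ?_) i
    · rw [Fin.append_left]; exact h1 i
    · rw [Fin.append_right]; exact h1' i
  · show f y + g y = _
    rw [h2 y hy, h2' y hy, Fin.sum_univ_add]
    simp only [Fin.append_left, Fin.append_right]
  · rw [Fin.sum_univ_add]
    simp only [Fin.append_left, Fin.append_right]
    rw [h3, h3']

theorem dec_smul {p : Nd} {f : Fn} {M : ℝ} (h : M ∈ Dec S p f) (z : ℂ) :
    ‖z‖ * M ∈ Dec S p (fun y => z * f y) := by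
  obtain ⟨n, x, c, h1, h2, h3⟩ := h
  refine ⟨n, x, fun i => z * c i, h1, fun y hy => ?_, ?_⟩
  · show z * f y = _
    rw [h2 y hy, Finset.mul_sum]
    exact Finset.sum_congr rfl fun i _ => by ring
  · rw [h3, Finset.mul_sum]
    exact Finset.sum_congr rfl fun i _ => by rw [norm_mul]; ring

theorem dec_sum {p : Nd} {ι : Type*} (s : Finset ι) (f : ι → Fn) (M : ι → ℝ)
    (h : ∀ i ∈ s, M i ∈ Dec S p (f i)) : ∑ i ∈ s, M i ∈ Dec S p (fun y => ∑ i ∈ s, f i y) := by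
  classical
  induction s using Finset.induction_on with
  | empty => simpa using dec_zero p
  | insert a s ha ih =>
    have h1 := dec_add (h a (Finset.mem_insert_self _ _))
      (ih fun i hi => h i (Finset.mem_insert_of_mem hi))
    rw [Finset.sum_insert ha]
    refine (dec_congr fun y _ => ?_) ▸ h1
    rw [Finset.sum_insert ha]

theorem dec_nonempty (hS : WS S) (p : Nd) (f : Fn) : (Dec S p f).Nonempty := by
  classical
  choose x hx u hu hp using hS.pt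
  have h1 : ∀ z ∈ iv p, ‖f z / u z‖ * (x z).2 p ∈
      Dec S p (fun y => f z / u z * (x z).1 y) := fun z _ => dec_one (hx z) fun y _ => rfl
  refine ⟨_, (dec_congr fun y hy => ?_) ▸ dec_sum (iv p) _ _ h1⟩
  rw [Finset.sum_eq_single y]
  · rw [hp y y, if_pos rfl]
    exact div_mul_cancel₀ _ (hu y)
  · intro z _ hz
    rw [hp z y, if_neg (Ne.symm hz), mul_zero]
  · intro h; exact absurd hy h

theorem gau_nonneg (hS : WS S) (p : Nd) (f : Fn) : 0 ≤ gau S p f :=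
  Real.sInf_nonneg fun _ h => dec_nonneg hS h

theorem gau_le (hS : WS S) {p : Nd} {f : Fn} {M : ℝ} (h : M ∈ Dec S p f) : gau S p f ≤ M :=
  csInf_le (dec_bdd hS p f) h

theorem exists_dec (hS : WS S) (p : Nd) (f : Fn) {η : ℝ} (hη : 0 < η) :
    ∃ M ∈ Dec S p f, M < gau S p f + η :=
  Real.lt_sInf_add_pos (dec_nonempty hS p f) hη

theorem le_gau (hS : WS S) {p : Nd} {f : Fn} {A : ℝ} (h : ∀ M ∈ Dec S p f, A ≤ M) :
    A ≤ gau S p f := le_csInf (dec_nonempty hS p f) h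

/-- **the gauge is a super-averaging cost** -/
theorem cst_gau (hS : WS S) : LasN525.Cst (gau S) := by
  refine ⟨gau_nonneg hS, fun p f g e => ?_, fun p => ?_, fun p f g => ?_, fun p z f => ?_,
    fun m l f => ?_⟩
  · unfold gau; rw [dec_congr e]
  · exact le_antisymm (gau_le hS (dec_zero p)) (gau_nonneg hS p _)
  · refine le_of_forall_pos_lt_add fun η hη => ?_
    obtain ⟨M, hM, hM1⟩ := exists_dec hS p f (half_pos hη)
    obtain ⟨M', hM', hM1'⟩ := exists_dec hS p g (half_pos hη)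
    have := gau_le hS (dec_add hM hM')
    linarith
  · refine le_of_forall_pos_le_add fun η hη => ?_
    have hη' : 0 < η / (‖z‖ + 1) := by positivity
    obtain ⟨M, hM, hM1⟩ := exists_dec hS p f hη'
    have h1 := gau_le hS (dec_smul hM z)
    have h2 : ‖z‖ * M ≤ ‖z‖ * (gau S p f + η / (‖z‖ + 1)) :=
      mul_le_mul_of_nonneg_left hM1.le (norm_nonneg _)
    have h3 : ‖z‖ * (η / (‖z‖ + 1)) ≤ η := by
      rw [mul_div_assoc', div_le_iff₀ (by positivity)]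
      nlinarith [norm_nonneg z]
    calc gau S p (fun y => z * f y) ≤ ‖z‖ * M := h1
      _ ≤ ‖z‖ * gau S p f + ‖z‖ * (η / (‖z‖ + 1)) := by rw [← mul_add]; exact h2
      _ ≤ _ := by linarith
  · refine le_of_forall_pos_le_add fun η hη => ?_
    obtain ⟨M, ⟨n, x, c, h1, h2, rfl⟩, hM1⟩ := exists_dec hS (m + 1, l) f (half_pos hη)
    have hsub0 : iv (m, 2 * l) ⊆ iv (m + 1, l) := by
      intro y hy
      unfold iv at *
      have e : m + 1 + 7 = (m + 7) + 1 := by omega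
      show y ∈ dI (m + 1 + 7) l
      rw [e, L0e.dI_succ]
      exact Finset.mem_union_left _ hy
    have hsub1 : iv (m, 2 * l + 1) ⊆ iv (m + 1, l) := by
      intro y hy
      unfold iv at *
      have e : m + 1 + 7 = (m + 7) + 1 := by omega
      show y ∈ dI (m + 1 + 7) l
      rw [e, L0e.dI_succ]
      exact Finset.mem_union_right _ hy
    have g0 := gau_le hS (S := S) (p := (m, 2 * l)) (f := f)
      ⟨n, x, c, h1, fun y hy => h2 y (hsub0 hy), rfl⟩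
    have g1 := gau_le hS (S := S) (p := (m, 2 * l + 1)) (f := f)
      ⟨n, x, c, h1, fun y hy => h2 y (hsub1 hy), rfl⟩
    have h3 : ∑ i, ‖c i‖ * (x i).2 (m, 2 * l) + ∑ i, ‖c i‖ * (x i).2 (m, 2 * l + 1) ≤
        2 * ∑ i, ‖c i‖ * (x i).2 (m + 1, l) := by
      rw [← Finset.sum_add_distrib, Finset.mul_sum]
      refine Finset.sum_le_sum fun i _ => ?_
      have := mul_le_mul_of_nonneg_left (hS.super _ (h1 i) m l) (norm_nonneg (c i))
      linarith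
    linarith

/-! ### admissible weighted families -/

/-- admissible weighted family (all slots, including the spanning point masses) -/
structure WFam (A : Fin 4 → ℝ → Set WA) : Prop where
  ws : ∀ j t, 0 < t → t ≤ 1 → WS (A j t)
  sup : ∀ j t, 0 < t → t ≤ 1 → ∀ x ∈ A j t, ∀ p, ∀ y ∈ iv p, ‖x.1 y‖ ≤ x.2 p * t ^ (-(TRec.sx 0 j))
  mono : ∀ j s t, 0 < s → s ≤ t → t ≤ 1 → ∀ x ∈ A j t, ∃ x' ∈ A j s,
    (∀ y, x'.1 y = x.1 y) ∧ ∀ p, x'.2 p ≤ x.2 p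
  conj : ∀ j t, 0 < t → t ≤ 1 → ∀ x ∈ A j t, ∃ x' ∈ A j t,
    (∀ y, x'.1 y = (starRingEnd ℂ) (x.1 y)) ∧ ∀ p, x'.2 p ≤ x.2 p
  ptw : ∀ j, j ≠ 3 → ∀ t, 0 < t → t ≤ 1 → ∀ y : ℤ, ∃ x ∈ A j t, ∃ u : ℝ, 0 < u ∧
    u ≤ t ^ (1 / 2 : ℝ) ∧ (∀ z, x.1 z = if z = y then ((u : ℂ))⁻¹ else 0) ∧ ∀ p, x.2 p ≤ 1
  mass : ∃ A0 C0 : ℝ, 0 ≤ A0 ∧ 0 ≤ C0 ∧ ∀ j, j ≠ 3 → ∀ t, 0 < t → t ≤ 1 → ∀ x ∈ A j t, ∀ p,
    RepB j p x.1 (A0 * t ^ (-C0) * x.2 p)

/-- the cost dictionary -/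
noncomputable def gD (A : Fin 4 → ℝ → Set WA) : TRecN.Dict := fun j t p f => gau (A j t) p f

theorem dec_conj {S : Set WA} (h : ∀ x ∈ S, ∃ x' ∈ S,
    (∀ y, x'.1 y = (starRingEnd ℂ) (x.1 y)) ∧ ∀ p, x'.2 p ≤ x.2 p) {p : Nd} {f : Fn} {M : ℝ}
    (hM : M ∈ Dec S p f) : ∃ M' ∈ Dec S p (fun y => (starRingEnd ℂ) (f y)), M' ≤ M := by
  obtain ⟨n, x, c, h1, h2, rfl⟩ := hM
  choose x' hx' hv hw using fun i => h (x i) (h1 i)
  refine ⟨_, ⟨n, x', fun i => (starRingEnd ℂ) (c i), hx', fun y hy => ?_, rfl⟩, ?_⟩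
  · show (starRingEnd ℂ) (f y) = _
    rw [h2 y hy, map_sum]
    exact Finset.sum_congr rfl fun i _ => by rw [map_mul, hv i y]
  · refine Finset.sum_le_sum fun i _ => ?_
    rw [RCLike.norm_conj]
    exact mul_le_mul_of_nonneg_left (hw i p) (norm_nonneg _)

theorem dec_mono {S S' : Set WA} (h : ∀ x ∈ S, ∃ x' ∈ S',
    (∀ y, x'.1 y = x.1 y) ∧ ∀ p, x'.2 p ≤ x.2 p) {p : Nd} {f : Fn} {M : ℝ}
    (hM : M ∈ Dec S p f) : ∃ M' ∈ Dec S' p f, M' ≤ M := by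
  obtain ⟨n, x, c, h1, h2, rfl⟩ := hM
  choose x' hx' hv hw using fun i => h (x i) (h1 i)
  refine ⟨_, ⟨n, x', c, hx', fun y hy => ?_, rfl⟩, ?_⟩
  · rw [h2 y hy]
    exact Finset.sum_congr rfl fun i _ => by rw [hv i y]
  · exact Finset.sum_le_sum fun i _ => mul_le_mul_of_nonneg_left (hw i p) (norm_nonneg _)

variable {A : Fin 4 → ℝ → Set WA}




/-- **`FrzBd`** for a cost dictionary with polynomial masses -/
theorem frzBd_of_repB {D : TRecN.Dict} {k q3 A0 C0 : ℝ} (hk : 0 ≤ k) (hq3 : 2 ≤ q3)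
    (hA0 : 0 ≤ A0) (hD : ∀ j, j ≠ 3 → ∀ t, 0 < t → t ≤ 1 →
    ∀ p f M, D j t p f < M → RepB j p f (A0 * t ^ (-C0) * M)) : TRecN.FrzBd D k q3 := by
  intro t ht ht1
  obtain ⟨K, hK, hq⟩ := qb
  have hM0 : 0 ≤ A0 * t ^ (-C0) * 2 := by positivity
  refine ⟨K * (A0 * t ^ (-C0) * 2), by positivity, ?_⟩
  intro bb ε hε W I hW F hF i hi hfz
  have hrep : Rep i I (F i) (A0 * t ^ (-C0) * 2) :=
    (hD i hi t ht ht1 I (F i) 2 (lt_of_le_of_lt (hfz I hW.top) one_lt_two)).rep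
  have hloc : ∀ j, ∀ p ∈ W, av p (F j) ≤ 1 := by
    intro j p hp
    refine (TWL649.av_le_aq ?_ p (F j)).trans (hF j p hp)
    unfold TRec.qx
    split_ifs
    · exact hq3
    · linarith
  have h1 := hq bb ε hε W I hW F (fun _ => 1) (fun _ => zero_le_one) hloc i _ hrep
  refine h1.trans (le_of_eq ?_)
  simp only [Finset.prod_const_one, mul_one]




end Crest.Agent.R079.WA112
end

-- ▼ part R079/CellB_112
section

/-! R079 (helper112): the mass of a CELL (helper37) in BOUNDED atoms. -/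

set_option autoImplicit false

namespace Crest.Agent.R079.CellB112

open Finset Crest.Agent.R079.Grid Crest.Agent.R079.Glue Crest.Agent.R079.Growth
  Crest.Agent.R079.QRed Crest.Agent.R079.TFrz679 Crest.Agent.R079.Dic679 Crest.Agent.R079.DicOp679
  Crest.Agent.R079.Cell37 Crest.Agent.R079.BAt112 Crest.Agent.R079.DicB112

/-- **the mass of a cell in bounded atoms (every node, every slot)** -/
theorem repB_cell {n : ℕ} {a b : ℤ} {H : ℝ} {w : ℤ → ℝ} {u c : ℤ → ℂ} (h : CellD n a b H w u c)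
    (ξ : ℤ → ℝ) (j : Fin 4) (p : Nd) : RepB j p (cph n a w u c ξ) (768 * H ^ 2) := by
  have hH : 0 ≤ H := h.H0
  obtain ⟨i0, i1, i2, h01, h02, h12, hσ, hd, he3, hd3⟩ := exists_unit j
  set e := cf j i0 with he
  set σ := cf j i1 with hσd
  set d := cf j i2 with hdd
  have hn0 : (0 : ℝ) < n := by exact_mod_cast h.n0
  -- one class
  have hcl : ∀ r : Fin 3, RepB j p (fun y => ∑ s ∈ Finset.Ico a (a + (n : ℤ)),
      if s % d = ((r : ℕ) : ℤ) then tm w u c ξ s y else 0) (256 * H ^ 2) := by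
    intro r
    by_cases hr : ((r : ℕ) : ℤ) < |d|
    · have hfun : (fun y => ∑ s ∈ Finset.Ico a (a + (n : ℤ)),
          if s % d = ((r : ℕ) : ℤ) then tm w u c ξ s y else 0) = fun y =>
          ((1 / (n : ℝ) ^ 2 : ℝ) : ℂ) * ∑ z0 ∈ Finset.Ico (0 : ℤ) (16 * (n : ℤ)),
          ∑ z1 ∈ Finset.Ico (σ * b - 8 * (n : ℤ)) (σ * b + 8 * (n : ℤ)),
          ∑ z2 ∈ Finset.Ico (a / d - 8 * (n : ℤ)) (a / d + 8 * (n : ℤ)),
          (if cf j i0 * z0 + cf j i1 * z1 + cf j i2 * z2 = y then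
            kM ξ σ d r z1 z2 * kU n c e σ r z0 z1 * kV n a w u ξ e d r z0 z2 else 0) := by
        funext y
        exact (class_id h ξ he3 hσ hd hd3 (by positivity) hr y).symm
      rw [hfun]
      refine repB3 i0 i1 i2 h01 h02 h12 _ _ _ (n := 16 * n) (by have := h.n0; omega)
        (by rw [Int.card_Ico]; omega) ?_ ?_
        (kM ξ σ d r) (kU n c e σ r) (kV n a w u ξ e d r) (HU := H) (HV := H) (by positivity) hH hH
        ?_ ?_ ?_ ?_ p
      · rw [Int.card_Ico]; omega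
      · rw [Int.card_Ico]; omega
      · intro z z'
        exact (norm_ee _).le
      · intro z z'
        unfold kU
        split_ifs
        · exact h.cH _
        · simpa using hH
      · intro z z'
        unfold kV
        split_ifs
        · rw [norm_mul, norm_mul, norm_ee, mul_one, Complex.norm_real,
            Real.norm_of_nonneg (mul_nonneg hn0.le (h.w0 _))]
          calc (n : ℝ) * w (d * z' + ↑↑r) * ‖u (d * z' + ↑↑r)‖ ≤ H * 1 :=
                mul_le_mul (h.wH _) (h.u1 _) (norm_nonneg _) hH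
            _ = H := mul_one H
        · simpa using hH
      · push_cast
        refine le_of_eq ?_
        field_simp
        ring
    · have hfun : (fun y => ∑ s ∈ Finset.Ico a (a + (n : ℤ)),
          if s % d = ((r : ℕ) : ℤ) then tm w u c ξ s y else 0) = fun _ => 0 := by
        funext y
        refine Finset.sum_eq_zero fun s _ => ?_
        rw [if_neg]
        intro hs
        exact hr (hs ▸ Int.emod_lt_abs s hd)
      rw [hfun]
      exact RepB.zero (by positivity)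
  have h3 : RepB j p (cph n a w u c ξ) (3 * (256 * H ^ 2)) := by
    refine RepB.comb (n := 3) (c := fun _ => 1) (by positivity) hcl (by norm_num) ?_
    intro y _
    unfold cph
    simp only [one_mul]
    rw [Finset.sum_comm]
    refine Finset.sum_congr rfl fun s _ => ?_
    have h4 := Int.emod_nonneg s hd
    have h5 := Int.emod_lt_abs s hd
    have h6 : s % d = 0 ∨ s % d = 1 ∨ s % d = 2 := by omega
    rw [Fin.sum_univ_three]
    rcases h6 with h6 | h6 | h6 <;> simp [h6, tm]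
  have : 3 * (256 * H ^ 2) = 768 * H ^ 2 := by ring
  rwa [this] at h3

/-- mass of the members of the family, relative to their cost -/
theorem repB_cel {γ δ C t : ℝ} (ht : 0 < t) {x : Fn × (Nd → ℝ)} (hx : x ∈ Cel γ δ C t)
    (j : Fin 4) (p : Nd) : RepB j p x.1 (768 * t ^ (-(2 * C + γ + δ)) * x.2 p) := by
  have hf := cel_floor ht hx p
  obtain ⟨n, a, b, w, u, c, ξ, h, h1, h2⟩ := hx
  rw [h1]
  refine (repB_cell h ξ j p).mono ?_
  have h4 : (t ^ (-C)) ^ 2 = t ^ (-(2 * C + γ + δ)) * t ^ (γ + δ) := by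
    rw [← Real.rpow_natCast (t ^ (-C)) 2, ← Real.rpow_mul ht.le, ← Real.rpow_add ht]
    congr 1
    push_cast; ring
  rw [h4, mul_assoc]
  exact mul_le_mul_of_nonneg_left
    (mul_le_mul_of_nonneg_left hf (Real.rpow_pos_of_pos ht _).le) (by norm_num)

end Crest.Agent.R079.CellB112
end

-- ▼ part R079/WB_112
section

/-! R079 (helper112): building blocks of cost dictionaries (`WA112.WFam`).

`WG E A` : weighted family for the slots `0,1,2`, sup exponent `E`; `WG.union`, `WG.weaken`,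
`WG.reparam` (`t ↦ t^(1/E)` makes the exponent `1`), `UFam H U` : unit functions (price families
`PrF U γ`), `wg_prF`, `wg_bat` (bounded atoms at price `t^γ`), `wg_cel` (cells);
`full A` adds the point masses and slot `3`; **`wfam_full : WG 1 A → WFam (full A)`**. -/

set_option autoImplicit false
set_option linter.unusedVariables false

namespace Crest.Agent.R079.WB112

open Finset Crest.Agent.R079.Grid Crest.Agent.R079.Glue Crest.Agent.R079.Growth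
  Crest.Agent.R079.QRed Crest.Agent.R079.BAt112 Crest.Agent.R079.TFrz679
  Crest.Agent.R079.DicB112 Crest.Agent.R079.WA112

/-- weighted family for the slots `0,1,2`, sup exponent `E` -/
structure WG (E : ℝ) (A : Fin 4 → ℝ → Set WA) : Prop where
  nonneg : ∀ j, j ≠ 3 → ∀ t, 0 < t → t ≤ 1 → ∀ x ∈ A j t, ∀ p, 0 ≤ x.2 p
  super : ∀ j, j ≠ 3 → ∀ t, 0 < t → t ≤ 1 → ∀ x ∈ A j t, ∀ (m : ℕ) (l : ℤ),
    x.2 (m, 2 * l) + x.2 (m, 2 * l + 1) ≤ 2 * x.2 (m + 1, l)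
  sup : ∀ j, j ≠ 3 → ∀ t, 0 < t → t ≤ 1 → ∀ x ∈ A j t, ∀ p, ∀ y ∈ iv p,
    ‖x.1 y‖ ≤ x.2 p * t ^ (-E)
  mono : ∀ j, j ≠ 3 → ∀ s t, 0 < s → s ≤ t → t ≤ 1 → ∀ x ∈ A j t, ∃ x' ∈ A j s,
    (∀ y, x'.1 y = x.1 y) ∧ ∀ p, x'.2 p ≤ x.2 p
  conj : ∀ j, j ≠ 3 → ∀ t, 0 < t → t ≤ 1 → ∀ x ∈ A j t, ∃ x' ∈ A j t,
    (∀ y, x'.1 y = (starRingEnd ℂ) (x.1 y)) ∧ ∀ p, x'.2 p ≤ x.2 p
  mass : ∃ A0 C0 : ℝ, 0 ≤ A0 ∧ 0 ≤ C0 ∧ ∀ j, j ≠ 3 → ∀ t, 0 < t → t ≤ 1 → ∀ x ∈ A j t, ∀ p,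
    RepB j p x.1 (A0 * t ^ (-C0) * x.2 p)

theorem WG.union {E : ℝ} {A B : Fin 4 → ℝ → Set WA} (h : WG E A) (h' : WG E B) :
    WG E (fun j t => A j t ∪ B j t) := by
  refine ⟨?_, ?_, ?_, ?_, ?_, ?_⟩
  · rintro j hj t ht ht1 x (hx | hx)
    · exact h.nonneg j hj t ht ht1 x hx
    · exact h'.nonneg j hj t ht ht1 x hx
  · rintro j hj t ht ht1 x (hx | hx)
    · exact h.super j hj t ht ht1 x hx
    · exact h'.super j hj t ht ht1 x hx
  · rintro j hj t ht ht1 x (hx | hx)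
    · exact h.sup j hj t ht ht1 x hx
    · exact h'.sup j hj t ht ht1 x hx
  · rintro j hj s t hs hst ht1 x (hx | hx)
    · obtain ⟨x', hx', h1⟩ := h.mono j hj s t hs hst ht1 x hx
      exact ⟨x', Or.inl hx', h1⟩
    · obtain ⟨x', hx', h1⟩ := h'.mono j hj s t hs hst ht1 x hx
      exact ⟨x', Or.inr hx', h1⟩
  · rintro j hj t ht ht1 x (hx | hx)
    · obtain ⟨x', hx', h1⟩ := h.conj j hj t ht ht1 x hx
      exact ⟨x', Or.inl hx', h1⟩
    · obtain ⟨x', hx', h1⟩ := h'.conj j hj t ht ht1 x hx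
      exact ⟨x', Or.inr hx', h1⟩
  · obtain ⟨A0, C0, hA0, hC0, hm⟩ := h.mass
    obtain ⟨A1, C1, hA1, hC1, hm'⟩ := h'.mass
    refine ⟨A0 + A1, C0 + C1, by positivity, by positivity, ?_⟩
    rintro j hj t ht ht1 x (hx | hx) p
    · refine (hm j hj t ht ht1 x hx p).mono ?_
      refine mul_le_mul_of_nonneg_right ?_ (h.nonneg j hj t ht ht1 x hx p)
      have e1 : t ^ (-C0) ≤ t ^ (-(C0 + C1)) :=
        Real.rpow_le_rpow_of_exponent_ge ht ht1 (by linarith)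
      have e2 : 0 ≤ A1 * t ^ (-(C0 + C1)) := by positivity
      have e3 := mul_le_mul_of_nonneg_left e1 hA0
      linarith
    · refine (hm' j hj t ht ht1 x hx p).mono ?_
      refine mul_le_mul_of_nonneg_right ?_ (h'.nonneg j hj t ht ht1 x hx p)
      have e1 : t ^ (-C1) ≤ t ^ (-(C0 + C1)) :=
        Real.rpow_le_rpow_of_exponent_ge ht ht1 (by linarith)
      have e2 : 0 ≤ A0 * t ^ (-(C0 + C1)) := by positivity
      have e3 := mul_le_mul_of_nonneg_left e1 hA1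
      linarith


/-- reparametrisation `t ↦ t^θ` -/
theorem WG.reparam {E θ : ℝ} (hθ : 0 < θ) {A : Fin 4 → ℝ → Set WA} (h : WG E A) :
    WG (θ * E) (fun j t => A j (t ^ θ)) := by
  have h0 : ∀ t : ℝ, 0 < t → 0 < t ^ θ := fun t ht => Real.rpow_pos_of_pos ht _
  have h1 : ∀ t : ℝ, 0 < t → t ≤ 1 → t ^ θ ≤ 1 := fun t ht ht1 =>
    Real.rpow_le_one ht.le ht1 hθ.le
  refine ⟨fun j hj t ht ht1 => h.nonneg j hj _ (h0 t ht) (h1 t ht ht1),
    fun j hj t ht ht1 => h.super j hj _ (h0 t ht) (h1 t ht ht1), ?_, ?_,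
    fun j hj t ht ht1 => h.conj j hj _ (h0 t ht) (h1 t ht ht1), ?_⟩
  · intro j hj t ht ht1 x hx p y hy
    have := h.sup j hj _ (h0 t ht) (h1 t ht ht1) x hx p y hy
    rwa [← Real.rpow_mul ht.le, show θ * -E = -(θ * E) by ring] at this
  · intro j hj s t hs hst ht1
    exact h.mono j hj _ _ (h0 s hs) (Real.rpow_le_rpow hs.le hst hθ.le)
      (h1 t (hs.trans_le hst) ht1)
  · obtain ⟨A0, C0, hA0, hC0, hm⟩ := h.mass
    refine ⟨A0, θ * C0, hA0, by positivity, fun j hj t ht ht1 x hx p => ?_⟩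
    have := hm j hj _ (h0 t ht) (h1 t ht ht1) x hx p
    rwa [← Real.rpow_mul ht.le, show θ * -C0 = -(θ * C0) by ring] at this

/-! ### price families -/

/-- unit functions of the slots `0,1,2` (sup `≤ t^(-H)`, polynomial mass, monotone, conjugation) -/
structure UFam (H : ℝ) (U : Fin 4 → ℝ → Set Fn) : Prop where
  sup : ∀ j, j ≠ 3 → ∀ t, 0 < t → t ≤ 1 → ∀ φ ∈ U j t, ∀ y, ‖φ y‖ ≤ t ^ (-H)
  mono : ∀ j, j ≠ 3 → ∀ s t, 0 < s → s ≤ t → t ≤ 1 → ∀ φ ∈ U j t, φ ∈ U j s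
  conj : ∀ j, j ≠ 3 → ∀ t, 0 < t → t ≤ 1 → ∀ φ ∈ U j t, (fun y => (starRingEnd ℂ) (φ y)) ∈ U j t
  mass : ∃ A0 C0 : ℝ, 0 ≤ A0 ∧ 0 ≤ C0 ∧ ∀ j, j ≠ 3 → ∀ t, 0 < t → t ≤ 1 → ∀ φ ∈ U j t, ∀ p,
    RepB j p φ (A0 * t ^ (-C0))

/-- price family: the functions of `U` at the (node independent) price `t ^ γ j` -/
def PrF (U : Fin 4 → ℝ → Set Fn) (γ : Fin 4 → ℝ) (j : Fin 4) (t : ℝ) : Set WA :=
  {x | x.1 ∈ U j t ∧ x.2 = fun _ => t ^ (γ j)}

theorem wg_prF {H E : ℝ} {U : Fin 4 → ℝ → Set Fn} {γ : Fin 4 → ℝ} (hU : UFam H U)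
    (hγ : ∀ j, 0 ≤ γ j) (hE : ∀ j, H + γ j ≤ E) : WG E (PrF U γ) := by
  refine ⟨?_, ?_, ?_, ?_, ?_, ?_⟩
  · rintro j hj t ht ht1 ⟨φ, w⟩ ⟨hφ, rfl⟩ p
    exact (Real.rpow_pos_of_pos ht _).le
  · rintro j hj t ht ht1 ⟨φ, w⟩ ⟨hφ, rfl⟩ m l
    show t ^ γ j + t ^ γ j ≤ 2 * t ^ γ j
    linarith
  · rintro j hj t ht ht1 ⟨φ, w⟩ ⟨hφ, rfl⟩ p y _
    show ‖φ y‖ ≤ t ^ γ j * t ^ (-E)
    refine (hU.sup j hj t ht ht1 φ hφ y).trans ?_
    rw [← Real.rpow_add ht]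
    exact Real.rpow_le_rpow_of_exponent_ge ht ht1 (by have := hE j; linarith)
  · rintro j hj s t hs hst ht1 ⟨φ, w⟩ ⟨hφ, rfl⟩
    exact ⟨(φ, fun _ => s ^ γ j), ⟨hU.mono j hj s t hs hst ht1 φ hφ, rfl⟩, fun _ => rfl,
      fun _ => Real.rpow_le_rpow hs.le hst (hγ j)⟩
  · rintro j hj t ht ht1 ⟨φ, w⟩ ⟨hφ, rfl⟩
    exact ⟨(fun y => (starRingEnd ℂ) (φ y), fun _ => t ^ γ j),
      ⟨hU.conj j hj t ht ht1 φ hφ, rfl⟩, fun _ => rfl, fun _ => le_rfl⟩
  · obtain ⟨A0, C0, hA0, hC0, hm⟩ := hU.mass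
    have hG : 0 ≤ ∑ j, γ j := Finset.sum_nonneg fun j _ => hγ j
    refine ⟨A0, C0 + ∑ j, γ j, hA0, by positivity, ?_⟩
    rintro j hj t ht ht1 ⟨φ, w⟩ ⟨hφ, rfl⟩ p
    refine (hm j hj t ht ht1 φ hφ p).mono ?_
    show A0 * t ^ (-C0) ≤ A0 * t ^ (-(C0 + ∑ j, γ j)) * t ^ γ j
    rw [mul_assoc, ← Real.rpow_add ht]
    refine mul_le_mul_of_nonneg_left (Real.rpow_le_rpow_of_exponent_ge ht ht1 ?_) hA0
    have := Finset.single_le_sum (f := γ) (fun j _ => hγ j) (Finset.mem_univ j)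
    linarith

/-- bounded atoms -/
def UB (j : Fin 4) (_ : ℝ) : Set Fn := {φ | BAt j φ}



/-- **cells** (helper37), with slot dependent exponents -/
theorem wg_cel {γ δ C : Fin 4 → ℝ} {E : ℝ} (hγ : ∀ j, 0 ≤ γ j) (hδ : ∀ j, 0 ≤ δ j)
    (hC : ∀ j, 0 ≤ C j) (hE : ∀ j, C j + γ j + δ j ≤ E) :
    WG E (fun j t => Cell37.Cel (γ j) (δ j) (C j) t) := by
  refine ⟨fun j hj t ht ht1 x hx p => Cell37.cel_nonneg ht hx p,
    fun j hj t ht ht1 x hx m l => Cell37.cel_super ht hx m l, ?_, ?_, ?_, ?_⟩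
  · intro j hj t ht ht1 x hx p y hy
    have h1 := Cell37.cel_sup ht hx p y
    refine h1.trans ?_
    rw [mul_comm]
    exact mul_le_mul_of_nonneg_left (Real.rpow_le_rpow_of_exponent_ge ht ht1
      (by have := hE j; linarith)) (Cell37.cel_nonneg ht hx p)
  · intro j hj s t hs hst ht1 x hx
    obtain ⟨x', hx', h1, h2⟩ := Cell37.cel_mono hs hst (hγ j) (hδ j) (hC j) hx
    exact ⟨x', hx', fun y => by rw [h1], h2⟩
  · intro j hj t ht ht1 x hx
    exact ⟨_, Cell37.cel_conj hx, fun y => rfl, fun p => le_rfl⟩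
  · have hG : ∀ j, 2 * C j + γ j + δ j ≤ ∑ i, (2 * C i + γ i + δ i) := fun j =>
      Finset.single_le_sum (f := fun i => 2 * C i + γ i + δ i)
        (fun i _ => by have := hγ i; have := hδ i; have := hC i; positivity) (Finset.mem_univ j)
    refine ⟨768, ∑ i, (2 * C i + γ i + δ i), by norm_num,
      Finset.sum_nonneg fun i _ => by have := hγ i; have := hδ i; have := hC i; positivity,
      fun j hj t ht ht1 x hx p => ?_⟩
    refine (CellB112.repB_cel ht hx j p).mono ?_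
    refine mul_le_mul_of_nonneg_right (mul_le_mul_of_nonneg_left
      (Real.rpow_le_rpow_of_exponent_ge ht ht1 ?_) (by norm_num)) (Cell37.cel_nonneg ht hx p)
    have := hG j
    linarith

/-! ### the full family -/

/-- point masses of height `≤ t⁻¹`, cost `1` -/
def PtW (t : ℝ) : Set WA :=
  {x | ∃ (y : ℤ) (v : ℂ), ‖v‖ ≤ t⁻¹ ∧ x.1 = (fun z => if z = y then v else 0) ∧ x.2 = fun _ => 1}

/-- slot `3`: functions bounded by `1`, cost `1` -/
def S3 : Set WA := {x | (∀ y, ‖x.1 y‖ ≤ 1) ∧ x.2 = fun _ => 1}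

open Classical in
/-- the full family -/
noncomputable def full (A : Fin 4 → ℝ → Set WA) (j : Fin 4) (t : ℝ) : Set WA :=
  if j = 3 then S3 else A j t ∪ PtW t


end Crest.Agent.R079.WB112
end

-- ▼ part R079/WS_112
section

/-! R079 (helper112): **THE CONCRETE COST DICTIONARY** (`TRecN.Dict`): bounded atoms at price
`t^(θ γ j)`, op-atoms with `L¹` weight (helper276) at price `t^(θ g j)`, cells (helper37), point
masses.  `DF P` for a parameter structure `P : Prm`; **`dic_DF`, `frzBd_DF`, `repB_DF`, `lvB_DF`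
(bounded atoms), `lvS_DF` (276), `lvC_DF` (37), `olev_DF`**. -/

set_option autoImplicit false
set_option linter.unusedVariables false

namespace Crest.Agent.R079.WS112

open Finset Crest.Agent.R079.Grid Crest.Agent.R079.Glue Crest.Agent.R079.Growth
  Crest.Agent.R079.QRed Crest.Agent.R079.BAt112 Crest.Agent.R079.TFrz679
  Crest.Agent.R079.DicB112 Crest.Agent.R079.WA112 Crest.Agent.R079.WB112
  Crest.Agent.R079.OLevSw Crest.Agent.R079.OpS276 Crest.Agent.R079.DicOp679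

/-- unit op-atoms of slot `k` (caps `t^(-x k)` of the weight, `t^(-2 f k)` of the fibres) -/
def US (x f : Fin 4 → ℝ) (k : Fin 4) (t : ℝ) : Set Fn :=
  {φ | ∃ (j e e' : Fin 4) (n : ℕ), Dst4 k j e e' ∧ ∃ ψ : Fn,
    IsOpS k j e e' n (t ^ (-(x k))) (t ^ (-(2 * f k))) ψ ∧
    φ = fun y => ((1 / (n : ℝ) ^ 2 : ℝ) : ℂ) * ψ y}

theorem SD.mono' {n : ℕ} {Ht Hf Ht' Hf' : ℝ} {m : ℤ → ℤ → ℂ} {U V : Fin n → Fin n → ℂ}
    {α : Fin n → ℝ} (h : SD n Ht Hf m U V α) (h1 : Ht ≤ Ht') (h2 : Hf ≤ Hf') :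
    SD n Ht' Hf' m U V α :=
  ⟨h.m1, h.α0, h.U2, h.V2, h.α1, fun c => (h.αH c).trans h1,
    fun c i => (h.UH c i).trans (mul_le_mul_of_nonneg_right h2 (h.α0 c)),
    fun c i => (h.VH c i).trans (mul_le_mul_of_nonneg_right h2 (h.α0 c))⟩

theorem SD.conj' {n : ℕ} {Ht Hf : ℝ} {m : ℤ → ℤ → ℂ} {U V : Fin n → Fin n → ℂ}
    {α : Fin n → ℝ} (h : SD n Ht Hf m U V α) :
    SD n Ht Hf (fun z z' => (starRingEnd ℂ) (m z z')) (fun c i => (starRingEnd ℂ) (U c i))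
      (fun c i => (starRingEnd ℂ) (V c i)) α := by
  refine ⟨fun z z' => ?_, h.α0, fun c => ?_, fun c => ?_, h.α1, h.αH, fun c i => ?_, fun c i => ?_⟩
  · rw [RCLike.norm_conj]; exact h.m1 z z'
  · simpa only [RCLike.norm_conj] using h.U2 c
  · simpa only [RCLike.norm_conj] using h.V2 c
  · rw [RCLike.norm_conj]; exact h.UH c i
  · rw [RCLike.norm_conj]; exact h.VH c i

theorem conj_opA (k j e e' : Fin 4) (n : ℕ) (w q u : ℤ) (m : ℤ → ℤ → ℂ)
    (U V : Fin n → Fin n → ℂ) (y : ℤ) :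
    (starRingEnd ℂ) (opA k j e e' n w q u m U V y) =
      opA k j e e' n w q u (fun z z' => (starRingEnd ℂ) (m z z'))
        (fun c i => (starRingEnd ℂ) (U c i)) (fun c i => (starRingEnd ℂ) (V c i)) y := by
  unfold opA
  simp only [map_sum, apply_ite (starRingEnd ℂ), map_mul, map_zero]

theorem ufam_US {x f : Fin 4 → ℝ} (hx : ∀ j, 0 ≤ x j) (hf : ∀ j, 0 ≤ f j) : UFam 0 (US x f) := by
  refine ⟨?_, ?_, ?_, ?_⟩
  · rintro k hk t ht ht1 φ ⟨j, e, e', n, hd, ψ, ⟨w, q, u, m, U, V, α, hS, rfl⟩, rfl⟩ y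
    rw [neg_zero, Real.rpow_zero]
    show ‖((1 / (n : ℝ) ^ 2 : ℝ) : ℂ) * opA k j e e' n w q u m U V y‖ ≤ 1
    rw [norm_mul, Complex.norm_real, Real.norm_of_nonneg (by positivity)]
    rcases Nat.eq_zero_or_pos n with hn | hn
    · subst hn; simp
    · have hn' : (0 : ℝ) < n := by exact_mod_cast hn
      calc 1 / (n : ℝ) ^ 2 * ‖opA k j e e' n w q u m U V y‖ ≤ 1 / (n : ℝ) ^ 2 * (n : ℝ) ^ 2 :=
            mul_le_mul_of_nonneg_left (sup_opA hd hS w q u y) (by positivity)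
        _ = 1 := by field_simp
  · rintro k hk s t hs hst ht1 φ ⟨j, e, e', n, hd, ψ, ⟨w, q, u, m, U, V, α, hS, rfl⟩, rfl⟩
    refine ⟨j, e, e', n, hd, _, ⟨w, q, u, m, U, V, α, SD.mono' hS ?_ ?_, rfl⟩, rfl⟩
    · exact Real.rpow_le_rpow_of_nonpos hs hst (by have := hx k; linarith)
    · exact Real.rpow_le_rpow_of_nonpos hs hst (by have := hf k; linarith)
  · rintro k hk t ht ht1 φ ⟨j, e, e', n, hd, ψ, ⟨w, q, u, m, U, V, α, hS, rfl⟩, rfl⟩
    refine ⟨j, e, e', n, hd, _, ⟨w, q, u, _, _, _, α, SD.conj' hS, rfl⟩, ?_⟩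
    funext y
    show (starRingEnd ℂ) (((1 / (n : ℝ) ^ 2 : ℝ) : ℂ) * opA k j e e' n w q u m U V y) = _
    rw [map_mul, Complex.conj_ofReal, conj_opA]
  · have hG : ∀ j, x j + 2 * f j ≤ ∑ i, (x i + 2 * f i) := fun j =>
      Finset.single_le_sum (f := fun i => x i + 2 * f i)
        (fun i _ => by have := hx i; have := hf i; positivity) (Finset.mem_univ j)
    refine ⟨1, ∑ i, (x i + 2 * f i), zero_le_one,
      Finset.sum_nonneg fun i _ => by have := hx i; have := hf i; positivity, ?_⟩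
    rintro k hk t ht ht1 φ ⟨j, e, e', n, hd, ψ, ⟨w, q, u, m, U, V, α, hS, rfl⟩, rfl⟩ p
    set H : ℝ := t ^ (-(x k / 2 + f k)) with hH
    have hH0 : 0 ≤ H := (Real.rpow_pos_of_pos ht _).le
    have hHH : t ^ (-(2 * f k)) * t ^ (-(x k)) = H ^ 2 := by
      rw [hH, ← Real.rpow_natCast (t ^ (-(x k / 2 + f k))) 2, ← Real.rpow_mul ht.le,
        ← Real.rpow_add ht]
      congr 1; push_cast; ring
    have hHf : 0 ≤ t ^ (-(2 * f k)) := (Real.rpow_pos_of_pos ht _).le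
    have hU : ∀ c i, ‖U c i‖ ≤ H := fun c i => by
      refine (abs_le_of_sq_le_sq' ?_ hH0).2
      exact ((hS.UH c i).trans (mul_le_mul_of_nonneg_left (hS.αH c) hHf)).trans hHH.le
    have hV : ∀ c i, ‖V c i‖ ≤ H := fun c i => by
      refine (abs_le_of_sq_le_sq' ?_ hH0).2
      exact ((hS.VH c i).trans (mul_le_mul_of_nonneg_left (hS.αH c) hHf)).trans hHH.le
    refine repB_opT hd.jk hd.je hd.je' hd.ke hd.ke' hd.ee' hS.m1 w q u (by positivity) hH0 hH0 hU hV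
      ?_ p
    have e1 : H * H ≤ 1 * t ^ (-∑ i, (x i + 2 * f i)) := by
      rw [one_mul, ← sq, ← hHH, ← Real.rpow_add ht]
      exact Real.rpow_le_rpow_of_exponent_ge ht ht1 (by have := hG k; linarith)
    refine le_trans ?_ e1
    rcases Nat.eq_zero_or_pos n with hn | hn
    · subst hn
      have : 0 ≤ H * H := by positivity
      simpa using this
    · have hn' : (0 : ℝ) < n := by exact_mod_cast hn
      refine le_of_eq ?_
      field_simp

/-! ### the concrete dictionary -/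

/-- parameters of the dictionary (per slot): `γ` price of bounded atoms; `g`, `x`, `f` price and caps
of the op-atoms; `gc`, `dc`, `Cc` price, floor and height of the cells; `θ` reparametrisation -/
structure Prm where
  γ : Fin 4 → ℝ
  g : Fin 4 → ℝ
  x : Fin 4 → ℝ
  f : Fin 4 → ℝ
  gc : Fin 4 → ℝ
  dc : Fin 4 → ℝ
  Cc : Fin 4 → ℝ
  θ : ℝ

/-- admissible parameters -/
structure Prm.Ok (P : Prm) : Prop where
  γ0 : ∀ j, 0 ≤ P.γ j
  g0 : ∀ j, 0 ≤ P.g j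
  x0 : ∀ j, 0 ≤ P.x j
  f0 : ∀ j, 0 ≤ P.f j
  gc0 : ∀ j, 0 ≤ P.gc j
  dc0 : ∀ j, 0 ≤ P.dc j
  Cc0 : ∀ j, 0 ≤ P.Cc j
  θ0 : 0 < P.θ
  γ1 : ∀ j, P.θ * P.γ j ≤ 1
  g1 : ∀ j, P.θ * P.g j ≤ 1
  c1 : ∀ j, P.θ * (P.Cc j + P.gc j + P.dc j) ≤ 1

/-- the weighted family before reparametrisation -/
def AF (P : Prm) (j : Fin 4) (t : ℝ) : Set WA :=
  (PrF UB P.γ j t ∪ PrF (US P.x P.f) P.g j t) ∪ Cell37.Cel (P.gc j) (P.dc j) (P.Cc j) t

/-- the full weighted family -/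
noncomputable def AFull (P : Prm) : Fin 4 → ℝ → Set WA := full (fun j t => AF P j (t ^ P.θ))

/-- **THE DICTIONARY** -/
noncomputable def DF (P : Prm) : TRecN.Dict := gD (AFull P)







section level

variable {P : Prm} (h : P.Ok) {j : Fin 4} (hj : j ≠ 3) {t : ℝ} (ht : 0 < t) (ht1 : t ≤ 1)
  {s : ℝ} (hs : 0 ≤ s) {p : Nd} {X : Fn} (hX : TRecN.Lv (DF P) j t s p X)

include h hj ht ht1 hs hX






end level

end Crest.Agent.R079.WS112
end

-- ▼ part R079/RuS4_256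
section

/-! R079, RuleS assembly, leaf S9 part 4 (helper256): dictionary-free static rule `static_core`, then
`BadN360.CoreG`, `TRec.RuleS` and the hypothesis `hS` of `Par4_734` for every dictionary with (B) `HB`
(elements are mixtures of polynomial mass of bounded atoms) and (O) `OpLevel`. -/

set_option autoImplicit false
set_option linter.unusedVariables false

namespace Crest.Agent.R079.RuS256

open Finset Crest.Agent.R079.Grid Crest.Agent.R079.Growth Crest.Agent.R079.QRed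
  Crest.Agent.R079.Glue Crest.Agent.R079.TRec Crest.Agent.R079.TWin Crest.Agent.R079.Ero526
  Crest.Agent.R079.OpLev Crest.Agent.R079.S2D530 Crest.Agent.R079.Cg408 Crest.Agent.R079.BadN360
  Crest.Agent.R079.BAt112

/-- height exponent of `G` -/
noncomputable def eG (q3 C gm s1 : ℝ) : ℝ := 2 * (2 * C + gS q3 gm s1) / (q3 - 2)

/-- exponent of `σ` -/
noncomputable def eb (q3 C gm s1 : ℝ) : ℝ := eG q3 C gm s1 + 20 * (2 * C + gS q3 gm s1)

/-- exponent of the number of windows -/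
noncomputable def eC (q3 C gm s1 : ℝ) : ℝ := 7 * eb q3 C gm s1 + 8 * C + 4 * gS q3 gm s1

theorem eG_nonneg {q3 C gm s1 : ℝ} (hq3 : 2 < q3) (hC : 0 ≤ C) (hgm : 0 < gm) (hs1 : 0 < s1) :
    0 ≤ eG q3 C gm s1 := by
  have := gS_pos hq3 hgm hs1
  have : 0 < q3 - 2 := by linarith
  unfold eG; positivity

theorem eb_pos {q3 C gm s1 : ℝ} (hq3 : 2 < q3) (hC : 0 ≤ C) (hgm : 0 < gm) (hs1 : 0 < s1) :
    0 < eb q3 C gm s1 := by
  have := gS_pos hq3 hgm hs1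
  have := eG_nonneg hq3 hC hgm hs1
  unfold eb; positivity

theorem eC_nonneg {q3 C gm s1 : ℝ} (hq3 : 2 < q3) (hC : 0 ≤ C) (hgm : 0 < gm) (hs1 : 0 < s1) :
    0 ≤ eC q3 C gm s1 := by
  have := gS_pos hq3 hgm hs1
  have := eb_pos hq3 hC hgm hs1
  unfold eC; positivity

open Classical in
/-- **THE STATIC RULE, dictionary-free** (`P` = one bounded atom of mass `(A+1) t^(-2C)` on `iv I`) -/
theorem static_core {q3 C gm s1 : ℝ} (hq3 : 2 < q3) (hC : 0 ≤ C) (hgm : 0 < gm) (hs1 : 0 < s1)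
    {k A A2 : ℝ} (hk : 0 < k) (hA : 0 ≤ A) (hA2 : 0 ≤ A2) {κ0 : ℕ} (hκ0 : 13 ≤ κ0) :
    ∃ t0 K : ℝ, 0 < t0 ∧ t0 ≤ 1 ∧ 0 ≤ K ∧ ∀ t, 0 < t → t ≤ t0 → ∀ (W : Finset Nd) (I : Nd),
      Full W I → ∀ m : Fin 4, m ≠ 3 → ∀ P G X E : Fn, (∀ p ∈ W, aq (2 + k) p P ≤ 1) →
      (∀ p ∈ W, aq q3 p G ≤ 1) → (∀ y, ‖G y‖ ≤ t ^ (-eG q3 C gm s1)) →
      (∃ κ : ℝ, 0 < κ ∧ ∃ f : Fn, BA m κ ((A + 1) * t ^ (-(2 * C))) f ∧ ∀ y ∈ iv I, P y = f y) →
      (∀ y ∈ iv I, P y = X y + E y) →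
      (∀ p ∈ W, av p X ≤ 2 → OLev κ0 m p X (A2 * t ^ gm)) → (∀ p ∈ W, av p E ≤ t ^ s1) →
      ∃ (S : Finset Nd) (V : Nd → Finset Nd), Part W S V (K * t ^ (-eC q3 C gm s1)) ∧
        ∀ K' ∈ S, ∀ W' J, Full W' J → W' ⊆ V K' → ∀ F : Fin 4 → Fn, F m = P → F 3 = G →
          (∀ j, j ≠ m → j ≠ 3 → ∀ p ∈ W', aq (2 + k) p (F j) ≤ 1) →
          ∀ bb : ℤ, (bb = -1 ∨ bb = -7) →
          ∃ Ka Kb : ℤ → ℤ → ℂ, (∀ T A, ∏ j, S2D530.rs J F j (A - sl j * T) = Ka T A + Kb T A) ∧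
            ∑ p ∈ W'.filter (fun p => ¬ Bad W' 7 p), ∑ x ∈ adm p.1 p.2,
              ‖Cg408.LboxG (2 ^ p.1) bb Ka x‖ ≤ K * t ^ gS q3 gm s1 * len J ∧
            ∑ p ∈ W'.filter (fun p => ¬ Bad W' 7 p), ∑ x ∈ adm p.1 p.2,
              ‖Cg408.LboxG (2 ^ p.1) bb Kb x‖ ≤ K * t ^ gS q3 gm s1 * len J := by
  obtain ⟨K1, hK1, hreg⟩ := region_core
  set c : ℝ := gS q3 gm s1 with hc
  set b : ℝ := eb q3 C gm s1 with hb
  have hc0 : 0 < c := gS_pos hq3 hgm hs1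
  have hG0 : 0 ≤ eG q3 C gm s1 := eG_nonneg hq3 hC hgm hs1
  have hb0 : 0 < b := eb_pos hq3 hC hgm hs1
  set Q0 : ℝ := 2 ^ 54 * A2 + 2 ^ 20 + 2 ^ 18 + 2 ^ 31 * (A + 1) ^ 2 + (A + 1) with hQ0
  have hQ00 : 0 ≤ Q0 := by
    have h1 : (0 : ℝ) ≤ 2 ^ 54 * A2 := mul_nonneg (by norm_num) hA2
    have h2 : (0 : ℝ) ≤ 2 ^ 31 * (A + 1) ^ 2 := mul_nonneg (by norm_num) (sq_nonneg _)
    rw [hQ0]; linarith
  set K : ℝ := K1 * √Q0 + K1 * (1 + 1 / k) * (A + 1) + (7 + 120 * (A + 1) ^ 2) * 19 with hK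
  have hK0 : 0 ≤ K := by positivity
  refine ⟨min 1 ((1 / 2 ^ 60 : ℝ) ^ (1 / b)), K, lt_min one_pos (Real.rpow_pos_of_pos (by norm_num) _),
    min_le_left _ _, hK0, ?_⟩
  intro t ht htt W I hW m hm P G X E haP haG hG hat hPX hO hE
  have ht1 : t ≤ 1 := htt.trans (min_le_left _ _)
  have hσs : t ^ b ≤ 1 / 2 ^ 60 := by
    have h1 : t ≤ (1 / 2 ^ 60 : ℝ) ^ (1 / b) := htt.trans (min_le_right _ _)
    calc t ^ b ≤ ((1 / 2 ^ 60 : ℝ) ^ (1 / b)) ^ b := Real.rpow_le_rpow ht.le h1 hb0.le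
      _ = 1 / 2 ^ 60 := by
          rw [← Real.rpow_mul (by norm_num), one_div_mul_cancel hb0.ne', Real.rpow_one]
  obtain ⟨κ, hκ, f, hf, hPf⟩ := hat
  obtain ⟨T, a, b', c', hBA⟩ := hf
  set M : ℝ := (A + 1) * t ^ (-(2 * C)) with hM
  have htC : 0 < t ^ (-(2 * C)) := Real.rpow_pos_of_pos ht _
  have hM0 : 0 < M := by positivity
  have hσ : 0 < t ^ b := Real.rpow_pos_of_pos ht _
  have hθ : 0 < t ^ (b + 2 * C + 2 * c) := Real.rpow_pos_of_pos ht _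
  have hGσ : ∀ y, ‖G y‖ ≤ 1 / t ^ b := by
    intro y
    refine (hG y).trans ?_
    rw [one_div, ← Real.rpow_neg ht.le]
    refine Real.rpow_le_rpow_of_exponent_ge ht ht1 ?_
    rw [hb]; unfold eb
    nlinarith
  obtain ⟨S, V, hPt, hS⟩ := hreg m hm k q3 κ M (t ^ b) (t ^ (b + 2 * C + 2 * c)) (A2 * t ^ gm)
    (t ^ s1) (t ^ (-(gm / 4))) hk hq3 hσ hσs hθ (mul_nonneg hA2 (Real.rpow_nonneg ht.le _))
    (Real.rpow_le_one ht.le ht1 hs1.le) (Real.rpow_pos_of_pos ht _) T ![a, b', c']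
    { k0 := hκ, M0 := hM0, g0 := hBA.ha, g1 := hBA.hb, g2 := hBA.hc, n0 := hBA.na, n1 := hBA.nb,
      n2 := hBA.nc } κ0 hκ0 P G X E W I hW
    (fun y hy => by rw [hPf y hy, hBA.eq y]; rfl) hGσ hPX haP haG hE hO
  have htS : 0 < t ^ (-eC q3 C gm s1) := Real.rpow_pos_of_pos ht _
  refine ⟨S, V, WinA222.part_mono hPt ?_, ?_⟩
  · have h1 := num_cnt (C := C) (A := A) (b := b) (t := t) (c := c) hA hC hb0.le hc0.le ht ht1
    have e : -(7 * b + 8 * C + 4 * c) = -eC q3 C gm s1 := by unfold eC; rw [← hb, ← hc]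
    rw [e] at h1
    refine h1.trans (mul_le_mul_of_nonneg_right ?_ htS.le)
    have h2 : 0 ≤ K1 * √Q0 := mul_nonneg hK1 (Real.sqrt_nonneg _)
    have h3 : 0 ≤ K1 * (1 + 1 / k) * (A + 1) := by positivity
    rw [hK]; linarith
  · intro K' hK' W' J hW' hsub F hFm hF3 hF bb hbb
    obtain ⟨Ka, Kb, h1, h2, h3⟩ := hS K' hK' W' J hW' hsub F hFm hF3 hF bb hbb
    have hl := Growth.len_pos J
    have htc : 0 < t ^ c := Real.rpow_pos_of_pos ht _
    refine ⟨Ka, Kb, h1, h2.trans ?_, h3.trans ?_⟩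
    · refine mul_le_mul_of_nonneg_right ?_ hl.le
      have h4 := num_Q (q3 := q3) (C := C) (gm := gm) (s1 := s1) (A := A) (A2 := A2) (b := b)
        (t := t) (c := c) hq3 hA hA2 (gS_1 _ _ _) (gS_2 _ _ _) (gS_3 _ _ _)
        (by rw [hb]; unfold eb; rw [← hc]; nlinarith) ht ht1
      have h5 : √(Qm q3 M (t ^ b) (t ^ (b + 2 * C + 2 * c)) (A2 * t ^ gm) (t ^ s1)
          (t ^ (-(gm / 4)))) ≤ √Q0 * t ^ c := by
        refine (Real.sqrt_le_sqrt h4).trans (le_of_eq ?_)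
        rw [Real.sqrt_mul hQ00]
        congr 1
        have : t ^ (2 * c) = (t ^ c) ^ 2 := by
          rw [← Real.rpow_natCast, ← Real.rpow_mul ht.le]
          congr 1
          push_cast
          ring
        rw [this, Real.sqrt_sq htc.le]
      calc K1 * √(Qm q3 M (t ^ b) (t ^ (b + 2 * C + 2 * c)) (A2 * t ^ gm) (t ^ s1)
          (t ^ (-(gm / 4)))) ≤ K1 * (√Q0 * t ^ c) := mul_le_mul_of_nonneg_left h5 hK1
        _ = K1 * √Q0 * t ^ c := by ring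
        _ ≤ K * t ^ c := by
            refine mul_le_mul_of_nonneg_right ?_ htc.le
            have h3 : 0 ≤ K1 * (1 + 1 / k) * (A + 1) := by positivity
            have h6 : 0 ≤ (7 + 120 * (A + 1) ^ 2) * 19 := by positivity
            rw [hK]; linarith
    · refine mul_le_mul_of_nonneg_right ?_ hl.le
      have h4 := num_K (C := C) (A := A) (b := b) (t := t) (c := c) hA
        (by rw [hb]; unfold eb; rw [← hc]; nlinarith) ht ht1
      calc K1 * (1 + 1 / k) * (t ^ b) ^ (1 / 20 : ℝ) * M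
          = K1 * (1 + 1 / k) * ((t ^ b) ^ (1 / 20 : ℝ) * ((A + 1) * t ^ (-(2 * C)))) := by
            rw [hM]; ring
        _ ≤ K1 * (1 + 1 / k) * ((A + 1) * t ^ c) :=
            mul_le_mul_of_nonneg_left h4 (by positivity)
        _ = K1 * (1 + 1 / k) * (A + 1) * t ^ c := by ring
        _ ≤ K * t ^ c := by
            refine mul_le_mul_of_nonneg_right ?_ htc.le
            have h2 : 0 ≤ K1 * √Q0 := mul_nonneg hK1 (Real.sqrt_nonneg _)
            have h6 : 0 ≤ (7 + 120 * (A + 1) ^ 2) * 19 := by positivity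
            rw [hK]; linarith

/-! ### dictionaries of `TRec` -/







end Crest.Agent.R079.RuS256
end

-- ▼ part R079/RuS5_256
section

/-! R079, RULE (S), DICTIONARY-FREE FORM (helper256): `RuleSO` (frozen letter = mixture of bounded atoms
of mass `A1 t^(-C1)` on the top, level = `OLev` at the nodes), its proof `ruleSO_of`, and `RULE (S)` of the
node-dependent recursion `TRecN`. -/

set_option autoImplicit false
set_option linter.unusedVariables false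

namespace Crest.Agent.R079.RuS256

open Finset Crest.Agent.R079.Grid Crest.Agent.R079.Growth Crest.Agent.R079.QRed
  Crest.Agent.R079.Glue Crest.Agent.R079.TRec Crest.Agent.R079.TWin Crest.Agent.R079.Ero526
  Crest.Agent.R079.OpLev Crest.Agent.R079.S2D530 Crest.Agent.R079.Cg408 Crest.Agent.R079.BadN360
  Crest.Agent.R079.BAt112

/-- **RULE (S), dictionary-free** -/
def RuleSO (k q3 cS CS s1 A1 C1 A2 gm : ℝ) (κ0 : ℕ) (t0 K : ℝ) : Prop :=
  ∀ t, 0 < t → t ≤ t0 → ∀ bb W I, Full W I → ∀ (m : Fin 4), m ≠ 3 → ∀ P G X E : Fn,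
    (∀ p ∈ W, aq (2 + k) p P ≤ 1) → (∀ p ∈ W, aq q3 p G ≤ 1) → RepB m I P (A1 * t ^ (-C1)) →
    (∀ y ∈ iv I, P y = X y + E y) →
    (∀ p ∈ W, av p X ≤ 2 → OLev κ0 m p X (A2 * t ^ gm)) → (∀ p ∈ W, av p E ≤ t ^ s1) →
    ∃ T : Finset Nd, Tops W I T ∧ Cnt W T (K * t ^ (-CS)) ∧
      ∀ I' ∈ T, ∀ W' J, Full W' J → W' ⊆ win W T I' → ∀ F : Fin 4 → Fn, F m = P → F 3 = G →
        (∀ j, j ≠ m → j ≠ 3 → ∀ p ∈ W', aq (2 + k) p (F j) ≤ 1) → ∀ ε, Adm bb ε →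
        ‖TR bb ε W' F‖ ≤ K * t ^ cS * len J

/-- **`RuleSO` holds** (`cS = gS q3 gm s1`, `CS = eC q3 (C1/2) gm s1` do not depend on `k, A1, A2, κ0`) -/
theorem ruleSO_of {q3 C1 gm s1 : ℝ} (hq3 : 2 < q3) (hC1 : 0 ≤ C1) (hgm : 0 < gm) (hs1 : 0 < s1)
    {k A1 A2 : ℝ} (hk : 0 < k) (hA1 : 0 ≤ A1) (hA2 : 0 ≤ A2) {κ0 : ℕ} (hκ0 : 13 ≤ κ0) :
    ∃ t0 K : ℝ, 0 < t0 ∧ t0 ≤ 1 ∧ 0 ≤ K ∧
      RuleSO k q3 (gS q3 gm s1) (eC q3 (C1 / 2) gm s1) s1 A1 C1 A2 gm κ0 t0 K := by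
  have hC : 0 ≤ C1 / 2 := by positivity
  obtain ⟨t0, K, h0, ht01, hK, hst⟩ := static_core hq3 hC hgm hs1 hk hA1 hA2 hκ0
  obtain ⟨K2, hK2, htall⟩ := tall_words
  set cS : ℝ := gS q3 gm s1 with hcS
  set CG : ℝ := eG q3 (C1 / 2) gm s1 with hCGd
  set CS : ℝ := eC q3 (C1 / 2) gm s1 with hCSd
  have hCG0 : 0 ≤ CG := eG_nonneg hq3 hC hgm hs1
  have hCG : C1 + cS ≤ CG * ((q3 - 2) / 2) := by
    have hq : 0 < q3 - 2 := by linarith
    rw [hCGd]; unfold eG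
    rw [← hcS, div_mul_div_comm, mul_comm (q3 - 2) 2, ← div_mul_div_comm, div_self hq.ne', mul_one]
    linarith
  set Kb : ℝ := 512 * Real.sqrt (2 * A2) + 128 with hKb
  have hKb0 : 0 ≤ Kb := by positivity
  set cc : ℝ := 16 * (2 * (((7 : ℕ) : ℝ) + 1) + 1) with hcc
  have hcc0 : 0 ≤ cc := by positivity
  refine ⟨t0, (2 + cc) * (K + Kb) + K2 * A1, h0, ht01, by positivity, ?_⟩
  intro t ht ht0 bb W I hW m hm P G X E h1 h2 h3 h4 h5 h6
  have ht1 : t ≤ 1 := ht0.trans ht01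
  set H : ℝ := t ^ (-CG) with hHdef
  have hH : 0 < H := Real.rpow_pos_of_pos ht _
  have hat : ∃ κ : ℝ, 0 < κ ∧ ∃ f : Fn, BA m κ ((A1 + 1) * t ^ (-(2 * (C1 / 2)))) f ∧
      ∀ y ∈ iv I, P y = f y := by
    obtain ⟨κ, hκ, -, f, hf, hPf⟩ := one_atom h3
    refine ⟨κ, hκ, f, hf.mono ?_, hPf⟩
    have e1 : -(2 * (C1 / 2)) = -C1 := by ring
    rw [e1]
    have e2 : 1 ≤ t ^ (-C1) := one_le_neg ht ht1 hC1
    linarith
  obtain ⟨S, V, hP, hb⟩ := hst t ht ht0 W I hW m hm P (lo H G) X E h1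
    (fun p hp => (aq_lo (by linarith) H p G).trans (h2 p hp)) (fun y => norm_lo_le hH.le G y)
    hat h4 h5 h6
  have hKt : 0 ≤ K * t ^ (-CS) := mul_nonneg hK (Real.rpow_nonneg ht.le _)
  have hP' : Part W S V (((2 + cc) * (K + Kb) + K2 * A1) * t ^ (-CS)) := by
    refine WinA222.part_mono hP ?_
    have : 0 ≤ (K + Kb + cc * (K + Kb) + K2 * A1) * t ^ (-CS) := by positivity
    have h7 : 0 ≤ t ^ (-CS) := Real.rpow_nonneg ht.le _
    nlinarith [mul_nonneg hKb0 h7, mul_nonneg (mul_nonneg hcc0 (add_nonneg hK hKb0)) h7,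
      mul_nonneg (mul_nonneg hK2 hA1) h7]
  refine ⟨S, WinA222.tops_of_part hW hP', WinA222.cnt_of_part hP', ?_⟩
  intro K' hK' W' J hW' hsub F hFm hF3 hF ε hε
  rw [Rs530.win_eq hW hP' hK'] at hsub
  have hWsub : ∀ p ∈ W', p ∈ W := fun p hp => hP.wsub K' hK' (hsub hp)
  have hJI : iv J ⊆ iv I := hW.reg.1 J (hWsub J hW'.top)
  have hlen : 0 < len J := Growth.len_pos J
  have hFav : ∀ j, j ≠ 3 → ∀ p ∈ W', av p (F j) ≤ 1 := by
    intro j hj p hp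
    by_cases hjm : j = m
    · subst hjm
      rw [hFm]
      exact (TWL649.av_le_aq (by linarith) p P).trans (h1 p (hWsub p hp))
    · exact (TWL649.av_le_aq (by linarith) p (F j)).trans (hF j hjm hj p hp)
  have hG3 : ∀ p ∈ W', aq q3 p (F 3) ≤ 1 := fun p hp => by
    rw [hF3]; exact h2 p (hWsub p hp)
  have hrep : Rep m J (F m) (A1 * t ^ (-C1)) := by
    rw [hFm]
    exact rep_mono h3.rep hJI
  -- low word
  set F' : Fin 4 → Fn := Function.update F 3 (lo H (F 3)) with hF'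
  have hF'm : F' m = P := by rw [hF', Function.update_of_ne hm, hFm]
  have hF'3 : F' 3 = lo H G := by rw [hF', Function.update_self, hF3]
  obtain ⟨Ka, Kb', e1, e2, e3⟩ := hb K' hK' W' J hW' hsub F' hF'm hF'3 (fun j hj hj3 p hp => by
    rw [hF', Function.update_of_ne hj3]; exact hF j hj hj3 p hp) bb hε.1
  have hlow : ‖TR bb ε W' F'‖ ≤
      (K * t ^ cS + K * t ^ cS + cc * (Kb * t ^ cS)) * len J := by
    refine S2D530.window_split hε hW' 7 F' Ka Kb' e1 (by positivity) e2 e3 ?_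
    intro p hp _
    have hpW := hWsub p hp
    have hpI : iv p ⊆ iv I := hW.reg.1 p hpW
    have hPav : av p P ≤ 1 := (TWL649.av_le_aq (by linarith) p P).trans (h1 p hpW)
    have hEav : av p E ≤ t ^ s1 := h6 p hpW
    have hXav : av p X ≤ 2 := Leaf259.av_X (fun y hy => h4 y (hpI hy)) hPav
      (hEav.trans (Real.rpow_le_one ht.le ht1 hs1.le))
    have hbad := node_bad hε.1 hm (p := p) (F := F') (X := X) (E := E) (κ := κ0)
      (s := A2 * t ^ gm) (sE := t ^ s1) (H := t ^ (-(gm / 4))) (q3 := q3) (by positivity)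
      (Real.rpow_pos_of_pos ht _) hq3 (fun y hy => by rw [hF'm]; exact h4 y (hpI hy))
      (h5 p hpW hXav) hXav hEav
      (by rw [hF'3]; exact (aq_lo (by linarith) H p G).trans (h2 p hpW))
      (fun j hj => by rw [hF', Function.update_of_ne hj]; exact hFav j hj p hp)
    exact hbad.trans (mul_le_mul_of_nonneg_right
      (bad_num ht ht1 hA2 (gS_1 _ _ _) (gS_2 _ _ _) (gS_3 _ _ _)) (Growth.len_pos p).le)
  -- tall word
  have hhi : ‖TR bb ε W' (Function.update F 3 (hi H (F 3)))‖ ≤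
      K2 * (A1 * t ^ (-C1)) * H ^ (-((q3 - 2) / 2)) * len J :=
    (Qb247.norm_TR_le hε.2 W' _).trans (htall bb hε.1 W' J hW'.reg F m hm hFav q3 H _ hq3 hH hG3 hrep)
  have hhi2 : K2 * (A1 * t ^ (-C1)) * H ^ (-((q3 - 2) / 2)) ≤ K2 * A1 * t ^ cS := by
    have f1 : t ^ (-C1) * H ^ (-((q3 - 2) / 2)) ≤ t ^ cS := by
      rw [hHdef, ← Real.rpow_mul ht.le, ← Real.rpow_add ht]
      exact Real.rpow_le_rpow_of_exponent_ge ht ht1 (by nlinarith)
    calc _ = K2 * A1 * (t ^ (-C1) * H ^ (-((q3 - 2) / 2))) := by ring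
      _ ≤ _ := mul_le_mul_of_nonneg_left f1 (by positivity)
  -- sum
  have hsum : TR bb ε W' F = TR bb ε W' F' + TR bb ε W' (Function.update F 3 (hi H (F 3))) := by
    unfold TR TI
    rw [← Finset.sum_add_distrib]
    refine Finset.sum_congr rfl fun p _ => ?_
    rw [← Finset.sum_add_distrib]
    refine Finset.sum_congr rfl fun x _ => ?_
    rw [← mul_add]
    congr 1
    rw [hF', ← Lbox_upd_add]
    congr 1
    funext j
    by_cases hj : j = 3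
    · subst hj
      rw [Function.update_self]
      funext y
      exact lo_add_hi H (F 3) y
    · rw [Function.update_of_ne hj]
  have htc : 0 ≤ t ^ cS := Real.rpow_nonneg ht.le _
  rw [hsum]
  refine (norm_add_le _ _).trans ?_
  calc _ ≤ (K * t ^ cS + K * t ^ cS + cc * (Kb * t ^ cS)) * len J +
        K2 * A1 * t ^ cS * len J := add_le_add hlow
          (hhi.trans (mul_le_mul_of_nonneg_right hhi2 hlen.le))
    _ = (2 * K + cc * Kb + K2 * A1) * (t ^ cS * len J) := by ring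
    _ ≤ ((2 + cc) * (K + Kb) + K2 * A1) * (t ^ cS * len J) := by
        refine mul_le_mul_of_nonneg_right ?_ (by positivity)
        nlinarith [mul_nonneg hcc0 hK, mul_nonneg hcc0 hKb0]
    _ = _ := by ring

/-! ### the node-dependent recursion -/

/-- (B) for node-dependent dictionaries -/
def HBN (D : TRecN.Dict) (A C : ℝ) : Prop :=
  ∀ m : Fin 4, m ≠ 3 → ∀ t, 0 < t → t ≤ 1 → ∀ (p : Nd) (P : Fn), TRecN.Fz D m t 1 p P →
    RepB m p P (A * t ^ (-C))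

/-- (O) for node-dependent dictionaries -/
def OpLevelN (D : TRecN.Dict) (κ : ℕ) (A gm t0 : ℝ) : Prop :=
  ∀ m : Fin 4, m ≠ 3 → ∀ t, 0 < t → t ≤ t0 → ∀ p X, TRecN.Lv D m t 1 p X → av p X ≤ 2 →
    OLev κ m p X (A * t ^ gm)

theorem ruleSN_of_SO {D : TRecN.Dict} {k q3 cS CS s1 A C A2 gm e t1 t0 K : ℝ} {κ0 : ℕ}
    (hA : 0 ≤ A) (hC : 0 ≤ C) (he0 : 0 ≤ e) (he : e ≤ 1) (hK : 0 ≤ K) (ht01 : t0 ≤ 1)
    (ht0t1 : t0 ≤ t1) (hB : HBN D A C) (hO : OpLevelN D κ0 A2 gm t1)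
    (h : RuleSO k q3 cS CS s1 A (2 * C) A2 gm κ0 t0 K) : TRecN.RuleS D k q3 cS CS s1 e t0 K := by
  intro N B hB0 hBN t ht htt bb W I hW hI m hm P G X E h1 h2 h3 h4 h5 h6
  have ht1 : t ≤ 1 := htt.trans ht01
  have hte : 0 < t ^ (1 + e) := Real.rpow_pos_of_pos ht _
  have hte1 : t ^ (1 + e) ≤ 1 := Real.rpow_le_one ht.le ht1 (by linarith)
  have hrep : RepB m I P (A * t ^ (-(2 * C))) := by
    refine (hB m hm _ hte hte1 I P (h3 I hW.top)).mono (mul_le_mul_of_nonneg_left ?_ hA)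
    rw [← Real.rpow_mul ht.le]
    exact Real.rpow_le_rpow_of_exponent_ge ht ht1 (by nlinarith)
  obtain ⟨T, hT, hcnt, hb⟩ := h t ht htt bb W I hW m hm P G X E h1 h2 hrep h4
    (fun p hp hX => hO m hm t ht (htt.trans ht0t1) p X (h5 p hp) hX) h6
  refine ⟨T, hT, hcnt, fun I' hI' W' J hW' hsub F hFm hF3 hF ε hε => ?_⟩
  refine (hb I' hI' W' J hW' hsub F hFm hF3 hF ε hε).trans ?_
  have hl := Growth.len_pos J
  refine mul_le_mul_of_nonneg_right (mul_le_mul_of_nonneg_right ?_ (Real.rpow_nonneg ht.le _)) hl.le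
  nlinarith [mul_nonneg hK hB0]

theorem ruleSO_mono {k q3 cS CS s1 A1 C1 A2 gm t0 t0' K : ℝ} {κ0 : ℕ}
    (h : RuleSO k q3 cS CS s1 A1 C1 A2 gm κ0 t0 K) (ht : t0' ≤ t0) :
    RuleSO k q3 cS CS s1 A1 C1 A2 gm κ0 t0' K := fun t h0 h1 => h t h0 (h1.trans ht)

/-- **RULE (S) of `TRecN`** for every node-dependent dictionary with (B), (O) -/
theorem ruleSN_of {q3 C gm s1 : ℝ} (hq3 : 2 < q3) (hC : 0 ≤ C) (hgm : 0 < gm) (hs1 : 0 < s1)
    {k A A2 t1 : ℝ} (hk : 0 < k) (hA : 0 ≤ A) (hA2 : 0 ≤ A2) (ht1 : 0 < t1) {κ0 : ℕ}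
    (hκ0 : 13 ≤ κ0) {e : ℝ} (he0 : 0 ≤ e) (he : e ≤ 1) {D : TRecN.Dict} (hB : HBN D A C)
    (hO : OpLevelN D κ0 A2 gm t1) :
    ∃ t0 K : ℝ, 0 < t0 ∧ t0 ≤ 1 ∧ 0 ≤ K ∧
      TRecN.RuleS D k q3 (gS q3 gm s1) (eC q3 C gm s1) s1 e t0 K := by
  obtain ⟨t0, K, h0, h01, hK, h⟩ := ruleSO_of (C1 := 2 * C) hq3 (by positivity) hgm hs1 hk hA hA2
    hκ0
  rw [show 2 * C / 2 = C by ring] at h
  exact ⟨min t0 t1, K, lt_min h0 ht1, (min_le_left _ _).trans h01, hK,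
    ruleSN_of_SO hA hC he0 he hK ((min_le_left _ _).trans h01) (min_le_right _ _) hB hO
      (ruleSO_mono h (min_le_left _ _))⟩


end Crest.Agent.R079.RuS256
end

-- ▼ part R079/WS0_112

/-! R079 (helper112): **THE FINAL DICTIONARY** `DF0 P` (cost form): op-atoms with `L¹` weight (276)
at price `t'^(g j)`, cells (37); `t' = t ^ θ`.  No plain family, no tall point masses: the unit point
masses are op-atoms with `n = 1`.

`cst_DF0`, `sup_DF0`, `mono_DF0`, `conj_DF0`, `pt_DF0` (point masses of height `t^(-θ g j)` have cost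
`≤ 1`), `frzBd_DF0`, `repB_DF0`, `lvS_DF0`, `lvC_DF0`, `olev_DF0`, `hBN_DF0`, `opLevelN_DF0`,
`ruleS_DF0`, **`spl_DF0`** (splitting into op-atoms and cells, `T6bx252.Spl`). -/

set_option autoImplicit false
set_option linter.unusedVariables false

namespace Crest.Agent.R079.WS0112

open Finset Crest.Agent.R079.Grid Crest.Agent.R079.Glue Crest.Agent.R079.Growth
  Crest.Agent.R079.QRed Crest.Agent.R079.BAt112 Crest.Agent.R079.TFrz679
  Crest.Agent.R079.DicB112 Crest.Agent.R079.WA112 Crest.Agent.R079.WB112 Crest.Agent.R079.WS112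
  Crest.Agent.R079.OLevSw Crest.Agent.R079.OpS276 Crest.Agent.R079.DicOp679
  Crest.Agent.R079.RuS256 Crest.Agent.R079.OpLev

/-! ### admissible families without tall points -/

/-- admissible weighted family -/
structure WF (A : Fin 4 → ℝ → Set WA) : Prop where
  ws : ∀ j t, 0 < t → t ≤ 1 → WS (A j t)
  sup : ∀ j t, 0 < t → t ≤ 1 → ∀ x ∈ A j t, ∀ p, ∀ y ∈ iv p, ‖x.1 y‖ ≤ x.2 p * t ^ (-(TRec.sx 0 j))
  mono : ∀ j s t, 0 < s → s ≤ t → t ≤ 1 → ∀ x ∈ A j t, ∃ x' ∈ A j s,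
    (∀ y, x'.1 y = x.1 y) ∧ ∀ p, x'.2 p ≤ x.2 p
  conj : ∀ j t, 0 < t → t ≤ 1 → ∀ x ∈ A j t, ∃ x' ∈ A j t,
    (∀ y, x'.1 y = (starRingEnd ℂ) (x.1 y)) ∧ ∀ p, x'.2 p ≤ x.2 p
  mass : ∃ A0 C0 : ℝ, 0 ≤ A0 ∧ 0 ≤ C0 ∧ ∀ j, j ≠ 3 → ∀ t, 0 < t → t ≤ 1 → ∀ x ∈ A j t, ∀ p,
    RepB j p x.1 (A0 * t ^ (-C0) * x.2 p)

section gen

variable {A : Fin 4 → ℝ → Set WA} (h : WF A)

include h

theorem cst_WF (j : Fin 4) (t : ℝ) (ht : 0 < t) (ht1 : t ≤ 1) : LasN525.Cst (gD A j t) :=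
  cst_gau (h.ws j t ht ht1)

theorem sup_WF (j : Fin 4) (t : ℝ) (ht : 0 < t) (ht1 : t ≤ 1) (p : Nd) (f : Fn) :
    ∀ y ∈ iv p, ‖f y‖ ≤ gD A j t p f * t ^ (-(TRec.sx 0 j)) := by
  intro y hy
  have hT : 0 < t ^ (-(TRec.sx 0 j)) := Real.rpow_pos_of_pos ht _
  have hS := h.ws j t ht ht1
  rw [← div_le_iff₀ hT]
  refine le_gau hS ?_
  rintro M ⟨n, x, c, h1, h2, rfl⟩
  rw [div_le_iff₀ hT, h2 y hy, Finset.sum_mul]
  refine (norm_sum_le _ _).trans (Finset.sum_le_sum fun i _ => ?_)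
  rw [norm_mul, mul_assoc]
  exact mul_le_mul_of_nonneg_left (h.sup j t ht ht1 _ (h1 i) p y hy) (norm_nonneg _)

theorem mono_WF (j : Fin 4) (s t : ℝ) (hs : 0 < s) (hst : s ≤ t) (ht1 : t ≤ 1) (p : Nd) (f : Fn) :
    gD A j s p f ≤ gD A j t p f := by
  refine le_gau (h.ws j t (hs.trans_le hst) ht1) fun M hM => ?_
  obtain ⟨M', hM', hle⟩ := dec_mono (h.mono j s t hs hst ht1) hM
  exact (gau_le (h.ws j s hs (hst.trans ht1)) hM').trans hle

theorem conj_WF (j : Fin 4) (t : ℝ) (ht : 0 < t) (ht1 : t ≤ 1) (p : Nd) (f : Fn) :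
    gD A j t p (fun y => (starRingEnd ℂ) (f y)) ≤ gD A j t p f := by
  refine le_gau (h.ws j t ht ht1) fun M hM => ?_
  obtain ⟨M', hM', hle⟩ := dec_conj (h.conj j t ht ht1) hM
  exact (gau_le (h.ws j t ht ht1) hM').trans hle

theorem repB_WF : ∃ A0 C0 : ℝ, 0 ≤ A0 ∧ 0 ≤ C0 ∧ ∀ j, j ≠ 3 → ∀ t, 0 < t → t ≤ 1 →
    ∀ p f M, gD A j t p f < M → RepB j p f (A0 * t ^ (-C0) * M) := by
  obtain ⟨A0, C0, hA0, hC0, hm⟩ := h.mass
  refine ⟨A0, C0, hA0, hC0, fun j hj t ht ht1 p f M hM => ?_⟩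
  have hS := h.ws j t ht ht1
  obtain ⟨M', ⟨n, x, c, h1, h2, rfl⟩, hM'⟩ := exists_dec hS p f (η := M - gD A j t p f)
    (by linarith)
  have hM2 : ∑ i, ‖c i‖ * (x i).2 p < M := by
    have : gau (A j t) p f = gD A j t p f := rfl
    linarith
  have h3 : RepB j p (fun y => ∑ i ∈ Finset.univ, c i * (x i).1 y)
      (∑ i, ‖c i‖ * (A0 * t ^ (-C0) * (x i).2 p)) := by
    have key : ∀ s : Finset (Fin n), RepB j p (fun y => ∑ i ∈ s, c i * (x i).1 y)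
        (∑ i ∈ s, ‖c i‖ * (A0 * t ^ (-C0) * (x i).2 p)) := by
      intro s
      classical
      induction s using Finset.induction_on with
      | empty => simpa using RepB.zero (j := j) (p := p) (le_refl (0 : ℝ))
      | insert a s ha ih =>
        have h4 := RepB.add (RepB.cmul (hm j hj t ht ht1 _ (h1 a) p) (c a)) ih
        rw [Finset.sum_insert ha]
        refine h4.congr fun y _ => ?_
        rw [Finset.sum_insert ha]
    exact key Finset.univ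
  refine (h3.congr fun y hy => h2 y hy).mono ?_
  have e : ∑ i, ‖c i‖ * (A0 * t ^ (-C0) * (x i).2 p) =
      A0 * t ^ (-C0) * ∑ i, ‖c i‖ * (x i).2 p := by
    rw [Finset.mul_sum]; exact Finset.sum_congr rfl fun i _ => by ring
  rw [e]
  exact mul_le_mul_of_nonneg_left hM2.le (by positivity)

/-- level (in the sense of `TRecN.Lv`) against the members of the family -/
theorem lv_WF {j : Fin 4} {t : ℝ} (ht : 0 < t) (ht1 : t ≤ 1) {s : ℝ} (hs : 0 ≤ s)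
    {p : Nd} {g : Fn} (hg : TRecN.Lv (gD A) j t s p g) {x : WA} (hx : x ∈ A j t) :
    ‖∑ y ∈ iv p, g y * x.1 y‖ ≤ s * x.2 p * len p := by
  have hS := h.ws j t ht ht1
  have hl : 0 < len p := Growth.len_pos p
  have hw := hS.nonneg x hx p
  rcases hw.eq_or_lt with h0 | h0
  · -- weight zero: the function vanishes on `iv p`
    have hz : ∀ y ∈ iv p, x.1 y = 0 := by
      intro y hy
      have := h.sup j t ht ht1 x hx p y hy
      rw [← h0, zero_mul] at this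
      exact norm_le_zero_iff.1 this
    rw [Finset.sum_eq_zero fun y hy => by rw [hz y hy, mul_zero], norm_zero, ← h0]
    simp
  · set w := x.2 p with hwdef
    have h1 : ‖((w⁻¹ : ℝ) : ℂ)‖ * x.2 p ∈ Dec (A j t) p (fun y => ((w⁻¹ : ℝ) : ℂ) * x.1 y) :=
      dec_one hx fun z _ => rfl
    rw [Complex.norm_real, Real.norm_of_nonneg (inv_nonneg.2 h0.le), ← hwdef,
      inv_mul_cancel₀ h0.ne'] at h1
    have h2 := hg _ (gau_le hS h1)
    have h3 : ∑ y ∈ iv p, g y * (((w⁻¹ : ℝ) : ℂ) * x.1 y) =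
        ((w⁻¹ : ℝ) : ℂ) * ∑ y ∈ iv p, g y * x.1 y := by
      rw [Finset.mul_sum]; exact Finset.sum_congr rfl fun y _ => by ring
    rw [h3, norm_mul, Complex.norm_real, Real.norm_of_nonneg (inv_nonneg.2 h0.le),
      inv_mul_le_iff₀ h0] at h2
    linarith

theorem frzBd_WF {k q3 : ℝ} (hk : 0 ≤ k) (hq3 : 2 ≤ q3) : TRecN.FrzBd (gD A) k q3 := by
  obtain ⟨A0, C0, hA0, hC0, hm⟩ := repB_WF h
  exact frzBd_of_repB hk hq3 hA0 hm

end gen

/-! ### the family -/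

/-- unit point masses are op-atoms with `n = 1` -/
theorem pt_US {x f : Fin 4 → ℝ} (hx : ∀ j, 0 ≤ x j) (hf : ∀ j, 0 ≤ f j) (k : Fin 4) {t : ℝ}
    (ht : 0 < t) (ht1 : t ≤ 1) (y : ℤ) :
    (fun z => if z = y then (1 : ℂ) else 0) ∈ US x f k t := by
  obtain ⟨j, e, e', hd, w, q, u, hw⟩ : ∃ j e e' : Fin 4, Dst4 k j e e' ∧ ∃ w q u : ℤ,
      (sl j - sl k) * w + (sl e - sl k) * q + (sl e' - sl k) * u = y := by
    fin_cases k
    · exact ⟨1, 2, 3, ⟨by decide, by decide, by decide, by decide, by decide, by decide⟩,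
        y, 0, 0, by simp [sl]⟩
    · exact ⟨0, 2, 3, ⟨by decide, by decide, by decide, by decide, by decide, by decide⟩,
        -y, 0, 0, by simp [sl]⟩
    · exact ⟨1, 0, 3, ⟨by decide, by decide, by decide, by decide, by decide, by decide⟩,
        -y, 0, 0, by simp [sl]⟩
    · exact ⟨0, 1, 2, ⟨by decide, by decide, by decide, by decide, by decide, by decide⟩,
        y, 0, 0, by simp [sl]⟩
  refine ⟨j, e, e', 1, hd, _, ⟨w, q, u, fun _ _ => 1, fun _ _ => 1, fun _ _ => 1, fun _ => 1,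
    ?_, rfl⟩, ?_⟩
  · have h1 : (1 : ℝ) ≤ t ^ (-(x k)) :=
      Real.one_le_rpow_of_pos_of_le_one_of_nonpos ht ht1 (by have := hx k; linarith)
    have h2 : (1 : ℝ) ≤ t ^ (-(2 * f k)) :=
      Real.one_le_rpow_of_pos_of_le_one_of_nonpos ht ht1 (by have := hf k; linarith)
    refine ⟨fun _ _ => by simp, fun _ => zero_le_one, fun _ => by simp, fun _ => by simp,
      by simp, fun _ => h1, fun _ _ => by simpa using h2, fun _ _ => by simpa using h2⟩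
  · funext z
    unfold opA
    simp only [Finset.univ_unique, Fin.default_eq_zero, Fin.isValue, Finset.sum_singleton,
      Fin.val_zero, Nat.cast_zero, Int.add_zero]
    simp only [hw, Nat.cast_one, one_pow, div_one,
      Complex.ofReal_one, one_mul, mul_one]
    rcases eq_or_ne z y with h | h
    · simp [h]
    · simp [h, Ne.symm h]

/-- admissible parameters: `Prm.Ok` without the plain family -/
structure Ok0 (P : Prm) : Prop where
  g0 : ∀ j, 0 ≤ P.g j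
  x0 : ∀ j, 0 ≤ P.x j
  f0 : ∀ j, 0 ≤ P.f j
  gc0 : ∀ j, 0 ≤ P.gc j
  dc0 : ∀ j, 0 ≤ P.dc j
  Cc0 : ∀ j, 0 ≤ P.Cc j
  θ0 : 0 < P.θ
  g1 : ∀ j, P.θ * P.g j ≤ 1
  c1 : ∀ j, P.θ * (P.Cc j + P.gc j + P.dc j) ≤ 1

/-- the weighted family before reparametrisation -/
def AF0 (P : Prm) (j : Fin 4) (t : ℝ) : Set WA :=
  PrF (US P.x P.f) P.g j t ∪ Cell37.Cel (P.gc j) (P.dc j) (P.Cc j) t

open Classical in
/-- the full weighted family -/
noncomputable def AFull0 (P : Prm) (j : Fin 4) (t : ℝ) : Set WA :=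
  if j = 3 then S3 else AF0 P j (t ^ P.θ)

/-- **THE DICTIONARY** -/
noncomputable def DF0 (P : Prm) : TRecN.Dict := gD (AFull0 P)

theorem wg_AF0 {P : Prm} (h : Ok0 P) : WG 1 (fun j t => AF0 P j (t ^ P.θ)) := by
  set E : ℝ := P.θ⁻¹ with hE
  have hE1 : P.θ * E = 1 := mul_inv_cancel₀ h.θ0.ne'
  have key : ∀ {a : ℝ}, P.θ * a ≤ 1 → a ≤ E := by
    intro a ha
    rw [hE, ← one_div, le_div_iff₀ h.θ0]
    linarith
  have h1 : WG E (AF0 P) := by
    refine WG.union (wg_prF (ufam_US h.x0 h.f0) h.g0 fun j => ?_)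
      (wg_cel h.gc0 h.dc0 h.Cc0 fun j => key (h.c1 j))
    rw [zero_add]; exact key (h.g1 j)
  have h2 := h1.reparam h.θ0
  rwa [hE1] at h2

theorem full0_ne {P : Prm} {j : Fin 4} (hj : j ≠ 3) (t : ℝ) :
    AFull0 P j t = AF0 P j (t ^ P.θ) := if_neg hj

theorem full0_3 {P : Prm} (t : ℝ) : AFull0 P 3 t = S3 := if_pos rfl

/-- **the family is admissible** -/
theorem wf_DF0 {P : Prm} (hP : Ok0 P) : WF (AFull0 P) := by
  have h := wg_AF0 hP
  have hT0 : ∀ t : ℝ, 0 < t → 0 < t ^ P.θ := fun t ht => Real.rpow_pos_of_pos ht _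
  have hT1 : ∀ t : ℝ, 0 < t → t ≤ 1 → t ^ P.θ ≤ 1 := fun t ht ht1 =>
    Real.rpow_le_one ht.le ht1 hP.θ0.le
  refine ⟨?_, ?_, ?_, ?_, ?_⟩
  · intro j t ht ht1
    by_cases hj : j = 3
    · subst hj
      rw [full0_3]
      refine ⟨?_, ?_, ?_⟩
      · rintro x ⟨-, hw⟩ p; rw [hw]; exact zero_le_one
      · rintro x ⟨-, hw⟩ m l; rw [hw]; norm_num
      · intro y
        refine ⟨(fun z => if z = y then 1 else 0, fun _ => 1), ⟨fun z => ?_, rfl⟩, 1, one_ne_zero,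
          fun z => rfl⟩
        show ‖(if z = y then (1 : ℂ) else 0)‖ ≤ 1
        split_ifs <;> simp
    · rw [full0_ne hj]
      refine ⟨fun x hx p => h.nonneg j hj t ht ht1 x hx p,
        fun x hx m l => h.super j hj t ht ht1 x hx m l, fun y => ?_⟩
      exact ⟨(fun z => if z = y then (1 : ℂ) else 0, fun _ => (t ^ P.θ) ^ (P.g j)),
        Or.inl ⟨pt_US hP.x0 hP.f0 j (hT0 t ht) (hT1 t ht ht1) y, rfl⟩, 1, one_ne_zero,
        fun z => rfl⟩
  · intro j t ht ht1 x hx p y hy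
    by_cases hj : j = 3
    · subst hj
      rw [full0_3] at hx
      obtain ⟨h1, h2⟩ := hx
      rw [h2]
      simpa [TRec.sx] using h1 y
    · rw [full0_ne hj] at hx
      have hsx : TRec.sx 0 j = 1 := by simp [TRec.sx, hj]
      rw [hsx]
      exact h.sup j hj t ht ht1 x hx p y hy
  · intro j s t hs hst ht1 x hx
    by_cases hj : j = 3
    · subst hj
      rw [full0_3] at hx ⊢
      exact ⟨x, hx, fun _ => rfl, fun _ => le_rfl⟩
    · rw [full0_ne hj] at hx ⊢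
      exact h.mono j hj s t hs hst ht1 x hx
  · intro j t ht ht1 x hx
    by_cases hj : j = 3
    · subst hj
      rw [full0_3] at hx ⊢
      exact ⟨(fun y => (starRingEnd ℂ) (x.1 y), x.2),
        ⟨fun y => by show ‖(starRingEnd ℂ) (x.1 y)‖ ≤ 1; rw [RCLike.norm_conj]; exact hx.1 y, hx.2⟩,
        fun _ => rfl, fun _ => le_rfl⟩
    · rw [full0_ne hj] at hx ⊢
      exact h.conj j hj t ht ht1 x hx
  · obtain ⟨A0, C0, hA0, hC0, hm⟩ := h.mass
    refine ⟨A0, C0, hA0, hC0, fun j hj t ht ht1 x hx p => ?_⟩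
    rw [full0_ne hj] at hx
    exact hm j hj t ht ht1 x hx p

/-! ### the axioms of `TRecN.Dic` -/

section axioms

variable {P : Prm} (h : Ok0 P)

include h

theorem cst_DF0 : ∀ j t, 0 < t → t ≤ 1 → LasN525.Cst (DF0 P j t) := cst_WF (wf_DF0 h)

theorem sup_DF0 : ∀ j t, 0 < t → t ≤ 1 → ∀ p f, ∀ y ∈ iv p,
    ‖f y‖ ≤ DF0 P j t p f * t ^ (-(TRec.sx 0 j)) := sup_WF (wf_DF0 h)

theorem mono_DF0 : ∀ j s t, 0 < s → s ≤ t → t ≤ 1 → ∀ p f, DF0 P j s p f ≤ DF0 P j t p f :=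
  mono_WF (wf_DF0 h)

theorem conj_DF0 : ∀ j t, 0 < t → t ≤ 1 → ∀ p f,
    DF0 P j t p (fun y => (starRingEnd ℂ) (f y)) ≤ DF0 P j t p f := conj_WF (wf_DF0 h)

/-- point masses of height `t^(-θ g j)` have cost `≤ 1` -/
theorem pt_DF0 : ∀ j, j ≠ 3 → ∀ t, 0 < t → t ≤ 1 → ∀ y : ℤ, ∀ p,
    DF0 P j t p (fun x => if x = y then (((t ^ (P.θ * P.g j) : ℝ) : ℂ))⁻¹ else 0) ≤ 1 := by
  intro j hj t ht ht1 y p
  have hT0 : 0 < t ^ P.θ := Real.rpow_pos_of_pos ht _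
  have hT1 : t ^ P.θ ≤ 1 := Real.rpow_le_one ht.le ht1 h.θ0.le
  have hx : ((fun z => if z = y then (1 : ℂ) else 0, fun _ => (t ^ P.θ) ^ (P.g j)) : WA) ∈
      AFull0 P j t := by
    rw [full0_ne hj]
    exact Or.inl ⟨pt_US h.x0 h.f0 j hT0 hT1 y, rfl⟩
  have h1 := dec_one (p := p) (f := fun x => if x = y then (((t ^ (P.θ * P.g j) : ℝ) : ℂ))⁻¹ else 0)
    hx (c := (((t ^ (P.θ * P.g j) : ℝ) : ℂ))⁻¹) (fun z _ => by
      show (if z = y then _ else 0) = _ * (if z = y then (1 : ℂ) else 0)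
      split_ifs <;> simp)
  have h2 := gau_le ((wf_DF0 h).ws j t ht ht1) h1
  refine h2.trans (le_of_eq ?_)
  have hpos : 0 < t ^ (P.θ * P.g j) := Real.rpow_pos_of_pos ht _
  rw [norm_inv, Complex.norm_real, Real.norm_of_nonneg hpos.le]
  show (t ^ (P.θ * P.g j))⁻¹ * (t ^ P.θ) ^ (P.g j) = 1
  rw [← Real.rpow_mul ht.le]
  exact inv_mul_cancel₀ hpos.ne'

theorem frzBd_DF0 {k q3 : ℝ} (hk : 0 ≤ k) (hq3 : 2 ≤ q3) : TRecN.FrzBd (DF0 P) k q3 :=
  frzBd_WF (wf_DF0 h) hk hq3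

/-- **(B)**: frozen letters are mixtures of bounded atoms of polynomial mass -/
theorem repB_DF0 : ∃ A0 C0 : ℝ, 0 ≤ A0 ∧ 0 ≤ C0 ∧ ∀ j, j ≠ 3 → ∀ t, 0 < t →
    t ≤ 1 → ∀ p f M, DF0 P j t p f < M → RepB j p f (A0 * t ^ (-C0) * M) := repB_WF (wf_DF0 h)

end axioms

/-! ### levels -/

section level

variable {P : Prm} (h : Ok0 P) {j : Fin 4} (hj : j ≠ 3) {t : ℝ} (ht : 0 < t) (ht1 : t ≤ 1)
  {s : ℝ} (hs : 0 ≤ s) {p : Nd} {X : Fn} (hX : TRecN.Lv (DF0 P) j t s p X)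

include h hj ht ht1 hs hX

/-- level against a member -/
theorem lvM_DF0 {x : WA} (hx : x ∈ AF0 P j (t ^ P.θ)) :
    ‖∑ y ∈ iv p, X y * x.1 y‖ ≤ s * x.2 p * len p :=
  lv_WF (wf_DF0 h) ht ht1 hs hX (by rw [full0_ne hj]; exact hx)

/-- level against the op-atoms of helper276 (at the parameter `t ^ θ`) -/
theorem lvS_DF0 : LvS (P.g j) (P.x j) (P.f j) j (t ^ P.θ) s p X := by
  have hT : 0 < t ^ P.θ := Real.rpow_pos_of_pos ht _
  rintro φ ⟨i, e, e', n, hd, ψ, hψ, rfl⟩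
  have h1 := lvM_DF0 h hj ht ht1 hs hX
    (x := ((fun y => ((1 / (n : ℝ) ^ 2 : ℝ) : ℂ) * ψ y), fun _ => (t ^ P.θ) ^ (P.g j)))
    (Or.inl ⟨⟨i, e, e', n, hd, ψ, hψ, rfl⟩, rfl⟩)
  have h2 : ∑ y ∈ iv p, X y * (((((t ^ P.θ) ^ (-(P.g j)) / (n : ℝ) ^ 2 : ℝ)) : ℂ) * ψ y) =
      (((t ^ P.θ) ^ (-(P.g j)) : ℝ) : ℂ) *
        ∑ y ∈ iv p, X y * (((1 / (n : ℝ) ^ 2 : ℝ) : ℂ) * ψ y) := by
    rw [Finset.mul_sum]
    refine Finset.sum_congr rfl fun y _ => ?_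
    push_cast
    ring
  show ‖∑ y ∈ iv p, X y * (((((t ^ P.θ) ^ (-(P.g j)) / (n : ℝ) ^ 2 : ℝ)) : ℂ) * ψ y)‖ ≤ _
  rw [h2, norm_mul, Complex.norm_real, Real.norm_of_nonneg (Real.rpow_pos_of_pos hT _).le,
    Real.rpow_neg hT.le, inv_mul_le_iff₀ (Real.rpow_pos_of_pos hT _)]
  refine h1.trans (le_of_eq ?_)
  ring

/-- level against the cells of helper37 (at the parameter `t ^ θ`) -/
theorem lvC_DF0 : CellH237.LvC (P.gc j) (P.dc j) (P.Cc j) (t ^ P.θ) s p X :=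
  fun x hx => lvM_DF0 h hj ht ht1 hs hX (Or.inr hx)

/-- **(O)** operator level -/
theorem olev_DF0 {κ : ℕ} {A : ℝ} (hA : 0 ≤ A) (hav : av p X ≤ A) :
    OpLev.OLev κ j p X (128 * s * (t ^ P.θ) ^ (P.g j) + 24 * A * (t ^ P.θ) ^ (P.f j) +
      12 * A * (t ^ P.θ) ^ (P.x j)) :=
  olev_of_lvS (Real.rpow_pos_of_pos ht _) hs hA (lvS_DF0 h hj ht ht1 hs hX) hav

end level

/-! ### RULE (S) -/

theorem hBN_DF0 {P : Prm} (h : Ok0 P) : ∃ A C : ℝ, 0 ≤ A ∧ 0 ≤ C ∧ HBN (DF0 P) A C := by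
  obtain ⟨A0, C0, hA0, hC0, hm⟩ := repB_DF0 h
  refine ⟨A0 * 2, C0, by positivity, hC0, fun m hm3 t ht ht1 p f hf => ?_⟩
  have := hm m hm3 t ht ht1 p f 2 (lt_of_le_of_lt hf one_lt_two)
  refine this.mono (le_of_eq ?_)
  ring

theorem opLevelN_DF0 {P : Prm} (h : Ok0 P) {gm : ℝ} (h1 : ∀ j, j ≠ 3 → gm ≤ P.θ * P.g j)
    (h2 : ∀ j, j ≠ 3 → gm ≤ P.θ * P.f j) (h3 : ∀ j, j ≠ 3 → gm ≤ P.θ * P.x j) (κ : ℕ) :
    OpLevelN (DF0 P) κ 200 gm 1 := by
  intro m hm t ht ht1 p X hX hav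
  have h4 := olev_DF0 h hm ht ht1 zero_le_one hX (κ := κ) (A := 2) (by norm_num) hav
  have e1 : (t ^ P.θ) ^ (P.g m) ≤ t ^ gm := by
    rw [← Real.rpow_mul ht.le]
    exact Real.rpow_le_rpow_of_exponent_ge ht ht1 (h1 m hm)
  have e2 : (t ^ P.θ) ^ (P.f m) ≤ t ^ gm := by
    rw [← Real.rpow_mul ht.le]
    exact Real.rpow_le_rpow_of_exponent_ge ht ht1 (h2 m hm)
  have e3 : (t ^ P.θ) ^ (P.x m) ≤ t ^ gm := by
    rw [← Real.rpow_mul ht.le]
    exact Real.rpow_le_rpow_of_exponent_ge ht ht1 (h3 m hm)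
  refine h4.mono ?_
  linarith

/-- **RULE (S) for the final dictionary** -/
theorem ruleS_DF0 {P : Prm} (h : Ok0 P) {gm : ℝ} (hgm : 0 < gm)
    (h1 : ∀ j, j ≠ 3 → gm ≤ P.θ * P.g j) (h2 : ∀ j, j ≠ 3 → gm ≤ P.θ * P.f j)
    (h3 : ∀ j, j ≠ 3 → gm ≤ P.θ * P.x j) {q3 s1 : ℝ} (hq3 : 2 < q3) (hs1 : 0 < s1) :
    ∃ cS CS : ℝ, 0 < cS ∧ 0 ≤ CS ∧ ∀ k e : ℝ, 0 < k → 0 ≤ e → e ≤ 1 →
      ∃ t0 K : ℝ, 0 < t0 ∧ t0 ≤ 1 ∧ 0 ≤ K ∧ TRecN.RuleS (DF0 P) k q3 cS CS s1 e t0 K := by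
  obtain ⟨A, C, hA, hC, hB⟩ := hBN_DF0 h
  refine ⟨gS q3 gm s1, eC q3 C gm s1, gS_pos hq3 hgm hs1, eC_nonneg hq3 hC hgm hs1,
    fun k e hk he0 he => ?_⟩
  exact ruleSN_of hq3 hC hgm hs1 hk hA (by norm_num) one_pos le_rfl he0 he hB
    (opLevelN_DF0 h h1 h2 h3 13)

/-! ### the splitting of helper252 -/

/-- op-atoms of cost `1` -/
def OA0 (P : Prm) : TRec.Dict := fun j t =>
  {φ | ∃ ψ ∈ US P.x P.f j (t ^ P.θ), φ = fun y => (((t ^ P.θ) ^ (-(P.g j)) : ℝ) : ℂ) * ψ y}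

/-- cells -/
def CA0 (P : Prm) : T6bx252.CDict := fun j t => Cell37.Cel (P.gc j) (P.dc j) (P.Cc j) (t ^ P.θ)

/-- the op-atoms of cost `1` are those of helper276's family -/
theorem oA0_eq (P : Prm) (j : Fin 4) (t : ℝ) :
    OA0 P j t = OpS (P.g j) (P.x j) (P.f j) j (t ^ P.θ) := by
  ext φ
  constructor
  · rintro ⟨ψ, ⟨i, e, e', n, hd, χ, hχ, rfl⟩, rfl⟩
    refine ⟨i, e, e', n, hd, χ, hχ, ?_⟩
    funext y
    push_cast
    ring
  · rintro ⟨i, e, e', n, hd, χ, hχ, rfl⟩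
    refine ⟨_, ⟨i, e, e', n, hd, χ, hχ, rfl⟩, ?_⟩
    funext y
    push_cast
    ring

theorem spl_DF0 {P : Prm} (h : Ok0 P) :
    T6bx252.Spl (DF0 P) (OA0 P) (CA0 P) (fun j => P.θ * P.gc j) := by
  classical
  have hT0 : ∀ t : ℝ, 0 < t → 0 < t ^ P.θ := fun t ht => Real.rpow_pos_of_pos ht _
  refine ⟨?_, ?_, ?_, ?_⟩
  · intro j hj t ht ht1 p f hf
    have hS := (wf_DF0 h).ws j t ht ht1
    obtain ⟨M, ⟨n, x, c, h1, h2, rfl⟩, hM⟩ := exists_dec hS p f (one_pos (α := ℝ))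
    have hM2 : ∑ i, ‖c i‖ * (x i).2 p ≤ 2 := by
      have : gau (AFull0 P j t) p f ≤ 1 := hf
      linarith
    rw [full0_ne hj] at h1
    have hT : 0 < t ^ P.θ := hT0 t ht
    have hw : 0 < (t ^ P.θ) ^ (P.g j) := Real.rpow_pos_of_pos hT _
    -- the two kinds of indices
    set So : Finset (Fin n) := Finset.univ.filter fun i => x i ∈ PrF (US P.x P.f) P.g j (t ^ P.θ)
      with hSo
    have hc : ∀ i, i ∉ So → x i ∈ Cell37.Cel (P.gc j) (P.dc j) (P.Cc j) (t ^ P.θ) := by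
      intro i hi
      rcases h1 i with h3 | h3
      · exact absurd (show i ∈ So from Finset.mem_filter.2 ⟨Finset.mem_univ _, h3⟩) hi
      · exact h3
    have ho : ∀ i, i ∈ So → x i ∈ PrF (US P.x P.f) P.g j (t ^ P.θ) := fun i hi =>
      (Finset.mem_filter.1 hi).2
    set eo := So.equivFin with heo
    set ec := (Soᶜ).equivFin with hec
    refine ⟨So.card, (Soᶜ).card,
      fun i => fun y => (((t ^ P.θ) ^ (-(P.g j)) : ℝ) : ℂ) * (x (eo.symm i)).1 y,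
      fun i => c (eo.symm i) * (((t ^ P.θ) ^ (P.g j) : ℝ) : ℂ),
      fun i => x (ec.symm i), fun i => c (ec.symm i), ?_, ?_, ?_, ?_⟩
    · intro i
      exact ⟨_, (ho _ (eo.symm i).2).1, rfl⟩
    · intro i
      exact hc _ (Finset.mem_compl.1 (ec.symm i).2)
    · intro y hy
      rw [h2 y hy]
      have e1 : ∑ i : Fin So.card, c (eo.symm i) * (((t ^ P.θ) ^ (P.g j) : ℝ) : ℂ) *
          ((((t ^ P.θ) ^ (-(P.g j)) : ℝ) : ℂ) * (x (eo.symm i)).1 y) =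
          ∑ i ∈ So, c i * (x i).1 y := by
        rw [← Finset.sum_coe_sort So, ← Equiv.sum_comp eo.symm]
        refine Finset.sum_congr rfl fun i _ => ?_
        have e3 : (((t ^ P.θ) ^ (P.g j) : ℝ) : ℂ) * (((t ^ P.θ) ^ (-(P.g j)) : ℝ) : ℂ) = 1 := by
          rw [← Complex.ofReal_mul, ← Real.rpow_add hT]
          simp
        calc _ = (((t ^ P.θ) ^ (P.g j) : ℝ) : ℂ) * (((t ^ P.θ) ^ (-(P.g j)) : ℝ) : ℂ) *
              (c (eo.symm i) * (x (eo.symm i)).1 y) := by ring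
          _ = _ := by rw [e3, one_mul]
      have e2 : ∑ i : Fin (Soᶜ).card, c (ec.symm i) * (x (ec.symm i)).1 y =
          ∑ i ∈ Soᶜ, c i * (x i).1 y := by
        rw [← Finset.sum_coe_sort Soᶜ, ← Equiv.sum_comp ec.symm]
      rw [e1, e2, Finset.sum_add_sum_compl]
    · have e1 : ∑ i : Fin So.card, ‖c (eo.symm i) * (((t ^ P.θ) ^ (P.g j) : ℝ) : ℂ)‖ =
          ∑ i ∈ So, ‖c i‖ * (x i).2 p := by
        rw [← Finset.sum_coe_sort So, ← Equiv.sum_comp eo.symm]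
        refine Finset.sum_congr rfl fun i _ => ?_
        rw [norm_mul, Complex.norm_real, Real.norm_of_nonneg hw.le, (ho _ (eo.symm i).2).2]
      have e2 : ∑ i : Fin (Soᶜ).card, ‖c (ec.symm i)‖ * (x (ec.symm i)).2 p =
          ∑ i ∈ Soᶜ, ‖c i‖ * (x i).2 p := by
        rw [← Finset.sum_coe_sort Soᶜ, ← Equiv.sum_comp ec.symm]
      rw [e1, e2, Finset.sum_add_sum_compl]
      exact hM2
  · intro j t ht ht1 x hx q
    exact Cell37.cel_nonneg (hT0 t ht) hx q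
  · intro j t ht ht1 x hx m l
    exact Cell37.cel_super (hT0 t ht) hx m l
  · intro j t ht ht1 x hx q
    have h1 := Cell37.cel_av (hT0 t ht) hx q
    have h2 : 0 < (t ^ P.θ) ^ (P.gc j) := Real.rpow_pos_of_pos (hT0 t ht) _
    have h3 : t ^ (-(P.θ * P.gc j)) = ((t ^ P.θ) ^ (P.gc j))⁻¹ := by
      rw [Real.rpow_neg ht.le, Real.rpow_mul ht.le]
    rw [h3, inv_mul_eq_div, le_div_iff₀ h2]
    linarith

end Crest.Agent.R079.WS0112
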