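import Crest.Agent.R079.OpKg_276
import Crest.Agent.R079.NP_112
import Crest.Agent.R079.KLg_446
import Crest.Agent.R079.NG_112

-- ▼ part R079/OpKh_276
section

/-! R079 (helper276): the field `op` of `LeavesC (PF x C ρ c) q3 d` for `24 ≤ x`, from the kill lemma. -/

set_option autoImplicit false

namespace Crest.Agent.R079.OpK276

open Finset Crest.Agent.R079.Grid Crest.Agent.R079.Growth Crest.Agent.R079.QRed
  Crest.Agent.R079.T6bx252 Crest.Agent.R079.OpS276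
  Crest.Agent.R079.WS0112 Crest.Agent.R079.WS112 Crest.Agent.R079.NP112

/-- **the leaf `op` for the final parameters** -/
theorem op_PF {C0 C1 : ℝ} (hC0 : 0 ≤ C0) (hC1 : 1 ≤ C1) (hKN : KillN (Phi446 C0 C1))
    {x C ρ c : ℝ} (h : Adm4 x C ρ c) (hx : 24 ≤ x) {q3 : ℝ} (hq3 : 2 < q3) :
    ∀ i m : Fin 4, i < m → m ≠ 3 → ∃ d1 : ℝ, 0 < d1 ∧ ∀ δ, 0 < δ → δ ≤ d1 →
    ∃ c0 k1 : ℝ, 0 < c0 ∧ 0 < k1 ∧ ∀ k, 0 < k → k ≤ k1 → ∃ t0 K : ℝ, 0 < t0 ∧ 0 ≤ K ∧
      OpKill (DF0 (PF x C ρ c)) (OA0 (PF x C ρ c)) k q3 c0 1 (1 + δ) t0 K i m := by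
  intro i m him hm3
  have h5 : 0 ≤ Real.log C1 := Real.log_nonneg hC1
  refine op_leaf (C := C0 * (5 + Real.log C1)) (by positivity) zero_le_one (by norm_num)
    zero_le_one zero_le_two (killN_of_446 hC0 hC1 hKN) (ok_PF h) hq3 him hm3 ?_ ?_ ?_ ?_
  · exact one_pos
  · exact one_pos
  · show (1 : ℝ) ≤ min 1 1
    simp
  · show (1 : ℝ) + (2 * 1 + 6 * 1) * 1 + (2 * 1 + x + 6 * 1) * (1 / 3) +
      2 * min 1 1 * 2 < x * 1
    rw [min_self]
    linarith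

end Crest.Agent.R079.OpK276
end

-- ▼ part R079/OpKi_276

/-! R079 (helper276): **the leaf `op` is closed** (`OpF (PF x C ρ c) q3` for `24 ≤ x`), from helper446's kill
lemma. -/

set_option autoImplicit false

namespace Crest.Agent.R079.OpK276

open Finset Crest.Agent.R079.Grid Crest.Agent.R079.Growth Crest.Agent.R079.QRed
  Crest.Agent.R079.T6bx252 Crest.Agent.R079.OpS276
  Crest.Agent.R079.WS0112 Crest.Agent.R079.WS112 Crest.Agent.R079.NP112

/-- the kill lemma with the profile `Phi446` -/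
theorem killN_446 : ∃ C : ℝ, 0 ≤ C ∧ KillN (Phi446 C 5) := by
  obtain ⟨C, hC, h⟩ := KLx446.killN
  refine ⟨C, hC, h.mono fun s D Ht Hf H hs hs1 hD hD1 h1 h2 h3 => ?_⟩
  unfold Phi446
  have hHt3 : 0 < Ht ^ ((1 : ℝ) / 3) := Real.rpow_pos_of_pos (by linarith) _
  have a1 : H ^ 4 * Hf * Ht / s ^ 2 ≤ 5 * H ^ 4 * Hf * Ht / s ^ 2 := by
    refine div_le_div_of_nonneg_right ?_ (by positivity)
    have : 0 ≤ H ^ 4 * Hf * Ht := by positivity
    nlinarith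
  have a2 : 5 * H ^ 4 * Ht / D ≤ 5 * H ^ 4 * Hf * Ht / D := by
    refine div_le_div_of_nonneg_right ?_ hD.le
    have h4 : 0 ≤ 5 * H ^ 4 * Ht := by positivity
    calc 5 * H ^ 4 * Ht = 5 * H ^ 4 * Ht * 1 := by ring
      _ ≤ 5 * H ^ 4 * Ht * Hf := mul_le_mul_of_nonneg_left h2 h4
      _ = _ := by ring
  have b0 : 0 ≤ H ^ 4 * Hf * Ht / s ^ 2 := by positivity
  have b1 : 0 ≤ 5 * H ^ 4 * Ht / D := by positivity
  have c1 : Real.log (1 + H ^ 4 * Hf * Ht / s ^ 2) ≤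
      Real.log (1 + 5 * H ^ 4 * Hf * Ht / s ^ 2) := Real.log_le_log (by linarith) (by linarith)
  have c2 : Real.log (1 + 5 * H ^ 4 * Ht / D) ≤
      Real.log (1 + 5 * H ^ 4 * Hf * Ht / D) := Real.log_le_log (by linarith) (by linarith)
  have hZ : 0 ≤ Hf * D * Ht ^ ((1 : ℝ) / 3) / s ^ 2 := by positivity
  refine mul_le_mul_of_nonneg_left (add_le_add ?_ ?_) hC
  · exact mul_le_mul_of_nonneg_right (by linarith) hs.le
  · exact mul_le_mul_of_nonneg_right (by linarith) hZ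

/-- **THE LEAF `op`** for the final parameters, unconditional -/
theorem opF_PF {x C ρ c q3 : ℝ} (h : Adm4 x C ρ c) (hx : 24 ≤ x) (hq3 : 2 < q3) :
    OpF (PF x C ρ c) q3 := by
  obtain ⟨C0, hC0, hKN⟩ := killN_446
  exact op_PF hC0 (by norm_num) hKN h hx hq3

/-- the hypothesis `ho` of `target_of_three` -/
theorem ho_three {x C ρ c q3 : ℝ} (h : Adm4 x C ρ c) (hx : 40 ≤ x) (hq3 : 2 < q3) :
    OpF (PF x C ρ c) q3 := opF_PF h (by linarith) hq3

end Crest.Agent.R079.OpK276
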