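import Crest.Agent.R079.RelW_653

/-! R079, (R1) windows (helper653): `RelW_653` with a relaxed `zero` (static words may have a cost
`≤ c`), COUNT-FREE increments of the penalty along the glued exit minimisers, and the first
variation form at every node of a window. -/

set_option autoImplicit false

namespace Crest.Agent.R079.RelV653

open Finset Crest.Agent.R079.Grid Crest.Agent.R079.Growth Crest.Agent.R079.QRed
  Crest.Agent.R079.Qh249 Crest.Agent.R079.QVar181 Crest.Agent.R079.TWin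
open Crest.Agent.R079.RelW653 (vl NMP Jv Dv GdP av_par sum_av' lf_sum_eq')

/-- admissible penalty with walls, `Φ p 0 ≤ c` -/
structure PenC (c : ℝ) (K : Nd → Fn → Prop) (Φ : Nd → Fn → ℝ) : Prop where
  nonneg : ∀ p g, 0 ≤ Φ p g
  loc : ∀ p g g', (∀ y ∈ iv p, g y = g' y) → Φ p g = Φ p g'
  mid : ∀ p g g', Φ p (fun y => (g y + g' y) / 2) ≤ (Φ p g + Φ p g') / 2
  glue : ∀ (m : ℕ) (l : ℤ) (g : Fn), Φ (m + 1, l) g ≤ (Φ (m, 2 * l) g + Φ (m, 2 * l + 1) g) / 2
  zero : ∀ p, Φ p (fun _ => 0) ≤ c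
  Kloc : ∀ p g g', (∀ y ∈ iv p, g y = g' y) → K p g → K p g'
  Kmid : ∀ p g g', K p g → K p g' → K p (fun y => (g y + g' y) / 2)
  Kglue : ∀ (m : ℕ) (l : ℤ) (g : Fn), K (m, 2 * l) g → K (m, 2 * l + 1) g → K (m + 1, l) g
  Kzero : ∀ p, K p (fun _ => 0)


section facts

variable {c : ℝ} {K : Nd → Fn → Prop} {Φ : Nd → Fn → ℝ} {X : Fn} {η : ℝ} {f : Nd → Fn}

lemma vl_nonneg (hP : PenC c K Φ) (p : Nd) (g : Fn) : 0 ≤ vl Φ X p g :=
  add_nonneg (sq_nonneg _) (hP.nonneg p g)

lemma vl_loc (hP : PenC c K Φ) (p : Nd) {g g' : Fn} (h : ∀ y ∈ iv p, g y = g' y) :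
    vl Φ X p g = vl Φ X p g' := by
  unfold vl
  rw [hP.loc p g g' h, av_congr (p := p) (X := fun y => X y - g y) (Y := fun y => X y - g' y)
    fun y hy => by rw [h y hy]]

/-- the functional of fixed data grows under refinement -/
lemma vl_glue (hP : PenC c K Φ) (m : ℕ) (l : ℤ) (g : Fn) :
    vl Φ X (m + 1, l) g ≤ (vl Φ X (m, 2 * l) g + vl Φ X (m, 2 * l + 1) g) / 2 := by
  unfold vl
  rw [av_ch]
  have := hP.glue m l g
  linarith

/-- 1-strong convexity with a near-minimiser -/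
lemma cmpP (hP : PenC c K Φ) (h : NMP K Φ X η f) (p : Nd) {g : Fn} (hg : K p g) :
    Jv Φ X f p + (1 / 2) * av p (fun y => f p y - g y) ^ 2 ≤ vl Φ X p g + 2 * η := by
  have h1 := h.le p (fun y => (f p y + g y) / 2) (hP.Kmid p _ _ (h.mem p) hg)
  have h2 := av_par p X (f p) g
  have h3 := hP.mid p (f p) g
  unfold Jv
  unfold vl at h1 ⊢
  linarith

lemma Jv_nonneg (hP : PenC c K Φ) (p : Nd) : 0 ≤ Jv Φ X f p := vl_nonneg hP p _

lemma vl_zero (hP : PenC c K Φ) (p : Nd) : vl Φ X p (fun _ => 0) ≤ av p X ^ 2 + c := by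
  unfold vl
  have := hP.zero p
  simp only [sub_zero]
  linarith

lemma Jv_le (hP : PenC c K Φ) (h : NMP K Φ X η f) (p : Nd) :
    Jv Φ X f p ≤ av p X ^ 2 + c + η := by
  have h1 := h.le p (fun _ => 0) (hP.Kzero p)
  have h2 := vl_zero (X := X) hP p
  unfold Jv
  linarith



/-- size of the near-minimiser -/
lemma size_leP (hP : PenC c K Φ) (h : NMP K Φ X η f) (p : Nd) :
    av p (f p) ^ 2 ≤ 2 * av p X ^ 2 + 2 * c + 4 * η := by
  have h1 := cmpP hP h p (hP.Kzero p)
  have h2 := vl_zero (X := X) hP p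
  have h3 := Jv_nonneg (f := f) (X := X) hP p
  simp only [sub_zero] at h1
  linarith

/-- the glued function satisfies the walls at every node of the window -/
lemma Kgl (hP : PenC c K Φ) (h : NMP K Φ X η f) {W : Finset Nd} {I : Nd} (hW : Full W I) :
    ∀ p ∈ W, K p (gl W f) := by
  refine full_ind hW (fun p hp => ?_) fun m l hp hnl h0 h1 e0 e1 => hP.Kglue m l _ e0 e1
  exact hP.Kloc p (f p) _ (fun y hy => (gl_eq hW f hp hy).symm) (h.mem p)

/-- value of the glued function -/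
lemma vl_gl (hP : PenC c K Φ) {W : Finset Nd} {I : Nd} (hW : Full W I) :
    ∀ p ∈ W, len p * vl Φ X p (gl W f) ≤ SL W p (Jv Φ X f) := by
  refine full_ind hW (fun p hp => ?_) fun m l hp hnl h0 h1 e0 e1 => ?_
  · rw [SL_leaf hp, vl_loc hP p fun y hy => gl_eq hW f hp hy]
    exact le_refl _
  · rw [SL_node hW hnl h0 h1]
    have hg := vl_glue (X := X) hP m l (gl W f)
    have hl0 : len (m + 1, l) = 2 * len (m, 2 * l) := len_ch m l _
    have hl1 : len (m, 2 * l + 1) = len (m, 2 * l) := rfl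
    rw [hl1] at e1
    rw [hl0]
    have hpos := Growth.len_pos (m, 2 * l)
    have h2 := mul_le_mul_of_nonneg_left hg hpos.le
    linarith


/-- near-minimiser against the glued leaf data -/
lemma av_glP (hP : PenC c K Φ) (h : NMP K Φ X η f) {W : Finset Nd} {I : Nd} (hW : Full W I) {p : Nd}
    (hp : p ∈ W) :
    len p * (Jv Φ X f p + (1 / 2) * av p (fun y => f p y - gl W f y) ^ 2)
      ≤ SL W p (Jv Φ X f) + len p * (2 * η) := by
  have h1 := cmpP hP h p (Kgl hP h hW p hp)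
  have h2 := vl_gl (X := X) (f := f) hP hW p hp
  have h3 := mul_le_mul_of_nonneg_left h1 (Growth.len_pos p).le
  linarith

/-- deviation at the leaves -/
lemma dev_leP (hP : PenC c K Φ) (h : NMP K Φ X η f) {W : Finset Nd} {I : Nd} (hW : Full W I) {p : Nd}
    (hp : p ∈ W) :
    SL W p (fun L => (1 / 2) * av L (fun y => f p y - f L y) ^ 2)
      ≤ SL W p (Jv Φ X f) - len p * Jv Φ X f p + len p * (2 * η) := by
  have h1 := av_glP hP h hW hp
  have h2 : SL W p (fun L => av L (fun y => f p y - f L y) ^ 2)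
      = len p * av p (fun y => f p y - gl W f y) ^ 2 := by
    have := av_gl hW (fun L y => f p y - f L y) p hp
    rw [← this]
    rfl
  rw [SL_smul, h2]
  linarith

lemma Dv_nonneg (hP : PenC c K Φ) (h : NMP K Φ X η f) : ∀ q, 0 ≤ Dv (Jv Φ X f) η q
  | (0, _) => le_refl _
  | (m + 1, l) => by
    classical
    -- glue the two children
    set g : Fn := fun y => if y ∈ iv (m, 2 * l) then f (m, 2 * l) y else f (m, 2 * l + 1) y with hg
    have hg0 : ∀ y ∈ iv (m, 2 * l), f (m, 2 * l) y = g y := fun y hy => by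
      rw [hg]; simp only [if_pos hy]
    have hg1 : ∀ y ∈ iv (m, 2 * l + 1), f (m, 2 * l + 1) y = g y := fun y hy => by
      have : y ∉ iv (m, 2 * l) := fun h' => Finset.disjoint_left.1 (disj_ch m l) h' hy
      rw [hg]; simp only [if_neg this]
    have hK : K (m + 1, l) g := hP.Kglue m l g (hP.Kloc _ _ _ hg0 (h.mem _))
      (hP.Kloc _ _ _ hg1 (h.mem _))
    have h1 := h.le (m + 1, l) g hK
    have h2 := vl_glue (X := X) hP m l g
    rw [← vl_loc (X := X) hP (m, 2 * l) hg0, ← vl_loc (X := X) hP (m, 2 * l + 1) hg1] at h2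
    show 0 ≤ (Jv Φ X f (m, 2 * l) + Jv Φ X f (m, 2 * l + 1)) / 2 - Jv Φ X f (m + 1, l) + η
    unfold Jv
    linarith

/-- admissible window of fineness `δ` -/
def GdP (Φ : Nd → Fn → ℝ) (X : Fn) (η : ℝ) (f : Nd → Fn) (δ : ℝ) (W : Finset Nd) (I : Nd) :
    Prop :=
  ∀ p ∈ W, (1 / 2) * av p (fun y => f I y - f p y) ^ 2 + acc (Dv (Jv Φ X f) η) I p ≤ δ

/-- **top minimiser against the glued leaf minimisers, at EVERY node of the window** -/
theorem av_E_P {W : Finset Nd} {I : Nd} (hP : PenC c K Φ) (h : NMP K Φ X η f) (hW : Full W I)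
    {δ : ℝ} (hG : GdP Φ X η f δ W I) {p : Nd} (hp : p ∈ W) :
    av p (fun y => f I y - gl W f y) ^ 2 ≤ 2 * δ := by
  have hL := Growth.len_pos p
  have h2 : SL W p (fun L => av L (fun y => f I y - f L y) ^ 2)
      = len p * av p (fun y => f I y - gl W f y) ^ 2 := by
    have := av_gl hW (fun L y => f I y - f L y) p hp
    rw [← this]
    rfl
  have h3 : SL W p (fun L => av L (fun y => f I y - f L y) ^ 2) ≤ SL W p (fun _ => 2 * δ) := by
    refine SL_mono fun L hL' _ => ?_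
    have h4 := hG L (mem_lf.1 hL').1
    have h5 := acc_nonneg (Dv_nonneg hP h) I L
    linarith
  rw [h2, SL_const hW _ p hp] at h3
  exact le_of_mul_le_mul_left h3 hL

lemma acc_leP {W : Finset Nd} {I : Nd} (hP : PenC c K Φ) (h : NMP K Φ X η f) (hW : Full W I)
    {δ : ℝ} (hG : GdP Φ X η f δ W I) {p L : Nd} (hp : p ∈ W) (hL : L ∈ W) (hLp : iv L ⊆ iv p) :
    acc (Dv (Jv Φ X f) η) p L ≤ δ := by
  have h1 := hG L hL
  have h2 := acc_trans (Dv (Jv Φ X f) η) hLp (hW.reg.1 p hp)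
  have h3 := acc_nonneg (Dv_nonneg hP h) I p
  have h4 : 0 ≤ (1 / 2 : ℝ) * av L (fun y => f I y - f L y) ^ 2 := by positivity
  linarith

/-- **drift of the value below every node of the window** -/
theorem drift_P {W : Finset Nd} {I : Nd} (hP : PenC c K Φ) (h : NMP K Φ X η f) (hW : Full W I)
    {δ : ℝ} (hG : GdP Φ X η f δ W I) {p : Nd} (hp : p ∈ W) :
    SL W p (Jv Φ X f) ≤ len p * (Jv Φ X f p + δ) := by
  have h3 := le_SL_acc hW (Dv (Jv Φ X f) η) (fun q => -Jv Φ X f q) (fun m l => by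
    show _ ≤ (Jv Φ X f (m, 2 * l) + Jv Φ X f (m, 2 * l + 1)) / 2 - Jv Φ X f (m + 1, l) + η
    linarith [h.eta]) p hp
  rw [SL_add] at h3
  have h4 : SL W p (fun L => acc (Dv (Jv Φ X f) η) p L) ≤ SL W p (fun _ => δ) :=
    SL_mono fun L hL hLp => acc_leP hP h hW hG hp (mem_lf.1 hL).1 hLp
  rw [SL_const hW δ p hp] at h4
  have h5 : SL W p (fun L => -Jv Φ X f L) = -SL W p (Jv Φ X f) := by
    have := SL_smul W p (-1) (Jv Φ X f)
    simp only [neg_mul, one_mul] at this
    exact this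
  rw [h5] at h3
  linarith

/-- the glued function almost minimises at every node of the window -/
theorem vl_gl_le {W : Finset Nd} {I : Nd} (hP : PenC c K Φ) (h : NMP K Φ X η f) (hW : Full W I)
    {δ : ℝ} (hG : GdP Φ X η f δ W I) {p : Nd} (hp : p ∈ W) :
    vl Φ X p (gl W f) ≤ Jv Φ X f p + δ := by
  have h1 := vl_gl (X := X) (f := f) hP hW p hp
  have h2 := drift_P hP h hW hG hp
  exact le_of_mul_le_mul_left (h1.trans h2) (Growth.len_pos p)


end facts

/-! ### existence -/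

/-- near-minimisers exist -/
theorem exists_NMP {c : ℝ} {K : Nd → Fn → Prop} {Φ : Nd → Fn → ℝ} (hP : PenC c K Φ) (X : Fn) {η : ℝ}
    (hη : 0 < η) : ∃ f : Nd → Fn, NMP K Φ X η f := by
  have hex : ∀ p : Nd, ∃ g : Fn, K p g ∧ ∀ g', K p g' → vl Φ X p g ≤ vl Φ X p g' + η := by
    intro p
    let s : Set ℝ := {r | ∃ g, K p g ∧ vl Φ X p g = r}
    have hs0 : s.Nonempty := ⟨_, fun _ => 0, hP.Kzero p, rfl⟩
    have hsb : BddBelow s := ⟨0, by
      rintro r ⟨g, _, rfl⟩
      exact vl_nonneg hP p g⟩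
    obtain ⟨r, ⟨g, hg, rfl⟩, hr⟩ := Real.lt_sInf_add_pos hs0 hη
    refine ⟨g, hg, fun g' hg' => ?_⟩
    have := csInf_le hsb (⟨g', hg', rfl⟩ : vl Φ X p g' ∈ s)
    linarith
  choose f hf using hex
  exact ⟨f, hη.le, fun p => (hf p).1, fun p g hg => (hf p).2 g hg⟩






/-! ### increments along a full window -/

/-- increment at an interior node -/
noncomputable def Inc (F : Nd → ℝ) : Nd → ℝ
  | (0, _) => 0
  | (m + 1, l) => (F (m, 2 * l) + F (m, 2 * l + 1)) / 2 - F (m + 1, l)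

/-- sum over the interior nodes below `p` -/
noncomputable def SN (W : Finset Nd) (p : Nd) (F : Nd → ℝ) : ℝ :=
  open Classical in ∑ q ∈ (W \ lf W).filter (fun q => iv q ⊆ iv p), len q * F q

lemma sub_child {m : ℕ} {l : ℤ} {q : Nd} (h : iv q ⊆ iv (m + 1, l)) (hne : q ≠ (m + 1, l)) :
    iv q ⊆ iv (m, 2 * l) ∨ iv q ⊆ iv (m, 2 * l + 1) := by
  obtain ⟨j, hj⟩ := Qe292.iv_sub_iff.1 h
  have e1 : m + 1 = q.1 + j := congrArg Prod.fst hj
  have e2 : l = q.2 / 2 ^ j := congrArg Prod.snd hj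
  rcases j with _ | i
  · exfalso
    apply hne
    refine Prod.ext ?_ ?_
    · simp only at e1 ⊢; omega
    · simpa using e2.symm
  · have e3 : l = q.2 / 2 ^ i / 2 := by
      have h5 := L0e.ediv_pow_pow q.2 i 1
      rw [pow_one] at h5
      rw [e2, h5]
    have e4 : q.2 / 2 ^ i = 2 * l ∨ q.2 / 2 ^ i = 2 * l + 1 := by omega
    rcases e4 with e4 | e4
    · left
      exact Qe292.iv_sub_iff.2 ⟨i, Prod.ext (by simp only; omega) (by simp only; rw [e4])⟩
    · right
      exact Qe292.iv_sub_iff.2 ⟨i, Prod.ext (by simp only; omega) (by simp only; rw [e4])⟩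


lemma SN_leaf {W : Finset Nd} {p : Nd} (hp : p ∈ lf W) (F : Nd → ℝ) : SN W p F = 0 := by
  classical
  unfold SN
  refine Finset.sum_eq_zero fun q hq => ?_
  rw [Finset.mem_filter, Finset.mem_sdiff] at hq
  have h1 := (mem_lf.1 hp).2 q hq.1.1 hq.2
  rw [h1] at hq
  exact absurd hp hq.1.2

lemma SN_node {W : Finset Nd} {m : ℕ} {l : ℤ} (hp : (m + 1, l) ∈ W)
    (hnl : (m + 1, l) ∉ lf W) (F : Nd → ℝ) :
    SN W (m + 1, l) F = len (m + 1, l) * F (m + 1, l) + (SN W (m, 2 * l) F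
      + SN W (m, 2 * l + 1) F) := by
  classical
  unfold SN
  have e1 : (W \ lf W).filter (fun q => iv q ⊆ iv (m + 1, l))
      = insert (m + 1, l) ((W \ lf W).filter (fun q => iv q ⊆ iv (m, 2 * l)) ∪
        (W \ lf W).filter (fun q => iv q ⊆ iv (m, 2 * l + 1))) := by
    ext q
    simp only [Finset.mem_insert, Finset.mem_union, Finset.mem_filter, Finset.mem_sdiff]
    constructor
    · rintro ⟨hq, hs⟩
      by_cases hne : q = (m + 1, l)
      · exact Or.inl hne
      · rcases sub_child hs hne with h | h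
        · exact Or.inr (Or.inl ⟨hq, h⟩)
        · exact Or.inr (Or.inr ⟨hq, h⟩)
    · rintro (rfl | ⟨hq, hs⟩ | ⟨hq, hs⟩)
      · exact ⟨⟨hp, hnl⟩, subset_rfl⟩
      · exact ⟨hq, hs.trans (sub_ch0 m l)⟩
      · exact ⟨hq, hs.trans (sub_ch1 m l)⟩
  have hlen : ∀ l' : ℤ, ¬ iv (m + 1, l) ⊆ iv (m, l') := fun l' h => by
    have := Growth.iv_level h
    simp only at this
    omega
  rw [e1, Finset.sum_insert, Finset.sum_union]
  · rw [Finset.disjoint_left]
    intro L hL hL'
    rw [Finset.mem_filter] at hL hL'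
    obtain ⟨y, hy⟩ := iv_nonempty L
    exact Finset.disjoint_left.1 (disj_ch m l) (hL.2 hy) (hL'.2 hy)
  · rw [Finset.mem_union, Finset.mem_filter, Finset.mem_filter]
    rintro (⟨_, h⟩ | ⟨_, h⟩)
    · exact hlen _ h
    · exact hlen _ h


/-- telescoping -/
lemma SN_Inc {W : Finset Nd} {I : Nd} (hW : Full W I) (F : Nd → ℝ) :
    ∀ p ∈ W, SN W p (Inc F) = SL W p F - len p * F p := by
  refine full_ind hW (fun p hp => ?_) fun m l hp hnl h0 h1 e0 e1 => ?_
  · rw [SN_leaf hp, SL_leaf hp, sub_self]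
  · rw [SN_node hp hnl, SL_node hW hnl h0 h1, e0, e1]
    have hl0 : len (m + 1, l) = 2 * len (m, 2 * l) := len_ch m l _
    have hl1 : len (m, 2 * l + 1) = len (m, 2 * l) := rfl
    show len (m + 1, l) * ((F (m, 2 * l) + F (m, 2 * l + 1)) / 2 - F (m + 1, l)) + _ = _
    rw [hl1, hl0]
    ring

lemma SN_top {W : Finset Nd} {I : Nd} (hW : Full W I) (F : Nd → ℝ) :
    SN W I F = ∑ q ∈ W \ lf W, len q * F q := by
  classical
  unfold SN
  refine Finset.sum_congr ?_ fun _ _ => rfl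
  rw [Finset.filter_eq_self]
  exact fun q hq => hW.reg.1 q (Finset.mem_sdiff.1 hq).1


section incr

variable {c : ℝ} {K : Nd → Fn → Prop} {Φ : Nd → Fn → ℝ} {X : Fn} {η : ℝ} {f : Nd → Fn}

/-- **increments of the penalty along the glued exit minimiser are paid by the drift of the
value, at every node `p` of the window** -/
theorem incr_le (hP : PenC c K Φ) (h : NMP K Φ X η f) {W : Finset Nd} {I : Nd} (hW : Full W I)
    {p : Nd} (hp : p ∈ W) :
    SN W p (Inc fun q => Φ q (gl W f)) ≤ SL W p (Jv Φ X f) - len p * Jv Φ X f p + len p * η := by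
  rw [SN_Inc hW _ p hp]
  have h1 := h.le p (gl W f) (Kgl hP h hW p hp)
  have h2 : SL W p (fun q => vl Φ X q (gl W f)) = SL W p (Jv Φ X f) :=
    SL_congr fun L hL _ => (vl_loc hP L fun y hy => (gl_eq hW f hL hy).symm).symm
  have h3 : SL W p (fun q => vl Φ X q (gl W f))
      = SL W p (fun q => av q (fun y => X y - gl W f y) ^ 2) + SL W p (fun q => Φ q (gl W f)) :=
    SL_add W p _ _
  rw [SL_av hW (fun y => X y - gl W f y) p hp] at h3
  have h4 : vl Φ X p (gl W f) = av p (fun y => X y - gl W f y) ^ 2 + Φ p (gl W f) := rfl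
  have h5 := mul_le_mul_of_nonneg_left h1 (Growth.len_pos p).le
  rw [h4] at h5
  unfold Jv at h2 ⊢
  nlinarith [h5, h2, h3]

lemma len_lv {R : Finset Nd} {V : Nd} (hR : Full R V) :
    ∑ q ∈ R \ lf R, len q ≤ len V * V.1 := by
  have h1 : ∀ p ∈ R, SN R p (fun _ => 1) ≤ len p * p.1 := by
    refine full_ind hR (fun p hp => ?_) fun m l hp hnl h0 h1 e0 e1 => ?_
    · rw [SN_leaf hp]
      have := Growth.len_pos p
      positivity
    · rw [SN_node hp hnl]
      have hl0 : len (m + 1, l) = 2 * len (m, 2 * l) := len_ch m l _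
      have hl1 : len (m, 2 * l + 1) = len (m, 2 * l) := rfl
      rw [hl1] at e1
      rw [hl0]
      simp only at e0 e1 ⊢
      push_cast
      linarith
  have h2 := h1 V hR.top
  rw [SN_top hR] at h2
  simpa using h2




lemma inner_sub {R W : Finset Nd} (hWR : W ⊆ R) : W \ lf W ⊆ R \ lf R := by
  intro q hq
  rw [Finset.mem_sdiff] at hq ⊢
  refine ⟨hWR hq.1, fun h => hq.2 ?_⟩
  rw [mem_lf] at h ⊢
  exact ⟨hq.1, fun r hr hs => h.2 r (hWR hr) hs⟩





/-! ### first variation -/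

/-- upper quadratic model of `Φ p` at `g` with gradient `2 Ψ` and constant `M` in direction `h` -/
def FV (Φ : Nd → Fn → ℝ) (p : Nd) (g Ψ : Fn) (M : ℝ) (h : Fn) : Prop :=
  Φ p (fun y => g y + h y) ≤ Φ p g
    + 2 * (∑ y ∈ iv p, (starRingEnd ℂ (Ψ y) * h y).re) / len p + M * av p h ^ 2

/-- **the first variation at an almost minimiser**: `X - g - Ψ` is small -/
theorem el_node (h : NMP K Φ X η f) (p : Nd) {g Ψ : Fn} {M : ℝ} (hM : 0 ≤ M)
    (hF : FV Φ p g Ψ M (fun y => ((1 + M)⁻¹ : ℝ) * (X y - g y - Ψ y)))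
    (hK : K p (fun y => g y + ((1 + M)⁻¹ : ℝ) * (X y - g y - Ψ y))) :
    av p (fun y => X y - g y - Ψ y) ^ 2 ≤ (1 + M) * (vl Φ X p g - Jv Φ X f p + η) := by
  have hL := Growth.len_pos p
  set s : ℝ := (1 + M)⁻¹ with hs
  have hs0 : 0 < 1 + M := by linarith
  have hs1 : (1 + M) * s = 1 := mul_inv_cancel₀ hs0.ne'
  set e : Fn := fun y => X y - g y - Ψ y with he
  have h1 := h.le p _ hK
  unfold FV at hF
  have h2 : len p * av p (fun y => X y - (g y + (s : ℂ) * e y)) ^ 2
      = len p * av p (fun y => X y - g y) ^ 2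
        - 2 * s * ∑ y ∈ iv p, (starRingEnd ℂ (X y - g y) * e y).re
        + s ^ 2 * (len p * av p e ^ 2) := by
    rw [← sum_av', ← sum_av', ← sum_av', Finset.mul_sum, Finset.mul_sum,
      ← Finset.sum_sub_distrib, ← Finset.sum_add_distrib]
    refine Finset.sum_congr rfl fun y _ => ?_
    rw [show X y - (g y + (s : ℂ) * e y) = (X y - g y) - (s : ℂ) * e y by ring,
      ← Complex.normSq_eq_norm_sq, ← Complex.normSq_eq_norm_sq, ← Complex.normSq_eq_norm_sq]
    simp only [Complex.normSq_apply, Complex.mul_re, Complex.mul_im, Complex.conj_re,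
      Complex.conj_im, Complex.sub_re, Complex.sub_im, Complex.ofReal_re, Complex.ofReal_im]
    ring
  have h3 : av p (fun y => (s : ℂ) * e y) ^ 2 = s ^ 2 * av p e ^ 2 := by
    have : len p * av p (fun y => (s : ℂ) * e y) ^ 2 = len p * (s ^ 2 * av p e ^ 2) := by
      rw [← sum_av', mul_left_comm, ← sum_av', Finset.mul_sum]
      refine Finset.sum_congr rfl fun y _ => ?_
      rw [norm_mul, mul_pow, Complex.norm_real, Real.norm_eq_abs, sq_abs]
    exact mul_left_cancel₀ hL.ne' this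
  have h4 : ∑ y ∈ iv p, (starRingEnd ℂ (Ψ y) * ((s : ℂ) * e y)).re
      = s * ∑ y ∈ iv p, (starRingEnd ℂ (Ψ y) * e y).re := by
    rw [Finset.mul_sum]
    refine Finset.sum_congr rfl fun y _ => ?_
    simp only [Complex.mul_re, Complex.mul_im, Complex.conj_re, Complex.conj_im,
      Complex.ofReal_re, Complex.ofReal_im]
    ring
  have h5 : ∑ y ∈ iv p, (starRingEnd ℂ (X y - g y) * e y).re
      - ∑ y ∈ iv p, (starRingEnd ℂ (Ψ y) * e y).re = len p * av p e ^ 2 := by
    rw [← sum_av', ← Finset.sum_sub_distrib]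
    refine Finset.sum_congr rfl fun y _ => ?_
    rw [← Complex.normSq_eq_norm_sq]
    simp only [he, Complex.normSq_apply, Complex.mul_re, Complex.conj_re,
      Complex.conj_im, Complex.sub_re, Complex.sub_im]
    ring
  have hF' : len p * Φ p (fun y => g y + (s : ℂ) * e y) ≤ len p * Φ p g
      + 2 * (s * ∑ y ∈ iv p, (starRingEnd ℂ (Ψ y) * e y).re)
      + M * (s ^ 2 * (len p * av p e ^ 2)) := by
    have h6 := mul_le_mul_of_nonneg_left hF hL.le
    rw [h3, h4] at h6
    have h7 : len p * (2 * (s * ∑ y ∈ iv p, (starRingEnd ℂ (Ψ y) * e y).re) / len p)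
        = 2 * (s * ∑ y ∈ iv p, (starRingEnd ℂ (Ψ y) * e y).re) := by
      field_simp
    nlinarith [h6, h7]
  have h8 := mul_le_mul_of_nonneg_left h1 hL.le
  have h9 : len p * vl Φ X p (fun y => g y + (s : ℂ) * e y)
      ≤ len p * vl Φ X p g - s * (len p * av p e ^ 2) := by
    unfold vl
    rw [mul_add, h2, mul_add]
    have h10 : (1 + M) * s ^ 2 = s := by
      rw [pow_two, ← mul_assoc, hs1, one_mul]
    have h11 : (1 + M) * s ^ 2 * (len p * av p e ^ 2) = s * (len p * av p e ^ 2) := by rw [h10]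
    nlinarith [hF', h5, h11]
  have h12 : len p * (s * av p e ^ 2) ≤ len p * (vl Φ X p g - Jv Φ X f p + η) := by
    unfold Jv
    nlinarith [h8, h9]
  have h13 := le_of_mul_le_mul_left h12 hL
  have h14 := mul_le_mul_of_nonneg_left h13 hs0.le
  rwa [← mul_assoc, hs1, one_mul] at h14

/-- first variation along a good window, at EVERY node -/
theorem el_win (hP : PenC c K Φ) (h : NMP K Φ X η f) {W : Finset Nd} {I : Nd} (hW : Full W I)
    {δ : ℝ} (hG : GdP Φ X η f δ W I) {p : Nd} (hp : p ∈ W) {Ψ : Fn} {M : ℝ} (hM : 0 ≤ M)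
    (hF : FV Φ p (gl W f) Ψ M (fun y => ((1 + M)⁻¹ : ℝ) * (X y - gl W f y - Ψ y)))
    (hK : K p (fun y => gl W f y + ((1 + M)⁻¹ : ℝ) * (X y - gl W f y - Ψ y))) :
    av p (fun y => X y - gl W f y - Ψ y) ^ 2 ≤ (1 + M) * (δ + η) := by
  refine (el_node h p hM hF hK).trans (mul_le_mul_of_nonneg_left ?_ (by linarith))
  have := vl_gl_le hP h hW hG hp
  linarith

end incr




end Crest.Agent.R079.RelV653
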