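import Crest.Agent.R079.StkA_242
import Crest.Agent.R079.TS0_903
import Crest.Agent.R079.GnM_45
import Crest.Agent.R079.GAd_263
import Crest.Agent.R079.S2D_530

-- ▼ part R079/Tail_726
section

/-! R079, Step I (helper726): THE TAIL OF THE STACKS.

The words paid by MOVE cost `log (number of stacks)`, and the stack index `idx T w` of the tops of one
generation is only bounded by the depth of the region.  Here the generation is truncated: the tops of
index `n + 1` get the whole rest of the region as window, with the trivial splitting `X = X + 0`,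
`Y = Y + 0`; these windows are paid by the plain mass of the frozen letter.

* `tops_trunc`, `win_trunc`, `sum_last` (average count only), `sum_split`;
* `tail_v4` : the trivial bound of one window, from `BadN360.abs_qb`;
* `spM_trunc` : the truncated splitting. -/

set_option autoImplicit false

namespace Crest.Agent.R079.Tailx726

open Finset Crest.Agent.R079.Grid Crest.Agent.R079.Growth Crest.Agent.R079.QRed
open Crest.Agent.R079.TRec Crest.Agent.R079.AsmA844 Crest.Agent.R079.GenT934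
open Crest.Agent.R079.T6bx252 Crest.Agent.R079.BadN360 Crest.Agent.R079.Stk
open Crest.Agent.R079.TWin (sub_ch0 sub_ch1)
open Crest.Agent.R079.GnMx45 (en)

variable {R : Finset Nd} {J : Nd} {T : Finset Nd}

/-- the tops of stack index at most `n + 1` -/
noncomputable def trunc (T : Finset Nd) (n : ℕ) : Finset Nd := T.filter (fun w => idx T w ≤ n + 1)

lemma mem_trunc {n : ℕ} {w : Nd} : w ∈ trunc T n ↔ w ∈ T ∧ idx T w ≤ n + 1 := by
  unfold trunc
  rw [Finset.mem_filter]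

lemma idx_topT (hR : Full R J) (hT : Tops R J T) : idx T J = 1 := by
  classical
  unfold idx
  rw [Finset.card_eq_one]
  refine ⟨J, ?_⟩
  ext K
  rw [Finset.mem_filter, Finset.mem_singleton]
  constructor
  · rintro ⟨hK, h⟩
    exact iv_eq_of_level h (Growth.iv_level (hR.reg.1 K (hT.sub hK)))
  · rintro rfl
    exact ⟨hT.top, subset_rfl⟩

lemma idx_sibT (hT : Tops R J T) {m : ℕ} {l : ℤ} (hp : (m + 1, l) ∈ R) :
    idx T (m, 2 * l) = idx T (m, 2 * l + 1) := by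
  classical
  have hS := hT.sib m l hp
  rw [idx_child (S := T) (sub_ch0 m l) rfl, idx_child (S := T) (sub_ch1 m l) rfl]
  by_cases h : (m, 2 * l) ∈ T
  · rw [if_pos h, if_pos (hS.1 h)]
  · rw [if_neg h, if_neg (fun h' => h (hS.2 h'))]

theorem tops_trunc (hR : Full R J) (hT : Tops R J T) (n : ℕ) : Tops R J (trunc T n) := by
  refine ⟨fun w hw => hT.sub (mem_trunc.1 hw).1, mem_trunc.2 ⟨hT.top, ?_⟩, fun m l h => ?_⟩
  · rw [idx_topT hR hT]
    omega
  · rw [mem_trunc, mem_trunc, hT.sib m l h, idx_sibT hT h]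

/-- a top strictly inside `w` which contains `p` forces a top of index `idx w + 1` -/
lemma next_top {w p K : Nd} (hK : K ∈ T) (hpK : iv p ⊆ iv K) (hKw : iv K ⊆ iv w)
    (hne : K ≠ w) : ∃ K' ∈ T, iv p ⊆ iv K' ∧ iv K' ⊆ iv w ∧ K' ≠ w ∧ idx T K' = idx T w + 1 := by
  classical
  obtain ⟨K', hK', hmax⟩ := Finset.exists_max_image
    (T.filter (fun K => iv p ⊆ iv K ∧ iv K ⊆ iv w ∧ K ≠ w)) (fun K => K.1)
    ⟨K, Finset.mem_filter.2 ⟨hK, hpK, hKw, hne⟩⟩
  rw [Finset.mem_filter] at hK'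
  obtain ⟨hKT, h1, h2, h3⟩ := hK'
  refine ⟨K', hKT, h1, h2, h3, ?_⟩
  have hnot : K' ∉ T.filter (fun K => iv w ⊆ iv K) := by
    rw [Finset.mem_filter]
    rintro ⟨_, h⟩
    exact h3 (Qe292.iv_antisymm h2 h)
  unfold idx
  rw [← Finset.card_insert_of_notMem hnot]
  congr 1
  ext A
  rw [Finset.mem_filter, Finset.mem_insert, Finset.mem_filter]
  constructor
  · rintro ⟨hA, hKA⟩
    rcases Qe292.sub_total (hKA) h2 with h | h
    · by_cases hAw : A = w
      · right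
        exact ⟨hA, by rw [hAw]⟩
      · left
        have h4 := hmax A (Finset.mem_filter.2 ⟨hA, h1.trans hKA, h, hAw⟩)
        exact iv_eq_of_level hKA h4
    · exact Or.inr ⟨hA, h⟩
  · rintro (rfl | ⟨hA, hwA⟩)
    · exact ⟨hKT, subset_rfl⟩
    · exact ⟨hA, h2.trans hwA⟩

theorem wn_trunc {n : ℕ} {w p : Nd} (hw : w ∈ T) (hn : idx T w ≤ n) :
    Wn (trunc T n) w p ↔ Wn T w p := by
  constructor
  · rintro ⟨_, h1, h2⟩
    refine ⟨hw, h1, fun I' hI' hp => ?_⟩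
    by_contra hno
    have hsub : iv I' ⊆ iv w := by
      rcases Qe292.sub_total h1 hp with h | h
      · exact absurd h hno
      · exact h
    have hne : I' ≠ w := fun h => hno (by rw [h])
    obtain ⟨K', hK', h3, h4, h5, h6⟩ := next_top hI' hp hsub hne
    have h7 := h2 K' (mem_trunc.2 ⟨hK', by omega⟩) h3
    exact h5 (Qe292.iv_antisymm h4 h7)
  · rintro ⟨_, h1, h2⟩
    exact ⟨mem_trunc.2 ⟨hw, by omega⟩, h1, fun I' hI' hp => h2 I' (mem_trunc.1 hI').1 hp⟩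

theorem win_trunc {n : ℕ} {w : Nd} (hw : w ∈ T) (hn : idx T w ≤ n) :
    win R (trunc T n) w = win R T w := by
  ext p
  rw [mem_win, mem_win, wn_trunc hw hn]

/-- two nested tops of the same index are equal -/
lemma idx_inj {A B : Nd} (hA : A ∈ T) (hAB : iv A ⊆ iv B) (hi : idx T A = idx T B) :
    A = B := by
  classical
  by_contra hne
  have hsub : T.filter (fun K => iv B ⊆ iv K) ⊆ T.filter (fun K => iv A ⊆ iv K) := by
    intro K hK
    rw [Finset.mem_filter] at hK ⊢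
    exact ⟨hK.1, hAB.trans hK.2⟩
  have heq := Finset.eq_of_subset_of_card_le hsub (by unfold idx at hi; exact hi.le)
  have h1 : A ∈ T.filter (fun K => iv A ⊆ iv K) := Finset.mem_filter.2 ⟨hA, subset_rfl⟩
  rw [← heq, Finset.mem_filter] at h1
  exact hne (Qe292.iv_antisymm hAB h1.2)

/-- **the last tops are small**, by the average count -/
theorem sum_last (hR : Full R J) (hT : Tops R J T) (n : ℕ) :
    ((n : ℝ) + 1) * ∑ w ∈ T.filter (fun w => idx T w = n + 1), len w ≤ ∑ w ∈ T, len w := by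
  classical
  have hcard : ∀ (S : Finset Nd), S ⊆ T → ∑ K ∈ S, len K =
      ∑ y ∈ iv J, (((S.filter (fun K => y ∈ iv K)).card : ℕ) : ℝ) := by
    intro S hS
    have e : ∀ K ∈ S, len K = ∑ y ∈ iv J, (if y ∈ iv K then (1 : ℝ) else 0) := by
      intro K hK
      have hs : iv K ⊆ iv J := hR.reg.1 K (hT.sub (hS hK))
      have hi : iv J ∩ iv K = iv K := Finset.inter_eq_right.2 hs
      rw [Finset.sum_ite_mem, hi, Finset.sum_const, nsmul_eq_mul, mul_one, Growth.card_iv]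
    rw [Finset.sum_congr rfl e, Finset.sum_comm]
    refine Finset.sum_congr rfl fun y _ => ?_
    rw [Finset.sum_boole]
  rw [hcard _ (Finset.filter_subset _ _), hcard T subset_rfl, Finset.mul_sum]
  refine Finset.sum_le_sum fun y _ => ?_
  set S := T.filter (fun w => idx T w = n + 1) with hS
  by_cases h : (S.filter (fun K => y ∈ iv K)).Nonempty
  · obtain ⟨A, hA⟩ := h
    rw [Finset.mem_filter, hS, Finset.mem_filter] at hA
    have h1 : S.filter (fun K => y ∈ iv K) ⊆ {A} := by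
      intro B hB
      rw [Finset.mem_filter, hS, Finset.mem_filter] at hB
      rw [Finset.mem_singleton]
      rcases iv_nest hB.2 hA.2 with h2 | h2
      · exact idx_inj hB.1.1 h2 (by rw [hB.1.2, hA.1.2])
      · exact (idx_inj hA.1.1 h2 (by rw [hB.1.2, hA.1.2])).symm
    have h2 : ((S.filter (fun K => y ∈ iv K)).card : ℝ) ≤ 1 := by
      have := Finset.card_le_card h1
      rw [Finset.card_singleton] at this
      exact_mod_cast this
    have h3 : (n : ℝ) + 1 ≤ ((T.filter (fun K => y ∈ iv K)).card : ℝ) := by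
      have h4 : idx T A ≤ (T.filter (fun K => y ∈ iv K)).card := by
        unfold idx
        refine Finset.card_le_card fun K hK => ?_
        rw [Finset.mem_filter] at hK ⊢
        exact ⟨hK.1, hK.2 hA.2⟩
      rw [hA.1.2] at h4
      exact_mod_cast h4
    have h5 : (0 : ℝ) ≤ (n : ℝ) + 1 := by positivity
    calc ((n : ℝ) + 1) * ((S.filter (fun K => y ∈ iv K)).card : ℝ) ≤ ((n : ℝ) + 1) * 1 :=
          mul_le_mul_of_nonneg_left h2 h5
      _ ≤ _ := by linarith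
  · rw [Finset.not_nonempty_iff_eq_empty] at h
    rw [h]
    simp

/-- sum over the truncated tops -/
theorem sum_split {β : Type*} [AddCommMonoid β] (n : ℕ) (f : Nd → β) :
    ∑ w ∈ trunc T n, f w =
      ∑ w ∈ T.filter (fun w => idx T w ≤ n), f w +
        ∑ w ∈ T.filter (fun w => idx T w = n + 1), f w := by
  classical
  have e : trunc T n = T.filter (fun w => idx T w ≤ n) ∪ T.filter (fun w => idx T w = n + 1) := by
    ext w
    rw [mem_trunc, Finset.mem_union, Finset.mem_filter, Finset.mem_filter, ← and_or_left]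
    refine and_congr_right fun _ => ?_
    omega
  rw [e, Finset.sum_union]
  rw [Finset.disjoint_left]
  intro w h1 h2
  rw [Finset.mem_filter] at h1 h2
  omega

/-! ### stacks in the language of `Tops` -/



/-- the windows of a `Part` are the windows of its tops -/
theorem win_of_part {W : Nd → Finset Nd} {C : ℝ} (hP : TWin.Part R T W C) {K : Nd}
    (hK : K ∈ T) : win R T K = W K := by
  have key : ∀ {K p : Nd}, K ∈ T → p ∈ W K → Wn T K p := by
    intro K p hK hp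
    refine ⟨hK, (hP.full K hK).reg.1 p hp, fun I' hI' h => ?_⟩
    rcases Qe292.sub_total ((hP.full K hK).reg.1 p hp) h with h1 | h1
    · exact h1
    · have h2 := up_mem hP hK hp h h1
      rw [win_eq hP hK hI' h2 (hP.full I' hI').top]
  ext p
  rw [mem_win]
  constructor
  · rintro ⟨hp, hw⟩
    obtain ⟨K', hK', hp'⟩ := hP.cover p hp
    rw [hw.unique (key hK' hp')]
    exact hp'
  · exact fun hp => ⟨hP.wsub K hK hp, key hK hp⟩

/-! ### the trivial bound of one window -/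



/-! ### the truncated splitting -/

open Classical in
/-- the letter of the truncated splitting: `A w` on the tops of index `≤ n`, `B` on the last ones -/
noncomputable def tl (T : Finset Nd) (n : ℕ) (A : Nd → Fn) (B : Fn) (w : Nd) : Fn :=
  if idx T w ≤ n then A w else B

lemma tl_le {n : ℕ} {A : Nd → Fn} {B : Fn} {w : Nd} (h : idx T w ≤ n) : tl T n A B w = A w := by
  unfold tl
  rw [if_pos h]

lemma tl_gt {n : ℕ} {A : Nd → Fn} {B : Fn} {w : Nd} (h : ¬ idx T w ≤ n) : tl T n A B w = B := by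
  unfold tl
  rw [if_neg h]

/-- the last windows, summed -/
lemma last_sum (hR : Full R J) (hT : Tops R J T) (n : ℕ) {M : ℝ} (hM0 : 0 ≤ M) {f : Nd → ℂ}
    (hM : ∀ W I, Full W I → W ⊆ R → ‖∑ p ∈ W, f p‖ ≤ M * len I) :
    ‖∑ w ∈ T.filter (fun w => idx T w = n + 1), ∑ p ∈ win R (trunc T n) w, f p‖ ≤
      M * ((∑ w ∈ T, len w) / (n + 1)) := by
  have hT' := tops_trunc hR hT n
  have h1 : ‖∑ w ∈ T.filter (fun w => idx T w = n + 1), ∑ p ∈ win R (trunc T n) w, f p‖ ≤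
      ∑ w ∈ T.filter (fun w => idx T w = n + 1), M * len w := by
    refine (norm_sum_le _ _).trans (Finset.sum_le_sum fun w hw => ?_)
    rw [Finset.mem_filter] at hw
    exact hM _ w (win_full hR hT' (mem_trunc.2 ⟨hw.1, hw.2.le⟩)) win_sub
  refine h1.trans ?_
  rw [← Finset.mul_sum]
  refine mul_le_mul_of_nonneg_left ?_ hM0
  have h2 := sum_last hR hT n
  have hn : (0 : ℝ) < (n : ℝ) + 1 := by positivity
  rw [le_div_iff₀ hn, mul_comm]
  exact h2

/-- a word of the truncated splitting -/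
lemma word_trunc (hR : Full R J) (hT : Tops R J T) (n : ℕ) {M : ℝ} (hM0 : 0 ≤ M)
    (g : Nd → Nd → ℂ) {f : Nd → ℂ} (hM : ∀ W I, Full W I → W ⊆ R → ‖∑ p ∈ W, f p‖ ≤ M * len I)
    (h : Nd → Nd → ℂ) (hle : ∀ w, idx T w ≤ n → ∀ p, h w p = g w p)
    (hgt : ∀ w, ¬ idx T w ≤ n → ∀ p, h w p = f p) :
    ‖∑ w ∈ trunc T n, ∑ p ∈ win R (trunc T n) w, h w p‖ ≤
      ‖∑ w ∈ T.filter (fun w => idx T w ≤ n), ∑ p ∈ win R T w, g w p‖ +
        M * ((∑ w ∈ T, len w) / (n + 1)) := by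
  rw [sum_split]
  refine (norm_add_le _ _).trans (add_le_add (le_of_eq ?_) ?_)
  · congr 1
    refine Finset.sum_congr rfl fun w hw => ?_
    rw [Finset.mem_filter] at hw
    rw [win_trunc hw.1 hw.2]
    exact Finset.sum_congr rfl fun p _ => hle w hw.2 p
  · refine le_trans (le_of_eq ?_) (last_sum hR hT n hM0 hM)
    congr 1
    refine Finset.sum_congr rfl fun w hw => Finset.sum_congr rfl fun p _ => ?_
    rw [Finset.mem_filter] at hw
    exact hgt w (by omega) p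

/-- **THE TRUNCATED SPLITTING**: data only on the windows of index `≤ n` -/
theorem split_trunc {v : Fn → Fn → Nd → ℂ} (hR : Full R J) (hT : Tops R J T) (n : ℕ) {X Y : Fn}
    {G E G' E' : Nd → Fn} {r0 M : ℝ} (hr0 : 0 ≤ r0) (hM0 : 0 ≤ M)
    (hX : ∀ w ∈ T, idx T w ≤ n → ∀ y ∈ iv w, X y = G w y + E w y)
    (hY : ∀ w ∈ T, idx T w ≤ n → ∀ y ∈ iv w, Y y = G' w y + E' w y)
    (hs : ∀ w ∈ T, idx T w ≤ n → ∀ p ∈ win R T w, av p (E w) ≤ r0 ∧ av p (E' w) ≤ r0)
    (hM : ∀ W I, Full W I → W ⊆ R → ‖∑ p ∈ W, v X Y p‖ ≤ M * len I) :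
    ∃ (T1 : Finset Nd) (G1 E1 G1' E1' : Nd → Fn), Tops R J T1 ∧ T1 ⊆ T ∧
      (∀ w ∈ T1, ∀ y ∈ iv w, X y = G1 w y + E1 w y) ∧
      (∀ w ∈ T1, ∀ y ∈ iv w, Y y = G1' w y + E1' w y) ∧
      (∀ w ∈ T1, ∀ p ∈ win R T1 w, av p (E1 w) ≤ r0 ∧ av p (E1' w) ≤ r0) ∧
      ∑ w ∈ T1, len w * en w (E1 w) (E1' w) ≤
        ∑ w ∈ T.filter (fun w => idx T w ≤ n), len w * en w (E w) (E' w) ∧
      ‖∑ w ∈ T1, ∑ p ∈ win R T1 w, v (G1 w) Y p‖ ≤
        ‖∑ w ∈ T.filter (fun w => idx T w ≤ n), ∑ p ∈ win R T w, v (G w) Y p‖ +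
          M * ((∑ w ∈ T, len w) / (n + 1)) ∧
      ‖∑ w ∈ T1, ∑ p ∈ win R T1 w, v X (G1' w) p‖ ≤
        ‖∑ w ∈ T.filter (fun w => idx T w ≤ n), ∑ p ∈ win R T w, v X (G' w) p‖ +
          M * ((∑ w ∈ T, len w) / (n + 1)) ∧
      ‖∑ w ∈ T1, ∑ p ∈ win R T1 w, v (G1 w) (G1' w) p‖ ≤
        ‖∑ w ∈ T.filter (fun w => idx T w ≤ n), ∑ p ∈ win R T w, v (G w) (G' w) p‖ +
          M * ((∑ w ∈ T, len w) / (n + 1)) := by
  classical
  have av0 : ∀ p, av p (fun _ : ℤ => (0 : ℂ)) = 0 := by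
    intro p
    unfold av av2
    simp
  refine ⟨trunc T n, tl T n G X, tl T n E (fun _ => 0), tl T n G' Y, tl T n E' (fun _ => 0),
    tops_trunc hR hT n, fun w hw => (mem_trunc.1 hw).1, ?_, ?_, ?_, ?_, ?_, ?_, ?_⟩
  · intro w hw y hy
    by_cases h : idx T w ≤ n
    · rw [tl_le h, tl_le h]
      exact hX w (mem_trunc.1 hw).1 h y hy
    · rw [tl_gt h, tl_gt h, add_zero]
  · intro w hw y hy
    by_cases h : idx T w ≤ n
    · rw [tl_le h, tl_le h]
      exact hY w (mem_trunc.1 hw).1 h y hy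
    · rw [tl_gt h, tl_gt h, add_zero]
  · intro w hw p hp
    by_cases h : idx T w ≤ n
    · rw [tl_le h, tl_le h]
      rw [win_trunc (mem_trunc.1 hw).1 h] at hp
      exact hs w (mem_trunc.1 hw).1 h p hp
    · rw [tl_gt h, tl_gt h, av0]
      exact ⟨hr0, hr0⟩
  · rw [sum_split]
    have h1 : ∑ w ∈ T.filter (fun w => idx T w = n + 1),
        len w * en w (tl T n E (fun _ => 0) w) (tl T n E' (fun _ => 0) w) = 0 := by
      refine Finset.sum_eq_zero fun w hw => ?_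
      rw [Finset.mem_filter] at hw
      have h : ¬ idx T w ≤ n := by omega
      unfold en
      rw [tl_gt h, tl_gt h, av0]
      simp
    rw [h1, add_zero]
    refine le_of_eq (Finset.sum_congr rfl fun w hw => ?_)
    rw [Finset.mem_filter] at hw
    rw [tl_le hw.2, tl_le hw.2]
  · exact word_trunc hR hT n hM0 (fun w p => v (G w) Y p) hM
      (fun w p => v (tl T n G X w) Y p) (fun w h p => by simp only [tl_le h])
      (fun w h p => by simp only [tl_gt h])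
  · exact word_trunc hR hT n hM0 (fun w p => v X (G' w) p) hM
      (fun w p => v X (tl T n G' Y w) p) (fun w h p => by simp only [tl_le h])
      (fun w h p => by simp only [tl_gt h])
  · exact word_trunc hR hT n hM0 (fun w p => v (G w) (G' w) p) hM
      (fun w p => v (tl T n G X w) (tl T n G' Y w) p) (fun w h p => by simp only [tl_le h])
      (fun w h p => by simp only [tl_gt h])

end Crest.Agent.R079.Tailx726
end

-- ▼ part R079/GnS_263

/-! R079, Step I (helper263): ONE GENERATION, bookkeeping between the tree lemma and `GnM_45.SpM`.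

Letters `Z 0 = X`, `Z 1 = Y` with near-minimisers `f c`, label ranges `Rg K` (deep exits, frames), windows
`W K` (actual exits), frame letters `Psi c K`, error letters `err c K = Z c - gl (Rg K) (f c) - Psi c K`.
`G c K = gl (W K) (f c) + Psi c K`, `E c K = Z c - G c K = err c K + (gl (Rg K) (f c) - gl (W K) (f c))`.

* `TreeO` : output of the tree lemma (HW_323 / HN_255);
* **`spM_data`** : tree output + error letters + word totals over the windows of index `≤ n` give the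
  data of `SpM` for one region. -/

set_option autoImplicit false

namespace Crest.Agent.R079.GnSx263

open Finset Crest.Agent.R079.Grid Crest.Agent.R079.Growth Crest.Agent.R079.QRed
  Crest.Agent.R079.TWin
open Crest.Agent.R079.RelW653 (vl NMP Jv Dv)
open Crest.Agent.R079.RelV653 Crest.Agent.R079.HWx323 Crest.Agent.R079.Chn110
open Crest.Agent.R079.TRec Crest.Agent.R079.Tailx726 Crest.Agent.R079.Stk Crest.Agent.R079.AsmA844
open Crest.Agent.R079.GnMx45 (en en_nonneg)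
open Crest.Agent.R079.FLDx263

/-- output of the tree lemma -/
structure TreeO (R : Finset Nd) (J : Nd) (D : Nd → ℝ) (dev : Nd → Nd → ℝ) (μ ω Ct : ℝ)
    (S : Finset Nd) (W Rg : Nd → Finset Nd) (dlt : Nd → ℝ) (Er : Nd → Nd → ℝ) : Prop where
  part : ∃ C, Part R S W C
  full : ∀ K ∈ S, Full (Rg K) K
  sub : ∀ K ∈ S, W K ⊆ Rg K
  good : ∀ K ∈ S, ∀ p ∈ Rg K, gs D dev K p ≤ μ
  err : ∀ K ∈ S, ∀ p ∈ W K, Er K p ≤ ω * μ
  cnt : ∑ K ∈ S, len K ≤ Ct * (len J / μ + dr R D J / μ ^ 2)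
  ene : ∑ K ∈ S, (∑ q ∈ Rg K \ lf (Rg K), len q * D q + μ * dlt K) ≤
    Ct * (dr R D J + μ * len J)

section

variable {R : Finset Nd} {J : Nd} {c : Fin 2 → ℝ} {Kw : Fin 2 → Nd → Fn → Prop}
  {Φ : Fin 2 → Nd → Fn → ℝ} {Z : Fin 2 → Fn} {η : ℝ} {f : Fin 2 → Nd → Fn}
  {μ ω Ct Λ : ℝ} {S : Finset Nd} {W Rg : Nd → Finset Nd} {dlt : Nd → ℝ} {Er : Nd → Nd → ℝ}
  {Psi : Fin 2 → Nd → Fn}

/-- the killed letter of the window -/
noncomputable def Gk (f : Fin 2 → Nd → Fn) (W : Nd → Finset Nd) (Psi : Fin 2 → Nd → Fn)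
    (c : Fin 2) (K : Nd) : Fn := fun y => gl (W K) (f c) y + Psi c K y

/-- the rest -/
noncomputable def Ek (Z : Fin 2 → Fn) (f : Fin 2 → Nd → Fn) (W : Nd → Finset Nd)
    (Psi : Fin 2 → Nd → Fn) (c : Fin 2) (K : Nd) : Fn := fun y => Z c y - Gk f W Psi c K y

/-- error letter of the frames -/
noncomputable def ek (Z : Fin 2 → Fn) (f : Fin 2 → Nd → Fn) (Rg : Nd → Finset Nd)
    (Psi : Fin 2 → Nd → Fn) (c : Fin 2) (K : Nd) : Fn :=
  fun y => Z c y - gl (Rg K) (f c) y - Psi c K y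

lemma Ek_two (Z : Fin 2 → Fn) (f : Fin 2 → Nd → Fn) (W Rg : Nd → Finset Nd)
    (Psi : Fin 2 → Nd → Fn) (c : Fin 2) (K p : Nd) :
    av p (Ek Z f W Psi c K) ^ 2 ≤ 2 * av p (ek Z f Rg Psi c K) ^ 2 +
      2 * av p (fun y => gl (W K) (f c) y - gl (Rg K) (f c) y) ^ 2 := by
  have h := av_two p (fun y => Z c y - Psi c K y) (gl (W K) (f c)) (gl (Rg K) (f c))
  have e1 : av p (fun y => (Z c y - Psi c K y) - gl (W K) (f c) y) = av p (Ek Z f W Psi c K) := by
    congr 1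
    funext y
    unfold Ek Gk
    ring
  have e2 : av p (fun y => gl (Rg K) (f c) y - (Z c y - Psi c K y)) =
      av p (ek Z f Rg Psi c K) := by
    have e3 : (fun y => gl (Rg K) (f c) y - (Z c y - Psi c K y)) =
        fun y => -(ek Z f Rg Psi c K y) := by
      funext y
      unfold ek
      ring
    rw [e3]
    unfold av av2
    simp only [norm_neg]
  have e4 : av p (fun y => gl (Rg K) (f c) y - gl (W K) (f c) y) =
      av p (fun y => gl (W K) (f c) y - gl (Rg K) (f c) y) := by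
    unfold av av2
    simp only [norm_sub_rev]
  rw [e1, e2, e4] at h
  exact h

/-- **THE DATA OF `SpM` for one region** -/
theorem spM_data {v : Fn → Fn → Nd → ℂ} (hR : Full R J)
    (hP : ∀ c', PenC (c c') (Kw c') (Φ c')) (hf : ∀ c', NMP (Kw c') (Φ c') (Z c') η (f c'))
    (hT : TreeO R J (DF Φ Z f η) (dvF f) μ ω Ct S W Rg dlt Er)
    (hμ : 0 < μ) (hμ1 : μ ≤ 1) (hCt : 0 ≤ Ct) (hΛ : 0 ≤ Λ)
    (hEr : ∀ K ∈ S, ∀ p ∈ W K, ∑ c', av p (ek Z f Rg Psi c' K) ^ 2 ≤ Er K p)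
    {η' : ℝ} (hη' : 0 ≤ η') (hη3 : η' ≤ μ ^ 3)
    (htop : ∀ K ∈ S, len K * Er K K ≤
      Λ * (∑ q ∈ Rg K \ lf (Rg K), len q * DF Φ Z f η q + μ * dlt K + η' * len K))
    (hdlt : ∀ K ∈ S, 0 ≤ dlt K)
    (hdr : dr R (DF Φ Z f η) J ≤ (μ + en J (Z 0) (Z 1)) * len J)
    {n : ℕ} {κ1 M : ℝ} (hM0 : 0 ≤ M)
    (hM : ∀ W I, Full W I → W ⊆ R → ‖∑ p ∈ W, v (Z 0) (Z 1) p‖ ≤ M * len I)
    (w1 : ‖∑ w ∈ S.filter (fun w => idx S w ≤ n), ∑ p ∈ W w, v (Gk f W Psi 0 w) (Z 1) p‖ ≤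
      κ1 * (μ + en J (Z 0) (Z 1)) * len J)
    (w2 : ‖∑ w ∈ S.filter (fun w => idx S w ≤ n), ∑ p ∈ W w, v (Z 0) (Gk f W Psi 1 w) p‖ ≤
      κ1 * (μ + en J (Z 0) (Z 1)) * len J)
    (w3 : ‖∑ w ∈ S.filter (fun w => idx S w ≤ n), ∑ p ∈ W w,
      v (Gk f W Psi 0 w) (Gk f W Psi 1 w) p‖ ≤ κ1 * (μ + en J (Z 0) (Z 1)) * len J) :
    ∃ (T : Finset Nd) (G E G' E' : Nd → Fn), Tops R J T ∧
      (∀ w ∈ T, ∀ y ∈ iv w, Z 0 y = G w y + E w y) ∧
      (∀ w ∈ T, ∀ y ∈ iv w, Z 1 y = G' w y + E' w y) ∧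
      (∀ w ∈ T, ∀ p ∈ win R T w, av p (E w) ≤ √((2 * ω + 16) * μ) ∧
        av p (E' w) ≤ √((2 * ω + 16) * μ)) ∧
      ∑ w ∈ T, len w ≤ (2 * Ct / μ + Ct / μ ^ 2 * en J (Z 0) (Z 1)) * len J ∧
      ∑ w ∈ T, len w * en w (E w) (E' w) ≤
        (Ct * (8 * Λ + 32)) * (μ + en J (Z 0) (Z 1)) * len J ∧
      ‖∑ w ∈ T, ∑ p ∈ win R T w, v (G w) (Z 1) p‖ ≤
        (κ1 + 2 * M * Ct / (μ ^ 2 * (n + 1))) * (μ + en J (Z 0) (Z 1)) * len J ∧
      ‖∑ w ∈ T, ∑ p ∈ win R T w, v (Z 0) (G' w) p‖ ≤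
        (κ1 + 2 * M * Ct / (μ ^ 2 * (n + 1))) * (μ + en J (Z 0) (Z 1)) * len J ∧
      ‖∑ w ∈ T, ∑ p ∈ win R T w, v (G w) (G' w) p‖ ≤
        (κ1 + 2 * M * Ct / (μ ^ 2 * (n + 1))) * (μ + en J (Z 0) (Z 1)) * len J := by
  classical
  obtain ⟨C, hPt⟩ := hT.part
  have hTo : Tops R J S := Crest.Agent.R079.WinA222.tops_of_part hR hPt
  have hlJ : 0 ≤ len J := (Growth.len_pos J).le
  set e0 : ℝ := en J (Z 0) (Z 1) with he0
  have hen : 0 ≤ e0 := en_nonneg _ _ _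
  have hD0 : ∀ q, 0 ≤ DF Φ Z f η q := DF_nonneg hP hf
  set rK : Nd → ℝ := fun K => ∑ q ∈ Rg K \ lf (Rg K), len q * DF Φ Z f η q with hrK
  have hrK0 : ∀ K, 0 ≤ rK K := fun K =>
    Finset.sum_nonneg fun q _ => mul_nonneg (Growth.len_pos q).le (hD0 q)
  -- sizes
  have hsz : ∀ K ∈ S, ∀ p ∈ W K, ∀ c', av p (Ek Z f W Psi c' K) ≤ √((2 * ω + 16) * μ) := by
    intro K hK p hp c'
    have h1 := Ek_two Z f W Rg Psi c' K p
    have h2 : av p (ek Z f Rg Psi c' K) ^ 2 ≤ ω * μ := by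
      have h3 : av p (ek Z f Rg Psi c' K) ^ 2 ≤ ∑ c'', av p (ek Z f Rg Psi c'' K) ^ 2 :=
        Finset.single_le_sum (f := fun c'' => av p (ek Z f Rg Psi c'' K) ^ 2)
          (fun _ _ => sq_nonneg _) (Finset.mem_univ c')
      exact h3.trans ((hEr K hK p hp).trans (hT.err K hK p hp))
    have h4 := gl_gl (hP c') (hf c') (hT.full K hK) (hPt.full K hK) (hT.sub K hK)
      (gdP_of_gs hP hf (hT.good K hK) c') hp
    refine Real.le_sqrt_of_sq_le (h1.trans ?_)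
    linarith
  -- energy of one window
  have hen1 : ∀ K ∈ S, len K * en K (Ek Z f W Psi 0 K) (Ek Z f W Psi 1 K) ≤
      (2 * Λ + 16) * (rK K + μ * dlt K) + 2 * Λ * η' * len K := by
    intro K hK
    have hKK : K ∈ W K := (hPt.full K hK).top
    have h1 : ∀ c', len K * av K (Ek Z f W Psi c' K) ^ 2 ≤
        2 * (len K * av K (ek Z f Rg Psi c' K) ^ 2) +
          16 * ∑ q ∈ Rg K \ lf (Rg K), len q * DP (Jv (Φ c') (Z c') (f c')) η q := by
      intro c'
      have h2 := mul_le_mul_of_nonneg_left (Ek_two Z f W Rg Psi c' K K) (Growth.len_pos K).le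
      have h3 := gl_gl_top (hP c') (hf c') (hT.full K hK) (hPt.full K hK) (hT.sub K hK)
      linarith
    have h4 : len K * en K (Ek Z f W Psi 0 K) (Ek Z f W Psi 1 K) =
        ∑ c', len K * av K (Ek Z f W Psi c' K) ^ 2 := by
      rw [Fin.sum_univ_two]
      unfold en
      ring
    have h5 : ∑ c', 16 * ∑ q ∈ Rg K \ lf (Rg K), len q * DP (Jv (Φ c') (Z c') (f c')) η q =
        16 * rK K := by
      rw [← Finset.mul_sum, Finset.sum_comm]
      congr 1
      refine Finset.sum_congr rfl fun q _ => ?_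
      rw [← Finset.mul_sum]
      rfl
    have h6 : ∑ c', 2 * (len K * av K (ek Z f Rg Psi c' K) ^ 2) ≤ 2 * (len K * Er K K) := by
      rw [← Finset.mul_sum, ← Finset.mul_sum]
      exact mul_le_mul_of_nonneg_left (mul_le_mul_of_nonneg_left (hEr K hK K hKK)
        (Growth.len_pos K).le) (by norm_num)
    have h7 := htop K hK
    have h8 := Finset.sum_le_sum fun c' (_ : c' ∈ (Finset.univ : Finset (Fin 2))) => h1 c'
    rw [Finset.sum_add_distrib, h5] at h8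
    rw [h4]
    have h9 : 0 ≤ μ * dlt K := mul_nonneg hμ.le (hdlt K hK)
    have h10 := hrK0 K
    have h7' : len K * Er K K ≤ Λ * (rK K + μ * dlt K + η' * len K) := h7
    nlinarith [h8, h6, h7']
  -- count
  have hcnt : ∑ w ∈ S, len w ≤ (2 * Ct / μ + Ct / μ ^ 2 * e0) * len J := by
    refine hT.cnt.trans ?_
    have h1 : dr R (DF Φ Z f η) J / μ ^ 2 ≤ (μ + e0) * len J / μ ^ 2 :=
      div_le_div_of_nonneg_right hdr (by positivity)
    have h2 := mul_le_mul_of_nonneg_left (add_le_add (le_refl (len J / μ)) h1) hCt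
    refine h2.trans (le_of_eq ?_)
    field_simp
    ring
  have hcnt0 : ∀ T ⊆ S, ∑ w ∈ T, len w ≤ ∑ w ∈ S, len w := fun T hTS =>
    Finset.sum_le_sum_of_subset_of_nonneg hTS fun q _ _ => (Growth.len_pos q).le
  -- total energy
  have hene : ∑ K ∈ S, len K * en K (Ek Z f W Psi 0 K) (Ek Z f W Psi 1 K) ≤
      (Ct * (8 * Λ + 32)) * (μ + e0) * len J := by
    refine (Finset.sum_le_sum hen1).trans ?_
    rw [Finset.sum_add_distrib, ← Finset.mul_sum, ← Finset.mul_sum]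
    have h1 : ∑ K ∈ S, (rK K + μ * dlt K) ≤ Ct * ((μ + e0) * len J + μ * len J) :=
      hT.ene.trans (mul_le_mul_of_nonneg_left (add_le_add hdr le_rfl) hCt)
    have h2 := mul_le_mul_of_nonneg_left h1 (show 0 ≤ 2 * Λ + 16 by linarith)
    have h3 := mul_le_mul_of_nonneg_left hcnt (show 0 ≤ 2 * Λ * η' by positivity)
    have h4 : η' * (2 * Ct / μ + Ct / μ ^ 2 * e0) ≤ Ct * (2 * μ + e0) := by
      have h5 : η' * (2 * Ct / μ + Ct / μ ^ 2 * e0) ≤
          μ ^ 3 * (2 * Ct / μ + Ct / μ ^ 2 * e0) :=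
        mul_le_mul_of_nonneg_right hη3 (by positivity)
      have h6 : μ ^ 3 * (2 * Ct / μ + Ct / μ ^ 2 * e0) = Ct * (2 * μ ^ 2 + μ * e0) := by
        field_simp
      rw [h6] at h5
      refine h5.trans (mul_le_mul_of_nonneg_left ?_ hCt)
      nlinarith [mul_nonneg hμ.le (show 0 ≤ 1 - μ by linarith),
        mul_nonneg hen (show 0 ≤ 1 - μ by linarith)]
    have h7 := mul_le_mul_of_nonneg_left (mul_le_mul_of_nonneg_right h4 hlJ)
      (show 0 ≤ 2 * Λ by positivity)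
    have h8 : 0 ≤ Ct * e0 * len J := by positivity
    have h9 : 0 ≤ Ct * μ * len J := by positivity
    have h10 : 0 ≤ Ct * Λ * e0 * len J := by positivity
    have h11 : 0 ≤ Ct * Λ * μ * len J := by positivity
    nlinarith [h2, h3, h7, h8, h9, h10, h11]
  -- truncation
  obtain ⟨T1, G1, E1, G1', E1', hTo1, hT1S, hX, hY, hs, he, u1, u2, u3⟩ :=
    split_trunc (v := v) hR hTo n (X := Z 0) (Y := Z 1) (G := Gk f W Psi 0) (E := Ek Z f W Psi 0)
      (G' := Gk f W Psi 1) (E' := Ek Z f W Psi 1) (r0 := √((2 * ω + 16) * μ)) (M := M)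
      (Real.sqrt_nonneg _) hM0 (fun w _ _ y _ => by unfold Ek; ring)
      (fun w _ _ y _ => by unfold Ek; ring)
      (fun w hw _ p hp => by
        rw [win_of_part hPt hw] at hp
        exact ⟨hsz w hw p hp 0, hsz w hw p hp 1⟩) hM
  have hsubn : S.filter (fun w => idx S w ≤ n) ⊆ S := Finset.filter_subset _ _
  have hlast : M * ((∑ w ∈ S, len w) / (n + 1)) ≤
      2 * M * Ct / (μ ^ 2 * (n + 1)) * (μ + e0) * len J := by
    have hn : (0 : ℝ) < (n : ℝ) + 1 := by positivity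
    have h1 : (∑ w ∈ S, len w) / ((n : ℝ) + 1) ≤
        (2 * Ct / μ + Ct / μ ^ 2 * e0) * len J / (n + 1) :=
      div_le_div_of_nonneg_right hcnt hn.le
    refine (mul_le_mul_of_nonneg_left h1 hM0).trans ?_
    have h2 : 2 * Ct / μ + Ct / μ ^ 2 * e0 ≤ 2 * Ct / μ ^ 2 * (μ + e0) := by
      have h3 : 2 * Ct / μ ^ 2 * (μ + e0) = 2 * Ct / μ + 2 * (Ct / μ ^ 2 * e0) := by
        field_simp
      have h4 : 0 ≤ Ct / μ ^ 2 * e0 := by positivity
      linarith
    have h5 : M * ((2 * Ct / μ + Ct / μ ^ 2 * e0) * len J / (n + 1)) ≤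
        M * (2 * Ct / μ ^ 2 * (μ + e0) * len J / (n + 1)) :=
      mul_le_mul_of_nonneg_left (div_le_div_of_nonneg_right
        (mul_le_mul_of_nonneg_right h2 hlJ) hn.le) hM0
    refine h5.trans (le_of_eq ?_)
    field_simp
  have hword : ∀ {g : Nd → Nd → ℂ},
      ‖∑ w ∈ S.filter (fun w => idx S w ≤ n), ∑ p ∈ W w, g w p‖ ≤ κ1 * (μ + e0) * len J →
      ‖∑ w ∈ S.filter (fun w => idx S w ≤ n), ∑ p ∈ win R S w, g w p‖ +
        M * ((∑ w ∈ S, len w) / (n + 1)) ≤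
      (κ1 + 2 * M * Ct / (μ ^ 2 * (n + 1))) * (μ + e0) * len J := by
    intro g hg
    have e1 : ∑ w ∈ S.filter (fun w => idx S w ≤ n), ∑ p ∈ win R S w, g w p =
        ∑ w ∈ S.filter (fun w => idx S w ≤ n), ∑ p ∈ W w, g w p := by
      refine Finset.sum_congr rfl fun w hw => ?_
      rw [win_of_part hPt (hsubn hw)]
    rw [e1]
    have := add_le_add hg hlast
    refine this.trans (le_of_eq ?_)
    ring
  refine ⟨T1, G1, E1, G1', E1', hTo1, hX, hY, hs, (hcnt0 T1 hT1S).trans hcnt, ?_,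
    u1.trans (hword w1), u2.trans (hword w2), u3.trans (hword w3)⟩
  refine he.trans (le_trans ?_ hene)
  exact Finset.sum_le_sum_of_subset_of_nonneg hsubn fun q _ _ =>
    mul_nonneg (Growth.len_pos q).le (en_nonneg _ _ _)

/-- **all data of one generation for the region `R`, top `J`, letters `X`, `Y`** -/
def GenD (v : Fn → Fn → Nd → ℂ) (R : Finset Nd) (J : Nd) (X Y : Fn) (μ ω Ct Λ κ1 M : ℝ) (n : ℕ) :
    Prop :=
  ∃ (c : Fin 2 → ℝ) (Kw : Fin 2 → Nd → Fn → Prop) (Φ : Fin 2 → Nd → Fn → ℝ) (Z : Fin 2 → Fn)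
    (η : ℝ) (f : Fin 2 → Nd → Fn) (S : Finset Nd) (W Rg : Nd → Finset Nd) (dlt : Nd → ℝ)
    (Er : Nd → Nd → ℝ) (Psi : Fin 2 → Nd → Fn) (η' : ℝ), Z 0 = X ∧ Z 1 = Y ∧
    (∀ c', PenC (c c') (Kw c') (Φ c')) ∧ (∀ c', NMP (Kw c') (Φ c') (Z c') η (f c')) ∧
    TreeO R J (DF Φ Z f η) (dvF f) μ ω Ct S W Rg dlt Er ∧
    (∀ K ∈ S, ∀ p ∈ W K, ∑ c', av p (ek Z f Rg Psi c' K) ^ 2 ≤ Er K p) ∧
    0 ≤ η' ∧ η' ≤ μ ^ 3 ∧
    (∀ K ∈ S, len K * Er K K ≤
      Λ * (∑ q ∈ Rg K \ lf (Rg K), len q * DF Φ Z f η q + μ * dlt K + η' * len K)) ∧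
    (∀ K ∈ S, 0 ≤ dlt K) ∧ dr R (DF Φ Z f η) J ≤ (μ + en J X Y) * len J ∧
    (∀ W I, Full W I → W ⊆ R → ‖∑ p ∈ W, v X Y p‖ ≤ M * len I) ∧
    ‖∑ w ∈ S.filter (fun w => idx S w ≤ n), ∑ p ∈ W w, v (Gk f W Psi 0 w) Y p‖ ≤
      κ1 * (μ + en J X Y) * len J ∧
    ‖∑ w ∈ S.filter (fun w => idx S w ≤ n), ∑ p ∈ W w, v X (Gk f W Psi 1 w) p‖ ≤
      κ1 * (μ + en J X Y) * len J ∧
    ‖∑ w ∈ S.filter (fun w => idx S w ≤ n), ∑ p ∈ W w,
      v (Gk f W Psi 0 w) (Gk f W Psi 1 w) p‖ ≤ κ1 * (μ + en J X Y) * len J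

/-- **`SpM` from the data of one generation** -/
theorem spM_of_genD {v : Fn → Fn → Nd → ℂ} {k : ℝ} {R0 : Finset Nd} {μ ω Ct Λ κ1 M : ℝ} {n : ℕ}
    (hμ : 0 < μ) (hμ1 : μ ≤ 1) (hCt : 0 ≤ Ct) (hΛ : 0 ≤ Λ) (hM0 : 0 ≤ M)
    (h : ∀ R J, Full R J → R ⊆ R0 → ∀ X Y, Sm k 1 R X Y → GenD v R J X Y μ ω Ct Λ κ1 M n) :
    GnMx45.SpM v k R0 μ (κ1 + 2 * M * Ct / (μ ^ 2 * (n + 1))) (2 * Ct / μ) (Ct / μ ^ 2)
      (Ct * (8 * Λ + 32)) √((2 * ω + 16) * μ) := by
  intro R J hR hRR X Y hXY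
  obtain ⟨c, Kw, Φ, Z, η, f, S, W, Rg, dlt, Er, Psi, η', rfl, rfl, hP, hf, hT, hEr, h1, h2, h3,
    h4, h5, h6, w1, w2, w3⟩ := h R J hR hRR X Y hXY
  exact spM_data hR hP hf hT hμ hμ1 hCt hΛ hEr h1 h2 h3 h4 h5 hM0 h6 w1 w2 w3

end

end Crest.Agent.R079.GnSx263
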