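import Crest.Agent.R079.HWb_323
import Crest.Agent.R079.GnS_263

-- ▼ part R079/SbX_795
section

/-! R079, note 1820 (helper228), line (T2), part (b) (helper795): THE SUB-WINDOWS OF A TOP `K` OF A
FULL WINDOW `V`.

`al V m b` = total length of the nodes of level `m` of `V` inside `b`.  Parameters `k0 ≤ j0`, `n0`.

* case B (`CB`): `j0 + n0 ≤ K.1` and every block `b` of level `K.1 - k0` inside `K` satisfies
  `al V (K.1 - j0) b ≥ len b / 2`.  Window `UB`: the nodes of level `≥ K.1 - j0` and, for every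
  `q0 ∈ V` of level `K.1 - j0` outside the layer `lay K` (two extreme nodes of level `K.1 - 4`), the
  nodes below `q0` of level `≥ fl V n0 q0`, where `dq V n0 q0 ≥ n0` is the last level `≥ n0` with
  `al V d q0 ≥ len q0 / 2` and `fl = dq` (resp. `fl = 0` if `dq = n0`).
* case A: all nodes of level `≥ mA`; `mA = 0` if `K.1 < j0 + n0`, otherwise `K.1 - j0 < mA`.

Exits of `UU V k0 j0 n0 K`: total length `≤ (1 - 2^{-(k0+1)}) len K`. -/

set_option autoImplicit false

namespace Crest.Agent.R079.SbWx795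

open Finset Crest.Agent.R079.Grid Crest.Agent.R079.Growth Crest.Agent.R079.QRed
  Crest.Agent.R079.TWin Crest.Agent.R079.Qe292 Crest.Agent.R079.Qh249
  Crest.Agent.R079.GLA110 Crest.Agent.R079.Chn110 Crest.Agent.R079.HWx323

variable {V : Finset Nd} {P K : Nd} {k0 j0 n0 : ℕ}

open Classical in
/-- total length of the nodes of level `m` of `V` inside `b` -/
noncomputable def al (V : Finset Nd) (m : ℕ) (b : Nd) : ℝ :=
  ∑ q ∈ V.filter (fun q => q.1 = m ∧ iv q ⊆ iv b), len q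


/-- nodes of the same level are equal or disjoint -/
lemma disj_level {p q : Nd} (h : p.1 = q.1) (hne : p ≠ q) : Disjoint (iv p) (iv q) := by
  rw [Finset.disjoint_left]
  intro y hy hy'
  exact hne (eq_of_sub_level (sub_of_level hy hy' h.le) h)

lemma al_le (V : Finset Nd) (m : ℕ) (b : Nd) : al V m b ≤ len b := by
  classical
  unfold al
  refine sum_len_disj _ b (fun c hc => (Finset.mem_filter.1 hc).2.2) ?_
  intro c hc c' hc' hne
  exact disj_level ((Finset.mem_filter.1 hc).2.1.trans (Finset.mem_filter.1 hc').2.1.symm) hne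

lemma al_self {q0 : Nd} (h : q0 ∈ V) : al V q0.1 q0 = len q0 := by
  classical
  unfold al
  have : V.filter (fun q => q.1 = q0.1 ∧ iv q ⊆ iv q0) = {q0} := by
    ext q
    rw [Finset.mem_filter, Finset.mem_singleton]
    constructor
    · rintro ⟨_, h1, h2⟩
      exact eq_of_sub_level h2 h1
    · rintro rfl
      exact ⟨h, rfl, subset_rfl⟩
  rw [this, Finset.sum_singleton]

/-- the ancestor of level `m` -/
lemma anc_mem (hV : Full V P) {p K : Nd} (hp : p ∈ V) (hpK : iv p ⊆ iv K) (hK : iv K ⊆ iv P)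
    {m : ℕ} (h1 : p.1 ≤ m) (h2 : m ≤ K.1) : ∃ q ∈ V, q.1 = m ∧ iv p ⊆ iv q ∧ iv q ⊆ iv K := by
  obtain ⟨q, hq1, hq2, hq3⟩ := anc hpK h1 h2
  exact ⟨q, hV.reg.2 p hp q hq2 (hq3.trans hK), hq1, hq2, hq3⟩

/-- the alive length decreases with the level -/
lemma al_mono (hV : Full V P) {b : Nd} (hb : iv b ⊆ iv P) {m m' : ℕ} (h : m ≤ m') (hm : m' ≤ b.1) :
    al V m b ≤ al V m' b := by
  classical
  have h1 : al V m b ≤ ∑ q' ∈ V.filter (fun q => q.1 = m' ∧ iv q ⊆ iv b), al V m q' := by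
    unfold al
    rw [← Finset.sum_biUnion]
    · refine Finset.sum_le_sum_of_subset_of_nonneg ?_ fun q _ _ => (Growth.len_pos q).le
      intro q hq
      rw [Finset.mem_filter] at hq
      obtain ⟨q', h1, h2, h3, h4⟩ := anc_mem hV hq.1 hq.2.2 hb (m := m') (by omega) hm
      exact Finset.mem_biUnion.2 ⟨q', Finset.mem_filter.2 ⟨h1, h2, h4⟩,
        Finset.mem_filter.2 ⟨hq.1, hq.2.1, h3⟩⟩
    · intro q hq q' hq' hne
      rw [Function.onFun, Finset.disjoint_left]
      intro r hr hr'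
      rw [Finset.mem_filter] at hr hr'
      obtain ⟨y, hy⟩ := iv_nonempty r
      have hq2 := (Finset.mem_filter.1 (Finset.mem_coe.1 hq)).2
      have hq2' := (Finset.mem_filter.1 (Finset.mem_coe.1 hq')).2
      exact Finset.disjoint_left.1 (disj_level (hq2.1.trans hq2'.1.symm) hne) (hr.2.2 hy)
        (hr'.2.2 hy)
  exact h1.trans (Finset.sum_le_sum fun q _ => al_le V m q)

/-- every block of level `K.1 - k0` of `K` is at least half alive at level `m` -/
def Alv (V : Finset Nd) (k0 m : ℕ) (K : Nd) : Prop :=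
  ∀ b : Nd, b.1 + k0 = K.1 → iv b ⊆ iv K → len b / 2 ≤ al V m b

/-- case B -/
def CB (V : Finset Nd) (k0 j0 n0 : ℕ) (K : Nd) : Prop := j0 + n0 ≤ K.1 ∧ Alv V k0 (K.1 - j0) K

/-- last level `≥ n0` where at least half of `q0` is alive -/
noncomputable def dq (V : Finset Nd) (n0 : ℕ) (q0 : Nd) : ℕ :=
  sInf {d : ℕ | n0 ≤ d ∧ len q0 / 2 ≤ al V d q0}

/-- floor of the window below `q0` -/
noncomputable def fl (V : Finset Nd) (n0 : ℕ) (q0 : Nd) : ℕ :=
  if dq V n0 q0 = n0 then 0 else dq V n0 q0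

lemma dq_spec {q0 : Nd} (h : q0 ∈ V) (hn : n0 ≤ q0.1) :
    n0 ≤ dq V n0 q0 ∧ len q0 / 2 ≤ al V (dq V n0 q0) q0 ∧ dq V n0 q0 ≤ q0.1 := by
  have hmem : q0.1 ∈ {d : ℕ | n0 ≤ d ∧ len q0 / 2 ≤ al V d q0} := by
    refine ⟨hn, ?_⟩
    rw [al_self h]
    linarith [Growth.len_pos q0]
  have h1 := Nat.sInf_mem ⟨_, hmem⟩
  exact ⟨h1.1, h1.2, Nat.sInf_le hmem⟩

lemma dq_below {q0 : Nd} {d : ℕ} (h1 : n0 ≤ d) (h2 : d < dq V n0 q0) :
    al V d q0 < len q0 / 2 := by
  by_contra hcon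
  push Not at hcon
  exact Nat.notMem_of_lt_sInf h2 ⟨h1, hcon⟩

/-- the alive length of `q0` at every level between `dq` and the level of `q0` -/
lemma dq_alive (hV : Full V P) {q0 : Nd} (h : q0 ∈ V) (hn : n0 ≤ q0.1) {d : ℕ}
    (h1 : dq V n0 q0 ≤ d) (h2 : d ≤ q0.1) : len q0 / 2 ≤ al V d q0 :=
  (dq_spec h hn).2.1.trans (al_mono hV (hV.reg.1 q0 h) h1 h2)


/-- the layer of `K` -/
def lay (K q0 : Nd) : Prop :=
  iv q0 ⊆ iv (K.1 - 4, 16 * K.2) ∨ iv q0 ⊆ iv (K.1 - 4, 16 * K.2 + 15)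

open Classical in
/-- window of case B -/
noncomputable def UB (V : Finset Nd) (j0 n0 : ℕ) (K : Nd) : Finset Nd :=
  V.filter (fun q => iv q ⊆ iv K ∧ (K.1 - j0 ≤ q.1 ∨ ∃ q0, q0 ∈ V ∧ q0.1 = K.1 - j0 ∧
    iv q ⊆ iv q0 ∧ iv q0 ⊆ iv K ∧ ¬ lay K q0 ∧ fl V n0 q0 ≤ q.1))

open Classical in
lemma mem_UB {q : Nd} : q ∈ UB V j0 n0 K ↔ q ∈ V ∧ iv q ⊆ iv K ∧ (K.1 - j0 ≤ q.1 ∨
    ∃ q0, q0 ∈ V ∧ q0.1 = K.1 - j0 ∧ iv q ⊆ iv q0 ∧ iv q0 ⊆ iv K ∧ ¬ lay K q0 ∧
      fl V n0 q0 ≤ q.1) := by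
  unfold UB
  rw [Finset.mem_filter]

open Classical in
/-- floor of the window of case A -/
noncomputable def mA (V : Finset Nd) (k0 j0 n0 : ℕ) (K : Nd) : ℕ :=
  if K.1 < j0 + n0 then 0 else Nat.findGreatest (fun m => ¬ Alv V k0 m K) (K.1 - k0) + 1

open Classical in
/-- the window of the top `K` (before the spots are removed) -/
noncomputable def UU (V : Finset Nd) (k0 j0 n0 : ℕ) (K : Nd) : Finset Nd :=
  if CB V k0 j0 n0 K then UB V j0 n0 K else Wf V K (mA V k0 j0 n0 K)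

lemma UB_full (hV : Full V P) (hK : K ∈ V) : Full (UB V j0 n0 K) K := by
  have hKP := hV.reg.1 K hK
  refine ⟨⟨fun p hp => (mem_UB.1 hp).2.1, fun p hp q h1 h2 => ?_⟩,
    mem_UB.2 ⟨hK, subset_rfl, Or.inl (Nat.sub_le _ _)⟩, bin_of fun c hc hpc => ?_⟩
  · have h := mem_UB.1 hp
    refine mem_UB.2 ⟨hV.reg.2 p h.1 q h1 (h2.trans hKP), h2, ?_⟩
    by_cases hq : K.1 - j0 ≤ q.1
    · exact Or.inl hq
    · have hl := Qe292.iv_level h1
      rcases h.2.2 with h3 | ⟨q0, h3, h4, h5, h6, h7, h8⟩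
      · omega
      · refine Or.inr ⟨q0, h3, h4, ?_, h6, h7, h8.trans hl⟩
        rcases Qe292.sub_total h1 h5 with h9 | h9
        · exact h9
        · have := Qe292.iv_level h9
          omega
  · have h := mem_UB.1 hc
    have h' := mem_UB.1 hpc
    have hs : iv (sib c) ⊆ iv (par c) := by
      rw [← par_sib c]
      exact iv_par _
    refine mem_UB.2 ⟨sib_mem hV h.1 h'.1, hs.trans h'.2.1, ?_⟩
    rcases h.2.2 with h3 | ⟨q0, h3, h4, h5, h6, h7, h8⟩
    · exact Or.inl h3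
    · by_cases he : K.1 - j0 ≤ c.1
      · exact Or.inl he
      · have hne : c ≠ q0 := by
          rintro rfl
          omega
        exact Or.inr ⟨q0, h3, h4, hs.trans (par_sub h5 hne), h6, h7, h8⟩

lemma UB_sub : UB V j0 n0 K ⊆ V := fun _ hq => (mem_UB.1 hq).1

/-- the exits of the window of case B -/
lemma UB_exits (hV : Full V P) (hK : K ∈ V) (hn : j0 + n0 ≤ K.1) {c : Nd}
    (hc : c ∈ ex V (UB V j0 n0 K)) :
    iv c ⊆ iv (K.1 - 4, 16 * K.2) ∨ iv c ⊆ iv (K.1 - 4, 16 * K.2 + 15) ∨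
      ∃ q0, q0 ∈ V ∧ q0.1 = K.1 - j0 ∧ iv q0 ⊆ iv K ∧ iv c ⊆ iv q0 ∧ n0 ≤ c.1 ∧
        c.1 < dq V n0 q0 ∧ c.1 + 1 = dq V n0 q0 := by
  have h := mem_ex.1 hc
  have hp := mem_UB.1 h.2.2
  have hcK : iv c ⊆ iv K := (iv_par c).trans hp.2.1
  have hlev : (par c).1 = c.1 + 1 := rfl
  have hnl : ¬ K.1 - j0 ≤ c.1 := fun hcon => h.2.1 (mem_UB.2 ⟨h.1, hcK, Or.inl hcon⟩)
  obtain ⟨q0, hq0, hq1, hq2, hq3⟩ := anc_mem hV h.1 hcK (hV.reg.1 K hK) (m := K.1 - j0)
    (by omega) (Nat.sub_le _ _)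
  by_cases hl : lay K q0
  · rcases hl with hl | hl
    · exact Or.inl (hq2.trans hl)
    · exact Or.inr (Or.inl (hq2.trans hl))
  · refine Or.inr (Or.inr ⟨q0, hq0, hq1, hq3, hq2, ?_⟩)
    have hfl : c.1 < fl V n0 q0 := by
      by_contra hcon
      exact h.2.1 (mem_UB.2 ⟨h.1, hcK, Or.inr ⟨q0, hq0, hq1, hq2, hq3, hl, by omega⟩⟩)
    have hdn : dq V n0 q0 ≠ n0 := by
      intro he
      unfold fl at hfl
      rw [if_pos he] at hfl
      omega
    have hfe : fl V n0 q0 = dq V n0 q0 := by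
      unfold fl
      rw [if_neg hdn]
    have hsp := dq_spec (n0 := n0) hq0 (by omega)
    have hge : dq V n0 q0 ≤ c.1 + 1 := by
      rcases hp.2.2 with h3 | ⟨q1, h3, h4, h5, h6, h7, h8⟩
      · omega
      · have he : q1 = q0 := by
          have h9 : iv c ⊆ iv q1 := (iv_par c).trans h5
          rcases Qe292.sub_total h9 hq2 with h10 | h10
          · exact eq_of_sub_level h10 (h4.trans hq1.symm)
          · exact (eq_of_sub_level h10 (hq1.trans h4.symm)).symm
        rw [he, hfe, hlev] at h8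
        exact h8
    omega

/-- length of the two blocks of the layer -/
lemma len_lay (h4 : 4 ≤ K.1) (l : ℤ) : len (K.1 - 4, l) = len K / 16 := by
  unfold len
  simp only
  have e : K.1 + 7 = (K.1 - 4 + 7) + 4 := by omega
  rw [e, pow_add]
  ring

/-- **total length of the exits, case B** -/
theorem UB_ex_le (hV : Full V P) (hK : K ∈ V) (h4 : 4 ≤ j0) (hn : j0 + n0 ≤ K.1) :
    ∑ c ∈ ex V (UB V j0 n0 K), len c ≤ (1 / 8 + 1 / 2) * len K := by
  classical
  have hF := UB_full (j0 := j0) (n0 := n0) hV hK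
  set E := ex V (UB V j0 n0 K) with hE
  set A1 := E.filter (fun c => iv c ⊆ iv (K.1 - 4, 16 * K.2)) with hA1
  set A2 := E.filter (fun c => iv c ⊆ iv (K.1 - 4, 16 * K.2 + 15)) with hA2
  set Q := V.filter (fun q0 => q0.1 = K.1 - j0 ∧ iv q0 ⊆ iv K) with hQ
  set B : Nd → Finset Nd := fun q0 => V.filter (fun c => c.1 + 1 = dq V n0 q0 ∧
    n0 ≤ c.1 ∧ iv c ⊆ iv q0) with hB
  have hdis : ∀ T ⊆ E, ∀ c ∈ T, ∀ c' ∈ T, c ≠ c' → Disjoint (iv c) (iv c') :=
    fun T hT c hc c' hc' hne => ex_disj_iv hF (hT hc) (hT hc') hne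
  have h1 : ∑ c ∈ A1, len c ≤ len K / 16 := by
    rw [← len_lay (K := K) (by omega) (16 * K.2)]
    exact sum_len_disj _ _ (fun c hc => (Finset.mem_filter.1 hc).2)
      (hdis _ (Finset.filter_subset _ _))
  have h2 : ∑ c ∈ A2, len c ≤ len K / 16 := by
    rw [← len_lay (K := K) (by omega) (16 * K.2 + 15)]
    exact sum_len_disj _ _ (fun c hc => (Finset.mem_filter.1 hc).2)
      (hdis _ (Finset.filter_subset _ _))
  have h3 : ∀ q0 ∈ Q, ∑ c ∈ B q0, len c ≤ len q0 / 2 := by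
    intro q0 hq0
    by_cases hne : (B q0).Nonempty
    · obtain ⟨c0, hc0⟩ := hne
      have h0 := (Finset.mem_filter.1 hc0).2
      have h5 : B q0 ⊆ V.filter (fun q => q.1 = c0.1 ∧ iv q ⊆ iv q0) := by
        intro c hc
        have := Finset.mem_filter.1 hc
        exact Finset.mem_filter.2 ⟨this.1, by omega, this.2.2.2⟩
      refine (Finset.sum_le_sum_of_subset_of_nonneg h5 fun q _ _ =>
        (Growth.len_pos q).le).trans ?_
      exact (dq_below (V := V) (n0 := n0) (q0 := q0) (d := c0.1) h0.2.1 (by omega)).le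
    · rw [Finset.not_nonempty_iff_eq_empty] at hne
      rw [hne, Finset.sum_empty]
      linarith [Growth.len_pos q0]
  have h5 : ∑ q0 ∈ Q, len q0 ≤ len K :=
    sum_len_disj _ _ (fun c hc => (Finset.mem_filter.1 hc).2.2) fun c hc c' hc' hne =>
      disj_level ((Finset.mem_filter.1 hc).2.1.trans (Finset.mem_filter.1 hc').2.1.symm) hne
  have hsub : E ⊆ (A1 ∪ A2) ∪ Q.biUnion B := by
    intro c hc
    rcases UB_exits hV hK hn hc with h | h | ⟨q0, h6, h7, h8, h9, h10, _, h12⟩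
    · exact Finset.mem_union_left _ (Finset.mem_union_left _ (Finset.mem_filter.2 ⟨hc, h⟩))
    · exact Finset.mem_union_left _ (Finset.mem_union_right _ (Finset.mem_filter.2 ⟨hc, h⟩))
    · exact Finset.mem_union_right _ (Finset.mem_biUnion.2 ⟨q0, Finset.mem_filter.2 ⟨h6, h7, h8⟩,
        Finset.mem_filter.2 ⟨(mem_ex.1 hc).1, h12, h10, h9⟩⟩)
  have hnn : ∀ T : Finset Nd, 0 ≤ ∑ c ∈ T, len c := fun T =>
    Finset.sum_nonneg fun c _ => (Growth.len_pos c).le
  have hun : ∀ T T' : Finset Nd, ∑ c ∈ T ∪ T', len c ≤ ∑ c ∈ T, len c + ∑ c ∈ T', len c := by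
    intro T T'
    have := Finset.sum_union_inter (s₁ := T) (s₂ := T') (f := len)
    linarith [hnn (T ∩ T')]
  have hbi : ∑ c ∈ Q.biUnion B, len c = ∑ q0 ∈ Q, ∑ c ∈ B q0, len c := by
    refine Finset.sum_biUnion ?_
    intro q hq q' hq' hne
    rw [Function.onFun, Finset.disjoint_left]
    intro r hr hr'
    have h6 := (Finset.mem_filter.1 (Finset.mem_coe.1 hq)).2
    have h6' := (Finset.mem_filter.1 (Finset.mem_coe.1 hq')).2
    have h7 := (Finset.mem_filter.1 hr).2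
    have h7' := (Finset.mem_filter.1 hr').2
    obtain ⟨y, hy⟩ := iv_nonempty r
    exact Finset.disjoint_left.1 (disj_level (h6.1.trans h6'.1.symm) hne) (h7.2.2 hy)
      (h7'.2.2 hy)
  have h6 : ∑ q0 ∈ Q, ∑ c ∈ B q0, len c ≤ ∑ q0 ∈ Q, len q0 / 2 := Finset.sum_le_sum h3
  rw [← Finset.sum_div] at h6
  have h7 := Finset.sum_le_sum_of_subset_of_nonneg hsub fun c _ _ => (Growth.len_pos c).le
  have h8 := hun (A1 ∪ A2) (Q.biUnion B)
  have h9 := hun A1 A2
  linarith

/-! ### case A -/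

lemma Wf_exits (_hK : K ∈ V) {d : ℕ} {c : Nd} (hc : c ∈ ex V (Wf V K d)) :
    c.1 + 1 = d ∧ iv c ⊆ iv K := by
  have h := mem_ex.1 hc
  have hp := mem_Wf.1 h.2.2
  have hcK : iv c ⊆ iv K := (iv_par c).trans hp.2.1
  have hlev : (par c).1 = c.1 + 1 := rfl
  refine ⟨?_, hcK⟩
  by_contra hne
  exact h.2.1 (mem_Wf.2 ⟨h.1, hcK, by omega⟩)

/-- the floor of case A -/
lemma mA_spec (_hk : 1 ≤ k0) (hkj : k0 ≤ j0) (hB : ¬ CB V k0 j0 n0 K) :
    (K.1 < j0 + n0 ∧ mA V k0 j0 n0 K = 0) ∨ (j0 + n0 ≤ K.1 ∧ K.1 - j0 < mA V k0 j0 n0 K ∧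
      mA V k0 j0 n0 K ≤ K.1 - k0 + 1 ∧ ¬ Alv V k0 (mA V k0 j0 n0 K - 1) K) := by
  classical
  by_cases h : K.1 < j0 + n0
  · refine Or.inl ⟨h, ?_⟩
    unfold mA
    rw [if_pos h]
  · have hA : ¬ Alv V k0 (K.1 - j0) K := fun hA => hB ⟨by omega, hA⟩
    have e : mA V k0 j0 n0 K =
        Nat.findGreatest (fun m => ¬ Alv V k0 m K) (K.1 - k0) + 1 := by
      unfold mA
      rw [if_neg h]
    have h1 := Nat.le_findGreatest (P := fun m => ¬ Alv V k0 m K) (m := K.1 - j0)
      (n := K.1 - k0) (by omega) hA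
    have h2 := Nat.findGreatest_spec (P := fun m => ¬ Alv V k0 m K) (m := K.1 - j0)
      (n := K.1 - k0) (by omega) hA
    have h3 := Nat.findGreatest_le (P := fun m => ¬ Alv V k0 m K) (K.1 - k0)
    refine Or.inr ⟨by omega, by omega, by omega, ?_⟩
    rw [e, Nat.add_sub_cancel]
    exact h2

/-- **total length of the exits, case A** -/
theorem WA_ex_le (hK : K ∈ V) (hk : 1 ≤ k0) (hkj : k0 ≤ j0)
    (hB : ¬ CB V k0 j0 n0 K) :
    ∑ c ∈ ex V (Wf V K (mA V k0 j0 n0 K)), len c ≤ (1 - 1 / 2 ^ (k0 + 1)) * len K := by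
  classical
  have hlK := Growth.len_pos K
  have hk2 : (1 : ℝ) / 2 ^ (k0 + 1) ≤ 1 := by
    rw [div_le_one (by positivity)]
    exact one_le_pow₀ (by norm_num)
  rcases mA_spec hk hkj hB with ⟨_, h2⟩ | ⟨h1, h2, h3, h4⟩
  · have he : ex V (Wf V K (mA V k0 j0 n0 K)) = ∅ := by
      rw [Finset.eq_empty_iff_forall_notMem]
      intro c hc
      have := (Wf_exits hK hc).1
      omega
    rw [he, Finset.sum_empty]
    exact mul_nonneg (by linarith) hlK.le
  · set d := mA V k0 j0 n0 K with hd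
    unfold Alv at h4
    push Not at h4
    obtain ⟨b, hb1, hb2, hb3⟩ := h4
    -- exits = nodes of level `d - 1`
    set E := ex V (Wf V K d) with hE
    have hlb : len b = len K / 2 ^ k0 := by
      rw [eq_div_iff (by positivity)]
      unfold len
      rw [← pow_add, ← hb1]
      congr 1
      omega
    have h5 : ∀ c ∈ E, c.1 = d - 1 ∧ c ∈ V ∧ iv c ⊆ iv K := by
      intro c hc
      have := Wf_exits hK hc
      exact ⟨by omega, (mem_ex.1 hc).1, this.2⟩
    -- inside `b`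
    have h6 : ∑ c ∈ E.filter (fun c => iv c ⊆ iv b), len c ≤ al V (d - 1) b := by
      unfold al
      refine Finset.sum_le_sum_of_subset_of_nonneg ?_ fun q _ _ => (Growth.len_pos q).le
      intro c hc
      have := Finset.mem_filter.1 hc
      have h7 := h5 c this.1
      exact Finset.mem_filter.2 ⟨h7.2.1, h7.1, this.2⟩
    -- outside `b`
    have h7 : ∑ c ∈ E.filter (fun c => ¬ iv c ⊆ iv b), len c + len b ≤ len K := by
      have hnot : b ∉ E.filter (fun c => ¬ iv c ⊆ iv b) := by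
        intro h
        exact (Finset.mem_filter.1 h).2 subset_rfl
      have h8 : ∑ c ∈ insert b (E.filter (fun c => ¬ iv c ⊆ iv b)), len c ≤ len K := by
        have hcb : ∀ c ∈ E.filter (fun c => ¬ iv c ⊆ iv b), Disjoint (iv c) (iv b) := by
          intro c hc
          have h9 := Finset.mem_filter.1 hc
          have h10 := (h5 c h9.1).1
          rw [Finset.disjoint_left]
          intro y hy hy'
          exact h9.2 (sub_of_level hy hy' (by omega))
        refine sum_len_disj _ K (fun c hc => ?_) ?_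
        · rcases Finset.mem_insert.1 hc with h | h
          · rw [h]; exact hb2
          · exact (h5 c (Finset.mem_filter.1 h).1).2.2
        · intro c hc c' hc' hne
          rcases Finset.mem_insert.1 hc with h | h <;> rcases Finset.mem_insert.1 hc' with h' | h'
          · exact absurd (h.trans h'.symm) hne
          · rw [h]; exact (hcb c' h').symm
          · rw [h']; exact hcb c h
          · exact disj_level ((h5 c (Finset.mem_filter.1 h).1).1.trans
              (h5 c' (Finset.mem_filter.1 h').1).1.symm) hne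
      rw [Finset.sum_insert hnot] at h8
      linarith
    have h8 := Finset.sum_filter_add_sum_filter_not E (fun c => iv c ⊆ iv b) len
    have h9 : (1 - 1 / 2 ^ (k0 + 1)) * len K = len K - len b / 2 := by
      rw [hlb, pow_succ]
      field_simp
    rw [h9]
    linarith

lemma mA_le (hk : 1 ≤ k0) (hkj : k0 ≤ j0) (hB : ¬ CB V k0 j0 n0 K) :
    mA V k0 j0 n0 K ≤ K.1 := by
  rcases mA_spec hk hkj hB with ⟨_, h2⟩ | ⟨h1, h2, h3, h4⟩ <;> omega

/-! ### both cases -/

lemma UU_full (hV : Full V P) (hK : K ∈ V) (hk : 1 ≤ k0) (hkj : k0 ≤ j0) :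
    Full (UU V k0 j0 n0 K) K := by
  classical
  unfold UU
  split_ifs with hB
  · exact UB_full hV hK
  · exact Wf_full hV hK (mA_le hk hkj hB)

lemma UU_sub : UU V k0 j0 n0 K ⊆ V := by
  classical
  unfold UU
  split_ifs with hB
  · exact UB_sub
  · exact Wf_sub

/-- **total length of the exits** -/
theorem UU_ex_le (hV : Full V P) (hK : K ∈ V) (hk : 4 ≤ k0) (hkj : k0 ≤ j0) :
    ∑ c ∈ ex V (UU V k0 j0 n0 K), len c ≤ (1 - 1 / 2 ^ (k0 + 1)) * len K := by
  classical
  unfold UU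
  split_ifs with hB
  · refine (UB_ex_le hV hK (by omega) hB.1).trans ?_
    refine mul_le_mul_of_nonneg_right ?_ (Growth.len_pos K).le
    have h1 : (1 : ℝ) / 2 ^ (k0 + 1) ≤ 1 / 2 ^ 2 :=
      one_div_le_one_div_of_le (by norm_num) (pow_le_pow_right₀ (by norm_num) (by omega))
    linarith
  · exact WA_ex_le hK (by omega) hkj hB

/-- nodes of the window, case A: all near -/
lemma UU_near (hk : 1 ≤ k0) (hkj : k0 ≤ j0) (hB : ¬ CB V k0 j0 n0 K) {q : Nd}
    (hq : q ∈ UU V k0 j0 n0 K) : K.1 < j0 + n0 ∨ K.1 < q.1 + j0 := by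
  classical
  unfold UU at hq
  rw [if_neg hB] at hq
  have h := mem_Wf.1 hq
  rcases mA_spec hk hkj hB with ⟨h1, _⟩ | ⟨h1, h2, h3, h4⟩
  · exact Or.inl h1
  · exact Or.inr (by omega)

/-- nodes of the window, case B -/
lemma UU_caseB (hB : CB V k0 j0 n0 K) : UU V k0 j0 n0 K = UB V j0 n0 K := by
  classical
  unfold UU
  rw [if_pos hB]

end Crest.Agent.R079.SbWx795
end

-- ▼ part R079/HW_323
section

/-! R079, notes 1119 (helper55) + 1128 (helper323): THE TREE LEMMA of the windows with holes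
(helper323).

Every window `K` has ONE exit depth `dp K`; its range `rg K (dp K)` has pointwise `dev + acc ≤ μ s`,
average drift `≤ μ² s`, dead exits of total length `≤ μ len K`; the node set is cut by the look-ahead
quantity `E K (dp K) p ≤ ω μ s`.  Number of windows `≤ 4 / μ * len J + 16 / (μ² s) * drift`;
energies `∑ (rd + μ s dl) ≤ 16 (drift + μ s len J)`. -/

set_option autoImplicit false

namespace Crest.Agent.R079.HWx323

open Finset Crest.Agent.R079.Grid Crest.Agent.R079.Growth Crest.Agent.R079.QRed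
  Crest.Agent.R079.TWin Crest.Agent.R079.Qe292 Crest.Agent.R079.Qh249
  Crest.Agent.R079.GLA110 Crest.Agent.R079.Chn110


/-- look-ahead hypothesis -/
def LA (R : Finset Nd) (V : Nd → Finset Nd) (D : Nd → ℝ) (dev : Nd → Nd → ℝ) (E : Nd → ℕ → Nd → ℝ)
    (μ s Λ : ℝ) : Prop :=
  ∀ K ∈ R, ∀ d ≤ K.1, rd V D dev (μ * s) K d ≤ μ ^ 2 * s * len K →
    dl R V D dev (μ * s) K d ≤ μ * len K →
    ∀ A ⊆ rg V D dev (μ * s) K d, (∀ c ∈ A, ∀ c' ∈ A, c ≠ c' → Disjoint (iv c) (iv c')) →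
      ∑ p ∈ A, len p * E K d p ≤
        Λ * (rd V D dev (μ * s) K d + μ * s * dl R V D dev (μ * s) K d)

variable {R : Finset Nd} {J I : Nd} {D : Nd → ℝ} {dev : Nd → Nd → ℝ} {V : Nd → Finset Nd}
  {E : Nd → ℕ → Nd → ℝ} {μ s Λ ω : ℝ} {W0 : Finset Nd}








open Classical in
/-- own drift and the drift of the next regions -/
lemma own_add_dr (hW : Full W0 I) (hWR : W0 ⊆ R) (hD : ∀ q, 0 ≤ D q) :
    own R D W0 + ∑ x ∈ ex R W0, dr R D x ≤ dr R D I := by
  unfold own dr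
  rw [← Finset.sum_biUnion, ← Finset.sum_union]
  · refine Finset.sum_le_sum_of_subset_of_nonneg ?_
      fun q _ _ => mul_nonneg (Growth.len_pos q).le (hD q)
    intro q hq
    rw [Finset.mem_filter, Finset.mem_sdiff]
    rcases Finset.mem_union.1 hq with h1 | h1
    · rw [Finset.mem_filter] at h1
      exact ⟨⟨hWR h1.1, h1.2⟩, hW.reg.1 q h1.1⟩
    · obtain ⟨x, hx, h1⟩ := Finset.mem_biUnion.1 h1
      rw [Finset.mem_filter, Finset.mem_sdiff] at h1
      exact ⟨h1.1, h1.2.trans (ex_sub hW hx)⟩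
  · rw [Finset.disjoint_left]
    intro q hq hq'
    obtain ⟨x, hx, h1⟩ := Finset.mem_biUnion.1 hq'
    rw [Finset.mem_filter] at h1 hq
    exact ex_notMem hW hx h1.2 hq.1
  · intro x hx x' hx' hne
    rw [Function.onFun, Finset.disjoint_left]
    intro q hq hq'
    rw [Finset.mem_filter] at hq hq'
    exact hne (ex_disj hW (by exact_mod_cast hx) (by exact_mod_cast hx') hq.2 hq'.2)







end Crest.Agent.R079.HWx323
end

-- ▼ part R079/SbY_795

/-! R079, notes 1820 + 1922 (helper228), line (T2), part (c) (helper795): THE TREE OF THE SUB-WINDOWS.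

For every `K ∈ R` (region `R`, field `D`, `dev`):
* `VK R D dev μ K` = range of `K` (nodes of `R` below `K`, above the stops of `gs D dev K ≤ μ`);
* `UU (VK K) k0 j0 n0 K` = structural window (case A / case B, `SbX_795`);
* `WW K = Wd (UU ..) (Er K) (ω μ) K` = minus what is below the spots of `Er K`.
Exits of `WW K` inside `R`: total length `≤ (1 - 2^{-(k0+2)}) len K + 4 / μ * own R D (WW K)`.

**`treeO`** : hypothesis (HE) for every antichain of the structural window ⇒ `GnS_263.TreeO` with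
`Rg = VK`, `dlt = len`. -/

set_option autoImplicit false

namespace Crest.Agent.R079.SbWx795

open Finset Crest.Agent.R079.Grid Crest.Agent.R079.Growth Crest.Agent.R079.QRed
  Crest.Agent.R079.TWin Crest.Agent.R079.Qe292 Crest.Agent.R079.Qh249
  Crest.Agent.R079.GLA110 Crest.Agent.R079.Chn110 Crest.Agent.R079.HWx323

variable {R : Finset Nd} {J I K : Nd} {W : Nd → Finset Nd} {θ B : ℝ} {D : Nd → ℝ}
  {dev : Nd → Nd → ℝ} {μ ω L τ : ℝ} {Er : Nd → Nd → ℝ} {k0 j0 n0 : ℕ}

/-! ### geometric recursion with own payments -/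

/-- every node of `R` carries a window whose exits cost `θ len K + B * own`: total length -/
theorem geo_own (hR : Full R J) (hD : ∀ q, 0 ≤ D q) (hB : 0 ≤ B) (hθ1 : θ < 1)
    (hW : ∀ K ∈ R, Full (W K) K) (hWR : ∀ K ∈ R, W K ⊆ R)
    (hex : ∀ K ∈ R, ∑ c ∈ ex R (W K), len c ≤ θ * len K + B * own R D (W K)) :
    ∃ S : Finset Nd, Part R S W (∑ K ∈ S, len K) ∧
      (1 - θ) * ∑ K ∈ S, len K ≤ len J + B * dr R D J := by
  classical
  have hrec : ∀ (n : ℕ) (I : Nd), I ∈ R → I.1 < n → ∃ S : Finset Nd, S ⊆ R ∧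
      (∀ K ∈ S, iv K ⊆ iv I) ∧
      (∀ K ∈ S, ∀ K' ∈ S, K ≠ K' → Disjoint (W K) (W K')) ∧
      (∀ p ∈ R, iv p ⊆ iv I → ∃ K ∈ S, p ∈ W K) ∧
      (1 - θ) * ∑ K ∈ S, len K ≤ len I + B * dr R D I := by
    intro n
    induction n with
    | zero => intro I _ h; omega
    | succ n ih =>
      intro I hI hn
      have hWI := hW I hI
      have hexR : ∀ c : Nd, ∃ S : Finset Nd, c ∈ ex R (W I) → (S ⊆ R ∧ (∀ K ∈ S, iv K ⊆ iv c) ∧
        (∀ K ∈ S, ∀ K' ∈ S, K ≠ K' → Disjoint (W K) (W K')) ∧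
        (∀ p ∈ R, iv p ⊆ iv c → ∃ K ∈ S, p ∈ W K) ∧
        (1 - θ) * ∑ K ∈ S, len K ≤ len c + B * dr R D c) := by
        intro c
        by_cases hc : c ∈ ex R (W I)
        · have hl := ex_level hWI hc
          obtain ⟨S, hS⟩ := ih c (mem_ex.1 hc).1 (by omega)
          exact ⟨S, fun _ => hS⟩
        · exact ⟨∅, fun h => absurd h hc⟩
      choose S hS using hexR
      have hd : Set.PairwiseDisjoint (ex R (W I) : Set Nd) S := by
        intro c hc c' hc' hne
        rw [Function.onFun, Finset.disjoint_left]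
        intro K hK hK'
        exact hne (ex_disj hWI (by exact_mod_cast hc) (by exact_mod_cast hc')
          ((hS c (by exact_mod_cast hc)).2.1 K hK)
          ((hS c' (by exact_mod_cast hc')).2.1 K hK'))
      refine ⟨{I} ∪ (ex R (W I)).biUnion S, ?_, ?_, ?_, ?_, ?_⟩
      · refine Finset.union_subset (Finset.singleton_subset_iff.2 hI) ?_
        exact Finset.biUnion_subset.2 fun c hc => (hS c hc).1
      · intro K hK
        rcases Finset.mem_union.1 hK with h | h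
        · rw [Finset.mem_singleton.1 h]
        · obtain ⟨c, hc, hKc⟩ := Finset.mem_biUnion.1 h
          exact ((hS c hc).2.1 K hKc).trans (ex_sub hWI hc)
      · have hA : ∀ K ∈ (ex R (W I)).biUnion S, Disjoint (W I) (W K) := by
          intro K hK
          obtain ⟨c, hc, hKc⟩ := Finset.mem_biUnion.1 hK
          rw [Finset.disjoint_left]
          intro p hpI hpK
          have hKR := (hS c hc).1 hKc
          have h1 : iv p ⊆ iv c := ((hW K hKR).reg.1 p hpK).trans ((hS c hc).2.1 K hKc)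
          exact ex_notMem hWI hc h1 hpI
        intro K hK K' hK' hne
        rcases Finset.mem_union.1 hK with h | h <;> rcases Finset.mem_union.1 hK' with h' | h'
        · rw [Finset.mem_singleton.1 h, Finset.mem_singleton.1 h'] at hne
          exact absurd rfl hne
        · rw [Finset.mem_singleton.1 h]
          exact hA K' h'
        · rw [Finset.mem_singleton.1 h']
          exact (hA K h).symm
        · obtain ⟨c, hc, hKc⟩ := Finset.mem_biUnion.1 h
          obtain ⟨c', hc', hKc'⟩ := Finset.mem_biUnion.1 h'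
          by_cases hcc : c = c'
          · subst hcc
            exact (hS c hc).2.2.1 K hKc K' hKc' hne
          · rw [Finset.disjoint_left]
            intro p hp hp'
            exact hcc (ex_disj hWI hc hc'
              (((hW K ((hS c hc).1 hKc)).reg.1 p hp).trans ((hS c hc).2.1 K hKc))
              (((hW K' ((hS c' hc').1 hKc')).reg.1 p hp').trans ((hS c' hc').2.1 K' hKc')))
      · intro p hp hpI
        by_cases hw : p ∈ W I
        · exact ⟨I, Finset.mem_union_left _ (Finset.mem_singleton_self I), hw⟩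
        · obtain ⟨c, hc, hpc⟩ := ex_cover' hR hWI (hWR I hI) hp hpI hw
          obtain ⟨K, hK, hK'⟩ := (hS c hc).2.2.2.1 p hp hpc
          exact ⟨K, Finset.mem_union_right _ (Finset.mem_biUnion.2 ⟨c, hc, hK⟩), hK'⟩
      · have h1 : ∑ K ∈ {I} ∪ (ex R (W I)).biUnion S, len K
            ≤ len I + ∑ c ∈ ex R (W I), ∑ K ∈ S c, len K := by
          rw [← Finset.sum_biUnion hd]
          have := Finset.sum_union_inter (s₁ := ({I} : Finset Nd))
            (s₂ := (ex R (W I)).biUnion S) (f := len)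
          rw [Finset.sum_singleton] at this
          have h0 : 0 ≤ ∑ K ∈ {I} ∩ (ex R (W I)).biUnion S, len K :=
            Finset.sum_nonneg fun K _ => (Growth.len_pos K).le
          linarith
        have h2 := mul_le_mul_of_nonneg_left h1 (by linarith : 0 ≤ 1 - θ)
        have h3 : (1 - θ) * ∑ c ∈ ex R (W I), ∑ K ∈ S c, len K ≤
            ∑ c ∈ ex R (W I), (len c + B * dr R D c) := by
          rw [Finset.mul_sum]
          exact Finset.sum_le_sum fun c hc => (hS c hc).2.2.2.2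
        rw [Finset.sum_add_distrib, ← Finset.mul_sum] at h3
        have h4 := hex I hI
        have h5 := mul_le_mul_of_nonneg_left (own_add_dr hWI (hWR I hI) hD) hB
        rw [mul_add] at h5
        linarith
  obtain ⟨S, hSR, _, hSd, hSc, hcnt⟩ := hrec (J.1 + 1) J hR.top (Nat.lt_succ_self _)
  refine ⟨S, ⟨hSR, fun K hK => hW K (hSR hK), fun K hK => hWR K (hSR hK), hSd,
    fun p hp => hSc p hp (hR.reg.1 p hp), fun p _ => ?_⟩, hcnt⟩
  have h0 : 0 ≤ ∑ K ∈ S, len K := Finset.sum_nonneg fun K _ => (Growth.len_pos K).le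
  have h1 : 1 ≤ len p := by
    unfold len
    exact one_le_pow₀ (by norm_num)
  refine (Finset.sum_le_sum_of_subset_of_nonneg (Finset.filter_subset _ _)
    fun K _ _ => (Growth.len_pos K).le).trans ?_
  nlinarith

/-! ### the windows -/

/-- range of the top `K` -/
noncomputable def VK (R : Finset Nd) (D : Nd → ℝ) (dev : Nd → Nd → ℝ) (μ : ℝ) (K : Nd) :
    Finset Nd :=
  rg (fun K => Wf R K 0) D dev μ K 0

lemma VK_full (hR : Full R J) (hK : K ∈ R) : Full (VK R D dev μ K) K :=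
  rg_full (V := fun K => Wf R K 0) (Wf_full hR hK (Nat.zero_le _)) (Nat.zero_le _)

lemma VK_sub : VK R D dev μ K ⊆ R := fun _ hp => Wf_sub (rg_subV hp)

lemma VK_good (h : FldH R D dev) (hμ : 0 ≤ μ) {p : Nd} (hp : p ∈ VK R D dev μ K) :
    gs D dev K p ≤ μ := rg_good h hμ hp

/-- total drift of the range -/
lemma VK_drift (hR : Full R J) (h : FldH R D dev) (hμ : 0 ≤ μ) (hK : K ∈ R) :
    ∑ q ∈ VK R D dev μ K \ lf (VK R D dev μ K), len q * D q ≤ μ * len K := by
  classical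
  have hF := VK_full (D := D) (dev := dev) (μ := μ) hR hK
  have h1 := drift_below_le (τ := μ) hF h.D0 (fun L hL => by
    have h2 := VK_good h hμ hL
    unfold gs at h2
    linarith [h.dev0 K L]) hF.top
  refine le_trans (le_of_eq ?_) h1
  refine Finset.sum_congr ?_ fun _ _ => rfl
  exact (Finset.filter_eq_self.2 fun q hq => hF.reg.1 q (Finset.mem_sdiff.1 hq).1).symm

/-- **stops of the field**: the exits of a window which leave the range are paid by its own drift -/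
theorem stops_le (hR : Full R J) (h : FldH R D dev) (hμ : 0 < μ) (hK : K ∈ R)
    {W : Finset Nd} (hW : Full W K) (hWV : W ⊆ VK R D dev μ K) :
    ∑ c ∈ (ex R W).filter (fun c => c ∉ VK R D dev μ K), len c ≤ 4 / μ * own R D W := by
  classical
  have hF := VK_full (D := D) (dev := dev) (μ := μ) hR hK
  have hWR : W ⊆ R := hWV.trans VK_sub
  set A := (ex R W).filter (fun c => c ∉ VK R D dev μ K) with hA
  have mA : ∀ {c}, c ∈ A ↔ (c ∈ R ∧ c ∉ W ∧ par c ∈ W) ∧ c ∉ VK R D dev μ K := by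
    intro c
    rw [hA, Finset.mem_filter, mem_ex]
  have hAW : ∀ c ∈ A, par c ∈ W := fun c hc => (mA.1 hc).1.2.2
  have hAs : ∀ c ∈ A, sib c ∈ A := by
    intro c hc
    have hm := mA.1 hc
    have h1 : sib c ∈ ex R W := ex_sib hR hW hWR (mem_ex.2 hm.1)
    refine mA.2 ⟨mem_ex.1 h1, fun hs => hm.2 ?_⟩
    have h2 := sib_mem hF hs (by rw [par_sib]; exact hWV hm.1.2.2)
    rwa [sib_sib] at h2
  have hAn : ∀ c ∈ A, c ∉ W := fun c hc => (mA.1 hc).1.2.1
  have hATp : ∀ c ∈ A, c ∈ Tp (Wf (Wf R K 0) K 0) (gs D dev) μ K := by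
    intro c hc
    have hm := mA.1 hc
    have hcK : iv c ⊆ iv K := (iv_par c).trans (hW.reg.1 _ hm.1.2.2)
    exact mem_Tp.2 ⟨mem_Wf.2 ⟨mem_Wf.2 ⟨hm.1.1, hcK, Nat.zero_le _⟩, hcK, Nat.zero_le _⟩, hcK,
      hm.2, hWV hm.1.2.2⟩
  have hfull := full_add hW hAW hAs
  have hlf := add_sub_lf hW hAW hAn
  have hWAR : W ∪ A ⊆ R := Finset.union_subset hWR fun c hc => (mA.1 hc).1.1
  have c0 : ∑ q ∈ (W ∪ A) \ lf (W ∪ A), len q * D q ≤ own R D W := by
    unfold own
    refine Finset.sum_le_sum_of_subset_of_nonneg ?_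
      fun q _ _ => mul_nonneg (Growth.len_pos q).le (h.D0 q)
    intro q hq
    have hq' := Finset.mem_sdiff.1 hq
    refine Finset.mem_filter.2 ⟨?_, (nl_sub hWAR hq'.1 hq'.2).2⟩
    rcases Finset.mem_union.1 hq'.1 with h1 | h1
    · exact h1
    · exact absurd (hlf h1) hq'.2
  have c1 := h.le K hK _ hfull hWAR
  have c2 : ∑ c ∈ A, len c * dev K c ≤ ∑ p ∈ lf (W ∪ A), len p * dev K p :=
    Finset.sum_le_sum_of_subset_of_nonneg hlf fun p _ _ =>
      mul_nonneg (Growth.len_pos p).le (h.dev0 K p)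
  have c3 := acc_lf_eq hfull D
  have c4 : ∑ c ∈ A, len c * acc D K c ≤ ∑ p ∈ lf (W ∪ A), len p * acc D K p :=
    Finset.sum_le_sum_of_subset_of_nonneg hlf fun p _ _ =>
      mul_nonneg (Growth.len_pos p).le (acc_nonneg h.D0 K p)
  have c5 : ∑ c ∈ A, len c * gs D dev K c =
      ∑ c ∈ A, len c * dev K c + ∑ c ∈ A, len c * acc D K c := by
    unfold gs
    simp only [mul_add, Finset.sum_add_distrib]
  have c6 := half_sum (τ := μ) (A := A) (g := gs D dev K) (gs_nonneg h K) hAs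
    fun c hc => Tp_bad (hATp c hc)
  have c7 : μ / 2 * ∑ c ∈ A, len c ≤ 2 * own R D W := by linarith
  have e : 4 / μ * own R D W = (2 * own R D W) / (μ / 2) := by field_simp; ring
  rw [e, le_div_iff₀ (by positivity)]
  linarith

/-- structural window of `K` -/
noncomputable def RK (R : Finset Nd) (D : Nd → ℝ) (dev : Nd → Nd → ℝ) (μ : ℝ) (k0 j0 n0 : ℕ)
    (K : Nd) : Finset Nd := UU (VK R D dev μ K) k0 j0 n0 K

/-- window of `K` -/
noncomputable def WW (R : Finset Nd) (D : Nd → ℝ) (dev : Nd → Nd → ℝ) (μ : ℝ) (k0 j0 n0 : ℕ)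
    (Er : Nd → Nd → ℝ) (τ : ℝ) (K : Nd) : Finset Nd :=
  Wd (RK R D dev μ k0 j0 n0 K) Er τ K

lemma RK_full (hR : Full R J) (hK : K ∈ R) (hk : 1 ≤ k0) (hkj : k0 ≤ j0) :
    Full (RK R D dev μ k0 j0 n0 K) K :=
  UU_full (VK_full hR hK) (VK_full hR hK).top hk hkj

lemma RK_sub : RK R D dev μ k0 j0 n0 K ⊆ VK R D dev μ K := UU_sub

lemma WW_full (hR : Full R J) (hK : K ∈ R) (hk : 1 ≤ k0) (hkj : k0 ≤ j0) :
    Full (WW R D dev μ k0 j0 n0 Er τ K) K :=
  Wd_full (RK_full hR hK hk hkj) (RK_full hR hK hk hkj).top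

lemma WW_sub : WW R D dev μ k0 j0 n0 Er τ K ⊆ RK R D dev μ k0 j0 n0 K := Wd_sub

/-- hypothesis on the error quantity: `L μ` on every antichain of the structural window -/
def HE (R : Finset Nd) (D : Nd → ℝ) (dev : Nd → Nd → ℝ) (μ : ℝ) (k0 j0 n0 : ℕ)
    (Er : Nd → Nd → ℝ) (L : ℝ) : Prop :=
  ∀ K ∈ R, ∀ A ⊆ RK R D dev μ k0 j0 n0 K,
    (∀ c ∈ A, ∀ c' ∈ A, c ≠ c' → Disjoint (iv c) (iv c')) →
    ∑ p ∈ A, len p * Er K p ≤ L * μ * len K

/-- **total length of the exits of the window of `K`** -/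
theorem WW_ex_le (hR : Full R J) (h : FldH R D dev) (hμ : 0 < μ) (hK : K ∈ R) (hk : 4 ≤ k0)
    (hkj : k0 ≤ j0) (hE0 : ∀ K p, 0 ≤ Er K p) (hE : HE R D dev μ k0 j0 n0 Er L) (hω : 0 < ω)
    (hL : 2 ^ (k0 + 3) * L ≤ ω) :
    ∑ c ∈ ex R (WW R D dev μ k0 j0 n0 Er (ω * μ) K), len c ≤
      (1 - 1 / 2 ^ (k0 + 2)) * len K + 4 / μ * own R D (WW R D dev μ k0 j0 n0 Er (ω * μ) K) := by
  classical
  set V := VK R D dev μ K with hV
  set U := RK R D dev μ k0 j0 n0 K with hU
  set W := WW R D dev μ k0 j0 n0 Er (ω * μ) K with hW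
  have hVF : Full V K := VK_full hR hK
  have hUF : Full U K := RK_full hR hK (by omega) hkj
  have hWF : Full W K := WW_full hR hK (by omega) hkj
  have hWU : W ⊆ U := WW_sub
  have hUV : U ⊆ V := RK_sub
  have h1 : ∑ c ∈ (ex R W).filter (fun c => c ∉ V), len c ≤ 4 / μ * own R D W :=
    stops_le hR h hμ hK hWF (hWU.trans hUV)
  have h2 : ∑ c ∈ ex V U, len c ≤ (1 - 1 / 2 ^ (k0 + 1)) * len K :=
    UU_ex_le (V := V) (P := K) (k0 := k0) (j0 := j0) (n0 := n0) hVF hVF.top hk hkj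
  -- spots
  set T := Tp U Er (ω * μ) K with hT
  have hTW : W = Wd U Er (ω * μ) K := rfl
  have hTd : ∀ c ∈ T, ∀ c' ∈ T, c ≠ c' → Disjoint (iv c) (iv c') := by
    intro c hc c' hc' hne
    rw [Finset.disjoint_left]
    intro y hy hy'
    rcases iv_nest hy hy' with h3 | h3
    · exact hne (Tp_disj hUF hUF.top hc hc' subset_rfl h3)
    · exact hne (Tp_disj hUF hUF.top hc hc' h3 subset_rfl)
  have h3 : ω * μ / 2 * ∑ c ∈ T, len c ≤ ∑ c ∈ T, len c * Er K c :=
    half_sum (hE0 K) (fun c hc => Tp_sib hUF hc) fun c hc => Tp_bad hc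
  have h4 := hE K hK T (fun c hc => (mem_Tp.1 hc).1) hTd
  have h5 : ∑ c ∈ T, len c ≤ 1 / 2 ^ (k0 + 2) * len K := by
    have h6 : ω * μ / 2 * ∑ c ∈ T, len c ≤ ω * μ / 2 * (1 / 2 ^ (k0 + 2) * len K) := by
      refine (h3.trans h4).trans ?_
      have h7 : ω * μ / 2 * (1 / 2 ^ (k0 + 2) * len K) = ω / 2 ^ (k0 + 3) * (μ * len K) := by
        have e2 : (2 : ℝ) ^ (k0 + 3) = 2 * 2 ^ (k0 + 2) := by ring
        rw [e2]
        field_simp
      rw [h7, mul_assoc]
      refine mul_le_mul_of_nonneg_right ?_ (mul_nonneg hμ.le (Growth.len_pos K).le)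
      rw [le_div_iff₀ (by positivity)]
      linarith
    exact le_of_mul_le_mul_left h6 (by positivity)
  -- the exits
  have hsub : ex R W ⊆ (ex R W).filter (fun c => c ∉ V) ∪ (ex V U ∪ T) := by
    intro c hc
    have hm := mem_ex.1 hc
    by_cases hcV : c ∈ V
    · refine Finset.mem_union_right _ ?_
      by_cases hcU : c ∈ U
      · refine Finset.mem_union_right _ (mem_Tp.2 ⟨hcU, hUF.reg.1 c hcU, hm.2.1, hm.2.2⟩)
      · exact Finset.mem_union_left _ (mem_ex.2 ⟨hcV, hcU, hWU hm.2.2⟩)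
    · exact Finset.mem_union_left _ (Finset.mem_filter.2 ⟨hc, hcV⟩)
  have hun : ∀ T T' : Finset Nd, ∑ c ∈ T ∪ T', len c ≤ ∑ c ∈ T, len c + ∑ c ∈ T', len c := by
    intro T T'
    have h8 := Finset.sum_union_inter (s₁ := T) (s₂ := T') (f := len)
    have h9 : 0 ≤ ∑ c ∈ T ∩ T', len c := Finset.sum_nonneg fun c _ => (Growth.len_pos c).le
    linarith
  have h6 := Finset.sum_le_sum_of_subset_of_nonneg hsub fun c _ _ => (Growth.len_pos c).le
  have h7 := hun ((ex R W).filter (fun c => c ∉ V)) (ex V U ∪ T)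
  have h8 := hun (ex V U) T
  have h9 : (1 - 1 / 2 ^ (k0 + 2)) * len K =
      (1 - 1 / 2 ^ (k0 + 1)) * len K + 1 / 2 ^ (k0 + 2) * len K := by
    have e2 : (2 : ℝ) ^ (k0 + 2) = 2 * 2 ^ (k0 + 1) := by ring
    rw [e2]
    field_simp
    ring
  rw [h9]
  linarith

open Crest.Agent.R079.GnSx263 (TreeO)

/-- **THE TREE** -/
theorem treeO (hR : Full R J) (h : FldH R D dev) (hμ : 0 < μ) (hμ1 : μ ≤ 1) (hk : 4 ≤ k0)
    (hkj : k0 ≤ j0) (hE0 : ∀ K p, 0 ≤ Er K p) (hE : HE R D dev μ k0 j0 n0 Er L) (hω : 0 < ω)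
    (hL : 2 ^ (k0 + 3) * L ≤ ω) :
    ∃ S : Finset Nd, TreeO R J D dev μ ω (2 ^ (k0 + 5)) S
      (WW R D dev μ k0 j0 n0 Er (ω * μ)) (VK R D dev μ) len Er := by
  classical
  set W := WW R D dev μ k0 j0 n0 Er (ω * μ) with hW
  have hpk : (0 : ℝ) < 2 ^ (k0 + 2) := by positivity
  have hlJ := (Growth.len_pos J).le
  have hdr := dr_nonneg (R := R) h.D0 J
  obtain ⟨S, hP, hcnt⟩ := geo_own (W := W) (θ := 1 - 1 / 2 ^ (k0 + 2)) (B := 4 / μ) hR h.D0
    (by positivity) (by linarith [show (0 : ℝ) < 1 / 2 ^ (k0 + 2) by positivity])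
    (fun K hK => WW_full hR hK (by omega) hkj)
    (fun K hK => (WW_sub.trans RK_sub).trans VK_sub)
    (fun K hK => WW_ex_le hR h hμ hK hk hkj hE0 hE hω hL)
  have hcnt2 : ∑ K ∈ S, len K ≤ 2 ^ (k0 + 2) * (len J + 4 / μ * dr R D J) := by
    have e : (1 - (1 - 1 / 2 ^ (k0 + 2))) * ∑ K ∈ S, len K = (∑ K ∈ S, len K) / 2 ^ (k0 + 2) := by
      ring
    rw [e, div_le_iff₀ hpk] at hcnt
    linarith
  have h2k : (2 : ℝ) ^ (k0 + 5) = 8 * 2 ^ (k0 + 2) := by
    rw [show k0 + 5 = (k0 + 2) + 3 by omega, pow_add]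
    norm_num
    ring
  refine ⟨S, ⟨⟨_, hP⟩, fun K hK => VK_full hR (hP.sub hK), fun K _ => WW_sub.trans RK_sub,
    fun K hK p hp => VK_good h hμ.le hp, fun K hK p hp => ?_, ?_, ?_⟩⟩
  · -- err
    have hKR := hP.sub hK
    by_cases hpK : p = K
    · have h1 := hE K hKR {K} (Finset.singleton_subset_iff.2
        (RK_full hR hKR (by omega) hkj).top) (by
          intro c hc c' hc' hne
          rw [Finset.mem_singleton] at hc hc'
          exact absurd (hc.trans hc'.symm) hne)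
      rw [Finset.sum_singleton] at h1
      have hl := Growth.len_pos K
      have h2 : Er K K ≤ L * μ := by
        have h3 : len K * Er K K ≤ len K * (L * μ) := by linarith
        exact le_of_mul_le_mul_left h3 hl
      rw [hpK]
      have h4 : L ≤ ω := by
        rcases le_or_gt 0 L with hL0 | hL0
        · have : (1 : ℝ) ≤ 2 ^ (k0 + 3) := one_le_pow₀ (by norm_num)
          nlinarith
        · linarith
      nlinarith
    · have := mem_Wd.1 hp
      exact (this.2.2 p this.1 subset_rfl this.2.1 hpK).1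
  · -- count
    refine hcnt2.trans ?_
    rw [h2k]
    have h1 : len J ≤ len J / μ := by
      rw [le_div_iff₀ hμ]
      nlinarith
    have h2 : 4 / μ * dr R D J ≤ 4 * (dr R D J / μ ^ 2) := by
      have h3 : dr R D J / μ ≤ dr R D J / μ ^ 2 := by
        refine div_le_div_of_nonneg_left hdr (by positivity) ?_
        nlinarith
      have e : 4 / μ * dr R D J = 4 * (dr R D J / μ) := by ring
      rw [e]
      linarith
    have h3 : 0 ≤ dr R D J / μ ^ 2 := by positivity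
    have h4 : 0 ≤ len J / μ := by positivity
    have h5 : len J + 4 / μ * dr R D J ≤ 8 * (len J / μ + dr R D J / μ ^ 2) := by linarith
    have h6 := mul_le_mul_of_nonneg_left h5 hpk.le
    linarith
  · -- energy
    have h1 : ∀ K ∈ S, ∑ q ∈ VK R D dev μ K \ lf (VK R D dev μ K), len q * D q + μ * len K ≤
        2 * μ * len K := fun K hK => by
      have := VK_drift hR h hμ.le (hP.sub hK)
      linarith
    refine (Finset.sum_le_sum h1).trans ?_
    rw [← Finset.mul_sum]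
    have h2 := mul_le_mul_of_nonneg_left hcnt2 (by positivity : 0 ≤ 2 * μ)
    refine h2.trans ?_
    have e : 2 * μ * (2 ^ (k0 + 2) * (len J + 4 / μ * dr R D J)) =
        2 ^ (k0 + 2) * (2 * (μ * len J) + 8 * dr R D J) := by
      field_simp
      ring
    rw [e, h2k]
    have h3 : 0 ≤ μ * len J := by positivity
    have h4 : 2 * (μ * len J) + 8 * dr R D J ≤ 8 * (dr R D J + μ * len J) := by linarith
    have h5 := mul_le_mul_of_nonneg_left h4 hpk.le
    linarith

end Crest.Agent.R079.SbWx795
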