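import Crest.Agent.R079.R244Defs_491
import Mathlib.NumberTheory.LegendreSymbol.AddCharacter

/-! R079, Step II (II.1), X word (helper988): a family of bounded kernels `X a x y` living in strips
`c a ≤ γ x + δ y < c a + L` whose pairing with all products `u a x * v a y` of functions of modulus
`≤ 1` is `≤ Λ` has small Schatten-4 box energies: the sum of `e4` over ALL box positions of side `N`
is `≤ κ H³ Λ` if `L ≤ κ N`. -/

set_option autoImplicit false
set_option linter.unusedVariables false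

namespace Crest.Agent.R079.XDual988

open Finset Crest.Agent.R079.R244

/-- squares of sums -/
lemma normSq_sum {s : Finset ℕ} (f : ℕ → ℂ) :
    ((‖∑ i ∈ s, f i‖ ^ 2 : ℝ) : ℂ) = ∑ i ∈ s, ∑ i' ∈ s, f i * (starRingEnd ℂ) (f i') := by
  have h : ((‖∑ i ∈ s, f i‖ ^ 2 : ℝ) : ℂ) =
      (∑ i ∈ s, f i) * (starRingEnd ℂ) (∑ i ∈ s, f i) := by
    rw [Complex.mul_conj, Complex.normSq_eq_norm_sq]
  rw [h, map_sum, Finset.sum_mul_sum]

/-- orthogonality of characters: indicator of `n = 0` for `|n| < M` -/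
lemma ind_char (M : ℕ) [NeZero M] (n : ℤ) (hn : n.natAbs < M) :
    (if n = 0 then (1 : ℂ) else 0) =
      (1 / (M : ℂ)) * ∑ r : ZMod M, ZMod.stdAddChar (r * (n : ZMod M)) := by
  rw [AddChar.sum_mulShift _ (ZMod.isPrimitive_stdAddChar M)]
  have hM : (M : ℂ) ≠ 0 := by exact_mod_cast NeZero.ne M
  by_cases h : n = 0
  · subst h
    simp [hM, ZMod.card]
  · rw [if_neg h, if_neg]
    · simp
    intro h0
    rw [ZMod.intCast_zmod_eq_zero_iff_dvd] at h0
    have h1 := Int.natAbs_dvd_natAbs.2 h0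
    rw [Int.natAbs_natCast] at h1
    have h2 := Nat.le_of_dvd (Int.natAbs_pos.2 h) h1
    omega

/-- tiles -/
lemma sum_tile {E : Type*} [AddCommMonoid E] (N : ℕ) (hN : 0 < N) (B o : ℤ) (g : ℤ → ℤ → E) :
    ∑ k ∈ Ico (-B) B, ∑ i ∈ range N, g k (o + k * N + (i : ℤ)) =
      ∑ x ∈ Ico (o - B * N) (o + B * N), g ((x - o) / N) x := by
  have hNz : (0 : ℤ) < N := by exact_mod_cast hN
  rw [← Finset.sum_product']
  refine Finset.sum_nbij' (fun t => o + t.1 * N + (t.2 : ℤ))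
    (fun x => ((x - o) / N, ((x - o) % N).toNat)) ?_ ?_ ?_ ?_ ?_
  · rintro ⟨k, i⟩ ht
    simp only [Finset.mem_product, Finset.mem_Ico, Finset.mem_range] at ht ⊢
    obtain ⟨⟨h1, h2⟩, h3⟩ := ht
    have h3' : (i : ℤ) < N := by exact_mod_cast h3
    constructor <;> nlinarith
  · intro x hx
    simp only [Finset.mem_product, Finset.mem_Ico, Finset.mem_range] at hx ⊢
    have h1 := Int.emod_nonneg (x - o) hNz.ne'
    have h2 := Int.emod_lt_of_pos (x - o) hNz
    have h3 := Int.emod_add_mul_ediv (x - o) N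
    refine ⟨⟨?_, ?_⟩, ?_⟩
    · by_contra hc
      push Not at hc
      nlinarith
    · by_contra hc
      push Not at hc
      nlinarith
    · omega
  · rintro ⟨k, i⟩ ht
    simp only [Finset.mem_product, Finset.mem_Ico, Finset.mem_range] at ht
    have h3' : (i : ℤ) < N := by exact_mod_cast ht.2
    have e : o + k * N + (i : ℤ) - o = (i : ℤ) + N * k := by ring
    simp only [e, Int.add_mul_ediv_left _ _ hNz.ne', Int.add_mul_emod_self_left]
    rw [Int.ediv_eq_zero_of_lt (by positivity) h3', Int.emod_eq_of_lt (by positivity) h3']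
    simp
  · intro x hx
    have h1 := Int.emod_nonneg (x - o) hNz.ne'
    have h3 := Int.emod_add_mul_ediv (x - o) N
    simp only [Int.toNat_of_nonneg h1]
    linarith [mul_comm (N : ℤ) ((x - o) / N)]
  · rintro ⟨k, i⟩ ht
    simp only [Finset.mem_product, Finset.mem_Ico, Finset.mem_range] at ht
    have h3' : (i : ℤ) < N := by exact_mod_cast ht.2
    have e : o + k * N + (i : ℤ) - o = (i : ℤ) + N * k := by ring
    simp only [e, Int.add_mul_ediv_left _ _ hNz.ne']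
    rw [Int.ediv_eq_zero_of_lt (by positivity) h3', zero_add]




lemma swap3 {α β τ : Type*} (s : Finset α) (t : Finset β) (u : Finset τ) (g : α → β → τ → ℂ) :
    ∑ x ∈ s, ∑ y ∈ t, ∑ r ∈ u, g x y r = ∑ r ∈ u, ∑ x ∈ s, ∑ y ∈ t, g x y r := by
  rw [Finset.sum_congr rfl fun x _ => Finset.sum_comm]
  exact Finset.sum_comm

section main

variable {ι : Type*} {A : Finset ι} {ω : ι → ℝ} {X : ι → ℤ → ℤ → ℂ} {H Λ : ℝ} {Tx Ty : Finset ℤ}

/-- level of the family `X` against all products of functions of modulus `≤ 1` -/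
def LevP (A : Finset ι) (ω : ι → ℝ) (X : ι → ℤ → ℤ → ℂ) (Tx Ty : Finset ℤ) (Λ : ℝ) : Prop :=
  ∀ u v : ι → ℤ → ℂ, (∀ a x, ‖u a x‖ ≤ 1) → (∀ a y, ‖v a y‖ ≤ 1) →
    ‖∑ a ∈ A, (ω a : ℂ) * ∑ x ∈ Tx, ∑ y ∈ Ty, X a x y * u a x * v a y‖ ≤ Λ

lemma LevP.scaled (h : LevP A ω X Tx Ty Λ) {hu hv : ℝ} (hu0 : 0 < hu) (hv0 : 0 < hv)
    (u v : ι → ℤ → ℂ) (hu1 : ∀ a x, ‖u a x‖ ≤ hu) (hv1 : ∀ a y, ‖v a y‖ ≤ hv) :
    ‖∑ a ∈ A, (ω a : ℂ) * ∑ x ∈ Tx, ∑ y ∈ Ty, X a x y * u a x * v a y‖ ≤ hu * hv * Λ := by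
  have h1 := h (fun a x => (hu : ℂ)⁻¹ * u a x) (fun a y => (hv : ℂ)⁻¹ * v a y)
    (fun a x => by
      rw [norm_mul, norm_inv, Complex.norm_real, Real.norm_of_nonneg hu0.le, inv_mul_le_iff₀ hu0,
        mul_one]
      exact hu1 a x)
    (fun a y => by
      rw [norm_mul, norm_inv, Complex.norm_real, Real.norm_of_nonneg hv0.le, inv_mul_le_iff₀ hv0,
        mul_one]
      exact hv1 a y)
  have hu2 : (hu : ℂ) ≠ 0 := by exact_mod_cast hu0.ne'
  have hv2 : (hv : ℂ) ≠ 0 := by exact_mod_cast hv0.ne'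
  have e : ∑ a ∈ A, (ω a : ℂ) * ∑ x ∈ Tx, ∑ y ∈ Ty, X a x y * u a x * v a y =
      ((hu * hv : ℝ) : ℂ) * ∑ a ∈ A, (ω a : ℂ) * ∑ x ∈ Tx, ∑ y ∈ Ty,
        X a x y * ((hu : ℂ)⁻¹ * u a x) * ((hv : ℂ)⁻¹ * v a y) := by
    simp only [Finset.mul_sum]
    refine Finset.sum_congr rfl fun a _ => Finset.sum_congr rfl fun x _ =>
      Finset.sum_congr rfl fun y _ => ?_
    push_cast
    field_simp
  rw [e, norm_mul, Complex.norm_real, Real.norm_of_nonneg (by positivity)]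
  exact mul_le_mul_of_nonneg_left h1 (by positivity)

lemma ceil_facts {N : ℕ} (hN : 0 < N) (D : ℤ) :
    D ≤ N * (-((-D) / N)) ∧ N * (-((-D) / N)) < D + N := by
  have hNz : (0 : ℤ) < N := by exact_mod_cast hN
  have h1 := Int.emod_nonneg (-D) hNz.ne'
  have h2 := Int.emod_lt_of_pos (-D) hNz
  have h3 := Int.emod_add_mul_ediv (-D) N
  constructor <;> nlinarith


end main


end Crest.Agent.R079.XDual988
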