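import Crest.Agent.R079.LiftW_429
import Crest.Agent.R079.XDual_988
import Crest.Agent.R079.EW3_990

-- ▼ part R079/Plug_429
section

/-! R079, Step II glue (g2) (helper429): static windows of the frozen kernel `c z z' * F (α w + γ z + δ z')`,
main part = mixture of products `u w z * v w z'`, `S₂`-small error `E`, `S₄`-small error `X`. -/

set_option autoImplicit false
set_option linter.unusedVariables false

namespace Crest.Agent.R079.Plug429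

open Finset Crest.Agent.R079.Grid Crest.Agent.R079.Growth Crest.Agent.R079.QRed
  Crest.Agent.R079.TWin Crest.Agent.R079.R244 Crest.Agent.R079.F24

open Classical in
/-- a function of `(w, z, z')` on the lifted line: `y` = shadow, `k` = code of `(z, z')` -/
noncomputable def Lf (P : Finset (ℤ × ℤ)) (enc : ℤ × ℤ → ℕ) (α γ δ : ℤ)
    (G : ℤ → ℤ → ℤ → ℂ) (y : ℤ) (k : ℕ) : ℂ :=
  ∑ q ∈ P, if enc q = k ∧ α ∣ y - γ * q.1 - δ * q.2 then
    G ((y - γ * q.1 - δ * q.2) / α) q.1 q.2 else 0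

variable {P : Finset (ℤ × ℤ)} {enc : ℤ × ℤ → ℕ} {α γ δ : ℤ} {G : ℤ → ℤ → ℤ → ℂ}

lemma Lf_enc (hinj : Set.InjOn enc P) (hα : α ≠ 0) {q : ℤ × ℤ} (hq : q ∈ P) (w : ℤ) :
    Lf P enc α γ δ G (α * w + γ * q.1 + δ * q.2) (enc q) = G w q.1 q.2 := by
  unfold Lf
  rw [Finset.sum_eq_single q]
  · have e : α * w + γ * q.1 + δ * q.2 - γ * q.1 - δ * q.2 = α * w := by ring
    rw [e, if_pos ⟨rfl, Dvd.intro _ rfl⟩, Int.mul_ediv_cancel_left _ hα]
  · intro b hb hne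
    rw [if_neg]
    rintro ⟨h, _⟩
    exact hne (hinj hb hq h)
  · intro h
    exact absurd hq h

/-- at most one term -/
lemma Lf_code (hinj : Set.InjOn enc P) (y : ℤ) {q : ℤ × ℤ} (hq : q ∈ P) :
    Lf P enc α γ δ G y (enc q) = if α ∣ y - γ * q.1 - δ * q.2 then
      G ((y - γ * q.1 - δ * q.2) / α) q.1 q.2 else 0 := by
  unfold Lf
  rw [Finset.sum_eq_single q]
  · by_cases h : α ∣ y - γ * q.1 - δ * q.2
    · rw [if_pos ⟨rfl, h⟩, if_pos h]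
    · rw [if_neg (fun h' => h h'.2), if_neg h]
  · intro b hb hne
    rw [if_neg]
    rintro ⟨h, _⟩
    exact hne (hinj hb hq h)
  · intro h
    exact absurd hq h

lemma Lf_zero (y : ℤ) (k : ℕ) (h : ∀ q ∈ P, enc q ≠ k) : Lf P enc α γ δ G y k = 0 := by
  unfold Lf
  refine Finset.sum_eq_zero fun q hq => ?_
  rw [if_neg]
  rintro ⟨h', _⟩
  exact h q hq h'

lemma Lf_norm_le (hinj : Set.InjOn enc P) {B : ℝ} (hB : 0 ≤ B) (hG : ∀ w z z', ‖G w z z'‖ ≤ B)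
    (y : ℤ) (k : ℕ) : ‖Lf P enc α γ δ G y k‖ ≤ B := by
  by_cases h : ∃ q ∈ P, enc q = k
  · obtain ⟨q, hq, rfl⟩ := h
    rw [Lf_code hinj y hq]
    split_ifs
    · exact hG _ _ _
    · simpa using hB
  · rw [Lf_zero y k (fun q hq hk => h ⟨q, hq, hk⟩)]
    simpa using hB

/-- sums over the codes -/
lemma sum_codes (hinj : Set.InjOn enc P) (r : ℕ) (henc : ∀ q ∈ P, enc q < 2 ^ r)
    {β : Type} [AddCommMonoid β] (f : ℕ → β) (hf : ∀ k, (∀ q ∈ P, enc q ≠ k) → f k = 0) :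
    ∑ k ∈ range (2 ^ r), f k = ∑ q ∈ P, f (enc q) := by
  classical
  rw [← Finset.sum_image (f := f) hinj]
  symm
  refine Finset.sum_subset ?_ ?_
  · intro k hk
    obtain ⟨q, hq, rfl⟩ := Finset.mem_image.1 hk
    exact Finset.mem_range.2 (henc q hq)
  · intro k _ hk
    refine hf k fun q hq h => hk ?_
    rw [← h]
    exact Finset.mem_image_of_mem _ hq

/-- one fibre -/
lemma sum_fibre (hα : α ≠ 0) (I A : Finset ℤ) (b : ℤ) (h : ℤ → ℂ) (g : ℤ → ℂ)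
    (hA : ∀ w, w ∉ A → g w = 0) :
    (∑ y ∈ I, if α ∣ y - b then h y * g ((y - b) / α) else 0) =
      ∑ w ∈ A, if α * w + b ∈ I then h (α * w + b) * g w else 0 := by
  classical
  have e1 : (∑ y ∈ I, if α ∣ y - b then h y * g ((y - b) / α) else 0) =
      ∑ y ∈ I.filter (fun y => α ∣ y - b ∧ (y - b) / α ∈ A), h y * g ((y - b) / α) := by
    rw [Finset.sum_filter]
    refine Finset.sum_congr rfl fun y _ => ?_
    by_cases h1 : α ∣ y - b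
    · by_cases h2 : (y - b) / α ∈ A
      · rw [if_pos h1, if_pos ⟨h1, h2⟩]
      · rw [if_pos h1, if_neg (fun h' => h2 h'.2), hA _ h2, mul_zero]
    · rw [if_neg h1, if_neg (fun h' => h1 h'.1)]
  have e2 : (∑ w ∈ A, if α * w + b ∈ I then h (α * w + b) * g w else 0) =
      ∑ w ∈ A.filter (fun w => α * w + b ∈ I), h (α * w + b) * g w := by
    rw [Finset.sum_filter]
  rw [e1, e2]
  refine Finset.sum_nbij' (fun y => (y - b) / α) (fun w => α * w + b) ?_ ?_ ?_ ?_ ?_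
  · intro y hy
    rw [Finset.mem_filter] at hy ⊢
    refine ⟨hy.2.2, ?_⟩
    rw [Int.mul_ediv_cancel' hy.2.1]
    simpa using hy.1
  · intro w hw
    rw [Finset.mem_filter] at hw ⊢
    have e : α * w + b - b = α * w := by ring
    rw [e, Int.mul_ediv_cancel_left _ hα]
    exact ⟨hw.2, Dvd.intro _ rfl, hw.1⟩
  · intro y hy
    rw [Finset.mem_filter] at hy
    rw [Int.mul_ediv_cancel' hy.2.1]
    ring
  · intro w hw
    have e : α * w + b - b = α * w := by ring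
    rw [e, Int.mul_ediv_cancel_left _ hα]
  · intro y hy
    rw [Finset.mem_filter] at hy
    rw [Int.mul_ediv_cancel' hy.2.1]
    congr 2
    ring

lemma sum_Lf (hinj : Set.InjOn enc P) (hα : α ≠ 0) (r : ℕ) (henc : ∀ q ∈ P, enc q < 2 ^ r)
    (I A : Finset ℤ) (hA : ∀ w z z', w ∉ A → G w z z' = 0) (H : ℤ → ℕ → ℂ) :
    ∑ y ∈ I, ∑ k ∈ range (2 ^ r), H y k * Lf P enc α γ δ G y k =
      ∑ q ∈ P, ∑ w ∈ A, if α * w + γ * q.1 + δ * q.2 ∈ I then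
        H (α * w + γ * q.1 + δ * q.2) (enc q) * G w q.1 q.2 else 0 := by
  have h1 : ∀ y, ∑ k ∈ range (2 ^ r), H y k * Lf P enc α γ δ G y k =
      ∑ q ∈ P, H y (enc q) * Lf P enc α γ δ G y (enc q) := by
    intro y
    refine sum_codes hinj r henc (fun k => H y k * Lf P enc α γ δ G y k) fun k hk => ?_
    rw [Lf_zero y k hk, mul_zero]
  rw [Finset.sum_congr rfl fun y _ => h1 y, Finset.sum_comm]
  refine Finset.sum_congr rfl fun q hq => ?_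
  have h2 := sum_fibre (α := α) hα I A (γ * q.1 + δ * q.2) (fun y => H y (enc q))
    (fun w => G w q.1 q.2) (fun w hw => hA w _ _ hw)
  have e3 : ∀ w : ℤ, α * w + (γ * q.1 + δ * q.2) = α * w + γ * q.1 + δ * q.2 := fun w => by ring
  simp only [e3] at h2
  rw [← h2]
  refine Finset.sum_congr rfl fun y _ => ?_
  rw [Lf_code hinj y hq]
  have e4 : y - (γ * q.1 + δ * q.2) = y - γ * q.1 - δ * q.2 := by ring
  rw [e4]
  split_ifs <;> simp

/-- energy of the lifted kernel -/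
lemma energy_Lf (hinj : Set.InjOn enc P) (r : ℕ) (henc : ∀ q ∈ P, enc q < 2 ^ r)
    (c : ℤ → ℤ → ℂ) (F : ℤ → ℂ) (y : ℤ) :
    ∑ k ∈ range (2 ^ r), ‖Lf P enc α γ δ (fun w z z' => c z z' * F (α * w + γ * z + δ * z')) y k‖ ^ 2
      ≤ (∑ q ∈ P, ‖c q.1 q.2‖ ^ 2) * ‖F y‖ ^ 2 := by
  rw [sum_codes hinj r henc (fun k => ‖Lf P enc α γ δ
    (fun w z z' => c z z' * F (α * w + γ * z + δ * z')) y k‖ ^ 2) (fun k hk => by
      rw [Lf_zero y k hk]; simp), Finset.sum_mul]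
  refine Finset.sum_le_sum fun q hq => ?_
  rw [Lf_code hinj y hq]
  split_ifs with h
  · rw [Int.mul_ediv_cancel' h, norm_mul, mul_pow]
    have e : y - γ * q.1 - δ * q.2 + γ * q.1 + δ * q.2 = y := by ring
    rw [e]
  · rw [norm_zero, zero_pow two_ne_zero]
    positivity

open Classical in
/-- back from the lifted line -/
noncomputable def Bk (P : Finset (ℤ × ℤ)) (enc : ℤ × ℤ → ℕ) (α γ δ : ℤ) (lam : ℝ)
    (E : ℤ → ℕ → ℂ) (w z z' : ℤ) : ℂ :=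
  (lam : ℂ)⁻¹ * E (α * w + γ * z + δ * z') (enc (z, z'))


/-- the class of tests -/
def Tst (P : Finset (ℤ × ℤ)) (enc : ℤ × ℤ → ℕ) (α γ δ : ℤ) (ψ : ℤ → ℕ → ℂ) : Prop :=
  ∃ u v : ℤ → ℤ → ℂ, (∀ w z, ‖u w z‖ ≤ 1) ∧ (∀ w z, ‖v w z‖ ≤ 1) ∧
    ψ = Lf P enc α γ δ (fun w z z' => u w z * v w z')

/-- level of a letter that comes back from the lifted line -/
lemma lev_Bk {T T' : Finset ℤ} (hinj : Set.InjOn enc (T ×ˢ T' : Finset (ℤ × ℤ))) (hα : α ≠ 0)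
    (r : ℕ) (henc : ∀ q ∈ T ×ˢ T', enc q < 2 ^ r) {lam Λ : ℝ} (hlam : 0 < lam)
    (X : ℤ → ℕ → ℂ) (p : Nd)
    (hX : ∀ φ, Tst (T ×ˢ T') enc α γ δ φ →
      ‖∑ y ∈ iv p, ∑ k ∈ range (2 ^ r), X y k * φ y k‖ ≤ lam * Λ) (A : Finset ℤ) :
    XDual988.LevP A (fun _ => (1 : ℝ)) (fun w z z' =>
      cK α γ δ T T' (Bk (T ×ˢ T') enc α γ δ lam X w) (res p fun _ => 1) w z z') T T' Λ := by
  classical
  intro u v hu hv
  set G : ℤ → ℤ → ℤ → ℂ := fun w z z' => (if w ∈ A then u w z else 0) * v w z' with hG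
  have hA0 : ∀ w z z', w ∉ A → G w z z' = 0 := by
    intro w z z' hw
    simp only [hG]
    rw [if_neg hw, zero_mul]
  have h1 := sum_Lf (α := α) (γ := γ) (δ := δ) (G := G) hinj hα r henc (iv p) A hA0 X
  have h2 := hX (Lf (T ×ˢ T') enc α γ δ G) ⟨fun w z => if w ∈ A then u w z else 0, v,
    (fun w z => by
      show ‖(if w ∈ A then u w z else 0)‖ ≤ 1
      by_cases hw : w ∈ A
      · rw [if_pos hw]; exact hu w z
      · rw [if_neg hw]; simp), hv, rfl⟩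
  rw [h1] at h2
  have e : (∑ a ∈ A, ((1 : ℝ) : ℂ) * ∑ x ∈ T, ∑ y ∈ T',
      cK α γ δ T T' (Bk (T ×ˢ T') enc α γ δ lam X a) (res p fun _ => 1) a x y * u a x * v a y) =
      (lam : ℂ)⁻¹ * ∑ q ∈ T ×ˢ T', ∑ w ∈ A, (if α * w + γ * q.1 + δ * q.2 ∈ iv p then
        X (α * w + γ * q.1 + δ * q.2) (enc q) * G w q.1 q.2 else 0) := by
    rw [Finset.sum_comm (s := T ×ˢ T'), Finset.mul_sum]
    refine Finset.sum_congr rfl fun w hw => ?_
    rw [Finset.sum_product, Complex.ofReal_one, one_mul, Finset.mul_sum]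
    refine Finset.sum_congr rfl fun x hx => ?_
    rw [Finset.mul_sum]
    refine Finset.sum_congr rfl fun y hy => ?_
    unfold cK res Bk
    rw [if_pos ⟨hx, hy⟩]
    by_cases h3 : α * w + γ * x + δ * y ∈ iv p
    · have h3' : α * w + γ * x + δ * y ∈ dI (p.1 + 7) p.2 := h3
      rw [if_pos h3', if_pos h3]
      simp only [hG]
      rw [if_pos hw]
      ring
    · have h3' : ¬ α * w + γ * x + δ * y ∈ dI (p.1 + 7) p.2 := h3
      rw [if_neg h3', if_neg h3]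
      ring
  rw [e, norm_mul, norm_inv, Complex.norm_real, Real.norm_of_nonneg hlam.le]
  calc lam⁻¹ * _ ≤ lam⁻¹ * (lam * Λ) := mul_le_mul_of_nonneg_left h2 (by positivity)
    _ = Λ := by field_simp


lemma Lf_conj (y : ℤ) (k : ℕ) : (starRingEnd ℂ) (Lf P enc α γ δ G y k) =
    Lf P enc α γ δ (fun w z z' => (starRingEnd ℂ) (G w z z')) y k := by
  unfold Lf
  rw [map_sum]
  refine Finset.sum_congr rfl fun q _ => ?_
  split_ifs
  · rfl
  · simp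

lemma exists_enc (P : Finset (ℤ × ℤ)) (r : ℕ) (hr : P.card ≤ 2 ^ r) :
    ∃ enc : ℤ × ℤ → ℕ, Set.InjOn enc P ∧ ∀ q ∈ P, enc q < 2 ^ r := by
  classical
  refine ⟨fun q => if h : q ∈ P then (P.equivFin ⟨q, h⟩ : ℕ) else 0, ?_, ?_⟩
  · intro q hq q' hq' h
    simp only at h
    rw [dif_pos (Finset.mem_coe.1 hq), dif_pos (Finset.mem_coe.1 hq')] at h
    have h2 := P.equivFin.injective (Fin.ext h)
    exact congrArg Subtype.val h2
  · intro q hq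
    simp only
    rw [dif_pos hq]
    exact lt_of_lt_of_le (P.equivFin ⟨q, hq⟩).2 hr


end Crest.Agent.R079.Plug429
end

-- ▼ part R079/XR_112

/-! R079, RuleS assembly, leaf S2 (helper112): NODE FORM of the `S₄`-small error `X` (row / column form,
text of helper988 28605, note 781 (T5)).

At every node `p` of the window: `X = Y + D` on `p`, `Y = C - f_p` (near-minimiser at the node `p`):
level `2σV`, rows and columns of `Y` bounded by those of `C` up to `η V len p`, `D` small in total `ℓ²`. -/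

set_option autoImplicit false
set_option linter.unusedVariables false

namespace Crest.Agent.R079.XR112

open Finset Crest.Agent.R079.Grid Crest.Agent.R079.Growth Crest.Agent.R079.QRed
  Crest.Agent.R079.TWin Crest.Agent.R079.R244 Crest.Agent.R079.F24

/-- the kernel `C` restricted to the node `p` (points with `z ∈ T`, `z' ∈ T'`, shadow in `iv p`) -/
noncomputable def at' (α γ δ : ℤ) (T T' : Finset ℤ) (C : ℤ → ℤ → ℤ → ℂ) (p : Nd)
    (w z z' : ℤ) : ℂ := cK α γ δ T T' (C w) (res p fun _ => 1) w z z'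

/-- what the decomposition gives at ONE node `p` -/
structure XNode (p : Nd) (α γ δ : ℤ) (T T' : Finset ℤ) (C : ℤ → ℤ → ℤ → ℂ) (V σ θ η : ℝ)
    (X Y D : ℤ → ℤ → ℤ → ℂ) : Prop where
  eq : ∀ w z z', at' α γ δ T T' X p w z z' = Y w z z' + D w z z'
  supY : ∀ w z z', Y w z z' ≠ 0 → z ∈ T ∧ z' ∈ T' ∧ α * w + γ * z + δ * z' ∈ iv p
  supD : ∀ w z z', D w z z' ≠ 0 → z ∈ T ∧ z' ∈ T' ∧ α * w + γ * z + δ * z' ∈ iv p
  hD : ∀ w z z', ‖D w z z'‖ ≤ 2 / σ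
  hY : ∀ w z z', ‖at' α γ δ T T' C p w z z' - Y w z z'‖ ≤ 1 / σ
  /-- total energy of `D` -/
  eD : ∀ S : Finset (ℤ × ℤ × ℤ), ∑ t ∈ S, ‖D t.1 t.2.1 t.2.2‖ ^ 2 ≤ 3 * θ * V * len p
  /-- level of `Y` against products -/
  lev : ∀ A : Finset ℤ, XDual988.LevP A (fun _ => (1 : ℝ)) Y T T' (2 * σ * V * len p)
  /-- rows (any finite set of rows `(w, z)`) -/
  rows : ∀ S : Finset (ℤ × ℤ), ∑ r ∈ S, ∑ z' ∈ T', ‖Y r.1 r.2 z'‖ ^ 2 ≤
    ∑ r ∈ S, ∑ z' ∈ T', ‖at' α γ δ T T' C p r.1 r.2 z'‖ ^ 2 + η * V * len p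
  /-- columns (any finite set of columns `(w, z')`) -/
  cols : ∀ S : Finset (ℤ × ℤ), ∑ r ∈ S, ∑ z ∈ T, ‖Y r.1 z r.2‖ ^ 2 ≤
    ∑ r ∈ S, ∑ z ∈ T, ‖at' α γ δ T T' C p r.1 z r.2‖ ^ 2 + η * V * len p

/-- row / column form of `X` on the region `W` -/
def XR (W : Finset Nd) (α γ δ : ℤ) (T T' : Finset ℤ) (C : ℤ → ℤ → ℤ → ℂ) (V σ θ η : ℝ)
    (X : ℤ → ℤ → ℤ → ℂ) : Prop :=
  ∀ p ∈ W, ∃ Y D : ℤ → ℤ → ℤ → ℂ, XNode p α γ δ T T' C V σ θ η X Y D

/-- total `ℓ²` form of the error `E` -/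
def E2T (W : Finset Nd) (α γ δ : ℤ) (T T' : Finset ℤ) (B : ℝ) (E : ℤ → ℤ → ℤ → ℂ) : Prop :=
  ∀ p ∈ W, ∀ S : Finset (ℤ × ℤ × ℤ),
    ∑ t ∈ S, ‖at' α γ δ T T' E p t.1 t.2.1 t.2.2‖ ^ 2 ≤ B * len p

/-- the frozen kernel -/
def Cc (c : ℤ → ℤ → ℂ) (F : ℤ → ℂ) (α γ δ : ℤ) (w z z' : ℤ) : ℂ :=
  c z z' * F (α * w + γ * z + δ * z')

/-- **LITERAL of leaf S2** (`plug2`): static windows of `c z z' * F (α w + γ z + δ z')`; `V` = any
number with `M A ≤ V`; no height hypothesis; count `2 + 16/θ`, mass `≤ 1/σ`. -/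
def Plug2 : Prop :=
  ∀ {R : Finset Nd} {J : Nd}, Full R J → ∀ {α γ δ : ℤ}, α ≠ 0 → γ ≠ 0 → δ ≠ 0 →
    ∀ (T T' : Finset ℤ) (c : ℤ → ℤ → ℂ) (F : ℤ → ℂ) {M A V : ℝ}, 0 ≤ M → 0 ≤ A → 0 < V →
    M * A ≤ V → (∑ q ∈ T ×ˢ T', ‖c q.1 q.2‖ ^ 2 ≤ M) →
    (∀ p ∈ R, ∑ y ∈ iv p, ‖F y‖ ^ 2 ≤ A * len p) →
    ∀ {σ θ η : ℝ}, 0 < σ → 0 < θ → 0 < η →
    ∃ (S : Finset Nd) (W : Nd → Finset Nd), Part R S W (2 + 16 / θ) ∧
      ∀ K ∈ S, ∃ (n : ℕ) (u v : Fin n → ℤ → ℤ → ℂ) (d : Fin n → ℂ) (E X : ℤ → ℤ → ℤ → ℂ),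
        (∀ j w z, ‖u j w z‖ ≤ 1) ∧ (∀ j w z, ‖v j w z‖ ≤ 1) ∧ ∑ j, ‖d j‖ ≤ 1 / σ ∧
        (∀ w, ∀ z ∈ T, ∀ z' ∈ T', α * w + γ * z + δ * z' ∈ iv K →
          Cc c F α γ δ w z z' = ∑ j, d j * (u j w z * v j w z') + E w z z' + X w z z') ∧
        (∀ w z z', ‖E w z z'‖ ≤ 2 / σ) ∧
        E2T (W K) α γ δ T T' (9 * θ * V) E ∧
        XR (W K) α γ δ T T' (Cc c F α γ δ) V σ θ η X

end Crest.Agent.R079.XR112
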