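import Crest.Agent.R079.LfN_71
import Crest.Agent.R079.EW5_702
import Crest.Agent.R079.PerT_530
import Crest.Agent.R079.XR_112

-- ▼ part R079/HEr_702
section

/-! R079, Step II (RULE S), leaf S5 of note 781 (helper702): leaf quantity `Wb71.LK` of the error kernels
`E` (total `ℓ²`) and `X` (`S₄`), ONE NODE. -/

set_option autoImplicit false
set_option linter.unusedVariables false

namespace Crest.Agent.R079.HEr702

open Finset Crest.Agent.R079.Grid Crest.Agent.R079.Pot Crest.Agent.R079.Glue Crest.Agent.R079.R244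
  Crest.Agent.R079.F24 Crest.Agent.R079.EWG990 Crest.Agent.R079.LK990
  Crest.Agent.R079.EW5702 Crest.Agent.R079.Growth Crest.Agent.R079.Tr230 Crest.Agent.R079.PerT530
open Crest.Agent.R079.Wb71 (LK Xs mem_Xs)

/-! ### finite Cauchy--Schwarz -/

lemma norm_sum_mul_sq_le {ι : Type*} (s : Finset ι) (a b : ι → ℂ) :
    ‖∑ i ∈ s, a i * b i‖ ^ 2 ≤ (∑ i ∈ s, ‖a i‖ ^ 2) * ∑ i ∈ s, ‖b i‖ ^ 2 := by
  have h1 : ‖∑ i ∈ s, a i * b i‖ ≤ ∑ i ∈ s, ‖a i‖ * ‖b i‖ :=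
    (norm_sum_le _ _).trans (le_of_eq (Finset.sum_congr rfl fun i _ => norm_mul _ _))
  exact (pow_le_pow_left₀ (norm_nonneg _) h1 2).trans
    (Finset.sum_mul_sq_le_sq_mul_sq s (fun i => ‖a i‖) (fun i => ‖b i‖))

/-- `‖a‖² ≤ ‖f‖² ‖G‖_HS`, abstract form -/
lemma op_abs (N : ℕ) (f : ℕ → ℂ) (x : ℕ → ℕ → ℂ) :
    ∑ v ∈ range N, ‖∑ u ∈ range N, f u * x u v‖ ^ 2 ≤ (∑ u ∈ range N, ‖f u‖ ^ 2) *
      Real.sqrt (∑ v ∈ range N, ∑ v' ∈ range N,
        ‖∑ u ∈ range N, x u v * (starRingEnd ℂ) (x u v')‖ ^ 2) := by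
  obtain ⟨a, ha⟩ : ∃ a : ℕ → ℂ, ∀ v, a v = ∑ u ∈ range N, f u * x u v := ⟨_, fun _ => rfl⟩
  obtain ⟨G, hG⟩ : ∃ G : ℕ → ℕ → ℂ, ∀ v v', G v v' =
    ∑ u ∈ range N, x u v * (starRingEnd ℂ) (x u v') := ⟨_, fun _ _ => rfl⟩
  obtain ⟨b, hb⟩ : ∃ b : ℕ → ℂ, ∀ u, b u = ∑ v ∈ range N, x u v * (starRingEnd ℂ) (a v) :=
    ⟨_, fun _ => rfl⟩
  simp only [← ha, ← hG]
  obtain ⟨A, hA⟩ : ∃ A : ℝ, A = ∑ v ∈ range N, ‖a v‖ ^ 2 := ⟨_, rfl⟩
  obtain ⟨F2, hF2⟩ : ∃ F2 : ℝ, F2 = ∑ u ∈ range N, ‖f u‖ ^ 2 := ⟨_, rfl⟩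
  obtain ⟨H2, hH2⟩ : ∃ H2 : ℝ, H2 = ∑ v ∈ range N, ∑ v' ∈ range N, ‖G v v'‖ ^ 2 := ⟨_, rfl⟩
  obtain ⟨B2, hB2⟩ : ∃ B2 : ℝ, B2 = ∑ u ∈ range N, ‖b u‖ ^ 2 := ⟨_, rfl⟩
  rw [← hA, ← hF2, ← hH2]
  have hA0 : 0 ≤ A := by rw [hA]; positivity
  have hF0 : 0 ≤ F2 := by rw [hF2]; positivity
  have hH0 : 0 ≤ H2 := by rw [hH2]; positivity
  have hB0 : 0 ≤ B2 := by rw [hB2]; positivity
  have hsq : ∀ z : ℂ, ((‖z‖ ^ 2 : ℝ) : ℂ) = z * (starRingEnd ℂ) z := by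
    intro z
    rw [Complex.mul_conj, Complex.normSq_eq_norm_sq]
  -- step 1
  have h1 : (A : ℂ) = ∑ u ∈ range N, f u * b u := by
    rw [hA, Complex.ofReal_sum]
    have e2 : ∀ v ∈ range N, ((‖a v‖ ^ 2 : ℝ) : ℂ) =
        ∑ u ∈ range N, f u * (x u v * (starRingEnd ℂ) (a v)) := by
      intro v _
      rw [hsq]
      calc a v * (starRingEnd ℂ) (a v) =
          (∑ u ∈ range N, f u * x u v) * (starRingEnd ℂ) (a v) := by rw [← ha v]
        _ = _ := by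
          rw [Finset.sum_mul]
          exact Finset.sum_congr rfl fun u _ => by ring
    rw [Finset.sum_congr rfl e2, Finset.sum_comm]
    exact Finset.sum_congr rfl fun u _ => by rw [hb, Finset.mul_sum]
  have h2 : A ^ 2 ≤ F2 * B2 := by
    have := norm_sum_mul_sq_le (range N) f b
    rw [← h1, Complex.norm_real, Real.norm_of_nonneg hA0, ← hF2, ← hB2] at this
    exact this
  -- step 2
  have e1 : (B2 : ℂ) =
      ∑ y ∈ range N ×ˢ range N, ((starRingEnd ℂ) (a y.1) * a y.2) * G y.1 y.2 := by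
    rw [hB2, Complex.ofReal_sum]
    have e2 : ∀ u ∈ range N, ((‖b u‖ ^ 2 : ℝ) : ℂ) = ∑ y ∈ range N ×ˢ range N,
        ((starRingEnd ℂ) (a y.1) * a y.2) * (x u y.1 * (starRingEnd ℂ) (x u y.2)) := by
      intro u _
      rw [hsq, Finset.sum_product, hb, map_sum, Finset.sum_mul_sum]
      refine Finset.sum_congr rfl fun v _ => Finset.sum_congr rfl fun v' _ => ?_
      rw [map_mul, Complex.conj_conj]
      ring
    rw [Finset.sum_congr rfl e2, Finset.sum_comm]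
    refine Finset.sum_congr rfl fun y _ => ?_
    rw [← Finset.mul_sum, hG]
  have h4 : B2 ^ 2 ≤ A ^ 2 * H2 := by
    have h5 := norm_sum_mul_sq_le (range N ×ˢ range N)
      (fun y => (starRingEnd ℂ) (a y.1) * a y.2) (fun y => G y.1 y.2)
    rw [← e1, Complex.norm_real, Real.norm_of_nonneg hB0] at h5
    refine h5.trans (le_of_eq ?_)
    congr 1
    · rw [Finset.sum_product, sq, hA, Finset.sum_mul_sum]
      refine Finset.sum_congr rfl fun v _ => Finset.sum_congr rfl fun v' _ => ?_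
      simp only
      rw [norm_mul, mul_pow, RCLike.norm_conj]
    · rw [Finset.sum_product, hH2]
  have h3 : B2 ≤ A * Real.sqrt H2 := by
    have h7 := Real.sqrt_le_sqrt h4
    rw [Real.sqrt_sq hB0, Real.sqrt_mul (sq_nonneg _), Real.sqrt_sq hA0] at h7
    exact h7
  rcases hA0.lt_or_eq with h | h
  · have h9 : A * A ≤ A * (F2 * Real.sqrt H2) := by
      calc A * A = A ^ 2 := by ring
        _ ≤ F2 * (A * Real.sqrt H2) := h2.trans (mul_le_mul_of_nonneg_left h3 hF0)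
        _ = A * (F2 * Real.sqrt H2) := by ring
    exact le_of_mul_le_mul_left h9 h
  · rw [← h]; positivity

/-- operator norm is at most the Hilbert--Schmidt norm of the Gram matrix -/
theorem op_le_e4 (X : ℤ → ℤ → ℂ) (f : ℕ → ℂ) (N : ℕ) (q p : ℤ) :
    ∑ v ∈ range N, ‖(1 / (N : ℂ)) * ∑ u ∈ range N, f u * X (q + (u : ℤ)) (p + (v : ℤ))‖ ^ 2 ≤
      (∑ u ∈ range N, ‖f u‖ ^ 2) * Real.sqrt (e4 X N q p) := by
  have h := op_abs N f (fun u v => X (q + (u : ℤ)) (p + (v : ℤ)))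
  have h10 : Real.sqrt (e4 X N q p) = (1 / (N : ℝ) ^ 2) *
      Real.sqrt (∑ v ∈ range N, ∑ v' ∈ range N, ‖∑ u ∈ range N, X (q + (u : ℤ)) (p + (v : ℤ)) *
        (starRingEnd ℂ) (X (q + (u : ℤ)) (p + (v' : ℤ)))‖ ^ 2) := by
    have e : (1 / (N : ℝ) ^ 4) = (1 / (N : ℝ) ^ 2) ^ 2 := by
      rw [div_pow, one_pow, ← pow_mul]
    unfold e4
    rw [e, Real.sqrt_mul (sq_nonneg _), Real.sqrt_sq (by positivity)]
  rw [h10]
  have e : ∑ v ∈ range N, ‖(1 / (N : ℂ)) * ∑ u ∈ range N, f u * X (q + (u : ℤ)) (p + (v : ℤ))‖ ^ 2 =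
      (1 / (N : ℝ) ^ 2) * ∑ v ∈ range N,
        ‖∑ u ∈ range N, f u * X (q + (u : ℤ)) (p + (v : ℤ))‖ ^ 2 := by
    rw [Finset.mul_sum]
    refine Finset.sum_congr rfl fun v _ => ?_
    rw [norm_mul, mul_pow, norm_div, norm_one, Complex.norm_natCast, div_pow, one_pow]
  rw [e]
  refine (mul_le_mul_of_nonneg_left h (by positivity)).trans (le_of_eq ?_)
  ring

/-- weighted Cauchy--Schwarz -/
lemma wsum_sq_le {ι : Type*} (s : Finset ι) (a b : ι → ℝ) (ha : ∀ i ∈ s, 0 ≤ a i)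
    (hb : ∀ i ∈ s, 0 ≤ b i) (hb1 : ∀ i ∈ s, b i ≤ 1) :
    (∑ i ∈ s, a i * b i) ^ 2 ≤ (∑ i ∈ s, a i) * ∑ i ∈ s, a i * b i := by
  have h1 : ∑ i ∈ s, a i * b i ≤ ∑ i ∈ s, a i :=
    Finset.sum_le_sum fun i hi => mul_le_of_le_one_right (ha i hi) (hb1 i hi)
  have h2 : 0 ≤ ∑ i ∈ s, a i * b i := Finset.sum_nonneg fun i hi => mul_nonneg (ha i hi) (hb i hi)
  rw [sq]
  exact mul_le_mul_of_nonneg_right h1 h2

/-! ### the periodised kernel -/

section per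

variable (j : Fin 4) (T : Fin 3 → Finset ℤ) (g : Fin 3 → ℤ → ℤ → ℂ) (E : ℤ → ℤ → ℤ → ℂ) (r : ℤ)

/-- translated error letter -/
noncomputable def te (s : ℤ × ℤ × ℤ) (z z' : ℤ) : ℂ :=
  if z + s.1 ∈ T 0 ∧ z' + s.2.1 ∈ T 1 then
    E (r - (s.1 + s.2.1 + s.2.2)) (z + s.1) (z' + s.2.1) else 0

/-- periodised kernel as a sum over the plane translates -/
theorem per_te (Z S : Finset (ℤ × ℤ × ℤ)) (hS : Sh j T Z ⊆ S) (hS0 : ∀ s ∈ S, cfz j s = 0)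
    (z z' : ℤ) (hz : (z, z', 0) ∈ Z) :
    Per j T (PhiW (upk g 0 E)) (cf j 0 * z + cf j 1 * z') (r + z + z') =
      ∑ s ∈ S, kT (T 1) (T 2) (g 1) (z' + s.2.1) (0 + s.2.2) *
        (kT (T 2) (T 0) (g 2) (0 + s.2.2) (z + s.1) * te T E r s z z') := by
  have e : cf j 0 * z + cf j 1 * z' = cfz j (z, z', 0) := by simp [cfz]
  rw [e, per_translates j T _ Z S hS hS0 hz]
  refine Finset.sum_congr rfl fun s _ => ?_
  have ew : r + z + z' - (z + s.1) - (z' + s.2.1) - s.2.2 =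
      r - (s.1 + s.2.1 + s.2.2) := by ring
  simp only [zero_add]
  rw [ew]
  by_cases h : z + s.1 ∈ T 0 ∧ z' + s.2.1 ∈ T 1 ∧ s.2.2 ∈ T 2
  · rw [if_pos h, PhiW_zero]
    unfold kT te
    rw [if_pos ⟨h.2.1, h.2.2⟩, if_pos ⟨h.2.2, h.1⟩, if_pos ⟨h.1, h.2.1⟩]
    ring
  · rw [if_neg h]
    symm
    unfold kT te
    by_cases h1 : z + s.1 ∈ T 0 ∧ z' + s.2.1 ∈ T 1
    · have h2 : ¬ (z' + s.2.1 ∈ T 1 ∧ s.2.2 ∈ T 2) := fun hc => h ⟨h1.1, h1.2, hc.2⟩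
      rw [if_neg h2, zero_mul]
    · rw [if_neg h1, mul_zero, mul_zero]

lemma cf02 : cf j 0 ≠ cf j 2 := by
  fin_cases j <;> simp [cf, sl, Fin.succAbove]

/-- for a fixed `z'` the map `(z, s) ↦ (w, z + s₀, z' + s₁)` is injective on the plane -/
lemma te_inj {s s' : ℤ × ℤ × ℤ} (h : cfz j s = 0) (h' : cfz j s' = 0) {z y : ℤ} {z' : ℤ}
    (hw : r - (s.1 + s.2.1 + s.2.2) = r - (s'.1 + s'.2.1 + s'.2.2)) (h0 : z + s.1 = y + s'.1)
    (h1 : z' + s.2.1 = z' + s'.2.1) : z = y ∧ s = s' := by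
  have h1' : s.2.1 = s'.2.1 := by linarith
  have e1 : s.1 + s.2.2 = s'.1 + s'.2.2 := by linarith
  have e2 : cf j 0 * s.1 + cf j 2 * s.2.2 = cf j 0 * s'.1 + cf j 2 * s'.2.2 := by
    simp only [cfz] at h h'
    rw [h1'] at h
    linarith
  have e3 : (cf j 0 - cf j 2) * s.1 = (cf j 0 - cf j 2) * s'.1 := by
    have : s.2.2 = s'.1 + s'.2.2 - s.1 := by linarith
    rw [this] at e2
    linarith
  have h00 : s.1 = s'.1 := mul_left_cancel₀ (sub_ne_zero.2 (cf02 j)) e3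
  refine ⟨by linarith, ?_⟩
  have h2 : s.2.2 = s'.2.2 := by linarith
  ext
  · exact h00
  · exact h1'
  · exact h2

/-- **counting**: for a fixed `z'`, sums over `(z, s)` are sums over distinct `(w, Z, Z')` -/
theorem sum_inj (U : Finset ℤ) (S : Finset (ℤ × ℤ × ℤ)) (hS0 : ∀ s ∈ S, cfz j s = 0) (z' : ℤ)
    (Q : ℤ × ℤ × ℤ → ℝ) {B : ℝ} (hQ : ∀ R : Finset (ℤ × ℤ × ℤ), ∑ t ∈ R, Q t ≤ B) :
    ∑ z ∈ U, ∑ s ∈ S, Q (r - (s.1 + s.2.1 + s.2.2), z + s.1, z' + s.2.1) ≤ B := by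
  classical
  rw [← Finset.sum_product' U S
    (fun z s => Q (r - (s.1 + s.2.1 + s.2.2), z + s.1, z' + s.2.1))]
  have h := Finset.sum_image (f := Q) (s := U ×ˢ S)
    (g := fun x : ℤ × (ℤ × ℤ × ℤ) => (r - (x.2.1 + x.2.2.1 + x.2.2.2), x.1 + x.2.1, z' + x.2.2.1)) (by
      intro x hx y hy hxy
      have hx2 := hS0 _ (Finset.mem_product.1 (Finset.mem_coe.1 hx)).2
      have hy2 := hS0 _ (Finset.mem_product.1 (Finset.mem_coe.1 hy)).2
      simp only [Prod.mk.injEq] at hxy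
      obtain ⟨h1, h2⟩ := te_inj j r hx2 hy2 hxy.1 hxy.2.1 hxy.2.2
      exact Prod.ext h1 h2)
  rw [← h]
  exact hQ _

end per

/-! ### leaf quantity of a square summable kernel -/

lemma card_Xs (c : ℤ) (d : ℤ) (p : Nd) : ((Xs c d p).card : ℝ) ≤ len p := by
  classical
  have h1 : (Xs c d p).card ≤ (iv p).card := by
    unfold Wb71.Xs
    exact (Finset.card_filter_le _ _).trans Finset.card_image_le
  rw [← card_iv p]
  exact_mod_cast h1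

/-- points `q + u` of the leaf quantity -/
noncomputable def UU (c' d' : ℤ) (p : Nd) : Finset ℤ :=
  (Xs c' d' p ×ˢ range (2 ^ p.1)).image (fun x => x.1 + (x.2 : ℤ))

lemma sum_shift_le_UU (c' d' : ℤ) (p : Nd) (f : ℤ → ℝ) (hf : ∀ x, 0 ≤ f x) (u : ℕ)
    (hu : u ∈ range (2 ^ p.1)) : ∑ q ∈ Xs c' d' p, f (q + (u : ℤ)) ≤ ∑ x ∈ UU c' d' p, f x := by
  have h := Finset.sum_image (f := f) (s := Xs c' d' p) (g := fun q : ℤ => q + (u : ℤ))
    (fun x _ y _ h => by simpa using h)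
  rw [← h]
  refine Finset.sum_le_sum_of_subset_of_nonneg ?_ fun x _ _ => hf x
  intro x hx
  obtain ⟨q, hq, rfl⟩ := Finset.mem_image.1 hx
  exact Finset.mem_image.2 ⟨(q, u), Finset.mem_product.2 ⟨hq, hu⟩, rfl⟩

/-- **leaf quantity of a kernel which is square summable in the first variable** -/
theorem LK_l2 (c' d' c d : ℤ) (K : ℤ → ℤ → ℂ) (β : ℤ → ℂ) (p : Nd) {B' Q : ℝ} (hB : 0 ≤ B')
    (hQ0 : 0 ≤ Q) (hy : ∀ q : ℤ, ∑ u ∈ range (2 ^ p.1), ‖β (q + (u : ℤ))‖ ^ 2 ≤ B' * len p)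
    (hK : ∀ z ∈ Xs c d p, ∑ x ∈ UU c' d' p, ‖K x z‖ ^ 2 ≤ Q) :
    LK c' d' c d K β p ≤ 128 * B' * Q := by
  have hlen : len p = (2 : ℝ) ^ (p.1 + 7) := rfl
  have hlp : 0 < len p := by rw [hlen]; positivity
  set L : ℝ := (2 : ℝ) ^ p.1 with hL
  have hL0 : 0 < L := by rw [hL]; positivity
  have hlenL : len p = 128 * L := by rw [hlen, hL]; ring
  have h1 : LK c' d' c d K β p ≤ ∑ q ∈ Xs c' d' p, (1 / len p) * ∑ z ∈ Xs c d p,
      (1 / L) ^ 2 * ((B' * len p) * ∑ u ∈ range (2 ^ p.1), ‖K (q + (u : ℤ)) z‖ ^ 2) := by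
    unfold Wb71.LK
    refine Finset.sum_le_sum fun q _ => mul_le_mul_of_nonneg_left ?_ (by positivity)
    refine Finset.sum_le_sum fun z _ => ?_
    rw [norm_mul, mul_pow, norm_div, norm_one, norm_pow, Complex.norm_ofNat]
    refine mul_le_mul_of_nonneg_left ?_ (by positivity)
    refine (norm_sum_mul_sq_le _ _ _).trans ?_
    refine mul_le_mul_of_nonneg_right ?_ (by positivity)
    refine le_trans (le_of_eq ?_) (hy q)
    exact Finset.sum_congr rfl fun u _ => by rw [norm_star]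
  refine h1.trans ?_
  have h2 : ∑ q ∈ Xs c' d' p, (1 / len p) * ∑ z ∈ Xs c d p,
      (1 / L) ^ 2 * ((B' * len p) * ∑ u ∈ range (2 ^ p.1), ‖K (q + (u : ℤ)) z‖ ^ 2) =
      B' * (1 / L) ^ 2 * ∑ z ∈ Xs c d p, ∑ u ∈ range (2 ^ p.1), ∑ q ∈ Xs c' d' p,
        ‖K (q + (u : ℤ)) z‖ ^ 2 := by
    have e1 : ∀ q ∈ Xs c' d' p, (1 / len p) * ∑ z ∈ Xs c d p,
        (1 / L) ^ 2 * ((B' * len p) * ∑ u ∈ range (2 ^ p.1), ‖K (q + (u : ℤ)) z‖ ^ 2) =
        B' * (1 / L) ^ 2 * ∑ z ∈ Xs c d p, ∑ u ∈ range (2 ^ p.1), ‖K (q + (u : ℤ)) z‖ ^ 2 := by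
      intro q _
      rw [← Finset.mul_sum, ← Finset.mul_sum]
      field_simp
    rw [Finset.sum_congr rfl e1, ← Finset.mul_sum, Finset.sum_comm]
    congr 1
    refine Finset.sum_congr rfl fun z _ => ?_
    rw [Finset.sum_comm]
  rw [h2]
  have h3 : ∑ z ∈ Xs c d p, ∑ u ∈ range (2 ^ p.1), ∑ q ∈ Xs c' d' p,
        ‖K (q + (u : ℤ)) z‖ ^ 2 ≤ len p * (L * Q) := by
    have h4 : ∀ z ∈ Xs c d p, ∑ u ∈ range (2 ^ p.1), ∑ q ∈ Xs c' d' p,
        ‖K (q + (u : ℤ)) z‖ ^ 2 ≤ L * Q := by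
      intro z hz
      have h5 : ∀ u ∈ range (2 ^ p.1), ∑ q ∈ Xs c' d' p, ‖K (q + (u : ℤ)) z‖ ^ 2 ≤ Q :=
        fun u hu => (sum_shift_le_UU c' d' p (fun x => ‖K x z‖ ^ 2) (fun _ => by positivity) u
          hu).trans (hK z hz)
      refine (Finset.sum_le_sum h5).trans (le_of_eq ?_)
      rw [Finset.sum_const, Finset.card_range, nsmul_eq_mul, hL]
      push_cast; rfl
    refine (Finset.sum_le_sum h4).trans ?_
    rw [Finset.sum_const, nsmul_eq_mul]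
    exact mul_le_mul_of_nonneg_right (card_Xs c d p) (by positivity)
  calc B' * (1 / L) ^ 2 * _ ≤ B' * (1 / L) ^ 2 * (len p * (L * Q)) :=
        mul_le_mul_of_nonneg_left h3 (by positivity)
    _ = 128 * B' * Q := by rw [hlenL]; field_simp

/-- two kernels -/
theorem LK_add (c' d' c d : ℤ) (K K' : ℤ → ℤ → ℂ) (β : ℤ → ℂ) (p : Nd) :
    LK c' d' c d (fun x z => K x z + K' x z) β p ≤
      2 * (LK c' d' c d K β p + LK c' d' c d K' β p) := by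
  have h := LfK71.LK_sum (univ : Finset (Fin 2)) c' d' c d (fun m => if m = 0 then K else K') β p
  simp only [Fin.sum_univ_two, Finset.card_univ, Fintype.card_fin] at h
  simpa using h

lemma LK_nonneg (c' d' c d : ℤ) (K : ℤ → ℤ → ℂ) (β : ℤ → ℂ) (p : Nd) :
    0 ≤ LK c' d' c d K β p := by
  have hlp : 0 < len p := Qe292.len_pos p
  unfold Wb71.LK
  exact Finset.sum_nonneg fun q _ => mul_nonneg (by positivity)
    (Finset.sum_nonneg fun z _ => by positivity)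

/-! ### one node -/

section node

variable (j : Fin 4) (T : Fin 3 → Finset ℤ) (g : Fin 3 → ℤ → ℤ → ℂ) (E : ℤ → ℤ → ℤ → ℂ) (r : ℤ)
  (κ : ℝ)

/-- the error kernel of the leaf quantity -/
noncomputable def PK (x z : ℤ) : ℂ :=
  (κ : ℂ) * Per j T (PhiW (upk g 0 E)) (cf j 0 * x + cf j 1 * z) (r + x + z)

/-- masked kernel on `T 0 × T 1` -/
noncomputable def tm (w z z' : ℤ) : ℂ := if z ∈ T 0 ∧ z' ∈ T 1 then E w z z' else 0

lemma te_tm (s : ℤ × ℤ × ℤ) (z z' : ℤ) :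
    te T E r s z z' = tm T E (r - (s.1 + s.2.1 + s.2.2)) (z + s.1) (z' + s.2.1) := rfl

variable {j T g E r κ}

/-- **LEAF QUANTITY OF THE ERROR `E`, one node** -/
theorem LK_E (hκ : 0 ≤ κ) (hg2 : ∀ z z', ‖g 2 z z'‖ ≤ 1) {M B' BE : ℝ} (hM0 : 0 ≤ M) (hB : 0 ≤ B')
    (h1 : κ * ∑ z ∈ T 1, ∑ z' ∈ T 2, ‖g 1 z z'‖ ^ 2 ≤ M) (hBE : 0 ≤ BE)
    (hE : ∀ R : Finset (ℤ × ℤ × ℤ), ∑ t ∈ R, ‖tm T E t.1 t.2.1 t.2.2‖ ^ 2 ≤ BE)
    (c' d' c d : ℤ) (β : ℤ → ℂ) (p : Nd)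
    (hy : ∀ q : ℤ, ∑ u ∈ range (2 ^ p.1), ‖β (q + (u : ℤ))‖ ^ 2 ≤ B' * len p) :
    LK c' d' c d (PK j T g E r κ) β p ≤ 128 * B' * (M * (κ * BE)) := by
  classical
  refine LK_l2 c' d' c d _ β p hB (by positivity) hy fun z hz => ?_
  set Z : Finset (ℤ × ℤ × ℤ) := (UU c' d' p ×ˢ Xs c d p).image (fun x => (x.1, x.2, 0)) with hZ
  set S := Sh j T Z with hS
  have hS0 : ∀ s ∈ S, cfz j s = 0 := fun s hs => Sh_plane hs
  have hpt : ∀ x ∈ UU c' d' p, ‖PK j T g E r κ x z‖ ^ 2 ≤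
      κ * (M * ∑ s ∈ S, ‖te T E r s x z‖ ^ 2) := by
    intro x hx
    have hxz : (x, z, (0 : ℤ)) ∈ Z := Finset.mem_image.2 ⟨(x, z), Finset.mem_product.2 ⟨hx, hz⟩, rfl⟩
    unfold PK
    rw [per_te j T g E r Z S (le_of_eq hS.symm) hS0 x z hxz, norm_mul, mul_pow, Complex.norm_real,
      Real.norm_of_nonneg hκ]
    have h2 := norm_sum_mul_sq_le S (fun s => kT (T 1) (T 2) (g 1) (z + s.2.1) (0 + s.2.2))
      (fun s => kT (T 2) (T 0) (g 2) (0 + s.2.2) (x + s.1) * te T E r s x z)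
    have h3 := price12 (j := j) hS0 (T 1) (T 2) (g 1) 2 (by norm_num) z 0
    have h4 : ∑ s ∈ S, ‖kT (T 2) (T 0) (g 2) (0 + s.2.2) (x + s.1) * te T E r s x z‖ ^ 2 ≤
        ∑ s ∈ S, ‖te T E r s x z‖ ^ 2 := by
      refine Finset.sum_le_sum fun s _ => ?_
      rw [norm_mul, mul_pow]
      refine mul_le_of_le_one_left (by positivity) (pow_le_one₀ (norm_nonneg _) ?_)
      unfold kT
      split_ifs
      · exact hg2 _ _
      · rw [norm_zero]; exact zero_le_one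
    have h5 : 0 ≤ ∑ s ∈ S, ‖te T E r s x z‖ ^ 2 := by positivity
    calc κ ^ 2 * _ ≤ κ ^ 2 * ((∑ x ∈ T 1, ∑ x' ∈ T 2, ‖g 1 x x'‖ ^ 2) *
          ∑ s ∈ S, ‖te T E r s x z‖ ^ 2) := by
          refine mul_le_mul_of_nonneg_left (h2.trans ?_) (by positivity)
          exact mul_le_mul h3 h4 (by positivity) (by positivity)
      _ = κ * ((κ * ∑ x ∈ T 1, ∑ x' ∈ T 2, ‖g 1 x x'‖ ^ 2) *
          ∑ s ∈ S, ‖te T E r s x z‖ ^ 2) := by ring
      _ ≤ _ := mul_le_mul_of_nonneg_left (mul_le_mul_of_nonneg_right h1 h5) hκ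
  refine (Finset.sum_le_sum hpt).trans ?_
  rw [← Finset.mul_sum, ← Finset.mul_sum]
  have h6 := sum_inj j r (UU c' d' p) S hS0 z (fun t => ‖tm T E t.1 t.2.1 t.2.2‖ ^ 2) hE
  calc κ * (M * ∑ x ∈ UU c' d' p, ∑ s ∈ S, ‖te T E r s x z‖ ^ 2) ≤ κ * (M * BE) :=
        mul_le_mul_of_nonneg_left (mul_le_mul_of_nonneg_left h6 hM0) hκ
    _ = M * (κ * BE) := by ring

/-- tiling of the `z`-range of a node by `256` intervals of length `2 ^ p.1` -/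
lemma tile (c : ℤ) {d : ℤ} (hd : d ≠ 0) (p : Nd) : ∃ y0 : ℤ, ∀ Φ : ℤ → ℝ, (∀ z, 0 ≤ Φ z) →
    ∑ z ∈ Xs c d p, Φ z ≤ ∑ i ∈ range 256, ∑ v ∈ range (2 ^ p.1),
      Φ (y0 + 2 ^ p.1 * (i : ℤ) + (v : ℤ)) := by
  classical
  rcases (Xs c d p).eq_empty_or_nonempty with hE | ⟨z0, hz0⟩
  · refine ⟨0, fun Φ hΦ => ?_⟩
    rw [hE, Finset.sum_empty]
    exact Finset.sum_nonneg fun i _ => Finset.sum_nonneg fun v _ => hΦ _
  refine ⟨z0 - 2 ^ (p.1 + 7), fun Φ hΦ => ?_⟩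
  set y0 : ℤ := z0 - 2 ^ (p.1 + 7) with hy0
  have hN : (0 : ℤ) < 2 ^ p.1 := by positivity
  have h7 : (2 : ℤ) ^ (p.1 + 7) = 2 ^ p.1 * 128 := by ring
  have hinj : ∀ i : ℕ, Set.InjOn (fun v : ℕ => y0 + 2 ^ p.1 * (i : ℤ) + (v : ℤ))
      (range (2 ^ p.1)) := by
    intro i x _ y _ h
    simp only at h
    have : (x : ℤ) = (y : ℤ) := by linarith
    exact_mod_cast this
  have h := LeafV71.sum_cover (Xs c d p) (range 256)
    (fun i : ℕ => (range (2 ^ p.1)).image (fun v : ℕ => y0 + 2 ^ p.1 * (i : ℤ) + (v : ℤ))) Φ hΦ (by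
      intro z hz
      have hn := abs_lt.1 (LfK71.Xs_near hd p hz0 hz)
      have h0 : 0 ≤ z - y0 := by rw [hy0]; linarith [hn.1]
      have h1 : z - y0 < 2 ^ p.1 * 256 := by rw [hy0, h7]; rw [h7] at hn; linarith [hn.2]
      have q0 : 0 ≤ (z - y0) / 2 ^ p.1 := Int.ediv_nonneg h0 hN.le
      have q1 : (z - y0) / 2 ^ p.1 < 256 := by
        rw [Int.ediv_lt_iff_lt_mul hN]; linarith
      have m0 := Int.emod_nonneg (z - y0) hN.ne'
      have m1 := Int.emod_lt_of_pos (z - y0) hN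
      have me := Int.emod_add_mul_ediv (z - y0) (2 ^ p.1)
      refine ⟨((z - y0) / 2 ^ p.1).toNat, ?_, Finset.mem_image.2
        ⟨((z - y0) % 2 ^ p.1).toNat, ?_, ?_⟩⟩
      · rw [Finset.mem_range]
        have : ((((z - y0) / 2 ^ p.1).toNat : ℕ) : ℤ) < ((256 : ℕ) : ℤ) := by
          rw [Int.toNat_of_nonneg q0]; push_cast; exact q1
        exact Int.ofNat_lt.1 this
      · rw [Finset.mem_range]
        have : ((((z - y0) % 2 ^ p.1).toNat : ℕ) : ℤ) < ((2 ^ p.1 : ℕ) : ℤ) := by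
          rw [Int.toNat_of_nonneg m0]; push_cast; exact m1
        exact Int.ofNat_lt.1 this
      · rw [Int.toNat_of_nonneg q0, Int.toNat_of_nonneg m0]
        linarith)
  refine h.trans (le_of_eq (Finset.sum_congr rfl fun i _ => ?_))
  exact Finset.sum_image (hinj i)

/-- inner average of one translate -/
noncomputable def hh (T : Fin 3 → Finset ℤ) (g : Fin 3 → ℤ → ℤ → ℂ) (X : ℤ → ℤ → ℤ → ℂ) (r : ℤ)
    (β : ℤ → ℂ) (k : ℕ) (s : ℤ × ℤ × ℤ) (q z : ℤ) : ℂ :=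
  (1 / ((2 ^ k : ℕ) : ℂ)) * ∑ u ∈ range (2 ^ k),
    (star (β (q + (u : ℤ))) * kT (T 2) (T 0) (g 2) (0 + s.2.2) (q + (u : ℤ) + s.1)) *
      tm T X (r - (s.1 + s.2.1 + s.2.2)) (q + s.1 + (u : ℤ)) (z + s.2.1)

/-- energy of the letter of one translate -/
noncomputable def fe (T : Fin 3 → Finset ℤ) (g : Fin 3 → ℤ → ℤ → ℂ)
    (β : ℤ → ℂ) (k : ℕ) (s : ℤ × ℤ × ℤ) (q : ℤ) : ℝ :=
  ∑ u ∈ range (2 ^ k),
    ‖star (β (q + (u : ℤ))) * kT (T 2) (T 0) (g 2) (0 + s.2.2) (q + (u : ℤ) + s.1)‖ ^ 2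

lemma fe_nonneg (β : ℤ → ℂ) (k : ℕ) (s : ℤ × ℤ × ℤ) (q : ℤ) : 0 ≤ fe T g β k s q := by
  unfold fe; positivity

/-- one translate, one tile -/
lemma hh_tile (X : ℤ → ℤ → ℤ → ℂ) (β : ℤ → ℂ) (k : ℕ) (s : ℤ × ℤ × ℤ) (q y : ℤ) :
    ∑ v ∈ range (2 ^ k), ‖hh T g X r β k s q (y + (v : ℤ))‖ ^ 2 ≤
      fe T g β k s q * Real.sqrt (e4 (tm T X (r - (s.1 + s.2.1 + s.2.2))) (2 ^ k) (q + s.1)
        (y + s.2.1)) := by
  have h := op_le_e4 (tm T X (r - (s.1 + s.2.1 + s.2.2)))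
    (fun u => star (β (q + (u : ℤ))) * kT (T 2) (T 0) (g 2) (0 + s.2.2) (q + (u : ℤ) + s.1))
    (2 ^ k) (q + s.1) (y + s.2.1)
  refine le_trans (le_of_eq (Finset.sum_congr rfl fun v _ => ?_)) h
  unfold hh
  have e : y + (v : ℤ) + s.2.1 = y + s.2.1 + (v : ℤ) := by ring
  rw [e]

/-- `ℓ⁴` price of the letters -/
lemma fe_sq (hg2 : ∀ z z', ‖g 2 z z'‖ ≤ 1) {S : Finset (ℤ × ℤ × ℤ)} (hS0 : ∀ s ∈ S, cfz j s = 0)
    (β : ℤ → ℂ) (k : ℕ) (q : ℤ) {D : ℝ} (hD : ∑ u ∈ range (2 ^ k), ‖β (q + (u : ℤ))‖ ^ 2 ≤ D) :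
    ∑ s ∈ S, fe T g β k s q ^ 2 ≤ D ^ 2 * ∑ z ∈ T 2, ∑ z' ∈ T 0, ‖g 2 z z'‖ ^ 2 := by
  have hk1 : ∀ z z', ‖kT (T 2) (T 0) (g 2) z z'‖ ^ 2 ≤ 1 := by
    intro z z'
    refine pow_le_one₀ (norm_nonneg _) ?_
    unfold kT
    split_ifs
    · exact hg2 _ _
    · rw [norm_zero]; exact zero_le_one
  have hD0 : 0 ≤ D := le_trans (by positivity) hD
  have h1 : ∀ s ∈ S, fe T g β k s q ^ 2 ≤ D * ∑ u ∈ range (2 ^ k),
      ‖β (q + (u : ℤ))‖ ^ 2 * ‖kT (T 2) (T 0) (g 2) (0 + s.2.2) (q + (u : ℤ) + s.1)‖ ^ 2 := by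
    intro s _
    have e : fe T g β k s q = ∑ u ∈ range (2 ^ k), ‖β (q + (u : ℤ))‖ ^ 2 *
        ‖kT (T 2) (T 0) (g 2) (0 + s.2.2) (q + (u : ℤ) + s.1)‖ ^ 2 := by
      unfold fe
      exact Finset.sum_congr rfl fun u _ => by rw [norm_mul, mul_pow, norm_star]
    rw [e]
    refine (wsum_sq_le _ _ _ (fun _ _ => by positivity) (fun _ _ => by positivity)
      (fun _ _ => hk1 _ _)).trans ?_
    exact mul_le_mul_of_nonneg_right hD (Finset.sum_nonneg fun _ _ => by positivity)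
  refine (Finset.sum_le_sum h1).trans ?_
  rw [← Finset.mul_sum, Finset.sum_comm, sq, mul_assoc]
  refine mul_le_mul_of_nonneg_left ?_ hD0
  set M2 := ∑ z ∈ T 2, ∑ z' ∈ T 0, ‖g 2 z z'‖ ^ 2 with hM2
  have h2 : ∀ u ∈ range (2 ^ k), ∑ s ∈ S, ‖β (q + (u : ℤ))‖ ^ 2 *
      ‖kT (T 2) (T 0) (g 2) (0 + s.2.2) (q + (u : ℤ) + s.1)‖ ^ 2 ≤
      ‖β (q + (u : ℤ))‖ ^ 2 * M2 := by
    intro u _
    rw [← Finset.mul_sum]
    exact mul_le_mul_of_nonneg_left (price20 (j := j) hS0 (T 2) (T 0) (g 2) 2 (by norm_num) 0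
      (q + (u : ℤ))) (by positivity)
  refine (Finset.sum_le_sum h2).trans ?_
  rw [← Finset.sum_mul]
  exact mul_le_mul_of_nonneg_right hD (by rw [hM2]; positivity)

/-- **LEAF QUANTITY OF THE ERROR `X`, one node** -/
theorem LK_X (hκ : 0 ≤ κ) (hg2 : ∀ z z', ‖g 2 z z'‖ ≤ 1) {M B' V σ : ℝ} (hM0 : 0 ≤ M)
    (hB : 0 ≤ B') (hV : 0 ≤ V) (hσ : 0 ≤ σ)
    (h1 : κ * ∑ z ∈ T 1, ∑ z' ∈ T 2, ‖g 1 z z'‖ ^ 2 ≤ M)
    (h2 : κ * ∑ z ∈ T 2, ∑ z' ∈ T 0, ‖g 2 z z'‖ ^ 2 ≤ M) (p : Nd)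
    {X : ℤ → ℤ → ℤ → ℂ}
    (hX : ∀ R : Finset (ℤ × ℤ × ℤ), ∑ t ∈ R, e4 (tm T X t.1) (2 ^ p.1) t.2.1 t.2.2 ≤
      σ * (len p * V))
    (c' c : ℤ) (d' : ℤ) {d : ℤ} (hd : d ≠ 0) (β : ℤ → ℂ)
    (hy : ∀ q : ℤ, ∑ u ∈ range (2 ^ p.1), ‖β (q + (u : ℤ))‖ ^ 2 ≤ B' * len p) :
    LK c' d' c d (PK j T g X r κ) β p ≤
      256 * B' * (M * Real.sqrt (M * (κ * V) * σ)) * len p := by
  classical
  have hlp : 0 < len p := Qe292.len_pos p
  set Z : Finset (ℤ × ℤ × ℤ) := (UU c' d' p ×ˢ Xs c d p).image (fun x => (x.1, x.2, 0)) with hZ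
  set S := Sh j T Z with hS
  have hS0 : ∀ s ∈ S, cfz j s = 0 := fun s hs => Sh_plane hs
  obtain ⟨y0, htile⟩ := tile c hd p
  set M2 := ∑ z ∈ T 2, ∑ z' ∈ T 0, ‖g 2 z z'‖ ^ 2 with hM2
  have hM20 : 0 ≤ M2 := by rw [hM2]; positivity
  -- one average
  have hpt : ∀ q ∈ Xs c' d' p, ∀ z ∈ Xs c d p,
      ‖(1 / 2 ^ p.1 : ℂ) * ∑ u ∈ range (2 ^ p.1), star (β (q + (u : ℤ))) *
        PK j T g X r κ (q + (u : ℤ)) z‖ ^ 2 ≤
      κ * (M * ∑ s ∈ S, ‖hh T g X r β p.1 s q z‖ ^ 2) := by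
    intro q hq z hz
    have e : (1 / 2 ^ p.1 : ℂ) * ∑ u ∈ range (2 ^ p.1), star (β (q + (u : ℤ))) *
        PK j T g X r κ (q + (u : ℤ)) z =
        (κ : ℂ) * ∑ s ∈ S, kT (T 1) (T 2) (g 1) (z + s.2.1) (0 + s.2.2) *
          hh T g X r β p.1 s q z := by
      have e1 : ∀ u ∈ range (2 ^ p.1), star (β (q + (u : ℤ))) * PK j T g X r κ (q + (u : ℤ)) z =
          (κ : ℂ) * ∑ s ∈ S, kT (T 1) (T 2) (g 1) (z + s.2.1) (0 + s.2.2) *
            ((star (β (q + (u : ℤ))) * kT (T 2) (T 0) (g 2) (0 + s.2.2) (q + (u : ℤ) + s.1)) *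
            tm T X (r - (s.1 + s.2.1 + s.2.2)) (q + s.1 + (u : ℤ)) (z + s.2.1)) := by
        intro u hu
        have hxz : (q + (u : ℤ), z, (0 : ℤ)) ∈ Z := Finset.mem_image.2 ⟨(q + (u : ℤ), z),
          Finset.mem_product.2 ⟨Finset.mem_image.2 ⟨(q, u), Finset.mem_product.2 ⟨hq, hu⟩, rfl⟩,
            hz⟩, rfl⟩
        unfold PK
        rw [per_te j T g X r Z S (le_of_eq hS.symm) hS0 _ z hxz]
        rw [mul_left_comm, Finset.mul_sum]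
        congr 1
        refine Finset.sum_congr rfl fun s _ => ?_
        rw [te_tm]
        have e2 : q + (u : ℤ) + s.1 = q + s.1 + (u : ℤ) := by ring
        rw [e2]
        ring
      rw [Finset.sum_congr rfl e1, ← Finset.mul_sum, Finset.sum_comm, mul_left_comm,
        Finset.mul_sum]
      congr 1
      refine Finset.sum_congr rfl fun s _ => ?_
      rw [← Finset.mul_sum, mul_left_comm]
      unfold hh
      push_cast
      rfl
    rw [e, norm_mul, mul_pow, Complex.norm_real, Real.norm_of_nonneg hκ]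
    have h3 := norm_sum_mul_sq_le S (fun s => kT (T 1) (T 2) (g 1) (z + s.2.1) (0 + s.2.2))
      (fun s => hh T g X r β p.1 s q z)
    have h4 := price12 (j := j) hS0 (T 1) (T 2) (g 1) 2 (by norm_num) z 0
    have h5 : 0 ≤ ∑ s ∈ S, ‖hh T g X r β p.1 s q z‖ ^ 2 := by positivity
    calc κ ^ 2 * _ ≤ κ ^ 2 * ((∑ x ∈ T 1, ∑ x' ∈ T 2, ‖g 1 x x'‖ ^ 2) *
          ∑ s ∈ S, ‖hh T g X r β p.1 s q z‖ ^ 2) := by
          refine mul_le_mul_of_nonneg_left (h3.trans ?_) (by positivity)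
          exact mul_le_mul_of_nonneg_right h4 h5
      _ = κ * ((κ * ∑ x ∈ T 1, ∑ x' ∈ T 2, ‖g 1 x x'‖ ^ 2) *
          ∑ s ∈ S, ‖hh T g X r β p.1 s q z‖ ^ 2) := by ring
      _ ≤ _ := mul_le_mul_of_nonneg_left (mul_le_mul_of_nonneg_right h1 h5) hκ
  -- sum over the tiles
  set ε : ℤ → ℕ → ℤ × ℤ × ℤ → ℝ := fun q i s =>
    e4 (tm T X (r - (s.1 + s.2.1 + s.2.2))) (2 ^ p.1) (q + s.1)
      (y0 + 2 ^ p.1 * (i : ℤ) + s.2.1) with hε
  have hε0 : ∀ q i s, 0 ≤ ε q i s := fun q i s => e4_nonneg _ _ _ _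
  have hz : ∀ q ∈ Xs c' d' p, ∑ z ∈ Xs c d p, ∑ s ∈ S, ‖hh T g X r β p.1 s q z‖ ^ 2 ≤
      ∑ i ∈ range 256, ∑ s ∈ S, fe T g β p.1 s q * Real.sqrt (ε q i s) := by
    intro q _
    refine (htile (fun z => ∑ s ∈ S, ‖hh T g X r β p.1 s q z‖ ^ 2)
      (fun z => by positivity)).trans ?_
    refine Finset.sum_le_sum fun i _ => ?_
    rw [Finset.sum_comm]
    exact Finset.sum_le_sum fun s _ => hh_tile X β p.1 s q _
  -- Cauchy--Schwarz over `(q, i, s)`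
  set Ω : Finset (ℤ × ℕ × (ℤ × ℤ × ℤ)) := Xs c' d' p ×ˢ (range 256 ×ˢ S) with hΩ
  have hsum : ∑ q ∈ Xs c' d' p, ∑ i ∈ range 256, ∑ s ∈ S,
      fe T g β p.1 s q * Real.sqrt (ε q i s) ≤
      256 * (B' * len p) * len p * Real.sqrt (M2 * (σ * V)) := by
    have e1 : ∑ q ∈ Xs c' d' p, ∑ i ∈ range 256, ∑ s ∈ S,
        fe T g β p.1 s q * Real.sqrt (ε q i s) =
        ∑ x ∈ Ω, fe T g β p.1 x.2.2 x.1 * Real.sqrt (ε x.1 x.2.1 x.2.2) := by
      rw [hΩ, Finset.sum_product]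
      refine Finset.sum_congr rfl fun q _ => ?_
      rw [Finset.sum_product]
    rw [e1]
    have h3 := Finset.sum_mul_sq_le_sq_mul_sq Ω (fun x => fe T g β p.1 x.2.2 x.1)
      (fun x => Real.sqrt (ε x.1 x.2.1 x.2.2))
    have h4 : ∑ x ∈ Ω, fe T g β p.1 x.2.2 x.1 ^ 2 ≤ 256 * (len p * ((B' * len p) ^ 2 * M2)) := by
      rw [hΩ, Finset.sum_product]
      have h5 : ∀ q ∈ Xs c' d' p, ∑ y ∈ range 256 ×ˢ S, fe T g β p.1 y.2 q ^ 2 ≤
          256 * ((B' * len p) ^ 2 * M2) := by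
        intro q _
        rw [Finset.sum_product]
        have h6 : ∀ i ∈ range 256, ∑ s ∈ S, fe T g β p.1 s q ^ 2 ≤ (B' * len p) ^ 2 * M2 :=
          fun i _ => fe_sq (j := j) hg2 hS0 β p.1 q (hy q)
        refine (Finset.sum_le_sum h6).trans (le_of_eq ?_)
        rw [Finset.sum_const, Finset.card_range, nsmul_eq_mul]
        norm_num
      refine (Finset.sum_le_sum h5).trans ?_
      rw [Finset.sum_const, nsmul_eq_mul]
      calc ((Xs c' d' p).card : ℝ) * (256 * ((B' * len p) ^ 2 * M2)) ≤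
            len p * (256 * ((B' * len p) ^ 2 * M2)) :=
            mul_le_mul_of_nonneg_right (card_Xs c' d' p) (by positivity)
        _ = _ := by ring
    have h7 : ∑ x ∈ Ω, Real.sqrt (ε x.1 x.2.1 x.2.2) ^ 2 ≤ 256 * (σ * (len p * V)) := by
      have e2 : ∑ x ∈ Ω, Real.sqrt (ε x.1 x.2.1 x.2.2) ^ 2 =
          ∑ i ∈ range 256, ∑ q ∈ Xs c' d' p, ∑ s ∈ S, ε q i s := by
        rw [hΩ, Finset.sum_product, Finset.sum_comm' (t' := range 256 ×ˢ S)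
          (s' := fun _ => Xs c' d' p) (by intro x y; tauto)]
        rw [Finset.sum_product]
        refine Finset.sum_congr rfl fun i _ => ?_
        rw [Finset.sum_comm]
        refine Finset.sum_congr rfl fun q _ => Finset.sum_congr rfl fun s _ => ?_
        exact Real.sq_sqrt (hε0 _ _ _)
      rw [e2]
      have h8 : ∀ i ∈ range 256, ∑ q ∈ Xs c' d' p, ∑ s ∈ S, ε q i s ≤ σ * (len p * V) :=
        fun i _ => sum_inj j r (Xs c' d' p) S hS0 (y0 + 2 ^ p.1 * (i : ℤ))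
          (fun t => e4 (tm T X t.1) (2 ^ p.1) t.2.1 t.2.2) hX
      refine (Finset.sum_le_sum h8).trans (le_of_eq ?_)
      rw [Finset.sum_const, Finset.card_range, nsmul_eq_mul]
      norm_num
    have h9 : 0 ≤ ∑ x ∈ Ω, fe T g β p.1 x.2.2 x.1 * Real.sqrt (ε x.1 x.2.1 x.2.2) :=
      Finset.sum_nonneg fun x _ => mul_nonneg (fe_nonneg _ _ _ _) (Real.sqrt_nonneg _)
    have h10 : (∑ x ∈ Ω, fe T g β p.1 x.2.2 x.1 * Real.sqrt (ε x.1 x.2.1 x.2.2)) ^ 2 ≤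
        (256 * (B' * len p) * len p) ^ 2 * (M2 * (σ * V)) := by
      refine h3.trans ?_
      calc _ ≤ (256 * (len p * ((B' * len p) ^ 2 * M2))) * (256 * (σ * (len p * V))) :=
            mul_le_mul h4 h7 (by positivity) (by positivity)
        _ = _ := by ring
    have h11 := Real.sqrt_le_sqrt h10
    rw [Real.sqrt_sq h9, Real.sqrt_mul (sq_nonneg _), Real.sqrt_sq (by positivity)] at h11
    exact h11
  -- end
  have hLK : LK c' d' c d (PK j T g X r κ) β p ≤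
      (1 / len p) * (κ * (M * (256 * (B' * len p) * len p * Real.sqrt (M2 * (σ * V))))) := by
    unfold Wb71.LK
    rw [← Finset.mul_sum]
    refine mul_le_mul_of_nonneg_left ?_ (by positivity)
    have h3 : ∀ q ∈ Xs c' d' p, ∑ z ∈ Xs c d p, ‖(1 / 2 ^ p.1 : ℂ) * ∑ u ∈ range (2 ^ p.1),
        star (β (q + (u : ℤ))) * PK j T g X r κ (q + (u : ℤ)) z‖ ^ 2 ≤
        κ * (M * ∑ i ∈ range 256, ∑ s ∈ S, fe T g β p.1 s q * Real.sqrt (ε q i s)) := by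
      intro q hq
      refine (Finset.sum_le_sum (hpt q hq)).trans ?_
      rw [← Finset.mul_sum, ← Finset.mul_sum]
      exact mul_le_mul_of_nonneg_left (mul_le_mul_of_nonneg_left (hz q hq) hM0) hκ
    refine (Finset.sum_le_sum h3).trans ?_
    rw [← Finset.mul_sum, ← Finset.mul_sum]
    exact mul_le_mul_of_nonneg_left (mul_le_mul_of_nonneg_left hsum hM0) hκ
  refine hLK.trans ?_
  have h12 : κ * Real.sqrt (M2 * (σ * V)) ≤ Real.sqrt (M * (κ * V) * σ) := by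
    have e : κ * Real.sqrt (M2 * (σ * V)) = Real.sqrt ((κ * M2) * (κ * V) * σ) := by
      have : (κ * M2) * (κ * V) * σ = κ ^ 2 * (M2 * (σ * V)) := by ring
      rw [this, Real.sqrt_mul (sq_nonneg _), Real.sqrt_sq hκ]
    rw [e]
    refine Real.sqrt_le_sqrt ?_
    have : 0 ≤ κ * V * σ := by positivity
    calc (κ * M2) * (κ * V) * σ = (κ * M2) * (κ * V * σ) := by ring
      _ ≤ M * (κ * V * σ) := mul_le_mul_of_nonneg_right h2 this
      _ = _ := by ring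
  calc (1 / len p) * (κ * (M * (256 * (B' * len p) * len p * Real.sqrt (M2 * (σ * V))))) =
        256 * B' * (M * (κ * Real.sqrt (M2 * (σ * V)))) * len p := by field_simp
    _ ≤ _ := by gcongr


end node

end Crest.Agent.R079.HEr702
end

-- ▼ part R079/HEs_702

/-! R079, Step II (RULE S), leaf S5 of note 781 (helper702): hypothesis `herr` of `Wr408.wr_total` for the
errors `E` (`XR112.E2T`) and `X` (`EW49.S4W`). -/

set_option autoImplicit false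
set_option linter.unusedVariables false

namespace Crest.Agent.R079.HEr702

open Finset Crest.Agent.R079.Grid Crest.Agent.R079.Pot Crest.Agent.R079.Glue Crest.Agent.R079.R244
  Crest.Agent.R079.F24 Crest.Agent.R079.EWG990 Crest.Agent.R079.LK990
  Crest.Agent.R079.EW5702 Crest.Agent.R079.Growth Crest.Agent.R079.Tr230 Crest.Agent.R079.PerT530
open Crest.Agent.R079.Wb71 (LK Xs mem_Xs)
open Crest.Agent.R079.F2 Crest.Agent.R079.QRed
open Crest.Agent.R079.XR112 (at' E2T)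

/-! ### the node of the slot `j.succAbove 2` -/

lemma mem_iv_div {p : Nd} {y : ℤ} : y ∈ iv p ↔ y / 2 ^ (p.1 + 7) = p.2 :=
  Crest.Agent.R079.Qh249.mem_iv

/-- the error kernel restricted to one node -/
theorem PK_at (j : Fin 4) (T : Fin 3 → Finset ℤ) (g : Fin 3 → ℤ → ℤ → ℂ) (E : ℤ → ℤ → ℤ → ℂ) (r : ℤ)
    (κ : ℝ) (p : Nd) (x z : ℤ) [Decidable ((sl j * r + sl (j.succAbove 0) * x +
      sl (j.succAbove 1) * z) - sl (j.succAbove 2) * (r + x + z) ∈ iv p)] :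
    PK j T g (at' (sl j - sl (j.succAbove 2)) (sl (j.succAbove 0) - sl (j.succAbove 2))
      (sl (j.succAbove 1) - sl (j.succAbove 2)) (T 0) (T 1) E p) r κ x z =
    if (sl j * r + sl (j.succAbove 0) * x + sl (j.succAbove 1) * z) -
      sl (j.succAbove 2) * (r + x + z) ∈ iv p then PK j T g E r κ x z else 0 := by
  classical
  have h := Per_mul_congr j T
    (PhiW (upk g 0 (at' (sl j - sl (j.succAbove 2)) (sl (j.succAbove 0) - sl (j.succAbove 2))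
      (sl (j.succAbove 1) - sl (j.succAbove 2)) (T 0) (T 1) E p))) (PhiW (upk g 0 E))
    (cf j 0 * x + cf j 1 * z) (r + x + z) 1
    (if (sl j * r + sl (j.succAbove 0) * x + sl (j.succAbove 1) * z) -
      sl (j.succAbove 2) * (r + x + z) ∈ iv p then 1 else 0) (by
      intro z0 h0 z1 h1 z2 h2 hc
      rw [PhiW_zero, PhiW_zero]
      have e : (sl j - sl (j.succAbove 2)) * (r + x + z - z0 - z1 - z2) +
          (sl (j.succAbove 0) - sl (j.succAbove 2)) * z0 +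
          (sl (j.succAbove 1) - sl (j.succAbove 2)) * z1 =
          (sl j * r + sl (j.succAbove 0) * x + sl (j.succAbove 1) * z) -
            sl (j.succAbove 2) * (r + x + z) := by
        unfold cf at hc
        linear_combination hc
      unfold XR112.at' cK
      rw [if_pos ⟨h0, h1⟩, e]
      unfold res
      by_cases hm : (sl j * r + sl (j.succAbove 0) * x + sl (j.succAbove 1) * z) -
            sl (j.succAbove 2) * (r + x + z) ∈ iv p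
      · have hm' : (sl j * r + sl (j.succAbove 0) * x + sl (j.succAbove 1) * z) -
            sl (j.succAbove 2) * (r + x + z) ∈ dI (p.1 + 7) p.2 := hm
        rw [if_pos hm, if_pos hm']; ring
      · have hm' : ¬ (sl j * r + sl (j.succAbove 0) * x + sl (j.succAbove 1) * z) -
            sl (j.succAbove 2) * (r + x + z) ∈ dI (p.1 + 7) p.2 := hm
        rw [if_neg hm, if_neg hm']; ring)
  unfold PK
  rw [mul_one] at h
  rw [h]
  by_cases hm : (sl j * r + sl (j.succAbove 0) * x + sl (j.succAbove 1) * z) -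
        sl (j.succAbove 2) * (r + x + z) ∈ iv p
  · rw [if_pos hm, if_pos hm, mul_one]
  · rw [if_neg hm, if_neg hm, mul_zero, mul_zero]

lemma tm_at (T : Fin 3 → Finset ℤ) (E : ℤ → ℤ → ℤ → ℂ) (α γ δ : ℤ) (p : Nd) :
    tm T (at' α γ δ (T 0) (T 1) E p) = at' α γ δ (T 0) (T 1) E p := by
  funext w z z'
  unfold tm XR112.at' cK
  split_ifs <;> rfl

lemma dst_j (j : Fin 4) : Dst (j.succAbove 2) j (j.succAbove 0) (j.succAbove 1) := by
  refine ⟨?_, ?_, ?_, ?_, ?_, ?_⟩ <;> fin_cases j <;> decide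

lemma dst_i (j : Fin 4) : Dst j (j.succAbove 2) (j.succAbove 0) (j.succAbove 1) := by
  refine ⟨?_, ?_, ?_, ?_, ?_, ?_⟩ <;> fin_cases j <;> decide

/-- **nodes near a paying node are alive** -/
theorem Pn_near {W : Finset Nd} {I : Nd} (hW : Full W I) (C : ℕ) (hC : 7 ≤ C) (c : ℤ) {d : ℤ}
    (hd : d ≠ 0) (hd' : |d| ≤ 128) {k : ℕ} {p : Nd} (hp : p ∈ Wa71.Pn W C c d k) {l : ℤ}
    (h1 : p.2 - 5 ≤ l) (h2 : l ≤ p.2 + 5) : ((p.1, l) : Nd) ∈ W := by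
  obtain ⟨hpW, hpk, q, hq, x, hx1, hx2, hxp⟩ := Wa71.mem_Pn.1 hp
  obtain ⟨_, x0, hx01, hx02, hx03⟩ := (Cmp408.mem_pos hW C c hd k q).1 hq
  have hk : p.1 = k := hpk
  subst hk
  have hL : (0 : ℤ) < 2 ^ (p.1 + 7) := by positivity
  have hxx : |x - x0| ≤ 2 ^ p.1 := by rw [abs_le]; constructor <;> linarith
  have h3 : |(c + d * x) - (c + d * x0)| ≤ 2 ^ (p.1 + 7) := by
    have : (c + d * x) - (c + d * x0) = d * (x - x0) := by ring
    rw [this, abs_mul]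
    calc |d| * |x - x0| ≤ 128 * 2 ^ p.1 := by gcongr
      _ = 2 ^ (p.1 + 7) := by ring
  rw [Ero526.mem_iv'] at hxp
  have hC' : (7 : ℤ) ≤ C := by exact_mod_cast hC
  have hz := hx03 (l * 2 ^ (p.1 + 7)) (by
    have h4 : |l * 2 ^ (p.1 + 7) - (c + d * x)| ≤ 6 * 2 ^ (p.1 + 7) := by
      rw [abs_le]; constructor <;> nlinarith
    have e : l * 2 ^ (p.1 + 7) - (c + d * x0) =
        (l * 2 ^ (p.1 + 7) - (c + d * x)) + ((c + d * x) - (c + d * x0)) := by ring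
    rw [e]
    calc _ ≤ |l * 2 ^ (p.1 + 7) - (c + d * x)| + |(c + d * x) - (c + d * x0)| := abs_add_le _ _
      _ ≤ 6 * 2 ^ (p.1 + 7) + 2 ^ (p.1 + 7) := add_le_add h4 h3
      _ = 7 * 2 ^ (p.1 + 7) := by ring
      _ ≤ C * 2 ^ (p.1 + 7) := by gcongr)
  unfold Ero526.Alv at hz
  rwa [Int.mul_ediv_cancel _ hL.ne'] at hz

/-- **LEAF QUANTITY OF `E`**, sum over the nodes of the static slot -/
theorem LK_E11 (j : Fin 4) (T : Fin 3 → Finset ℤ) (g : Fin 3 → ℤ → ℤ → ℂ) {κ : ℝ} (hκ : 0 ≤ κ)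
    (hg2 : ∀ z z', ‖g 2 z z'‖ ≤ 1) {M B' BE : ℝ} (hM0 : 0 ≤ M) (hB : 0 ≤ B')
    (h1 : κ * ∑ z ∈ T 1, ∑ z' ∈ T 2, ‖g 1 z z'‖ ^ 2 ≤ M) (hBE : 0 ≤ BE) {E : ℤ → ℤ → ℤ → ℂ}
    (p : Nd) (hE : ∀ l, p.2 - 5 ≤ l → l ≤ p.2 + 5 → ∀ R : Finset (ℤ × ℤ × ℤ),
      ∑ t ∈ R, ‖at' (sl j - sl (j.succAbove 2)) (sl (j.succAbove 0) - sl (j.succAbove 2))
        (sl (j.succAbove 1) - sl (j.succAbove 2)) (T 0) (T 1) E (p.1, l) t.1 t.2.1 t.2.2‖ ^ 2 ≤
        BE * len p) (r : ℤ) (β : ℤ → ℂ)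
    (hy : ∀ q : ℤ, ∑ u ∈ range (2 ^ p.1), ‖β (q + (u : ℤ))‖ ^ 2 ≤ B' * len p) :
    LK ((sl j - sl (j.succAbove 1)) * r) (-dd (j.succAbove 0) (j.succAbove 1))
      ((sl j - sl (j.succAbove 0)) * r) (dd (j.succAbove 0) (j.succAbove 1))
      (PK j T g E r κ) β p ≤ 11 ^ 2 * (128 * B' * (M * (κ * BE))) * len p := by
  classical
  have hD := dst_j j
  obtain ⟨hd1, hd3⟩ := LfK71.dd_natAbs _ _ _ _ hD
  have hd : dd (j.succAbove 0) (j.succAbove 1) ≠ 0 := by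
    intro h0; rw [h0] at hd1; simp at hd1
  have hd' : -dd (j.succAbove 0) (j.succAbove 1) ≠ 0 := neg_ne_zero.2 hd
  have hlp : 0 < len p := Qe292.len_pos p
  set S : Finset ℤ := Finset.Icc (p.2 - 5) (p.2 + 5) with hS
  have hc : (S.card : ℝ) = 11 := by
    rw [hS, Int.card_Icc]
    have : (p.2 + 5 + 1 - (p.2 - 5)).toNat = 11 := by
      rw [show p.2 + 5 + 1 - (p.2 - 5) = 11 by ring]; rfl
    rw [this]; norm_num
  rw [LfK71.LK_congr _ _ _ _ (PK j T g E r κ) (fun x z => ∑ l ∈ S,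
    PK j T g (at' (sl j - sl (j.succAbove 2)) (sl (j.succAbove 0) - sl (j.succAbove 2))
      (sl (j.succAbove 1) - sl (j.succAbove 2)) (T 0) (T 1) E (p.1, l)) r κ x z) β p ?_]
  · refine (LfK71.LK_sum S _ _ _ _ (fun l => PK j T g (at' (sl j - sl (j.succAbove 2))
      (sl (j.succAbove 0) - sl (j.succAbove 2)) (sl (j.succAbove 1) - sl (j.succAbove 2))
      (T 0) (T 1) E (p.1, l)) r κ) β p).trans ?_
    have h2 : ∀ l ∈ S, LK ((sl j - sl (j.succAbove 1)) * r) (-dd (j.succAbove 0) (j.succAbove 1))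
      ((sl j - sl (j.succAbove 0)) * r) (dd (j.succAbove 0) (j.succAbove 1))
      (PK j T g (at' (sl j - sl (j.succAbove 2)) (sl (j.succAbove 0) - sl (j.succAbove 2))
      (sl (j.succAbove 1) - sl (j.succAbove 2)) (T 0) (T 1) E (p.1, l)) r κ) β p ≤
        128 * B' * (M * (κ * (BE * len p))) := by
      intro l hl
      have hl' := Finset.mem_Icc.1 hl
      refine LK_E hκ hg2 hM0 hB h1 (by positivity) ?_ _ _ _ _ β p hy
      rw [tm_at]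
      exact hE l hl'.1 hl'.2
    refine (mul_le_mul_of_nonneg_left (Finset.sum_le_sum h2) (by positivity)).trans (le_of_eq ?_)
    rw [Finset.sum_const, nsmul_eq_mul, hc]
    ring
  · intro q hq u hu z hz
    have hq' := (mem_Xs hd').1 hq
    have hz' := (mem_Xs hd).1 hz
    have hn := LfK71.slot_near (i := j) hD p r q z u hu hq' hz'
    simp only [PK_at]
    rw [Finset.sum_eq_single_of_mem _ hn]
    · rw [if_pos (mem_iv_div.2 rfl)]
    · intro l _ hl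
      rw [if_neg]
      intro hm
      exact hl (mem_iv_div.1 hm).symm

/-- **LEAF QUANTITY OF `X`**, sum over the nodes of the static slot -/
theorem LK_X11 (j : Fin 4) (T : Fin 3 → Finset ℤ) (g : Fin 3 → ℤ → ℤ → ℂ) {κ : ℝ} (hκ : 0 ≤ κ)
    (hg2 : ∀ z z', ‖g 2 z z'‖ ≤ 1) {M B' V σ : ℝ} (hM0 : 0 ≤ M) (hB : 0 ≤ B') (hV : 0 ≤ V)
    (hσ : 0 ≤ σ) (h1 : κ * ∑ z ∈ T 1, ∑ z' ∈ T 2, ‖g 1 z z'‖ ^ 2 ≤ M)
    (h2 : κ * ∑ z ∈ T 2, ∑ z' ∈ T 0, ‖g 2 z z'‖ ^ 2 ≤ M) {X : ℤ → ℤ → ℤ → ℂ}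
    (p : Nd) (hX : ∀ l, p.2 - 5 ≤ l → l ≤ p.2 + 5 → ∀ R : Finset (ℤ × ℤ × ℤ),
      ∑ t ∈ R, e4 (at' (sl j - sl (j.succAbove 2)) (sl (j.succAbove 0) - sl (j.succAbove 2))
        (sl (j.succAbove 1) - sl (j.succAbove 2)) (T 0) (T 1) X (p.1, l) t.1) (2 ^ p.1)
        t.2.1 t.2.2 ≤ σ * (len p * V)) (r : ℤ) (β : ℤ → ℂ)
    (hy : ∀ q : ℤ, ∑ u ∈ range (2 ^ p.1), ‖β (q + (u : ℤ))‖ ^ 2 ≤ B' * len p) :
    LK ((sl j - sl (j.succAbove 1)) * r) (-dd (j.succAbove 0) (j.succAbove 1))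
      ((sl j - sl (j.succAbove 0)) * r) (dd (j.succAbove 0) (j.succAbove 1))
      (PK j T g X r κ) β p ≤
      11 ^ 2 * (256 * B' * (M * Real.sqrt (M * (κ * V) * σ))) * len p := by
  classical
  have hD := dst_j j
  obtain ⟨hd1, hd3⟩ := LfK71.dd_natAbs _ _ _ _ hD
  have hd : dd (j.succAbove 0) (j.succAbove 1) ≠ 0 := by
    intro h0; rw [h0] at hd1; simp at hd1
  have hd' : -dd (j.succAbove 0) (j.succAbove 1) ≠ 0 := neg_ne_zero.2 hd
  have hlp : 0 < len p := Qe292.len_pos p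
  set S : Finset ℤ := Finset.Icc (p.2 - 5) (p.2 + 5) with hS
  have hc : (S.card : ℝ) = 11 := by
    rw [hS, Int.card_Icc]
    have : (p.2 + 5 + 1 - (p.2 - 5)).toNat = 11 := by
      rw [show p.2 + 5 + 1 - (p.2 - 5) = 11 by ring]; rfl
    rw [this]; norm_num
  rw [LfK71.LK_congr _ _ _ _ (PK j T g X r κ) (fun x z => ∑ l ∈ S,
    PK j T g (at' (sl j - sl (j.succAbove 2)) (sl (j.succAbove 0) - sl (j.succAbove 2))
      (sl (j.succAbove 1) - sl (j.succAbove 2)) (T 0) (T 1) X (p.1, l)) r κ x z) β p ?_]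
  · refine (LfK71.LK_sum S _ _ _ _ (fun l => PK j T g (at' (sl j - sl (j.succAbove 2))
      (sl (j.succAbove 0) - sl (j.succAbove 2)) (sl (j.succAbove 1) - sl (j.succAbove 2))
      (T 0) (T 1) X (p.1, l)) r κ) β p).trans ?_
    have h2 : ∀ l ∈ S, LK ((sl j - sl (j.succAbove 1)) * r) (-dd (j.succAbove 0) (j.succAbove 1))
      ((sl j - sl (j.succAbove 0)) * r) (dd (j.succAbove 0) (j.succAbove 1))
      (PK j T g (at' (sl j - sl (j.succAbove 2)) (sl (j.succAbove 0) - sl (j.succAbove 2))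
      (sl (j.succAbove 1) - sl (j.succAbove 2)) (T 0) (T 1) X (p.1, l)) r κ) β p ≤
        256 * B' * (M * Real.sqrt (M * (κ * V) * σ)) * len p := by
      intro l hl
      have hl' := Finset.mem_Icc.1 hl
      refine LK_X hκ hg2 hM0 hB hV hσ h1 h2 p ?_ _ _ _ hd β hy
      rw [tm_at]
      exact hX l hl'.1 hl'.2
    refine (mul_le_mul_of_nonneg_left (Finset.sum_le_sum h2) (by positivity)).trans (le_of_eq ?_)
    rw [Finset.sum_const, nsmul_eq_mul, hc]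
    ring
  · intro q hq u hu z hz
    have hq' := (mem_Xs hd').1 hq
    have hz' := (mem_Xs hd).1 hz
    have hn := LfK71.slot_near (i := j) hD p r q z u hu hq' hz'
    simp only [PK_at]
    rw [Finset.sum_eq_single_of_mem _ hn]
    · rw [if_pos (mem_iv_div.2 rfl)]
    · intro l _ hl
      rw [if_neg]
      intro hm
      exact hl (mem_iv_div.1 hm).symm

/-- the leaf value of the two errors -/
noncomputable def kE (κ M V BE σ B : ℝ) : ℝ :=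
  92928 * B * M * (κ * BE + 2 * Real.sqrt (M * (κ * V) * σ))

lemma kE_nonneg {κ M V BE σ B : ℝ} (hκ : 0 ≤ κ) (hM0 : 0 ≤ M) (hBE : 0 ≤ BE) (hB : 0 ≤ B) :
    0 ≤ kE κ M V BE σ B := by
  unfold kE; positivity

/-- **HYPOTHESIS `herr` OF `Wr408.wr_total`** (frozen slot `j`, static slot `j.succAbove 2`, free slots
`a = j.succAbove 0`, `b = j.succAbove 1`; `K` = any kernel equal to the sum of the two periodised error
kernels at the points whose four shadows lie in `iv I`). -/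
theorem herr_val (j : Fin 4) (T : Fin 3 → Finset ℤ) (g : Fin 3 → ℤ → ℤ → ℂ) {κ : ℝ} (hκ : 0 ≤ κ)
    (hg2 : ∀ z z', ‖g 2 z z'‖ ≤ 1) {M V BE σ B : ℝ} (hM0 : 0 ≤ M) (hV : 0 ≤ V) (hBE : 0 ≤ BE)
    (hσ : 0 ≤ σ) (hB0 : 0 ≤ B)
    (h1 : κ * ∑ z ∈ T 1, ∑ z' ∈ T 2, ‖g 1 z z'‖ ^ 2 ≤ M)
    (h2 : κ * ∑ z ∈ T 2, ∑ z' ∈ T 0, ‖g 2 z z'‖ ^ 2 ≤ M)
    {W : Finset Nd} {I : Nd} (hW : Full W I) (C : ℕ) (hC : 7 ≤ C) (r : ℤ) (f F : ℤ → ℂ)
    (hf : ∀ z, ‖f z‖ ≤ ‖F ((sl j - sl (j.succAbove 1)) * r +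
      -dd (j.succAbove 0) (j.succAbove 1) * z)‖)
    (hB : ∀ p ∈ W, ∑ y ∈ iv p, ‖F y‖ ^ 2 ≤ B * len p) {E X : ℤ → ℤ → ℤ → ℂ}
    (hE : E2T W (sl j - sl (j.succAbove 2)) (sl (j.succAbove 0) - sl (j.succAbove 2))
      (sl (j.succAbove 1) - sl (j.succAbove 2)) (T 0) (T 1) BE E) {κ' : ℕ}
    (hX : EW49.S4W W κ' V σ (sl j - sl (j.succAbove 2)) (sl (j.succAbove 0) - sl (j.succAbove 2))
      (sl (j.succAbove 1) - sl (j.succAbove 2)) (T 0) (T 1) X (fun _ => 1))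
    (K : ℤ → ℤ → ℂ)
    (hK : ∀ z z' : ℤ,
      (sl j - sl (j.succAbove 0)) * r + dd (j.succAbove 0) (j.succAbove 1) * z' ∈ iv I →
      (sl j - sl (j.succAbove 1)) * r + -dd (j.succAbove 0) (j.succAbove 1) * z ∈ iv I →
      (sl (j.succAbove 0) - sl j) * z + (sl (j.succAbove 1) - sl j) * z' ∈ iv I →
      (sl j - sl (j.succAbove 2)) * r + (sl (j.succAbove 0) - sl (j.succAbove 2)) * z +
        (sl (j.succAbove 1) - sl (j.succAbove 2)) * z' ∈ iv I →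
      K z z' = PK j T g E r κ z z' + PK j T g X r κ z z')
    (k : ℕ) (p : Nd) (hp : p ∈ Wa71.Pn W C ((sl j - sl (j.succAbove 1)) * r)
      (-dd (j.succAbove 0) (j.succAbove 1)) k) :
    LK ((sl j - sl (j.succAbove 1)) * r) (-dd (j.succAbove 0) (j.succAbove 1))
      ((sl j - sl (j.succAbove 0)) * r) (dd (j.succAbove 0) (j.succAbove 1)) K
      (Wb71.mk W C ((sl j - sl (j.succAbove 1)) * r) (-dd (j.succAbove 0) (j.succAbove 1)) f k) p ≤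
      kE κ M V BE σ B * len p := by
  classical
  have hD := dst_j j
  have hD' := dst_i j
  obtain ⟨hd1, hd3⟩ := LfK71.dd_natAbs _ _ _ _ hD
  have hd : dd (j.succAbove 0) (j.succAbove 1) ≠ 0 := by
    intro h0; rw [h0] at hd1; simp at hd1
  have hd' : -dd (j.succAbove 0) (j.succAbove 1) ≠ 0 := neg_ne_zero.2 hd
  have hd3' : |-dd (j.succAbove 0) (j.succAbove 1)| ≤ 3 := by
    rw [abs_neg, Int.abs_eq_natAbs]
    exact_mod_cast hd3
  have hd128 : |-dd (j.succAbove 0) (j.succAbove 1)| ≤ 128 := by linarith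
  have hlp : 0 < len p := Qe292.len_pos p
  have hpk : p.1 = k := (Wa71.mem_Pn.1 hp).2.1
  subst hpk
  have hnear : ∀ l, p.2 - 5 ≤ l → l ≤ p.2 + 5 → ((p.1, l) : Nd) ∈ W :=
    fun l h3 h4 => Pn_near hW C hC _ hd' hd128 hp h3 h4
  have hsub : ∀ y : ℤ, y / 2 ^ (p.1 + 7) ∈ Finset.Icc (p.2 - 5) (p.2 + 5) → y ∈ iv I := by
    intro y hy
    obtain ⟨h3, h4⟩ := Finset.mem_Icc.1 hy
    exact hW.reg.1 _ (hnear _ h3 h4) (mem_iv_div.2 rfl)
  have hy : ∀ q : ℤ, ∑ u ∈ range (2 ^ p.1), ‖Wb71.mk W C ((sl j - sl (j.succAbove 1)) * r)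
      (-dd (j.succAbove 0) (j.succAbove 1)) f p.1 (q + (u : ℤ))‖ ^ 2 ≤ (3 * B) * len p :=
    fun q => LfK71.mk_win W C _ hd' hd128 f F p.1 hf B hB0 hB q
  rw [LfK71.LK_congr _ _ _ _ K (fun x z => PK j T g E r κ x z + PK j T g X r κ x z) _ p ?_]
  · refine (LK_add _ _ _ _ (PK j T g E r κ) (PK j T g X r κ) _ p).trans ?_
    have hEe := LK_E11 j T g hκ hg2 hM0 (by positivity : 0 ≤ 3 * B) h1 hBE p
      (fun l h3 h4 R => hE _ (hnear l h3 h4) R) r _ hy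
    have hXx := LK_X11 j T g hκ hg2 hM0 (by positivity : 0 ≤ 3 * B) hV hσ h1 h2 p
      (fun l h3 h4 R => hX _ (hnear l h3 h4) 0 (Nat.zero_le _) R) r _ hy
    calc _ ≤ 2 * (11 ^ 2 * (128 * (3 * B) * (M * (κ * BE))) * len p +
          11 ^ 2 * (256 * (3 * B) * (M * Real.sqrt (M * (κ * V) * σ))) * len p) := by
          have := add_le_add hEe hXx
          linarith
      _ = _ := by unfold kE; ring
  · intro q hq u hu z hz
    have hq' := (mem_Xs hd').1 hq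
    have hz' := (mem_Xs hd).1 hz
    have n1 := hsub _ (LfK71.slot_near (i := j) hD p r q z u hu hq' hz')
    have n2 := hsub _ (LfK71.slot_near (i := j) hD' p r q z u hu hq' hz')
    have hL : (0 : ℤ) < 2 ^ (p.1 + 7) := by positivity
    refine hK _ _ (hW.reg.1 p (Wa71.mem_Pn.1 hp).1 hz') ?_ ?_ ?_
    · refine hsub _ ?_
      rw [Ero526.mem_iv'] at hq'
      have hLp : (2 : ℤ) ^ (p.1 + 7) = 128 * 2 ^ p.1 := by ring
      have hU0 := Int.natCast_nonneg u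
      have hU1 : (u : ℤ) < 2 ^ p.1 := by exact_mod_cast hu
      have h3 : |-dd (j.succAbove 0) (j.succAbove 1) * (u : ℤ)| ≤ 3 * (u : ℤ) := by
        rw [abs_mul, abs_of_nonneg hU0]
        exact mul_le_mul_of_nonneg_right hd3' hU0
      rw [abs_le] at h3
      have e : (sl j - sl (j.succAbove 1)) * r + -dd (j.succAbove 0) (j.succAbove 1) *
          (q + (u : ℤ)) = ((sl j - sl (j.succAbove 1)) * r +
          -dd (j.succAbove 0) (j.succAbove 1) * q) +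
          -dd (j.succAbove 0) (j.succAbove 1) * (u : ℤ) := by ring
      rw [e, Finset.mem_Icc]
      generalize (sl j - sl (j.succAbove 1)) * r +
          -dd (j.succAbove 0) (j.succAbove 1) * q = Y at hq' ⊢
      generalize -dd (j.succAbove 0) (j.succAbove 1) * (u : ℤ) = D at h3 ⊢
      constructor
      · rw [Int.le_ediv_iff_mul_le hL]; nlinarith
      · have : (Y + D) / 2 ^ (p.1 + 7) < p.2 + 6 := by
          rw [Int.ediv_lt_iff_lt_mul hL]; nlinarith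
        linarith
    · refine (congrArg (· ∈ iv I) ?_).mp n2
      ring
    · refine (congrArg (· ∈ iv I) ?_).mp n1
      ring

end Crest.Agent.R079.HEr702
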