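import Crest.Agent.R079.XDual_988
import Crest.Agent.R079.EW2_990
import Crest.Agent.R079.EWd_49
import Crest.Agent.R079.GrowthDefs_248
import Crest.Agent.R079.XR_112
import Crest.Agent.R079.EW5_702
import Crest.Agent.R079.BAt_112
import Crest.Agent.R079.BadN_360
import Crest.Agent.R079.Leaf_259

-- ▼ part R079/XMix_429
section

/-! R079, Step II (II.1), X word WITHOUT HEIGHT LOSS, analytic half (helper429, after helper988's XDual_988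
and helper988's message 28605).

`m4 X Y` = mixed fourth order form (one corner `X`, three corners `Y`).  If `X` has level `Λ` against all
products of functions of modulus `≤ 1` and `Y` is bounded by `h` (same strips), the sum of `m4 X Y` over all
positions is `≤ κ h³ Λ`.  With `Y = X 1_{|X| ≤ h}`, `B = X 1_{|X| > h}`:
`Σ e4 Y ≤ 4 κ h³ Λ + Σ e4 B`, and `e4 B ≤ (ρ / (h N))² e2 B` when rows and columns of `X` have energy `≤ ρ`.

HOW THIS IS TO BE USED (text of helper988, 28605): X = C - g with mass(g) ≤ 1/σ, level 2σ, height up to 3/σ: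
`XDual988.sum_e4_le` gives H³Λ = 54 σ⁻², NOT small.  CURE: (1) row / column bound of a near-minimiser (own
node p): the dictionary is closed under u -> u 1_S (any set S of rows (w,z)), so g 1_{S^c} is a competitor with
the same mass: |C - g|²_{S,p} ≤ |C|²_{S,p} + η len p for EVERY row set S, same for columns; hence off rows /
columns of total energy ≤ 2η the rows and columns of Y_p := C - f_p are ≤ 2ρ.  (2) the good part has level
≤ 2σ (products) and is cut at height h by this file.  (3) at every node p of the window X = C - gl f =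
Y_p + (f_p - gl f), |f_p - gl f|_2(p) ≤ C sqrt δ (drift), height ≤ 2/σ: take δ = σ³.  (4) h = σ^(-1/4). -/

set_option autoImplicit false
set_option linter.unusedVariables false

namespace Crest.Agent.R079.XMix429

open Finset Crest.Agent.R079.R244 Crest.Agent.R079.XDual988

lemma sum4_comm {β : Type*} [AddCommMonoid β] (s t u v : Finset ℕ) (F : ℕ → ℕ → ℕ → ℕ → β) :
    ∑ j ∈ s, ∑ j' ∈ t, ∑ i ∈ u, ∑ i' ∈ v, F j j' i i' =
      ∑ i ∈ u, ∑ i' ∈ v, ∑ j ∈ s, ∑ j' ∈ t, F j j' i i' := by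
  have h1 : ∑ j ∈ s, ∑ j' ∈ t, ∑ i ∈ u, ∑ i' ∈ v, F j j' i i' =
      ∑ i ∈ u, ∑ j ∈ s, ∑ j' ∈ t, ∑ i' ∈ v, F j j' i i' := by
    rw [Finset.sum_congr rfl fun j _ => Finset.sum_comm]
    exact Finset.sum_comm
  rw [h1]
  refine Finset.sum_congr rfl fun i _ => ?_
  rw [Finset.sum_congr rfl fun j _ => Finset.sum_comm]
  exact Finset.sum_comm

/-- transposition of the fourth order term -/
lemma sq_sum_eq (s : Finset ℕ) (f g : ℕ → ℕ → ℂ) :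
    ((∑ j ∈ s, ∑ j' ∈ s, ‖∑ i ∈ s, f i j * (starRingEnd ℂ) (g i j')‖ ^ 2 : ℝ) : ℂ) =
      ∑ i ∈ s, ∑ i' ∈ s, (∑ j ∈ s, f i j * (starRingEnd ℂ) (f i' j)) *
        (starRingEnd ℂ) (∑ j' ∈ s, g i j' * (starRingEnd ℂ) (g i' j')) := by
  have h1 : ((∑ j ∈ s, ∑ j' ∈ s, ‖∑ i ∈ s, f i j * (starRingEnd ℂ) (g i j')‖ ^ 2 : ℝ) : ℂ) =
      ∑ j ∈ s, ∑ j' ∈ s, ∑ i ∈ s, ∑ i' ∈ s, (f i j * (starRingEnd ℂ) (g i j')) *
        (starRingEnd ℂ) (f i' j * (starRingEnd ℂ) (g i' j')) := by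
    rw [Complex.ofReal_sum]
    refine Finset.sum_congr rfl fun j _ => ?_
    rw [Complex.ofReal_sum]
    refine Finset.sum_congr rfl fun j' _ => ?_
    exact normSq_sum fun i => f i j * (starRingEnd ℂ) (g i j')
  rw [h1, sum4_comm]
  refine Finset.sum_congr rfl fun i _ => Finset.sum_congr rfl fun i' _ => ?_
  rw [map_sum, Finset.sum_mul_sum]
  refine Finset.sum_congr rfl fun j _ => Finset.sum_congr rfl fun j' _ => ?_
  simp only [map_mul, Complex.conj_conj]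
  ring

lemma sq_transpose (s : Finset ℕ) (f : ℕ → ℕ → ℂ) :
    ∑ i ∈ s, ∑ i' ∈ s, ‖∑ j ∈ s, f i j * (starRingEnd ℂ) (f i' j)‖ ^ 2 =
      ∑ j ∈ s, ∑ j' ∈ s, ‖∑ i ∈ s, f i j * (starRingEnd ℂ) (f i j')‖ ^ 2 := by
  have h1 := sq_sum_eq s f f
  have h2 : (∑ i ∈ s, ∑ i' ∈ s, (∑ j ∈ s, f i j * (starRingEnd ℂ) (f i' j)) *
        (starRingEnd ℂ) (∑ j' ∈ s, f i j' * (starRingEnd ℂ) (f i' j'))) =
      ((∑ i ∈ s, ∑ i' ∈ s, ‖∑ j ∈ s, f i j * (starRingEnd ℂ) (f i' j)‖ ^ 2 : ℝ) : ℂ) := by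
    rw [Complex.ofReal_sum]
    refine Finset.sum_congr rfl fun i _ => ?_
    rw [Complex.ofReal_sum]
    refine Finset.sum_congr rfl fun i' _ => ?_
    rw [Complex.mul_conj, Complex.normSq_eq_norm_sq]
  rw [h2] at h1
  exact_mod_cast h1.symm

/-- mixed fourth order bound by AM-GM -/
lemma mixed_le (s : Finset ℕ) (f g : ℕ → ℕ → ℂ) :
    ‖∑ j ∈ s, ∑ j' ∈ s, (∑ i ∈ s, f i j * (starRingEnd ℂ) (g i j')) *
      (starRingEnd ℂ) (∑ i ∈ s, g i j * (starRingEnd ℂ) (g i j'))‖ ≤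
      (1 / 4) * (∑ j ∈ s, ∑ j' ∈ s, ‖∑ i ∈ s, f i j * (starRingEnd ℂ) (f i j')‖ ^ 2) +
      (3 / 4) * ∑ j ∈ s, ∑ j' ∈ s, ‖∑ i ∈ s, g i j * (starRingEnd ℂ) (g i j')‖ ^ 2 := by
  have h1 : ‖∑ j ∈ s, ∑ j' ∈ s, (∑ i ∈ s, f i j * (starRingEnd ℂ) (g i j')) *
      (starRingEnd ℂ) (∑ i ∈ s, g i j * (starRingEnd ℂ) (g i j'))‖ ≤
      ∑ j ∈ s, ∑ j' ∈ s, ((1 / 2) * ‖∑ i ∈ s, f i j * (starRingEnd ℂ) (g i j')‖ ^ 2 +
        (1 / 2) * ‖∑ i ∈ s, g i j * (starRingEnd ℂ) (g i j')‖ ^ 2) := by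
    refine (norm_sum_le _ _).trans (Finset.sum_le_sum fun j _ => ?_)
    refine (norm_sum_le _ _).trans (Finset.sum_le_sum fun j' _ => ?_)
    rw [norm_mul, RCLike.norm_conj]
    nlinarith [sq_nonneg (‖∑ i ∈ s, f i j * (starRingEnd ℂ) (g i j')‖ -
      ‖∑ i ∈ s, g i j * (starRingEnd ℂ) (g i j')‖)]
  have h2 : ∑ j ∈ s, ∑ j' ∈ s, ‖∑ i ∈ s, f i j * (starRingEnd ℂ) (g i j')‖ ^ 2 ≤
      ∑ i ∈ s, ∑ i' ∈ s, ((1 / 2) * ‖∑ j ∈ s, f i j * (starRingEnd ℂ) (f i' j)‖ ^ 2 +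
        (1 / 2) * ‖∑ j ∈ s, g i j * (starRingEnd ℂ) (g i' j)‖ ^ 2) := by
    have e := sq_sum_eq s f g
    have h3 : ‖((∑ j ∈ s, ∑ j' ∈ s, ‖∑ i ∈ s, f i j * (starRingEnd ℂ) (g i j')‖ ^ 2 : ℝ) : ℂ)‖ =
        ∑ j ∈ s, ∑ j' ∈ s, ‖∑ i ∈ s, f i j * (starRingEnd ℂ) (g i j')‖ ^ 2 := by
      rw [Complex.norm_real, Real.norm_of_nonneg]
      positivity
    rw [← h3, e]
    refine (norm_sum_le _ _).trans (Finset.sum_le_sum fun i _ => ?_)
    refine (norm_sum_le _ _).trans (Finset.sum_le_sum fun i' _ => ?_)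
    rw [norm_mul, RCLike.norm_conj]
    nlinarith [sq_nonneg (‖∑ j ∈ s, f i j * (starRingEnd ℂ) (f i' j)‖ -
      ‖∑ j ∈ s, g i j * (starRingEnd ℂ) (g i' j)‖)]
  have e1 := sq_transpose s f
  have e2 := sq_transpose s g
  simp only [Finset.sum_add_distrib, ← Finset.mul_sum] at h1 h2
  rw [e1, e2] at h2
  linarith

/-- mixed fourth order form: one corner `X`, three corners `Y` -/
noncomputable def m4 (X Y : ℤ → ℤ → ℂ) (N : ℕ) (q p : ℤ) : ℂ :=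
  (1 / (N : ℂ) ^ 4) * ∑ j ∈ range N, ∑ j' ∈ range N, ∑ i ∈ range N, ∑ i' ∈ range N,
    (X (q + (i : ℤ)) (p + (j : ℤ)) * (starRingEnd ℂ) (Y (q + (i : ℤ)) (p + (j' : ℤ)))) *
      (starRingEnd ℂ) (Y (q + (i' : ℤ)) (p + (j : ℤ)) *
        (starRingEnd ℂ) (Y (q + (i' : ℤ)) (p + (j' : ℤ))))

lemma m4_eq (X Y : ℤ → ℤ → ℂ) (N : ℕ) (q p : ℤ) : m4 X Y N q p =
    (1 / (N : ℂ) ^ 4) * ∑ j ∈ range N, ∑ j' ∈ range N,
      (∑ i ∈ range N, X (q + (i : ℤ)) (p + (j : ℤ)) * (starRingEnd ℂ) (Y (q + (i : ℤ)) (p + (j' : ℤ)))) *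
      (starRingEnd ℂ) (∑ i ∈ range N, Y (q + (i : ℤ)) (p + (j : ℤ)) *
        (starRingEnd ℂ) (Y (q + (i : ℤ)) (p + (j' : ℤ)))) := by
  unfold m4
  congr 1
  refine Finset.sum_congr rfl fun j _ => Finset.sum_congr rfl fun j' _ => ?_
  rw [map_sum, Finset.sum_mul_sum]

lemma e4_eq_m4 (X : ℤ → ℤ → ℂ) (N : ℕ) (q p : ℤ) : ((e4 X N q p : ℝ) : ℂ) = m4 X X N q p := by
  rw [m4_eq]
  unfold e4
  push_cast
  congr 1
  refine Finset.sum_congr rfl fun j _ => Finset.sum_congr rfl fun j' _ => ?_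
  rw [Complex.mul_conj, Complex.normSq_eq_norm_sq]
  push_cast
  rfl

lemma m4_add (X X' Y : ℤ → ℤ → ℂ) (N : ℕ) (q p : ℤ) :
    m4 (fun x y => X x y + X' x y) Y N q p = m4 X Y N q p + m4 X' Y N q p := by
  unfold m4
  rw [← mul_add]
  congr 1
  simp only [add_mul, Finset.sum_add_distrib]

lemma norm_m4_le (X Y : ℤ → ℤ → ℂ) (N : ℕ) (q p : ℤ) :
    ‖m4 X Y N q p‖ ≤ (1 / 4) * e4 X N q p + (3 / 4) * e4 Y N q p := by
  rw [m4_eq, norm_mul, norm_div, norm_one, norm_pow, Complex.norm_natCast]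
  have h := mixed_le (range N) (fun i j => X (q + (i : ℤ)) (p + (j : ℤ)))
    (fun i j => Y (q + (i : ℤ)) (p + (j : ℤ)))
  unfold e4
  refine (mul_le_mul_of_nonneg_left h (by positivity)).trans (le_of_eq ?_)
  ring

/-- tall part: `e4` from row and column sums -/
lemma e4_schur (X : ℤ → ℤ → ℂ) (N : ℕ) (q p : ℤ) {R : ℝ}
    (hr : ∀ i, ∑ j ∈ range N, ‖X (q + (i : ℤ)) (p + (j : ℤ))‖ ≤ R)
    (hc : ∀ j, ∑ i ∈ range N, ‖X (q + (i : ℤ)) (p + (j : ℤ))‖ ≤ R) :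
    e4 X N q p ≤ (R / N) ^ 2 * e2 X N q p := by
  have hR : 0 ≤ R := (Finset.sum_nonneg fun j _ => norm_nonneg _).trans (hr 0)
  set b : ℕ → ℕ → ℝ := fun i j => ‖X (q + (i : ℤ)) (p + (j : ℤ))‖ with hb
  have hb0 : ∀ i j, 0 ≤ b i j := fun i j => norm_nonneg _
  have h1 : ∑ j ∈ range N, ∑ j' ∈ range N, ‖∑ i ∈ range N, X (q + (i : ℤ)) (p + (j : ℤ)) *
      (starRingEnd ℂ) (X (q + (i : ℤ)) (p + (j' : ℤ)))‖ ^ 2 ≤
      ∑ j ∈ range N, ∑ j' ∈ range N, (∑ i ∈ range N, b i j * b i j') ^ 2 := by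
    refine Finset.sum_le_sum fun j _ => Finset.sum_le_sum fun j' _ => ?_
    refine pow_le_pow_left₀ (norm_nonneg _) ((norm_sum_le _ _).trans (Finset.sum_le_sum fun i _ => ?_)) 2
    rw [norm_mul, RCLike.norm_conj]
  have h2 : ∑ j ∈ range N, ∑ j' ∈ range N, (∑ i ∈ range N, b i j * b i j') ^ 2 =
      ∑ j ∈ range N, ∑ j' ∈ range N, ∑ i ∈ range N, ∑ i' ∈ range N,
        (b i j * b i' j') * (b i j' * b i' j) := by
    refine Finset.sum_congr rfl fun j _ => Finset.sum_congr rfl fun j' _ => ?_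
    rw [sq, Finset.sum_mul_sum]
    refine Finset.sum_congr rfl fun i _ => Finset.sum_congr rfl fun i' _ => ?_
    ring
  have h3 : ∑ j ∈ range N, ∑ j' ∈ range N, ∑ i ∈ range N, ∑ i' ∈ range N,
        (b i j * b i' j') * (b i j' * b i' j) ≤
      (1 / 2) * (∑ j ∈ range N, ∑ j' ∈ range N, ∑ i ∈ range N, ∑ i' ∈ range N,
        b i j ^ 2 * (b i j' * b i' j)) +
      (1 / 2) * (∑ j ∈ range N, ∑ j' ∈ range N, ∑ i ∈ range N, ∑ i' ∈ range N,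
        b i' j' ^ 2 * (b i j' * b i' j)) := by
    simp only [Finset.mul_sum, ← Finset.sum_add_distrib]
    refine Finset.sum_le_sum fun j _ => Finset.sum_le_sum fun j' _ => Finset.sum_le_sum fun i _ =>
      Finset.sum_le_sum fun i' _ => ?_
    have h4 : 0 ≤ b i j' * b i' j := mul_nonneg (hb0 _ _) (hb0 _ _)
    nlinarith [mul_nonneg h4 (sq_nonneg (b i j - b i' j'))]
  have h5 : ∑ j ∈ range N, ∑ j' ∈ range N, ∑ i ∈ range N, ∑ i' ∈ range N,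
        b i j ^ 2 * (b i j' * b i' j) ≤ R ^ 2 * ∑ j ∈ range N, ∑ i ∈ range N, b i j ^ 2 := by
    rw [Finset.mul_sum]
    refine Finset.sum_le_sum fun j _ => ?_
    rw [Finset.sum_comm, Finset.mul_sum]
    refine Finset.sum_le_sum fun i _ => ?_
    calc ∑ j' ∈ range N, ∑ i' ∈ range N, b i j ^ 2 * (b i j' * b i' j)
        = b i j ^ 2 * ((∑ j' ∈ range N, b i j') * ∑ i' ∈ range N, b i' j) := by
          rw [Finset.sum_mul_sum, Finset.mul_sum]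
          exact Finset.sum_congr rfl fun j' _ => by rw [Finset.mul_sum]
      _ ≤ b i j ^ 2 * (R * R) := by
          refine mul_le_mul_of_nonneg_left ?_ (sq_nonneg _)
          exact mul_le_mul (hr i) (hc j) (Finset.sum_nonneg fun _ _ => hb0 _ _) hR
      _ = R ^ 2 * b i j ^ 2 := by ring
  have h6 : ∑ j ∈ range N, ∑ j' ∈ range N, ∑ i ∈ range N, ∑ i' ∈ range N,
        b i' j' ^ 2 * (b i j' * b i' j) ≤ R ^ 2 * ∑ j ∈ range N, ∑ i ∈ range N, b i j ^ 2 := by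
    rw [Finset.sum_comm, Finset.mul_sum]
    refine Finset.sum_le_sum fun j' _ => ?_
    have e : ∑ j ∈ range N, ∑ i ∈ range N, ∑ i' ∈ range N, b i' j' ^ 2 * (b i j' * b i' j) =
        ∑ i' ∈ range N, b i' j' ^ 2 * ((∑ j ∈ range N, b i' j) * ∑ i ∈ range N, b i j') := by
      have e1 : ∀ j, ∑ i ∈ range N, ∑ i' ∈ range N, b i' j' ^ 2 * (b i j' * b i' j) =
          ∑ i' ∈ range N, ∑ i ∈ range N, b i' j' ^ 2 * (b i j' * b i' j) := fun j => Finset.sum_comm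
      rw [Finset.sum_congr rfl fun j _ => e1 j, Finset.sum_comm]
      refine Finset.sum_congr rfl fun i' _ => ?_
      rw [Finset.sum_mul_sum, Finset.mul_sum]
      refine Finset.sum_congr rfl fun j _ => ?_
      rw [Finset.mul_sum]
      exact Finset.sum_congr rfl fun i _ => by ring
    rw [e, Finset.mul_sum]
    refine Finset.sum_le_sum fun i' _ => ?_
    calc b i' j' ^ 2 * ((∑ j ∈ range N, b i' j) * ∑ i ∈ range N, b i j')
        ≤ b i' j' ^ 2 * (R * R) := by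
          refine mul_le_mul_of_nonneg_left ?_ (sq_nonneg _)
          exact mul_le_mul (hr i') (hc j') (Finset.sum_nonneg fun _ _ => hb0 _ _) hR
      _ = R ^ 2 * b i' j' ^ 2 := by ring
  have h7 : ∑ j ∈ range N, ∑ j' ∈ range N, ‖∑ i ∈ range N, X (q + (i : ℤ)) (p + (j : ℤ)) *
      (starRingEnd ℂ) (X (q + (i : ℤ)) (p + (j' : ℤ)))‖ ^ 2 ≤
      R ^ 2 * ∑ i ∈ range N, ∑ j ∈ range N, b i j ^ 2 := by
    rw [Finset.sum_comm (s := range N) (t := range N) (f := fun i j => b i j ^ 2)]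
    rw [h2] at h1
    linarith
  unfold e4 e2
  calc (1 / (N : ℝ) ^ 4) * _ ≤ (1 / (N : ℝ) ^ 4) * (R ^ 2 * ∑ i ∈ range N, ∑ j ∈ range N, b i j ^ 2) :=
        mul_le_mul_of_nonneg_left h7 (by positivity)
    _ = (R / N) ^ 2 * ((1 / (N : ℝ) ^ 2) * ∑ i ∈ range N, ∑ j ∈ range N, b i j ^ 2) := by
        rw [div_pow]; ring

/-- the mixed fourth order term at tile offsets `o1, o2` and reference points `i', j'` -/
noncomputable def Q4m (X Y : ℤ → ℤ → ℂ) (N : ℕ) (B o1 o2 : ℤ) (i' j' : ℕ) : ℂ :=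
  ∑ x ∈ Ico (o1 - B * N) (o1 + B * N), ∑ y ∈ Ico (o2 - B * N) (o2 + B * N),
    X x y * (starRingEnd ℂ) (Y x (o2 + ((y - o2) / N) * N + (j' : ℤ))) *
      (starRingEnd ℂ) (Y (o1 + ((x - o1) / N) * N + (i' : ℤ)) y) *
      Y (o1 + ((x - o1) / N) * N + (i' : ℤ)) (o2 + ((y - o2) / N) * N + (j' : ℤ))

lemma Q4m_eq (X Y : ℤ → ℤ → ℂ) (N : ℕ) (hN : 0 < N) (B o1 o2 : ℤ) (i' j' : ℕ) :
    Q4m X Y N B o1 o2 i' j' = ∑ k1 ∈ Ico (-B) B, ∑ i ∈ range N, ∑ k2 ∈ Ico (-B) B, ∑ j ∈ range N,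
      X (o1 + k1 * N + (i : ℤ)) (o2 + k2 * N + (j : ℤ)) *
      (starRingEnd ℂ) (Y (o1 + k1 * N + (i : ℤ)) (o2 + k2 * N + (j' : ℤ))) *
      (starRingEnd ℂ) (Y (o1 + k1 * N + (i' : ℤ)) (o2 + k2 * N + (j : ℤ))) *
      Y (o1 + k1 * N + (i' : ℤ)) (o2 + k2 * N + (j' : ℤ)) := by
  unfold Q4m
  rw [sum_tile N hN B o1 fun k1 x => ∑ k2 ∈ Ico (-B) B, ∑ j ∈ range N,
      X x (o2 + k2 * N + (j : ℤ)) *
      (starRingEnd ℂ) (Y x (o2 + k2 * N + (j' : ℤ))) *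
      (starRingEnd ℂ) (Y (o1 + k1 * N + (i' : ℤ)) (o2 + k2 * N + (j : ℤ))) *
      Y (o1 + k1 * N + (i' : ℤ)) (o2 + k2 * N + (j' : ℤ))]
  refine Finset.sum_congr rfl fun x _ => ?_
  rw [sum_tile N hN B o2 fun k2 y => X x y *
      (starRingEnd ℂ) (Y x (o2 + k2 * N + (j' : ℤ))) *
      (starRingEnd ℂ) (Y (o1 + ((x - o1) / N) * N + (i' : ℤ)) y) *
      Y (o1 + ((x - o1) / N) * N + (i' : ℤ)) (o2 + k2 * N + (j' : ℤ))]

/-- sum of `m4` over all positions of a big square = mixed fourth order terms -/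
lemma sum_m4 (X Y : ℤ → ℤ → ℂ) (N : ℕ) (hN : 0 < N) (B : ℤ) :
    (∑ q ∈ Ico (-(B * N)) (B * N), ∑ p ∈ Ico (-(B * N)) (B * N), m4 X Y N q p) =
      (1 / (N : ℂ) ^ 4) * ∑ o1 ∈ range N, ∑ o2 ∈ range N, ∑ i' ∈ range N, ∑ j' ∈ range N,
        Q4m X Y N B (o1 : ℤ) (o2 : ℤ) i' j' := by
  have h0 : ∀ f : ℤ → ℂ, ∑ q ∈ Ico (-(B * N)) (B * N), f q =
      ∑ k ∈ Ico (-B) B, ∑ o ∈ range N, f (k * N + (o : ℤ)) := by
    intro f
    have := sum_tile N hN B 0 fun _ x => f x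
    simp only [zero_add, zero_sub] at this
    rw [this]
  rw [h0]
  simp only [h0]
  obtain ⟨S, hS⟩ : ∃ S : ℤ → ℤ → ℂ, ∀ q p, S q p = ∑ j ∈ range N,
      ∑ j' ∈ range N, ∑ i ∈ range N, ∑ i' ∈ range N,
        (X (q + (i : ℤ)) (p + (j : ℤ)) * (starRingEnd ℂ) (Y (q + (i : ℤ)) (p + (j' : ℤ)))) *
        (starRingEnd ℂ) (Y (q + (i' : ℤ)) (p + (j : ℤ)) *
          (starRingEnd ℂ) (Y (q + (i' : ℤ)) (p + (j' : ℤ)))) := ⟨_, fun _ _ => rfl⟩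
  have h1 : ∀ q p : ℤ, m4 X Y N q p = (1 / (N : ℂ) ^ 4) * S q p := by
    intro q p
    rw [hS]
    rfl
  simp only [h1, Q4m_eq X Y N hN, ← Finset.mul_sum]
  congr 1
  simp only [hS]
  simp only [← Finset.sum_product']
  refine Finset.sum_nbij'
    (fun t => (t.2.1, t.2.2.2.1, t.2.2.2.2.2.2.2, t.2.2.2.2.2.1, t.1, t.2.2.2.2.2.2.1, t.2.2.1,
      t.2.2.2.2.1))
    (fun s => (s.2.2.2.2.1, s.1, s.2.2.2.2.2.2.1, s.2.1, s.2.2.2.2.2.2.2, s.2.2.2.1,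
      s.2.2.2.2.2.1, s.2.2.1)) ?_ ?_ ?_ ?_ ?_
  · rintro ⟨k1, o1, k2, o2, j, j', i, i'⟩ ht
    simp only [Finset.mem_product] at ht ⊢
    tauto
  · rintro ⟨o1, o2, i', j', k1, i, k2, j⟩ ht
    simp only [Finset.mem_product] at ht ⊢
    tauto
  · rintro ⟨k1, o1, k2, o2, j, j', i, i'⟩ ht
    rfl
  · rintro ⟨o1, o2, i', j', k1, i, k2, j⟩ ht
    rfl
  · rintro ⟨k1, o1, k2, o2, j, j', i, i'⟩ ht
    simp only [map_mul, Complex.conj_conj]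
    have e1 : ∀ i : ℕ, (k1 * (N : ℤ) + (o1 : ℤ) + (i : ℤ)) = ((o1 : ℤ) + k1 * N + (i : ℤ)) := by
      intro i; ring
    have e2 : ∀ i : ℕ, (k2 * (N : ℤ) + (o2 : ℤ) + (i : ℤ)) = ((o2 : ℤ) + k2 * N + (i : ℤ)) := by
      intro i; ring
    simp only [e1, e2]
    ring

section main

variable {ι : Type*} {A : Finset ι} {ω : ι → ℝ} {X Y : ι → ℤ → ℤ → ℂ} {H Λ : ℝ} {Tx Ty : Finset ℤ}

lemma Q_boundm {N : ℕ} (hN : 0 < N) (hH : 0 < H) (hX : ∀ a x y, ‖Y a x y‖ ≤ H) {γ δ : ℤ}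
    (hγ : γ ≠ 0) (hδ : δ ≠ 0) (c : ι → ℤ) (κ : ℕ)
    (hstr : ∀ a ∈ A, ∀ x y, Y a x y ≠ 0 → c a ≤ γ * x + δ * y ∧ γ * x + δ * y < c a + κ * N)
    (hsup : ∀ a ∈ A, ∀ x y, X a x y ≠ 0 → x ∈ Tx ∧ y ∈ Ty)
    (B o1 o2 : ℤ) (hB : Tx ⊆ Ico (o1 - B * N) (o1 + B * N))
    (hB' : Ty ⊆ Ico (o2 - B * N) (o2 + B * N)) (h : LevP A ω X Tx Ty Λ) (i' j' : ℕ) :
    ‖∑ a ∈ A, (ω a : ℂ) * Q4m (X a) (Y a) N B o1 o2 i' j'‖ ≤ κ * (H ^ 3 * Λ) := by
  classical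
  have hNz : (0 : ℤ) < N := by exact_mod_cast hN
  set k1 : ℤ → ℤ := fun x => (x - o1) / N with hk1
  set k2 : ℤ → ℤ := fun y => (y - o2) / N with hk2
  set ax : ℤ → ℤ := fun x => o1 + k1 x * N + (i' : ℤ) with hax
  set bY : ℤ → ℤ := fun y => o2 + k2 y * N + (j' : ℤ) with hbY
  set F : ι → ℤ → ℤ → ℂ := fun a x y => X a x y * (starRingEnd ℂ) (Y a x (bY y)) *
    (starRingEnd ℂ) (Y a (ax x) y) * Y a (ax x) (bY y) with hF
  set e : ℤ := γ * (o1 + i') + δ * (o2 + j') with he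
  set n0 : ι → ℤ := fun a => -((-(c a - e)) / N) with hn0
  -- restriction of the sums
  have hQ : ∀ a ∈ A, Q4m (X a) (Y a) N B o1 o2 i' j' = ∑ x ∈ Tx, ∑ y ∈ Ty, F a x y := by
    intro a ha
    have z : ∀ x y, ¬ (x ∈ Tx ∧ y ∈ Ty) → X a x y = 0 := by
      intro x y hxy
      by_contra hc
      exact hxy (hsup a ha x y hc)
    unfold Q4m
    rw [← Finset.sum_subset hB]
    · refine Finset.sum_congr rfl fun x _ => ?_
      rw [← Finset.sum_subset hB']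
      intro y _ hy
      rw [z x y fun hc => hy hc.2]
      simp
    · intro x _ hx
      refine Finset.sum_eq_zero fun y _ => ?_
      rw [z x y fun hc => hx hc.1]
      simp
  -- selection of the colour
  have hsel : ∀ a ∈ A, ∀ x y, F a x y =
      ∑ t ∈ range κ, if γ * k1 x + δ * k2 y = n0 a + (t : ℤ) then F a x y else 0 := by
    intro a ha x y
    by_cases hFz : F a x y = 0
    · rw [hFz]
      simp
    have h4 : Y a (ax x) (bY y) ≠ 0 := by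
      intro hc
      exact hFz (by simp only [hF, hc, mul_zero])
    obtain ⟨s1, s2⟩ := hstr a ha _ _ h4
    have em : γ * ax x + δ * bY y = e + N * (γ * k1 x + δ * k2 y) := by
      simp only [hax, hbY, he]; ring
    rw [em] at s1 s2
    obtain ⟨c1, c2⟩ := ceil_facts hN (c a - e)
    set m := γ * k1 x + δ * k2 y with hm
    have m1 : n0 a ≤ m := by
      by_contra hc
      push Not at hc
      have : (N : ℤ) * m ≤ N * (n0 a - 1) := mul_le_mul_of_nonneg_left (by omega) hNz.le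
      simp only [hn0] at this
      linarith
    have m2 : m < n0 a + κ := by
      by_contra hc
      push Not at hc
      have : (N : ℤ) * (n0 a + κ) ≤ N * m := mul_le_mul_of_nonneg_left hc hNz.le
      simp only [hn0] at this
      linarith
    rw [Finset.sum_eq_single (m - n0 a).toNat]
    · rw [if_pos]
      rw [Int.toNat_of_nonneg (by omega)]
      ring
    · intro t _ ht
      rw [if_neg]
      intro hc
      apply ht
      omega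
    · intro hc
      exfalso
      apply hc
      rw [Finset.mem_range]
      omega
  -- range of the characters
  obtain ⟨M, hM⟩ := Finset.exists_nat_subset_range
    ((A ×ˢ Tx ×ˢ Ty ×ˢ range κ).image fun t =>
      (γ * k1 t.2.1 + δ * k2 t.2.2.1 - (n0 t.1 + (t.2.2.2 : ℤ))).natAbs)
  have hMlt : ∀ a ∈ A, ∀ x ∈ Tx, ∀ y ∈ Ty, ∀ t ∈ range κ,
      (γ * k1 x + δ * k2 y - (n0 a + (t : ℤ))).natAbs < M + 1 := by
    intro a ha x hx y hy t ht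
    have : (γ * k1 x + δ * k2 y - (n0 a + (t : ℤ))).natAbs ∈ range M := by
      apply hM
      rw [Finset.mem_image]
      exact ⟨(a, x, y, t), by simp only [Finset.mem_product]; exact ⟨ha, hx, hy, ht⟩, rfl⟩
    have := Finset.mem_range.1 this
    omega
  have hMc : ((M + 1 : ℕ) : ℂ) ≠ 0 := by exact_mod_cast Nat.succ_ne_zero M
  -- one colour
  have hcol : ∀ t ∈ range κ, ‖∑ a ∈ A, (ω a : ℂ) * ∑ x ∈ Tx, ∑ y ∈ Ty,
      (if γ * k1 x + δ * k2 y = n0 a + (t : ℤ) then F a x y else 0)‖ ≤ H ^ 3 * Λ := by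
    intro t ht
    set U : ZMod (M + 1) → ι → ℤ → ℂ := fun r a x =>
      ZMod.stdAddChar (r * ((γ * k1 x - (n0 a + (t : ℤ)) : ℤ) : ZMod (M + 1))) *
        ((starRingEnd ℂ) (Y a x (o2 + ((n0 a + t - γ * k1 x) / δ) * N + (j' : ℤ))) *
          Y a (ax x) (o2 + ((n0 a + t - γ * k1 x) / δ) * N + (j' : ℤ))) with hU
    set V : ZMod (M + 1) → ι → ℤ → ℂ := fun r a y =>
      ZMod.stdAddChar (r * ((δ * k2 y : ℤ) : ZMod (M + 1))) *
        (starRingEnd ℂ) (Y a (o1 + ((n0 a + t - δ * k2 y) / γ) * N + (i' : ℤ)) y) with hV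
    have hUb : ∀ r a x, ‖U r a x‖ ≤ H ^ 2 := by
      intro r a x
      simp only [hU, norm_mul, AddChar.norm_apply, one_mul, RCLike.norm_conj]
      nlinarith [hX a x (o2 + ((n0 a + t - γ * k1 x) / δ) * N + (j' : ℤ)),
        hX a (ax x) (o2 + ((n0 a + t - γ * k1 x) / δ) * N + (j' : ℤ)),
        norm_nonneg (Y a x (o2 + ((n0 a + t - γ * k1 x) / δ) * N + (j' : ℤ))),
        norm_nonneg (Y a (ax x) (o2 + ((n0 a + t - γ * k1 x) / δ) * N + (j' : ℤ)))]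
    have hVb : ∀ r a y, ‖V r a y‖ ≤ H := by
      intro r a y
      simp only [hV, norm_mul, AddChar.norm_apply, one_mul, RCLike.norm_conj]
      exact hX _ _ _
    have hpt : ∀ a ∈ A, ∀ x ∈ Tx, ∀ y ∈ Ty,
        (if γ * k1 x + δ * k2 y = n0 a + (t : ℤ) then F a x y else 0) =
        (1 / ((M + 1 : ℕ) : ℂ)) * ∑ r : ZMod (M + 1), X a x y * U r a x * V r a y := by
      intro a ha x hx y hy
      have hi := ind_char (M + 1) _ (hMlt a ha x hx y hy t ht)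
      have e1 : ∀ r : ZMod (M + 1), X a x y * U r a x * V r a y =
          (X a x y * ((starRingEnd ℂ) (Y a x (o2 + ((n0 a + t - γ * k1 x) / δ) * N + (j' : ℤ))) *
          Y a (ax x) (o2 + ((n0 a + t - γ * k1 x) / δ) * N + (j' : ℤ))) *
          (starRingEnd ℂ) (Y a (o1 + ((n0 a + t - δ * k2 y) / γ) * N + (i' : ℤ)) y)) *
          ZMod.stdAddChar (r * ((γ * k1 x + δ * k2 y - (n0 a + (t : ℤ)) : ℤ) : ZMod (M + 1))) := by
        intro r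
        have e2 : r * ((γ * k1 x + δ * k2 y - (n0 a + (t : ℤ)) : ℤ) : ZMod (M + 1)) =
            r * ((γ * k1 x - (n0 a + (t : ℤ)) : ℤ) : ZMod (M + 1)) +
              r * ((δ * k2 y : ℤ) : ZMod (M + 1)) := by
          push_cast; ring
        rw [e2, AddChar.map_add_eq_mul]
        simp only [hU, hV]
        ring
      simp only [e1]
      rw [← Finset.mul_sum, mul_left_comm, ← hi]
      by_cases hm : γ * k1 x + δ * k2 y = n0 a + (t : ℤ)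
      · rw [if_pos hm, if_pos (by omega), mul_one]
        have d1 : (n0 a + t - γ * k1 x) / δ = k2 y := by
          rw [← hm]
          rw [show γ * k1 x + δ * k2 y - γ * k1 x = δ * k2 y by ring]
          exact Int.mul_ediv_cancel_left _ hδ
        have d2 : (n0 a + t - δ * k2 y) / γ = k1 x := by
          rw [← hm]
          rw [show γ * k1 x + δ * k2 y - δ * k2 y = γ * k1 x by ring]
          exact Int.mul_ediv_cancel_left _ hγ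
        rw [d1, d2]
        simp only [hF, hax, hbY]
        ring
      · rw [if_neg hm, if_neg (by omega), mul_zero]
    have e3 : ∑ a ∈ A, (ω a : ℂ) * ∑ x ∈ Tx, ∑ y ∈ Ty,
        (if γ * k1 x + δ * k2 y = n0 a + (t : ℤ) then F a x y else 0) =
        (1 / ((M + 1 : ℕ) : ℂ)) * ∑ r : ZMod (M + 1), ∑ a ∈ A, (ω a : ℂ) * ∑ x ∈ Tx, ∑ y ∈ Ty,
          X a x y * U r a x * V r a y := by
      rw [Finset.sum_comm, Finset.mul_sum]
      refine Finset.sum_congr rfl fun a ha => ?_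
      rw [← Finset.mul_sum, mul_left_comm, ← swap3]
      congr 1
      rw [Finset.mul_sum]
      refine Finset.sum_congr rfl fun x hx => ?_
      rw [Finset.mul_sum]
      exact Finset.sum_congr rfl fun y hy => hpt a ha x hx y hy
    rw [e3, norm_mul, norm_div, norm_one, Complex.norm_natCast]
    have h5 : ‖∑ r : ZMod (M + 1), ∑ a ∈ A, (ω a : ℂ) * ∑ x ∈ Tx, ∑ y ∈ Ty,
          X a x y * U r a x * V r a y‖ ≤ ((M + 1 : ℕ) : ℝ) * (H ^ 2 * H * Λ) := by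
      refine (norm_sum_le _ _).trans ?_
      calc ∑ r : ZMod (M + 1), ‖∑ a ∈ A, (ω a : ℂ) * ∑ x ∈ Tx, ∑ y ∈ Ty,
            X a x y * U r a x * V r a y‖ ≤ ∑ _r : ZMod (M + 1), H ^ 2 * H * Λ :=
            Finset.sum_le_sum fun r _ =>
              h.scaled (by positivity) hH (U r) (V r) (hUb r) (hVb r)
        _ = ((M + 1 : ℕ) : ℝ) * (H ^ 2 * H * Λ) := by
            rw [Finset.sum_const, Finset.card_univ, ZMod.card, nsmul_eq_mul]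
    have h6 : (0 : ℝ) < ((M + 1 : ℕ) : ℝ) := by positivity
    calc 1 / ((M + 1 : ℕ) : ℝ) * _ ≤ 1 / ((M + 1 : ℕ) : ℝ) * (((M + 1 : ℕ) : ℝ) * (H ^ 2 * H * Λ)) :=
          mul_le_mul_of_nonneg_left h5 (by positivity)
      _ = H ^ 3 * Λ := by field_simp
  -- all colours
  have e4' : ∑ a ∈ A, (ω a : ℂ) * Q4m (X a) (Y a) N B o1 o2 i' j' =
      ∑ t ∈ range κ, ∑ a ∈ A, (ω a : ℂ) * ∑ x ∈ Tx, ∑ y ∈ Ty,
        (if γ * k1 x + δ * k2 y = n0 a + (t : ℤ) then F a x y else 0) := by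
    rw [Finset.sum_comm]
    refine Finset.sum_congr rfl fun a ha => ?_
    rw [hQ a ha, ← Finset.mul_sum]
    congr 1
    rw [← swap3]
    exact Finset.sum_congr rfl fun x hx => Finset.sum_congr rfl fun y hy => hsel a ha x y
  rw [e4']
  refine (norm_sum_le _ _).trans ?_
  calc ∑ t ∈ range κ, ‖∑ a ∈ A, (ω a : ℂ) * ∑ x ∈ Tx, ∑ y ∈ Ty,
        (if γ * k1 x + δ * k2 y = n0 a + (t : ℤ) then F a x y else 0)‖
      ≤ ∑ _t ∈ range κ, H ^ 3 * Λ := Finset.sum_le_sum hcol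
    _ = κ * (H ^ 3 * Λ) := by rw [Finset.sum_const, Finset.card_range, nsmul_eq_mul]

end main

/-- mixed sum over a big square -/
theorem sum_m4_le {ι : Type*} {A : Finset ι} {ω : ι → ℝ}
    {X Y : ι → ℤ → ℤ → ℂ} {H Λ : ℝ} {Tx Ty : Finset ℤ} {N : ℕ} (hN : 0 < N) (hH : 0 < H)
    (hY : ∀ a x y, ‖Y a x y‖ ≤ H) {γ δ : ℤ} (hγ : γ ≠ 0) (hδ : δ ≠ 0) (c : ι → ℤ) (κ : ℕ)
    (hstr : ∀ a ∈ A, ∀ x y, Y a x y ≠ 0 → c a ≤ γ * x + δ * y ∧ γ * x + δ * y < c a + κ * N)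
    (hsup : ∀ a ∈ A, ∀ x y, X a x y ≠ 0 → x ∈ Tx ∧ y ∈ Ty) (h : LevP A ω X Tx Ty Λ)
    (B : ℤ) (hB : ∀ o : ℕ, o ∈ range N → Tx ⊆ Ico ((o : ℤ) - B * N) (o + B * N))
    (hB' : ∀ o : ℕ, o ∈ range N → Ty ⊆ Ico ((o : ℤ) - B * N) (o + B * N)) :
    ‖∑ t ∈ A ×ˢ (Ico (-(B * N)) (B * N) ×ˢ Ico (-(B * N)) (B * N)),
      (ω t.1 : ℂ) * m4 (X t.1) (Y t.1) N t.2.1 t.2.2‖ ≤ κ * (H ^ 3 * Λ) := by
  classical
  have hEc : ∑ t ∈ A ×ˢ (Ico (-(B * N)) (B * N) ×ˢ Ico (-(B * N)) (B * N)),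
      (ω t.1 : ℂ) * m4 (X t.1) (Y t.1) N t.2.1 t.2.2 =
      (1 / (N : ℂ) ^ 4) * ∑ o1 ∈ range N, ∑ o2 ∈ range N, ∑ i' ∈ range N,
      ∑ j' ∈ range N, ∑ a ∈ A, (ω a : ℂ) * Q4m (X a) (Y a) N B (o1 : ℤ) (o2 : ℤ) i' j' := by
    have e1 : ∑ t ∈ A ×ˢ (Ico (-(B * N)) (B * N) ×ˢ Ico (-(B * N)) (B * N)),
        (ω t.1 : ℂ) * m4 (X t.1) (Y t.1) N t.2.1 t.2.2 = ∑ a ∈ A, (ω a : ℂ) *
        ∑ q ∈ Ico (-(B * N)) (B * N), ∑ p ∈ Ico (-(B * N)) (B * N), m4 (X a) (Y a) N q p := by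
      rw [Finset.sum_product]
      refine Finset.sum_congr rfl fun a _ => ?_
      rw [Finset.sum_product, Finset.mul_sum]
      refine Finset.sum_congr rfl fun q _ => ?_
      rw [Finset.mul_sum]
    rw [e1]
    have e2 : ∀ a ∈ A, (ω a : ℂ) * ∑ q ∈ Ico (-(B * N)) (B * N), ∑ p ∈ Ico (-(B * N)) (B * N),
        m4 (X a) (Y a) N q p = (1 / (N : ℂ) ^ 4) * ∑ o1 ∈ range N, ∑ o2 ∈ range N,
          ∑ i' ∈ range N, ∑ j' ∈ range N,
            (ω a : ℂ) * Q4m (X a) (Y a) N B (o1 : ℤ) (o2 : ℤ) i' j' := by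
      intro a _
      rw [sum_m4 (X a) (Y a) N hN B]
      simp only [← Finset.mul_sum]
      ring
    rw [Finset.sum_congr rfl e2, ← Finset.mul_sum]
    congr 1
    rw [Finset.sum_comm]
    refine Finset.sum_congr rfl fun o1 _ => ?_
    rw [Finset.sum_comm]
    refine Finset.sum_congr rfl fun o2 _ => ?_
    rw [Finset.sum_comm]
    refine Finset.sum_congr rfl fun i' _ => ?_
    rw [Finset.sum_comm]
  rw [hEc, norm_mul, norm_div, norm_one, norm_pow, Complex.norm_natCast]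
  have hN' : (0 : ℝ) < N := by exact_mod_cast hN
  have h2 : ‖∑ o1 ∈ range N, ∑ o2 ∈ range N, ∑ i' ∈ range N, ∑ j' ∈ range N,
      ∑ a ∈ A, (ω a : ℂ) * Q4m (X a) (Y a) N B (o1 : ℤ) (o2 : ℤ) i' j'‖ ≤
      (N : ℝ) ^ 4 * (κ * (H ^ 3 * Λ)) := by
    have hk : ∀ (f : ℕ → ℂ) (b : ℝ), (∀ i ∈ range N, ‖f i‖ ≤ b) →
        ‖∑ i ∈ range N, f i‖ ≤ N * b := by
      intro f b hf
      refine (norm_sum_le _ _).trans ((Finset.sum_le_sum hf).trans (le_of_eq ?_))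
      rw [Finset.sum_const, Finset.card_range, nsmul_eq_mul]
    refine (hk _ _ fun o1 ho1 => hk _ _ fun o2 ho2 => hk _ _ fun i' _ => hk _ _ fun j' _ =>
      Q_boundm hN hH hY hγ hδ c κ hstr hsup B o1 o2 (hB o1 ho1) (hB' o2 ho2) h i' j').trans
      (le_of_eq (by ring))
  calc 1 / (N : ℝ) ^ 4 * _ ≤ 1 / (N : ℝ) ^ 4 * ((N : ℝ) ^ 4 * (κ * (H ^ 3 * Λ))) :=
        mul_le_mul_of_nonneg_left h2 (by positivity)
    _ = κ * (H ^ 3 * Λ) := by field_simp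

/-- **X WORD WITH A CUT**: `X = Y + Z`, `Y` of height `≤ H` in the strips, `X` of level `Λ` against
products; the sum of the Schatten-4 energies of `Y` over any finite set of boxes is `≤ 4 κ H³ Λ + E`, `E` any
bound for the energies of `Z`.  `X` itself needs NO height bound. -/
theorem sum_e4_cut {ι : Type*} [DecidableEq ι] {A : Finset ι} {ω : ι → ℝ}
    (hω : ∀ a ∈ A, 0 ≤ ω a)
    {X Y Z : ι → ℤ → ℤ → ℂ} {H Λ E : ℝ} {Tx Ty : Finset ℤ} {N : ℕ} (hN : 0 < N) (hH : 0 < H)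
    (hXYZ : ∀ a x y, X a x y = Y a x y + Z a x y)
    (hY : ∀ a x y, ‖Y a x y‖ ≤ H) {γ δ : ℤ} (hγ : γ ≠ 0) (hδ : δ ≠ 0) (c : ι → ℤ) (κ : ℕ)
    (hstr : ∀ a ∈ A, ∀ x y, Y a x y ≠ 0 → c a ≤ γ * x + δ * y ∧ γ * x + δ * y < c a + κ * N)
    (hsup : ∀ a ∈ A, ∀ x y, X a x y ≠ 0 → x ∈ Tx ∧ y ∈ Ty) (h : LevP A ω X Tx Ty Λ)
    (hZ : ∀ P : Finset (ι × ℤ × ℤ), (∀ t ∈ P, t.1 ∈ A) →
      ∑ t ∈ P, ω t.1 * e4 (Z t.1) N t.2.1 t.2.2 ≤ E)
    (P : Finset (ι × ℤ × ℤ)) (hP : ∀ t ∈ P, t.1 ∈ A) :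
    ∑ t ∈ P, ω t.1 * e4 (Y t.1) N t.2.1 t.2.2 ≤ 4 * (κ * (H ^ 3 * Λ)) + E := by
  classical
  have he4 : ∀ (W : ℤ → ℤ → ℂ) (q p : ℤ), 0 ≤ e4 W N q p := by
    intro W q p
    unfold e4
    positivity
  have hNz : (0 : ℤ) < N := by exact_mod_cast hN
  obtain ⟨B0, hB0⟩ := Finset.exists_nat_subset_range
    (((P.image fun t => t.2.1) ∪ (P.image fun t => t.2.2) ∪ Tx ∪ Ty).image Int.natAbs)
  have hb : ∀ z ∈ ((P.image fun t => t.2.1) ∪ (P.image fun t => t.2.2) ∪ Tx ∪ Ty),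
      z.natAbs < B0 := fun z hz => Finset.mem_range.1 (hB0 (Finset.mem_image_of_mem _ hz))
  set B : ℤ := (B0 : ℤ) + 1 with hB
  have hBN : (B0 : ℤ) + N ≤ B * N := by
    have : (0 : ℤ) ≤ B0 := by positivity
    nlinarith
  have h1 : ∑ t ∈ P, ω t.1 * e4 (Y t.1) N t.2.1 t.2.2 ≤
      ∑ t ∈ A ×ˢ (Ico (-(B * N)) (B * N) ×ˢ Ico (-(B * N)) (B * N)),
        ω t.1 * e4 (Y t.1) N t.2.1 t.2.2 := by
    refine Finset.sum_le_sum_of_subset_of_nonneg ?_ ?_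
    · intro t ht
      have b1 := hb t.2.1 (by
        simp only [Finset.mem_union]
        exact Or.inl (Or.inl (Or.inl (Finset.mem_image_of_mem _ ht))))
      have b2 := hb t.2.2 (by
        simp only [Finset.mem_union]
        exact Or.inl (Or.inl (Or.inr (Finset.mem_image_of_mem (fun t => t.2.2) ht))))
      simp only [Finset.mem_product, Finset.mem_Ico]
      refine ⟨hP t ht, ⟨?_, ?_⟩, ⟨?_, ?_⟩⟩ <;> omega
    · intro t ht _
      exact mul_nonneg (hω _ (Finset.mem_product.1 ht).1) (he4 _ _ _)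
  have hTx : ∀ o : ℕ, o ∈ range N → Tx ⊆ Ico ((o : ℤ) - B * N) (o + B * N) := by
    intro o ho x hx
    have b1 := hb x (by
      simp only [Finset.mem_union]
      exact Or.inl (Or.inr hx))
    have ho' := Finset.mem_range.1 ho
    rw [Finset.mem_Ico]
    constructor <;> omega
  have hTy : ∀ o : ℕ, o ∈ range N → Ty ⊆ Ico ((o : ℤ) - B * N) (o + B * N) := by
    intro o ho x hx
    have b1 := hb x (by
      simp only [Finset.mem_union]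
      exact Or.inr hx)
    have ho' := Finset.mem_range.1 ho
    rw [Finset.mem_Ico]
    constructor <;> omega
  have h2 := sum_m4_le hN hH hY hγ hδ c κ hstr hsup h B hTx hTy
  have hZT := hZ (A ×ˢ (Ico (-(B * N)) (B * N) ×ˢ Ico (-(B * N)) (B * N)))
    fun t ht => (Finset.mem_product.1 ht).1
  set T : Finset (ι × ℤ × ℤ) := A ×ˢ (Ico (-(B * N)) (B * N) ×ˢ Ico (-(B * N)) (B * N)) with hT
  have hTA : ∀ t ∈ T, t.1 ∈ A := fun t ht => (Finset.mem_product.1 ht).1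
  have h3 : ((∑ t ∈ T, ω t.1 * e4 (Y t.1) N t.2.1 t.2.2 : ℝ) : ℂ) =
      ∑ t ∈ T, (ω t.1 : ℂ) * m4 (X t.1) (Y t.1) N t.2.1 t.2.2 -
        ∑ t ∈ T, (ω t.1 : ℂ) * m4 (Z t.1) (Y t.1) N t.2.1 t.2.2 := by
    rw [← Finset.sum_sub_distrib, Complex.ofReal_sum]
    refine Finset.sum_congr rfl fun t _ => ?_
    have e : X t.1 = fun x y => Y t.1 x y + Z t.1 x y := by
      funext x y
      exact hXYZ _ _ _
    rw [Complex.ofReal_mul, e4_eq_m4, e, m4_add]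
    ring
  have h4 : ‖∑ t ∈ T, (ω t.1 : ℂ) * m4 (Z t.1) (Y t.1) N t.2.1 t.2.2‖ ≤
      (1 / 4) * ∑ t ∈ T, ω t.1 * e4 (Z t.1) N t.2.1 t.2.2 +
        (3 / 4) * ∑ t ∈ T, ω t.1 * e4 (Y t.1) N t.2.1 t.2.2 := by
    rw [Finset.mul_sum, Finset.mul_sum, ← Finset.sum_add_distrib]
    refine (norm_sum_le _ _).trans (Finset.sum_le_sum fun t ht => ?_)
    have hw := hω t.1 (hTA t ht)
    rw [norm_mul, Complex.norm_real, Real.norm_of_nonneg hw]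
    have := mul_le_mul_of_nonneg_left (norm_m4_le (Z t.1) (Y t.1) N t.2.1 t.2.2) hw
    linarith
  have h5 : ‖((∑ t ∈ T, ω t.1 * e4 (Y t.1) N t.2.1 t.2.2 : ℝ) : ℂ)‖ =
      ∑ t ∈ T, ω t.1 * e4 (Y t.1) N t.2.1 t.2.2 := by
    rw [Complex.norm_real, Real.norm_of_nonneg]
    exact Finset.sum_nonneg fun t ht => mul_nonneg (hω _ (hTA t ht)) (he4 _ _ _)
  have h6 := norm_sub_le (∑ t ∈ T, (ω t.1 : ℂ) * m4 (X t.1) (Y t.1) N t.2.1 t.2.2)
    (∑ t ∈ T, (ω t.1 : ℂ) * m4 (Z t.1) (Y t.1) N t.2.1 t.2.2)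
  rw [← h3, h5] at h6
  linarith

end Crest.Agent.R079.XMix429
end

-- ▼ part R079/XCut_429
section

/-! R079, Step II (II.1), X word without height loss (helper429, text of helper988 28605), second half.
`lo h X`, `hi h X` = `X` cut at height `h`.
`e4_hi` : rows and columns of energy `≤ ρ` on the box give `e4 (hi h X) ≤ (ρ / (h N))² e2 X`.
`sum_e4_lo` : total energies of both parts, no height bound on `X`.
`comp_rows`, `rows_near_min` : rows of a near-minimiser of `|C - f|² + mass f` (class closed under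
`f -> f 1_{S^c}`, `S` any set of rows): the rows of energy `> 2ρ` have total energy `≤ 2η`. -/

set_option autoImplicit false
set_option linter.unusedVariables false

namespace Crest.Agent.R079.XCut429

open Finset Crest.Agent.R079.R244 Crest.Agent.R079.XDual988 Crest.Agent.R079.XMix429

/-- low part of a kernel -/
noncomputable def lo (h : ℝ) (X : ℤ → ℤ → ℂ) (x y : ℤ) : ℂ := if ‖X x y‖ ≤ h then X x y else 0

/-- tall part of a kernel -/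
noncomputable def hi (h : ℝ) (X : ℤ → ℤ → ℂ) (x y : ℤ) : ℂ := if ‖X x y‖ ≤ h then 0 else X x y

lemma lo_add_hi (h : ℝ) (X : ℤ → ℤ → ℂ) (x y : ℤ) : X x y = lo h X x y + hi h X x y := by
  unfold lo hi
  split_ifs <;> simp

lemma norm_lo_le {h : ℝ} (hh : 0 ≤ h) (X : ℤ → ℤ → ℂ) (x y : ℤ) : ‖lo h X x y‖ ≤ h := by
  unfold lo
  split_ifs with hc
  · exact hc
  · simpa using hh

lemma norm_hi_le {h : ℝ} (hh : 0 < h) (X : ℤ → ℤ → ℂ) (x y : ℤ) :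
    ‖hi h X x y‖ ≤ ‖X x y‖ ^ 2 / h := by
  unfold hi
  split_ifs with hc
  · rw [norm_zero]
    positivity
  · rw [le_div_iff₀ hh]
    push Not at hc
    nlinarith [norm_nonneg (X x y)]

lemma norm_hi_le' (h : ℝ) (X : ℤ → ℤ → ℂ) (x y : ℤ) : ‖hi h X x y‖ ≤ ‖X x y‖ := by
  unfold hi
  split_ifs
  · simp
  · exact le_rfl

/-- energy of the tall part of a kernel with bounded rows and columns -/
lemma e4_hi (X : ℤ → ℤ → ℂ) (N : ℕ) (q p : ℤ) {h ρ : ℝ} (hh : 0 < h)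
    (hr : ∀ i : ℤ, ∑ j ∈ range N, ‖X (q + i) (p + (j : ℤ))‖ ^ 2 ≤ ρ)
    (hc : ∀ j : ℤ, ∑ i ∈ range N, ‖X (q + (i : ℤ)) (p + j)‖ ^ 2 ≤ ρ) :
    e4 (hi h X) N q p ≤ (ρ / (h * N)) ^ 2 * e2 X N q p := by
  have h1 := e4_schur (hi h X) N q p (R := ρ / h)
    (fun i => (Finset.sum_le_sum fun j _ => norm_hi_le hh X _ _).trans (by
      rw [← Finset.sum_div]
      exact div_le_div_of_nonneg_right (hr i) hh.le))
    (fun j => (Finset.sum_le_sum fun i _ => norm_hi_le hh X _ _).trans (by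
      rw [← Finset.sum_div]
      exact div_le_div_of_nonneg_right (hc j) hh.le))
  have h2 : e2 (hi h X) N q p ≤ e2 X N q p := by
    unfold e2
    refine mul_le_mul_of_nonneg_left ?_ (by positivity)
    exact Finset.sum_le_sum fun i _ => Finset.sum_le_sum fun j _ =>
      pow_le_pow_left₀ (norm_nonneg _) (norm_hi_le' _ _ _ _) 2
  rw [div_div] at h1
  exact h1.trans (mul_le_mul_of_nonneg_left h2 (sq_nonneg _))

/-- **X WORD WITH A CUT, ROW FORM**: `X` in the strips, of level `Λ` against products, rows and columns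
of energy `≤ ρ`, total energy `≤ E`; no height bound. -/
theorem sum_e4_lo {ι : Type*} [DecidableEq ι] {A : Finset ι} {ω : ι → ℝ}
    (hω : ∀ a ∈ A, 0 ≤ ω a)
    {X : ι → ℤ → ℤ → ℂ} {h ρ Λ E : ℝ} {Tx Ty : Finset ℤ} {N : ℕ} (hN : 0 < N) (hh : 0 < h)
    {γ δ : ℤ} (hγ : γ ≠ 0) (hδ : δ ≠ 0) (c : ι → ℤ) (κ : ℕ)
    (hstr : ∀ a ∈ A, ∀ x y, X a x y ≠ 0 → c a ≤ γ * x + δ * y ∧ γ * x + δ * y < c a + κ * N)
    (hsup : ∀ a ∈ A, ∀ x y, X a x y ≠ 0 → x ∈ Tx ∧ y ∈ Ty) (hL : LevP A ω X Tx Ty Λ)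
    (hr : ∀ a ∈ A, ∀ x p : ℤ, ∑ j ∈ range N, ‖X a x (p + (j : ℤ))‖ ^ 2 ≤ ρ)
    (hc : ∀ a ∈ A, ∀ q y : ℤ, ∑ i ∈ range N, ‖X a (q + (i : ℤ)) y‖ ^ 2 ≤ ρ)
    (hE : ∀ P : Finset (ι × ℤ × ℤ), (∀ t ∈ P, t.1 ∈ A) →
      ∑ t ∈ P, ω t.1 * e2 (X t.1) N t.2.1 t.2.2 ≤ E)
    (P : Finset (ι × ℤ × ℤ)) (hP : ∀ t ∈ P, t.1 ∈ A) :
    ∑ t ∈ P, ω t.1 * e4 (lo h (X t.1)) N t.2.1 t.2.2 ≤
        4 * (κ * (h ^ 3 * Λ)) + (ρ / (h * N)) ^ 2 * E ∧
      ∑ t ∈ P, ω t.1 * e4 (hi h (X t.1)) N t.2.1 t.2.2 ≤ (ρ / (h * N)) ^ 2 * E := by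
  have hZ : ∀ P : Finset (ι × ℤ × ℤ), (∀ t ∈ P, t.1 ∈ A) →
      ∑ t ∈ P, ω t.1 * e4 (hi h (X t.1)) N t.2.1 t.2.2 ≤ (ρ / (h * N)) ^ 2 * E := by
    intro P hP
    calc ∑ t ∈ P, ω t.1 * e4 (hi h (X t.1)) N t.2.1 t.2.2
        ≤ ∑ t ∈ P, (ρ / (h * N)) ^ 2 * (ω t.1 * e2 (X t.1) N t.2.1 t.2.2) := by
          refine Finset.sum_le_sum fun t ht => ?_
          have h1 := mul_le_mul_of_nonneg_left (e4_hi (X t.1) N t.2.1 t.2.2 hh
            (fun i => hr t.1 (hP t ht) _ _) (fun j => hc t.1 (hP t ht) _ _)) (hω t.1 (hP t ht))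
          linarith
      _ = (ρ / (h * N)) ^ 2 * ∑ t ∈ P, ω t.1 * e2 (X t.1) N t.2.1 t.2.2 := by
          rw [Finset.mul_sum]
      _ ≤ (ρ / (h * N)) ^ 2 * E := mul_le_mul_of_nonneg_left (hE P hP) (sq_nonneg _)
  refine ⟨?_, hZ P hP⟩
  refine sum_e4_cut hω (X := X) (Y := fun a => lo h (X a)) (Z := fun a => hi h (X a)) hN hh
    (fun a x y => lo_add_hi h (X a) x y) (fun a x y => norm_lo_le hh.le (X a) x y) hγ hδ c κ
    (fun a ha x y hne => hstr a ha x y ?_) hsup hL hZ P hP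
  intro h0
  apply hne
  show lo h (X a) x y = 0
  unfold lo
  split_ifs
  · exact h0
  · rfl


/-- **rows of a near-minimiser** -/
lemma rows_near_min {α β : Type*} (R : Finset α) (T : Finset β) (C Y : α → β → ℂ) {η ρ : ℝ}
    (hcomp : ∀ S ⊆ R, ∑ r ∈ S, ∑ y ∈ T, ‖Y r y‖ ^ 2 ≤ ∑ r ∈ S, ∑ y ∈ T, ‖C r y‖ ^ 2 + η)
    (hC : ∀ r ∈ R, ∑ y ∈ T, ‖C r y‖ ^ 2 ≤ ρ) :
    ∑ r ∈ R.filter (fun r => 2 * ρ < ∑ y ∈ T, ‖Y r y‖ ^ 2), ∑ y ∈ T, ‖Y r y‖ ^ 2 ≤ 2 * η := by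
  have h1 := hcomp _ (Finset.filter_subset (fun r => 2 * ρ < ∑ y ∈ T, ‖Y r y‖ ^ 2) R)
  have h2 : ∑ r ∈ R.filter (fun r => 2 * ρ < ∑ y ∈ T, ‖Y r y‖ ^ 2), ∑ y ∈ T, ‖C r y‖ ^ 2 ≤
      ∑ r ∈ R.filter (fun r => 2 * ρ < ∑ y ∈ T, ‖Y r y‖ ^ 2),
        (1 / 2) * ∑ y ∈ T, ‖Y r y‖ ^ 2 := by
    refine Finset.sum_le_sum fun r hr => ?_
    rw [Finset.mem_filter] at hr
    have := hC r hr.1
    linarith [hr.2]
  rw [← Finset.mul_sum] at h2
  linarith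

end Crest.Agent.R079.XCut429
end

-- ▼ part R079/XAdd_429
section

/-! R079, Step II (II.1), X word (helper429): quasi-triangle inequality of the fourth order box energy:
`e4_add_le : e4 (Y + Z) ≤ 8 (e4 Y + e4 Z)`, so `Σ ω e4 X ≤ 8 (4 κ h³ Λ + 2 (ρ / (h N))² E)` (`sum_e4_rows`). -/

set_option autoImplicit false
set_option linter.unusedVariables false

namespace Crest.Agent.R079.XAdd429

open Finset Crest.Agent.R079.R244 Crest.Agent.R079.XDual988 Crest.Agent.R079.XMix429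
  Crest.Agent.R079.XCut429

lemma cross_le (s : Finset ℕ) (f g : ℕ → ℕ → ℂ) :
    ∑ j ∈ s, ∑ j' ∈ s, ‖∑ i ∈ s, f i j * (starRingEnd ℂ) (g i j')‖ ^ 2 ≤
      (1 / 2) * (∑ j ∈ s, ∑ j' ∈ s, ‖∑ i ∈ s, f i j * (starRingEnd ℂ) (f i j')‖ ^ 2) +
      (1 / 2) * ∑ j ∈ s, ∑ j' ∈ s, ‖∑ i ∈ s, g i j * (starRingEnd ℂ) (g i j')‖ ^ 2 := by
  have h2 : ∑ j ∈ s, ∑ j' ∈ s, ‖∑ i ∈ s, f i j * (starRingEnd ℂ) (g i j')‖ ^ 2 ≤
      ∑ i ∈ s, ∑ i' ∈ s, ((1 / 2) * ‖∑ j ∈ s, f i j * (starRingEnd ℂ) (f i' j)‖ ^ 2 +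
        (1 / 2) * ‖∑ j ∈ s, g i j * (starRingEnd ℂ) (g i' j)‖ ^ 2) := by
    have e := sq_sum_eq s f g
    have h3 : ‖((∑ j ∈ s, ∑ j' ∈ s, ‖∑ i ∈ s, f i j * (starRingEnd ℂ) (g i j')‖ ^ 2 : ℝ) : ℂ)‖ =
        ∑ j ∈ s, ∑ j' ∈ s, ‖∑ i ∈ s, f i j * (starRingEnd ℂ) (g i j')‖ ^ 2 := by
      rw [Complex.norm_real, Real.norm_of_nonneg]
      positivity
    rw [← h3, e]
    refine (norm_sum_le _ _).trans (Finset.sum_le_sum fun i _ => ?_)
    refine (norm_sum_le _ _).trans (Finset.sum_le_sum fun i' _ => ?_)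
    rw [norm_mul, RCLike.norm_conj]
    nlinarith [sq_nonneg (‖∑ j ∈ s, f i j * (starRingEnd ℂ) (f i' j)‖ -
      ‖∑ j ∈ s, g i j * (starRingEnd ℂ) (g i' j)‖)]
  have e1 := sq_transpose s f
  have e2 := sq_transpose s g
  simp only [Finset.sum_add_distrib, ← Finset.mul_sum] at h2
  rw [e1, e2] at h2
  exact h2

lemma norm_add4_sq (a b c d : ℂ) :
    ‖a + b + c + d‖ ^ 2 ≤ 4 * (‖a‖ ^ 2 + ‖b‖ ^ 2 + ‖c‖ ^ 2 + ‖d‖ ^ 2) := by
  have h1 := norm_add_le (a + b + c) d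
  have h2 := norm_add_le (a + b) c
  have h3 := norm_add_le a b
  have h4 : ‖a + b + c + d‖ ≤ ‖a‖ + ‖b‖ + ‖c‖ + ‖d‖ := by linarith
  have h5 := pow_le_pow_left₀ (norm_nonneg _) h4 2
  nlinarith [sq_nonneg (‖a‖ - ‖b‖), sq_nonneg (‖a‖ - ‖c‖), sq_nonneg (‖a‖ - ‖d‖),
    sq_nonneg (‖b‖ - ‖c‖), sq_nonneg (‖b‖ - ‖d‖), sq_nonneg (‖c‖ - ‖d‖)]

lemma quasi (s : Finset ℕ) (f g : ℕ → ℕ → ℂ) :
    ∑ j ∈ s, ∑ j' ∈ s, ‖∑ i ∈ s, (f i j + g i j) * (starRingEnd ℂ) (f i j' + g i j')‖ ^ 2 ≤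
      8 * (∑ j ∈ s, ∑ j' ∈ s, ‖∑ i ∈ s, f i j * (starRingEnd ℂ) (f i j')‖ ^ 2 +
      ∑ j ∈ s, ∑ j' ∈ s, ‖∑ i ∈ s, g i j * (starRingEnd ℂ) (g i j')‖ ^ 2) := by
  have h1 : ∑ j ∈ s, ∑ j' ∈ s,
      ‖∑ i ∈ s, (f i j + g i j) * (starRingEnd ℂ) (f i j' + g i j')‖ ^ 2 ≤
      ∑ j ∈ s, ∑ j' ∈ s, 4 * (‖∑ i ∈ s, f i j * (starRingEnd ℂ) (f i j')‖ ^ 2 +
        ‖∑ i ∈ s, f i j * (starRingEnd ℂ) (g i j')‖ ^ 2 +
        ‖∑ i ∈ s, g i j * (starRingEnd ℂ) (f i j')‖ ^ 2 +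
        ‖∑ i ∈ s, g i j * (starRingEnd ℂ) (g i j')‖ ^ 2) := by
    refine Finset.sum_le_sum fun j _ => Finset.sum_le_sum fun j' _ => ?_
    refine le_trans (le_of_eq ?_) (norm_add4_sq _ _ _ _)
    congr 2
    rw [← Finset.sum_add_distrib, ← Finset.sum_add_distrib, ← Finset.sum_add_distrib]
    refine Finset.sum_congr rfl fun i _ => ?_
    rw [map_add]
    ring
  have h2 := cross_le s f g
  have h3 := cross_le s g f
  simp only [← Finset.mul_sum, Finset.sum_add_distrib] at h1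
  linarith

/-- quasi-triangle inequality of the fourth order box energy -/
lemma e4_add_le (Y Z : ℤ → ℤ → ℂ) (N : ℕ) (q p : ℤ) :
    e4 (fun x y => Y x y + Z x y) N q p ≤ 8 * (e4 Y N q p + e4 Z N q p) := by
  have h := quasi (range N) (fun i j => Y (q + (i : ℤ)) (p + (j : ℤ)))
    (fun i j => Z (q + (i : ℤ)) (p + (j : ℤ)))
  unfold e4
  refine (mul_le_mul_of_nonneg_left h (by positivity)).trans (le_of_eq ?_)
  ring

/-- **X WORD, ROW FORM, total**: no height bound on `X`. -/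
theorem sum_e4_rows {ι : Type*} [DecidableEq ι] {A : Finset ι} {ω : ι → ℝ}
    (hω : ∀ a ∈ A, 0 ≤ ω a)
    {X : ι → ℤ → ℤ → ℂ} {h ρ Λ E : ℝ} {Tx Ty : Finset ℤ} {N : ℕ} (hN : 0 < N) (hh : 0 < h)
    {γ δ : ℤ} (hγ : γ ≠ 0) (hδ : δ ≠ 0) (c : ι → ℤ) (κ : ℕ)
    (hstr : ∀ a ∈ A, ∀ x y, X a x y ≠ 0 → c a ≤ γ * x + δ * y ∧ γ * x + δ * y < c a + κ * N)
    (hsup : ∀ a ∈ A, ∀ x y, X a x y ≠ 0 → x ∈ Tx ∧ y ∈ Ty) (hL : LevP A ω X Tx Ty Λ)
    (hr : ∀ a ∈ A, ∀ x p : ℤ, ∑ j ∈ range N, ‖X a x (p + (j : ℤ))‖ ^ 2 ≤ ρ)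
    (hc : ∀ a ∈ A, ∀ q y : ℤ, ∑ i ∈ range N, ‖X a (q + (i : ℤ)) y‖ ^ 2 ≤ ρ)
    (hE : ∀ P : Finset (ι × ℤ × ℤ), (∀ t ∈ P, t.1 ∈ A) →
      ∑ t ∈ P, ω t.1 * e2 (X t.1) N t.2.1 t.2.2 ≤ E)
    (P : Finset (ι × ℤ × ℤ)) (hP : ∀ t ∈ P, t.1 ∈ A) :
    ∑ t ∈ P, ω t.1 * e4 (X t.1) N t.2.1 t.2.2 ≤
      8 * (4 * (κ * (h ^ 3 * Λ)) + 2 * ((ρ / (h * N)) ^ 2 * E)) := by
  obtain ⟨h1, h2⟩ := sum_e4_lo hω hN hh hγ hδ c κ hstr hsup hL hr hc hE P hP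
  have h3 : ∑ t ∈ P, ω t.1 * e4 (X t.1) N t.2.1 t.2.2 ≤
      ∑ t ∈ P, 8 * (ω t.1 * e4 (lo h (X t.1)) N t.2.1 t.2.2 +
        ω t.1 * e4 (hi h (X t.1)) N t.2.1 t.2.2) := by
    refine Finset.sum_le_sum fun t ht => ?_
    have e : X t.1 = fun x y => lo h (X t.1) x y + hi h (X t.1) x y := by
      funext x y
      exact lo_add_hi h (X t.1) x y
    have h4 := e4_add_le (lo h (X t.1)) (hi h (X t.1)) N t.2.1 t.2.2
    rw [← e] at h4
    have h5 := mul_le_mul_of_nonneg_left h4 (hω t.1 (hP t ht))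
    linarith
  rw [← Finset.mul_sum, Finset.sum_add_distrib] at h3
  linarith

end Crest.Agent.R079.XAdd429
end

-- ▼ part R079/XS4_219
section

/-! R079, Step II, T5 leaf [S3] (helper219, after 988 28605, 429 XCut/XAdd, note 781 (T5)):
`S₄` node budget of the X word from the ROW FORM of a near minimiser.  No height of `X` or of `C`.

At every node `p`: `X = C - f + D` on `p`, `|f| ≤ Mf`, `|D| ≤ Md`, `|D|₂² ≤ ED len p`, `Y = C - f` has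
level `Λ len p` against products, energy `≤ EY len p`, and on every set of rows / columns energy at most
that of `C` plus `η len p`; rows and columns of `C` have energy `≤ ρ₀ len p`.  Then
`S4W` with `64 (512 h³ Λ + 2 (256 ρ₀ / h)² EY) + 64 ((256 ρ₀ + 2 Mf²) 4 η + Md² ED) ≤ s4 V`. -/

set_option autoImplicit false
set_option linter.unusedVariables false

namespace Crest.Agent.R079.XS4x219

open Finset Crest.Agent.R079.Grid Crest.Agent.R079.Growth Crest.Agent.R079.R244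
  Crest.Agent.R079.XDual988 Crest.Agent.R079.XMix429 Crest.Agent.R079.XCut429
  Crest.Agent.R079.XAdd429 Crest.Agent.R079.F24

/-- total energy bound from every finite set of triples -/
def Tot (K : ℤ → ℤ → ℤ → ℂ) (E : ℝ) : Prop :=
  ∀ S : Finset (ℤ × ℤ × ℤ), ∑ t ∈ S, ‖K t.1 t.2.1 t.2.2‖ ^ 2 ≤ E

section abstract

variable {T T' : Finset ℤ} {Y C f D : ℤ → ℤ → ℤ → ℂ} {ρ η Λ : ℝ}

open Classical in
/-- the good part: bad rows and bad columns removed -/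
noncomputable def Yg (T T' : Finset ℤ) (ρ : ℝ) (Y : ℤ → ℤ → ℤ → ℂ) (w z z' : ℤ) : ℂ :=
  if 2 * ρ < ∑ y ∈ T', ‖Y w z y‖ ^ 2 ∨ 2 * ρ < ∑ x ∈ T, ‖Y w x z'‖ ^ 2 then 0 else Y w z z'

open Classical in
/-- the bad part -/
noncomputable def Yb (T T' : Finset ℤ) (ρ : ℝ) (Y : ℤ → ℤ → ℤ → ℂ) (w z z' : ℤ) : ℂ :=
  if 2 * ρ < ∑ y ∈ T', ‖Y w z y‖ ^ 2 ∨ 2 * ρ < ∑ x ∈ T, ‖Y w x z'‖ ^ 2 then Y w z z' else 0

lemma Yg_add_Yb (w z z' : ℤ) : Y w z z' = Yg T T' ρ Y w z z' + Yb T T' ρ Y w z z' := by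
  unfold Yg Yb
  split_ifs <;> simp

lemma norm_Yg_le (w z z' : ℤ) : ‖Yg T T' ρ Y w z z'‖ ≤ ‖Y w z z'‖ := by
  unfold Yg
  split_ifs <;> simp

lemma norm_Yb_le (w z z' : ℤ) : ‖Yb T T' ρ Y w z z'‖ ≤ ‖Y w z z'‖ := by
  unfold Yb
  split_ifs <;> simp

/-- rows of the good part -/
lemma rows_Yg (hρ : 0 ≤ ρ) (hsup : ∀ w z z', Y w z z' ≠ 0 → z ∈ T ∧ z' ∈ T') (w z : ℤ)
    (s : Finset ℤ) : ∑ y ∈ s, ‖Yg T T' ρ Y w z y‖ ^ 2 ≤ 2 * ρ := by
  classical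
  by_cases hb : 2 * ρ < ∑ y ∈ T', ‖Y w z y‖ ^ 2
  · have h0 : ∀ y ∈ s, ‖Yg T T' ρ Y w z y‖ ^ 2 = 0 := by
      intro y _
      unfold Yg
      rw [if_pos (Or.inl hb), norm_zero, zero_pow two_ne_zero]
    rw [Finset.sum_congr rfl h0, Finset.sum_const_zero]
    linarith
  · push Not at hb
    refine le_trans ?_ hb
    calc ∑ y ∈ s, ‖Yg T T' ρ Y w z y‖ ^ 2 ≤ ∑ y ∈ s, ‖Y w z y‖ ^ 2 :=
          Finset.sum_le_sum fun y _ => pow_le_pow_left₀ (norm_nonneg _) (norm_Yg_le _ _ _) 2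
      _ = ∑ y ∈ s.filter (fun y => y ∈ T'), ‖Y w z y‖ ^ 2 := by
          rw [Finset.sum_filter]
          refine Finset.sum_congr rfl fun y _ => ?_
          split_ifs with hy
          · rfl
          · have : Y w z y = 0 := by
              by_contra hne
              exact hy (hsup w z y hne).2
            rw [this, norm_zero, zero_pow two_ne_zero]
      _ ≤ ∑ y ∈ T', ‖Y w z y‖ ^ 2 := by
          refine Finset.sum_le_sum_of_subset_of_nonneg ?_ (fun _ _ _ => by positivity)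
          intro y hy
          exact (Finset.mem_filter.1 hy).2

/-- columns of the good part -/
lemma cols_Yg (hρ : 0 ≤ ρ) (hsup : ∀ w z z', Y w z z' ≠ 0 → z ∈ T ∧ z' ∈ T') (w z' : ℤ)
    (s : Finset ℤ) : ∑ x ∈ s, ‖Yg T T' ρ Y w x z'‖ ^ 2 ≤ 2 * ρ := by
  classical
  by_cases hb : 2 * ρ < ∑ x ∈ T, ‖Y w x z'‖ ^ 2
  · have h0 : ∀ x ∈ s, ‖Yg T T' ρ Y w x z'‖ ^ 2 = 0 := by
      intro x _
      unfold Yg
      rw [if_pos (Or.inr hb), norm_zero, zero_pow two_ne_zero]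
    rw [Finset.sum_congr rfl h0, Finset.sum_const_zero]
    linarith
  · push Not at hb
    refine le_trans ?_ hb
    calc ∑ x ∈ s, ‖Yg T T' ρ Y w x z'‖ ^ 2 ≤ ∑ x ∈ s, ‖Y w x z'‖ ^ 2 :=
          Finset.sum_le_sum fun x _ => pow_le_pow_left₀ (norm_nonneg _) (norm_Yg_le _ _ _) 2
      _ = ∑ x ∈ s.filter (fun x => x ∈ T), ‖Y w x z'‖ ^ 2 := by
          rw [Finset.sum_filter]
          refine Finset.sum_congr rfl fun x _ => ?_
          split_ifs with hx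
          · rfl
          · have : Y w x z' = 0 := by
              by_contra hne
              exact hx (hsup w x z' hne).1
            rw [this, norm_zero, zero_pow two_ne_zero]
      _ ≤ ∑ x ∈ T, ‖Y w x z'‖ ^ 2 := by
          refine Finset.sum_le_sum_of_subset_of_nonneg ?_ (fun _ _ _ => by positivity)
          intro x hx
          exact (Finset.mem_filter.1 hx).2

/-- level of the good part -/
lemma lev_Yg {A : Finset ℤ} (h : LevP A (fun _ => (1 : ℝ)) Y T T' Λ) :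
    LevP A (fun _ => (1 : ℝ)) (Yg T T' ρ Y) T T' Λ := by
  classical
  intro u v hu hv
  have h1 := h (fun w z => if 2 * ρ < ∑ y ∈ T', ‖Y w z y‖ ^ 2 then 0 else u w z)
    (fun w z' => if 2 * ρ < ∑ x ∈ T, ‖Y w x z'‖ ^ 2 then 0 else v w z')
    (fun w z => by
      split_ifs
      · simp
      · exact hu w z)
    (fun w z' => by
      split_ifs
      · simp
      · exact hv w z')
  refine le_trans (le_of_eq ?_) h1
  congr 1
  refine Finset.sum_congr rfl fun w _ => ?_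
  congr 1
  refine Finset.sum_congr rfl fun z _ => Finset.sum_congr rfl fun z' _ => ?_
  unfold Yg
  by_cases c1 : 2 * ρ < ∑ y ∈ T', ‖Y w z y‖ ^ 2
  · rw [if_pos (Or.inl c1), if_pos c1]
    ring
  · by_cases c2 : 2 * ρ < ∑ x ∈ T, ‖Y w x z'‖ ^ 2
    · rw [if_pos (Or.inr c2), if_pos c2]
      ring
    · rw [if_neg (by tauto), if_neg c1, if_neg c2]

/-- energy of the bad part -/
lemma tot_Yb (hρ : 0 ≤ ρ) (hsup : ∀ w z z', Y w z z' ≠ 0 → z ∈ T ∧ z' ∈ T')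
    (hr : ∀ S : Finset (ℤ × ℤ), ∑ q ∈ S, ∑ y ∈ T', ‖Y q.1 q.2 y‖ ^ 2 ≤
      ∑ q ∈ S, ∑ y ∈ T', ‖C q.1 q.2 y‖ ^ 2 + η)
    (hc : ∀ S : Finset (ℤ × ℤ), ∑ q ∈ S, ∑ x ∈ T, ‖Y q.1 x q.2‖ ^ 2 ≤
      ∑ q ∈ S, ∑ x ∈ T, ‖C q.1 x q.2‖ ^ 2 + η)
    (hCr : ∀ w z, ∑ y ∈ T', ‖C w z y‖ ^ 2 ≤ ρ) (hCc : ∀ w z', ∑ x ∈ T, ‖C w x z'‖ ^ 2 ≤ ρ) :
    Tot (Yb T T' ρ Y) (4 * η) := by
  classical
  intro S
  -- rows
  set Sr := S.filter (fun t => 2 * ρ < ∑ y ∈ T', ‖Y t.1 t.2.1 y‖ ^ 2) with hSr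
  set Sc := S.filter (fun t => 2 * ρ < ∑ x ∈ T, ‖Y t.1 x t.2.2‖ ^ 2) with hSc
  have h1 : ∑ t ∈ S, ‖Yb T T' ρ Y t.1 t.2.1 t.2.2‖ ^ 2 ≤
      ∑ t ∈ Sr, ‖Y t.1 t.2.1 t.2.2‖ ^ 2 + ∑ t ∈ Sc, ‖Y t.1 t.2.1 t.2.2‖ ^ 2 := by
    rw [hSr, hSc, Finset.sum_filter, Finset.sum_filter, ← Finset.sum_add_distrib]
    refine Finset.sum_le_sum fun t _ => ?_
    unfold Yb
    by_cases c1 : 2 * ρ < ∑ y ∈ T', ‖Y t.1 t.2.1 y‖ ^ 2
    · rw [if_pos (Or.inl c1), if_pos c1]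
      split_ifs
      · linarith [sq_nonneg ‖Y t.1 t.2.1 t.2.2‖]
      · linarith
    · by_cases c2 : 2 * ρ < ∑ x ∈ T, ‖Y t.1 x t.2.2‖ ^ 2
      · rw [if_pos (Or.inr c2), if_neg c1, if_pos c2]
        linarith
      · rw [if_neg (by tauto), if_neg c1, if_neg c2, norm_zero]
        norm_num
  have h2 : ∑ t ∈ Sr, ‖Y t.1 t.2.1 t.2.2‖ ^ 2 ≤ 2 * η := by
    set R : Finset (ℤ × ℤ) := S.image (fun t => (t.1, t.2.1)) with hR
    have h3 := rows_near_min R T' (fun q y => C q.1 q.2 y) (fun q y => Y q.1 q.2 y)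
      (η := η) (ρ := ρ) (fun S' _ => hr S') (fun q _ => hCr q.1 q.2)
    refine le_trans ?_ h3
    rw [← Finset.sum_product']
    have h4 : ∑ t ∈ Sr, ‖Y t.1 t.2.1 t.2.2‖ ^ 2 =
        ∑ t ∈ Sr.filter (fun t => t.2.2 ∈ T'), ‖Y t.1 t.2.1 t.2.2‖ ^ 2 := by
      rw [Finset.sum_filter (s := Sr)]
      refine Finset.sum_congr rfl fun t _ => ?_
      split_ifs with hy
      · rfl
      · have : Y t.1 t.2.1 t.2.2 = 0 := by
          by_contra hne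
          exact hy (hsup _ _ _ hne).2
        rw [this, norm_zero, zero_pow two_ne_zero]
    rw [h4]
    have hinj : Set.InjOn (fun t : ℤ × ℤ × ℤ => ((t.1, t.2.1), t.2.2))
        (Sr.filter (fun t => t.2.2 ∈ T')) := by
      rintro ⟨a, b, c⟩ _ ⟨a', b', c'⟩ _ h
      simp only [Prod.mk.injEq] at h ⊢
      exact ⟨h.1.1, h.1.2, h.2⟩
    have e := Finset.sum_image (f := fun x : (ℤ × ℤ) × ℤ => ‖Y x.1.1 x.1.2 x.2‖ ^ 2) hinj
    rw [← e]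
    refine Finset.sum_le_sum_of_subset_of_nonneg ?_ (fun _ _ _ => by positivity)
    intro x hx
    obtain ⟨t, ht, rfl⟩ := Finset.mem_image.1 hx
    rw [Finset.mem_filter, hSr, Finset.mem_filter] at ht
    rw [Finset.mem_product, Finset.mem_filter]
    exact ⟨⟨Finset.mem_image_of_mem _ ht.1.1, ht.1.2⟩, ht.2⟩
  have h2' : ∑ t ∈ Sc, ‖Y t.1 t.2.1 t.2.2‖ ^ 2 ≤ 2 * η := by
    set R : Finset (ℤ × ℤ) := S.image (fun t => (t.1, t.2.2)) with hR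
    have h3 := rows_near_min R T (fun q x => C q.1 x q.2) (fun q x => Y q.1 x q.2)
      (η := η) (ρ := ρ) (fun S' _ => hc S') (fun q _ => hCc q.1 q.2)
    refine le_trans ?_ h3
    rw [← Finset.sum_product']
    have h4 : ∑ t ∈ Sc, ‖Y t.1 t.2.1 t.2.2‖ ^ 2 =
        ∑ t ∈ Sc.filter (fun t => t.2.1 ∈ T), ‖Y t.1 t.2.1 t.2.2‖ ^ 2 := by
      rw [Finset.sum_filter (s := Sc)]
      refine Finset.sum_congr rfl fun t _ => ?_
      split_ifs with hy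
      · rfl
      · have : Y t.1 t.2.1 t.2.2 = 0 := by
          by_contra hne
          exact hy (hsup _ _ _ hne).1
        rw [this, norm_zero, zero_pow two_ne_zero]
    rw [h4]
    have hinj : Set.InjOn (fun t : ℤ × ℤ × ℤ => ((t.1, t.2.2), t.2.1))
        (Sc.filter (fun t => t.2.1 ∈ T)) := by
      rintro ⟨a, b, c⟩ _ ⟨a', b', c'⟩ _ h
      simp only [Prod.mk.injEq] at h ⊢
      exact ⟨h.1.1, h.2, h.1.2⟩
    have e := Finset.sum_image (f := fun x : (ℤ × ℤ) × ℤ => ‖Y x.1.1 x.2 x.1.2‖ ^ 2) hinj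
    rw [← e]
    refine Finset.sum_le_sum_of_subset_of_nonneg ?_ (fun _ _ _ => by positivity)
    intro x hx
    obtain ⟨t, ht, rfl⟩ := Finset.mem_image.1 hx
    rw [Finset.mem_filter, hSc, Finset.mem_filter] at ht
    rw [Finset.mem_product, Finset.mem_filter]
    exact ⟨⟨Finset.mem_image_of_mem _ ht.1.1, ht.1.2⟩, ht.2⟩
  linarith

lemma e2_mono {A B : ℤ → ℤ → ℂ} (h : ∀ x y, ‖A x y‖ ≤ ‖B x y‖) (N : ℕ) (q p : ℤ) :
    e2 A N q p ≤ e2 B N q p := by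
  unfold e2
  refine mul_le_mul_of_nonneg_left ?_ (by positivity)
  exact Finset.sum_le_sum fun i _ => Finset.sum_le_sum fun j _ =>
    pow_le_pow_left₀ (norm_nonneg _) (h _ _) 2

lemma e2_nonneg (A : ℤ → ℤ → ℂ) (N : ℕ) (q p : ℤ) : 0 ≤ e2 A N q p := by
  unfold e2
  positivity

/-- box energy of `C - f` -/
lemma e2_sub_le {A B Z : ℤ → ℤ → ℂ} (hZ : ∀ x y, Z x y = A x y - B x y) {N : ℕ} (hN : 0 < N)
    {ρ M : ℝ} (hA : ∀ x q : ℤ, ∑ j ∈ range N, ‖A x (q + (j : ℤ))‖ ^ 2 ≤ ρ)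
    (hM : 0 ≤ M) (hB : ∀ x y, ‖B x y‖ ≤ M) (q p : ℤ) :
    e2 Z N q p ≤ 2 * ρ / N + 2 * M ^ 2 := by
  have hN' : (0 : ℝ) < N := by exact_mod_cast hN
  unfold e2
  have h1 : ∑ i ∈ range N, ∑ j ∈ range N, ‖Z (q + (i : ℤ)) (p + (j : ℤ))‖ ^ 2 ≤
      ∑ i ∈ range N, (2 * ρ + N * (2 * M ^ 2)) := by
    refine Finset.sum_le_sum fun i _ => ?_
    have h2 : ∀ j ∈ range N, ‖Z (q + (i : ℤ)) (p + (j : ℤ))‖ ^ 2 ≤
        2 * ‖A (q + (i : ℤ)) (p + (j : ℤ))‖ ^ 2 + 2 * M ^ 2 := by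
      intro j _
      rw [hZ]
      have h3 := norm_sub_le (A (q + (i : ℤ)) (p + (j : ℤ))) (B (q + (i : ℤ)) (p + (j : ℤ)))
      have h4 := hB (q + (i : ℤ)) (p + (j : ℤ))
      have h5 : ‖A (q + (i : ℤ)) (p + (j : ℤ)) - B (q + (i : ℤ)) (p + (j : ℤ))‖ ≤
          ‖A (q + (i : ℤ)) (p + (j : ℤ))‖ + M := by linarith
      have h6 := pow_le_pow_left₀ (norm_nonneg _) h5 2
      nlinarith [sq_nonneg (‖A (q + (i : ℤ)) (p + (j : ℤ))‖ - M)]
    refine (Finset.sum_le_sum h2).trans ?_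
    rw [Finset.sum_add_distrib, ← Finset.mul_sum, Finset.sum_const, Finset.card_range,
      nsmul_eq_mul]
    have := hA (q + (i : ℤ)) p
    linarith
  rw [Finset.sum_const, Finset.card_range, nsmul_eq_mul] at h1
  refine (mul_le_mul_of_nonneg_left h1 (by positivity)).trans (le_of_eq ?_)
  field_simp

/-- **X WORD, ABSTRACT ROW FORM** -/
theorem sum_e4_abs {X : ℤ → ℤ → ℤ → ℂ} {h Mf Md ED EY : ℝ} {N : ℕ} (hN : 0 < N) (hh : 0 < h)
    {α γ δ : ℤ} (hγ : γ ≠ 0) (hδ : δ ≠ 0) (c0 : ℤ)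
    (hstr : ∀ w z z', Y w z z' ≠ 0 → c0 ≤ α * w + γ * z + δ * z' ∧
      α * w + γ * z + δ * z' < c0 + 128 * N)
    (hsup : ∀ w z z', Y w z z' ≠ 0 → z ∈ T ∧ z' ∈ T')
    (hX : ∀ w z z', X w z z' = Y w z z' + D w z z')
    (hY : ∀ w z z', Y w z z' = C w z z' - f w z z')
    (hMf : 0 ≤ Mf) (hf : ∀ w z z', ‖f w z z'‖ ≤ Mf)
    (hMd : 0 ≤ Md) (hDb : ∀ w z z', ‖D w z z'‖ ≤ Md) (hDe : Tot D ED) (hYe : Tot Y EY)
    (hρ : 0 ≤ ρ)
    (hCr : ∀ w z (s : Finset ℤ), ∑ y ∈ s, ‖C w z y‖ ^ 2 ≤ ρ)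
    (hCc : ∀ w z' (s : Finset ℤ), ∑ x ∈ s, ‖C w x z'‖ ^ 2 ≤ ρ)
    (hr : ∀ S : Finset (ℤ × ℤ), ∑ q ∈ S, ∑ y ∈ T', ‖Y q.1 q.2 y‖ ^ 2 ≤
      ∑ q ∈ S, ∑ y ∈ T', ‖C q.1 q.2 y‖ ^ 2 + η)
    (hc : ∀ S : Finset (ℤ × ℤ), ∑ q ∈ S, ∑ x ∈ T, ‖Y q.1 x q.2‖ ^ 2 ≤
      ∑ q ∈ S, ∑ x ∈ T, ‖C q.1 x q.2‖ ^ 2 + η)
    (hL : ∀ A : Finset ℤ, LevP A (fun _ => (1 : ℝ)) Y T T' Λ)
    (S : Finset (ℤ × ℤ × ℤ)) :
    ∑ t ∈ S, e4 (X t.1) N t.2.1 t.2.2 ≤
      64 * (4 * (128 * (h ^ 3 * Λ)) + 2 * ((2 * ρ / (h * N)) ^ 2 * EY)) +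
      64 * ((2 * ρ / N + 2 * Mf ^ 2) * (4 * η) + Md ^ 2 * ED) := by
  classical
  have hN' : (0 : ℝ) < N := by exact_mod_cast hN
  have h4n : ∀ (W : ℤ → ℤ → ℂ) (q p : ℤ), 0 ≤ e4 W N q p := by
    intro W q p
    unfold e4
    positivity
  -- good part
  have hgood : ∑ t ∈ S, e4 (Yg T T' ρ Y t.1) N t.2.1 t.2.2 ≤
      8 * (4 * (128 * (h ^ 3 * Λ)) + 2 * ((2 * ρ / (h * N)) ^ 2 * EY)) := by
    have key := sum_e4_rows (A := S.image Prod.fst) (ω := fun _ => (1 : ℝ))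
      (fun _ _ => zero_le_one) (X := Yg T T' ρ Y) (h := h) (ρ := 2 * ρ) (Λ := Λ) (E := EY)
      (Tx := T) (Ty := T') (N := N) hN hh hγ hδ (fun w => c0 - α * w) 128
      (fun w _ x y hne => by
        have h1 : Y w x y ≠ 0 := by
          intro h0
          apply hne
          have := norm_Yg_le (T := T) (T' := T') (ρ := ρ) (Y := Y) w x y
          rw [h0, norm_zero] at this
          exact norm_le_zero_iff.1 this
        obtain ⟨a1, a2⟩ := hstr w x y h1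
        push_cast
        constructor <;> linarith)
      (fun w _ x y hne => by
        refine hsup w x y ?_
        intro h0
        apply hne
        have := norm_Yg_le (T := T) (T' := T') (ρ := ρ) (Y := Y) w x y
        rw [h0, norm_zero] at this
        exact norm_le_zero_iff.1 this)
      (lev_Yg (hL _))
      (fun w _ x p => by
        have h1 := rows_Yg hρ hsup w x ((range N).map ⟨fun j : ℕ => p + (j : ℤ), fun a b hab => by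
          simpa using hab⟩)
        rw [Finset.sum_map] at h1
        exact h1)
      (fun w _ q y => by
        have h1 := cols_Yg hρ hsup w y ((range N).map ⟨fun j : ℕ => q + (j : ℤ), fun a b hab => by
          simpa using hab⟩)
        rw [Finset.sum_map] at h1
        exact h1)
      (fun P _ => by
        simp only [one_mul]
        refine EW990.sum_e2_le (Yg T T' ρ Y) EY (fun S' => ?_) N hN P
        refine le_trans (Finset.sum_le_sum fun t _ => ?_) (hYe S')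
        exact pow_le_pow_left₀ (norm_nonneg _) (norm_Yg_le _ _ _) 2)
      S (fun t ht => Finset.mem_image_of_mem _ ht)
    simp only [one_mul] at key
    exact_mod_cast key
  -- bad part
  have hbadT : Tot (Yb T T' ρ Y) (4 * η) := tot_Yb hρ hsup hr hc (fun w z => hCr w z T')
    (fun w z' => hCc w z' T)
  have he2Y : ∀ (w q p : ℤ), e2 (Y w) N q p ≤ 2 * ρ / N + 2 * Mf ^ 2 := by
    intro w q p
    refine e2_sub_le (A := C w) (B := f w) (fun x y => hY w x y) hN (fun x q' => ?_) hMf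
      (fun x y => hf w x y) q p
    have h1 := hCr w x ((range N).map ⟨fun j : ℕ => q' + (j : ℤ), fun a b hab => by
      simpa using hab⟩)
    rw [Finset.sum_map] at h1
    exact h1
  have hK0 : 0 ≤ 2 * ρ / N + 2 * Mf ^ 2 := by positivity
  have hbad : ∑ t ∈ S, e4 (Yb T T' ρ Y t.1) N t.2.1 t.2.2 ≤
      (2 * ρ / N + 2 * Mf ^ 2) * (4 * η) := by
    calc ∑ t ∈ S, e4 (Yb T T' ρ Y t.1) N t.2.1 t.2.2
        ≤ ∑ t ∈ S, (2 * ρ / N + 2 * Mf ^ 2) * e2 (Yb T T' ρ Y t.1) N t.2.1 t.2.2 := by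
          refine Finset.sum_le_sum fun t _ => ?_
          refine (EW990.e4_le_sq _ _ _ _).trans ?_
          rw [sq]
          refine mul_le_mul_of_nonneg_right ?_ (e2_nonneg _ _ _ _)
          exact (e2_mono (fun x y => norm_Yb_le t.1 x y) N _ _).trans (he2Y _ _ _)
      _ = (2 * ρ / N + 2 * Mf ^ 2) * ∑ t ∈ S, e2 (Yb T T' ρ Y t.1) N t.2.1 t.2.2 := by
          rw [Finset.mul_sum]
      _ ≤ (2 * ρ / N + 2 * Mf ^ 2) * (4 * η) :=
          mul_le_mul_of_nonneg_left (EW990.sum_e2_le _ _ hbadT N hN S) hK0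
  -- drift part
  have hdr : ∑ t ∈ S, e4 (D t.1) N t.2.1 t.2.2 ≤ Md ^ 2 * ED := by
    calc ∑ t ∈ S, e4 (D t.1) N t.2.1 t.2.2
        ≤ ∑ t ∈ S, Md ^ 2 * e2 (D t.1) N t.2.1 t.2.2 := by
          refine Finset.sum_le_sum fun t _ => ?_
          refine (EW990.e4_le_sq _ _ _ _).trans ?_
          rw [sq]
          exact mul_le_mul_of_nonneg_right (EW990.e2_le_of_bdd _ Md hMd (hDb t.1) N _ _)
            (e2_nonneg _ _ _ _)
      _ = Md ^ 2 * ∑ t ∈ S, e2 (D t.1) N t.2.1 t.2.2 := by rw [Finset.mul_sum]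
      _ ≤ Md ^ 2 * ED := mul_le_mul_of_nonneg_left (EW990.sum_e2_le _ _ hDe N hN S) (sq_nonneg _)
  -- quasi triangle
  have hq : ∀ t ∈ S, e4 (X t.1) N t.2.1 t.2.2 ≤ 8 * e4 (Yg T T' ρ Y t.1) N t.2.1 t.2.2 +
      64 * (e4 (Yb T T' ρ Y t.1) N t.2.1 t.2.2 + e4 (D t.1) N t.2.1 t.2.2) := by
    intro t _
    have e : X t.1 = fun x y => Yg T T' ρ Y t.1 x y +
        (fun x y => Yb T T' ρ Y t.1 x y + D t.1 x y) x y := by
      funext x y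
      simp only
      rw [hX, Yg_add_Yb (T := T) (T' := T') (ρ := ρ) (Y := Y)]
      ring
    rw [e]
    have h1 := XAdd429.e4_add_le (Yg T T' ρ Y t.1) (fun x y => Yb T T' ρ Y t.1 x y + D t.1 x y) N
      t.2.1 t.2.2
    have h2 := XAdd429.e4_add_le (Yb T T' ρ Y t.1) (D t.1) N t.2.1 t.2.2
    linarith
  refine (Finset.sum_le_sum hq).trans ?_
  rw [Finset.sum_add_distrib, ← Finset.mul_sum, ← Finset.mul_sum, Finset.sum_add_distrib]
  linarith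

end abstract

/-- kernel masked to the node -/
noncomputable def KK (α γ δ : ℤ) (T T' : Finset ℤ) (p : Nd) (A : ℤ → ℤ → ℤ → ℂ)
    (w z z' : ℤ) : ℂ := cK α γ δ T T' (A w) (res p fun _ => 1) w z z'

lemma KK_eq (α γ δ : ℤ) (T T' : Finset ℤ) (p : Nd) (A : ℤ → ℤ → ℤ → ℂ) (w z z' : ℤ)
    [Decidable (z ∈ T ∧ z' ∈ T' ∧ α * w + γ * z + δ * z' ∈ iv p)] :
    KK α γ δ T T' p A w z z' =
      if z ∈ T ∧ z' ∈ T' ∧ α * w + γ * z + δ * z' ∈ iv p then A w z z' else 0 := by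
  unfold KK cK res
  by_cases h1 : z ∈ T ∧ z' ∈ T'
  · by_cases h2 : α * w + γ * z + δ * z' ∈ iv p
    · have h2' : α * w + γ * z + δ * z' ∈ dI (p.1 + 7) p.2 := h2
      rw [if_pos h1, if_pos h2', if_pos ⟨h1.1, h1.2, h2⟩, mul_one]
    · have h2' : ¬ α * w + γ * z + δ * z' ∈ dI (p.1 + 7) p.2 := h2
      rw [if_pos h1, if_neg h2', if_neg (fun h => h2 h.2.2), mul_zero]
  · rw [if_neg h1, if_neg (fun h => h1 ⟨h.1, h.2.1⟩)]

section node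

variable {α γ δ : ℤ} {T T' : Finset ℤ}

lemma KK_zero_of {p : Nd} {A : ℤ → ℤ → ℤ → ℂ} {w z z' : ℤ} (h : KK α γ δ T T' p A w z z' ≠ 0) :
    z ∈ T ∧ z' ∈ T' ∧ α * w + γ * z + δ * z' ∈ iv p := by
  classical
  rw [KK_eq] at h
  by_contra hc
  rw [if_neg hc] at h
  exact h rfl


lemma sum_row_le {p : Nd} {A : ℤ → ℤ → ℤ → ℂ} {B : ℝ} (w z : ℤ)
    (h : ∑ y ∈ T', ‖KK α γ δ T T' p A w z y‖ ^ 2 ≤ B) (s : Finset ℤ) :
    ∑ y ∈ s, ‖KK α γ δ T T' p A w z y‖ ^ 2 ≤ B := by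
  classical
  refine le_trans ?_ h
  calc ∑ y ∈ s, ‖KK α γ δ T T' p A w z y‖ ^ 2
      = ∑ y ∈ s.filter (fun y => y ∈ T'), ‖KK α γ δ T T' p A w z y‖ ^ 2 := by
        rw [Finset.sum_filter]
        refine Finset.sum_congr rfl fun y _ => ?_
        split_ifs with hy
        · rfl
        · have : KK α γ δ T T' p A w z y = 0 := by
            by_contra hne
            exact hy (KK_zero_of hne).2.1
          rw [this, norm_zero, zero_pow two_ne_zero]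
    _ ≤ _ := by
        refine Finset.sum_le_sum_of_subset_of_nonneg ?_ (fun _ _ _ => by positivity)
        intro y hy
        exact (Finset.mem_filter.1 hy).2

lemma sum_col_le {p : Nd} {A : ℤ → ℤ → ℤ → ℂ} {B : ℝ} (w z' : ℤ)
    (h : ∑ x ∈ T, ‖KK α γ δ T T' p A w x z'‖ ^ 2 ≤ B) (s : Finset ℤ) :
    ∑ x ∈ s, ‖KK α γ δ T T' p A w x z'‖ ^ 2 ≤ B := by
  classical
  refine le_trans ?_ h
  calc ∑ x ∈ s, ‖KK α γ δ T T' p A w x z'‖ ^ 2
      = ∑ x ∈ s.filter (fun x => x ∈ T), ‖KK α γ δ T T' p A w x z'‖ ^ 2 := by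
        rw [Finset.sum_filter]
        refine Finset.sum_congr rfl fun x _ => ?_
        split_ifs with hx
        · rfl
        · have : KK α γ δ T T' p A w x z' = 0 := by
            by_contra hne
            exact hx (KK_zero_of hne).1
          rw [this, norm_zero, zero_pow two_ne_zero]
    _ ≤ _ := by
        refine Finset.sum_le_sum_of_subset_of_nonneg ?_ (fun _ _ _ => by positivity)
        intro x hx
        exact (Finset.mem_filter.1 hx).2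

/-- what is known about the X letter at one node: `X = C - f + D` on `p`, rows / columns of the near
minimiser, level against products -/
structure RowX (α γ δ : ℤ) (T T' : Finset ℤ) (X C f D : ℤ → ℤ → ℤ → ℂ) (p : Nd)
    (Mf Md ED EY η Λ : ℝ) : Prop where
  eq : ∀ w, ∀ z ∈ T, ∀ z' ∈ T', α * w + γ * z + δ * z' ∈ iv p →
    X w z z' = C w z z' - f w z z' + D w z z'
  hf : ∀ w, ∀ z ∈ T, ∀ z' ∈ T', α * w + γ * z + δ * z' ∈ iv p → ‖f w z z'‖ ≤ Mf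
  hD : ∀ w, ∀ z ∈ T, ∀ z' ∈ T', α * w + γ * z + δ * z' ∈ iv p → ‖D w z z'‖ ≤ Md
  totD : Tot (KK α γ δ T T' p D) (ED * len p)
  totY : Tot (KK α γ δ T T' p (fun w z z' => C w z z' - f w z z')) (EY * len p)
  rows : ∀ S : Finset (ℤ × ℤ),
    ∑ q ∈ S, ∑ y ∈ T', ‖KK α γ δ T T' p (fun w z z' => C w z z' - f w z z') q.1 q.2 y‖ ^ 2 ≤
      ∑ q ∈ S, ∑ y ∈ T', ‖KK α γ δ T T' p C q.1 q.2 y‖ ^ 2 + η * len p
  cols : ∀ S : Finset (ℤ × ℤ),
    ∑ q ∈ S, ∑ x ∈ T, ‖KK α γ δ T T' p (fun w z z' => C w z z' - f w z z') q.1 x q.2‖ ^ 2 ≤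
      ∑ q ∈ S, ∑ x ∈ T, ‖KK α γ δ T T' p C q.1 x q.2‖ ^ 2 + η * len p
  lev : ∀ A : Finset ℤ, LevP A (fun _ => (1 : ℝ))
    (KK α γ δ T T' p (fun w z z' => C w z z' - f w z z')) T T' (Λ * len p)


/-- the frozen kernel `c z z' * F (α w + γ z + δ z')`, `|c| ≤ 1`: rows -/
lemma rows_C (hδ : δ ≠ 0) {c : ℤ → ℤ → ℂ} (hc : ∀ z z', ‖c z z'‖ ≤ 1) (F : ℤ → ℂ) (p : Nd) {A : ℝ}
    (hF : ∑ y ∈ iv p, ‖F y‖ ^ 2 ≤ A * len p) (w z : ℤ) :
    ∑ y ∈ T', ‖KK α γ δ T T' p (fun w z z' => c z z' * F (α * w + γ * z + δ * z')) w z y‖ ^ 2 ≤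
      A * len p := by
  classical
  refine le_trans ?_ hF
  have h1 : ∑ y ∈ T', ‖KK α γ δ T T' p (fun w z z' => c z z' * F (α * w + γ * z + δ * z'))
      w z y‖ ^ 2 ≤ ∑ y ∈ T'.filter (fun y => α * w + γ * z + δ * y ∈ iv p),
        ‖F (α * w + γ * z + δ * y)‖ ^ 2 := by
    rw [Finset.sum_filter]
    refine Finset.sum_le_sum fun y _ => ?_
    rw [KK_eq]
    by_cases h2 : α * w + γ * z + δ * y ∈ iv p
    · rw [if_pos h2]
      split_ifs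
      · refine pow_le_pow_left₀ (norm_nonneg _) ?_ 2
        rw [norm_mul]
        exact mul_le_of_le_one_left (norm_nonneg _) (hc _ _)
      · rw [norm_zero, zero_pow two_ne_zero]
        positivity
    · rw [if_neg h2, if_neg (fun h => h2 h.2.2), norm_zero]
      norm_num
  refine h1.trans ?_
  have hinj : Set.InjOn (fun y : ℤ => α * w + γ * z + δ * y)
      (T'.filter (fun y => α * w + γ * z + δ * y ∈ iv p)) := by
    intro a _ b _ hab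
    simp only at hab
    have : δ * a = δ * b := by linarith
    exact mul_left_cancel₀ hδ this
  have e := Finset.sum_image (f := fun y : ℤ => ‖F y‖ ^ 2) hinj
  rw [← e]
  refine Finset.sum_le_sum_of_subset_of_nonneg ?_ (fun _ _ _ => by positivity)
  intro y hy
  obtain ⟨a, ha, rfl⟩ := Finset.mem_image.1 hy
  exact (Finset.mem_filter.1 ha).2

/-- the frozen kernel `c z z' * F (α w + γ z + δ z')`, `|c| ≤ 1`: columns -/
lemma cols_C (hγ : γ ≠ 0) {c : ℤ → ℤ → ℂ} (hc : ∀ z z', ‖c z z'‖ ≤ 1) (F : ℤ → ℂ) (p : Nd) {A : ℝ}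
    (hF : ∑ y ∈ iv p, ‖F y‖ ^ 2 ≤ A * len p) (w z' : ℤ) :
    ∑ x ∈ T, ‖KK α γ δ T T' p (fun w z z' => c z z' * F (α * w + γ * z + δ * z')) w x z'‖ ^ 2 ≤
      A * len p := by
  classical
  refine le_trans ?_ hF
  have h1 : ∑ x ∈ T, ‖KK α γ δ T T' p (fun w z z' => c z z' * F (α * w + γ * z + δ * z'))
      w x z'‖ ^ 2 ≤ ∑ x ∈ T.filter (fun x => α * w + γ * x + δ * z' ∈ iv p),
        ‖F (α * w + γ * x + δ * z')‖ ^ 2 := by
    rw [Finset.sum_filter]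
    refine Finset.sum_le_sum fun x _ => ?_
    rw [KK_eq]
    by_cases h2 : α * w + γ * x + δ * z' ∈ iv p
    · rw [if_pos h2]
      split_ifs
      · refine pow_le_pow_left₀ (norm_nonneg _) ?_ 2
        rw [norm_mul]
        exact mul_le_of_le_one_left (norm_nonneg _) (hc _ _)
      · rw [norm_zero, zero_pow two_ne_zero]
        positivity
    · rw [if_neg h2, if_neg (fun h => h2 h.2.2), norm_zero]
      norm_num
  refine h1.trans ?_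
  have hinj : Set.InjOn (fun x : ℤ => α * w + γ * x + δ * z')
      (T.filter (fun x => α * w + γ * x + δ * z' ∈ iv p)) := by
    intro a _ b _ hab
    simp only at hab
    have : γ * a = γ * b := by linarith
    exact mul_left_cancel₀ hγ this
  have e := Finset.sum_image (f := fun y : ℤ => ‖F y‖ ^ 2) hinj
  rw [← e]
  refine Finset.sum_le_sum_of_subset_of_nonneg ?_ (fun _ _ _ => by positivity)
  intro y hy
  obtain ⟨a, ha, rfl⟩ := Finset.mem_image.1 hy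
  exact (Finset.mem_filter.1 ha).2

/-- total energy of the frozen kernel: `Σ |c|² ≤ M` -/
lemma tot_C (hα : α ≠ 0) {c : ℤ → ℤ → ℂ} (F : ℤ → ℂ) (p : Nd) {A M : ℝ}
    (hc : ∑ q ∈ T ×ˢ T', ‖c q.1 q.2‖ ^ 2 ≤ M)
    (hF : ∑ y ∈ iv p, ‖F y‖ ^ 2 ≤ A * len p) (hA : 0 ≤ A) :
    Tot (KK α γ δ T T' p (fun w z z' => c z z' * F (α * w + γ * z + δ * z'))) (M * A * len p) := by
  classical
  intro S
  have hlen : 0 < len p := by unfold len; positivity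
  -- each (z, z') separately
  have h1 : ∑ t ∈ S, ‖KK α γ δ T T' p (fun w z z' => c z z' * F (α * w + γ * z + δ * z'))
      t.1 t.2.1 t.2.2‖ ^ 2 ≤ ∑ q ∈ T ×ˢ T', ∑ t ∈ S.filter (fun t => t.2 = q),
        ‖KK α γ δ T T' p (fun w z z' => c z z' * F (α * w + γ * z + δ * z')) t.1 t.2.1 t.2.2‖ ^ 2 := by
    rw [Finset.sum_comm' (t' := S) (s' := fun t => (T ×ˢ T').filter (fun q => t.2 = q))]
    · refine Finset.sum_le_sum fun t _ => ?_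
      by_cases hq : t.2 ∈ T ×ˢ T'
      · rw [Finset.sum_const]
        have : (T ×ˢ T').filter (fun q => t.2 = q) = {t.2} := by
          ext q
          simp only [Finset.mem_filter, Finset.mem_singleton]
          constructor
          · rintro ⟨_, h⟩
            exact h.symm
          · rintro rfl
            exact ⟨hq, rfl⟩
        rw [this]
        simp
      · have h0 : KK α γ δ T T' p (fun w z z' => c z z' * F (α * w + γ * z + δ * z'))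
            t.1 t.2.1 t.2.2 = 0 := by
          by_contra hne
          exact hq (Finset.mem_product.2 ⟨(KK_zero_of hne).1, (KK_zero_of hne).2.1⟩)
        rw [h0, norm_zero, zero_pow two_ne_zero]
        positivity
    · intro q t
      simp only [Finset.mem_filter]
      tauto
  refine h1.trans ?_
  have h2 : ∀ q ∈ T ×ˢ T', ∑ t ∈ S.filter (fun t => t.2 = q),
      ‖KK α γ δ T T' p (fun w z z' => c z z' * F (α * w + γ * z + δ * z')) t.1 t.2.1 t.2.2‖ ^ 2 ≤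
      ‖c q.1 q.2‖ ^ 2 * (A * len p) := by
    intro q _
    have h3 : ∑ t ∈ S.filter (fun t => t.2 = q),
        ‖KK α γ δ T T' p (fun w z z' => c z z' * F (α * w + γ * z + δ * z')) t.1 t.2.1 t.2.2‖ ^ 2 ≤
        ∑ t ∈ (S.filter (fun t => t.2 = q)).filter
          (fun t => α * t.1 + γ * q.1 + δ * q.2 ∈ iv p),
          ‖c q.1 q.2‖ ^ 2 * ‖F (α * t.1 + γ * q.1 + δ * q.2)‖ ^ 2 := by
      rw [Finset.sum_filter (s := S.filter (fun t => t.2 = q))]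
      refine Finset.sum_le_sum fun t ht => ?_
      have hq := (Finset.mem_filter.1 ht).2
      rw [KK_eq, hq]
      by_cases h4 : α * t.1 + γ * q.1 + δ * q.2 ∈ iv p
      · rw [if_pos h4]
        split_ifs
        · rw [norm_mul, mul_pow]
        · rw [norm_zero, zero_pow two_ne_zero]
          positivity
      · rw [if_neg h4, if_neg (fun h => h4 h.2.2), norm_zero]
        norm_num
    refine h3.trans ?_
    rw [← Finset.mul_sum]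
    refine mul_le_mul_of_nonneg_left ?_ (by positivity)
    refine le_trans ?_ hF
    have hinj : Set.InjOn (fun t : ℤ × ℤ × ℤ => α * t.1 + γ * q.1 + δ * q.2)
        ((S.filter (fun t => t.2 = q)).filter
          (fun t => α * t.1 + γ * q.1 + δ * q.2 ∈ iv p)) := by
      intro a ha b hb hab
      simp only at hab
      have : α * a.1 = α * b.1 := by linarith
      have e1 := mul_left_cancel₀ hα this
      rw [Finset.mem_coe, Finset.mem_filter, Finset.mem_filter] at ha hb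
      exact Prod.ext e1 (ha.1.2.trans hb.1.2.symm)
    have e := Finset.sum_image (f := fun y : ℤ => ‖F y‖ ^ 2) hinj
    rw [← e]
    refine Finset.sum_le_sum_of_subset_of_nonneg ?_ (fun _ _ _ => by positivity)
    intro y hy
    obtain ⟨a, ha, rfl⟩ := Finset.mem_image.1 hy
    exact (Finset.mem_filter.1 ha).2
  refine (Finset.sum_le_sum h2).trans ?_
  rw [← Finset.sum_mul]
  calc _ ≤ M * (A * len p) := mul_le_mul_of_nonneg_right hc (mul_nonneg hA hlen.le)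
    _ = M * A * len p := by ring

end node

end Crest.Agent.R079.XS4x219
end

-- ▼ part R079/XS4b_219
section

/-! R079, Step II, T5 leaf [S3] plugged into the literal `XR112.XR` of leaf [S2] (helper219).

* `s4w_of_XR` : `S4W` of the X letter, no height of `X` nor of `F`;
* `s4w_of_XR'` : the same with `h = σ^(-1/5)`;
* `s2w_of_XR` : `S2W` of the X letter; `tot_of_XR`; `height_of_XR`. -/

set_option autoImplicit false
set_option linter.unusedVariables false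

namespace Crest.Agent.R079.XS4x219

open Finset Crest.Agent.R079.Grid Crest.Agent.R079.Growth Crest.Agent.R079.R244
  Crest.Agent.R079.XDual988 Crest.Agent.R079.F24 Crest.Agent.R079.XR112

variable {α γ δ : ℤ} {T T' : Finset ℤ} {W : Finset Nd} {V σ θ η M A : ℝ}
  {c : ℤ → ℤ → ℂ} {F : ℤ → ℂ} {X : ℤ → ℤ → ℤ → ℂ}

lemma at'_eq (C : ℤ → ℤ → ℤ → ℂ) (p : Nd) : at' α γ δ T T' C p = KK α γ δ T T' p C := rfl

/-- total energy of `Y` from its rows -/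
lemma totY_of_rows {Y C : ℤ → ℤ → ℤ → ℂ} {B E : ℝ}
    (hsup : ∀ w z z', Y w z z' ≠ 0 → z ∈ T ∧ z' ∈ T')
    (hr : ∀ S : Finset (ℤ × ℤ), ∑ r ∈ S, ∑ z' ∈ T', ‖Y r.1 r.2 z'‖ ^ 2 ≤
      ∑ r ∈ S, ∑ z' ∈ T', ‖C r.1 r.2 z'‖ ^ 2 + E)
    (hC : Tot C B) : Tot Y (B + E) := by
  classical
  intro S
  set R : Finset (ℤ × ℤ) := S.image (fun t => (t.1, t.2.1)) with hR
  have h4 : ∑ t ∈ S, ‖Y t.1 t.2.1 t.2.2‖ ^ 2 =
      ∑ t ∈ S.filter (fun t => t.2.2 ∈ T'), ‖Y t.1 t.2.1 t.2.2‖ ^ 2 := by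
    rw [Finset.sum_filter (s := S)]
    refine Finset.sum_congr rfl fun t _ => ?_
    split_ifs with hy
    · rfl
    · have : Y t.1 t.2.1 t.2.2 = 0 := by
        by_contra hne
        exact hy (hsup _ _ _ hne).2
      rw [this, norm_zero, zero_pow two_ne_zero]
  rw [h4]
  have hinj : Set.InjOn (fun t : ℤ × ℤ × ℤ => ((t.1, t.2.1), t.2.2))
      (S.filter (fun t => t.2.2 ∈ T')) := by
    rintro ⟨a, b, c⟩ _ ⟨a', b', c'⟩ _ h
    simp only [Prod.mk.injEq] at h ⊢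
    exact ⟨h.1.1, h.1.2, h.2⟩
  have e := Finset.sum_image (f := fun x : (ℤ × ℤ) × ℤ => ‖Y x.1.1 x.1.2 x.2‖ ^ 2) hinj
  rw [← e]
  have h5 : ∑ x ∈ (S.filter (fun t => t.2.2 ∈ T')).image (fun t => ((t.1, t.2.1), t.2.2)),
      ‖Y x.1.1 x.1.2 x.2‖ ^ 2 ≤ ∑ x ∈ R ×ˢ T', ‖Y x.1.1 x.1.2 x.2‖ ^ 2 := by
    refine Finset.sum_le_sum_of_subset_of_nonneg ?_ (fun _ _ _ => by positivity)
    intro x hx
    obtain ⟨t, ht, rfl⟩ := Finset.mem_image.1 hx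
    rw [Finset.mem_filter] at ht
    exact Finset.mem_product.2 ⟨Finset.mem_image_of_mem _ ht.1, ht.2⟩
  refine h5.trans ?_
  rw [Finset.sum_product]
  refine (hr R).trans ?_
  have h6 : ∑ r ∈ R, ∑ z' ∈ T', ‖C r.1 r.2 z'‖ ^ 2 ≤ B := by
    have hinj2 : Set.InjOn (fun x : (ℤ × ℤ) × ℤ => ((x.1.1, x.1.2, x.2) : ℤ × ℤ × ℤ))
        (R ×ˢ T' : Finset ((ℤ × ℤ) × ℤ)) := by
      rintro ⟨⟨a, b⟩, c⟩ _ ⟨⟨a', b'⟩, c'⟩ _ h
      simp only [Prod.mk.injEq] at h ⊢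
      exact ⟨⟨h.1, h.2.1⟩, h.2.2⟩
    have e2 := Finset.sum_image (f := fun t : ℤ × ℤ × ℤ => ‖C t.1 t.2.1 t.2.2‖ ^ 2) hinj2
    have h7 := hC ((R ×ˢ T').image (fun x : (ℤ × ℤ) × ℤ => ((x.1.1, x.1.2, x.2) : ℤ × ℤ × ℤ)))
    rw [e2, Finset.sum_product] at h7
    exact h7
  linarith

/-- total energy of `C = c F` in the letters of 112 -/
lemma tot_Cc (hα : α ≠ 0) (p : Nd) (hc : ∑ q ∈ T ×ˢ T', ‖c q.1 q.2‖ ^ 2 ≤ M)
    (hF : ∑ y ∈ iv p, ‖F y‖ ^ 2 ≤ A * len p) (hA : 0 ≤ A) :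
    Tot (at' α γ δ T T' (Cc c F α γ δ) p) (M * A * len p) :=
  tot_C hα F p hc hF hA

variable (hα : α ≠ 0) (hγ : γ ≠ 0) (hδ : δ ≠ 0)

include hα in
/-- total energy of `Y` at a node -/
lemma totY_of_XNode {p : Nd} {Y D : ℤ → ℤ → ℤ → ℂ} (hA : 0 ≤ A) (hMA : M * A ≤ V)
    (hc : ∑ q ∈ T ×ˢ T', ‖c q.1 q.2‖ ^ 2 ≤ M) (hF : ∑ y ∈ iv p, ‖F y‖ ^ 2 ≤ A * len p)
    (h : XNode p α γ δ T T' (Cc c F α γ δ) V σ θ η X Y D) :
    Tot Y ((1 + η) * V * len p) := by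
  have hlen : 0 < len p := by unfold len; positivity
  have h1 := totY_of_rows (T := T) (T' := T')
    (fun w z z' hne => ⟨(h.supY w z z' hne).1, (h.supY w z z' hne).2.1⟩) h.rows
    (tot_Cc (γ := γ) (δ := δ) hα p hc hF hA)
  intro S
  refine (h1 S).trans ?_
  have := mul_le_mul_of_nonneg_right hMA hlen.le
  linarith

include hα in
/-- total energy of `X` at a node -/
lemma tot_of_XR (hA : 0 ≤ A) (hMA : M * A ≤ V)
    (hc : ∑ q ∈ T ×ˢ T', ‖c q.1 q.2‖ ^ 2 ≤ M) (hF : ∀ p ∈ W, ∑ y ∈ iv p, ‖F y‖ ^ 2 ≤ A * len p)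
    (h : XR W α γ δ T T' (Cc c F α γ δ) V σ θ η X) :
    ∀ p ∈ W, Tot (at' α γ δ T T' X p) ((2 * (1 + η) + 6 * θ) * V * len p) := by
  intro p hp S
  obtain ⟨Y, D, hN⟩ := h p hp
  have h1 := totY_of_XNode hα hA hMA hc (hF p hp) hN S
  have h2 := hN.eD S
  have h3 : ∑ t ∈ S, ‖at' α γ δ T T' X p t.1 t.2.1 t.2.2‖ ^ 2 ≤
      ∑ t ∈ S, (2 * ‖Y t.1 t.2.1 t.2.2‖ ^ 2 + 2 * ‖D t.1 t.2.1 t.2.2‖ ^ 2) := by
    refine Finset.sum_le_sum fun t _ => ?_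
    rw [hN.eq]
    have h4 := pow_le_pow_left₀ (norm_nonneg _) (norm_add_le (Y t.1 t.2.1 t.2.2)
      (D t.1 t.2.1 t.2.2)) 2
    nlinarith [sq_nonneg (‖Y t.1 t.2.1 t.2.2‖ - ‖D t.1 t.2.1 t.2.2‖)]
  rw [Finset.sum_add_distrib, ← Finset.mul_sum, ← Finset.mul_sum] at h3
  linarith

include hα in
/-- **`S2W` of the X letter** -/
theorem s2w_of_XR {κ : ℕ} (hA : 0 ≤ A) (hMA : M * A ≤ V)
    (hc : ∑ q ∈ T ×ˢ T', ‖c q.1 q.2‖ ^ 2 ≤ M) (hF : ∀ p ∈ W, ∑ y ∈ iv p, ‖F y‖ ^ 2 ≤ A * len p)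
    (h : XR W α γ δ T T' (Cc c F α γ δ) V σ θ η X) :
    EW49.S2W W κ ((2 * (1 + η) + 6 * θ) * V) α γ δ T T' X (fun _ => 1) := by
  refine EW990.s2w_of_total fun p hp S => ?_
  refine (tot_of_XR hα hA hMA hc hF h p hp S).trans (le_of_eq ?_)
  unfold len
  ring

/-- height of the X letter on the node -/
lemma height_of_XR (h : XR W α γ δ T T' (Cc c F α γ δ) V σ θ η X) {p : Nd} (hp : p ∈ W) {Hc : ℝ}
    (hcF : ∀ z ∈ T, ∀ z' ∈ T', ∀ y ∈ iv p, ‖c z z'‖ * ‖F y‖ ≤ Hc) (w : ℤ) {z z' : ℤ} (hz : z ∈ T)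
    (hz' : z' ∈ T') (hy : α * w + γ * z + δ * z' ∈ iv p) : ‖X w z z'‖ ≤ Hc + 3 / σ := by
  classical
  obtain ⟨Y, D, hN⟩ := h p hp
  have h1 := hN.eq w z z'
  have h2 := hN.hY w z z'
  have h3 := hN.hD w z z'
  rw [at'_eq, KK_eq, if_pos ⟨hz, hz', hy⟩] at h1 h2
  have h4 : ‖Cc c F α γ δ w z z'‖ ≤ Hc := by
    unfold Cc
    rw [norm_mul]
    exact hcF z hz z' hz' _ hy
  have e : X w z z' = Cc c F α γ δ w z z' - (Cc c F α γ δ w z z' - Y w z z') + D w z z' := by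
    rw [h1]
    ring
  rw [e]
  have h5 := norm_add_le (Cc c F α γ δ w z z' - (Cc c F α γ δ w z z' - Y w z z')) (D w z z')
  have h6 := norm_sub_le (Cc c F α γ δ w z z') (Cc c F α γ δ w z z' - Y w z z')
  have e3 : (3 : ℝ) / σ = 1 / σ + 2 / σ := by ring
  rw [e3]
  linarith

include hα hγ hδ in
/-- **[S3] `S4W` of the X letter**, `|c| ≤ 1` -/
theorem s4w_of_XR {κ : ℕ} {h s4 : ℝ} (hσ : 0 < σ) (hη : 0 ≤ η) (hV : 0 ≤ V) (hh : 0 < h)
    (hA : 0 ≤ A) (hMA : M * A ≤ V) (hc1 : ∀ z z', ‖c z z'‖ ≤ 1)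
    (hc : ∑ q ∈ T ×ˢ T', ‖c q.1 q.2‖ ^ 2 ≤ M) (hF : ∀ p ∈ W, ∑ y ∈ iv p, ‖F y‖ ^ 2 ≤ A * len p)
    (hX : XR W α γ δ T T' (Cc c F α γ δ) V σ θ η X)
    (hs : 64 * (1024 * (h ^ 3 * σ) + 2 * ((256 * A / h) ^ 2 * (1 + η)) +
      ((256 * A + 2 / σ ^ 2) * (4 * η) + 12 * θ / σ ^ 2)) ≤ s4) :
    EW49.S4W W κ V s4 α γ δ T T' X (fun _ => 1) := by
  classical
  intro p hp k _ S
  obtain ⟨Y, D, hN⟩ := hX p hp
  have hlen : 0 < len p := by unfold len; positivity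
  have hYe := totY_of_XNode hα hA hMA hc (hF p hp) hN
  have key := sum_e4_abs (T := T) (T' := T') (X := at' α γ δ T T' X p) (Y := Y)
    (C := at' α γ δ T T' (Cc c F α γ δ) p)
    (f := fun w z z' => at' α γ δ T T' (Cc c F α γ δ) p w z z' - Y w z z') (D := D) (h := h)
    (Mf := 1 / σ) (Md := 2 / σ) (ED := 3 * θ * V * len p) (EY := (1 + η) * V * len p)
    (η := η * V * len p) (Λ := 2 * σ * V * len p) (ρ := A * len p)
    (N := 2 ^ (p.1 + k)) (by positivity) hh (α := α) hγ hδ (p.2 * 2 ^ (p.1 + 7))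
    (fun w z z' hne => by
      have h1 := (hN.supY w z z' hne).2.2
      have h2 : α * w + γ * z + δ * z' ∈ Finset.Ico (p.2 * 2 ^ (p.1 + 7))
        ((p.2 + 1) * 2 ^ (p.1 + 7)) := h1
      rw [Finset.mem_Ico] at h2
      have e1 : (2 : ℤ) ^ (p.1 + 7) ≤ 128 * 2 ^ (p.1 + k) := by
        have e2 : (2 : ℤ) ^ (p.1 + 7) = 128 * 2 ^ p.1 := by rw [pow_add]; ring
        rw [e2]
        have : (2 : ℤ) ^ p.1 ≤ 2 ^ (p.1 + k) := pow_le_pow_right₀ (by norm_num) (by omega)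
        linarith
      push_cast
      refine ⟨h2.1, ?_⟩
      have e3 : (p.2 + 1) * (2 : ℤ) ^ (p.1 + 7) = p.2 * 2 ^ (p.1 + 7) + 2 ^ (p.1 + 7) := by ring
      have h4 := h2.2
      rw [e3] at h4
      linarith)
    (fun w z z' hne => ⟨(hN.supY w z z' hne).1, (hN.supY w z z' hne).2.1⟩)
    (fun w z z' => hN.eq w z z')
    (fun w z z' => by ring)
    (by positivity) (fun w z z' => hN.hY w z z') (by positivity) (fun w z z' => hN.hD w z z')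
    hN.eD hYe (by positivity)
    (fun w z s => sum_row_le w z (rows_C hδ hc1 F p (hF p hp) w z) s)
    (fun w z' s => sum_col_le w z' (cols_C hγ hc1 F p (hF p hp) w z') s)
    hN.rows hN.cols hN.lev S
  have e0 : ∀ t : ℤ × ℤ × ℤ, at' α γ δ T T' X p t.1 =
      cK α γ δ T T' (X t.1) (res p fun _ => 1) t.1 := fun t => rfl
  simp only [e0] at key
  refine key.trans ?_
  -- numbers
  have hN1 : (0 : ℝ) < ((2 ^ (p.1 + k) : ℕ) : ℝ) := by positivity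
  have hNl : len p ≤ 128 * ((2 ^ (p.1 + k) : ℕ) : ℝ) := by
    have e1 : len p = 128 * 2 ^ p.1 := by unfold len; rw [pow_add]; ring
    rw [e1]
    push_cast
    have : (2 : ℝ) ^ p.1 ≤ 2 ^ (p.1 + k) := pow_le_pow_right₀ (by norm_num) (by omega)
    linarith
  have r1 : A * len p / ((2 ^ (p.1 + k) : ℕ) : ℝ) ≤ 128 * A := by
    rw [div_le_iff₀ hN1]
    nlinarith
  have r2 : 2 * (A * len p) / (h * ((2 ^ (p.1 + k) : ℕ) : ℝ)) ≤ 256 * A / h := by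
    have e : 2 * (A * len p) / (h * ((2 ^ (p.1 + k) : ℕ) : ℝ)) =
        2 * (A * len p / ((2 ^ (p.1 + k) : ℕ) : ℝ)) / h := by field_simp
    rw [e]
    exact div_le_div_of_nonneg_right (by linarith) hh.le
  have hE0 : 0 ≤ (1 + η) * V * len p := by positivity
  have r3 : (2 * (A * len p) / (h * ((2 ^ (p.1 + k) : ℕ) : ℝ))) ^ 2 * ((1 + η) * V * len p) ≤
      (256 * A / h) ^ 2 * (1 + η) * V * len p := by
    have h0 : 0 ≤ 2 * (A * len p) / (h * ((2 ^ (p.1 + k) : ℕ) : ℝ)) := by positivity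
    have h1 := pow_le_pow_left₀ h0 r2 2
    have h2 := mul_le_mul_of_nonneg_right h1 hE0
    linarith
  have r4 : (2 * (A * len p) / ((2 ^ (p.1 + k) : ℕ) : ℝ) + 2 * (1 / σ) ^ 2) *
      (4 * (η * V * len p)) ≤ (256 * A + 2 / σ ^ 2) * (4 * η) * V * len p := by
    have e : 2 * (A * len p) / ((2 ^ (p.1 + k) : ℕ) : ℝ) =
        2 * (A * len p / ((2 ^ (p.1 + k) : ℕ) : ℝ)) := by ring
    have e' : 2 * (1 / σ) ^ 2 = 2 / σ ^ 2 := by ring
    rw [e, e']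
    have h1 : 2 * (A * len p / ((2 ^ (p.1 + k) : ℕ) : ℝ)) + 2 / σ ^ 2 ≤
        256 * A + 2 / σ ^ 2 := by linarith
    have h2 := mul_le_mul_of_nonneg_right h1 (show 0 ≤ 4 * (η * V * len p) by positivity)
    linarith
  have e5 : (2 : ℝ) ^ (p.1 + 7) = len p := rfl
  have e6 : (2 / σ) ^ 2 * (3 * θ * V * len p) = 12 * θ / σ ^ 2 * (V * len p) := by
    field_simp
    ring
  rw [e5, e6]
  have hs' := mul_le_mul_of_nonneg_right hs (mul_nonneg hV hlen.le)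
  calc _ ≤ 64 * (4 * (128 * (h ^ 3 * (2 * σ * V * len p))) +
          2 * ((256 * A / h) ^ 2 * (1 + η) * V * len p)) +
        64 * ((256 * A + 2 / σ ^ 2) * (4 * η) * V * len p + 12 * θ / σ ^ 2 * (V * len p)) := by
          linarith
    _ = 64 * (1024 * (h ^ 3 * σ) + 2 * ((256 * A / h) ^ 2 * (1 + η)) +
      ((256 * A + 2 / σ ^ 2) * (4 * η) + 12 * θ / σ ^ 2)) * (V * len p) := by ring
    _ ≤ s4 * (V * len p) := hs'
    _ = s4 * (len p * V) := by ring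

include hα hγ hδ in
/-- **[S3] with `h = σ^(-1/5)`, `A = 1`, `η ≤ σ^3`, `θ ≤ σ^3`**: `s4 = 2^25 σ^(2/5)` -/
theorem s4w_of_XR' {κ : ℕ} (hσ : 0 < σ) (hσ1 : σ ≤ 1) (hη : 0 ≤ η) (hη1 : η ≤ σ ^ 3)
    (hθ1 : θ ≤ σ ^ 3) (hV : 0 ≤ V) (hMA : M ≤ V) (hc1 : ∀ z z', ‖c z z'‖ ≤ 1)
    (hc : ∑ q ∈ T ×ˢ T', ‖c q.1 q.2‖ ^ 2 ≤ M) (hF : ∀ p ∈ W, ∑ y ∈ iv p, ‖F y‖ ^ 2 ≤ len p)
    (hX : XR W α γ δ T T' (Cc c F α γ δ) V σ θ η X) :
    EW49.S4W W κ V (2 ^ 25 * σ ^ (2 / 5 : ℝ)) α γ δ T T' X (fun _ => 1) := by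
  set h : ℝ := σ ^ (-(1 / 5) : ℝ) with hh
  have hh0 : 0 < h := Real.rpow_pos_of_pos hσ _
  set a : ℝ := σ ^ (2 / 5 : ℝ) with ha
  have ha0 : 0 < a := Real.rpow_pos_of_pos hσ _
  have hσa : σ ≤ a := by
    calc σ = σ ^ (1 : ℝ) := (Real.rpow_one σ).symm
      _ ≤ σ ^ (2 / 5 : ℝ) := Real.rpow_le_rpow_of_exponent_ge hσ hσ1 (by norm_num)
  have e1 : h ^ 3 * σ = a := by
    have e2 : h ^ 3 = σ ^ (-(3 / 5) : ℝ) := by
      rw [hh, ← Real.rpow_natCast, ← Real.rpow_mul hσ.le]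
      norm_num
    rw [e2, ha]
    nth_rewrite 2 [← Real.rpow_one σ]
    rw [← Real.rpow_add hσ]
    norm_num
  have e2 : (256 * (1 : ℝ) / h) ^ 2 = 65536 * a := by
    have e3 : (1 / h) ^ 2 = a := by
      rw [hh, one_div, ← Real.rpow_neg hσ.le, ← Real.rpow_natCast, ← Real.rpow_mul hσ.le, ha]
      norm_num
    calc (256 * (1 : ℝ) / h) ^ 2 = 65536 * (1 / h) ^ 2 := by ring
      _ = 65536 * a := by rw [e3]
  refine s4w_of_XR (A := 1) (h := h) hα hγ hδ hσ hη hV hh0 zero_le_one (by simpa using hMA) hc1 hc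
    (by simpa using hF) hX ?_
  rw [e1, e2]
  have hσ3 : σ ^ 3 ≤ 1 := pow_le_one₀ hσ.le hσ1
  have s1 : 2 * (65536 * a * (1 + η)) ≤ 2 * (65536 * a * 2) := by
    have : 1 + η ≤ 2 := by linarith
    have h0 : 0 ≤ 65536 * a := by positivity
    nlinarith
  have s2 : (256 * 1 + 2 / σ ^ 2) * (4 * η) ≤ 1032 * a := by
    have h1 : (256 * 1 + 2 / σ ^ 2) * (4 * η) ≤ (256 * 1 + 2 / σ ^ 2) * (4 * σ ^ 3) := by
      refine mul_le_mul_of_nonneg_left (by linarith) (by positivity)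
    have h2 : (256 * 1 + 2 / σ ^ 2) * (4 * σ ^ 3) = 1024 * σ ^ 3 + 8 * σ := by
      field_simp
      ring
    have h3 : σ ^ 3 ≤ σ := by
      calc σ ^ 3 = σ ^ 2 * σ := by ring
        _ ≤ 1 * σ := mul_le_mul_of_nonneg_right (pow_le_one₀ hσ.le hσ1) hσ.le
        _ = σ := one_mul _
    rw [h2] at h1
    linarith
  have s3 : 12 * θ / σ ^ 2 ≤ 12 * a := by
    rw [div_le_iff₀ (by positivity)]
    have h1 : σ ^ 3 = σ * σ ^ 2 := by ring
    have h2 : σ * σ ^ 2 ≤ a * σ ^ 2 := mul_le_mul_of_nonneg_right hσa (by positivity)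
    linarith
  linarith

end Crest.Agent.R079.XS4x219
end

-- ▼ part R079/RuS1_256

/-! R079, RuleS assembly, leaf S9 part 1 (helper256): the two ERROR WORDS of a static window, all
parameters expressed by `σ` (`θ = η = σ³`, `|G| ≤ 1/σ`): bound `K (1 + 1/k) σ^(1/20) V len J`. -/

set_option autoImplicit false
set_option linter.unusedVariables false

namespace Crest.Agent.R079.RuS256

open Finset Crest.Agent.R079.Grid Crest.Agent.R079.Growth Crest.Agent.R079.QRed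
  Crest.Agent.R079.TWin Crest.Agent.R079.R244 Crest.Agent.R079.F24 Crest.Agent.R079.XR112
  Crest.Agent.R079.XS4x219 Crest.Agent.R079.EWG990 Crest.Agent.R079.EW5702
  Crest.Agent.R079.Cg408

/-- `log (1/σ) ≤ 20 σ^(-1/20)` -/
theorem log_inv_le {σ : ℝ} (hσ : 0 < σ) : Real.log (1 / σ) ≤ 20 * σ ^ (-(1 / 20) : ℝ) := by
  have h := Real.log_le_rpow_div (x := 1 / σ) (by positivity) (show (0 : ℝ) < 1 / 20 by norm_num)
  have e : (1 / σ) ^ (1 / 20 : ℝ) = σ ^ (-(1 / 20) : ℝ) := by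
    rw [one_div, Real.inv_rpow hσ.le, ← Real.rpow_neg hσ.le]
  rw [e] at h
  calc _ ≤ _ := h
    _ = _ := by ring

theorem one_le_neg {σ a : ℝ} (hσ : 0 < σ) (hσ1 : σ ≤ 1) (ha : 0 ≤ a) : 1 ≤ σ ^ (-a) := by
  rw [Real.rpow_neg hσ.le, one_le_inv₀ (Real.rpow_pos_of_pos hσ _)]
  exact Real.rpow_le_one hσ.le hσ1 ha

/-- numbers of the word `E` -/
theorem num_E {σ : ℝ} (hσ : 0 < σ) (hσ1 : σ ≤ 1) :
    3 * σ ^ (3 / 2 : ℝ) * (1 + Real.log (2 / σ / (3 * σ ^ (3 / 2 : ℝ)))) ≤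
      153 * σ ^ (1 / 20 : ℝ) := by
  have h1 := log_inv_le hσ
  have h2 := one_le_neg hσ hσ1 (show (0 : ℝ) ≤ 1 / 20 by norm_num)
  have h32 : 0 < σ ^ (3 / 2 : ℝ) := Real.rpow_pos_of_pos hσ _
  have e1 : Real.log (2 / σ / (3 * σ ^ (3 / 2 : ℝ))) ≤ 5 / 2 * Real.log (1 / σ) := by
    rw [Real.log_div (by positivity) (by positivity), Real.log_div (by norm_num) hσ.ne',
      Real.log_mul (by norm_num) h32.ne', Real.log_rpow hσ, one_div, Real.log_inv]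
    have : Real.log 2 ≤ Real.log 3 := Real.log_le_log (by norm_num) (by norm_num)
    linarith
  have e2 : 1 + Real.log (2 / σ / (3 * σ ^ (3 / 2 : ℝ))) ≤ 51 * σ ^ (-(1 / 20) : ℝ) := by linarith
  have e3 : σ ^ (3 / 2 : ℝ) * σ ^ (-(1 / 20) : ℝ) ≤ σ ^ (1 / 20 : ℝ) := by
    rw [← Real.rpow_add hσ]
    exact Real.rpow_le_rpow_of_exponent_ge hσ hσ1 (by norm_num)
  calc _ ≤ 3 * σ ^ (3 / 2 : ℝ) * (51 * σ ^ (-(1 / 20) : ℝ)) :=
        mul_le_mul_of_nonneg_left e2 (by positivity)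
    _ = 153 * (σ ^ (3 / 2 : ℝ) * σ ^ (-(1 / 20) : ℝ)) := by ring
    _ ≤ _ := mul_le_mul_of_nonneg_left e3 (by norm_num)

/-- numbers of the word `X` -/
theorem num_X {σ k : ℝ} (hσ : 0 < σ) (hσ1 : σ ≤ 1) (hk : 0 < k) :
    64 * σ ^ (1 / 10 : ℝ) * (1 + Real.log (σ ^ (-(2 / k)) / (64 * σ ^ (1 / 10 : ℝ)) ^ 2)) +
      σ * (1 + Real.log (4 / σ)) ≤ 2560 * (1 + 1 / k) * σ ^ (1 / 20 : ℝ) := by
  have h1 := log_inv_le hσ
  have h2 := one_le_neg hσ hσ1 (show (0 : ℝ) ≤ 1 / 20 by norm_num)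
  have h10 : 0 < σ ^ (1 / 10 : ℝ) := Real.rpow_pos_of_pos hσ _
  have hl0 : 0 ≤ Real.log (1 / σ) := Real.log_nonneg (by rw [le_div_iff₀ hσ]; linarith)
  have hk1 : 0 < 1 / k := by positivity
  have hpk : 0 < σ ^ (-(2 / k)) := Real.rpow_pos_of_pos hσ _
  have e1 : Real.log (σ ^ (-(2 / k)) / (64 * σ ^ (1 / 10 : ℝ)) ^ 2) ≤
      (2 * (1 / k) + 1 / 5) * Real.log (1 / σ) := by
    rw [Real.log_div hpk.ne' (by positivity), Real.log_pow, Real.log_mul (by norm_num) h10.ne',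
      Real.log_rpow hσ, Real.log_rpow hσ, one_div σ, Real.log_inv]
    have : 0 ≤ Real.log 64 := Real.log_nonneg (by norm_num)
    push_cast
    have e : -(2 / k) * Real.log σ = (2 * (1 / k)) * -Real.log σ := by ring
    rw [e]
    linarith
  have e1' : (2 * (1 / k) + 1 / 5) * Real.log (1 / σ) ≤
      (40 * (1 / k) + 4) * σ ^ (-(1 / 20) : ℝ) := by
    calc _ ≤ (2 * (1 / k) + 1 / 5) * (20 * σ ^ (-(1 / 20) : ℝ)) :=
          mul_le_mul_of_nonneg_left h1 (by positivity)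
      _ = _ := by ring
  have e2 : 1 + Real.log (σ ^ (-(2 / k)) / (64 * σ ^ (1 / 10 : ℝ)) ^ 2) ≤
      (40 * (1 / k) + 5) * σ ^ (-(1 / 20) : ℝ) := by linarith
  have e3 : σ ^ (1 / 10 : ℝ) * σ ^ (-(1 / 20) : ℝ) = σ ^ (1 / 20 : ℝ) := by
    rw [← Real.rpow_add hσ]
    congr 1
    norm_num
  have e4 : 1 + Real.log (4 / σ) ≤ 23 * σ ^ (-(1 / 20) : ℝ) := by
    have : Real.log (4 / σ) = Real.log 4 + Real.log (1 / σ) := by
      rw [Real.log_div (by norm_num) hσ.ne', one_div, Real.log_inv]; ring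
    have h4 : Real.log 4 ≤ 2 := by
      have := Real.log_two_lt_d9
      have e : Real.log 4 = 2 * Real.log 2 := by
        rw [show (4 : ℝ) = 2 ^ 2 by norm_num, Real.log_pow]; norm_num
      rw [e]; linarith
    rw [this]; linarith
  have e5 : σ * σ ^ (-(1 / 20) : ℝ) ≤ σ ^ (1 / 20 : ℝ) := by
    nth_rewrite 1 [← Real.rpow_one σ]
    rw [← Real.rpow_add hσ]
    exact Real.rpow_le_rpow_of_exponent_ge hσ hσ1 (by norm_num)
  have h20 : 0 < σ ^ (1 / 20 : ℝ) := Real.rpow_pos_of_pos hσ _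
  have f1 : 64 * σ ^ (1 / 10 : ℝ) *
      (1 + Real.log (σ ^ (-(2 / k)) / (64 * σ ^ (1 / 10 : ℝ)) ^ 2)) ≤
      64 * (40 * (1 / k) + 5) * σ ^ (1 / 20 : ℝ) := by
    calc _ ≤ 64 * σ ^ (1 / 10 : ℝ) * ((40 * (1 / k) + 5) * σ ^ (-(1 / 20) : ℝ)) :=
          mul_le_mul_of_nonneg_left e2 (by positivity)
      _ = 64 * (40 * (1 / k) + 5) * (σ ^ (1 / 10 : ℝ) * σ ^ (-(1 / 20) : ℝ)) := by ring
      _ = _ := by rw [e3]
  have f2 : σ * (1 + Real.log (4 / σ)) ≤ 23 * σ ^ (1 / 20 : ℝ) := by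
    calc _ ≤ σ * (23 * σ ^ (-(1 / 20) : ℝ)) := mul_le_mul_of_nonneg_left e4 hσ.le
      _ = 23 * (σ * σ ^ (-(1 / 20) : ℝ)) := by ring
      _ ≤ _ := mul_le_mul_of_nonneg_left e5 (by norm_num)
  have f3 : 0 < 1 / k * σ ^ (1 / 20 : ℝ) := by positivity
  nlinarith

theorem tl_eq_hi (h : ℝ) (F : ℤ → ℂ) : tl h F = BadN360.hi h F := by
  classical
  funext y
  unfold tl BadN360.hi
  split_ifs <;> rfl

/-- tall energy of a line letter -/
theorem tall_energy {k σ : ℝ} (hk : 0 < k) (hσ : 0 < σ) {p : Nd} {F : ℤ → ℂ}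
    (h : TRec.aq (2 + k) p F ≤ 1) :
    ∑ y ∈ dI (p.1 + 7) p.2, ‖tl (σ ^ (-(2 / k))) F y‖ ^ 2 ≤ σ ^ 2 * 2 ^ (p.1 + 7) := by
  have hH : 0 < σ ^ (-(2 / k)) := Real.rpow_pos_of_pos hσ _
  have h1 := BadN360.av_hi (q := 2 + k) (by linarith) hH h
  have e : (σ ^ (-(2 / k))) ^ (-((2 + k - 2) / 2)) = σ := by
    rw [← Real.rpow_mul hσ.le]
    have : -(2 / k) * -((2 + k - 2) / 2) = 1 := by field_simp; ring
    rw [this, Real.rpow_one]
  rw [e, ← tl_eq_hi] at h1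
  exact Leaf259.sum2_of_av h1

theorem s2w_mono {R : Finset Nd} {κ : ℕ} {V V' : ℝ} {α γ δ : ℤ} {T T' : Finset ℤ}
    {a : ℤ → ℤ → ℤ → ℂ} {F : ℤ → ℂ} (h : EW49.S2W R κ V α γ δ T T' a F) (hV : V ≤ V') :
    EW49.S2W R κ V' α γ δ T T' a F := fun p hp k hk S =>
  (h p hp k hk S).trans (mul_le_mul_of_nonneg_left hV (by positivity))

theorem s4w_mono {R : Finset Nd} {κ : ℕ} {V V' s s' : ℝ} {α γ δ : ℤ} {T T' : Finset ℤ}
    {a : ℤ → ℤ → ℤ → ℂ} {F : ℤ → ℂ} (h : EW49.S4W R κ V s α γ δ T T' a F)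
    (hV : s * V ≤ s' * V') : EW49.S4W R κ V' s' α γ δ T T' a F := fun p hp k hk S => by
  refine (h p hp k hk S).trans ?_
  have h1 : (0 : ℝ) ≤ 2 ^ (p.1 + 7) := by positivity
  calc s * (2 ^ (p.1 + 7) * V) = 2 ^ (p.1 + 7) * (s * V) := by ring
    _ ≤ 2 ^ (p.1 + 7) * (s' * V') := mul_le_mul_of_nonneg_left hV h1
    _ = _ := by ring

theorem sd (j : Fin 4) : sl j - sl (j.succAbove 2) ≠ 0 ∧
    sl (j.succAbove 0) - sl (j.succAbove 2) ≠ 0 ∧ sl (j.succAbove 1) - sl (j.succAbove 2) ≠ 0 := by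
  revert j; decide

/-- **THE TWO ERROR WORDS of a static window** -/
theorem error_words : ∃ K : ℝ, 0 ≤ K ∧ ∀ (bb : ℤ), bb = -1 ∨ bb = -7 →
    ∀ (R : Finset Nd) (J : Nd), Full R J → ∀ (j : Fin 4) (T : Fin 3 → Finset ℤ)
      (g : Fin 3 → ℤ → ℤ → ℂ) (F : Fin 4 → ℤ → ℂ) (G : ℤ → ℂ) (E X : ℤ → ℤ → ℤ → ℂ) (V σ k : ℝ),
      0 < V → 0 < σ → σ ≤ 1 / 2 ^ 60 → 0 < k →
      (∀ z z', ‖g 0 z z'‖ ≤ 1) → (∀ z z', ‖g 1 z z'‖ ≤ 1) → (∀ z z', ‖g 2 z z'‖ ≤ 1) →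
      BAt112.n2 (T 0) (T 1) (g 0) ≤ V → BAt112.n2 (T 1) (T 2) (g 1) ≤ V →
      BAt112.n2 (T 2) (T 0) (g 2) ≤ V →
      (∀ p ∈ R, TRec.aq (2 + k) p (F (j.succAbove 0)) ≤ 1) →
      (∀ p ∈ R, TRec.aq (2 + k) p (F (j.succAbove 1)) ≤ 1) →
      (∀ p ∈ R, ∑ y ∈ iv p, ‖G y‖ ^ 2 ≤ len p) → (∀ y, ‖G y‖ ≤ 1 / σ) →
      E2T R (sl j - sl (j.succAbove 2)) (sl (j.succAbove 0) - sl (j.succAbove 2))
        (sl (j.succAbove 1) - sl (j.succAbove 2)) (T 0) (T 1) (9 * σ ^ 3 * V) E →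
      (∀ w z z', ‖E w z z'‖ ≤ 2 / σ) →
      XR R (sl j - sl (j.succAbove 2)) (sl (j.succAbove 0) - sl (j.succAbove 2))
        (sl (j.succAbove 1) - sl (j.succAbove 2)) (T 0) (T 1)
        (Cc (g 0) G (sl j - sl (j.succAbove 2)) (sl (j.succAbove 0) - sl (j.succAbove 2))
          (sl (j.succAbove 1) - sl (j.succAbove 2))) V σ (σ ^ 3) (σ ^ 3) X →
      ∑ p ∈ R, ∑ x ∈ adm p.1 p.2,
        ‖LboxG (2 ^ p.1) bb (KP j T (upk g 0 E) (upF F (j.succAbove 2))) x‖ +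
      ∑ p ∈ R, ∑ x ∈ adm p.1 p.2,
        ‖LboxG (2 ^ p.1) bb (KP j T (upk g 0 X) (upF F (j.succAbove 2))) x‖ ≤
        K * (1 + 1 / k) * σ ^ (1 / 20 : ℝ) * V * len J := by
  obtain ⟨K1, hK1, hE⟩ := wordE
  obtain ⟨K2, hK2, hX⟩ := wordX
  refine ⟨153 * K1 + 25600 * K2, by positivity, ?_⟩
  intro bb hbb R J hR j T g F G E X V σ k hV hσ hσs hk hg0 hg1 hg2 hn0 hn1 hn2 hFa hFb hG hGh hE2
    hEh hXR
  have hσ1 : σ ≤ 1 := hσs.trans (by norm_num)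
  obtain ⟨s0, s1, s2⟩ := sd j
  have hlJ : len J = 2 ^ (J.1 + 7) := rfl
  have h20 : 0 < σ ^ (1 / 20 : ℝ) := Real.rpow_pos_of_pos hσ _
  have hFa2 : ∀ p ∈ R, ∑ y ∈ dI (p.1 + 7) p.2, ‖F (j.succAbove 0) y‖ ^ 2 ≤ 2 ^ (p.1 + 7) := by
    intro p hp
    have := Leaf259.sum2_of_aq (by linarith) (hFa p hp)
    rw [one_mul] at this
    exact this
  have hFb2 : ∀ p ∈ R, ∑ y ∈ dI (p.1 + 7) p.2, ‖F (j.succAbove 1) y‖ ^ 2 ≤ 2 ^ (p.1 + 7) := by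
    intro p hp
    have := Leaf259.sum2_of_aq (by linarith) (hFb p hp)
    rw [one_mul] at this
    exact this
  have hG1 : ∀ p ∈ R, ∑ y ∈ iv p, ‖G y‖ ^ 2 ≤ 1 * len p := fun p hp => by
    rw [one_mul]; exact hG p hp
  have hc0 : ∑ q ∈ T 0 ×ˢ T 1, ‖g 0 q.1 q.2‖ ^ 2 ≤ V := by
    rw [Finset.sum_product]; exact hn0
  have hσ3 : σ ^ 3 ≤ 1 := pow_le_one₀ hσ.le hσ1
  -- word `E`
  have wE := hE bb hbb R J hR.reg j T g F E V (3 * σ ^ (3 / 2 : ℝ)) (2 / σ) hV.le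
    (by have := Real.rpow_pos_of_pos hσ (3 / 2 : ℝ); positivity)
    (by
      have h1 : σ ^ (3 / 2 : ℝ) ≤ σ := by
        calc σ ^ (3 / 2 : ℝ) ≤ σ ^ (1 : ℝ) :=
              Real.rpow_le_rpow_of_exponent_ge hσ hσ1 (by norm_num)
          _ = σ := Real.rpow_one σ
      rw [le_div_iff₀ hσ]
      have h2 : σ ≤ 1 / 2 := hσs.trans (by norm_num)
      nlinarith)
    hg1 hg2 hn1 hn2 hFa2 hFb2
    (fun κ => by
      have e : (3 * σ ^ (3 / 2 : ℝ)) ^ 2 * V = 9 * σ ^ 3 * V := by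
        rw [mul_pow, ← Real.rpow_natCast (σ ^ (3 / 2 : ℝ)), ← Real.rpow_mul hσ.le,
          show (3 / 2 : ℝ) * ((2 : ℕ) : ℝ) = ((3 : ℕ) : ℝ) by norm_num, Real.rpow_natCast]
        norm_num
      rw [e]
      exact EW990.s2w_of_total fun p hp S => by
        have := hE2 p hp S
        unfold at' len at this
        rw [mul_comm] at this
        exact this)
    (fun w z _ z' _ _ => hEh w z z')
  -- word `X`
  have e25 : (2 : ℝ) ^ 25 * σ ^ (2 / 5 : ℝ) * V ≤ (64 * σ ^ (1 / 10 : ℝ)) ^ 4 * (10 * V) := by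
    have e : (σ ^ (1 / 10 : ℝ)) ^ 4 = σ ^ (2 / 5 : ℝ) := by
      rw [← Real.rpow_natCast, ← Real.rpow_mul hσ.le]
      norm_num
    rw [mul_pow, e]
    have : 0 < σ ^ (2 / 5 : ℝ) * V := mul_pos (Real.rpow_pos_of_pos hσ _) hV
    nlinarith
  have wX := hX bb hbb R J hR.reg j T g F X (10 * V) (64 * σ ^ (1 / 10 : ℝ)) (4 / σ)
    (σ ^ (-(2 / k))) σ (by positivity)
    (by have := Real.rpow_pos_of_pos hσ (1 / 10 : ℝ); positivity)
    (by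
      have h1 : σ ^ (1 / 10 : ℝ) ≤ (1 / 2 ^ 60 : ℝ) ^ (1 / 10 : ℝ) :=
        Real.rpow_le_rpow hσ.le hσs (by norm_num)
      have h2 : (1 / 2 ^ 60 : ℝ) ^ (1 / 10 : ℝ) = 1 / 64 := by
        have : (1 / 2 ^ 60 : ℝ) = (1 / 64) ^ (10 : ℕ) := by norm_num
        rw [this, ← Real.rpow_natCast, ← Real.rpow_mul (by norm_num)]
        norm_num
      rw [h2] at h1
      linarith)
    (by rw [le_div_iff₀ hσ]; linarith)
    (by
      have := one_le_neg hσ hσ1 (show (0 : ℝ) ≤ 2 / k by positivity)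
      exact this) hσ hg1 hg2 (hn1.trans (by linarith)) (hn2.trans (by linarith)) hFa2
    (fun p hp => tall_energy hk hσ (hFa p hp)) hFb2
    (fun κ => s2w_mono (s2w_of_XR (M := V) (A := 1) (V := V) (σ := σ) (θ := σ ^ 3) (η := σ ^ 3)
      s0 zero_le_one (by rw [mul_one]) hc0 hG1 hXR) (by nlinarith))
    (fun κ => s4w_mono (s4w_of_XR' (M := V) s0 s1 s2 hσ hσ1 (by positivity) le_rfl le_rfl hV.le
      le_rfl hg0 hc0 hG hXR) e25)
    (fun w z hz z' hz' hy => by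
      have h1 := height_of_XR hXR hR.top (Hc := 1 / σ) (fun x _ x' _ y _ => by
        calc ‖g 0 x x'‖ * ‖G y‖ ≤ 1 * (1 / σ) :=
              mul_le_mul (hg0 x x') (hGh y) (norm_nonneg _) zero_le_one
          _ = _ := one_mul _) w hz hz' hy
      refine h1.trans (le_of_eq ?_)
      ring)
  have nE := num_E hσ hσ1
  have nX := num_X hσ hσ1 hk
  rw [← hlJ] at wE wX
  have hl : 0 < len J := Growth.len_pos J
  have hk1 : (0 : ℝ) < 1 / k := by positivity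
  have f1 : K1 * (3 * σ ^ (3 / 2 : ℝ) * (1 + Real.log (2 / σ / (3 * σ ^ (3 / 2 : ℝ)))) * len J * V) ≤
      153 * K1 * (1 + 1 / k) * σ ^ (1 / 20 : ℝ) * V * len J := by
    have h1 : K1 * (3 * σ ^ (3 / 2 : ℝ) * (1 + Real.log (2 / σ / (3 * σ ^ (3 / 2 : ℝ)))) * len J * V)
        ≤ K1 * (153 * σ ^ (1 / 20 : ℝ) * len J * V) := by
      refine mul_le_mul_of_nonneg_left ?_ hK1
      exact mul_le_mul_of_nonneg_right (mul_le_mul_of_nonneg_right nE hl.le) hV.le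
    refine h1.trans ?_
    have h2 : 0 ≤ K1 * (153 * σ ^ (1 / 20 : ℝ) * len J * V) * (1 / k) := by positivity
    calc _ ≤ K1 * (153 * σ ^ (1 / 20 : ℝ) * len J * V) +
          K1 * (153 * σ ^ (1 / 20 : ℝ) * len J * V) * (1 / k) := by linarith
      _ = _ := by ring
  have f2 : K2 * ((64 * σ ^ (1 / 10 : ℝ) *
      (1 + Real.log (σ ^ (-(2 / k)) / (64 * σ ^ (1 / 10 : ℝ)) ^ 2)) +
      σ * (1 + Real.log (4 / σ))) * len J * (10 * V)) ≤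
      25600 * K2 * (1 + 1 / k) * σ ^ (1 / 20 : ℝ) * V * len J := by
    have h1 : K2 * ((64 * σ ^ (1 / 10 : ℝ) *
      (1 + Real.log (σ ^ (-(2 / k)) / (64 * σ ^ (1 / 10 : ℝ)) ^ 2)) +
      σ * (1 + Real.log (4 / σ))) * len J * (10 * V)) ≤
      K2 * ((2560 * (1 + 1 / k) * σ ^ (1 / 20 : ℝ)) * len J * (10 * V)) := by
      refine mul_le_mul_of_nonneg_left ?_ hK2
      exact mul_le_mul_of_nonneg_right (mul_le_mul_of_nonneg_right nX hl.le) (by positivity)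
    refine h1.trans (le_of_eq ?_)
    ring
  calc _ ≤ _ := add_le_add (wE.trans f1) (wX.trans f2)
    _ = _ := by ring

end Crest.Agent.R079.RuS256
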