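import Crest.Agent.R079.Tr_230

/-! R079, STEP II of doc 2531 in the LINE model (helper230), part 2: a finite combination of line atoms
is an exact mixture with ONE finite label type; pointwise price on every edge. -/

set_option autoImplicit false

namespace Crest.Agent.R079.Tr230

open Finset Crest.Agent.R079.Grid Crest.Agent.R079.Glue

/-- data of a line atom -/
structure AtD where
  /-- weight -/
  κ : ℝ
  /-- supports -/
  T : Fin 3 → Finset ℤ
  /-- edges -/
  a : ℤ → ℤ → ℂ
  b : ℤ → ℤ → ℂ
  c : ℤ → ℤ → ℂ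
  hκ : 0 ≤ κ

/-- the line atom -/
noncomputable def AtD.at (A : AtD) (j : Fin 4) : ℤ → ℂ := atom j A.κ A.T A.a A.b A.c


/-- unit phase -/
noncomputable def ph (c : ℂ) : ℂ := if c = 0 then 1 else c / (‖c‖ : ℂ)

lemma norm_ph (c : ℂ) : ‖ph c‖ = 1 := by
  unfold ph
  split_ifs with h
  · simp
  · rw [norm_div, Complex.norm_real, norm_norm, div_self (norm_ne_zero_iff.2 h)]

lemma ph_mul (c : ℂ) : (‖c‖ : ℂ) * ph c = c := by
  unfold ph
  split_ifs with h
  · simp [h]
  · have : (‖c‖ : ℂ) ≠ 0 := by exact_mod_cast norm_ne_zero_iff.2 h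
    field_simp





end Crest.Agent.R079.Tr230
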