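import Crest.Agent.R079.EW5_702
import Crest.Agent.R079.RuS1_256
import Crest.Agent.R079.Tr2_230
import Crest.Agent.R079.LeafV_71
import Crest.Agent.R079.PerT_530
import Crest.Agent.R079.Wc_530_Mg
import Crest.Agent.R079.Leaf_259

-- ▼ part R079/EWe_702
section

/-! R079, Step II (helper702): GENERAL EDGE `e` version of `EW5_702`: the ERROR WORDS `E` and `X` of the
edge `e` of the frozen slot `j` (static slot `j.succAbove (e + 2)`), next to two ARBITRARY line letters in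
the slots `j.succAbove e`, `j.succAbove (e + 1)` which are only locally `L²`. -/

set_option autoImplicit false
set_option linter.unusedVariables false

namespace Crest.Agent.R079.EWe702

open Finset Crest.Agent.R079.Grid Crest.Agent.R079.Pot Crest.Agent.R079.Glue Crest.Agent.R079.R244
  Crest.Agent.R079.F24 Crest.Agent.R079.EW990 Crest.Agent.R079.EWG990 Crest.Agent.R079.LK990
  Crest.Agent.R079.EW4702 Crest.Agent.R079.Growth
open Crest.Agent.R079.Cg408 (LboxG Lbox_LboxG LboxG_add)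
open Crest.Agent.R079.EW5702 (sub_sl_ne upF_ne tl lw lw_add_tl norm_lw_le norm_lw_le' LboxG_smul)

lemma e12 (e : Fin 3) : (e + 1) + 2 = e := by revert e; decide
lemma e11 (e : Fin 3) : (e + 1) + 1 = e + 2 := by revert e; decide
lemma e22 (e : Fin 3) : (e + 2) + 2 = e + 1 := by revert e; decide
lemma e21 (e : Fin 3) : (e + 2) + 1 = e := by revert e; decide
lemma ne1 (e : Fin 3) : e + 1 ≠ e := by revert e; decide
lemma ne2 (e : Fin 3) : e + 2 ≠ e := by revert e; decide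
lemma ne12 (e : Fin 3) : e + 1 ≠ e + 2 := by revert e; decide

/-- the product of the three edges as a product over `Fin 3` -/
lemma PhiW_prod (k : Fin 3 → ℤ → ℤ → ℤ → ℂ) (w : ℤ) (z : Fin 3 → ℤ) :
    PhiW k w (z 0) (z 1) (z 2) = ∏ i, k i w (z i) (z (i + 1)) := by
  rw [Fin.prod_univ_three]
  rfl

lemma sum_rot (e : Fin 3) (f : Fin 3 → ℤ) : f 0 + f 1 + f 2 = f e + f (e + 1) + f (e + 2) := by
  obtain rfl | rfl | rfl : e = 0 ∨ e = 1 ∨ e = 2 := by fin_cases e <;> simp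
  · rfl
  · show f 0 + f 1 + f 2 = f 1 + f 2 + f 0
    ring
  · show f 0 + f 1 + f 2 = f 2 + f 0 + f 1
    ring

/-! ### the mask of the top interval -/

/-- masked kernel -/
noncomputable def mE (j : Fin 4) (e : Fin 3) (D : Finset ℤ) (E : ℤ → ℤ → ℤ → ℂ) (w z z' : ℤ) : ℂ :=
  if (sl j - sl (j.succAbove (e + 2))) * w + (sl (j.succAbove e) - sl (j.succAbove (e + 2))) * z +
    (sl (j.succAbove (e + 1)) - sl (j.succAbove (e + 2))) * z' ∈ D then E w z z' else 0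

/-- the kernel of the edge `e` matters only at the points with shadow in `D` -/
theorem KP_mask (j : Fin 4) (e : Fin 3) (T : Fin 3 → Finset ℤ) (g : Fin 3 → ℤ → ℤ → ℂ)
    (F : Fin 4 → ℤ → ℂ) (E : ℤ → ℤ → ℤ → ℂ) (D : Finset ℤ) (s A : ℤ)
    (hy : A - sl (j.succAbove (e + 2)) * s ∈ D) :
    KP j T (upk g e E) F s A = KP j T (upk g e (mE j e D E)) F s A := by
  unfold KP
  refine Per_mul_congr j T _ _ _ s _ _ ?_
  intro z0 h0 z1 h1 z2 h2 hc
  congr 1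
  set z : Fin 3 → ℤ := ![z0, z1, z2] with hz
  have h3 : z 0 = z0 := rfl
  have h4 : z 1 = z1 := rfl
  have h5 : z 2 = z2 := rfl
  rw [← h3, ← h4, ← h5] at hc ⊢
  rw [PhiW_prod, PhiW_prod]
  refine Finset.prod_congr rfl fun i _ => ?_
  by_cases hi : i = e
  · subst hi
    unfold upk
    rw [if_pos rfl, if_pos rfl]
    unfold mE
    rw [if_pos]
    have hr := sum_rot i (fun a => cf j a * z a)
    have hr2 := sum_rot i z
    rw [hc] at hr
    unfold cf at hr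
    have ey : (sl j - sl (j.succAbove (i + 2))) * (s - z 0 - z 1 - z 2) +
        (sl (j.succAbove i) - sl (j.succAbove (i + 2))) * z i +
        (sl (j.succAbove (i + 1)) - sl (j.succAbove (i + 2))) * z (i + 1) =
        A - sl (j.succAbove (i + 2)) * s := by
      have e3 : s - z 0 - z 1 - z 2 = s - (z i + z (i + 1) + z (i + 2)) := by
        rw [← hr2]; ring
      rw [e3]
      linear_combination -hr
    rw [ey]; exact hy
  · unfold upk
    rw [if_neg hi, if_neg hi]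


/-- masked box sums -/
theorem box_mask (j : Fin 4) (e : Fin 3) (T : Fin 3 → Finset ℤ) (g : Fin 3 → ℤ → ℤ → ℂ) (F : Fin 4 → ℤ → ℂ)
    (E : ℤ → ℤ → ℤ → ℂ) {R : Finset (ℕ × ℤ)} {J : ℕ × ℤ} (hR : IsRegion R J) (bb : ℤ)
    (hbb : bb = -1 ∨ bb = -7) :
    ∑ p ∈ R, ∑ x ∈ adm p.1 p.2, ‖LboxG (2 ^ p.1) bb (KP j T (upk g e E) F) x‖ =
      ∑ p ∈ R, ∑ x ∈ adm p.1 p.2,
        ‖LboxG (2 ^ p.1) bb (KP j T (upk g e (mE j e (dI (J.1 + 7) J.2) E)) F) x‖ := by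
  refine Finset.sum_congr rfl fun p hp => Finset.sum_congr rfl fun x hx => ?_
  have h : LboxG (2 ^ p.1) bb (KP j T (upk g e E) F) x =
      LboxG (2 ^ p.1) bb (KP j T (upk g e (mE j e (dI (J.1 + 7) J.2) E)) F) x := by
    refine LboxG_congr _ bb _ _ x fun u => ?_
    refine KP_mask j e T g F E _ _ _ ?_
    rw [← yv_eq]
    exact hR.1 p hp (yv_mem p.1 p.2 bb x hbb hx u _)
  rw [h]

/-! ### budgets of the three edges -/

lemma fin3_or : ∀ e x : Fin 3, x ≠ e → x = e + 1 ∨ x = e + 2 := by decide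

lemma prod_rot (e : Fin 3) (f : Fin 3 → ℂ) : ∏ i, f i = f e * f (e + 1) * f (e + 2) := by
  rw [Fin.prod_univ_three]
  obtain rfl | rfl | rfl : e = 0 ∨ e = 1 ∨ e = 2 := by fin_cases e <;> simp
  · rfl
  · show f 0 * f 1 * f 2 = f 1 * f 2 * f 0
    ring
  · show f 0 * f 1 * f 2 = f 2 * f 0 * f 1
    ring

lemma fin3_cases (e : Fin 3) (P : Fin 3 → Prop) (h1 : P (e + 1)) (h2 : P (e + 2)) :
    ∀ x : Fin 3, x ≠ e → P x := by
  intro x hx
  rcases fin3_or e x hx with rfl | rfl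
  · exact h1
  · exact h2

lemma fin3_all (e : Fin 3) (P : Fin 3 → Prop) (h0 : P e) (h1 : P (e + 1)) (h2 : P (e + 2)) :
    ∀ x : Fin 3, P x := by
  intro x
  by_cases hx : x = e
  · rw [hx]; exact h0
  · exact fin3_cases e P h1 h2 x hx

lemma sA02 (j : Fin 4) (e : Fin 3) : j.succAbove e ≠ j.succAbove (e + 2) :=
  fun h => ne2 e (Fin.succAbove_right_injective h).symm

lemma sA12 (j : Fin 4) (e : Fin 3) : j.succAbove (e + 1) ≠ j.succAbove (e + 2) :=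
  fun h => ne12 e (Fin.succAbove_right_injective h)

lemma sA01 (j : Fin 4) (e : Fin 3) : j.succAbove e ≠ j.succAbove (e + 1) :=
  fun h => ne1 e (Fin.succAbove_right_injective h).symm

section edges

variable {R : Finset (ℕ × ℤ)} {κ : ℕ} {V A : ℝ} {j : Fin 4} {e : Fin 3} {T : Fin 3 → Finset ℤ}
  {g : Fin 3 → ℤ → ℤ → ℂ} {E : ℤ → ℤ → ℤ → ℂ} {F : Fin 4 → ℤ → ℂ}

/-- edge `1`: letter of the slot `j.succAbove e` -/
theorem W2_one (hA : 0 ≤ A) (h1 : ∑ z ∈ T (e + 1), ∑ z' ∈ T (e + 2), ‖g (e + 1) z z'‖ ^ 2 ≤ V)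
    (hF : ∀ p ∈ R, ∑ y ∈ dI (p.1 + 7) p.2, ‖F (j.succAbove e) y‖ ^ 2 ≤ A * 2 ^ (p.1 + 7)) :
    W2 R κ (V * A) j T (upk g e E) F (e + 1) := by
  unfold W2
  rw [e12, e11]
  have hk : upk g e E (e + 1) = fun _ => g (e + 1) := by
    funext w; unfold upk; rw [if_neg (ne1 e)]
  rw [hk]
  exact s2w_sum (sub_sl_ne (Fin.succAbove_ne j e).symm) (g (e + 1)) hA h1 hF

theorem W2_two (hA : 0 ≤ A) (h2 : ∑ z ∈ T (e + 2), ∑ z' ∈ T e, ‖g (e + 2) z z'‖ ^ 2 ≤ V)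
    (hF : ∀ p ∈ R, ∑ y ∈ dI (p.1 + 7) p.2, ‖F (j.succAbove (e + 1)) y‖ ^ 2 ≤ A * 2 ^ (p.1 + 7)) :
    W2 R κ (V * A) j T (upk g e E) F (e + 2) := by
  unfold W2
  rw [e22, e21]
  have hk : upk g e E (e + 2) = fun _ => g (e + 2) := by
    funext w; unfold upk; rw [if_neg (ne2 e)]
  rw [hk]
  exact s2w_sum (sub_sl_ne (Fin.succAbove_ne j (e + 1)).symm) (g (e + 2)) hA h2 hF

theorem W4_one (hA : 0 ≤ A) (hg : ∀ z z', ‖g (e + 1) z z'‖ ≤ 1)
    (h2 : W2 R κ V j T (upk g e E) F (e + 1))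
    (hF : ∀ p ∈ R, ∑ y ∈ dI (p.1 + 7) p.2, ‖F (j.succAbove e) y‖ ^ 2 ≤ A * 2 ^ (p.1 + 7)) :
    W4 R κ V (128 * A) j T (upk g e E) F (e + 1) := by
  unfold W2 at h2
  unfold W4
  rw [e12, e11] at h2 ⊢
  have hk : upk g e E (e + 1) = fun _ => g (e + 1) := by
    funext w; unfold upk; rw [if_neg (ne1 e)]
  rw [hk] at h2 ⊢
  exact s4w_line (sub_sl_ne (sA02 j e).symm) (fun _ => hg) hA hF h2

theorem W4_two (hA : 0 ≤ A) (hg : ∀ z z', ‖g (e + 2) z z'‖ ≤ 1)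
    (h2 : W2 R κ V j T (upk g e E) F (e + 2))
    (hF : ∀ p ∈ R, ∑ y ∈ dI (p.1 + 7) p.2, ‖F (j.succAbove (e + 1)) y‖ ^ 2 ≤ A * 2 ^ (p.1 + 7)) :
    W4 R κ V (128 * A) j T (upk g e E) F (e + 2) := by
  unfold W2 at h2
  unfold W4
  rw [e22, e21] at h2 ⊢
  have hk : upk g e E (e + 2) = fun _ => g (e + 2) := by
    funext w; unfold upk; rw [if_neg (ne2 e)]
  rw [hk] at h2 ⊢
  exact s4w_line (sub_sl_ne (sA01 j e)) (fun _ => hg) hA hF h2

/-- height of a line edge -/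
theorem WH_one {H : ℝ} (hH : 0 ≤ H) (hg : ∀ z z', ‖g (e + 1) z z'‖ ≤ 1)
    (hF : ∀ y, ‖F (j.succAbove e) y‖ ≤ H) : WH H j T (upk g e E) F (e + 1) := by
  intro w z z'
  unfold kW cK
  split_ifs
  · have hk : upk g e E (e + 1) w = g (e + 1) := by unfold upk; rw [if_neg (ne1 e)]
    rw [hk, norm_mul]
    calc _ ≤ 1 * H := mul_le_mul (hg _ _) (by rw [e12]; exact hF _) (norm_nonneg _) zero_le_one
      _ = H := one_mul _
  · rw [norm_zero]; exact hH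

theorem kW_zero (w z z' : ℤ) : kW j T (upk g e E) (upF F (j.succAbove (e + 2))) e w z z' =
    if z ∈ T e ∧ z' ∈ T (e + 1) then E w z z' else 0 := by
  unfold kW cK
  have hk : upk g e E e w = E w := by unfold upk; rw [if_pos rfl]
  rw [hk]
  unfold upF
  rw [if_pos rfl, mul_one]

/-- the masked error edge -/
theorem W2_zero {D : Finset ℤ} (hD : ∀ p ∈ R, dI (p.1 + 7) p.2 ⊆ D)
    (h : EW49.S2W R κ V (sl j - sl (j.succAbove (e + 2))) (sl (j.succAbove e) - sl (j.succAbove (e + 2)))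
      (sl (j.succAbove (e + 1)) - sl (j.succAbove (e + 2))) (T e) (T (e + 1)) E (fun _ => 1)) :
    W2 R κ V j T (upk g e (mE j e D E)) (upF F (j.succAbove (e + 2))) e := by
  unfold W2
  have hk : upk g e (mE j e D E) e = mE j e D E := by funext w; unfold upk; rw [if_pos rfl]
  have hF : upF F (j.succAbove (e + 2)) (j.succAbove (e + 2)) = fun _ => 1 := by unfold upF; rw [if_pos rfl]
  rw [hk, hF]
  intro p hp k hk' S
  refine le_trans (le_of_eq ?_) (h p hp k hk' S)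
  refine Finset.sum_congr rfl fun t _ => ?_
  congr 1
  funext z z'
  unfold cK mE res
  by_cases hT : z ∈ T e ∧ z' ∈ T (e + 1)
  · rw [if_pos hT, if_pos hT]
    by_cases hy : (sl j - sl (j.succAbove (e + 2))) * t.1 + (sl (j.succAbove e) - sl (j.succAbove (e + 2))) * z +
        (sl (j.succAbove (e + 1)) - sl (j.succAbove (e + 2))) * z' ∈ dI (p.1 + 7) p.2
    · rw [if_pos hy, if_pos (hD p hp hy)]
    · rw [if_neg hy, mul_zero, mul_zero]
  · rw [if_neg hT, if_neg hT]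

theorem W4_zero {σ : ℝ} {D : Finset ℤ} (hD : ∀ p ∈ R, dI (p.1 + 7) p.2 ⊆ D)
    (h : EW49.S4W R κ V σ (sl j - sl (j.succAbove (e + 2))) (sl (j.succAbove e) - sl (j.succAbove (e + 2)))
      (sl (j.succAbove (e + 1)) - sl (j.succAbove (e + 2))) (T e) (T (e + 1)) E (fun _ => 1)) :
    W4 R κ V σ j T (upk g e (mE j e D E)) (upF F (j.succAbove (e + 2))) e := by
  unfold W4
  have hk : upk g e (mE j e D E) e = mE j e D E := by funext w; unfold upk; rw [if_pos rfl]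
  have hF : upF F (j.succAbove (e + 2)) (j.succAbove (e + 2)) = fun _ => 1 := by unfold upF; rw [if_pos rfl]
  rw [hk, hF]
  intro p hp k hk' S
  refine le_trans (le_of_eq ?_) (h p hp k hk' S)
  refine Finset.sum_congr rfl fun t _ => ?_
  congr 1
  funext z z'
  unfold cK mE res
  by_cases hT : z ∈ T e ∧ z' ∈ T (e + 1)
  · rw [if_pos hT, if_pos hT]
    by_cases hy : (sl j - sl (j.succAbove (e + 2))) * t.1 + (sl (j.succAbove e) - sl (j.succAbove (e + 2))) * z +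
        (sl (j.succAbove (e + 1)) - sl (j.succAbove (e + 2))) * z' ∈ dI (p.1 + 7) p.2
    · rw [if_pos hy, if_pos (hD p hp hy)]
    · rw [if_neg hy, mul_zero, mul_zero]
  · rw [if_neg hT, if_neg hT]

theorem WH_zero {D : Finset ℤ} {H : ℝ} (hH : 0 ≤ H)
    (hE : ∀ w, ∀ z ∈ T e, ∀ z' ∈ T (e + 1), (sl j - sl (j.succAbove (e + 2))) * w +
      (sl (j.succAbove e) - sl (j.succAbove (e + 2))) * z +
      (sl (j.succAbove (e + 1)) - sl (j.succAbove (e + 2))) * z' ∈ D → ‖E w z z'‖ ≤ H) :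
    WH H j T (upk g e (mE j e D E)) (upF F (j.succAbove (e + 2))) e := by
  intro w z z'
  rw [kW_zero]
  unfold mE
  split_ifs with h1 h2
  · exact hE w z h1.1 z' h1.2 h2
  · rw [norm_zero]; exact hH
  · rw [norm_zero]; exact hH

end edges

/-- **WORD `E`** (`S₂`-small) -/
theorem wordE : ∃ K : ℝ, 0 ≤ K ∧ ∀ (bb : ℤ), bb = -1 ∨ bb = -7 →
    ∀ (R : Finset (ℕ × ℤ)) (J : ℕ × ℤ), IsRegion R J → ∀ (j : Fin 4) (e : Fin 3) (T : Fin 3 → Finset ℤ)
      (g : Fin 3 → ℤ → ℤ → ℂ) (F : Fin 4 → ℤ → ℂ) (E : ℤ → ℤ → ℤ → ℂ) (V d H : ℝ),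
      0 ≤ V → 0 < d → d ≤ H → (∀ z z', ‖g (e + 1) z z'‖ ≤ 1) → (∀ z z', ‖g (e + 2) z z'‖ ≤ 1) →
      ∑ z ∈ T (e + 1), ∑ z' ∈ T (e + 2), ‖g (e + 1) z z'‖ ^ 2 ≤ V → ∑ z ∈ T (e + 2), ∑ z' ∈ T e, ‖g (e + 2) z z'‖ ^ 2 ≤ V →
      (∀ p ∈ R, ∑ y ∈ dI (p.1 + 7) p.2, ‖F (j.succAbove e) y‖ ^ 2 ≤ 2 ^ (p.1 + 7)) →
      (∀ p ∈ R, ∑ y ∈ dI (p.1 + 7) p.2, ‖F (j.succAbove (e + 1)) y‖ ^ 2 ≤ 2 ^ (p.1 + 7)) →
      (∀ κ, EW49.S2W R κ (d ^ 2 * V) (sl j - sl (j.succAbove (e + 2)))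
        (sl (j.succAbove e) - sl (j.succAbove (e + 2))) (sl (j.succAbove (e + 1)) - sl (j.succAbove (e + 2)))
        (T e) (T (e + 1)) E (fun _ => 1)) →
      (∀ w, ∀ z ∈ T e, ∀ z' ∈ T (e + 1), (sl j - sl (j.succAbove (e + 2))) * w +
        (sl (j.succAbove e) - sl (j.succAbove (e + 2))) * z +
        (sl (j.succAbove (e + 1)) - sl (j.succAbove (e + 2))) * z' ∈ dI (J.1 + 7) J.2 → ‖E w z z'‖ ≤ H) →
      ∑ p ∈ R, ∑ x ∈ adm p.1 p.2,
        ‖LboxG (2 ^ p.1) bb (KP j T (upk g e E) (upF F (j.succAbove (e + 2)))) x‖ ≤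
          K * (d * (1 + Real.log (H / d)) * 2 ^ (J.1 + 7) * V) := by
  obtain ⟨K, hK, κ, h⟩ := word_two
  refine ⟨K * Real.sqrt 128, by positivity, ?_⟩
  intro bb hbb R J hR j e T g F E V d H hV hd hdH hg1 hg2 hs1 hs2 hFa hFb hE hEh
  rw [box_mask j e T g _ E hR bb hbb]
  obtain ⟨PP, hPP⟩ := sum_word_le R J hR j T (upk g e (mE j e (dI (J.1 + 7) J.2) E))
    (upF F (j.succAbove (e + 2))) bb hbb
  have hFa' : ∀ p ∈ R, ∑ y ∈ dI (p.1 + 7) p.2, ‖upF F (j.succAbove (e + 2)) (j.succAbove e) y‖ ^ 2 ≤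
      1 * 2 ^ (p.1 + 7) := by
    intro p hp
    rw [upF_ne (sA02 j e), one_mul]; exact hFa p hp
  have hFb' : ∀ p ∈ R, ∑ y ∈ dI (p.1 + 7) p.2, ‖upF F (j.succAbove (e + 2)) (j.succAbove (e + 1)) y‖ ^ 2 ≤
      1 * 2 ^ (p.1 + 7) := by
    intro p hp
    rw [upF_ne (sA12 j e), one_mul]; exact hFb p hp
  have w1 : W2 R κ V j T (upk g e (mE j e (dI (J.1 + 7) J.2) E)) (upF F (j.succAbove (e + 2))) (e + 1) := by
    have := W2_one (κ := κ) (E := mE j e (dI (J.1 + 7) J.2) E) zero_le_one hs1 hFa'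
    rwa [mul_one] at this
  have w2 : W2 R κ V j T (upk g e (mE j e (dI (J.1 + 7) J.2) E)) (upF F (j.succAbove (e + 2))) (e + 2) := by
    have := W2_two (κ := κ) (E := mE j e (dI (J.1 + 7) J.2) E) zero_le_one hs2 hFb'
    rwa [mul_one] at this
  have v1 := W4_one zero_le_one hg1 w1 hFa'
  have v2 := W4_two zero_le_one hg2 w2 hFb'
  rw [mul_one] at v1 v2
  have main := h bb hbb R J hR j e d H 128 hd hdH (by norm_num) V hV T
    (upk g e (mE j e (dI (J.1 + 7) J.2) E)) (upF F (j.succAbove (e + 2)))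
    (fin3_cases e _ w1 w2) (fin3_cases e _ v1 v2) (W2_zero (fun p hp => hR.1 p hp) (hE κ))
    (WH_zero (hd.le.trans hdH) hEh) PP
  refine hPP.trans (main.trans (le_of_eq ?_))
  ring

/-- the kernel of the word is additive in the letter of the slot `m = j.succAbove e` -/
theorem KP_update (j : Fin 4) (e : Fin 3) (T : Fin 3 → Finset ℤ) (k : Fin 3 → ℤ → ℤ → ℤ → ℂ)
    (F : Fin 4 → ℤ → ℂ) (f f' : ℤ → ℂ) (η : ℂ) (hF : ∀ y, F (j.succAbove e) y = f y + η * f' y)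
    (s A : ℤ) :
    KP j T k F s A = KP j T k (Function.update F (j.succAbove e) f) s A +
      η * KP j T k (Function.update F (j.succAbove e) f') s A := by
  unfold KP
  rw [prod_rot e (fun i => F (j.succAbove i) (A - sl (j.succAbove i) * s)),
    prod_rot e (fun i => Function.update F (j.succAbove e) f (j.succAbove i)
      (A - sl (j.succAbove i) * s)),
    prod_rot e (fun i => Function.update F (j.succAbove e) f' (j.succAbove i)
      (A - sl (j.succAbove i) * s))]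
  rw [Function.update_self, Function.update_self, Function.update_of_ne (sA01 j e).symm,
    Function.update_of_ne (sA02 j e).symm, Function.update_of_ne (sA01 j e).symm,
    Function.update_of_ne (sA02 j e).symm, hF]
  ring

/-- **WORD `X`** (`S₄`-small): the letter of the slot `j.succAbove e` is cut at the height `h` -/
theorem wordX : ∃ K : ℝ, 0 ≤ K ∧ ∀ (bb : ℤ), bb = -1 ∨ bb = -7 →
    ∀ (R : Finset (ℕ × ℤ)) (J : ℕ × ℤ), IsRegion R J → ∀ (j : Fin 4) (e : Fin 3) (T : Fin 3 → Finset ℤ)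
      (g : Fin 3 → ℤ → ℤ → ℂ) (F : Fin 4 → ℤ → ℂ) (X : ℤ → ℤ → ℤ → ℂ) (V d H h η : ℝ),
      0 ≤ V → 0 < d → d ≤ 1 → 1 ≤ H → 1 ≤ h → 0 < η →
      (∀ z z', ‖g (e + 1) z z'‖ ≤ 1) → (∀ z z', ‖g (e + 2) z z'‖ ≤ 1) →
      ∑ z ∈ T (e + 1), ∑ z' ∈ T (e + 2), ‖g (e + 1) z z'‖ ^ 2 ≤ V → ∑ z ∈ T (e + 2), ∑ z' ∈ T e, ‖g (e + 2) z z'‖ ^ 2 ≤ V →
      (∀ p ∈ R, ∑ y ∈ dI (p.1 + 7) p.2, ‖F (j.succAbove e) y‖ ^ 2 ≤ 2 ^ (p.1 + 7)) →
      (∀ p ∈ R, ∑ y ∈ dI (p.1 + 7) p.2, ‖tl h (F (j.succAbove e)) y‖ ^ 2 ≤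
        η ^ 2 * 2 ^ (p.1 + 7)) →
      (∀ p ∈ R, ∑ y ∈ dI (p.1 + 7) p.2, ‖F (j.succAbove (e + 1)) y‖ ^ 2 ≤ 2 ^ (p.1 + 7)) →
      (∀ κ, EW49.S2W R κ V (sl j - sl (j.succAbove (e + 2)))
        (sl (j.succAbove e) - sl (j.succAbove (e + 2))) (sl (j.succAbove (e + 1)) - sl (j.succAbove (e + 2)))
        (T e) (T (e + 1)) X (fun _ => 1)) →
      (∀ κ, EW49.S4W R κ V (d ^ 4) (sl j - sl (j.succAbove (e + 2)))
        (sl (j.succAbove e) - sl (j.succAbove (e + 2))) (sl (j.succAbove (e + 1)) - sl (j.succAbove (e + 2)))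
        (T e) (T (e + 1)) X (fun _ => 1)) →
      (∀ w, ∀ z ∈ T e, ∀ z' ∈ T (e + 1), (sl j - sl (j.succAbove (e + 2))) * w +
        (sl (j.succAbove e) - sl (j.succAbove (e + 2))) * z +
        (sl (j.succAbove (e + 1)) - sl (j.succAbove (e + 2))) * z' ∈ dI (J.1 + 7) J.2 → ‖X w z z'‖ ≤ H) →
      ∑ p ∈ R, ∑ x ∈ adm p.1 p.2,
        ‖LboxG (2 ^ p.1) bb (KP j T (upk g e X) (upF F (j.succAbove (e + 2)))) x‖ ≤
          K * ((d * (1 + Real.log (h / d ^ 2)) + η * (1 + Real.log H)) * 2 ^ (J.1 + 7) * V) := by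
  obtain ⟨K, hK, κ, hw⟩ := word_two
  obtain ⟨K', hK', κ', hw'⟩ := word_four
  refine ⟨(K + K') * Real.sqrt 128, by positivity, ?_⟩
  intro bb hbb R J hR j e T g F X V d H h η hV hd hd1 hH hh hη hg1 hg2 hs1 hs2 hFa hFt hFb hX2 hX4 hXh
  rw [box_mask j e T g _ X hR bb hbb]
  set k : Fin 3 → ℤ → ℤ → ℤ → ℂ := upk g e (mE j e (dI (J.1 + 7) J.2) X) with hk
  set G : Fin 4 → ℤ → ℂ := upF F (j.succAbove (e + 2)) with hG
  set G1 : Fin 4 → ℤ → ℂ := Function.update G (j.succAbove e) (lw h (F (j.succAbove e))) with hG1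
  set G2 : Fin 4 → ℤ → ℂ := Function.update G (j.succAbove e)
    (fun y => ((η⁻¹ : ℝ) : ℂ) * tl h (F (j.succAbove e)) y) with hG2
  have hη0 : ((η : ℝ) : ℂ) * ((η⁻¹ : ℝ) : ℂ) = 1 := by
    rw [← Complex.ofReal_mul, mul_inv_cancel₀ hη.ne', Complex.ofReal_one]
  have hsplit : ∀ s A, KP j T k G s A = KP j T k G1 s A + (η : ℂ) * KP j T k G2 s A := by
    intro s A
    refine KP_update j e T k G _ _ (η : ℂ) (fun y => ?_) s A
    rw [hG, upF_ne (sA02 j e), ← mul_assoc, hη0, one_mul]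
    exact lw_add_tl h _ y
  -- the letters of the two words as `upF`
  have hG1u : ∃ F1 : Fin 4 → ℤ → ℂ, G1 = upF F1 (j.succAbove (e + 2)) ∧
      F1 (j.succAbove e) = lw h (F (j.succAbove e)) ∧ F1 (j.succAbove (e + 1)) = F (j.succAbove (e + 1)) := by
    refine ⟨Function.update F (j.succAbove e) (lw h (F (j.succAbove e))), ?_, ?_, ?_⟩
    · funext m y
      rw [hG1, hG]
      unfold upF
      by_cases h1 : m = j.succAbove (e + 2)
      · subst h1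
        rw [if_pos rfl, Function.update_of_ne (sA02 j e).symm, if_pos rfl]
      · rw [if_neg h1]
        by_cases h2 : m = j.succAbove e
        · subst h2
          rw [Function.update_self, Function.update_self]
        · rw [Function.update_of_ne h2, Function.update_of_ne h2, if_neg h1]
    · rw [Function.update_self]
    · rw [Function.update_of_ne (sA01 j e).symm]
  have hG2u : ∃ F2 : Fin 4 → ℤ → ℂ, G2 = upF F2 (j.succAbove (e + 2)) ∧
      F2 (j.succAbove e) = (fun y => ((η⁻¹ : ℝ) : ℂ) * tl h (F (j.succAbove e)) y) ∧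
      F2 (j.succAbove (e + 1)) = F (j.succAbove (e + 1)) := by
    refine ⟨Function.update F (j.succAbove e)
      (fun y => ((η⁻¹ : ℝ) : ℂ) * tl h (F (j.succAbove e)) y), ?_, ?_, ?_⟩
    · funext m y
      rw [hG2, hG]
      unfold upF
      by_cases h1 : m = j.succAbove (e + 2)
      · subst h1
        rw [if_pos rfl, Function.update_of_ne (sA02 j e).symm, if_pos rfl]
      · rw [if_neg h1]
        by_cases h2 : m = j.succAbove e
        · subst h2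
          rw [Function.update_self, Function.update_self]
        · rw [Function.update_of_ne h2, Function.update_of_ne h2, if_neg h1]
    · rw [Function.update_self]
    · rw [Function.update_of_ne (sA01 j e).symm]
  obtain ⟨F1, hF1, hF10, hF11⟩ := hG1u
  obtain ⟨F2, hF2, hF20, hF21⟩ := hG2u
  -- word 1
  have hb1 : ∑ p ∈ R, ∑ x ∈ adm p.1 p.2, ‖LboxG (2 ^ p.1) bb (KP j T k G1) x‖ ≤
      K' * (d * Real.sqrt 128 * (1 + Real.log (h / d ^ 2)) * 2 ^ (J.1 + 7) * V) := by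
    obtain ⟨PP, hPP⟩ := sum_word_le R J hR j T k G1 bb hbb
    have hFa' : ∀ p ∈ R, ∑ y ∈ dI (p.1 + 7) p.2, ‖G1 (j.succAbove e) y‖ ^ 2 ≤
        1 * 2 ^ (p.1 + 7) := by
      intro p hp
      rw [hG1, Function.update_self, one_mul]
      exact (Finset.sum_le_sum fun y _ => pow_le_pow_left₀ (norm_nonneg _)
        (norm_lw_le' h _ y) 2).trans (hFa p hp)
    have hFb' : ∀ p ∈ R, ∑ y ∈ dI (p.1 + 7) p.2, ‖G1 (j.succAbove (e + 1)) y‖ ^ 2 ≤
        1 * 2 ^ (p.1 + 7) := by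
      intro p hp
      rw [hF1, upF_ne (sA12 j e), hF11, one_mul]; exact hFb p hp
    have w1 : W2 R κ' V j T k G1 (e + 1) := by
      have := W2_one (κ := κ') (E := mE j e (dI (J.1 + 7) J.2) X) zero_le_one hs1 hFa'
      rwa [mul_one] at this
    have w2 : W2 R κ' V j T k G1 (e + 2) := by
      have := W2_two (κ := κ') (E := mE j e (dI (J.1 + 7) J.2) X) zero_le_one hs2 hFb'
      rwa [mul_one] at this
    have v2 := W4_two zero_le_one hg2 w2 hFb'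
    rw [mul_one] at v2
    have w0 : W2 R κ' V j T k G1 e := by
      rw [hF1]; exact W2_zero (fun p hp => hR.1 p hp) (hX2 κ')
    have v0 : W4 R κ' V (d ^ 4) j T k G1 e := by
      rw [hF1]; exact W4_zero (fun p hp => hR.1 p hp) (hX4 κ')
    have wh : WH h j T k G1 (e + 1) := WH_one (by linarith) hg1 (fun y => by
      rw [hG1, Function.update_self]; exact norm_lw_le (by linarith) _ y)
    refine hPP.trans (hw' bb hbb R J hR j e (e + 1) (ne1 e) d h 128 hd hd1 hh (by norm_num) V hV T k G1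
      (fun x => ?_) (fun x hx0 hx1 => ?_) v0 wh PP)
    · exact fin3_all e _ w0 w1 w2 x
    · rcases fin3_or e x hx0 with h | h
      · exact absurd h hx1
      · rw [h]; exact v2
  -- word 2
  have hb2 : ∑ p ∈ R, ∑ x ∈ adm p.1 p.2, ‖LboxG (2 ^ p.1) bb (KP j T k G2) x‖ ≤
      K * (1 * Real.sqrt 128 * (1 + Real.log (H / 1)) * 2 ^ (J.1 + 7) * V) := by
    obtain ⟨PP, hPP⟩ := sum_word_le R J hR j T k G2 bb hbb
    have hFa' : ∀ p ∈ R, ∑ y ∈ dI (p.1 + 7) p.2, ‖G2 (j.succAbove e) y‖ ^ 2 ≤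
        1 * 2 ^ (p.1 + 7) := by
      intro p hp
      rw [hG2, Function.update_self, one_mul]
      simp only [norm_mul, mul_pow, Complex.norm_real]
      rw [← Finset.mul_sum, Real.norm_of_nonneg (by positivity)]
      calc η⁻¹ ^ 2 * _ ≤ η⁻¹ ^ 2 * (η ^ 2 * 2 ^ (p.1 + 7)) :=
            mul_le_mul_of_nonneg_left (hFt p hp) (by positivity)
        _ = (η⁻¹ * η) ^ 2 * 2 ^ (p.1 + 7) := by ring
        _ = 2 ^ (p.1 + 7) := by rw [inv_mul_cancel₀ hη.ne', one_pow, one_mul]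
    have hFb' : ∀ p ∈ R, ∑ y ∈ dI (p.1 + 7) p.2, ‖G2 (j.succAbove (e + 1)) y‖ ^ 2 ≤
        1 * 2 ^ (p.1 + 7) := by
      intro p hp
      rw [hF2, upF_ne (sA12 j e), hF21, one_mul]; exact hFb p hp
    have w1 : W2 R κ V j T k G2 (e + 1) := by
      have := W2_one (κ := κ) (E := mE j e (dI (J.1 + 7) J.2) X) zero_le_one hs1 hFa'
      rwa [mul_one] at this
    have w2 : W2 R κ V j T k G2 (e + 2) := by
      have := W2_two (κ := κ) (E := mE j e (dI (J.1 + 7) J.2) X) zero_le_one hs2 hFb'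
      rwa [mul_one] at this
    have v1 := W4_one zero_le_one hg1 w1 hFa'
    have v2 := W4_two zero_le_one hg2 w2 hFb'
    rw [mul_one] at v1 v2
    have w0 : W2 R κ ((1 : ℝ) ^ 2 * V) j T k G2 e := by
      rw [one_pow, one_mul, hF2]; exact W2_zero (fun p hp => hR.1 p hp) (hX2 κ)
    have wh : WH H j T k G2 e := by
      rw [hF2]; exact WH_zero (by linarith) hXh
    exact hPP.trans (hw bb hbb R J hR j e 1 H 128 one_pos hH (by norm_num) V hV T k G2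
      (fin3_cases e _ w1 w2) (fin3_cases e _ v1 v2) w0 wh PP)
  -- sum
  have hpt : ∀ p ∈ R, ∀ x ∈ adm p.1 p.2, ‖LboxG (2 ^ p.1) bb (KP j T k G) x‖ ≤
      ‖LboxG (2 ^ p.1) bb (KP j T k G1) x‖ + η * ‖LboxG (2 ^ p.1) bb (KP j T k G2) x‖ := by
    intro p _ x _
    have e1 : LboxG (2 ^ p.1) bb (KP j T k G) x = LboxG (2 ^ p.1) bb
        (fun s A => KP j T k G1 s A + (η : ℂ) * KP j T k G2 s A) x :=
      LboxG_congr _ bb _ _ x fun u => hsplit _ _
    rw [e1, LboxG_add (2 ^ p.1) bb (KP j T k G1) (fun s A => (η : ℂ) * KP j T k G2 s A) x,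
      LboxG_smul]
    refine (norm_add_le _ _).trans (le_of_eq ?_)
    rw [norm_mul, Complex.norm_real, Real.norm_of_nonneg hη.le]
  refine (Finset.sum_le_sum fun p hp => Finset.sum_le_sum fun x hx => hpt p hp x hx).trans ?_
  simp only [Finset.sum_add_distrib, ← Finset.mul_sum]
  have h3 := add_le_add hb1 (mul_le_mul_of_nonneg_left hb2 hη.le)
  refine h3.trans ?_
  rw [div_one]
  have l1 : 0 ≤ Real.log (h / d ^ 2) := by
    refine Real.log_nonneg ?_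
    rw [le_div_iff₀ (by positivity)]
    have : d ^ 2 ≤ 1 := pow_le_one₀ hd.le hd1
    linarith
  have l2 : 0 ≤ Real.log H := Real.log_nonneg hH
  have p1 : 0 ≤ d * (1 + Real.log (h / d ^ 2)) * (Real.sqrt 128 * (2 ^ (J.1 + 7) * V)) := by positivity
  have p2 : 0 ≤ η * (1 + Real.log H) * (Real.sqrt 128 * (2 ^ (J.1 + 7) * V)) := by positivity
  have q1 := mul_nonneg hK p1
  have q2 := mul_nonneg hK' p2
  nlinarith [q1, q2]

end Crest.Agent.R079.EWe702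
end

-- ▼ part R079/CoE1_255
section

/-! R079, Step II of `RuleNT` (helper255), EDGE-GENERIC version of helper256's `RuS1_256`: the two ERROR
WORDS of a static window, static slot `j.succAbove (e+2)`, static letter of height `σ^(-2/k)`. -/

set_option autoImplicit false
set_option linter.unusedVariables false

namespace Crest.Agent.R079.CoEx255

open Finset Crest.Agent.R079.Grid Crest.Agent.R079.Growth Crest.Agent.R079.QRed
  Crest.Agent.R079.TWin Crest.Agent.R079.R244 Crest.Agent.R079.F24 Crest.Agent.R079.XR112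
  Crest.Agent.R079.XS4x219 Crest.Agent.R079.EWG990 Crest.Agent.R079.Cg408
open Crest.Agent.R079.RuS256 (log_inv_le one_le_neg num_E num_X tall_energy s2w_mono s4w_mono)
open Crest.Agent.R079.EWe702 (wordE wordX)

/-- numbers of the word `X` -/
theorem num_Xe {σ k : ℝ} (hσ : 0 < σ) (hσ1 : σ ≤ 1) (hk : 0 < k) :
    64 * σ ^ (1 / 10 : ℝ) * (1 + Real.log (σ ^ (-(2 / k)) / (64 * σ ^ (1 / 10 : ℝ)) ^ 2)) +
      σ * (1 + Real.log (4 * σ ^ (-(2 / k + 1)))) ≤ 5120 * (1 + 1 / k) * σ ^ (1 / 20 : ℝ) := by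
  have h0 := num_X hσ hσ1 hk
  have h1 := log_inv_le hσ
  have h2 := one_le_neg hσ hσ1 (show (0 : ℝ) ≤ 1 / 20 by norm_num)
  have hl0 : 0 ≤ Real.log (1 / σ) := Real.log_nonneg (by rw [le_div_iff₀ hσ]; linarith)
  have hl4 : 0 ≤ Real.log (4 / σ) := Real.log_nonneg (by rw [le_div_iff₀ hσ]; linarith)
  have hpk : 0 < σ ^ (-(2 / k + 1)) := Real.rpow_pos_of_pos hσ _
  have h20 : 0 < σ ^ (1 / 20 : ℝ) := Real.rpow_pos_of_pos hσ _
  have e4 : 1 + Real.log (4 * σ ^ (-(2 / k + 1))) ≤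
      (23 + 40 * (1 / k)) * σ ^ (-(1 / 20) : ℝ) := by
    have e : Real.log (4 * σ ^ (-(2 / k + 1))) =
        Real.log 4 + (2 * (1 / k) + 1) * Real.log (1 / σ) := by
      rw [Real.log_mul (by norm_num) hpk.ne', Real.log_rpow hσ, one_div σ, Real.log_inv]; ring
    have h4 : Real.log 4 ≤ 2 := by
      have := Real.log_two_lt_d9
      have e : Real.log 4 = 2 * Real.log 2 := by
        rw [show (4 : ℝ) = 2 ^ 2 by norm_num, Real.log_pow]; norm_num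
      rw [e]; linarith
    have h5 : (2 * (1 / k) + 1) * Real.log (1 / σ) ≤
        (2 * (1 / k) + 1) * (20 * σ ^ (-(1 / 20) : ℝ)) :=
      mul_le_mul_of_nonneg_left h1 (by positivity)
    rw [e]
    nlinarith
  have e5 : σ * σ ^ (-(1 / 20) : ℝ) ≤ σ ^ (1 / 20 : ℝ) := by
    nth_rewrite 1 [← Real.rpow_one σ]
    rw [← Real.rpow_add hσ]
    exact Real.rpow_le_rpow_of_exponent_ge hσ hσ1 (by norm_num)
  have f2 : σ * (1 + Real.log (4 * σ ^ (-(2 / k + 1)))) ≤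
      (23 + 40 * (1 / k)) * σ ^ (1 / 20 : ℝ) := by
    calc _ ≤ σ * ((23 + 40 * (1 / k)) * σ ^ (-(1 / 20) : ℝ)) := mul_le_mul_of_nonneg_left e4 hσ.le
      _ = (23 + 40 * (1 / k)) * (σ * σ ^ (-(1 / 20) : ℝ)) := by ring
      _ ≤ _ := mul_le_mul_of_nonneg_left e5 (by positivity)
  have f3 : 0 < 1 / k * σ ^ (1 / 20 : ℝ) := by positivity
  have f4 : 0 ≤ σ * (1 + Real.log (4 / σ)) := mul_nonneg hσ.le (by linarith)
  nlinarith

theorem sd (j : Fin 4) (e : Fin 3) : sl j - sl (j.succAbove (e + 2)) ≠ 0 ∧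
    sl (j.succAbove e) - sl (j.succAbove (e + 2)) ≠ 0 ∧ sl (j.succAbove (e + 1)) - sl (j.succAbove (e + 2)) ≠ 0 := by
  revert j e; decide

/-- **THE TWO ERROR WORDS of a static window** -/
theorem error_words : ∃ K : ℝ, 0 ≤ K ∧ ∀ (bb : ℤ), bb = -1 ∨ bb = -7 →
    ∀ (R : Finset Nd) (J : Nd), Full R J → ∀ (j : Fin 4) (e : Fin 3) (T : Fin 3 → Finset ℤ)
      (g : Fin 3 → ℤ → ℤ → ℂ) (F : Fin 4 → ℤ → ℂ) (G : ℤ → ℂ) (E X : ℤ → ℤ → ℤ → ℂ) (V σ k : ℝ),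
      0 < V → 0 < σ → σ ≤ 1 / 2 ^ 60 → 0 < k →
      (∀ z z', ‖g e z z'‖ ≤ 1) → (∀ z z', ‖g (e + 1) z z'‖ ≤ 1) → (∀ z z', ‖g (e + 2) z z'‖ ≤ 1) →
      BAt112.n2 (T e) (T (e + 1)) (g e) ≤ V → BAt112.n2 (T (e + 1)) (T (e + 2)) (g (e + 1)) ≤ V →
      BAt112.n2 (T (e + 2)) (T e) (g (e + 2)) ≤ V →
      (∀ p ∈ R, TRec.aq (2 + k) p (F (j.succAbove e)) ≤ 1) →
      (∀ p ∈ R, TRec.aq (2 + k) p (F (j.succAbove (e + 1))) ≤ 1) →
      (∀ p ∈ R, ∑ y ∈ iv p, ‖G y‖ ^ 2 ≤ len p) → (∀ y, ‖G y‖ ≤ σ ^ (-(2 / k))) →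
      E2T R (sl j - sl (j.succAbove (e + 2))) (sl (j.succAbove e) - sl (j.succAbove (e + 2)))
        (sl (j.succAbove (e + 1)) - sl (j.succAbove (e + 2))) (T e) (T (e + 1)) (9 * σ ^ 3 * V) E →
      (∀ w z z', ‖E w z z'‖ ≤ 2 / σ) →
      XR R (sl j - sl (j.succAbove (e + 2))) (sl (j.succAbove e) - sl (j.succAbove (e + 2)))
        (sl (j.succAbove (e + 1)) - sl (j.succAbove (e + 2))) (T e) (T (e + 1))
        (Cc (g e) G (sl j - sl (j.succAbove (e + 2))) (sl (j.succAbove e) - sl (j.succAbove (e + 2)))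
          (sl (j.succAbove (e + 1)) - sl (j.succAbove (e + 2)))) V σ (σ ^ 3) (σ ^ 3) X →
      ∑ p ∈ R, ∑ x ∈ adm p.1 p.2,
        ‖LboxG (2 ^ p.1) bb (KP j T (upk g e E) (upF F (j.succAbove (e + 2)))) x‖ +
      ∑ p ∈ R, ∑ x ∈ adm p.1 p.2,
        ‖LboxG (2 ^ p.1) bb (KP j T (upk g e X) (upF F (j.succAbove (e + 2)))) x‖ ≤
        K * (1 + 1 / k) * σ ^ (1 / 20 : ℝ) * V * len J := by
  obtain ⟨K1, hK1, hE⟩ := wordE
  obtain ⟨K2, hK2, hX⟩ := wordX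
  refine ⟨153 * K1 + 51200 * K2, by positivity, ?_⟩
  intro bb hbb R J hR j e T g F G E X V σ k hV hσ hσs hk hge hgf hgg hn0 hn1 hn2 hFa hFb hG hGh hE2
    hEh hXR
  have hσ1 : σ ≤ 1 := hσs.trans (by norm_num)
  obtain ⟨s0, s1, s2⟩ := sd j e
  have hlJ : len J = 2 ^ (J.1 + 7) := rfl
  have h20 : 0 < σ ^ (1 / 20 : ℝ) := Real.rpow_pos_of_pos hσ _
  have hFa2 : ∀ p ∈ R, ∑ y ∈ dI (p.1 + 7) p.2, ‖F (j.succAbove e) y‖ ^ 2 ≤ 2 ^ (p.1 + 7) := by
    intro p hp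
    have := Leaf259.sum2_of_aq (by linarith) (hFa p hp)
    rw [one_mul] at this
    exact this
  have hFb2 : ∀ p ∈ R, ∑ y ∈ dI (p.1 + 7) p.2, ‖F (j.succAbove (e + 1)) y‖ ^ 2 ≤ 2 ^ (p.1 + 7) := by
    intro p hp
    have := Leaf259.sum2_of_aq (by linarith) (hFb p hp)
    rw [one_mul] at this
    exact this
  have hG1 : ∀ p ∈ R, ∑ y ∈ iv p, ‖G y‖ ^ 2 ≤ 1 * len p := fun p hp => by
    rw [one_mul]; exact hG p hp
  have hc0 : ∑ q ∈ T e ×ˢ T (e + 1), ‖g e q.1 q.2‖ ^ 2 ≤ V := by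
    rw [Finset.sum_product]; exact hn0
  have hσ3 : σ ^ 3 ≤ 1 := pow_le_one₀ hσ.le hσ1
  -- word `E`
  have wE := hE bb hbb R J hR.reg j e T g F E V (3 * σ ^ (3 / 2 : ℝ)) (2 / σ) hV.le
    (by have := Real.rpow_pos_of_pos hσ (3 / 2 : ℝ); positivity)
    (by
      have h1 : σ ^ (3 / 2 : ℝ) ≤ σ := by
        calc σ ^ (3 / 2 : ℝ) ≤ σ ^ (1 : ℝ) :=
              Real.rpow_le_rpow_of_exponent_ge hσ hσ1 (by norm_num)
          _ = σ := Real.rpow_one σ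
      rw [le_div_iff₀ hσ]
      have h2 : σ ≤ 1 / 2 := hσs.trans (by norm_num)
      nlinarith)
    hgf hgg hn1 hn2 hFa2 hFb2
    (fun κ => by
      have e : (3 * σ ^ (3 / 2 : ℝ)) ^ 2 * V = 9 * σ ^ 3 * V := by
        rw [mul_pow, ← Real.rpow_natCast (σ ^ (3 / 2 : ℝ)), ← Real.rpow_mul hσ.le,
          show (3 / 2 : ℝ) * ((2 : ℕ) : ℝ) = ((3 : ℕ) : ℝ) by norm_num, Real.rpow_natCast]
        norm_num
      rw [e]
      exact EW990.s2w_of_total fun p hp S => by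
        have := hE2 p hp S
        unfold at' len at this
        rw [mul_comm] at this
        exact this)
    (fun w z _ z' _ _ => hEh w z z')
  -- word `X`
  have e25 : (2 : ℝ) ^ 25 * σ ^ (2 / 5 : ℝ) * V ≤ (64 * σ ^ (1 / 10 : ℝ)) ^ 4 * (10 * V) := by
    have e : (σ ^ (1 / 10 : ℝ)) ^ 4 = σ ^ (2 / 5 : ℝ) := by
      rw [← Real.rpow_natCast, ← Real.rpow_mul hσ.le]
      norm_num
    rw [mul_pow, e]
    have : 0 < σ ^ (2 / 5 : ℝ) * V := mul_pos (Real.rpow_pos_of_pos hσ _) hV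
    nlinarith
  have wX := hX bb hbb R J hR.reg j e T g F X (10 * V) (64 * σ ^ (1 / 10 : ℝ)) (4 * σ ^ (-(2 / k + 1)))
    (σ ^ (-(2 / k))) σ (by positivity)
    (by have := Real.rpow_pos_of_pos hσ (1 / 10 : ℝ); positivity)
    (by
      have h1 : σ ^ (1 / 10 : ℝ) ≤ (1 / 2 ^ 60 : ℝ) ^ (1 / 10 : ℝ) :=
        Real.rpow_le_rpow hσ.le hσs (by norm_num)
      have h2 : (1 / 2 ^ 60 : ℝ) ^ (1 / 10 : ℝ) = 1 / 64 := by
        have : (1 / 2 ^ 60 : ℝ) = (1 / 64) ^ (10 : ℕ) := by norm_num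
        rw [this, ← Real.rpow_natCast, ← Real.rpow_mul (by norm_num)]
        norm_num
      rw [h2] at h1
      linarith)
    (by
      have := one_le_neg hσ hσ1 (show (0 : ℝ) ≤ 2 / k + 1 by positivity)
      linarith)
    (by
      have := one_le_neg hσ hσ1 (show (0 : ℝ) ≤ 2 / k by positivity)
      exact this) hσ hgf hgg (hn1.trans (by linarith)) (hn2.trans (by linarith)) hFa2
    (fun p hp => tall_energy hk hσ (hFa p hp)) hFb2
    (fun κ => s2w_mono (s2w_of_XR (M := V) (A := 1) (V := V) (σ := σ) (θ := σ ^ 3) (η := σ ^ 3)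
      s0 zero_le_one (by rw [mul_one]) hc0 hG1 hXR) (by nlinarith))
    (fun κ => s4w_mono (s4w_of_XR' (M := V) s0 s1 s2 hσ hσ1 (by positivity) le_rfl le_rfl hV.le
      le_rfl hge hc0 hG hXR) e25)
    (fun w z hz z' hz' hy => by
      have h1 := height_of_XR hXR hR.top (Hc := σ ^ (-(2 / k))) (fun x _ x' _ y _ => by
        calc ‖g e x x'‖ * ‖G y‖ ≤ 1 * σ ^ (-(2 / k)) :=
              mul_le_mul (hge x x') (hGh y) (norm_nonneg _) zero_le_one
          _ = _ := one_mul _) w hz hz' hy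
      refine h1.trans ?_
      have h2 : σ ^ (-(2 / k + 1)) = σ ^ (-(2 / k)) * (1 / σ) := by
        rw [show -(2 / k + 1) = -(2 / k) + (-1 : ℝ) by ring, Real.rpow_add hσ,
          Real.rpow_neg_one, one_div]
      have h3 : 1 ≤ σ ^ (-(2 / k)) := one_le_neg hσ hσ1 (by positivity)
      have h4 : 1 ≤ 1 / σ := by rw [le_div_iff₀ hσ]; linarith
      rw [h2]
      have e5 : 3 / σ = 3 * (1 / σ) := by ring
      rw [e5]
      nlinarith)
  have nE := num_E hσ hσ1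
  have nX := num_Xe hσ hσ1 hk
  rw [← hlJ] at wE wX
  have hl : 0 < len J := Growth.len_pos J
  have hk1 : (0 : ℝ) < 1 / k := by positivity
  have f1 : K1 * (3 * σ ^ (3 / 2 : ℝ) * (1 + Real.log (2 / σ / (3 * σ ^ (3 / 2 : ℝ)))) * len J * V) ≤
      153 * K1 * (1 + 1 / k) * σ ^ (1 / 20 : ℝ) * V * len J := by
    have h1 : K1 * (3 * σ ^ (3 / 2 : ℝ) * (1 + Real.log (2 / σ / (3 * σ ^ (3 / 2 : ℝ)))) * len J * V)
        ≤ K1 * (153 * σ ^ (1 / 20 : ℝ) * len J * V) := by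
      refine mul_le_mul_of_nonneg_left ?_ hK1
      exact mul_le_mul_of_nonneg_right (mul_le_mul_of_nonneg_right nE hl.le) hV.le
    refine h1.trans ?_
    have h2 : 0 ≤ K1 * (153 * σ ^ (1 / 20 : ℝ) * len J * V) * (1 / k) := by positivity
    calc _ ≤ K1 * (153 * σ ^ (1 / 20 : ℝ) * len J * V) +
          K1 * (153 * σ ^ (1 / 20 : ℝ) * len J * V) * (1 / k) := by linarith
      _ = _ := by ring
  have f2 : K2 * ((64 * σ ^ (1 / 10 : ℝ) *
      (1 + Real.log (σ ^ (-(2 / k)) / (64 * σ ^ (1 / 10 : ℝ)) ^ 2)) +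
      σ * (1 + Real.log (4 * σ ^ (-(2 / k + 1))))) * len J * (10 * V)) ≤
      51200 * K2 * (1 + 1 / k) * σ ^ (1 / 20 : ℝ) * V * len J := by
    have h1 : K2 * ((64 * σ ^ (1 / 10 : ℝ) *
      (1 + Real.log (σ ^ (-(2 / k)) / (64 * σ ^ (1 / 10 : ℝ)) ^ 2)) +
      σ * (1 + Real.log (4 * σ ^ (-(2 / k + 1))))) * len J * (10 * V)) ≤
      K2 * ((5120 * (1 + 1 / k) * σ ^ (1 / 20 : ℝ)) * len J * (10 * V)) := by
      refine mul_le_mul_of_nonneg_left ?_ hK2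
      exact mul_le_mul_of_nonneg_right (mul_le_mul_of_nonneg_right nX hl.le) (by positivity)
    refine h1.trans (le_of_eq ?_)
    ring
  calc _ ≤ _ := add_le_add (wE.trans f1) (wX.trans f2)
    _ = _ := by ring

end Crest.Agent.R079.CoEx255
end

-- ▼ part R079/LabE_255
section

/-! R079, Step II: labels of the main kernel for a GENERAL EDGE `e` (helper255; `PerT_530`, `Lab_530`
are the case `e = 0`).  Slots `a = j.succAbove e`, `b = j.succAbove (e+1)`, static slot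
`j.succAbove (e+2)`. -/

set_option autoImplicit false

namespace Crest.Agent.R079.LabEx255

open Finset Matrix Crest.Agent.R079.Grid Crest.Agent.R079.Glue Crest.Agent.R079.Tr230
  Crest.Agent.R079.LK990 Crest.Agent.R079.EWG990 Crest.Agent.R079.St2

/-- component -/
def pr (e : Fin 3) (s : ℤ × ℤ × ℤ) : ℤ := ![s.1, s.2.1, s.2.2] e

/-- the point with components `x` at `e`, `x'` at `e+1`, `0` at `e+2` -/
def pt (e : Fin 3) (x x' : ℤ) : ℤ × ℤ × ℤ := ![(x, x', 0), (0, x, x'), (x', 0, x)] e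

lemma e3 (e : Fin 3) : e = 0 ∨ e = 1 ∨ e = 2 := by fin_cases e <;> simp

lemma cfz_pt (j : Fin 4) (e : Fin 3) (x x' : ℤ) :
    cfz j (pt e x x') = cf j e * x + cf j (e + 1) * x' := by
  obtain rfl | rfl | rfl := e3 e
  · simp [pt, cfz]
  · simp [pt, cfz, show (1 : Fin 3) + 1 = 2 from rfl]
  · simp [pt, cfz, show (2 : Fin 3) + 1 = 0 from rfl]; ring

/-- label letter on the `z`-side (edges `e` and `e+2`) -/
noncomputable def al (e : Fin 3) (T : Fin 3 → Finset ℤ) (g : Fin 3 → ℤ → ℤ → ℂ) (u : ℤ → ℤ → ℂ)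
    (r : ℤ) (s : ℤ × ℤ × ℤ) (z : ℤ) : ℂ :=
  kT (T (e + 2)) (T e) (g (e + 2)) (pr (e + 2) s) (z + pr e s) *
    u (r - (s.1 + s.2.1 + s.2.2)) (z + pr e s)

/-- label letter on the `z'`-side (edges `e` and `e+1`) -/
noncomputable def be (e : Fin 3) (T : Fin 3 → Finset ℤ) (g : Fin 3 → ℤ → ℤ → ℂ) (v : ℤ → ℤ → ℂ)
    (r : ℤ) (s : ℤ × ℤ × ℤ) (z' : ℤ) : ℂ :=
  kT (T (e + 1)) (T (e + 2)) (g (e + 1)) (z' + pr (e + 1) s) (pr (e + 2) s) *
    v (r - (s.1 + s.2.1 + s.2.2)) (z' + pr (e + 1) s)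

/-- **LABELS OF THE MAIN KERNEL**, edge `e` -/
theorem main_labels (j : Fin 4) (e : Fin 3) (T : Fin 3 → Finset ℤ) (g : Fin 3 → ℤ → ℤ → ℂ) {n : ℕ}
    (u v : Fin n → ℤ → ℤ → ℂ) (d : Fin n → ℂ) (Z S : Finset (ℤ × ℤ × ℤ)) (hS : Sh j T Z ⊆ S)
    (hS0 : ∀ s ∈ S, cfz j s = 0) (r z z' : ℤ) (hz : pt e z z' ∈ Z) :
    Per j T (PhiW (upk g e (fun w x x' => ∑ l, d l * (u l w x * v l w x'))))
      (cf j e * z + cf j (e + 1) * z') (r + z + z') =
      ∑ s ∈ S, ∑ l, d l * (al e T g (u l) r s z * be e T g (v l) r s z') := by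
  rw [← cfz_pt, PerT530.per_translates j T _ Z S hS hS0 hz]
  refine Finset.sum_congr rfl fun s _ => ?_
  obtain rfl | rfl | rfl := e3 e
  · have ew : r + z + z' - (z + s.1) - (z' + s.2.1) - s.2.2 =
        r - (s.1 + s.2.1 + s.2.2) := by ring
    have q1 : (pt 0 z z').1 = z := rfl
    have q2 : (pt 0 z z').2.1 = z' := rfl
    have q3 : (pt 0 z z').2.2 = 0 := rfl
    rw [q1, q2, q3]
    simp only [zero_add]
    rw [ew]
    have p0 : pr 0 s = s.1 := rfl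
    have p1 : pr 1 s = s.2.1 := rfl
    have p2 : pr 2 s = s.2.2 := rfl
    by_cases h : z + s.1 ∈ T 0 ∧ z' + s.2.1 ∈ T 1 ∧ s.2.2 ∈ T 2
    · rw [if_pos h]
      have hP : PhiW (upk g 0 (fun w x x' => ∑ l, d l * (u l w x * v l w x')))
          (r - (s.1 + s.2.1 + s.2.2)) (z + s.1) (z' + s.2.1) s.2.2 =
          (∑ l, d l * (u l (r - (s.1 + s.2.1 + s.2.2)) (z + s.1) *
            v l (r - (s.1 + s.2.1 + s.2.2)) (z' + s.2.1))) *
            g 1 (z' + s.2.1) s.2.2 * g 2 s.2.2 (z + s.1) := by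
        unfold PhiW upk
        rw [if_pos rfl, if_neg (show ¬ ((1 : Fin 3) = 0) by decide),
          if_neg (show ¬ ((2 : Fin 3) = 0) by decide)]
      rw [hP, Finset.sum_mul, Finset.sum_mul]
      refine Finset.sum_congr rfl fun l _ => ?_
      unfold al be kT
      simp only [zero_add]
      rw [p0, p1, p2, if_pos ⟨h.2.2, h.1⟩, if_pos ⟨h.2.1, h.2.2⟩]
      ring
    · rw [if_neg h]
      symm
      refine Finset.sum_eq_zero fun l _ => ?_
      simp only [al, be, kT, zero_add]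
      rw [p0, p1, p2]
      by_cases h1 : s.2.2 ∈ T 2 ∧ z + s.1 ∈ T 0
      · have h2 : ¬ (z' + s.2.1 ∈ T 1 ∧ s.2.2 ∈ T 2) := fun hc => h ⟨h1.2, hc.1, hc.2⟩
        rw [if_neg h2]
        ring
      · rw [if_neg h1]
        ring
  · have ew : r + z + z' - s.1 - (z + s.2.1) - (z' + s.2.2) =
        r - (s.1 + s.2.1 + s.2.2) := by ring
    have q1 : (pt 1 z z').1 = 0 := rfl
    have q2 : (pt 1 z z').2.1 = z := rfl
    have q3 : (pt 1 z z').2.2 = z' := rfl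
    rw [q1, q2, q3]
    simp only [zero_add]
    rw [ew]
    have p0 : pr 0 s = s.1 := rfl
    have p1 : pr 1 s = s.2.1 := rfl
    have p2 : pr 2 s = s.2.2 := rfl
    have f1 : (1 : Fin 3) + 1 = 2 := rfl
    have f2 : (1 : Fin 3) + 2 = 0 := rfl
    by_cases h : s.1 ∈ T 0 ∧ z + s.2.1 ∈ T 1 ∧ z' + s.2.2 ∈ T 2
    · rw [if_pos h]
      have hP : PhiW (upk g 1 (fun w x x' => ∑ l, d l * (u l w x * v l w x')))
          (r - (s.1 + s.2.1 + s.2.2)) s.1 (z + s.2.1) (z' + s.2.2) =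
          g 0 s.1 (z + s.2.1) * (∑ l, d l * (u l (r - (s.1 + s.2.1 + s.2.2)) (z + s.2.1) *
            v l (r - (s.1 + s.2.1 + s.2.2)) (z' + s.2.2))) *
            g 2 (z' + s.2.2) s.1 := by
        unfold PhiW upk
        rw [if_pos rfl, if_neg (show ¬ ((0 : Fin 3) = 1) by decide),
          if_neg (show ¬ ((2 : Fin 3) = 1) by decide)]
      rw [hP, Finset.mul_sum, Finset.sum_mul]
      refine Finset.sum_congr rfl fun l _ => ?_
      unfold al be kT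
      rw [f1, f2, p0, p1, p2, if_pos ⟨h.1, h.2.1⟩, if_pos ⟨h.2.2, h.1⟩]
      ring
    · rw [if_neg h]
      symm
      refine Finset.sum_eq_zero fun l _ => ?_
      simp only [al, be, kT]
      rw [f1, f2, p0, p1, p2]
      by_cases h1 : s.1 ∈ T 0 ∧ z + s.2.1 ∈ T 1
      · have h2 : ¬ (z' + s.2.2 ∈ T 2 ∧ s.1 ∈ T 0) := fun hc => h ⟨h1.1, h1.2, hc.1⟩
        rw [if_neg h2]
        ring
      · rw [if_neg h1]
        ring
  · have ew : r + z + z' - (z' + s.1) - s.2.1 - (z + s.2.2) =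
        r - (s.1 + s.2.1 + s.2.2) := by ring
    have q1 : (pt 2 z z').1 = z' := rfl
    have q2 : (pt 2 z z').2.1 = 0 := rfl
    have q3 : (pt 2 z z').2.2 = z := rfl
    rw [q1, q2, q3]
    simp only [zero_add]
    rw [ew]
    have p0 : pr 0 s = s.1 := rfl
    have p1 : pr 1 s = s.2.1 := rfl
    have p2 : pr 2 s = s.2.2 := rfl
    have f1 : (2 : Fin 3) + 1 = 0 := rfl
    have f2 : (2 : Fin 3) + 2 = 1 := rfl
    by_cases h : z' + s.1 ∈ T 0 ∧ s.2.1 ∈ T 1 ∧ z + s.2.2 ∈ T 2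
    · rw [if_pos h]
      have hP : PhiW (upk g 2 (fun w x x' => ∑ l, d l * (u l w x * v l w x')))
          (r - (s.1 + s.2.1 + s.2.2)) (z' + s.1) s.2.1 (z + s.2.2) =
          g 0 (z' + s.1) s.2.1 * g 1 s.2.1 (z + s.2.2) *
            (∑ l, d l * (u l (r - (s.1 + s.2.1 + s.2.2)) (z + s.2.2) *
            v l (r - (s.1 + s.2.1 + s.2.2)) (z' + s.1))) := by
        unfold PhiW upk
        rw [if_pos rfl, if_neg (show ¬ ((0 : Fin 3) = 2) by decide),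
          if_neg (show ¬ ((1 : Fin 3) = 2) by decide)]
      rw [hP, Finset.mul_sum]
      refine Finset.sum_congr rfl fun l _ => ?_
      unfold al be kT
      rw [f1, f2, p0, p1, p2, if_pos ⟨h.2.1, h.2.2⟩, if_pos ⟨h.1, h.2.1⟩]
      ring
    · rw [if_neg h]
      symm
      refine Finset.sum_eq_zero fun l _ => ?_
      simp only [al, be, kT]
      rw [f1, f2, p0, p1, p2]
      by_cases h1 : s.2.1 ∈ T 1 ∧ z + s.2.2 ∈ T 2
      · have h2 : ¬ (z' + s.1 ∈ T 0 ∧ s.2.1 ∈ T 1) := fun hc => h ⟨hc.1, h1.1, h1.2⟩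
        rw [if_neg h2]
        ring
      · rw [if_neg h1]
        ring


/-- pointwise price of the translates, edge `e` -/
theorem priceE {j : Fin 4} (e : Fin 3) {S : Finset (ℤ × ℤ × ℤ)} (hS0 : ∀ s ∈ S, cfz j s = 0)
    (T T' : Finset ℤ) (a : ℤ → ℤ → ℂ) (r : ℕ) (hr : r ≠ 0) (z z' : ℤ) :
    ∑ s ∈ S, ‖kT T T' a (z + pr e s) (z' + pr (e + 1) s)‖ ^ r ≤
      ∑ x ∈ T, ∑ x' ∈ T', ‖a x x'‖ ^ r := by
  obtain rfl | rfl | rfl := e3 e
  · exact price01 hS0 T T' a r hr z z'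
  · exact price12 hS0 T T' a r hr z z'
  · exact price20 hS0 T T' a r hr z z'

lemma ee2 (e : Fin 3) : e + 2 + 1 = e := by revert e; decide

lemma ee1 (e : Fin 3) : e + 1 + 1 = e + 2 := by revert e; decide

/-- labels are square summable: `∑_τ |al|² ≤ ∑ |g (e+2)|²` when `|u| ≤ 1` -/
theorem sum_al_le {j : Fin 4} (e : Fin 3) (T : Fin 3 → Finset ℤ) (g : Fin 3 → ℤ → ℤ → ℂ)
    (u : ℤ → ℤ → ℂ) (hu : ∀ w z, ‖u w z‖ ≤ 1) (r : ℤ) {S : Finset (ℤ × ℤ × ℤ)}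
    (hS0 : ∀ s ∈ S, cfz j s = 0) (z : ℤ) :
    ∑ s ∈ S, ‖al e T g u r s z‖ ^ 2 ≤ ∑ x ∈ T (e + 2), ∑ x' ∈ T e, ‖g (e + 2) x x'‖ ^ 2 := by
  have h := priceE (j := j) (e + 2) hS0 (T (e + 2)) (T e) (g (e + 2)) 2 (by norm_num) 0 z
  rw [ee2] at h
  refine le_trans (Finset.sum_le_sum fun s _ => ?_) h
  unfold al
  rw [norm_mul, mul_pow, zero_add]
  exact mul_le_of_le_one_right (by positivity) (pow_le_one₀ (norm_nonneg _) (hu _ _))

theorem sum_be_le {j : Fin 4} (e : Fin 3) (T : Fin 3 → Finset ℤ) (g : Fin 3 → ℤ → ℤ → ℂ)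
    (v : ℤ → ℤ → ℂ) (hv : ∀ w z, ‖v w z‖ ≤ 1) (r : ℤ) {S : Finset (ℤ × ℤ × ℤ)}
    (hS0 : ∀ s ∈ S, cfz j s = 0) (z' : ℤ) :
    ∑ s ∈ S, ‖be e T g v r s z'‖ ^ 2 ≤
      ∑ x ∈ T (e + 1), ∑ x' ∈ T (e + 2), ‖g (e + 1) x x'‖ ^ 2 := by
  have h := priceE (j := j) (e + 1) hS0 (T (e + 1)) (T (e + 2)) (g (e + 1)) 2 (by norm_num) z' 0
  rw [ee1] at h
  refine le_trans (Finset.sum_le_sum fun s _ => ?_) h
  unfold be
  rw [norm_mul, mul_pow, zero_add]
  exact mul_le_of_le_one_right (by positivity) (pow_le_one₀ (norm_nonneg _) (hv _ _))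

section vec

variable (e : Fin 3) (T : Fin 3 → Finset ℤ) (g : Fin 3 → ℤ → ℤ → ℂ) {n : ℕ}
  (u v : Fin n → ℤ → ℤ → ℂ) (d : Fin n → ℂ) (S : Finset (ℤ × ℤ × ℤ)) (r : ℤ)

/-- label vector on the `z` side -/
noncomputable def wl (z : ℤ) (q : {s // s ∈ S} × Fin n) : ℂ :=
  star ((Real.sqrt ‖d q.2‖ : ℂ) * al e T g (u q.2) r q.1.1 z)

/-- label vector on the `z'` side -/
noncomputable def vl (z' : ℤ) (q : {s // s ∈ S} × Fin n) : ℂ :=
  ph (d q.2) * (Real.sqrt ‖d q.2‖ : ℂ) * be e T g (v q.2) r q.1.1 z'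

theorem lab_dot (z z' : ℤ) : star (wl e T g u d S r z) ⬝ᵥ vl e T g v d S r z' =
    ∑ s ∈ S, ∑ l, d l * (al e T g (u l) r s z * be e T g (v l) r s z') := by
  unfold dotProduct
  rw [Fintype.sum_prod_type, ← Finset.sum_coe_sort S]
  refine Finset.sum_congr rfl fun s _ => Finset.sum_congr rfl fun l _ => ?_
  simp only [Pi.star_apply, wl, vl, star_star]
  have h1 : (Real.sqrt ‖d l‖ : ℂ) * (Real.sqrt ‖d l‖ : ℂ) = (‖d l‖ : ℂ) := by
    rw [← Complex.ofReal_mul, Real.mul_self_sqrt (norm_nonneg _)]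
  have h2 := ph_mul (d l)
  calc _ = ((Real.sqrt ‖d l‖ : ℂ) * (Real.sqrt ‖d l‖ : ℂ)) * ph (d l) *
        (al e T g (u l) r s.1 z * be e T g (v l) r s.1 z') := by ring
    _ = _ := by rw [h1, h2]

theorem n2_wl {j : Fin 4} (hS0 : ∀ s ∈ S, cfz j s = 0) (hu : ∀ l w z, ‖u l w z‖ ≤ 1) (z : ℤ) :
    n2 (wl e T g u d S r z) ≤
      (∑ l, ‖d l‖) * ∑ x ∈ T (e + 2), ∑ x' ∈ T e, ‖g (e + 2) x x'‖ ^ 2 := by
  unfold n2
  rw [Fintype.sum_prod_type_right, Finset.sum_mul]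
  refine Finset.sum_le_sum fun l _ => ?_
  have he : ∑ s : {s // s ∈ S}, ‖wl e T g u d S r z (s, l)‖ ^ 2 =
      ‖d l‖ * ∑ s ∈ S, ‖al e T g (u l) r s z‖ ^ 2 := by
    rw [Finset.mul_sum, ← Finset.sum_coe_sort S]
    refine Finset.sum_congr rfl fun s _ => ?_
    simp only [wl]
    rw [norm_star, norm_mul, mul_pow, Complex.norm_real, Real.norm_of_nonneg (Real.sqrt_nonneg _),
      Real.sq_sqrt (norm_nonneg _)]
  rw [he]
  exact mul_le_mul_of_nonneg_left (sum_al_le e T g (u l) (hu l) r hS0 z) (norm_nonneg _)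

theorem n2_vl {j : Fin 4} (hS0 : ∀ s ∈ S, cfz j s = 0) (hv : ∀ l w z, ‖v l w z‖ ≤ 1) (z' : ℤ) :
    n2 (vl e T g v d S r z') ≤
      (∑ l, ‖d l‖) * ∑ x ∈ T (e + 1), ∑ x' ∈ T (e + 2), ‖g (e + 1) x x'‖ ^ 2 := by
  unfold n2
  rw [Fintype.sum_prod_type_right, Finset.sum_mul]
  refine Finset.sum_le_sum fun l _ => ?_
  have he : ∑ s : {s // s ∈ S}, ‖vl e T g v d S r z' (s, l)‖ ^ 2 =
      ‖d l‖ * ∑ s ∈ S, ‖be e T g (v l) r s z'‖ ^ 2 := by
    rw [Finset.mul_sum, ← Finset.sum_coe_sort S]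
    refine Finset.sum_congr rfl fun s _ => ?_
    simp only [vl]
    rw [norm_mul, norm_mul, norm_ph, one_mul, mul_pow, Complex.norm_real,
      Real.norm_of_nonneg (Real.sqrt_nonneg _), Real.sq_sqrt (norm_nonneg _)]
  rw [he]
  exact mul_le_mul_of_nonneg_left (sum_be_le e T g (v l) (hv l) r hS0 z') (norm_nonneg _)

end vec

end Crest.Agent.R079.LabEx255
end

-- ▼ part R079/MainE_255

/-! R079: the MAIN WORD of a static window for a GENERAL EDGE `e` (helper255; `MainW_259` is the case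
`e = 0`, `j.succAbove (e + 2) = 3`).  `j` = frozen slot, `a = j.succAbove e`, `b = j.succAbove (e+1)` line slots,
static letter in the slot `m = j.succAbove (e+2)`.  Labels carry `√κ`.

* `main_windows` : Gram windows of the labels inside given windows;
* `er0_eq`       : the comparison error of `wr_total` is the periodised kernel of `E + X`;
* `main_word`    : the main word on a window, from `Wr408.wr_total`.   helper259. -/

set_option autoImplicit false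
set_option linter.unusedVariables false

namespace Crest.Agent.R079.MainEx255

open Finset Matrix Crest.Agent.R079.Grid Crest.Agent.R079.Growth Crest.Agent.R079.QRed
  Crest.Agent.R079.Glue Crest.Agent.R079.Tr230 Crest.Agent.R079.LK990 Crest.Agent.R079.EWG990
  Crest.Agent.R079.LabEx255 Crest.Agent.R079.F2 Crest.Agent.R079.St2
  Crest.Agent.R079.LeafV71 Crest.Agent.R079.TWin Crest.Agent.R079.Ero526 Crest.Agent.R079.Cg408
  Crest.Agent.R079.LfK71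
open scoped ComplexOrder MatrixOrder

/-- the relevant points of the reduced plane (`y_a, y_b ∈ iv J`, residues `r < 3`) -/
noncomputable def Z0 (j : Fin 4) (e : Fin 3) (J : Nd) : Finset (ℤ × ℤ × ℤ) :=
  (range 3).biUnion fun r =>
    (Wb71.Xs ((sl j - sl (j.succAbove (e + 1))) * (r : ℤ)) (-dd (j.succAbove e) (j.succAbove (e + 1))) J ×ˢ
      Wb71.Xs ((sl j - sl (j.succAbove e)) * (r : ℤ)) (dd (j.succAbove e) (j.succAbove (e + 1))) J).image
      (fun q : ℤ × ℤ => pt e q.1 q.2)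

lemma dj_ne (j : Fin 4) (e : Fin 3) : dd (j.succAbove e) (j.succAbove (e + 1)) ≠ 0 := by
  revert j e; decide

lemma dj_le (j : Fin 4) (e : Fin 3) : (dd (j.succAbove e) (j.succAbove (e + 1))).natAbs ≤ 3 := by
  revert j e; decide

lemma dst_j (j : Fin 4) (e : Fin 3) :
    Dst j (j.succAbove (e + 2)) (j.succAbove e) (j.succAbove (e + 1)) := by
  revert j e; decide

lemma mem_Z0 (j : Fin 4) (e : Fin 3) {J : Nd} {r : ℕ} (hr : r < 3) {z z' : ℤ}
    (h1 : (sl j - sl (j.succAbove e)) * (r : ℤ) + dd (j.succAbove e) (j.succAbove (e + 1)) * z' ∈ iv J)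
    (h2 : (sl j - sl (j.succAbove (e + 1))) * (r : ℤ) + -dd (j.succAbove e) (j.succAbove (e + 1)) * z ∈ iv J) :
    pt e z z' ∈ Z0 j e J := by
  unfold Z0
  rw [Finset.mem_biUnion]
  refine ⟨r, Finset.mem_range.2 hr, Finset.mem_image.2 ⟨(z, z'), Finset.mem_product.2 ⟨?_, ?_⟩, rfl⟩⟩
  · exact (Wb71.mem_Xs (neg_ne_zero.2 (dj_ne j e))).2 h2
  · exact (Wb71.mem_Xs (dj_ne j e)).2 h1

section labels

variable (j : Fin 4) (e : Fin 3) (κ : ℝ) (T : Fin 3 → Finset ℤ) (g : Fin 3 → ℤ → ℤ → ℂ) {n : ℕ}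
  (u v : Fin n → ℤ → ℤ → ℂ) (d : Fin n → ℂ) (S : Finset (ℤ × ℤ × ℤ))

/-- label vector on the `z` side, with the factor `√κ` -/
noncomputable def wL (r : ℕ) (z : ℤ) : {s // s ∈ S} × Fin n → ℂ :=
  ((Real.sqrt κ : ℝ) : ℂ) • wl e T g u d S (r : ℤ) z

open Classical in
/-- label vector on the `z'` side as a function of the shadow `y_a`, with the factor `√κ` -/
noncomputable def vL (r : ℕ) (y : ℤ) : {s // s ∈ S} × Fin n → ℂ :=
  if dd (j.succAbove e) (j.succAbove (e + 1)) ∣ y - (sl j - sl (j.succAbove e)) * (r : ℤ) then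
    ((Real.sqrt κ : ℝ) : ℂ) • vl e T g v d S (r : ℤ)
      ((y - (sl j - sl (j.succAbove e)) * (r : ℤ)) / dd (j.succAbove e) (j.succAbove (e + 1))) else 0

lemma vL_at (r : ℕ) (z' : ℤ) :
    vL j e κ T g v d S r ((sl j - sl (j.succAbove e)) * (r : ℤ) +
      dd (j.succAbove e) (j.succAbove (e + 1)) * z') =
      ((Real.sqrt κ : ℝ) : ℂ) • vl e T g v d S (r : ℤ) z' := by
  unfold vL
  have e0 : (sl j - sl (j.succAbove e)) * (r : ℤ) + dd (j.succAbove e) (j.succAbove (e + 1)) * z' -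
      (sl j - sl (j.succAbove e)) * (r : ℤ) = dd (j.succAbove e) (j.succAbove (e + 1)) * z' := by ring
  rw [e0, if_pos (Dvd.intro _ rfl), Int.mul_ediv_cancel_left _ (dj_ne j e)]

lemma vL_supp (r : ℕ) (y : ℤ) (h : vL j e κ T g v d S r y ≠ 0) :
    ∃ z, y = (sl j - sl (j.succAbove e)) * (r : ℤ) + dd (j.succAbove e) (j.succAbove (e + 1)) * z := by
  unfold vL at h
  by_cases hd : dd (j.succAbove e) (j.succAbove (e + 1)) ∣ y - (sl j - sl (j.succAbove e)) * (r : ℤ)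
  · obtain ⟨z, hz⟩ := hd
    exact ⟨z, by linarith⟩
  · rw [if_neg hd] at h
    exact absurd rfl h

lemma n2_smul {ι : Type*} [Fintype ι] (c : ℝ) (hc : 0 ≤ c) (x : ι → ℂ) :
    n2 (((Real.sqrt c : ℝ) : ℂ) • x) = c * n2 x := by
  unfold n2
  rw [Finset.mul_sum]
  refine Finset.sum_congr rfl fun i _ => ?_
  rw [Pi.smul_apply, norm_smul, mul_pow, Complex.norm_real, Real.norm_of_nonneg (Real.sqrt_nonneg _),
    Real.sq_sqrt hc]

lemma n2_zero' {ι : Type*} [Fintype ι] : n2 (0 : ι → ℂ) = 0 := by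
  unfold n2; simp

variable {j e κ T g u v d S}

lemma n2_wL {M D : ℝ} (hκ : 0 ≤ κ) (hM : 0 ≤ M) (hS0 : ∀ s ∈ S, cfz j s = 0)
    (hu : ∀ l w z, ‖u l w z‖ ≤ 1) (hd : ∑ l, ‖d l‖ ≤ D)
    (hg : κ * ∑ x ∈ T (e + 2), ∑ x' ∈ T e, ‖g (e + 2) x x'‖ ^ 2 ≤ M) (r : ℕ) (z : ℤ) :
    n2 (wL e κ T g u d S r z) ≤ D * M := by
  unfold wL
  rw [n2_smul κ hκ]
  have h0 : 0 ≤ ∑ l, ‖d l‖ := Finset.sum_nonneg fun _ _ => norm_nonneg _
  calc κ * n2 (wl e T g u d S (r : ℤ) z)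
      ≤ κ * ((∑ l, ‖d l‖) * ∑ x ∈ T (e + 2), ∑ x' ∈ T e, ‖g (e + 2) x x'‖ ^ 2) :=
        mul_le_mul_of_nonneg_left (n2_wl e T g u d S (r : ℤ) hS0 hu z) hκ
    _ = (∑ l, ‖d l‖) * (κ * ∑ x ∈ T (e + 2), ∑ x' ∈ T e, ‖g (e + 2) x x'‖ ^ 2) := by ring
    _ ≤ D * M := mul_le_mul hd hg (mul_nonneg hκ (by positivity)) (h0.trans hd)

lemma n2_vL {M D : ℝ} (hκ : 0 ≤ κ) (hM : 0 ≤ M) (hS0 : ∀ s ∈ S, cfz j s = 0)
    (hv : ∀ l w z, ‖v l w z‖ ≤ 1) (hd : ∑ l, ‖d l‖ ≤ D)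
    (hg : κ * ∑ x ∈ T (e + 1), ∑ x' ∈ T (e + 2), ‖g (e + 1) x x'‖ ^ 2 ≤ M) (r : ℕ) (y : ℤ) :
    n2 (vL j e κ T g v d S r y) ≤ D * M := by
  have h0 : 0 ≤ ∑ l, ‖d l‖ := Finset.sum_nonneg fun _ _ => norm_nonneg _
  unfold vL
  split_ifs with h
  · rw [n2_smul κ hκ]
    calc _ ≤ κ * ((∑ l, ‖d l‖) * ∑ x ∈ T (e + 1), ∑ x' ∈ T (e + 2), ‖g (e + 1) x x'‖ ^ 2) :=
          mul_le_mul_of_nonneg_left (n2_vl e T g v d S (r : ℤ) hS0 hv _) hκ
      _ = (∑ l, ‖d l‖) * (κ * ∑ x ∈ T (e + 1), ∑ x' ∈ T (e + 2), ‖g (e + 1) x x'‖ ^ 2) := by ring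
      _ ≤ D * M := mul_le_mul hd hg (mul_nonneg hκ (by positivity)) (h0.trans hd)
  · rw [n2_zero']
    exact mul_nonneg (h0.trans hd) hM

/-- **the labels give the main kernel** -/
lemma lab_dot' (hκ : 0 ≤ κ) (r : ℕ) (z z' : ℤ) :
    star (wL e κ T g u d S r z) ⬝ᵥ vL j e κ T g v d S r ((sl j - sl (j.succAbove e)) * (r : ℤ) +
      dd (j.succAbove e) (j.succAbove (e + 1)) * z') =
      (κ : ℂ) * ∑ s ∈ S, ∑ l, d l * (al e T g (u l) (r : ℤ) s z * be e T g (v l) (r : ℤ) s z') := by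
  rw [vL_at, wL, star_smul, smul_dotProduct, dotProduct_smul, lab_dot]
  have h1 : (starRingEnd ℂ) ((Real.sqrt κ : ℝ) : ℂ) = ((Real.sqrt κ : ℝ) : ℂ) :=
    Complex.conj_ofReal _
  have h2 : ((Real.sqrt κ : ℝ) : ℂ) * ((Real.sqrt κ : ℝ) : ℂ) = (κ : ℂ) := by
    rw [← Complex.ofReal_mul, Real.mul_self_sqrt hκ]
  simp only [smul_eq_mul]
  rw [← mul_assoc, show star ((Real.sqrt κ : ℝ) : ℂ) = ((Real.sqrt κ : ℝ) : ℂ) from h1, h2]

end labels

/-! ### pointwise identities at a reduced point `(r, z, z')` -/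

/-- the point `(T, A)` of the reduced coordinates -/
lemma red_pts (j : Fin 4) (e : Fin 3) (r z z' : ℤ) :
    (sl j * r + sl (j.succAbove e) * z + sl (j.succAbove (e + 1)) * z') - sl j * (r + z + z') =
      cf j e * z + cf j (e + 1) * z' ∧
    (sl j * r + sl (j.succAbove e) * z + sl (j.succAbove (e + 1)) * z') -
        sl (j.succAbove e) * (r + z + z') =
      (sl j - sl (j.succAbove e)) * r + dd (j.succAbove e) (j.succAbove (e + 1)) * z' ∧
    (sl j * r + sl (j.succAbove e) * z + sl (j.succAbove (e + 1)) * z') -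
        sl (j.succAbove (e + 1)) * (r + z + z') =
      (sl j - sl (j.succAbove (e + 1))) * r + -dd (j.succAbove e) (j.succAbove (e + 1)) * z := by
  unfold cf dd
  refine ⟨?_, ?_, ?_⟩ <;> ring

/-- the main kernel at a reduced point -/
lemma main_at {j : Fin 4} {e : Fin 3} {κ : ℝ} (hκ : 0 ≤ κ) (T : Fin 3 → Finset ℤ) (g : Fin 3 → ℤ → ℤ → ℂ)
    {n : ℕ} (u v : Fin n → ℤ → ℤ → ℂ) (d : Fin n → ℂ) (J : Nd) {r : ℕ} (hr : r < 3) {z z' : ℤ}
    (h1 : (sl j - sl (j.succAbove e)) * (r : ℤ) + dd (j.succAbove e) (j.succAbove (e + 1)) * z' ∈ iv J)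
    (h2 : (sl j - sl (j.succAbove (e + 1))) * (r : ℤ) + -dd (j.succAbove e) (j.succAbove (e + 1)) * z ∈ iv J) :
    (κ : ℂ) * Per j T (PhiW (upk g e (fun w x x' => ∑ l, d l * (u l w x * v l w x'))))
      (cf j e * z + cf j (e + 1) * z') ((r : ℤ) + z + z') =
      star (wL e κ T g u d (Sh j T (Z0 j e J)) r z) ⬝ᵥ vL j e κ T g v d (Sh j T (Z0 j e J)) r
        ((sl j - sl (j.succAbove e)) * (r : ℤ) + dd (j.succAbove e) (j.succAbove (e + 1)) * z') := by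
  rw [lab_dot' hκ, main_labels j e T g u v d (Z0 j e J) (Sh j T (Z0 j e J)) (Finset.Subset.refl _)
    (fun s hs => Sh_plane hs) (r : ℤ) z z' (mem_Z0 j e hr h1 h2)]

/-- letters: `G` in the slot `m`, `1` elsewhere -/
noncomputable def oG (m : Fin 4) (G : ℤ → ℂ) : Fin 4 → ℤ → ℂ :=
  fun k => if k = m then G else fun _ => 1

/-- **the comparison error of `wr_total`** is the periodised kernel of `E` and `X` -/
theorem er0_eq {j : Fin 4} (e : Fin 3) {κ : ℝ} (hκ : 0 ≤ κ) (T : Fin 3 → Finset ℤ)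
    (g : Fin 3 → ℤ → ℤ → ℂ) {n : ℕ} (u v : Fin n → ℤ → ℤ → ℂ) (d : Fin n → ℂ)
    (E X : ℤ → ℤ → ℤ → ℂ) (P G : ℤ → ℂ) (J K : Nd)
    (hdec : ∀ w, ∀ z ∈ T e, ∀ z' ∈ T (e + 1), (sl j - sl (j.succAbove (e + 2))) * w + (sl (j.succAbove e) - sl (j.succAbove (e + 2))) * z +
        (sl (j.succAbove (e + 1)) - sl (j.succAbove (e + 2))) * z' ∈ iv K →
      g e z z' * G ((sl j - sl (j.succAbove (e + 2))) * w + (sl (j.succAbove e) - sl (j.succAbove (e + 2))) * z +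
        (sl (j.succAbove (e + 1)) - sl (j.succAbove (e + 2))) * z') =
        ∑ l, d l * (u l w z * v l w z') + E w z z' + X w z z')
    {r : ℕ} (hr : r < 3) {z z' : ℤ}
    (h1 : (sl j - sl (j.succAbove e)) * (r : ℤ) + dd (j.succAbove e) (j.succAbove (e + 1)) * z' ∈ iv J)
    (h2 : (sl j - sl (j.succAbove (e + 1))) * (r : ℤ) + -dd (j.succAbove e) (j.succAbove (e + 1)) * z ∈ iv J)
    (h3 : (sl j * (r : ℤ) + sl (j.succAbove e) * z + sl (j.succAbove (e + 1)) * z') -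
      sl (j.succAbove (e + 2)) * ((r : ℤ) + z + z') ∈ iv K)
    (hP : P (cf j e * z + cf j (e + 1) * z') = atom j κ T (g 0) (g 1) (g 2) (cf j e * z + cf j (e + 1) * z')) :
    Wb71.Er0 (K2 j j (j.succAbove (e + 2)) (j.succAbove e) (j.succAbove (e + 1)) P G (r : ℤ))
      (wL e κ T g u d (Sh j T (Z0 j e J)) r) (vL j e κ T g v d (Sh j T (Z0 j e J)) r)
      ((sl j - sl (j.succAbove e)) * (r : ℤ)) (dd (j.succAbove e) (j.succAbove (e + 1))) z z' =
      (κ : ℂ) * Per j T (PhiW (upk g e E)) (cf j e * z + cf j (e + 1) * z') ((r : ℤ) + z + z') +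
      (κ : ℂ) * Per j T (PhiW (upk g e X)) (cf j e * z + cf j (e + 1) * z') ((r : ℤ) + z + z') := by
  unfold Wb71.Er0 K2
  rw [(red_pts j e (r : ℤ) z z').1, hP, ← main_at hκ T g u v d J hr h1 h2]
  have hs := KP_split j e T g (oG (j.succAbove (e + 2)) G)
    (fun w x x' => ∑ l, d l * (u l w x * v l w x')) E X (iv K)
    (by
      intro w x hx x' hx' hy
      simp only [oG, if_true]
      exact hdec w x hx x' hx' hy)
    ((r : ℤ) + z + z') (sl j * (r : ℤ) + sl (j.succAbove e) * z + sl (j.succAbove (e + 1)) * z') h3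
  have hprod : ∀ s A : ℤ, ∏ e' : Fin 3, upF (oG (j.succAbove (e + 2)) G) (j.succAbove (e + 2))
      (j.succAbove e') (A - sl (j.succAbove e') * s) = 1 := by
    intro s A
    refine Finset.prod_eq_one fun e' _ => ?_
    unfold upF oG
    split_ifs <;> rfl
  have hprod2 : ∀ s A : ℤ, ∏ e' : Fin 3, oG (j.succAbove (e + 2)) G (j.succAbove e')
      (A - sl (j.succAbove e') * s) = G (A - sl (j.succAbove (e + 2)) * s) := by
    intro s A
    rw [Finset.prod_eq_single (e + 2)]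
    · simp only [oG, if_true]
    · intro e' _ he'
      have hne : j.succAbove e' ≠ j.succAbove (e + 2) :=
        fun h => he' (Fin.succAbove_right_injective h)
      simp only [oG, if_neg hne]
    · intro h; exact absurd (Finset.mem_univ _) h
  unfold KP at hs
  rw [hprod, hprod2, (red_pts j e (r : ℤ) z z').1] at hs
  simp only [mul_one] at hs
  have hat : atom j κ T (g 0) (g 1) (g 2) (cf j e * z + cf j (e + 1) * z') =
      (κ : ℂ) * Per j T (PhiW (fun e' _ => g e')) (cf j e * z + cf j (e + 1) * z')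
        ((r : ℤ) + z + z') := by
    unfold atom Per PhiW
    rfl
  rw [hat, mul_assoc, hs]
  ring

/-! ### windows -/

/-- closeness data of the labels on a window `V` -/
def LabOK {j : Fin 4} {e : Fin 3} {κ : ℝ} {T : Fin 3 → Finset ℤ} {g : Fin 3 → ℤ → ℤ → ℂ} {n : ℕ}
    (v : Fin n → ℤ → ℤ → ℂ) (d : Fin n → ℂ) (S : Finset (ℤ × ℤ × ℤ)) (V : Finset Nd) (θ : ℝ) :
    Prop :=
  ∀ r ∈ range 3, ∃ M : Matrix ({s // s ∈ S} × Fin n) ({s // s ∈ S} × Fin n) ℂ,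
    M.PosSemidef ∧ GrU V (vL j e κ T g v d S r) M θ ∧ GrL V (vL j e κ T g v d S r) M θ

/-- **S6 (A): GRAM WINDOWS** of the labels inside given windows -/
theorem main_windows {R : Finset Nd} {J : Nd} (hR : Full R J) (j : Fin 4) (e : Fin 3) {κ : ℝ} (hκ : 0 ≤ κ)
    (T : Fin 3 → Finset ℤ) (g : Fin 3 → ℤ → ℤ → ℂ) {M D : ℝ} (hM : 0 ≤ M)
    (hg1 : κ * ∑ x ∈ T (e + 1), ∑ x' ∈ T (e + 2), ‖g (e + 1) x x'‖ ^ 2 ≤ M)
    {S0 : Finset Nd} {V0 : Nd → Finset Nd} {C0 : ℝ} (h : Part R S0 V0 C0) (J0 : Nd)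
    (n : Nd → ℕ) (v : (K : Nd) → Fin (n K) → ℤ → ℤ → ℂ) (d : (K : Nd) → Fin (n K) → ℂ)
    (hv : ∀ K ∈ S0, ∀ l w z, ‖v K l w z‖ ≤ 1) (hd : ∀ K ∈ S0, ∑ l, ‖d K l‖ ≤ D)
    {θ : ℝ} (hθ : 0 < θ) :
    ∃ (S' : Finset Nd) (V' : Nd → Finset Nd),
      Part R S' V' ((1 + 3 * (2 + 40 * (D * M) ^ 2 / θ ^ 2)) * (1 + C0)) ∧
      ∀ K' ∈ S', ∃ K ∈ S0, K' ∈ V0 K ∧ V' K' ⊆ V0 K ∧
        LabOK (j := j) (e := e) (κ := κ) (T := T) (g := g) (v K) (d K) (Sh j T (Z0 j e J0)) (V' K') θ := by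
  classical
  have hg := Wc530.gram_inside (range 3) hR h
    (fun K => {s // s ∈ Sh j T (Z0 j e J0)} × Fin (n K))
    (fun K r => vL j e κ T g (v K) (d K) (Sh j T (Z0 j e J0)) r) (B := D * M) hθ
    (fun K hK r _ y => n2_vL hκ hM (fun s hs => Sh_plane hs) (hv K hK) (hd K hK) hg1 r y)
  obtain ⟨S', V', hP, hT⟩ := hg
  refine ⟨S', V', ?_, fun K' hK' => ?_⟩
  · rw [Finset.card_range] at hP
    push_cast at hP
    exact hP
  · obtain ⟨K, hK, h1, h2, h3⟩ := hT K' hK'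
    exact ⟨K, hK, h1, h2, h3⟩

/-- **S6 (B): THE MAIN WORD on a window** -/
theorem main_word {j : Fin 4} {e : Fin 3} {κ : ℝ} (hκ : 0 ≤ κ) (T : Fin 3 → Finset ℤ)
    (g : Fin 3 → ℤ → ℤ → ℂ) {M D : ℝ} (hM : 0 ≤ M) (hD0 : 0 ≤ D)
    (hg2 : κ * ∑ x ∈ T (e + 2), ∑ x' ∈ T e, ‖g (e + 2) x x'‖ ^ 2 ≤ M)
    {n : ℕ} (u v : Fin n → ℤ → ℤ → ℂ) (d : Fin n → ℂ) (hu : ∀ l w z, ‖u l w z‖ ≤ 1)
    (hd : ∑ l, ‖d l‖ ≤ D) (J0 : Nd) {W : Finset Nd} {J : Nd} (hW : Full W J) (hJ : iv J ⊆ iv J0)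
    {V : Finset Nd} (hWV : W ⊆ V) {θ : ℝ} (hθ : 0 < θ)
    (hlab : LabOK (j := j) (e := e) (κ := κ) (T := T) (g := g) v d (Sh j T (Z0 j e J0)) V θ)
    (F : Fin 4 → ℤ → ℂ)
    (hFa : ∀ p ∈ W, ∑ y ∈ iv p, ‖F (j.succAbove e) y‖ ^ 2 ≤ 1 * len p)
    (hFb : ∀ p ∈ W, ∑ y ∈ iv p, ‖F (j.succAbove (e + 1)) y‖ ^ 2 ≤ 1 * len p)
    {bb : ℤ} (hbb : bb = -1 ∨ bb = -7) (C : ℕ) (hC : 1 ≤ C) (P G : ℤ → ℂ) {k1 kE : ℝ}
    (hk1 : 0 ≤ k1) (hkE : 0 ≤ kE)
    (hleaf : ∀ r : ℕ, r < (dd (j.succAbove e) (j.succAbove (e + 1))).natAbs → ∀ k,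
      ∀ p ∈ Wa71.Pn W C ((sl j - sl (j.succAbove (e + 1))) * r) (-dd (j.succAbove e) (j.succAbove (e + 1))) k,
      Wb71.LK ((sl j - sl (j.succAbove (e + 1))) * r) (-dd (j.succAbove e) (j.succAbove (e + 1)))
        ((sl j - sl (j.succAbove e)) * r) (dd (j.succAbove e) (j.succAbove (e + 1)))
        (K2 j j (j.succAbove (e + 2)) (j.succAbove e) (j.succAbove (e + 1)) P G r)
        (Wb71.mk W C ((sl j - sl (j.succAbove (e + 1))) * r) (-dd (j.succAbove e) (j.succAbove (e + 1)))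
          (fun z => star (F (j.succAbove (e + 1)) ((sl j - sl (j.succAbove (e + 1))) * r +
            -dd (j.succAbove e) (j.succAbove (e + 1)) * z))) k) p ≤ k1 * len p)
    (herr : ∀ r : ℕ, r < (dd (j.succAbove e) (j.succAbove (e + 1))).natAbs → ∀ k,
      ∀ p ∈ Wa71.Pn W C ((sl j - sl (j.succAbove (e + 1))) * r) (-dd (j.succAbove e) (j.succAbove (e + 1))) k,
      Wb71.LK ((sl j - sl (j.succAbove (e + 1))) * r) (-dd (j.succAbove e) (j.succAbove (e + 1)))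
        ((sl j - sl (j.succAbove e)) * r) (dd (j.succAbove e) (j.succAbove (e + 1)))
        (Wb71.Er0 (K2 j j (j.succAbove (e + 2)) (j.succAbove e) (j.succAbove (e + 1)) P G r)
          (wL e κ T g u d (Sh j T (Z0 j e J0)) r) (vL j e κ T g v d (Sh j T (Z0 j e J0)) r)
          ((sl j - sl (j.succAbove e)) * r) (dd (j.succAbove e) (j.succAbove (e + 1))))
        (Wb71.mk W C ((sl j - sl (j.succAbove (e + 1))) * r) (-dd (j.succAbove e) (j.succAbove (e + 1)))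
          (fun z => star (F (j.succAbove (e + 1)) ((sl j - sl (j.succAbove (e + 1))) * r +
            -dd (j.succAbove e) (j.succAbove (e + 1)) * z))) k) p ≤ kE * len p)
    (X : Finset Nd) (hX : X ⊆ W) (hXb : ∀ p ∈ X, ¬ Bad W C p) :
    ∑ p ∈ X, ∑ x ∈ adm p.1 p.2, ‖LboxG (2 ^ p.1) bb (fun s A => (κ : ℂ) *
      KP j T (upk g e (fun w z z' => ∑ l, d l * (u l w z * v l w z'))) (upF F (j.succAbove (e + 2))) s A) x‖ ≤
      48 * (16 * (2 * (C + 2 + 1) + 1) + 1) * (2 * √(k1 + kE + θ * (D * M))) * len J := by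
  classical
  have hdl := dj_le j e
  have hsq : √(2 * k1 + 2 * kE + (θ + θ) * (D * M) * 1) * √((1 + θ / θ) * 1) =
      2 * √(k1 + kE + θ * (D * M)) := by
    rw [div_self hθ.ne', show 2 * k1 + 2 * kE + (θ + θ) * (D * M) * 1 =
      2 * (k1 + kE + θ * (D * M)) by ring, show ((1 : ℝ) + 1) * 1 = 2 by norm_num,
      Real.sqrt_mul (by norm_num), mul_right_comm, Real.mul_self_sqrt (by norm_num)]
  rw [← hsq]
  have hM' : ∀ r : ℕ, ∃ Mr : Matrix ({s // s ∈ Sh j T (Z0 j e J0)} × Fin n)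
      ({s // s ∈ Sh j T (Z0 j e J0)} × Fin n) ℂ, Mr.PosSemidef ∧
      (r < 3 → GrU V (vL j e κ T g v d (Sh j T (Z0 j e J0)) r) Mr θ ∧
        GrL V (vL j e κ T g v d (Sh j T (Z0 j e J0)) r) Mr θ) := by
    intro r
    by_cases hr : r < 3
    · obtain ⟨Mr, h1, h2, h3⟩ := hlab r (Finset.mem_range.2 hr)
      exact ⟨Mr, h1, fun _ => ⟨h2, h3⟩⟩
    · exact ⟨0, Matrix.PosSemidef.zero, fun h => absurd h hr⟩
  choose Mr hMr1 hMr2 using hM'
  refine Wr408.wr_total j (j.succAbove (e + 2)) (j.succAbove e) (j.succAbove (e + 1)) (dst_j j e) _ hbb hW C hC X hX hXb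
    (fun r => wL e κ T g u d (Sh j T (Z0 j e J0)) r) (fun r => vL j e κ T g v d (Sh j T (Z0 j e J0)) r) Mr
    hθ hθ.le (mul_nonneg hD0 hM) hMr1
    (fun r hr p hp => (hMr2 r (by omega)).1 p (hWV hp))
    (fun r hr p hp => (hMr2 r (by omega)).2 p (hWV hp))
    (fun r _ y hy => vL_supp j e κ T g v d _ r y hy)
    (fun r _ z _ => n2_wL hκ hM (fun s hs => Sh_plane hs) hu hd hg2 r z)
    (fun r z => star (F (j.succAbove (e + 1)) ((sl j - sl (j.succAbove (e + 1))) * r +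
            -dd (j.succAbove e) (j.succAbove (e + 1)) * z)))
    (fun r z => F (j.succAbove e) ((sl j - sl (j.succAbove e)) * r +
            dd (j.succAbove e) (j.succAbove (e + 1)) * z))
    (F (j.succAbove (e + 1))) (F (j.succAbove e)) (fun r z => by rw [norm_star]) (fun r z => le_rfl)
    1 1 k1 kE zero_le_one zero_le_one hk1 hkE hFa hFb ?_
    (fun r => K2 j j (j.succAbove (e + 2)) (j.succAbove e) (j.succAbove (e + 1)) P G r) hleaf herr
  intro r hr z z' h1 h2 h3 h4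
  have hr3 : r < 3 := by omega
  rw [← main_at hκ T g u v d J0 hr3 (hJ h1) (hJ h2)]
  unfold red KP
  beta_reduce
  obtain ⟨e1, e2, e3⟩ := red_pts j e (r : ℤ) z z'
  have hp3 : ∀ f : Fin 3 → ℂ, ∏ e' : Fin 3, f e' = f e * f (e + 1) * f (e + 2) := by
    intro f
    rw [Fin.prod_univ_three]
    obtain rfl | rfl | rfl := LabEx255.e3 e
    · rfl
    · show _ = f 1 * f 2 * f 0
      ring
    · show _ = f 2 * f 0 * f 1
      ring
  rw [e1, hp3, e2, e3, star_star]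
  have g0 : j.succAbove e ≠ j.succAbove (e + 2) := (dst_j j e).2.2.2.1.symm
  have g1 : j.succAbove (e + 1) ≠ j.succAbove (e + 2) := (dst_j j e).2.2.2.2.1.symm
  unfold upF
  rw [if_neg g0, if_neg g1, if_pos rfl]
  ring

end Crest.Agent.R079.MainEx255
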