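import Crest.Agent.R079.LiftW_429
import Crest.Agent.R079.XR_112
import Crest.Agent.R079.RuS1_256
import Crest.Agent.R079.KbS_259
import Crest.Agent.R079.HEs_702

-- ▼ part R079/Lift2_700
section

/-! R079, T5 leaf [S2], part 1 (helper700): `LiftW.lift_windows` with, at every node `p` of the window, the
residual `Y p = C - f p` of the OWN near-minimiser of `p`: level at `p`, MASK inequality (rows / columns),
and `X - Y p` small in `L²` and bounded. -/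

set_option autoImplicit false

namespace Crest.Agent.R079.Lift2700

open Finset Crest.Agent.R079.Grid Crest.Agent.R079.Growth Crest.Agent.R079.QRed
  Crest.Agent.R079.TWin Crest.Agent.R079.LiftW

/-- energies on the finer line -/
lemma energy_up (r : ℕ) (p : Nd) (F : Fn) :
    ∑ y ∈ iv p, ∑ k ∈ range (2 ^ r), ‖un r F y k‖ ^ 2 = 2 ^ r * len p * av (up r p) F ^ 2 := by
  have h3 := Growth.sum_av (up r p) F
  rw [sum_up, len_up] at h3
  rw [← h3]
  rfl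

open Classical in
/-- a mask -/
noncomputable def msk (χ : ℤ → ℕ → Prop) (ψ : ℤ → ℕ → ℂ) (y : ℤ) (k : ℕ) : ℂ :=
  if χ y k then 0 else ψ y k

open Classical in
/-- **STATIC WINDOWS OF A VECTOR-VALUED LETTER**, with the own-node data of all nodes. -/
theorem lift_windows2 {R : Finset Nd} {J : Nd} (hR : Full R J) (r : ℕ) (C : ℤ → ℕ → ℂ)
    (hC : ∀ p ∈ R, ∑ y ∈ iv p, ∑ k ∈ range (2 ^ r), ‖C y k‖ ^ 2 ≤ 2 ^ r * len p)
    (A : (ℤ → ℕ → ℂ) → Prop) (hconj : ∀ ψ, A ψ → A (fun y k => (starRingEnd ℂ) (ψ y k)))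
    (hbd : ∀ ψ, A ψ → ∀ y k, k < 2 ^ r → ‖ψ y k‖ ≤ 1)
    {σ δ η₁ : ℝ} (hσ : 0 < σ) (hδ : 0 < δ) (hη₁ : 0 < η₁) :
    ∃ (S : Finset Nd) (W : Nd → Finset Nd), Part R S W (2 + 16 / δ) ∧
      ∀ K ∈ S, ∃ (n : ℕ) (ψ : Fin n → ℤ → ℕ → ℂ) (c : Fin n → ℂ) (E X : ℤ → ℕ → ℂ)
        (Y : Nd → ℤ → ℕ → ℂ),
        (∀ j, A (ψ j)) ∧ ∑ j, ‖c j‖ ≤ 1 / σ ∧
        (∀ y ∈ iv K, ∀ k, k < 2 ^ r → C y k = ∑ j, c j * ψ j y k + E y k + X y k) ∧
        (∀ p ∈ W K, ∑ y ∈ iv p, ∑ k ∈ range (2 ^ r), ‖E y k‖ ^ 2 ≤ 9 * δ * (2 ^ r * len p)) ∧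
        (∀ p ∈ W K, ∀ φ, A φ →
          ‖∑ y ∈ iv p, ∑ k ∈ range (2 ^ r), X y k * φ y k‖ ≤ 2 * σ * (2 ^ r * len p)) ∧
        (∀ y ∈ iv K, ∀ k, k < 2 ^ r → ‖E y k‖ ≤ 2 / σ) ∧
        (∀ p ∈ W K, ∑ y ∈ iv p, ∑ k ∈ range (2 ^ r), ‖X y k - Y p y k‖ ^ 2
          ≤ 3 * δ * (2 ^ r * len p)) ∧
        (∀ p ∈ W K, ∀ y ∈ iv p, ∀ k, k < 2 ^ r → ‖X y k - Y p y k‖ ≤ 2 / σ) ∧
        (∀ p ∈ W K, ∀ φ, A φ →
          ‖∑ y ∈ iv p, ∑ k ∈ range (2 ^ r), Y p y k * φ y k‖ ≤ 2 * σ * (2 ^ r * len p)) ∧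
        (∀ p ∈ W K, ∀ y ∈ iv p, ∀ k, k < 2 ^ r → ‖C y k - Y p y k‖ ≤ 1 / σ) ∧
        (∀ p ∈ W K, ∀ χ : ℤ → ℕ → Prop, (∀ ψ, A ψ → A (msk χ ψ)) →
          ∑ y ∈ iv p, ∑ k ∈ range (2 ^ r), (if χ y k then ‖Y p y k‖ ^ 2 else 0) ≤
            ∑ y ∈ iv p, ∑ k ∈ range (2 ^ r), (if χ y k then ‖C y k‖ ^ 2 else 0) +
              η₁ * (2 ^ r * len p)) := by
  have h2r : (0 : ℝ) < 2 ^ r := by positivity
  -- the dictionary on the finer line
  let At : Nd → Fn → Prop := fun _ φ => ∃ ψ, A ψ ∧ φ = sc r ψ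
  have hkk : ∀ Y : ℤ, (Y % 2 ^ r).toNat < 2 ^ r := by
    intro Y
    have h2 : (0 : ℤ) < 2 ^ r := by positivity
    have h3 := Int.emod_lt_of_pos Y h2
    have h4 := Int.emod_nonneg Y h2.ne'
    zify
    rw [Int.toNat_of_nonneg h4]
    exact_mod_cast h3
  have hA : Dic At := by
    refine ⟨?_, ?_, ?_⟩
    · rintro p φ ⟨ψ, hψ, rfl⟩
      exact ⟨_, hconj ψ hψ, sc_conj r ψ⟩
    · rintro p φ ⟨ψ, hψ, rfl⟩ Y _
      exact hbd ψ hψ _ _ (hkk Y)
    · rintro p q φ _ h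
      exact h
  have hR' := full_up r hR
  -- normalisation
  have hG : ∀ q ∈ upR r R, av q (sc r C) ≤ 1 := by
    intro q hq
    obtain ⟨p, hp, rfl⟩ := exists_of_mem hq
    have h1 := Growth.sum_av (up r p) (sc r C)
    rw [sum_up, len_up] at h1
    have h3 : ∑ y ∈ iv p, ∑ k ∈ range (2 ^ r), ‖sc r C (y * 2 ^ r + (k : ℤ))‖ ^ 2
        = ∑ y ∈ iv p, ∑ k ∈ range (2 ^ r), ‖C y k‖ ^ 2 := by
      refine Finset.sum_congr rfl fun y _ => Finset.sum_congr rfl fun k hk => ?_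
      rw [sc_add r C y (Finset.mem_range.1 hk)]
    rw [h3] at h1
    have h4 := hC p hp
    have h5 : 0 < 2 ^ r * len p := mul_pos h2r (Growth.len_pos p)
    have h6 : av (up r p) (sc r C) ^ 2 ≤ 1 := by
      by_contra h
      push Not at h
      have : 2 ^ r * len p * 1 < 2 ^ r * len p * av (up r p) (sc r C) ^ 2 :=
        mul_lt_mul_of_pos_left h h5
      linarith
    exact abs_le_of_sq_le_sq' (by simpa using h6) zero_le_one |>.2
  -- parameters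
  set η : ℝ := min (min (min (1 / 2) (σ ^ 2)) (δ / (16 * (2 * (1 + (up r J).1))))) (η₁ / 2) with hη
  have hJ0 : (0 : ℝ) < 1 + (up r J).1 := by positivity
  have hη0 : 0 < η := by
    rw [hη]
    refine lt_min (lt_min (lt_min (by norm_num) (by positivity)) (by positivity)) (by positivity)
  have hη1 : η ≤ 1 / 2 := (min_le_left _ _).trans ((min_le_left _ _).trans (min_le_left _ _))
  have hη2 : η ≤ σ ^ 2 := (min_le_left _ _).trans ((min_le_left _ _).trans (min_le_right _ _))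
  have hη3 : η ≤ δ / (16 * (2 * (1 + (up r J).1))) := (min_le_left _ _).trans (min_le_right _ _)
  have hη6 : 2 * η ≤ η₁ := by
    have : η ≤ η₁ / 2 := min_le_right _ _
    linarith
  have hη4 : 16 * η * (2 * (1 + (up r J).1)) ≤ δ := by
    rw [le_div_iff₀ (by positivity)] at hη3
    linarith
  have hη5 : 16 * η ≤ δ := by
    have : 16 * η * 1 ≤ 16 * η * (2 * (1 + (up r J).1)) := by
      refine mul_le_mul_of_nonneg_left ?_ (by positivity)
      have : (0 : ℝ) ≤ (up r J).1 := by positivity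
      linarith
    linarith
  obtain ⟨f, t, hNM⟩ := exists_NM hA hσ hη0 (sc r C)
  obtain ⟨S, W, hP, hGd⟩ := exists_windows (ι := Fin 1) hR' (fun _ => At) (fun _ => hA)
    (fun _ => σ) η (fun _ => sc r C) (fun _ => f) (fun _ => t) (fun _ => hNM) (fun _ => hG) hη1 hδ (by
      simp only [Fintype.card_fin, Nat.cast_one, one_mul]
      linarith)
  have hP' : Part (upR r R) S W (2 + 16 / δ) := by
    simpa using hP
  refine ⟨dn r R S, fun K => dn r R (W (up r K)), part_dn hP', fun K hK => ?_⟩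
  have hKS : up r K ∈ S := (mem_dn hP'.sub).1 hK
  have hWs := hP'.wsub _ hKS
  have hWf := hP'.full _ hKS
  have hG' : ∀ p ∈ W (up r K), av p (sc r C) ≤ 1 := fun p hp => hG p (hWs hp)
  obtain ⟨n, φ, c, hφ, hf, hc⟩ := hNM.rep (up r K)
  choose ψ hψ hφψ using hφ
  have hgl1 : ∀ p ∈ W (up r K), ∀ y ∈ iv p, ‖gl (W (up r K)) f y‖ ≤ 1 / σ := fun p hp y hy =>
    norm_gl_le hNM hA hη1 hWf hG' (hWf.reg.1 p hp hy)
  have hfl1 : ∀ p ∈ W (up r K), ∀ y ∈ iv p, ‖f p y‖ ≤ 1 / σ := fun p hp y hy =>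
    (repD_bd hA (hNM.rep p) hy).trans (mass_le' hNM hη1 (hG' p hp))
  refine ⟨n, ψ, c, un r (fun Y => gl (W (up r K)) f Y - f (up r K) Y),
    un r (fun Y => sc r C Y - gl (W (up r K)) f Y),
    fun p => un r (fun Y => sc r C Y - f (up r p) Y), hψ, ?_, ?_, ?_, ?_, ?_, ?_, ?_, ?_, ?_, ?_⟩
  · exact hc.trans (mass_le' hNM hη1 (hG' _ hWf.top))
  · intro y hy k hk
    have h1 := hf (y * 2 ^ r + (k : ℤ)) (mem_up_of hy hk)
    have h3 : ∀ j, φ j (y * 2 ^ r + (k : ℤ)) = ψ j y k := by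
      intro j
      rw [hφψ j, sc_add r (ψ j) y hk]
    simp only [h3] at h1
    simp only [un]
    rw [← h1, sc_add r C y hk]
    ring
  · intro p hp
    have hp' := (mem_dn hWs).1 hp
    have h1 := av_E_le hA hNM hWf hδ hη5 (hGd _ hKS 0) hp'
    rw [energy_up]
    have h4 : av (up r p) (fun Y => gl (W (up r K)) f Y - f (up r K) Y) ^ 2 ≤ 9 * δ := by
      have h5 := pow_le_pow_left₀ (Growth.av_nonneg _ _) h1 2
      rw [mul_pow, Real.sq_sqrt hδ.le] at h5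
      linarith
    calc _ ≤ 2 ^ r * len p * (9 * δ) :=
          mul_le_mul_of_nonneg_left h4 (mul_pos h2r (Growth.len_pos p)).le
      _ = _ := by ring
  · intro p hp χ hχ
    have hp' := (mem_dn hWs).1 hp
    have h1 := lev_res hA hNM hWf _ hp' (sc r χ) ⟨χ, hχ, rfl⟩
    rw [sum_up, len_up] at h1
    have h3 : Real.sqrt η ≤ σ := by
      rw [← Real.sqrt_sq hσ.le]
      exact Real.sqrt_le_sqrt hη2
    have h4 : ∑ y ∈ iv p, ∑ k ∈ range (2 ^ r), (sc r C (y * 2 ^ r + (k : ℤ))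
          - gl (W (up r K)) f (y * 2 ^ r + (k : ℤ))) * sc r χ (y * 2 ^ r + (k : ℤ))
        = ∑ y ∈ iv p, ∑ k ∈ range (2 ^ r),
          un r (fun Y => sc r C Y - gl (W (up r K)) f Y) y k * χ y k := by
      refine Finset.sum_congr rfl fun y _ => Finset.sum_congr rfl fun k hk => ?_
      rw [sc_add r χ y (Finset.mem_range.1 hk)]
      rfl
    rw [h4] at h1
    refine h1.trans ?_
    refine mul_le_mul_of_nonneg_right (by linarith) (mul_pos h2r (Growth.len_pos p)).le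
  · intro y hy k hk
    have hY := mem_up_of (r := r) hy hk
    have h1 := hgl1 _ hWf.top _ hY
    have h3 := hfl1 _ hWf.top _ hY
    simp only [un]
    refine (norm_sub_le _ _).trans ?_
    calc _ ≤ 1 / σ + 1 / σ := add_le_add h1 h3
      _ = 2 / σ := by ring
  · intro p hp
    have hp' := (mem_dn hWs).1 hp
    have h1 := av_glue_le hA hNM hWf hp' (δ := δ) fun L hL hLp =>
      acc_le_of_Gd hA hNM hWf (hGd _ hKS 0) hp' (Qh249.mem_lf.1 hL).1 hLp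
    have e : ∑ y ∈ iv p, ∑ k ∈ range (2 ^ r),
        ‖un r (fun Y => sc r C Y - gl (W (up r K)) f Y) y k -
          un r (fun Y => sc r C Y - f (up r p) Y) y k‖ ^ 2 =
        ∑ y ∈ iv p, ∑ k ∈ range (2 ^ r),
          ‖un r (fun Y => f (up r p) Y - gl (W (up r K)) f Y) y k‖ ^ 2 := by
      refine Finset.sum_congr rfl fun y _ => Finset.sum_congr rfl fun k _ => ?_
      simp only [un]
      congr 2
      ring
    rw [e, energy_up]
    have h4 : av (up r p) (fun Y => f (up r p) Y - gl (W (up r K)) f Y) ^ 2 ≤ 3 * δ := by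
      linarith
    calc _ ≤ 2 ^ r * len p * (3 * δ) :=
          mul_le_mul_of_nonneg_left h4 (mul_pos h2r (Growth.len_pos p)).le
      _ = _ := by ring
  · intro p hp y hy k hk
    have hp' := (mem_dn hWs).1 hp
    have hY := mem_up_of (r := r) hy hk
    have h1 := hgl1 _ hp' _ hY
    have h3 := hfl1 _ hp' _ hY
    simp only [un]
    have e : sc r C (y * 2 ^ r + (k : ℤ)) - gl (W (up r K)) f (y * 2 ^ r + (k : ℤ)) -
        (sc r C (y * 2 ^ r + (k : ℤ)) - f (up r p) (y * 2 ^ r + (k : ℤ))) =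
        f (up r p) (y * 2 ^ r + (k : ℤ)) - gl (W (up r K)) f (y * 2 ^ r + (k : ℤ)) := by ring
    rw [e]
    refine (norm_sub_le _ _).trans ?_
    calc _ ≤ 1 / σ + 1 / σ := add_le_add h3 h1
      _ = 2 / σ := by ring
  · intro p hp χ hχ
    have h1 := hNM.lev (up r p) (sc r χ) ⟨χ, hχ, rfl⟩
    rw [sum_up, len_up] at h1
    have h3 : Real.sqrt η ≤ σ := by
      rw [← Real.sqrt_sq hσ.le]
      exact Real.sqrt_le_sqrt hη2
    have h4 : ∑ y ∈ iv p, ∑ k ∈ range (2 ^ r), (sc r C (y * 2 ^ r + (k : ℤ))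
          - f (up r p) (y * 2 ^ r + (k : ℤ))) * sc r χ (y * 2 ^ r + (k : ℤ))
        = ∑ y ∈ iv p, ∑ k ∈ range (2 ^ r),
          un r (fun Y => sc r C Y - f (up r p) Y) y k * χ y k := by
      refine Finset.sum_congr rfl fun y _ => Finset.sum_congr rfl fun k hk => ?_
      rw [sc_add r χ y (Finset.mem_range.1 hk)]
      rfl
    rw [h4] at h1
    refine h1.trans ?_
    refine mul_le_mul_of_nonneg_right (by linarith) (mul_pos h2r (Growth.len_pos p)).le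
  · intro p hp y hy k hk
    have hp' := (mem_dn hWs).1 hp
    have h3 := hfl1 _ hp' _ (mem_up_of (r := r) hy hk)
    simp only [un]
    rw [sc_add r C y hk]
    have e : C y k - (C y k - f (up r p) (y * 2 ^ r + (k : ℤ))) =
        f (up r p) (y * 2 ^ r + (k : ℤ)) := by ring
    rw [e]
    exact h3
  · intro p hp χ hχ
    have hp' := (mem_dn hWs).1 hp
    -- the masked competitor
    set g : Fn := fun Y => if χ (Y / 2 ^ r) (Y % 2 ^ r).toNat then 0 else f (up r p) Y with hg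
    have hrep : RepD At (up r p) g (t (up r p)) := by
      obtain ⟨n', φ', c', hφ', hf', hc'⟩ := hNM.rep (up r p)
      choose ψ' hψ' hφψ' using hφ'
      refine ⟨n', fun i => sc r (msk χ (ψ' i)), c', fun i => ⟨_, hχ _ (hψ' i), rfl⟩, ?_, hc'⟩
      intro Y hY
      simp only [hg]
      by_cases h : χ (Y / 2 ^ r) (Y % 2 ^ r).toNat
      · rw [if_pos h]
        symm
        refine Finset.sum_eq_zero fun i _ => ?_
        simp only [sc, msk]
        rw [if_pos h, mul_zero]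
      · rw [if_neg h, hf' Y hY]
        refine Finset.sum_congr rfl fun i _ => ?_
        rw [hφψ' i]
        simp only [sc, msk]
        rw [if_neg h]
    have h1 := hNM.cvx (up r p) g (t (up r p)) hrep
    unfold Ph at h1
    have h0 : 0 ≤ (1 / 2 : ℝ) * av (up r p) (fun y => g y - f (up r p) y) ^ 2 := by positivity
    have h2 : av (up r p) (fun Y => sc r C Y - f (up r p) Y) ^ 2 ≤
        av (up r p) (fun Y => sc r C Y - g Y) ^ 2 + 2 * η := by linarith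
    have hl : 0 < 2 ^ r * len p := mul_pos h2r (Growth.len_pos p)
    have h3 := mul_le_mul_of_nonneg_left h2 hl.le
    rw [mul_add, ← energy_up, ← energy_up] at h3
    have h5 : ∀ y ∈ iv p, ∀ k ∈ range (2 ^ r),
        ‖un r (fun Y => sc r C Y - f (up r p) Y) y k‖ ^ 2 =
        (if χ y k then ‖un r (fun Y => sc r C Y - f (up r p) Y) y k‖ ^ 2 else 0) +
        (if χ y k then 0 else ‖un r (fun Y => sc r C Y - f (up r p) Y) y k‖ ^ 2) := by
      intro y _ k _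
      split_ifs <;> simp
    have h6 : ∀ y ∈ iv p, ∀ k ∈ range (2 ^ r),
        ‖un r (fun Y => sc r C Y - g Y) y k‖ ^ 2 =
        (if χ y k then ‖C y k‖ ^ 2 else 0) +
        (if χ y k then 0 else ‖un r (fun Y => sc r C Y - f (up r p) Y) y k‖ ^ 2) := by
      intro y _ k hk
      have hk' := Finset.mem_range.1 hk
      have e1 : g (y * 2 ^ r + (k : ℤ)) = if χ y k then 0 else f (up r p) (y * 2 ^ r + (k : ℤ)) := by
        simp only [hg]
        rw [div_add r y hk', mod_add r y hk', Int.toNat_natCast]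
      simp only [un]
      rw [e1, sc_add r C y hk']
      split_ifs <;> simp
    rw [Finset.sum_congr rfl fun y hy => Finset.sum_congr rfl fun k hk => h5 y hy k hk,
      Finset.sum_congr rfl fun y hy => Finset.sum_congr rfl fun k hk => h6 y hy k hk] at h3
    simp only [Finset.sum_add_distrib] at h3
    have h7 : 2 ^ r * len p * (2 * η) ≤ η₁ * (2 ^ r * len p) := by
      calc 2 ^ r * len p * (2 * η) ≤ 2 ^ r * len p * η₁ := mul_le_mul_of_nonneg_left hη6 hl.le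
        _ = _ := by ring
    linarith

end Crest.Agent.R079.Lift2700
end

-- ▼ part R079/Plug2_700
section

/-! R079, T5 leaf [S2], part 2 (helper700): proof of `XR112.Plug2` (literal of helper112). -/

set_option autoImplicit false
set_option linter.unusedVariables false

namespace Crest.Agent.R079.Plug2700

open Finset Crest.Agent.R079.Grid Crest.Agent.R079.Growth Crest.Agent.R079.QRed
  Crest.Agent.R079.TWin Crest.Agent.R079.R244 Crest.Agent.R079.F24 Crest.Agent.R079.Plug429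
  Crest.Agent.R079.XR112 Crest.Agent.R079.LiftW Crest.Agent.R079.Lift2700

lemma res_one {p : Nd} {y : ℤ} (h : y ∈ iv p) : res p (fun _ => (1 : ℂ)) y = 1 := by
  unfold res
  have h' : y ∈ dI (p.1 + 7) p.2 := h
  rw [if_pos h']

lemma res_zero {p : Nd} {y : ℤ} (h : y ∉ iv p) : res p (fun _ => (1 : ℂ)) y = 0 := by
  unfold res
  have h' : ¬ y ∈ dI (p.1 + 7) p.2 := h
  rw [if_neg h']

/-- value of `at'` -/
lemma at_in {α γ δ : ℤ} {T T' : Finset ℤ} (C : ℤ → ℤ → ℤ → ℂ) {p : Nd} {w z z' : ℤ}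
    (hz : z ∈ T) (hz' : z' ∈ T') (hy : α * w + γ * z + δ * z' ∈ iv p) :
    at' α γ δ T T' C p w z z' = C w z z' := by
  unfold at' cK
  rw [if_pos ⟨hz, hz'⟩, res_one hy, mul_one]

lemma at_out {α γ δ : ℤ} {T T' : Finset ℤ} (C : ℤ → ℤ → ℤ → ℂ) {p : Nd} {w z z' : ℤ}
    (h : ¬ (z ∈ T ∧ z' ∈ T' ∧ α * w + γ * z + δ * z' ∈ iv p)) :
    at' α γ δ T T' C p w z z' = 0 := by
  unfold at' cK
  by_cases h1 : z ∈ T ∧ z' ∈ T'
  · rw [if_pos h1, res_zero (fun h2 => h ⟨h1.1, h1.2, h2⟩), mul_zero]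
  · rw [if_neg h1]

lemma at_sup {α γ δ : ℤ} {T T' : Finset ℤ} {C : ℤ → ℤ → ℤ → ℂ} {p : Nd} {w z z' : ℤ}
    (h : at' α γ δ T T' C p w z z' ≠ 0) : z ∈ T ∧ z' ∈ T' ∧ α * w + γ * z + δ * z' ∈ iv p := by
  by_contra h'
  exact h (at_out C h')

/-- mask of a finite family of points of the lifted line -/
def MkQ {ι : Type*} (Q : Finset ι) (Yv : ι → ℤ) (Kv : ι → ℕ) (y : ℤ) (k : ℕ) : Prop :=
  ∃ i ∈ Q, Yv i = y ∧ Kv i = k

open Classical in
/-- sums over a mask -/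
lemma sum_mask {ι : Type*} (Q : Finset ι) (Yv : ι → ℤ) (Kv : ι → ℕ) (r : ℕ) (I : Finset ℤ)
    (hinj : Set.InjOn (fun i => (Yv i, Kv i)) (Q : Set ι)) (hk : ∀ i ∈ Q, Kv i < 2 ^ r)
    (g : ℤ → ℕ → ℝ) :
    ∑ y ∈ I, ∑ k ∈ range (2 ^ r), (if MkQ Q Yv Kv y k then g y k else 0) =
      ∑ i ∈ Q, if Yv i ∈ I then g (Yv i) (Kv i) else 0 := by
  rw [← Finset.sum_product', ← Finset.sum_filter, ← Finset.sum_filter]
  symm
  refine Finset.sum_bij (fun i _ => (Yv i, Kv i)) ?_ ?_ ?_ ?_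
  · intro i hi
    rw [Finset.mem_filter] at hi ⊢
    refine ⟨Finset.mem_product.2 ⟨hi.2, Finset.mem_range.2 (hk i hi.1)⟩, i, hi.1, rfl, rfl⟩
  · intro i hi i' hi' h
    rw [Finset.mem_filter] at hi hi'
    exact hinj hi.1 hi'.1 h
  · rintro ⟨y, k⟩ h
    rw [Finset.mem_filter] at h
    obtain ⟨h1, i, hi, hy, hk'⟩ := h
    refine ⟨i, ?_, ?_⟩
    · rw [Finset.mem_filter]
      refine ⟨hi, ?_⟩
      have h2 := (Finset.mem_product.1 h1).1
      simp only at h2 hy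
      rw [hy]
      exact h2
    · simp only at hy hk'
      rw [hy, hk']
  · intro i _
    rfl

section
variable {T T' : Finset ℤ} {enc : ℤ × ℤ → ℕ} {α γ δ : ℤ}


/-- total energy of a letter that comes back from the lifted line -/
lemma tot_Bk (hinj : Set.InjOn enc (T ×ˢ T' : Finset (ℤ × ℤ))) (hα : α ≠ 0)
    (r : ℕ) (henc : ∀ q ∈ T ×ˢ T', enc q < 2 ^ r) {lam : ℝ} (hlam : 0 < lam)
    (G : ℤ → ℕ → ℂ) (p : Nd) (S : Finset (ℤ × ℤ × ℤ)) :
    ∑ t ∈ S, ‖at' α γ δ T T' (Bk (T ×ˢ T') enc α γ δ lam G) p t.1 t.2.1 t.2.2‖ ^ 2 ≤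
      lam⁻¹ ^ 2 * ∑ y ∈ iv p, ∑ k ∈ range (2 ^ r), ‖G y k‖ ^ 2 := by
  classical
  set Y : ℤ × ℤ × ℤ → ℤ × ℕ := fun t => (α * t.1 + γ * t.2.1 + δ * t.2.2, enc (t.2.1, t.2.2)) with hY
  set S' := S.filter (fun t => (t.2.1 ∈ T ∧ t.2.2 ∈ T') ∧ α * t.1 + γ * t.2.1 + δ * t.2.2 ∈ iv p)
    with hS'
  have h1 : ∑ t ∈ S, ‖at' α γ δ T T' (Bk (T ×ˢ T') enc α γ δ lam G) p t.1 t.2.1 t.2.2‖ ^ 2 =
      ∑ t ∈ S', lam⁻¹ ^ 2 * ‖G (Y t).1 (Y t).2‖ ^ 2 := by
    rw [hS', Finset.sum_filter]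
    refine Finset.sum_congr rfl fun t _ => ?_
    by_cases h2 : (t.2.1 ∈ T ∧ t.2.2 ∈ T') ∧ α * t.1 + γ * t.2.1 + δ * t.2.2 ∈ iv p
    · rw [if_pos h2, at_in _ h2.1.1 h2.1.2 h2.2]
      unfold Bk
      rw [norm_mul, norm_inv, Complex.norm_real, Real.norm_of_nonneg hlam.le, mul_pow]
    · rw [if_neg h2, at_out _ (fun h => h2 ⟨⟨h.1, h.2.1⟩, h.2.2⟩)]
      simp
  have hYinj : Set.InjOn Y S' := by
    rintro ⟨w, z, z'⟩ ht ⟨w₁, z₁, z₁'⟩ ht₁ h
    rw [Finset.mem_coe, hS', Finset.mem_filter] at ht ht₁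
    simp only [hY, Prod.mk.injEq] at h
    have h2 : ((z, z') : ℤ × ℤ) = (z₁, z₁') := by
      refine hinj ?_ ?_ h.2
      · exact Finset.mem_coe.2 (Finset.mem_product.2 ht.2.1)
      · exact Finset.mem_coe.2 (Finset.mem_product.2 ht₁.2.1)
    simp only [Prod.mk.injEq] at h2
    obtain ⟨rfl, rfl⟩ := h2
    have h4 : α * w = α * w₁ := by linarith [h.1]
    have h5 := mul_left_cancel₀ hα h4
    subst h5
    rfl
  rw [h1]
  have e := Finset.sum_image (f := fun x : ℤ × ℕ => lam⁻¹ ^ 2 * ‖G x.1 x.2‖ ^ 2) hYinj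
  rw [← e]
  have e3 : lam⁻¹ ^ 2 * ∑ y ∈ iv p, ∑ k ∈ range (2 ^ r), ‖G y k‖ ^ 2 =
      ∑ x ∈ iv p ×ˢ range (2 ^ r), lam⁻¹ ^ 2 * ‖G x.1 x.2‖ ^ 2 := by
    rw [Finset.sum_product, Finset.mul_sum]
    exact Finset.sum_congr rfl fun y _ => Finset.mul_sum _ _ _
  rw [e3]
  refine Finset.sum_le_sum_of_subset_of_nonneg ?_ (fun _ _ _ => by positivity)
  intro x hx
  obtain ⟨t, ht, rfl⟩ := Finset.mem_image.1 hx
  rw [hS', Finset.mem_filter] at ht
  refine Finset.mem_product.2 ⟨ht.2.2, Finset.mem_range.2 (henc _ ?_)⟩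
  exact Finset.mem_product.2 ht.2.1

open Classical in
/-- masked tests, rows -/
lemma msk_rows (hinj : Set.InjOn enc (T ×ˢ T' : Finset (ℤ × ℤ))) (hα : α ≠ 0)
    (S : Finset (ℤ × ℤ)) {ψ : ℤ → ℕ → ℂ} (hψ : Tst (T ×ˢ T') enc α γ δ ψ) :
    Tst (T ×ˢ T') enc α γ δ (msk (MkQ ((S ×ˢ T').filter (fun x => x.1.2 ∈ T))
      (fun x => α * x.1.1 + γ * x.1.2 + δ * x.2) (fun x => enc (x.1.2, x.2))) ψ) := by
  obtain ⟨u, v, hu, hv, rfl⟩ := hψ
  refine ⟨fun w z => if (w, z) ∈ S then 0 else u w z, v, fun w z => ?_, hv, ?_⟩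
  · show ‖(if (w, z) ∈ S then (0 : ℂ) else u w z)‖ ≤ 1
    split_ifs
    · simp
    · exact hu w z
  · funext y k
    unfold msk
    by_cases h : ∃ q ∈ T ×ˢ T', enc q = k
    · obtain ⟨⟨z, z'⟩, hq, rfl⟩ := h
      have hq' := Finset.mem_product.1 hq
      rw [Lf_code hinj y hq, Lf_code hinj y hq]
      simp only
      by_cases hd : α ∣ y - γ * z - δ * z'
      · rw [if_pos hd, if_pos hd]
        obtain ⟨w, hw⟩ := hd
        have hw' : (y - γ * z - δ * z') / α = w := by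
          rw [hw, Int.mul_ediv_cancel_left _ hα]
        rw [hw']
        by_cases hS : (w, z) ∈ S
        · rw [if_pos hS, zero_mul, if_pos]
          refine ⟨((w, z), z'), ?_, ?_, rfl⟩
          · rw [Finset.mem_filter]
            exact ⟨Finset.mem_product.2 ⟨hS, hq'.2⟩, hq'.1⟩
          · show α * w + γ * z + δ * z' = y
            linarith
        · rw [if_neg hS, if_neg]
          rintro ⟨⟨⟨w₁, z₁⟩, z₁'⟩, hx, h1, h2⟩
          rw [Finset.mem_filter] at hx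
          have hx' := Finset.mem_product.1 hx.1
          simp only at hx hx' h1 h2
          have h3 := hinj (Finset.mem_coe.2 (Finset.mem_product.2 ⟨hx.2, hx'.2⟩))
            (Finset.mem_coe.2 hq) h2
          simp only [Prod.mk.injEq] at h3
          obtain ⟨rfl, rfl⟩ := h3
          have h4 : α * w = α * w₁ := by linarith
          have h5 := mul_left_cancel₀ hα h4
          subst h5
          exact hS hx'.1
      · rw [if_neg hd, if_neg hd]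
        split_ifs <;> rfl
    · rw [Lf_zero y k (fun q hq hk => h ⟨q, hq, hk⟩), Lf_zero y k (fun q hq hk => h ⟨q, hq, hk⟩)]
      split_ifs <;> rfl

open Classical in
/-- masked tests, columns -/
lemma msk_cols (hinj : Set.InjOn enc (T ×ˢ T' : Finset (ℤ × ℤ))) (hα : α ≠ 0)
    (S : Finset (ℤ × ℤ)) {ψ : ℤ → ℕ → ℂ} (hψ : Tst (T ×ˢ T') enc α γ δ ψ) :
    Tst (T ×ˢ T') enc α γ δ (msk (MkQ ((S ×ˢ T).filter (fun x => x.1.2 ∈ T'))
      (fun x => α * x.1.1 + γ * x.2 + δ * x.1.2) (fun x => enc (x.2, x.1.2))) ψ) := by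
  obtain ⟨u, v, hu, hv, rfl⟩ := hψ
  refine ⟨u, fun w z => if (w, z) ∈ S then 0 else v w z, hu, fun w z => ?_, ?_⟩
  · show ‖(if (w, z) ∈ S then (0 : ℂ) else v w z)‖ ≤ 1
    split_ifs
    · simp
    · exact hv w z
  · funext y k
    unfold msk
    by_cases h : ∃ q ∈ T ×ˢ T', enc q = k
    · obtain ⟨⟨z, z'⟩, hq, rfl⟩ := h
      have hq' := Finset.mem_product.1 hq
      rw [Lf_code hinj y hq, Lf_code hinj y hq]
      simp only
      by_cases hd : α ∣ y - γ * z - δ * z'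
      · rw [if_pos hd, if_pos hd]
        obtain ⟨w, hw⟩ := hd
        have hw' : (y - γ * z - δ * z') / α = w := by
          rw [hw, Int.mul_ediv_cancel_left _ hα]
        rw [hw']
        by_cases hS : (w, z') ∈ S
        · rw [if_pos hS, mul_zero, if_pos]
          refine ⟨((w, z'), z), ?_, ?_, rfl⟩
          · rw [Finset.mem_filter]
            exact ⟨Finset.mem_product.2 ⟨hS, hq'.1⟩, hq'.2⟩
          · show α * w + γ * z + δ * z' = y
            linarith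
        · rw [if_neg hS, if_neg]
          rintro ⟨⟨⟨w₁, z₁'⟩, z₁⟩, hx, h1, h2⟩
          rw [Finset.mem_filter] at hx
          have hx' := Finset.mem_product.1 hx.1
          simp only at hx hx' h1 h2
          have h3 := hinj (Finset.mem_coe.2 (Finset.mem_product.2 ⟨hx'.2, hx.2⟩))
            (Finset.mem_coe.2 hq) h2
          simp only [Prod.mk.injEq] at h3
          obtain ⟨rfl, rfl⟩ := h3
          have h4 : α * w = α * w₁ := by linarith
          have h5 := mul_left_cancel₀ hα h4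
          subst h5
          exact hS hx'.1
      · rw [if_neg hd, if_neg hd]
        split_ifs <;> rfl
    · rw [Lf_zero y k (fun q hq hk => h ⟨q, hq, hk⟩), Lf_zero y k (fun q hq hk => h ⟨q, hq, hk⟩)]
      split_ifs <;> rfl

open Classical in
/-- row sums of a letter that comes back from the lifted line -/
lemma rows_Bk (hinj : Set.InjOn enc (T ×ˢ T' : Finset (ℤ × ℤ))) (hα : α ≠ 0)
    (r : ℕ) (henc : ∀ q ∈ T ×ˢ T', enc q < 2 ^ r) {lam : ℝ} (hlam : 0 < lam)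
    (G : ℤ → ℕ → ℂ) (p : Nd) (S : Finset (ℤ × ℤ)) :
    ∑ s ∈ S, ∑ z' ∈ T', ‖at' α γ δ T T' (Bk (T ×ˢ T') enc α γ δ lam G) p s.1 s.2 z'‖ ^ 2 =
      lam⁻¹ ^ 2 * ∑ y ∈ iv p, ∑ k ∈ range (2 ^ r),
        (if MkQ ((S ×ˢ T').filter (fun x => x.1.2 ∈ T))
          (fun x => α * x.1.1 + γ * x.1.2 + δ * x.2) (fun x => enc (x.1.2, x.2)) y k
          then ‖G y k‖ ^ 2 else 0) := by
  rw [sum_mask ((S ×ˢ T').filter (fun x => x.1.2 ∈ T)) (fun x => α * x.1.1 + γ * x.1.2 + δ * x.2)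
    (fun x => enc (x.1.2, x.2)) r (iv p) ?_ ?_ (fun y k => ‖G y k‖ ^ 2)]
  · rw [← Finset.sum_product', Finset.sum_filter, Finset.mul_sum]
    refine Finset.sum_congr rfl fun x hx => ?_
    have hx' := Finset.mem_product.1 hx
    by_cases h1 : x.1.2 ∈ T
    · rw [if_pos h1]
      by_cases h2 : α * x.1.1 + γ * x.1.2 + δ * x.2 ∈ iv p
      · rw [if_pos h2, at_in _ h1 hx'.2 h2]
        unfold Bk
        rw [norm_mul, norm_inv, Complex.norm_real, Real.norm_of_nonneg hlam.le, mul_pow]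
      · rw [if_neg h2, at_out _ (fun h => h2 h.2.2)]
        simp
    · rw [if_neg h1, at_out _ (fun h => h1 h.1)]
      simp
  · rintro ⟨⟨w, z⟩, z'⟩ hx ⟨⟨w₁, z₁⟩, z₁'⟩ hx₁ h
    rw [Finset.mem_coe, Finset.mem_filter] at hx hx₁
    have hx' := Finset.mem_product.1 hx.1
    have hx₁' := Finset.mem_product.1 hx₁.1
    simp only [Prod.mk.injEq] at h hx hx₁ hx' hx₁'
    have h3 := hinj (Finset.mem_coe.2 (Finset.mem_product.2 ⟨hx.2, hx'.2⟩))
      (Finset.mem_coe.2 (Finset.mem_product.2 ⟨hx₁.2, hx₁'.2⟩)) h.2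
    simp only [Prod.mk.injEq] at h3
    obtain ⟨rfl, rfl⟩ := h3
    have h4 : α * w = α * w₁ := by linarith [h.1]
    have h5 := mul_left_cancel₀ hα h4
    subst h5
    rfl
  · intro x hx
    rw [Finset.mem_filter] at hx
    have hx' := Finset.mem_product.1 hx.1
    exact henc _ (Finset.mem_product.2 ⟨hx.2, hx'.2⟩)

open Classical in
/-- column sums of a letter that comes back from the lifted line -/
lemma cols_Bk (hinj : Set.InjOn enc (T ×ˢ T' : Finset (ℤ × ℤ))) (hα : α ≠ 0)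
    (r : ℕ) (henc : ∀ q ∈ T ×ˢ T', enc q < 2 ^ r) {lam : ℝ} (hlam : 0 < lam)
    (G : ℤ → ℕ → ℂ) (p : Nd) (S : Finset (ℤ × ℤ)) :
    ∑ s ∈ S, ∑ z ∈ T, ‖at' α γ δ T T' (Bk (T ×ˢ T') enc α γ δ lam G) p s.1 z s.2‖ ^ 2 =
      lam⁻¹ ^ 2 * ∑ y ∈ iv p, ∑ k ∈ range (2 ^ r),
        (if MkQ ((S ×ˢ T).filter (fun x => x.1.2 ∈ T'))
          (fun x => α * x.1.1 + γ * x.2 + δ * x.1.2) (fun x => enc (x.2, x.1.2)) y k
          then ‖G y k‖ ^ 2 else 0) := by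
  rw [sum_mask ((S ×ˢ T).filter (fun x => x.1.2 ∈ T')) (fun x => α * x.1.1 + γ * x.2 + δ * x.1.2)
    (fun x => enc (x.2, x.1.2)) r (iv p) ?_ ?_ (fun y k => ‖G y k‖ ^ 2)]
  · rw [← Finset.sum_product', Finset.sum_filter, Finset.mul_sum]
    refine Finset.sum_congr rfl fun x hx => ?_
    have hx' := Finset.mem_product.1 hx
    by_cases h1 : x.1.2 ∈ T'
    · rw [if_pos h1]
      by_cases h2 : α * x.1.1 + γ * x.2 + δ * x.1.2 ∈ iv p
      · rw [if_pos h2, at_in _ hx'.2 h1 h2]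
        unfold Bk
        rw [norm_mul, norm_inv, Complex.norm_real, Real.norm_of_nonneg hlam.le, mul_pow]
      · rw [if_neg h2, at_out _ (fun h => h2 h.2.2)]
        simp
    · rw [if_neg h1, at_out _ (fun h => h1 h.2.1)]
      simp
  · rintro ⟨⟨w, z'⟩, z⟩ hx ⟨⟨w₁, z₁'⟩, z₁⟩ hx₁ h
    rw [Finset.mem_coe, Finset.mem_filter] at hx hx₁
    have hx' := Finset.mem_product.1 hx.1
    have hx₁' := Finset.mem_product.1 hx₁.1
    simp only [Prod.mk.injEq] at h hx hx₁ hx' hx₁'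
    have h3 := hinj (Finset.mem_coe.2 (Finset.mem_product.2 ⟨hx'.2, hx.2⟩))
      (Finset.mem_coe.2 (Finset.mem_product.2 ⟨hx₁'.2, hx₁.2⟩)) h.2
    simp only [Prod.mk.injEq] at h3
    obtain ⟨rfl, rfl⟩ := h3
    have h4 : α * w = α * w₁ := by linarith [h.1]
    have h5 := mul_left_cancel₀ hα h4
    subst h5
    rfl
  · intro x hx
    rw [Finset.mem_filter] at hx
    have hx' := Finset.mem_product.1 hx.1
    exact henc _ (Finset.mem_product.2 ⟨hx'.2, hx.2⟩)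

/-- level of a letter that comes back from the lifted line, `at'` form -/
lemma lev_at (hinj : Set.InjOn enc (T ×ˢ T' : Finset (ℤ × ℤ))) (hα : α ≠ 0)
    (r : ℕ) (henc : ∀ q ∈ T ×ˢ T', enc q < 2 ^ r) {lam Λ : ℝ} (hlam : 0 < lam)
    (X : ℤ → ℕ → ℂ) (p : Nd)
    (hX : ∀ φ, Tst (T ×ˢ T') enc α γ δ φ →
      ‖∑ y ∈ iv p, ∑ k ∈ range (2 ^ r), X y k * φ y k‖ ≤ lam * Λ) (A : Finset ℤ) :
    XDual988.LevP A (fun _ => (1 : ℝ))
      (fun w z z' => at' α γ δ T T' (Bk (T ×ˢ T') enc α γ δ lam X) p w z z') T T' Λ :=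
  lev_Bk hinj hα r henc hlam X p hX A

end

open Classical in
/-- **leaf S2**: the literal of helper112 -/
theorem plug2 : Plug2 := by
  intro R J hR α γ δ hα hγ hδ T T' c F M A V hM hA hV hMA hc hF σ θ η hσ hθ hη
  obtain ⟨r, hr⟩ : ∃ r : ℕ, (T ×ˢ T').card ≤ 2 ^ r :=
    ⟨(T ×ˢ T').card, Nat.lt_two_pow_self.le⟩
  obtain ⟨enc, hinj, henc⟩ := exists_enc (T ×ˢ T') r hr
  set P : Finset (ℤ × ℤ) := T ×ˢ T' with hP
  -- scaling
  obtain ⟨lam, hlam, hlV⟩ : ∃ lam : ℝ, 0 < lam ∧ lam ^ 2 * V = 2 ^ r := by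
    refine ⟨Real.sqrt (2 ^ r / V), Real.sqrt_pos.2 (by positivity), ?_⟩
    rw [Real.sq_sqrt (by positivity)]
    field_simp
  have hl0 : (lam : ℂ) ≠ 0 := by exact_mod_cast hlam.ne'
  have hV' : lam⁻¹ ^ 2 * (2 : ℝ) ^ r = V := by
    rw [← hlV]; field_simp
  set C : ℤ → ℕ → ℂ := Lf P enc α γ δ
    (fun w z z' => ((lam : ℂ) * c z z') * F (α * w + γ * z + δ * z')) with hCdef
  have hsc : ∑ q ∈ P, ‖(lam : ℂ) * c q.1 q.2‖ ^ 2 ≤ lam ^ 2 * M := by
    have e : ∑ q ∈ P, ‖(lam : ℂ) * c q.1 q.2‖ ^ 2 = lam ^ 2 * ∑ q ∈ P, ‖c q.1 q.2‖ ^ 2 := by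
      rw [Finset.mul_sum]
      refine Finset.sum_congr rfl fun q _ => ?_
      rw [norm_mul, mul_pow, Complex.norm_real, Real.norm_of_nonneg hlam.le]
    rw [e]
    exact mul_le_mul_of_nonneg_left hc (by positivity)
  have hC : ∀ p ∈ R, ∑ y ∈ iv p, ∑ k ∈ range (2 ^ r), ‖C y k‖ ^ 2 ≤ 2 ^ r * len p := by
    intro p hp
    have hlen : 0 < len p := by unfold len; positivity
    calc ∑ y ∈ iv p, ∑ k ∈ range (2 ^ r), ‖C y k‖ ^ 2
        ≤ ∑ y ∈ iv p, (lam ^ 2 * M) * ‖F y‖ ^ 2 := by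
          refine Finset.sum_le_sum fun y _ => ?_
          refine (energy_Lf (α := α) (γ := γ) (δ := δ) hinj r henc
            (fun z z' => (lam : ℂ) * c z z') F y).trans ?_
          exact mul_le_mul_of_nonneg_right hsc (by positivity)
      _ = (lam ^ 2 * M) * ∑ y ∈ iv p, ‖F y‖ ^ 2 := by rw [Finset.mul_sum]
      _ ≤ (lam ^ 2 * M) * (A * len p) := mul_le_mul_of_nonneg_left (hF p hp) (by positivity)
      _ = (lam ^ 2 * (M * A)) * len p := by ring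
      _ ≤ (lam ^ 2 * V) * len p := by gcongr
      _ = 2 ^ r * len p := by rw [hlV]
  have hσl : 0 < σ / lam := by positivity
  obtain ⟨S, W, hpart, hdec⟩ := lift_windows2 hR r C hC (Tst P enc α γ δ)
    (by
      rintro ψ ⟨u, v, hu, hv, rfl⟩
      refine ⟨fun w z => (starRingEnd ℂ) (u w z), fun w z => (starRingEnd ℂ) (v w z),
        fun w z => by rw [RCLike.norm_conj]; exact hu w z,
        fun w z => by rw [RCLike.norm_conj]; exact hv w z, ?_⟩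
      funext y k
      rw [Lf_conj]
      simp only [map_mul])
    (by
      rintro ψ ⟨u, v, hu, hv, rfl⟩ y k _
      refine Lf_norm_le hinj zero_le_one (fun w z z' => ?_) y k
      rw [norm_mul]
      exact mul_le_one₀ (hu w z) (norm_nonneg _) (hv w z')) hσl hθ hη
  have eσ : ∀ a : ℝ, lam⁻¹ * (a / (σ / lam)) = a / σ := fun a => by field_simp
  refine ⟨S, W, hpart, fun K hK => ?_⟩
  obtain ⟨n, ψ, d, E, X, Y, hψ, hd, hform, hE, hX, hEh, hD, hDh, hYl, hYC, hmask⟩ := hdec K hK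
  choose u v hu hv huv using hψ
  have hKJ : iv K ⊆ iv J := hR.reg.1 K (hpart.sub hK)
  have hWK : ∀ p ∈ W K, iv p ⊆ iv K := fun p hp => (hpart.full K hK).reg.1 p hp
  -- the kernel itself
  have hBC : ∀ p : Nd, ∀ w z z', at' α γ δ T T' (Cc c F α γ δ) p w z z' =
      at' α γ δ T T' (Bk P enc α γ δ lam C) p w z z' := by
    intro p w z z'
    by_cases h : z ∈ T ∧ z' ∈ T' ∧ α * w + γ * z + δ * z' ∈ iv p
    · rw [at_in _ h.1 h.2.1 h.2.2, at_in _ h.1 h.2.1 h.2.2]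
      have hq : ((z, z') : ℤ × ℤ) ∈ P := Finset.mem_product.2 ⟨h.1, h.2.1⟩
      have h2 := Lf_enc (α := α) (γ := γ) (δ := δ)
        (G := fun w z z' => ((lam : ℂ) * c z z') * F (α * w + γ * z + δ * z')) hinj hα hq w
      unfold Bk Cc
      rw [hCdef, h2]
      field_simp
    · rw [at_out _ h, at_out _ h]
  refine ⟨n, u, v, fun j => (lam : ℂ)⁻¹ * d j,
    fun w z z' => if z ∈ T ∧ z' ∈ T' ∧ α * w + γ * z + δ * z' ∈ iv K then
      Bk P enc α γ δ lam E w z z' else 0, Bk P enc α γ δ lam X, hu, hv, ?_, ?_, ?_, ?_, ?_⟩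
  · have e : ∑ j, ‖(lam : ℂ)⁻¹ * d j‖ = lam⁻¹ * ∑ j, ‖d j‖ := by
      rw [Finset.mul_sum]
      refine Finset.sum_congr rfl fun j _ => ?_
      rw [norm_mul, norm_inv, Complex.norm_real, Real.norm_of_nonneg hlam.le]
    rw [e, ← eσ 1]
    exact mul_le_mul_of_nonneg_left hd (by positivity)
  · intro w z hz z' hz' hy
    have hq : ((z, z') : ℤ × ℤ) ∈ P := Finset.mem_product.2 ⟨hz, hz'⟩
    have h1 := hform _ hy (enc (z, z')) (henc _ hq)
    have h2 := Lf_enc (α := α) (γ := γ) (δ := δ)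
      (G := fun w z z' => ((lam : ℂ) * c z z') * F (α * w + γ * z + δ * z')) hinj hα hq w
    have h3 : ∀ j, ψ j (α * w + γ * z + δ * z') (enc (z, z')) = u j w z * v j w z' := by
      intro j
      rw [huv j]
      exact Lf_enc (α := α) (γ := γ) (δ := δ) (G := fun w z z' => u j w z * v j w z') hinj hα hq w
    simp only at h2
    rw [hCdef, h2] at h1
    simp only [h3] at h1
    simp only
    rw [if_pos ⟨hz, hz', hy⟩]
    unfold Bk Cc
    have e : c z z' * F (α * w + γ * z + δ * z') = (lam : ℂ)⁻¹ *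
        ((lam : ℂ) * c z z' * F (α * w + γ * z + δ * z')) := by
      field_simp
    rw [e, h1, mul_add, mul_add, Finset.mul_sum]
    congr 2
    exact Finset.sum_congr rfl fun j _ => by ring
  · intro w z z'
    by_cases h : z ∈ T ∧ z' ∈ T' ∧ α * w + γ * z + δ * z' ∈ iv K
    · simp only [if_pos h]
      have hq : ((z, z') : ℤ × ℤ) ∈ P := Finset.mem_product.2 ⟨h.1, h.2.1⟩
      unfold Bk
      rw [norm_mul, norm_inv, Complex.norm_real, Real.norm_of_nonneg hlam.le, ← eσ 2]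
      exact mul_le_mul_of_nonneg_left (hEh _ h.2.2 _ (henc _ hq)) (by positivity)
    · simp only [if_neg h, norm_zero]
      positivity
  · intro p hp Q
    have e1 : ∑ t ∈ Q, ‖at' α γ δ T T' (fun w z z' =>
        if z ∈ T ∧ z' ∈ T' ∧ α * w + γ * z + δ * z' ∈ iv K then
          Bk P enc α γ δ lam E w z z' else 0) p t.1 t.2.1 t.2.2‖ ^ 2 =
        ∑ t ∈ Q, ‖at' α γ δ T T' (Bk P enc α γ δ lam E) p t.1 t.2.1 t.2.2‖ ^ 2 := by
      refine Finset.sum_congr rfl fun t _ => ?_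
      by_cases h : t.2.1 ∈ T ∧ t.2.2 ∈ T' ∧ α * t.1 + γ * t.2.1 + δ * t.2.2 ∈ iv p
      · rw [at_in _ h.1 h.2.1 h.2.2, at_in _ h.1 h.2.1 h.2.2,
          if_pos ⟨h.1, h.2.1, hWK p hp h.2.2⟩]
      · rw [at_out _ h, at_out _ h]
    rw [e1]
    refine (tot_Bk hinj hα r henc hlam E p Q).trans ?_
    refine (mul_le_mul_of_nonneg_left (hE p hp) (by positivity)).trans (le_of_eq ?_)
    calc lam⁻¹ ^ 2 * (9 * θ * (2 ^ r * len p)) = 9 * θ * (lam⁻¹ ^ 2 * 2 ^ r) * len p := by ring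
      _ = 9 * θ * V * len p := by rw [hV']
  · intro p hp
    have hlen : 0 < len p := by unfold len; positivity
    refine ⟨fun w z z' => at' α γ δ T T' (Bk P enc α γ δ lam (Y p)) p w z z',
      fun w z z' => at' α γ δ T T' (Bk P enc α γ δ lam (fun y k => X y k - Y p y k)) p w z z',
      ?_⟩
    refine ⟨?_, ?_, ?_, ?_, ?_, ?_, ?_, ?_, ?_⟩
    · intro w z z'
      by_cases h : z ∈ T ∧ z' ∈ T' ∧ α * w + γ * z + δ * z' ∈ iv p
      · rw [at_in _ h.1 h.2.1 h.2.2, at_in _ h.1 h.2.1 h.2.2, at_in _ h.1 h.2.1 h.2.2]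
        unfold Bk
        ring
      · rw [at_out _ h, at_out _ h, at_out _ h, add_zero]
    · intro w z z' h
      exact at_sup h
    · intro w z z' h
      exact at_sup h
    · intro w z z'
      by_cases h : z ∈ T ∧ z' ∈ T' ∧ α * w + γ * z + δ * z' ∈ iv p
      · have hq : ((z, z') : ℤ × ℤ) ∈ P := Finset.mem_product.2 ⟨h.1, h.2.1⟩
        rw [at_in _ h.1 h.2.1 h.2.2]
        unfold Bk
        rw [norm_mul, norm_inv, Complex.norm_real, Real.norm_of_nonneg hlam.le, ← eσ 2]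
        exact mul_le_mul_of_nonneg_left (hDh p hp _ h.2.2 _ (henc _ hq)) (by positivity)
      · rw [at_out _ h, norm_zero]
        positivity
    · intro w z z'
      rw [hBC p w z z']
      by_cases h : z ∈ T ∧ z' ∈ T' ∧ α * w + γ * z + δ * z' ∈ iv p
      · have hq : ((z, z') : ℤ × ℤ) ∈ P := Finset.mem_product.2 ⟨h.1, h.2.1⟩
        rw [at_in _ h.1 h.2.1 h.2.2, at_in _ h.1 h.2.1 h.2.2]
        unfold Bk
        rw [← mul_sub, norm_mul, norm_inv, Complex.norm_real, Real.norm_of_nonneg hlam.le, ← eσ 1]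
        exact mul_le_mul_of_nonneg_left (hYC p hp _ h.2.2 _ (henc _ hq)) (by positivity)
      · rw [at_out _ h, at_out _ h, sub_zero, norm_zero]
        positivity
    · intro Q
      refine (tot_Bk hinj hα r henc hlam (fun y k => X y k - Y p y k) p Q).trans ?_
      refine (mul_le_mul_of_nonneg_left (hD p hp) (by positivity)).trans (le_of_eq ?_)
      calc lam⁻¹ ^ 2 * (3 * θ * (2 ^ r * len p)) = 3 * θ * (lam⁻¹ ^ 2 * 2 ^ r) * len p := by ring
        _ = 3 * θ * V * len p := by rw [hV']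
    · intro B
      refine lev_at hinj hα r henc hlam (Y p) p (fun φ hφ => ?_) B
      refine (hYl p hp φ hφ).trans (le_of_eq ?_)
      rw [← hV']
      field_simp
    · intro Q
      have h1 := hmask p hp _ (fun ψ hψ => msk_rows (γ := γ) (δ := δ) hinj hα Q hψ)
      have e2 : ∑ s ∈ Q, ∑ z' ∈ T', ‖at' α γ δ T T' (Cc c F α γ δ) p s.1 s.2 z'‖ ^ 2 =
          ∑ s ∈ Q, ∑ z' ∈ T', ‖at' α γ δ T T' (Bk P enc α γ δ lam C) p s.1 s.2 z'‖ ^ 2 :=
        Finset.sum_congr rfl fun s _ => Finset.sum_congr rfl fun z' _ => by rw [hBC]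
      rw [e2, rows_Bk hinj hα r henc hlam, rows_Bk hinj hα r henc hlam]
      have h2 := mul_le_mul_of_nonneg_left h1 (by positivity : (0 : ℝ) ≤ lam⁻¹ ^ 2)
      rw [mul_add] at h2
      refine h2.trans (le_of_eq ?_)
      congr 1
      calc lam⁻¹ ^ 2 * (η * (2 ^ r * len p)) = η * (lam⁻¹ ^ 2 * 2 ^ r) * len p := by ring
        _ = η * V * len p := by rw [hV']
    · intro Q
      have h1 := hmask p hp _ (fun ψ hψ => msk_cols (γ := γ) (δ := δ) hinj hα Q hψ)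
      have e2 : ∑ s ∈ Q, ∑ z ∈ T, ‖at' α γ δ T T' (Cc c F α γ δ) p s.1 z s.2‖ ^ 2 =
          ∑ s ∈ Q, ∑ z ∈ T, ‖at' α γ δ T T' (Bk P enc α γ δ lam C) p s.1 z s.2‖ ^ 2 :=
        Finset.sum_congr rfl fun s _ => Finset.sum_congr rfl fun z' _ => by rw [hBC]
      rw [e2, cols_Bk hinj hα r henc hlam, cols_Bk hinj hα r henc hlam]
      have h2 := mul_le_mul_of_nonneg_left h1 (by positivity : (0 : ℝ) ≤ lam⁻¹ ^ 2)
      rw [mul_add] at h2
      refine h2.trans (le_of_eq ?_)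
      congr 1
      calc lam⁻¹ ^ 2 * (η * (2 ^ r * len p)) = η * (lam⁻¹ ^ 2 * 2 ^ r) * len p := by ring
        _ = η * V * len p := by rw [hV']

end Crest.Agent.R079.Plug2700
end

-- ▼ part R079/RuS2_256

/-! R079, RuleS assembly, leaf S9 part 2 (helper256): ONE STATIC WINDOW, dictionary-free.  Frozen slot
`j`, static slot `3`, `P` = bounded atom on `iv I`, data of `XR112.Plug2` on the outer window `WK`,
Gram data `LabOK` on `V' ⊆ WK`; output = the two kernels of `BadN360.CoreG`. -/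

set_option autoImplicit false
set_option linter.unusedVariables false

namespace Crest.Agent.R079.RuS256

open Finset Crest.Agent.R079.Grid Crest.Agent.R079.Growth Crest.Agent.R079.QRed
  Crest.Agent.R079.Glue Crest.Agent.R079.TWin Crest.Agent.R079.R244 Crest.Agent.R079.F24
  Crest.Agent.R079.XR112 Crest.Agent.R079.XS4x219 Crest.Agent.R079.EWG990 Crest.Agent.R079.EW5702
  Crest.Agent.R079.Cg408 Crest.Agent.R079.Tr230 Crest.Agent.R079.LK990 Crest.Agent.R079.MainW259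
  Crest.Agent.R079.KbS259 Crest.Agent.R079.HEr702 Crest.Agent.R079.S2D530
  Crest.Agent.R079.F2 Crest.Agent.R079.Ero526 Crest.Agent.R079.LfK71 Crest.Agent.R079.OpLev

/-- data of one bounded atom: `κ`, `T`, `g` with `|g| ≤ 1` and `κ ∑|g_e|² ≤ M` -/
structure AtD (κ M : ℝ) (T : Fin 3 → Finset ℤ) (g : Fin 3 → ℤ → ℤ → ℂ) : Prop where
  k0 : 0 < κ
  M0 : 0 < M
  g0 : ∀ z z', ‖g 0 z z'‖ ≤ 1
  g1 : ∀ z z', ‖g 1 z z'‖ ≤ 1
  g2 : ∀ z z', ‖g 2 z z'‖ ≤ 1
  n0 : κ * BAt112.n2 (T 0) (T 1) (g 0) ≤ M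
  n1 : κ * BAt112.n2 (T 1) (T 2) (g 1) ≤ M
  n2 : κ * BAt112.n2 (T 2) (T 0) (g 2) ≤ M

/-- output of `Plug2` on the window `WK` (top `K`) -/
structure PlD (j : Fin 4) (κ M σ : ℝ) (T : Fin 3 → Finset ℤ) (g : Fin 3 → ℤ → ℤ → ℂ) (G : ℤ → ℂ)
    (WK : Finset Nd) (K : Nd) {n : ℕ} (u v : Fin n → ℤ → ℤ → ℂ) (d : Fin n → ℂ)
    (E X : ℤ → ℤ → ℤ → ℂ) : Prop where
  full : Full WK K
  hu : ∀ l w z, ‖u l w z‖ ≤ 1
  hv : ∀ l w z, ‖v l w z‖ ≤ 1
  hd : ∑ l, ‖d l‖ ≤ 1 / σ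
  dec : ∀ w, ∀ z ∈ T 0, ∀ z' ∈ T 1, (sl j - sl 3) * w + (sl (j.succAbove 0) - sl 3) * z +
        (sl (j.succAbove 1) - sl 3) * z' ∈ iv K →
      Cc (g 0) G (sl j - sl 3) (sl (j.succAbove 0) - sl 3) (sl (j.succAbove 1) - sl 3) w z z' =
        ∑ l, d l * (u l w z * v l w z') + E w z z' + X w z z'
  hE : ∀ w z z', ‖E w z z'‖ ≤ 2 / σ
  e2 : E2T WK (sl j - sl 3) (sl (j.succAbove 0) - sl 3) (sl (j.succAbove 1) - sl 3) (T 0) (T 1)
    (9 * σ ^ 3 * (M / κ)) E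
  xr : XR WK (sl j - sl 3) (sl (j.succAbove 0) - sl 3) (sl (j.succAbove 1) - sl 3) (T 0) (T 1)
    (Cc (g 0) G (sl j - sl 3) (sl (j.succAbove 0) - sl 3) (sl (j.succAbove 1) - sl 3)) (M / κ) σ
    (σ ^ 3) (σ ^ 3) X

/-- number of the main word -/
noncomputable def Qm (q3 M σ θ s ε h : ℝ) : ℝ :=
  (2 ^ 54 * h ^ 2 * s + 2 ^ 20 * h ^ (2 - q3) + 2 ^ 18 * ε ^ 2) + 2 ^ 31 * M ^ 2 * σ ^ (1 / 5 : ℝ) +
    θ * (1 / σ * M)

theorem kE_le {κ M σ : ℝ} (hκ : 0 < κ) (hM : 0 < M) (hσ : 0 < σ) (hσ1 : σ ≤ 1) :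
    kE κ M (M / κ) (9 * σ ^ 3 * (M / κ)) (2 ^ 25 * σ ^ (2 / 5 : ℝ)) 1 ≤
      2 ^ 31 * M ^ 2 * σ ^ (1 / 5 : ℝ) := by
  unfold kE
  have e1 : κ * (M / κ) = M := by field_simp
  have e2 : κ * (9 * σ ^ 3 * (M / κ)) = 9 * σ ^ 3 * M := by field_simp
  have h5 : 0 < σ ^ (1 / 5 : ℝ) := Real.rpow_pos_of_pos hσ _
  have e3 : Real.sqrt (M * M * (2 ^ 25 * σ ^ (2 / 5 : ℝ))) ≤ M * (5793 * σ ^ (1 / 5 : ℝ)) := by
    rw [Real.sqrt_le_left (by positivity)]
    have e : (M * (5793 * σ ^ (1 / 5 : ℝ))) ^ 2 = M * M * (5793 ^ 2 * σ ^ (2 / 5 : ℝ)) := by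
      have : (σ ^ (1 / 5 : ℝ)) ^ 2 = σ ^ (2 / 5 : ℝ) := by
        rw [← Real.rpow_natCast, ← Real.rpow_mul hσ.le]; norm_num
      rw [mul_pow, mul_pow, this]; ring
    rw [e]
    refine mul_le_mul_of_nonneg_left ?_ (by positivity)
    exact mul_le_mul_of_nonneg_right (by norm_num) (Real.rpow_nonneg hσ.le _)
  have e4 : σ ^ 3 ≤ σ ^ (1 / 5 : ℝ) := by
    rw [← Real.rpow_natCast]
    exact Real.rpow_le_rpow_of_exponent_ge hσ hσ1 (by norm_num)
  rw [e1, e2]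
  calc 92928 * 1 * M * (9 * σ ^ 3 * M + 2 * Real.sqrt (M * M * (2 ^ 25 * σ ^ (2 / 5 : ℝ))))
      ≤ 92928 * 1 * M * (9 * σ ^ (1 / 5 : ℝ) * M + 2 * (M * (5793 * σ ^ (1 / 5 : ℝ)))) := by
        refine mul_le_mul_of_nonneg_left ?_ (by positivity)
        refine add_le_add ?_ (mul_le_mul_of_nonneg_left e3 (by norm_num))
        exact mul_le_mul_of_nonneg_right (mul_le_mul_of_nonneg_left e4 (by norm_num)) hM.le
    _ = (92928 * (9 + 2 * 5793)) * (M ^ 2 * σ ^ (1 / 5 : ℝ)) := by ring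
    _ ≤ 2 ^ 31 * (M ^ 2 * σ ^ (1 / 5 : ℝ)) :=
        mul_le_mul_of_nonneg_right (by norm_num) (by positivity)
    _ = _ := by ring

open Classical in
/-- **ONE STATIC WINDOW** -/
theorem window_core : ∃ K1 : ℝ, 0 ≤ K1 ∧ ∀ (j : Fin 4), j ≠ 3 →
    ∀ (k q3 κ M σ θ s ε h : ℝ), 0 < k → 2 < q3 → 0 < σ → σ ≤ 1 / 2 ^ 60 → 0 < θ → 0 ≤ s →
    ε ≤ 1 → 0 < h → ∀ (T : Fin 3 → Finset ℤ) (g : Fin 3 → ℤ → ℤ → ℂ), AtD κ M T g →
    ∀ (κ0 : ℕ), 13 ≤ κ0 → ∀ (P G X0 E0 : ℤ → ℂ) (I : Nd),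
      (∀ y ∈ iv I, P y = atom j κ T (g 0) (g 1) (g 2) y) → (∀ y, ‖G y‖ ≤ 1 / σ) →
      (∀ y ∈ iv I, P y = X0 y + E0 y) →
    ∀ (WK : Finset Nd) (K : Nd), iv K ⊆ iv I → ∀ (n : ℕ) (u v : Fin n → ℤ → ℤ → ℂ) (d : Fin n → ℂ)
      (E X : ℤ → ℤ → ℤ → ℂ), PlD j κ M σ T g G WK K u v d E X →
    ∀ V' : Finset Nd, V' ⊆ WK →
      LabOK (j := j) (κ := κ) (T := T) (g := g) v d (Sh j T (Z0 j I)) V' θ →
    ∀ (W : Finset Nd) (J : Nd), Full W J → W ⊆ V' → ∀ F : Fin 4 → ℤ → ℂ, F j = P → F 3 = G →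
      (∀ i, i ≠ j → i ≠ 3 → ∀ p ∈ W, TRec.aq (2 + k) p (F i) ≤ 1) →
      (∀ p ∈ W, TRec.aq (2 + k) p P ≤ 1) → (∀ p ∈ W, TRec.aq q3 p G ≤ 1) →
      (∀ p ∈ W, av p E0 ≤ ε) → (∀ p ∈ W, av p X0 ≤ 2 → OLev κ0 j p X0 s) →
    ∀ bb : ℤ, (bb = -1 ∨ bb = -7) →
      ∃ Ka Kb : ℤ → ℤ → ℂ, (∀ T A, ∏ i, rs J F i (A - sl i * T) = Ka T A + Kb T A) ∧
        ∑ p ∈ W.filter (fun p => ¬ Bad W 7 p), ∑ x ∈ adm p.1 p.2, ‖LboxG (2 ^ p.1) bb Ka x‖ ≤
          K1 * √(Qm q3 M σ θ s ε h) * len J ∧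
        ∑ p ∈ W.filter (fun p => ¬ Bad W 7 p), ∑ x ∈ adm p.1 p.2, ‖LboxG (2 ^ p.1) bb Kb x‖ ≤
          K1 * (1 + 1 / k) * σ ^ (1 / 20 : ℝ) * M * len J := by
  obtain ⟨K2, hK2, hW2⟩ := error_words
  refine ⟨K2 + 96 * (16 * (2 * (7 + 2 + 1) + 1) + 1), by positivity, ?_⟩
  intro j hj k q3 κ M σ θ s ε h hk hq3 hσ hσs hθ hs hε hh T g hg κ0 hκ0 P G X0 E0 I hP hG hPX WK K
    hKI n u v d E X hD V' hV' hlab W J hW hWV F hFj hF3 hF haP haG hE0 hO bb hbb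
  have hσ1 : σ ≤ 1 := hσs.trans (by norm_num)
  have hκ := hg.k0
  have hM := hg.M0
  have hV : 0 < M / κ := div_pos hM hκ
  have h32 : j.succAbove 2 = 3 := sA2 j hj
  have hWK : W ⊆ WK := hWV.trans hV'
  have hJK : iv J ⊆ iv K := hD.full.reg.1 J (hWK hW.top)
  have hJI : iv J ⊆ iv I := hJK.trans hKI
  have hpJ : ∀ p ∈ W, iv p ⊆ iv J := hW.reg.1
  have ha0 : j.succAbove 0 ≠ 3 := (dst_j j hj).2.2.2.1.symm
  have ha1 : j.succAbove 1 ≠ 3 := (dst_j j hj).2.2.2.2.1.symm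
  have haF0 : ∀ p ∈ W, TRec.aq (2 + k) p (F (j.succAbove 0)) ≤ 1 :=
    hF _ (Fin.succAbove_ne j 0) ha0
  have haF1 : ∀ p ∈ W, TRec.aq (2 + k) p (F (j.succAbove 1)) ≤ 1 :=
    hF _ (Fin.succAbove_ne j 1) ha1
  have hn : ∀ (A A' : Finset ℤ) (a : ℤ → ℤ → ℂ), κ * BAt112.n2 A A' a ≤ M →
      BAt112.n2 A A' a ≤ M / κ := fun A A' a h1 => by
    rw [le_div_iff₀ hκ, mul_comm]; exact h1
  have hG2 : ∀ p ∈ W, ∑ y ∈ iv p, ‖G y‖ ^ 2 ≤ len p := fun p hp => by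
    have := Leaf259.sum2_of_aq hq3.le (haG p hp)
    rwa [one_mul] at this
  have hE2W : E2T W (sl j - sl 3) (sl (j.succAbove 0) - sl 3) (sl (j.succAbove 1) - sl 3) (T 0)
      (T 1) (9 * σ ^ 3 * (M / κ)) E := fun p hp => hD.e2 p (hWK hp)
  have hXRW : XR W (sl j - sl 3) (sl (j.succAbove 0) - sl 3) (sl (j.succAbove 1) - sl 3) (T 0)
      (T 1) (Cc (g 0) G (sl j - sl 3) (sl (j.succAbove 0) - sl 3) (sl (j.succAbove 1) - sl 3))
      (M / κ) σ (σ ^ 3) (σ ^ 3) X := fun p hp => hD.xr p (hWK hp)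
  have hFj' : ∀ y ∈ iv J, F j y = atom j κ T (g 0) (g 1) (g 2) y := fun y hy => by
    rw [hFj]; exact hP y (hJI hy)
  refine ⟨Km j κ T g u v d (rs J F), Kb j κ T g u v d J F, split_kb j κ T g u v d J F, ?_, ?_⟩
  · -- main word
    have hrs : ∀ i y, ‖rs J F i y‖ ≤ ‖F i y‖ := by
      intro i y
      unfold rs
      split_ifs
      · exact le_rfl
      · simp
    have hr0 : ∀ p ∈ W, TRec.aq (2 + k) p (rs J F (j.succAbove 0)) ≤ 1 := fun p hp =>
      (BadN360.aq_mono (by linarith) fun y _ => hrs _ y).trans (haF0 p hp)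
    have hr1 : ∀ p ∈ W, TRec.aq (2 + k) p (rs J F (j.succAbove 1)) ≤ 1 := fun p hp =>
      (BadN360.aq_mono (by linarith) fun y _ => hrs _ y).trans (haF1 p hp)
    set k1 : ℝ := 2 ^ 54 * h ^ 2 * s + 2 ^ 20 * h ^ (2 - q3) + 2 ^ 18 * ε ^ 2 with hk1
    have hk10 : 0 ≤ k1 := by positivity
    set kEE : ℝ := kE κ M (M / κ) (9 * σ ^ 3 * (M / κ)) (2 ^ 25 * σ ^ (2 / 5 : ℝ)) 1 with hkEE
    have hkE0 : 0 ≤ kEE := kE_nonneg hκ.le hM.le (by positivity) zero_le_one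
    have hG1 : ∀ p ∈ W, ∑ y ∈ iv p, ‖G y‖ ^ 2 ≤ 1 * len p := fun p hp => by
      rw [one_mul]; exact hG2 p hp
    have hc0 : ∑ q ∈ T 0 ×ˢ T 1, ‖g 0 q.1 q.2‖ ^ 2 ≤ M / κ := by
      rw [Finset.sum_product]; exact hn _ _ _ hg.n0
    have hS4 : EW49.S4W W 0 (M / κ) (2 ^ 25 * σ ^ (2 / 5 : ℝ)) (sl j - sl (j.succAbove 2))
        (sl (j.succAbove 0) - sl (j.succAbove 2)) (sl (j.succAbove 1) - sl (j.succAbove 2))
        (T 0) (T 1) X (fun _ => 1) := by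
      obtain ⟨s0, s1, s2⟩ := sd j
      refine s4w_of_XR' (M := M / κ) (c := g 0) (F := G) s0 s1 s2 hσ hσ1
        (show (0 : ℝ) ≤ σ ^ 3 by positivity) le_rfl (le_refl (σ ^ 3)) hV.le le_rfl hg.g0 hc0 hG2 ?_
      rw [h32]; exact hXRW
    have main := main_word hj hκ.le T g hM.le (show (0 : ℝ) ≤ 1 / σ by positivity) hg.n2 u v d
      hD.hu hD.hd I hW hJI hWV hθ hlab (rs J F)
      (fun p hp => Leaf259.sum2_of_aq (by linarith) (hr0 p hp))
      (fun p hp => Leaf259.sum2_of_aq (by linarith) (hr1 p hp)) hbb 7 (by norm_num) P G hk10 hkE0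
      (fun r hr m p hp => ?_) (fun r hr m p hp => ?_) (W.filter (fun p => ¬ Bad W 7 p))
      (Finset.filter_subset _ _) (fun p hp => (Finset.mem_filter.1 hp).2)
    · have e1 : 48 * (16 * (2 * (((7 : ℕ) : ℝ) + 2 + 1) + 1) + 1) *
          (2 * √(k1 + kEE + θ * (1 / σ * M))) * len J =
          96 * (16 * (2 * (7 + 2 + 1) + 1) + 1) * √(k1 + kEE + θ * (1 / σ * M)) * len J := by
        push_cast; ring
      refine main.trans (e1.le.trans ?_)
      have hl := Growth.len_pos J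
      refine mul_le_mul_of_nonneg_right ?_ hl.le
      refine mul_le_mul (by linarith) (Real.sqrt_le_sqrt ?_) (Real.sqrt_nonneg _) (by positivity)
      unfold Qm
      have := kE_le hκ hM hσ hσ1
      linarith
    · exact Leaf259.hleaf_core (dst_j j hj) hpJ 7 le_rfl (r : ℤ)
        (by
          have h1 : (r : ℤ) < 3 := by exact_mod_cast hr.trans_le (dj_le j)
          rw [abs_of_nonneg (Int.natCast_nonneg r)]
          exact h1.le) hk.le hq3.le _ (rs J F (j.succAbove 1)) (fun z => by rw [norm_star]) hr1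
        (fun y hy => hPX y (hJI hy)) haP haG hε hE0 hO hs hκ0 hh m p hp
    · refine herr_val j T g hκ.le hg.g2 hM.le hV.le (by positivity) (by positivity) zero_le_one
        hg.n1 hg.n2 hW 7 le_rfl (r : ℤ) _ (rs J F (j.succAbove 1)) (fun z => by rw [norm_star])
        (fun p hp => Leaf259.sum2_of_aq (by linarith) (hr1 p hp))
        (by rw [h32]; exact hE2W) hS4 _ ?_ m p hp
      intro z z' y1 y2 y3 y4
      have hr3 : r < 3 := hr.trans_le (dj_le j)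
      refine er0_eq hj hκ.le T g u v d E X P G I K hD.dec hr3 (hJI y1) (hJI y2) ?_ ?_
      · rw [h32] at y4
        refine (congrArg (· ∈ iv K) ?_).mp (hJK y4)
        ring
      · refine hP _ (hJI ?_)
        exact y3
  · -- error words
    have h1 := kb_sum hj hκ.le T g u v d E X hJK F hFj' (by rw [hF3]; exact hD.dec) hbb hpJ
      (Finset.filter_subset (fun p => ¬ Bad W 7 p) W)
    refine h1.trans ?_
    have h2 := hW2 bb hbb W J hW j T g F G E X (M / κ) σ k hV hσ hσs hk hg.g0 hg.g1 hg.g2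
      (hn _ _ _ hg.n0) (hn _ _ _ hg.n1) (hn _ _ _ hg.n2) haF0 haF1 hG2 hG
      (by rw [h32]; exact hE2W) hD.hE (by rw [h32]; exact hXRW)
    rw [← mul_add]
    refine (mul_le_mul_of_nonneg_left h2 hκ.le).trans ?_
    have e1 : κ * (K2 * (1 + 1 / k) * σ ^ (1 / 20 : ℝ) * (M / κ) * len J) =
        K2 * ((1 + 1 / k) * σ ^ (1 / 20 : ℝ) * M * len J) := by field_simp
    rw [e1]
    have hl := Growth.len_pos J
    have h20 : 0 < σ ^ (1 / 20 : ℝ) := Real.rpow_pos_of_pos hσ _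
    have h3 : 0 ≤ (1 + 1 / k) * σ ^ (1 / 20 : ℝ) * M * len J := by positivity
    calc _ ≤ (K2 + 96 * (16 * (2 * (7 + 2 + 1) + 1) + 1)) *
          ((1 + 1 / k) * σ ^ (1 / 20 : ℝ) * M * len J) :=
          mul_le_mul_of_nonneg_right (by linarith) h3
      _ = _ := by ring

end Crest.Agent.R079.RuS256
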