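import Crest.Agent.R079.TNS0_533
import Crest.Agent.R079.TS1_653

/-! R079, node-dependent recursion (helper533; port of `TS1_653`): sizes of the pieces of a windowed
residual, scaled `FrzBd`. -/

set_option autoImplicit false
set_option linter.unusedVariables false

namespace Crest.Agent.R079.TRecN

open Crest.Agent.R079.TRec

open Finset Crest.Agent.R079.Grid Crest.Agent.R079.Growth Crest.Agent.R079.QRed
  Crest.Agent.R079.QVar181

/-! ### the pieces of a windowed residual -/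

section WRd

variable {D : Dict} {k q3 sg c1 C : ℝ} {j : Fin 4} {t : ℝ} {R : Finset Nd} {J : Nd}
  {T : Finset Nd} {G : Fn} {H E X : Nd → Fn}

/-- gain of the small letter -/
theorem WRd.aqE (h : WRd D k q3 sg c1 C j t R J T G H E X) (hk : 0 < k) (hq3 : 2 < q3)
    (hC : 0 ≤ C) (ht : 0 < t) {p : Nd} (hp : p ∈ R) :
    aq (qx k q3 j) p (E p) ≤ C * t ^ ((c1 - sx sg j * (qx k q3 j - 2)) / qx k q3 j) := by
  have := aq_le_pow (two_lt_qx hk hq3 j).le p hC ht (h.eav p hp) (h.esup p hp)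
  convert this using 4
  ring

theorem WRd.aqH (h : WRd D k q3 sg c1 C j t R J T G H E X) (hk : 0 < k) (hq3 : 2 < q3)
    (hC : 0 ≤ C) (ht : 0 < t) {p : Nd} (hp : p ∈ R) :
    aq (qx k q3 j) p (H p) ≤ C * t ^ (-(sx sg j * (qx k q3 j - 2) / qx k q3 j)) := by
  have h0 : av p (H p) ≤ C * t ^ (0 : ℝ) := by rw [Real.rpow_zero, mul_one]; exact h.hav p hp
  have := aq_le_pow (two_lt_qx hk hq3 j).le p hC ht h0 (h.hsup p hp)
  convert this using 3
  ring

/-- the loss exponent of `H`, `E`, `X` -/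
theorem WRd.aqE' (h : WRd D k q3 sg c1 C j t R J T G H E X) (hk : 0 < k) (hq3 : 2 < q3)
    (hc1 : 0 ≤ c1) (hC : 0 ≤ C) (ht : 0 < t) (ht1 : t ≤ 1) {p : Nd} (hp : p ∈ R) :
    aq (qx k q3 j) p (E p) ≤ C * t ^ (-(sx sg j * (qx k q3 j - 2) / qx k q3 j)) := by
  refine (h.aqE hk hq3 hC ht hp).trans ?_
  have hq := two_lt_qx hk hq3 j
  refine mul_le_mul_of_nonneg_left (Real.rpow_le_rpow_of_exponent_ge ht ht1 ?_) hC
  rw [← neg_div]
  apply div_le_div_of_nonneg_right _ (by linarith)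
  linarith

theorem WRd.aqX (h : WRd D k q3 sg c1 C j t R J T G H E X) (hk : 0 < k) (hq3 : 2 < q3)
    (hsg : 0 ≤ sg) (hc1 : 0 ≤ c1) (hC : 1 ≤ C) (ht : 0 < t) (ht1 : t ≤ 1) {p : Nd} (hp : p ∈ R) :
    aq (qx k q3 j) p (X p) ≤ 3 * C * t ^ (-(sx sg j * (qx k q3 j - 2) / qx k q3 j)) := by
  have hq := two_lt_qx hk hq3 j
  have hx : 0 ≤ sx sg j := by unfold sx; split_ifs <;> linarith
  have e : X p = fun y => (G y - H p y) - E p y := by funext y; exact h.eq p hp y
  have h1 := aq_sub_le (q := qx k q3 j) (by linarith) p (fun y => G y - H p y) (E p)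
  have h2 := aq_sub_le (q := qx k q3 j) (by linarith) p G (H p)
  have h3 := h.aqH hk hq3 (by linarith) ht hp
  have h4 := h.aqE' hk hq3 hc1 (by linarith) ht ht1 hp
  have h5 := h.nrm p hp
  have h6 : 1 ≤ t ^ (-(sx sg j * (qx k q3 j - 2) / qx k q3 j)) := by
    apply Real.one_le_rpow_of_pos_of_le_one_of_nonpos ht ht1
    have : 0 ≤ sx sg j * (qx k q3 j - 2) / qx k q3 j := by
      apply div_nonneg (mul_nonneg hx (by linarith)) (by linarith)
    linarith
  rw [e]
  have h7 : aq (qx k q3 j) p (fun y => (G y - H p y) - E p y)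
      ≤ 1 + C * t ^ (-(sx sg j * (qx k q3 j - 2) / qx k q3 j))
        + C * t ^ (-(sx sg j * (qx k q3 j - 2) / qx k q3 j)) := by linarith
  nlinarith


end WRd

/-! ### scaling -/


end Crest.Agent.R079.TRecN
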