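import Crest.Agent.R079.TS3a_351
import Crest.Agent.R079.TS0_903

/-! R079, [T3] part b (helper351): sizes of the letters of a windowed residual, words by rule (A) and
by `BN`, summed over the windows. -/

set_option autoImplicit false

namespace Crest.Agent.R079.TRec

namespace S351

open Finset Crest.Agent.R079.Grid Crest.Agent.R079.Growth Crest.Agent.R079.QRed

/-! ### monotonicity in the constant -/

theorem WRd_mono {D : Dict} {k q3 sg c1 C C' : ℝ} (hCC : C ≤ C') {j : Fin 4} {t : ℝ} (ht : 0 < t)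
    {R : Finset Nd} {J : Nd} {T : Finset Nd} {G : Fn} {H E X : Nd → Fn}
    (h : WRd D k q3 sg c1 C j t R J T G H E X) : WRd D k q3 sg c1 C' j t R J T G H E X where
  tops := h.tops
  adH := h.adH
  adE := h.adE
  eq := h.eq
  nrm := h.nrm
  lev := fun p hp => Lv_le hCC (h.lev p hp)
  frz := fun p hp => Fz_mass hCC (h.frz p hp)
  hav := fun p hp => (h.hav p hp).trans hCC
  eav := fun p hp => (h.eav p hp).trans
    (mul_le_mul_of_nonneg_right hCC (Real.rpow_nonneg ht.le _))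
  hsup := fun p hp y hy => (h.hsup p hp y hy).trans
    (mul_le_mul_of_nonneg_right hCC (Real.rpow_nonneg ht.le _))
  esup := fun p hp y hy => (h.esup p hp y hy).trans
    (mul_le_mul_of_nonneg_right hCC (Real.rpow_nonneg ht.le _))
  cnt := h.cnt.mono (mul_le_mul_of_nonneg_right hCC (Real.rpow_nonneg ht.le _))
  sq := fun p hp => (h.sq p hp).trans (mul_le_mul_of_nonneg_right hCC (lpos p).le)

/-! ### sizes -/

lemma aq_pow {q x y C t : ℝ} (hq : 2 ≤ q) (hC : 0 < C) (ht : 0 < t) {p : Nd} {f : Fn}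
    (hsup : ∀ z ∈ iv p, ‖f z‖ ≤ C * t ^ (-x)) (hav : av p f ≤ C * t ^ y) :
    aq q p f ≤ C * t ^ ((2 * y - x * (q - 2)) / q) := by
  have hq0 : 0 < q := by linarith
  have h1 : 0 < C * t ^ (-x) := mul_pos hC (Real.rpow_pos_of_pos ht _)
  have h2 : 0 ≤ C * t ^ y := (mul_pos hC (Real.rpow_pos_of_pos ht _)).le
  refine (aq_interp hq h1 p f hsup hav h2).trans (le_of_eq ?_)
  rw [Real.mul_rpow hC.le (Real.rpow_nonneg ht.le _), Real.mul_rpow hC.le
    (Real.rpow_nonneg ht.le _), ← Real.rpow_mul ht.le, ← Real.rpow_mul ht.le]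
  have e1 : C ^ ((q - 2) / q) * C ^ (2 / q) = C := by
    rw [← Real.rpow_add hC, ← add_div, show q - 2 + 2 = q by ring, div_self hq0.ne',
      Real.rpow_one]
  have e2 : t ^ (-x * ((q - 2) / q)) * t ^ (y * (2 / q)) = t ^ ((2 * y - x * (q - 2)) / q) := by
    rw [← Real.rpow_add ht]
    congr 1
    field_simp
    ring
  calc C ^ ((q - 2) / q) * t ^ (-x * ((q - 2) / q)) * (C ^ (2 / q) * t ^ (y * (2 / q)))
      = (C ^ ((q - 2) / q) * C ^ (2 / q)) * (t ^ (-x * ((q - 2) / q)) * t ^ (y * (2 / q))) := by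
        ring
    _ = _ := by rw [e1, e2]

lemma rp_le {t x y : ℝ} (ht : 0 < t) (ht1 : t ≤ 1) (h : y ≤ x) : t ^ x ≤ t ^ y :=
  Real.rpow_le_rpow_of_exponent_ge ht ht1 h

lemma one_le_rp {t x : ℝ} (ht : 0 < t) (ht1 : t ≤ 1) (h : x ≤ 0) : 1 ≤ t ^ x := by
  have := rp_le ht ht1 h
  rwa [Real.rpow_zero] at this

/-- parameters needed for the sizes -/
structure Pr (k q3 sg c1 C t : ℝ) : Prop where
  k0 : 0 < k
  hq3 : 2 < q3
  sg0 : 0 ≤ sg
  c10 : 0 < c1
  c11 : c1 ≤ 1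
  C1 : 1 ≤ C
  t0 : 0 < t
  t1 : t ≤ 1

section sizes
variable {D : Dict} {k q3 sg c1 C : ℝ} {j : Fin 4} {t : ℝ} {R : Finset Nd} {J : Nd}
  {T : Finset Nd} {G : Fn} {H E X : Nd → Fn}

lemma size_E (pr : Pr k q3 sg c1 C t) (h : WRd D k q3 sg c1 C j t R J T G H E X) (hj : j ≠ 3)
    {p : Nd} (hp : p ∈ R) : aq (qx k q3 j) p (E p) ≤ C * t ^ (c1 / 2 - k) := by
  have hk := pr.k0
  have e1 : qx k q3 j = 2 + k := if_neg hj
  have e2 : sx sg j = 1 := if_neg hj
  have h1 := h.esup p hp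
  rw [e2] at h1
  rw [e1]
  have h2 := aq_pow (q := 2 + k) (x := 1) (y := c1 / 2) (by linarith) (by linarith [pr.C1]) pr.t0
    h1 (h.eav p hp)
  refine h2.trans (mul_le_mul_of_nonneg_left (rp_le pr.t0 pr.t1 ?_) (by linarith [pr.C1]))
  rw [le_div_iff₀ (by linarith)]
  nlinarith [pr.c11, pr.c10, mul_pos hk hk, mul_le_mul_of_nonneg_right pr.c11 hk.le]

lemma size_H (pr : Pr k q3 sg c1 C t) (h : WRd D k q3 sg c1 C j t R J T G H E X) (hj : j ≠ 3)
    {p : Nd} (hp : p ∈ R) : aq (qx k q3 j) p (H p) ≤ C * t ^ (-k) := by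
  have hk := pr.k0
  have e1 : qx k q3 j = 2 + k := if_neg hj
  have e2 : sx sg j = 1 := if_neg hj
  have h1 := h.hsup p hp
  rw [e2] at h1
  rw [e1]
  have h0 : av p (H p) ≤ C * t ^ (0 : ℝ) := by rw [Real.rpow_zero, mul_one]; exact h.hav p hp
  have h2 := aq_pow (q := 2 + k) (x := 1) (y := 0) (by linarith) (by linarith [pr.C1]) pr.t0
    h1 h0
  refine h2.trans (mul_le_mul_of_nonneg_left (rp_le pr.t0 pr.t1 ?_) (by linarith [pr.C1]))
  rw [le_div_iff₀ (by linarith)]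
  nlinarith [mul_pos hk hk]



lemma qx_one (hk : 0 < k) (hq : 2 < q3) (j : Fin 4) : 1 ≤ qx k q3 j := by
  unfold qx
  split_ifs <;> linarith

lemma size_X (pr : Pr k q3 sg c1 C t) (h : WRd D k q3 sg c1 C j t R J T G H E X) (hj : j ≠ 3)
    {p : Nd} (hp : p ∈ R) : aq (qx k q3 j) p (X p) ≤ 3 * C * t ^ (-k) := by
  have hk := pr.k0
  have hC := pr.C1
  have hq := qx_one (q3 := q3) hk pr.hq3 j
  have e : X p = fun y => (fun y => G y - H p y) y - E p y := by
    funext y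
    rw [h.eq p hp y]
  rw [e]
  have h1 := aq_sub hq p (fun y => G y - H p y) (E p)
  have h2 := aq_sub hq p G (H p)
  have h3 := h.nrm p hp
  have h4 := size_H pr h hj hp
  have h5 := size_E pr h hj hp
  have h6 : t ^ (c1 / 2 - k) ≤ t ^ (-k) := rp_le pr.t0 pr.t1 (by linarith [pr.c10])
  have h7 : 1 ≤ t ^ (-k) := one_le_rp pr.t0 pr.t1 (by linarith)
  have h8 := mul_le_mul_of_nonneg_left h6 (by linarith : 0 ≤ C)
  have h9 : 1 ≤ C * t ^ (-k) := by nlinarith
  linarith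


end sizes

/-! ### letters with a size -/

/-- adapted letter of slot `j` with norm `≤ c t^x` -/
structure Lt (k q3 t : ℝ) (R T : Finset Nd) (j : Fin 4) (y : Nd → Fn) (c x : ℝ) : Prop where
  ad : Adp R T y
  nb : ∀ p ∈ R, aq (qx k q3 j) p (y p) ≤ c * t ^ x

/-- numbers in the slots -/
def r4 (a b m : Fin 4) (xa xb xm x3 : ℝ) : Fin 4 → ℝ :=
  fun j => if j = a then xa else if j = b then xb else if j = m then xm else x3

section r4
variable {a b m : Fin 4} (h : Sl a b m) (xa xb xm x3 : ℝ)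
include h

lemma r4_a : r4 a b m xa xb xm x3 a = xa := by
  have := h.ab
  exact if_pos rfl

lemma r4_b : r4 a b m xa xb xm x3 b = xb := by
  unfold r4
  rw [if_neg h.ab.symm, if_pos rfl]

lemma r4_m : r4 a b m xa xb xm x3 m = xm := by
  unfold r4
  rw [if_neg h.am.symm, if_neg h.bm.symm, if_pos rfl]

lemma r4_3 : r4 a b m xa xb xm x3 3 = x3 := by
  unfold r4
  rw [if_neg h.a3.symm, if_neg h.b3.symm, if_neg h.m3.symm]

lemma prod_r4 : ∏ j, r4 a b m xa xb xm x3 j = xa * xb * xm * x3 := by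
  classical
  have hu : (Finset.univ : Finset (Fin 4)) = {a, b, m, 3} := by
    ext j
    simp only [Finset.mem_univ, Finset.mem_insert, Finset.mem_singleton, true_iff]
    exact h.all j
  rw [hu, Finset.prod_insert, Finset.prod_insert, Finset.prod_insert, Finset.prod_singleton,
    r4_a h, r4_b h, r4_m h, r4_3 h]
  · ring
  · simp [h.m3]
  · simp [h.bm, h.b3]
  · simp [h.ab, h.am, h.a3]

end r4

section words
variable {D : Dict} {k q3 sg c0 c3 e t0 K : ℝ} {N : ℕ} {B : ℝ} {t c1 C : ℝ}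
  {bb : ℤ} {ε : ℕ → ℤ → ℂ} {R : Finset Nd} {J : Nd} {T : Finset Nd}
  {a b m : Fin 4} {ya yb ym y3 : Nd → Fn} {ca cb cm cc xa xb xm x3 : ℝ}

/-- hypotheses common to all words -/
structure Wd (k q3 : ℝ) (N : ℕ) (B t r cN : ℝ) (bb : ℤ) (ε : ℕ → ℤ → ℂ) (R : Finset Nd) (J : Nd)
    (T : Finset Nd) : Prop where
  k0 : 0 < k
  hq3 : 2 < q3
  B0 : 0 ≤ B
  bn : BN k q3 N B
  t0 : 0 < t
  t1 : t ≤ 1
  adm : Adm bb ε
  full : Full R J
  hN : J.1 ≤ N
  tops : Tops R J T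
  /-- total length of the windows -/
  cN0 : 0 ≤ cN
  num : ∑ I ∈ T, len I ≤ cN * t ^ (-r) * len J



end words

end S351

end Crest.Agent.R079.TRec
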