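import Crest.Agent.R079.TNS1_533
import Crest.Agent.R079.TS3b_351

/-! R079, node-dependent recursion (helper533; port of `TS3b_351`): sizes of the letters of a windowed
residual, scaled `An`. -/

set_option autoImplicit false

namespace Crest.Agent.R079.TRecN

namespace S351

open Finset Crest.Agent.R079.Grid Crest.Agent.R079.Growth Crest.Agent.R079.QRed
open Crest.Agent.R079.TRec Crest.Agent.R079.TRec.S351

/-! ### monotonicity in the constant -/

theorem WRd_mono {D : Dict} {k q3 sg c1 C C' : ℝ} (hCC : C ≤ C') {j : Fin 4} {t : ℝ} (ht : 0 < t)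
    {R : Finset Nd} {J : Nd} {T : Finset Nd} {G : Fn} {H E X : Nd → Fn}
    (h : WRd D k q3 sg c1 C j t R J T G H E X) : WRd D k q3 sg c1 C' j t R J T G H E X where
  tops := h.tops
  adH := h.adH
  adE := h.adE
  eq := h.eq
  nrm := h.nrm
  lev := fun p hp => Lv_le hCC (h.lev p hp)
  frz := fun p hp => Fz_mass hCC (h.frz p hp)
  hav := fun p hp => (h.hav p hp).trans hCC
  eav := fun p hp => (h.eav p hp).trans
    (mul_le_mul_of_nonneg_right hCC (Real.rpow_nonneg ht.le _))
  hsup := fun p hp y hy => (h.hsup p hp y hy).trans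
    (mul_le_mul_of_nonneg_right hCC (Real.rpow_nonneg ht.le _))
  esup := fun p hp y hy => (h.esup p hp y hy).trans
    (mul_le_mul_of_nonneg_right hCC (Real.rpow_nonneg ht.le _))
  cnt := h.cnt.mono (mul_le_mul_of_nonneg_right hCC (Real.rpow_nonneg ht.le _))
  sq := fun p hp => (h.sq p hp).trans (mul_le_mul_of_nonneg_right hCC (lpos p).le)

/-! ### sizes -/

section sizes
variable {D : Dict} {k q3 sg c1 C : ℝ} {j : Fin 4} {t : ℝ} {R : Finset Nd} {J : Nd}
  {T : Finset Nd} {G : Fn} {H E X : Nd → Fn}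

lemma size_E (pr : Pr k q3 sg c1 C t) (h : WRd D k q3 sg c1 C j t R J T G H E X) (hj : j ≠ 3)
    {p : Nd} (hp : p ∈ R) : aq (qx k q3 j) p (E p) ≤ C * t ^ (c1 / 2 - k) := by
  have hk := pr.k0
  have e1 : qx k q3 j = 2 + k := if_neg hj
  have e2 : sx sg j = 1 := if_neg hj
  have h1 := h.esup p hp
  rw [e2] at h1
  rw [e1]
  have h2 := aq_pow (q := 2 + k) (x := 1) (y := c1 / 2) (by linarith) (by linarith [pr.C1]) pr.t0
    h1 (h.eav p hp)
  refine h2.trans (mul_le_mul_of_nonneg_left (rp_le pr.t0 pr.t1 ?_) (by linarith [pr.C1]))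
  rw [le_div_iff₀ (by linarith)]
  nlinarith [pr.c11, pr.c10, mul_pos hk hk, mul_le_mul_of_nonneg_right pr.c11 hk.le]

lemma size_H (pr : Pr k q3 sg c1 C t) (h : WRd D k q3 sg c1 C j t R J T G H E X) (hj : j ≠ 3)
    {p : Nd} (hp : p ∈ R) : aq (qx k q3 j) p (H p) ≤ C * t ^ (-k) := by
  have hk := pr.k0
  have e1 : qx k q3 j = 2 + k := if_neg hj
  have e2 : sx sg j = 1 := if_neg hj
  have h1 := h.hsup p hp
  rw [e2] at h1
  rw [e1]
  have h0 : av p (H p) ≤ C * t ^ (0 : ℝ) := by rw [Real.rpow_zero, mul_one]; exact h.hav p hp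
  have h2 := aq_pow (q := 2 + k) (x := 1) (y := 0) (by linarith) (by linarith [pr.C1]) pr.t0
    h1 h0
  refine h2.trans (mul_le_mul_of_nonneg_left (rp_le pr.t0 pr.t1 ?_) (by linarith [pr.C1]))
  rw [le_div_iff₀ (by linarith)]
  nlinarith [mul_pos hk hk]



lemma size_X (pr : Pr k q3 sg c1 C t) (h : WRd D k q3 sg c1 C j t R J T G H E X) (hj : j ≠ 3)
    {p : Nd} (hp : p ∈ R) : aq (qx k q3 j) p (X p) ≤ 3 * C * t ^ (-k) := by
  have hk := pr.k0
  have hC := pr.C1
  have hq := qx_one (q3 := q3) hk pr.hq3 j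
  have e : X p = fun y => (fun y => G y - H p y) y - E p y := by
    funext y
    rw [h.eq p hp y]
  rw [e]
  have h1 := aq_sub hq p (fun y => G y - H p y) (E p)
  have h2 := aq_sub hq p G (H p)
  have h3 := h.nrm p hp
  have h4 := size_H pr h hj hp
  have h5 := size_E pr h hj hp
  have h6 : t ^ (c1 / 2 - k) ≤ t ^ (-k) := rp_le pr.t0 pr.t1 (by linarith [pr.c10])
  have h7 : 1 ≤ t ^ (-k) := one_le_rp pr.t0 pr.t1 (by linarith)
  have h8 := mul_le_mul_of_nonneg_left h6 (by linarith : 0 ≤ C)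
  have h9 : 1 ≤ C * t ^ (-k) := by nlinarith
  linarith


end sizes


end S351

end Crest.Agent.R079.TRecN
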