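import Crest.Agent.R079.TNS0_533
import Crest.Agent.R079.TWL_649
import Crest.Agent.R079.TNS1_533
import Crest.Agent.R079.TS3d_903
import Crest.Agent.R079.TNS3b_533
import Crest.Agent.R079.TTop_13

-- ▼ part R079/TNWin_533
section

/-! R079, node-dependent recursion (helper533): common windows of four static letters (port of `TWL_649`
onto the node-dependent LASSO `LasN_525`). -/

set_option autoImplicit false

namespace Crest.Agent.R079.TRecN

open Finset Crest.Agent.R079.Grid Crest.Agent.R079.Glue Crest.Agent.R079.Growth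
  Crest.Agent.R079.QRed Crest.Agent.R079.Qe292 Crest.Agent.R079.TWin649
open Crest.Agent.R079.TRec Crest.Agent.R079.TWL649

/-- **[T1] WINDOWS** -/
theorem winLem : WinLem := by
  classical
  refine ⟨100, by norm_num, ?_⟩
  intro D k q3 sg c1 hD hk0 hk1 hq3 hsg0 hsg1 hc10 hc11 R J hR G hG t ht ht1
  have hloc : ∀ j, ∀ p ∈ R, av p (G j) ≤ 1 := by
    intro j p hp
    refine (av_le_aq ?_ p (G j)).trans (hG j p hp)
    unfold qx
    split_ifs <;> linarith
  -- parameters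
  have hδ0 : 0 < t ^ c1 := Real.rpow_pos_of_pos ht _
  have hδ1 : t ^ c1 ≤ 1 := Real.rpow_le_one ht.le ht1 hc10.le
  have hδt : t ≤ t ^ c1 := by
    have := Real.rpow_le_rpow_of_exponent_ge ht ht1 hc11
    rwa [Real.rpow_one] at this
  set δ : ℝ := t ^ c1 with hδ
  set r : ℝ := t ^ 2 / 16 with hr
  have ht2 : 0 < t ^ 2 := by positivity
  have ht21 : t ^ 2 ≤ 1 := pow_le_one₀ ht.le ht1
  have hr0 : 0 < r := by positivity
  have hr1 : r ≤ 1 / 16 := by rw [hr]; linarith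
  have hrsq : r ^ 2 ≤ 1 / 256 := by nlinarith
  have hrδ : 32 * (Fintype.card (Fin 4) : ℝ) * r ^ 2 ≤ δ := by
    rw [Fintype.card_fin]
    push_cast
    have h1 : t ^ 2 * t ^ 2 ≤ t := by nlinarith
    have h2 : r ^ 2 = t ^ 2 * t ^ 2 / 256 := by rw [hr]; ring
    rw [h2]
    linarith
  have hcst : ∀ j : Fin 4, LasN525.Cst (D j t) := fun j => hD.cst j t ht ht1
  obtain ⟨f, hN⟩ := LasN525.exists_Near hcst hr0 G
  obtain ⟨S, W, hS, hJS, hdc, hen⟩ := LasN525.windows hN hR hloc hδ0 (by linarith) hrδ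
  have hdv : ∀ K ∈ S, ∀ p ∈ W K, dv f K p ≤ δ := fun K hK p hp => (hdc K hK p hp).1
  have hex : ∀ p : Nd, ∃ K : Nd, p ∈ R → K ∈ S ∧ p ∈ W K := by
    intro p
    by_cases hp : p ∈ R
    · obtain ⟨K, hK, hpK⟩ := hS.cover p hp
      exact ⟨K, fun _ => ⟨hK, hpK⟩⟩
    · exact ⟨p, fun h => absurd h hp⟩
  choose o ho using hex
  have hoI : ∀ p ∈ R, ∀ I, Wn S I p → o p = I := fun p hp I hI =>
    wn_eq hS (ho p hp).1 (ho p hp).2 hI
  have hoS : ∀ I ∈ S, o I = I := fun I hI =>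
    wn_eq hS (ho I (hS.sub hI)).1 (ho I (hS.sub hI)).2
      ⟨hI, subset_rfl, fun I' _ h => h⟩
  have hsub : ∀ p ∈ R, iv p ⊆ iv (o p) := fun p hp =>
    (hS.full _ (ho p hp).1).reg.1 p (ho p hp).2
  have hav1 : ∀ j, ∀ p ∈ R, av p (G j) ^ 2 ≤ 1 := fun j p hp =>
    pow_le_one₀ (Real.sqrt_nonneg _) (hloc j p hp)
  have htop : ∀ j, ∀ p ∈ R, av p (fun y => G j y - f j p y) ^ 2 + 2 * D j t p (f j p) ≤ 1 + r ^ 2 := by
    intro j p hp
    have h1 := LasN525.Ph_top hN j p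
    unfold LasN525.Ph at h1
    linarith [hav1 j p hp]
  -- sup bound of the near-minimisers
  have hsup0 : ∀ j, 0 ≤ t ^ (-(sx sg j)) := fun j => Real.rpow_nonneg ht.le _
  have hcost : ∀ j, ∀ p ∈ R, D j t p (f j p) ≤ 1 := by
    intro j p hp
    have h1 := htop j p hp
    have h2 : 0 ≤ av p (fun y => G j y - f j p y) ^ 2 := sq_nonneg _
    linarith
  have hsup : ∀ j, ∀ p ∈ R, ∀ y ∈ iv p, ‖f j p y‖ ≤ t ^ (-(sx sg j)) := by
    intro j p hp y hy
    refine (hD.sup j t ht ht1 p _ y hy).trans ?_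
    exact mul_le_of_le_one_left (hsup0 j) (hcost j p hp)
  have hfav : ∀ j, ∀ p ∈ R, av p (f j p) ^ 2 ≤ 5 := by
    intro j p hp
    have h1 := av_two p (f j p) (G j)
    have h2 := htop j p hp
    have h3 := (hcst j).nonneg p (f j p)
    rw [av_symm p (f j p) (G j)] at h1
    linarith [hav1 j p hp]
  have hdvi : ∀ j, ∀ p ∈ R, av p (fun y => f j (o p) y - f j p y) ^ 2 ≤ δ := by
    intro j p hp
    refine le_trans ?_ (hdv (o p) (ho p hp).1 p (ho p hp).2)
    unfold dv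
    exact Finset.single_le_sum (f := fun i => av p (fun y => f i (o p) y - f i p y) ^ 2)
      (fun i _ => sq_nonneg _) (Finset.mem_univ j)
  refine ⟨S, fun j p => f j (o p), fun j p => Ew (f j) (W (o p)) (o p), fun j => ?_⟩
  refine ⟨tops_of hR hS hJS, ?_, ?_, fun _ _ _ => rfl, hG j, ?_, ?_, ?_, ?_, ?_, ?_, ?_, ?_⟩
  · -- adH
    intro p hp I hI
    show f j (o p) = f j (o I)
    rw [hoI p hp I hI, hoS I hI.1]
  · intro p hp I hI
    show Ew (f j) (W (o p)) (o p) = Ew (f j) (W (o I)) (o I)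
    rw [hoI p hp I hI, hoS I hI.1]
  · -- level
    intro p hp φ hφ
    have hK := (ho p hp).1
    have hc := hD.conj j t ht ht1 p φ
    have h1 := hN.lev_gl hr0 (hS.full _ hK) j (ho p hp).2 (fun y => (starRingEnd ℂ) (φ y))
    simp only [Complex.conj_conj] at h1
    have h3 : ∑ y ∈ iv p, (G j y - f j (o p) y - Ew (f j) (W (o p)) (o p) y) * φ y
        = ∑ y ∈ iv p, (G j y - gl (W (o p)) (f j) y) * φ y := by
      refine Finset.sum_congr rfl fun y hy => ?_
      rw [Ew_of (hsub p hp hy)]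
      ring
    rw [h3]
    refine h1.trans (mul_le_mul_of_nonneg_right ?_ (Growth.len_pos p).le)
    -- the error
    have hφs : ∀ y ∈ iv p, ‖(starRingEnd ℂ) (φ y)‖ ≤ t⁻¹ := by
      intro y hy
      rw [RCLike.norm_conj]
      refine (hD.sup j t ht ht1 p φ y hy).trans ?_
      refine (mul_le_of_le_one_left (hsup0 j) hφ).trans ?_
      rw [← Real.rpow_neg_one]
      exact Real.rpow_le_rpow_of_exponent_ge ht ht1 (by linarith [sx_le_one hsg1 j])
    have hlen := Growth.len_pos p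
    have hav : av p (fun y => (starRingEnd ℂ) (φ y)) ^ 2 ≤ (t⁻¹) ^ 2 := by
      rw [QVar181.av_sq, one_div, inv_mul_le_iff₀ hlen]
      calc ∑ y ∈ iv p, ‖(starRingEnd ℂ) (φ y)‖ ^ 2 ≤ ∑ _y ∈ iv p, (t⁻¹) ^ 2 :=
            Finset.sum_le_sum fun y hy => pow_le_pow_left₀ (norm_nonneg _) (hφs y hy) 2
        _ = len p * (t⁻¹) ^ 2 := by rw [Finset.sum_const, nsmul_eq_mul, card_iv]
    have h5 : r * (t⁻¹) ^ 2 = 1 / 16 := by
      rw [hr]
      field_simp
    have h6 : r * av p (fun y => (starRingEnd ℂ) (φ y)) ^ 2 ≤ 1 / 16 := by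
      rw [← h5]
      exact mul_le_mul_of_nonneg_left hav hr0.le
    have h7 := hc.trans hφ
    have e : r * (1 + av p (fun y => (starRingEnd ℂ) (φ y)) ^ 2) / 2
        = (r + r * av p (fun y => (starRingEnd ℂ) (φ y)) ^ 2) / 2 := by ring
    rw [e]
    linarith
  · -- frozen
    intro p hp
    have h1 := (hdc (o p) (ho p hp).1 p (ho p hp).2).2
    rw [Fintype.card_fin] at h1
    have h2 : D j t p (f j (o p)) ≤ LasN525.cs (fun j => D j t) f (o p) p := by
      unfold LasN525.cs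
      exact Finset.single_le_sum (f := fun i => D i t p (f i (o p)))
        (fun i _ => (hcst i).nonneg p _) (Finset.mem_univ j)
    push_cast at h1
    show D j t p (f j (o p)) ≤ 100
    linarith
  · -- local norm of H
    intro p hp
    have h1 := av_two p (f j (o p)) (f j p)
    have h2 := hfav j p hp
    have h4 := hdvi j p hp
    have h5 : 0 ≤ av p (f j (o p)) := Real.sqrt_nonneg _
    show av p (f j (o p)) ≤ 100
    nlinarith
  · -- local norm of E
    intro p hp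
    have h1 := Ew_loc (hS.full _ (ho p hp).1) (hdv (o p) (ho p hp).1) j (ho p hp).2
    have h2 : 0 ≤ t ^ (c1 / 2) := Real.rpow_nonneg ht.le _
    have h3 : (t ^ (c1 / 2)) ^ 2 = δ := by
      rw [← Real.rpow_natCast, ← Real.rpow_mul ht.le, hδ]
      congr 1
      push_cast
      ring
    rw [← h3] at h1
    have h4 := abs_le_of_sq_le_sq h1 h2
    show av p (Ew (f j) (W (o p)) (o p)) ≤ 100 * t ^ (c1 / 2)
    have h5 : av p (Ew (f j) (W (o p)) (o p)) ≤ t ^ (c1 / 2) := (le_abs_self _).trans h4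
    linarith
  · intro p hp y hy
    refine (hsup j (o p) (hS.sub (ho p hp).1) y (hsub p hp hy)).trans ?_
    linarith [hsup0 j]
  · intro p hp y hy
    have h1 := Ew_sup (hS.full _ (ho p hp).1) (hsup0 j)
      (fun q hq => hsup j q (hS.wsub _ (ho p hp).1 hq)) y
    refine h1.trans ?_
    linarith [hsup0 j]
  · -- count
    intro p hp
    have h1 := hS.cnt p hp
    refine le_trans (Finset.sum_le_sum_of_subset_of_nonneg ?_ fun I _ _ =>
      (Growth.len_pos I).le) (h1.trans ?_)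
    · intro I hI
      rw [Finset.mem_filter] at hI ⊢
      exact ⟨hI.1, hI.2.1⟩
    · refine mul_le_mul_of_nonneg_right ?_ (Growth.len_pos p).le
      rw [Real.rpow_neg ht.le, Fintype.card_fin, ← hδ]
      push_cast
      have h2 : 1 ≤ δ⁻¹ := (one_le_inv₀ hδ0).2 hδ1
      rw [div_eq_mul_inv]
      linarith
  · -- squares
    intro p hp
    have h1 := hen p hp
    refine le_trans (le_trans (Finset.sum_le_sum fun I hI => ?_)
      (Finset.sum_le_sum_of_subset_of_nonneg (f := fun K => en f (W K) K)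
        (t := S.filter fun K => iv K ⊆ iv p) ?_ fun I _ _ => en_nonneg f (W I) I)) (h1.trans ?_)
    · have hIS : I ∈ S := (Finset.mem_filter.1 hI).1
      show ∑ y ∈ iv I, ‖Ew (f j) (W (o I)) (o I) y‖ ^ 2 ≤ en f (W I) I
      rw [hoS I hIS, sum_av, av_Ew subset_rfl]
      unfold en
      refine mul_le_mul_of_nonneg_left ?_ (Growth.len_pos I).le
      exact Finset.single_le_sum
        (f := fun i => av I (fun y => gl (W I) (f i) y - f i I y) ^ 2)
        (fun i _ => sq_nonneg _) (Finset.mem_univ j)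
    · intro I hI
      rw [Finset.mem_filter] at hI ⊢
      exact ⟨hI.1, hI.2.1⟩
    · rw [Fintype.card_fin, mul_comm]
      refine mul_le_mul_of_nonneg_right ?_ (Growth.len_pos p).le
      push_cast
      linarith

end Crest.Agent.R079.TRecN
end

-- ▼ part R079/TNS3d_533
section

/-! R079, node-dependent recursion (helper533; port of `TS3d_903`, `TS3b_903`): scaling of `RuleA2` and
**`TwoLem2`** (two windowed residuals, slots `m ≠ m'`, both `≠ 3`). -/

set_option autoImplicit false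

namespace Crest.Agent.R079.TRecN

open Crest.Agent.R079.TRec Crest.Agent.R079.TRec.T3b

open Finset Crest.Agent.R079.Grid Crest.Agent.R079.Growth Crest.Agent.R079.QRed

theorem RuleA2_gen_pos {D : Dict} {sg : ℝ} (hD : Dic D sg) {k q3 c0 e t0 K : ℝ} (hk : 0 < k)
    (hq3 : 2 < q3) (he : 0 ≤ e)
    (h : RuleA2 D k q3 c0 e t0 K) {N : ℕ} {B : ℝ} (hB : 0 ≤ B) (hBN : BN k q3 N B) {t : ℝ}
    (ht : 0 < t) (ht1 : t ≤ 1) (htt : t ≤ t0) {bb : ℤ} {ε : ℕ → ℤ → ℂ} (hA : Adm bb ε) {W : Finset Nd} {I : Nd}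
    (hW : Full W I) (hI : I.1 ≤ N) {F : Fin 4 → Fn} {b : Fin 4 → ℝ} (hb0 : ∀ j, 0 < b j)
    (hF : ∀ j, ∀ p ∈ W, aq (qx k q3 j) p (F j) ≤ b j) {i m : Fin 4} (him : i ≠ m) (hi3 : i ≠ 3) (hm3 : m ≠ 3) {M s : ℝ}
    (hfz : ∀ p ∈ W, Fz D i (t ^ (1 + e)) M p (F i)) (hM : M ≤ b i)
    (hlv : ∀ p ∈ W, Lv D m t s p (F m)) (hs : s ≤ b m) :
    ‖TR bb ε W F‖ ≤ K * (1 + B) * (∏ j, b j) * t ^ c0 * len I := by
  rw [TR_scale bb ε W F b hb0]
  have hinv : ∀ j, ‖((b j : ℂ))⁻¹‖ = (b j)⁻¹ := fun j => by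
    rw [norm_inv, Complex.norm_real, Real.norm_of_nonneg (hb0 j).le]
  have h1 := h N B hB hBN t ht htt bb ε hA W I hW hI (fun j y => ((b j)⁻¹ : ℂ) * F j y) (by
    intro j p hp
    rw [aq_smul (by linarith [two_lt_qx hk hq3 j]), hinv, inv_mul_le_iff₀ (hb0 j), mul_one]
    exact hF j p hp) i m him hi3 hm3
    (fun p hp => Fz_mass (by
      rw [hinv, inv_mul_le_iff₀ (hb0 i), mul_one]; exact hM)
      (Fz_csmul hD (Real.rpow_pos_of_pos ht _) (Real.rpow_le_one ht.le ht1 (by linarith))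
        (hfz p hp) _))
    (fun p hp => Lv_le (by
      rw [hinv, inv_mul_le_iff₀ (hb0 m), mul_one]; exact hs) (Lv_csmul (hlv p hp) _))
  have h2 : 0 ≤ ∏ j, b j := Finset.prod_nonneg fun j _ => (hb0 j).le
  refine (mul_le_mul_of_nonneg_left h1 h2).trans (le_of_eq ?_)
  ring

/-- **scaled rule (A), general form**: any `b j ≥ 0` above the norms, `b i` above the mass, `b m`
above the level -/
theorem RuleA2_gen {D : Dict} {sg : ℝ} (hD : Dic D sg) {k q3 c0 e t0 K : ℝ} (hk : 0 < k)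
    (hq3 : 2 < q3) (he : 0 ≤ e)
    (h : RuleA2 D k q3 c0 e t0 K) {N : ℕ} {B : ℝ} (hB : 0 ≤ B) (hBN : BN k q3 N B) {t : ℝ}
    (ht : 0 < t) (ht1 : t ≤ 1) (htt : t ≤ t0) {bb : ℤ} {ε : ℕ → ℤ → ℂ} (hA : Adm bb ε) {W : Finset Nd} {I : Nd}
    (hW : Full W I) (hI : I.1 ≤ N) {F : Fin 4 → Fn} {b : Fin 4 → ℝ} (hb0 : ∀ j, 0 ≤ b j)
    (hF : ∀ j, ∀ p ∈ W, aq (qx k q3 j) p (F j) ≤ b j) {i m : Fin 4} (him : i ≠ m) (hi3 : i ≠ 3) (hm3 : m ≠ 3) {M s : ℝ}
    (hfz : ∀ p ∈ W, Fz D i (t ^ (1 + e)) M p (F i)) (hM : M ≤ b i)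
    (hlv : ∀ p ∈ W, Lv D m t s p (F m)) (hs : s ≤ b m) :
    ‖TR bb ε W F‖ ≤ K * (1 + B) * (∏ j, b j) * t ^ c0 * len I := by
  have hlim : Filter.Tendsto
      (fun x : ℝ => K * (1 + B) * (∏ j, (b j + x)) * t ^ c0 * len I)
      (nhdsWithin 0 (Set.Ioi 0))
      (nhds (K * (1 + B) * (∏ j, (b j + 0)) * t ^ c0 * len I)) := by
    have hc : Continuous fun x : ℝ =>
        K * (1 + B) * (∏ j, (b j + x)) * t ^ c0 * len I := by fun_prop
    exact (hc.tendsto 0).mono_left nhdsWithin_le_nhds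
  simp only [add_zero] at hlim
  refine ge_of_tendsto hlim ?_
  filter_upwards [self_mem_nhdsWithin] with x hx
  have hx0 : 0 < x := hx
  exact RuleA2_gen_pos hD hk hq3 he h hB hBN ht ht1 htt hA hW hI (fun j => by linarith [hb0 j])
    (fun j p hp => (hF j p hp).trans (by linarith)) him hi3 hm3 hfz (by linarith) hlv (by linarith)

/-- **scaled rule (A)**: norms `a j ≥ 1`, level `C`, mass `C` -/
theorem RuleA2_scaled {D : Dict} {sg : ℝ} (hD : Dic D sg) {k q3 c0 e t0 K : ℝ} (hk : 0 < k)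
    (hq3 : 2 < q3) (he : 0 ≤ e)
    (h : RuleA2 D k q3 c0 e t0 K) {N : ℕ} {B : ℝ} (hB : 0 ≤ B) (hBN : BN k q3 N B) {t : ℝ}
    (ht : 0 < t) (ht1 : t ≤ 1) (htt : t ≤ t0) {bb : ℤ}
    {ε : ℕ → ℤ → ℂ} (hA : Adm bb ε) {W : Finset Nd} {I : Nd} (hW : Full W I) (hI : I.1 ≤ N)
    {F : Fin 4 → Fn} {a : Fin 4 → ℝ} {C : ℝ} (hC : 1 ≤ C) (ha : ∀ j, 1 ≤ a j)
    (hF : ∀ j, ∀ p ∈ W, aq (qx k q3 j) p (F j) ≤ a j) {i m : Fin 4} (him : i ≠ m) (hi3 : i ≠ 3) (hm3 : m ≠ 3)
    (hfz : ∀ p ∈ W, Fz D i (t ^ (1 + e)) C p (F i)) (hlv : ∀ p ∈ W, Lv D m t C p (F m)) :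
    ‖TR bb ε W F‖ ≤ K * (1 + B) * C ^ 2 * (∏ j, a j) * t ^ c0 * len I := by
  classical
  have ha0 : ∀ j, 0 < a j := fun j => by linarith [ha j]
  have hC0 : 0 < C := by linarith
  have h1 := RuleA2_gen hD hk hq3 he h hB hBN ht ht1 htt hA hW hI (F := F)
    (b := fun j => if j = i ∨ j = m then C * a j else a j)
    (fun j => by
      have := ha0 j
      split_ifs <;> positivity)
    (fun j p hp => by
      refine (hF j p hp).trans ?_
      have := ha0 j
      split_ifs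
      · nlinarith
      · exact le_refl _) him hi3 hm3 hfz (by
        have := ha i
        simp only [true_or, if_true]
        nlinarith) hlv (by
        have := ha m
        simp only [or_true, if_true]
        nlinarith)
  have hprod : (∏ j, (if j = i ∨ j = m then C * a j else a j)) = C ^ 2 * ∏ j, a j := by
    have e1 : ∀ j, (if j = i ∨ j = m then C * a j else a j)
        = (if j = i ∨ j = m then C else 1) * a j := by
      intro j
      split_ifs <;> ring
    rw [Finset.prod_congr rfl fun j _ => e1 j, Finset.prod_mul_distrib]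
    congr 1
    rw [Finset.prod_ite, Finset.prod_const_one, mul_one, Finset.prod_const]
    congr 1
    have : (Finset.univ.filter fun j : Fin 4 => j = i ∨ j = m) = {i, m} := by
      ext j; simp
    rw [this, Finset.card_pair him]
  rw [hprod] at h1
  refine h1.trans (le_of_eq ?_)
  ring

namespace T3b

variable {R : Finset Nd} {J : Nd}

section slots

variable {D : Dict} {k q3 sg c1 C : ℝ} {j : Fin 4} {t : ℝ} {T : Finset Nd} {G : Fn}
  {H E X : Nd → Fn}

theorem X_le (h : WRd D k q3 sg c1 C j t R J T G H E X) (hj : j ≠ 3) (hk : 0 < k) (hq3 : 2 < q3)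
    (hsg : 0 ≤ sg) (hc1 : 0 ≤ c1) (hC : 1 ≤ C) (ht : 0 < t) (ht1 : t ≤ 1) {p : Nd} (hp : p ∈ R) :
    aq (qx k q3 j) p (X p) ≤ 3 * C * t ^ (-(k / 2)) :=
  (h.aqX hk hq3 hsg hc1 hC ht ht1 hp).trans
    (mul_le_mul_of_nonneg_left (loss hk ht ht1 hj) (by linarith))

theorem H_le (h : WRd D k q3 sg c1 C j t R J T G H E X) (hj : j ≠ 3) (hk : 0 < k) (hq3 : 2 < q3)
    (hC : 1 ≤ C) (ht : 0 < t) (ht1 : t ≤ 1) {p : Nd} (hp : p ∈ R) :
    aq (qx k q3 j) p (H p) ≤ C * t ^ (-(k / 2)) :=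
  (h.aqH hk hq3 (by linarith) ht hp).trans
    (mul_le_mul_of_nonneg_left (loss hk ht ht1 hj) (by linarith))

end slots

/-- **[T3a] v2, strong form** -/
theorem two_core2 (hConv : ConvLem) (D : Dict) (k q3 sg c0 c3 e c1 bt t0 K C : ℝ)
    (o : Ok k q3 sg c0 c3 e c1 bt) (ht01 : t0 ≤ 1) (hK : 0 ≤ K) (hC : 1 ≤ C)
    (hD : Dic D sg) (hRA : RuleA2 D k q3 c0 e t0 K) : ∃ K' : ℝ, 0 ≤ K' ∧
    ∀ N B t A, 0 ≤ B → BN k q3 N B → 0 < t → t ≤ t0 → 0 ≤ A →
      An D k q3 sg c1 C N (t ^ (1 + e)) A →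
      Bn D k q3 sg c1 C N (t ^ (1 + e)) t
        (K' * t ^ (-(5 * k)) * A + K' * (1 + B) * t ^ (bt + 18 * k)) := by
  classical
  obtain ⟨C', hC', hcv⟩ := hConv k o.k0 (by linarith [k_small o]) C hC
  have hC0 : 0 < C := by linarith
  refine ⟨1 + C' + 9 * C ^ 5 * K, by positivity, ?_⟩
  intro N B t A hB hBN ht htt0 hA0 hAn bb ε hA R J hR hJ m m' hm hm' hmm T G H E X hW T' G' H' E' X'
    hW' F hF
  have ht1 : t ≤ 1 := htt0.trans ht01
  set τ : ℝ := t ^ (1 + e) with hτd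
  have hτ : 0 < τ := Real.rpow_pos_of_pos ht _
  have hτt : τ ≤ t := by
    calc τ ≤ t ^ (1 : ℝ) := Real.rpow_le_rpow_of_exponent_ge ht ht1 (by linarith [o.e0])
      _ = t := Real.rpow_one t
  have hτ1 : τ ≤ 1 := hτt.trans ht1
  have hL := Growth.len_pos J
  set Y : Fin 4 → Nd → Fn := Function.update (fun j _ => F j) m X with hYd
  have hne : m' ≠ m := hmm.symm
  -- static slot `m'`
  have hstat : ∀ z : Fn, Function.update Y m' (fun _ => z)
      = Function.update (fun j _ => Function.update F m' z j) m X := by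
    intro z
    rw [hYd, Function.update_comm hmm]
    congr 1
    funext j
    by_cases hj : j = m'
    · subst hj; simp
    · simp [hj]
  have hsmall : ∀ ε', Adm bb ε' → ∀ R' J', Full R' J' → R' ⊆ R → ∀ z : Fn,
      (∀ p ∈ R', aq (2 + k) p z ≤ 1) →
      ‖TP bb ε' R' (Function.update Y m' (fun _ => z))‖ ≤ A * len J' := by
    intro ε' hε' R' J' hR' hs z hz
    rw [hstat z]
    refine hAn bb ε' hε' R' J' hR' ((ht_le hR hR' hs).trans hJ) m hm _ G H E X
      (hW.restrict hR hR' hs) (Function.update F m' z) ?_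
    intro j hj p hp
    by_cases hjm : j = m'
    · subst hjm
      rw [Function.update_self, qx_ne hm']
      exact hz p hp
    · rw [Function.update_of_ne hjm]
      exact hF j hj hjm p (hs hp)
  -- word G'
  have hG : ‖TP bb ε R (Function.update Y m' (fun _ => G'))‖ ≤ A * len J := by
    refine hsmall ε hA R J hR (Finset.Subset.refl _) G' ?_
    intro p hp
    have := hW'.nrm p hp
    rwa [qx_ne hm'] at this
  -- word E'
  have hE : ‖TP bb ε R (Function.update Y m' E')‖ ≤ C' * t ^ (-(5 * k)) * A * len J := by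
    have hc : t ^ (-c1) ≤ t⁻¹ := by
      rw [← Real.rpow_neg_one]
      exact Real.rpow_le_rpow_of_exponent_ge ht ht1 (by linarith [o.c11])
    refine hcv bb m' t A ht ht1 hA0 R J hR Y T' E' hW'.tops hW'.adE ?_ ?_ ?_ hW'.sq hsmall ε hA
    · intro p hp
      refine (hW'.eav p hp).trans ?_
      have : t ^ (c1 / 2) ≤ 1 := Real.rpow_le_one ht.le ht1 (by linarith [o.c10])
      nlinarith
    · intro p hp y hy
      refine (hW'.esup p hp y hy).trans (le_of_eq ?_)
      rw [sx_ne hm', Real.rpow_neg_one]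
    · exact hW'.cnt.mono (mul_le_mul_of_nonneg_left hc hC0.le)
  -- word H'
  have hH : ‖TP bb ε R (Function.update Y m' H')‖
      ≤ 9 * C ^ 5 * K * (1 + B) * t ^ (bt + 18 * k) * len J := by
    have hTT := hW.tops.union hW'.tops
    have hadX : Adp R (T ∪ T') X := hW.adX.finer hR hW.tops hTT Finset.subset_union_left
    have hadH : Adp R (T ∪ T') H' := hW'.adH.finer hR hW'.tops hTT Finset.subset_union_right
    have had : ∀ j, Adp R (T ∪ T') (Function.update Y m' H' j) := by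
      intro j
      by_cases hj : j = m'
      · subst hj; rw [Function.update_self]; exact hadH
      · rw [Function.update_of_ne hj, hYd]
        by_cases hj' : j = m
        · subst hj'; rw [Function.update_self]; exact hadX
        · rw [Function.update_of_ne hj']; exact Adp.const _
    have hcτ : t ^ (-c1) ≤ τ ^ (-c1) :=
      Real.rpow_le_rpow_of_nonpos hτ hτt (by linarith [o.c10])
    have hcτ1 : 1 ≤ τ ^ (-c1) :=
      Real.one_le_rpow_of_pos_of_le_one_of_nonpos hτ hτ1 (by linarith [o.c10])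
    have hcnt : Cnt R (T ∪ T') (2 * C * τ ^ (-c1)) :=
      (hW.cnt.union hW'.cnt).mono (by nlinarith)
    have hpk : t ^ (-(k / 2)) ≤ t ^ (-k) :=
      Real.rpow_le_rpow_of_exponent_ge ht ht1 (by linarith [o.k0])
    have hpk' : τ ^ (-(k / 2)) ≤ t ^ (-k) := by
      rw [hτd, ← Real.rpow_mul ht.le]
      refine Real.rpow_le_rpow_of_exponent_ge ht ht1 ?_
      nlinarith [o.k0, o.e1]
    have hk1 : 1 ≤ t ^ (-k) :=
      Real.one_le_rpow_of_pos_of_le_one_of_nonpos ht ht1 (by linarith [o.k0])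
    set a : Fin 4 → ℝ := fun j =>
      (if j = m then 3 * C * t ^ (-k) else 1) * (if j = m' then C * t ^ (-k) else 1) with had'
    have ha1 : ∀ j, 1 ≤ a j := by
      intro j
      have h1 : (1 : ℝ) ≤ (if j = m then 3 * C * t ^ (-k) else 1) := by
        split_ifs
        · nlinarith
        · exact le_refl _
      have h2 : (1 : ℝ) ≤ (if j = m' then C * t ^ (-k) else 1) := by
        split_ifs
        · nlinarith
        · exact le_refl _
      simp only [had']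
      nlinarith
    have hprod : ∏ j, a j = 3 * C * t ^ (-k) * (C * t ^ (-k)) := by
      simp only [had', Finset.prod_mul_distrib, Finset.prod_ite_eq', Finset.mem_univ, if_true]
    have hpos : 0 ≤ K * (1 + B) * C ^ 2 * (3 * C * t ^ (-k) * (C * t ^ (-k))) * τ ^ c0 := by
      have := Real.rpow_nonneg hτ.le c0
      have h1B : 0 ≤ 1 + B := by linarith
      positivity
    have hwin : ∀ I ∈ T ∪ T', ‖TR bb ε (win R (T ∪ T') I)
        (fun j => Function.update Y m' H' j I)‖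
        ≤ K * (1 + B) * C ^ 2 * (3 * C * t ^ (-k) * (C * t ^ (-k))) * τ ^ c0 * len I := by
      intro I hI
      have hWf := win_full hR hTT hI
      have hIR : I ∈ R := hTT.sub hI
      have hsub : win R (T ∪ T') I ⊆ R := win_sub
      have e1 : Function.update Y m' H' m' I = H' I := by rw [Function.update_self]
      have e2 : Function.update Y m' H' m I = X I := by
        rw [Function.update_of_ne hmm, hYd, Function.update_self]
      have hnrm : ∀ j, ∀ p ∈ win R (T ∪ T') I,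
          aq (qx k q3 j) p (Function.update Y m' H' j I) ≤ a j := by
        intro j p hp
        have hpR := hsub hp
        by_cases hj : j = m'
        · subst hj
          rw [e1, ← hadH.eq hp]
          refine (H_le hW' hm' o.k0 o.hq3 hC ht ht1 hpR).trans ?_
          simp only [had', if_neg hne, if_true, one_mul]
          exact mul_le_mul_of_nonneg_left hpk hC0.le
        · by_cases hj' : j = m
          · subst hj'
            rw [e2, ← hadX.eq hp]
            refine (X_le hW hm o.k0 o.hq3 o.sg0 o.c10.le hC hτ hτ1 hpR).trans ?_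
            simp only [had', if_neg hj, if_true, mul_one]
            exact mul_le_mul_of_nonneg_left hpk' (by positivity)
          · rw [Function.update_of_ne hj, hYd, Function.update_of_ne hj']
            refine (hF j hj' hj p hpR).trans (ha1 j)
      have hfz : ∀ p ∈ win R (T ∪ T') I,
          Fz D m' (τ ^ (1 + e)) C p (Function.update Y m' H' m' I) := by
        intro p hp
        rw [e1, ← hadH.eq hp]
        refine Fz_mono hD (Real.rpow_pos_of_pos hτ _) ?_ ht1 (hW'.frz p (hsub hp))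
        calc τ ^ (1 + e) ≤ τ ^ (1 : ℝ) :=
              Real.rpow_le_rpow_of_exponent_ge hτ hτ1 (by linarith [o.e0])
          _ = τ := Real.rpow_one τ
          _ ≤ t := hτt
      have hlv : ∀ p ∈ win R (T ∪ T') I, Lv D m τ C p (Function.update Y m' H' m I) := by
        intro p hp
        rw [e2, ← hadX.eq hp]
        exact hW.lev p (hsub hp)
      have hfin := RuleA2_scaled hD o.k0 o.hq3 o.e0.le hRA hB hBN hτ hτ1 (hτt.trans htt0) hA hWf
        ((iv_level (hR.reg.1 I hIR)).trans hJ) hC ha1 hnrm hne hm' hm hfz hlv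
      rwa [hprod] at hfin
    have h1 := sum_win_cnt bb ε hR hTT had hpos hcnt hwin
    refine h1.trans (mul_le_mul_of_nonneg_right ?_ hL.le)
    have h2 : 1 + 2 * C * τ ^ (-c1) ≤ 3 * C * τ ^ (-c1) := by nlinarith
    refine (mul_le_mul_of_nonneg_left h2 hpos).trans ?_
    have h3 := expo o ht ht1
    have h1B : 0 ≤ 1 + B := by linarith
    have h4 : 0 ≤ 9 * C ^ 5 * K * (1 + B) := by positivity
    calc K * (1 + B) * C ^ 2 * (3 * C * t ^ (-k) * (C * t ^ (-k))) * τ ^ c0 * (3 * C * τ ^ (-c1))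
        = 9 * C ^ 5 * K * (1 + B) * (t ^ (-k) * t ^ (-k) * (τ ^ c0 * τ ^ (-c1))) := by ring
      _ ≤ 9 * C ^ 5 * K * (1 + B) * t ^ (bt + 18 * k) := mul_le_mul_of_nonneg_left h3 h4
  have hexp : Function.update (Function.update (fun j _ => F j) m X) m' X'
      = Function.update Y m' X' := rfl
  rw [hexp, TP_sub3 bb ε Y m' hW'.eq]
  have h5 : 1 ≤ t ^ (-(5 * k)) :=
    Real.one_le_rpow_of_pos_of_le_one_of_nonpos ht ht1 (by linarith [o.k0])
  have h6 : 0 ≤ t ^ (bt + 18 * k) := Real.rpow_nonneg ht.le _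
  have h1B : 0 ≤ 1 + B := by linarith
  have htri : ‖TP bb ε R (Function.update Y m' (fun _ => G')) -
      TP bb ε R (Function.update Y m' H') - TP bb ε R (Function.update Y m' E')‖
      ≤ ‖TP bb ε R (Function.update Y m' (fun _ => G'))‖ +
        ‖TP bb ε R (Function.update Y m' H')‖ + ‖TP bb ε R (Function.update Y m' E')‖ :=
    (norm_sub_le _ _).trans (add_le_add (norm_sub_le _ _) le_rfl)
  refine htri.trans ?_
  have hfinal : A * len J + 9 * C ^ 5 * K * (1 + B) * t ^ (bt + 18 * k) * len J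
      + C' * t ^ (-(5 * k)) * A * len J
      ≤ ((1 + C' + 9 * C ^ 5 * K) * t ^ (-(5 * k)) * A
        + (1 + C' + 9 * C ^ 5 * K) * (1 + B) * t ^ (bt + 18 * k)) * len J := by
    have a1 : A ≤ t ^ (-(5 * k)) * A := le_mul_of_one_le_left hA0 h5
    have a2 : 0 ≤ 9 * C ^ 5 * K * (t ^ (-(5 * k)) * A) := by positivity
    have a3 : 0 ≤ (1 + C') * ((1 + B) * t ^ (bt + 18 * k)) := by positivity
    rw [← add_mul, ← add_mul]
    refine mul_le_mul_of_nonneg_right ?_ hL.le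
    nlinarith
  linarith

end T3b

/-- **[T3a] v2** -/
theorem twoLem2 (hConv : ConvLem) : TwoLem2 := by
  intro D k q3 c0 cS CS s1 e c1 bt κ t0 K C K0 o ht0 ht01 hK hC hD hRA
  obtain ⟨hkκ, o'⟩ := o.okκ
  obtain ⟨K', hK', h⟩ := T3b.two_core2 hConv D k q3 0 c0 _ e c1 _ t0 K C o' ht01 hK hC hD hRA
  refine ⟨K', hK', fun N B t A hB hBN ht htt0 hA hAn => ?_⟩
  intro bb ε hAd R J hR hJ m m' hm hm' hmm T G H E X hW T' G' H' E' X' hW' F hF
  have h1 := h N B t A hB hBN ht htt0 hA hAn bb ε hAd R J hR hJ m m' hm hm' hmm T G H E X hW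
    T' G' H' E' X' hW' F hF
  have ht1 := htt0.trans ht01
  have hk0 := o.k0
  refine h1.trans (mul_le_mul_of_nonneg_right ?_ (Growth.len_pos J).le)
  refine add_le_add (mul_le_mul_of_nonneg_right (mul_le_mul_of_nonneg_left
    (Real.rpow_le_rpow_of_exponent_ge ht ht1 (by linarith)) hK') hA)
    (mul_le_mul_of_nonneg_left (Real.rpow_le_rpow_of_exponent_ge ht ht1 (by linarith))
      (mul_nonneg hK' (by linarith)))

end Crest.Agent.R079.TRecN
end

-- ▼ part R079/TNTop_533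

/-! R079, node-dependent recursion (helper533; port of `TTop_13`), **[T4b] TOP STEP**:
`WinLem → ConvLem → TopLem`. -/

set_option autoImplicit false

namespace Crest.Agent.R079.TRecN.TTop13

open Finset Crest.Agent.R079.Grid Crest.Agent.R079.Growth Crest.Agent.R079.QRed
open Crest.Agent.R079.TRec Crest.Agent.R079.TTop13

/-! ### window terms -/

/-- one frozen letter, scaled -/
lemma Frz_scaled {D : TRecN.Dict} {sg : ℝ} (hD : Dic D sg) {k q3 t K : ℝ} (ht : 0 < t)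
    (ht1 : t ≤ 1) (hk : 0 < k) (hq : 2 < q3)
    (hK : ∀ bb ε, Adm bb ε → ∀ W I, Full W I → ∀ F, nrm k q3 W F →
      ∀ i : Fin 4, i ≠ 3 → (∀ p ∈ W, Fz D i t 1 p (F i)) → ‖TR bb ε W F‖ ≤ K * len I)
    {bb : ℤ} {ε : ℕ → ℤ → ℂ} (hA : Adm bb ε) {W : Finset Nd} {I : Nd} (hW : Full W I)
    {F : Fin 4 → Fn} {a : Fin 4 → ℝ} (ha : ∀ j, 0 < a j)
    (hF : ∀ j, ∀ p ∈ W, aq (qx k q3 j) p (F j) ≤ a j) {i : Fin 4} (hi : i ≠ 3) {M : ℝ}
    (hM : M ≤ a i) (hf : ∀ p ∈ W, Fz D i t M p (F i)) :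
    ‖TR bb ε W F‖ ≤ (K * ∏ j, a j) * len I := by
  have h := Crest.Agent.R079.TTop13.TR_scale ha
    (hK bb ε hA W I hW _ (scaled_of hk hq ha hF) i hi (fun p hp => by
      refine Fz_mass ?_ (Fz_smul hD ht ht1 ((a i)⁻¹) (inv_nonneg.2 (ha i).le) (hf p hp))
      rw [inv_mul_le_iff₀ (ha i), mul_one]
      exact hM))
  linarith [h, show (∏ j, a j) * (K * len I) = (K * ∏ j, a j) * len I by ring]

section terms

variable {D : TRecN.Dict} {k q3 : ℝ} {bb : ℤ} {ε : ℕ → ℤ → ℂ} {R : Finset Nd} {J : Nd}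
  {T : Finset Nd} {Y : Fin 4 → Nd → Fn} {a : Fin 4 → ℝ} {A : ℝ}

/-- one frozen letter, all letters adapted -/
lemma frz_term {sg : ℝ} (hD : Dic D sg) {t K : ℝ} (ht : 0 < t) (ht1 : t ≤ 1) (hk : 0 < k)
    (hq : 2 < q3) (hK0 : 0 ≤ K)
    (hK : ∀ bb ε, Adm bb ε → ∀ W I, Full W I → ∀ F, nrm k q3 W F →
      ∀ i : Fin 4, i ≠ 3 → (∀ p ∈ W, Fz D i t 1 p (F i)) → ‖TR bb ε W F‖ ≤ K * len I)
    (hA : Adm bb ε) (hR : Full R J) (hT : Tops R J T) (hY : ∀ j, Adp R T (Y j))
    (ha : ∀ j, 0 < a j) (hn : ∀ j, ∀ p ∈ R, aq (qx k q3 j) p (Y j p) ≤ a j)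
    {i : Fin 4} (hi : i ≠ 3) {M : ℝ} (hM : M ≤ a i) (hf : ∀ p ∈ R, Fz D i t M p (Y i p))
    (hc : Cnt R T A) :
    ‖TP bb ε R Y‖ ≤ (K * ∏ j, a j) * (1 + A) * len J := by
  refine sum_win_cnt bb ε hR hT hY (mul_nonneg hK0 (Finset.prod_nonneg fun j _ => (ha j).le)) hc
    fun I hI => ?_
  exact Frz_scaled hD ht ht1 hk hq hK hA (win_full hR hT hI) ha
    (fun j p hp => by
      rw [← (hY j).eq hp]
      exact hn j p (mem_win.1 hp).1) hi hM
    (fun p hp => by
      rw [← (hY i).eq hp]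
      exact hf p (mem_win.1 hp).1)

end terms

/-! ### conversion of the small letter of a windowed residual -/

lemma conv_use {k : ℝ} {C C' : ℝ} (hC1 : 1 ≤ C)
    (hconv : ∀ (bb : ℤ) (i : Fin 4) (t A : ℝ), 0 < t → t ≤ 1 → 0 ≤ A → ∀ R J, Full R J →
      ∀ (Y : Fin 4 → Nd → Fn) (T : Finset Nd) (E : Nd → Fn), Tops R J T → Adp R T E →
      (∀ p ∈ R, av p (E p) ≤ C) → (∀ p ∈ R, ∀ y ∈ iv p, ‖E p y‖ ≤ C * t⁻¹) →
      Cnt R T (C * t⁻¹) → Sq R T E C →
      (∀ ε, Adm bb ε → ∀ R' J', Full R' J' → R' ⊆ R → ∀ z : Fn,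
        (∀ p ∈ R', aq (2 + k) p z ≤ 1) →
        ‖TP bb ε R' (Function.update Y i (fun _ => z))‖ ≤ A * len J') →
      ∀ ε, Adm bb ε → ‖TP bb ε R (Function.update Y i E)‖ ≤ C' * t ^ (-(5 * k)) * A * len J)
    {D : TRecN.Dict} {q3 sg c1 : ℝ} (hc0 : 0 < c1) (hc1 : c1 ≤ 1) {i : Fin 4} (hi : i ≠ 3)
    {t : ℝ} (ht0 : 0 < t) (ht1 : t ≤ 1) {A : ℝ} (hA : 0 ≤ A) {R : Finset Nd} {J : Nd}
    (hR : Full R J) {T : Finset Nd} {G : Fn} {H E X : Nd → Fn}
    (hW : WRd D k q3 sg c1 C i t R J T G H E X) {bb : ℤ} {ε : ℕ → ℤ → ℂ} (hadm : Adm bb ε)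
    (Y : Fin 4 → Nd → Fn)
    (hyp : ∀ ε, Adm bb ε → ∀ R' J', Full R' J' → R' ⊆ R → ∀ z : Fn,
        (∀ p ∈ R', aq (2 + k) p z ≤ 1) →
        ‖TP bb ε R' (Function.update Y i (fun _ => z))‖ ≤ A * len J') :
    ‖TP bb ε R (Function.update Y i E)‖ ≤ C' * t ^ (-(5 * k)) * A * len J := by
  have hC0 : 0 ≤ C := by linarith
  refine hconv bb i t A ht0 ht1 hA R J hR Y T E hW.tops hW.adE ?_ ?_ ?_ hW.sq hyp ε hadm
  · intro p hp
    refine (hW.eav p hp).trans ?_
    calc C * t ^ (c1 / 2) ≤ C * 1 :=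
          mul_le_mul_of_nonneg_left (Real.rpow_le_one ht0.le ht1 (by linarith)) hC0
      _ = C := mul_one C
  · intro p hp y hy
    have h := hW.esup p hp y hy
    rwa [sx_ne hi, Real.rpow_neg_one] at h
  · refine hW.cnt.mono (mul_le_mul_of_nonneg_left ?_ hC0)
    rw [← Real.rpow_neg_one]
    exact Real.rpow_le_rpow_of_exponent_ge ht0 ht1 (by linarith)

/-- **[T4b] TOP STEP** -/
theorem topLem (hWin : WinLem) (hConv : ConvLem) : TopLem := by
  obtain ⟨Cw, hCw1, hWin⟩ := hWin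
  refine ⟨Cw, hCw1, ?_⟩
  intro D k q3 sg c0 c3 e c1 bt C hok hD hCw hF
  have hk0 := hok.k0
  have hk1 := ok_k hok
  have hC1 : 1 ≤ C := hCw1.trans hCw
  have hC0 : 0 < C := by linarith
  obtain ⟨C', hC'0, hconv⟩ := hConv k hk0 (by linarith) C hC1
  refine ⟨1 + C' + C' ^ 2 + 2 * C ^ 4, by positivity, ?_⟩
  intro t ht0 ht1
  obtain ⟨K, hK0, hK⟩ := hF t ht0 ht1
  have hti : 1 ≤ t⁻¹ := (one_le_inv₀ ht0).2 ht1
  have hM1 : 1 ≤ C * t⁻¹ := one_le_mul_of_one_le_of_one_le hC1 hti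
  have hcnt0 : 0 ≤ C * t ^ (-c1) := mul_nonneg hC0.le (Real.rpow_nonneg ht0.le _)
  set Q : ℝ := (K * ∏ _j : Fin 4, C * t⁻¹) * (1 + C * t ^ (-c1)) with hQ
  have hQ0 : 0 ≤ Q := by positivity
  refine ⟨3 * Q, by positivity, ?_⟩
  intro N B A hB0 hB hA0 hAn bb ε hadm R J hR hJN F hnrm
  obtain ⟨T, H, E, hWR⟩ := hWin D k q3 sg c1 hD hk0 hok.k1 hok.hq3 hok.sg0 hok.sg1 hok.c10 hok.c11
    R J hR F hnrm t ht0 ht1
  set X : Fin 4 → Nd → Fn := fun j p y => F j y - H j p y - E j p y with hX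
  have hW : ∀ j, WRd D k q3 sg c1 C j t R J T (F j) (H j) (E j) (X j) := fun j =>
    S351.WRd_mono hCw ht0 (hWR j)
  have hl := Growth.len_pos J
  have hT : Tops R J T := (hW 0).tops
  have hc : Cnt R T (C * t ^ (-c1)) := (hW 0).cnt
  set Y : Fin 4 → Nd → Fn := fun j _ => F j with hY
  have hYad : ∀ j, Adp R T (Y j) := fun j => Adp.const (F j)
  have hsplit : ∀ j, ∀ p ∈ R, ∀ y, Y j p y = X j p y + H j p y + E j p y := by
    intro j p _ y
    show F j y = (F j y - H j p y - E j p y) + H j p y + E j p y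
    ring
  have hF4 : ∀ j, ∀ p ∈ R, aq (qx k q3 j) p (F j) ≤ 1 := hnrm
  -- crude norms
  have hYc : ∀ j, ∀ p ∈ R, aq (qx k q3 j) p (Y j p) ≤ C * t⁻¹ := fun j p hp =>
    (hF4 j p hp).trans hM1
  have hHc : ∀ j, j ≠ 3 → ∀ p ∈ R, aq (qx k q3 j) p (H j p) ≤ C * t⁻¹ := by
    intro j hj p hp
    refine aq_le_of_sup (qx_pos hk0 hok.hq3 j) (by linarith) fun y hy => ?_
    have h := (hW j).hsup p hp y hy
    rwa [sx_ne hj, Real.rpow_neg_one] at h
  have hEc : ∀ j, j ≠ 3 → ∀ p ∈ R, aq (qx k q3 j) p (E j p) ≤ C * t⁻¹ := by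
    intro j hj p hp
    refine aq_le_of_sup (qx_pos hk0 hok.hq3 j) (by linarith) fun y hy => ?_
    have h := (hW j).esup p hp y hy
    rwa [sx_ne hj, Real.rpow_neg_one] at h
  have hcp : ∀ _j : Fin 4, 0 < C * t⁻¹ := fun _ => by linarith
  have hCM : C ≤ C * t⁻¹ := le_mul_of_one_le_right hC0.le hti
  have n03 : (0 : Fin 4) ≠ 3 := by decide
  have n13 : (1 : Fin 4) ≠ 3 := by decide
  have n23 : (2 : Fin 4) ≠ 3 := by decide
  have n01 : (0 : Fin 4) ≠ 1 := by decide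
  have n02 : (0 : Fin 4) ≠ 2 := by decide
  have n12 : (1 : Fin 4) ≠ 2 := by decide
  -- the splittings
  have s0 := TP_split bb ε R Y 0 (Y 0) (X 0) (H 0) (E 0) (hsplit 0)
  rw [Function.update_eq_self] at s0
  set Y0 := Function.update Y 0 (E 0) with hY0
  have s1 := TP_split bb ε R Y0 1 (Y 1) (X 1) (H 1) (E 1) (hsplit 1)
  have e1 : Function.update Y0 1 (Y 1) = Y0 := by
    rw [hY0, Function.update_comm n01, Function.update_eq_self]
  rw [e1] at s1
  set Y1 := Function.update Y0 1 (E 1) with hY1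
  have s2 := TP_split bb ε R Y1 2 (Y 2) (X 2) (H 2) (E 2) (hsplit 2)
  have e2 : Function.update Y1 2 (Y 2) = Y1 := by
    rw [hY1, hY0, Function.update_comm n12, Function.update_comm n02,
      Function.update_eq_self]
  rw [e2] at s2
  have hY0ad : ∀ j, Adp R T (Y0 j) := adp_upd hYad (hW 0).adE
  have hY1ad : ∀ j, Adp R T (Y1 j) := adp_upd hY0ad (hW 1).adE
  have hY0c : ∀ j, ∀ p ∈ R, aq (qx k q3 j) p (Y0 j p) ≤ C * t⁻¹ := nrm_upd hYc (hEc 0 n03)
  have hY1c : ∀ j, ∀ p ∈ R, aq (qx k q3 j) p (Y1 j p) ≤ C * t⁻¹ := nrm_upd hY0c (hEc 1 n13)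
  -- frozen terms
  have f0 : ‖TP bb ε R (Function.update Y 0 (H 0))‖ ≤ Q * len J :=
    frz_term (D := D) (i := 0) hD ht0 ht1 hk0 hok.hq3 hK0 hK hadm hR hT (adp_upd hYad (hW 0).adH) hcp
      (nrm_upd hYc (hHc 0 n03)) n03 hCM
      (fun p hp => by rw [Function.update_self]; exact (hW 0).frz p hp) hc
  have f1 : ‖TP bb ε R (Function.update Y0 1 (H 1))‖ ≤ Q * len J :=
    frz_term (D := D) (i := 1) hD ht0 ht1 hk0 hok.hq3 hK0 hK hadm hR hT (adp_upd hY0ad (hW 1).adH) hcp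
      (nrm_upd hY0c (hHc 1 n13)) n13 hCM
      (fun p hp => by rw [Function.update_self]; exact (hW 1).frz p hp) hc
  have f2 : ‖TP bb ε R (Function.update Y1 2 (H 2))‖ ≤ Q * len J :=
    frz_term (D := D) (i := 2) hD ht0 ht1 hk0 hok.hq3 hK0 hK hadm hR hT (adp_upd hY1ad (hW 2).adH) hcp
      (nrm_upd hY1c (hHc 2 n23)) n23 hCM
      (fun p hp => by rw [Function.update_self]; exact (hW 2).frz p hp) hc
  -- one residual, three static letters
  have g0 : ‖TP bb ε R (Function.update Y 0 (X 0))‖ ≤ A * len J :=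
    hAn bb ε hadm R J hR hJN 0 n03 T (F 0) (H 0) (E 0) (X 0) (hW 0) F fun j _ => hF4 j
  have ht5 : 0 < t ^ (-(5 * k)) := Real.rpow_pos_of_pos ht0 _
  have g1 : ‖TP bb ε R (Function.update Y0 1 (X 1))‖ ≤ C' * t ^ (-(5 * k)) * A * len J := by
    rw [hY0, Function.update_comm n01]
    refine conv_use hC1 hconv hok.c10 hok.c11 n03 ht0 ht1 hA0 hR (hW 0) hadm _ ?_
    intro ε' hadm' R' J' hR' hs z hz
    rw [Function.update_comm n01.symm, hY, upd_static]
    have hJ' : J'.1 ≤ N := (Qe292.iv_level (hR.reg.1 J' (hs hR'.top))).trans hJN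
    exact hAn bb ε' hadm' R' J' hR' hJ' 1 n13 _ _ _ _ _ ((hW 1).restrict hR hR' hs) _
      fun j _ => upd_nrm n03 hz fun p hp => hF4 j p (hs hp)
  have g2 : ‖TP bb ε R (Function.update Y1 2 (X 2))‖ ≤
      C' * t ^ (-(5 * k)) * (C' * t ^ (-(5 * k)) * A) * len J := by
    have ee : Function.update Y1 2 (X 2) =
        Function.update (Function.update (Function.update Y 2 (X 2)) 1 (E 1)) 0 (E 0) := by
      rw [hY1, hY0, Function.update_comm n12, Function.update_comm n02,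
        Function.update_comm n01]
    rw [ee]
    refine conv_use hC1 hconv hok.c10 hok.c11 n03 ht0 ht1 (by positivity) hR (hW 0) hadm _ ?_
    intro ε' hadm' R' J' hR' hs z hz
    have hJ' : J'.1 ≤ N := (Qe292.iv_level (hR.reg.1 J' (hs hR'.top))).trans hJN
    have ee' : Function.update (Function.update (Function.update Y 2 (X 2)) 1 (E 1)) 0
        (fun _ => z) =
        Function.update (Function.update (Function.update Y 0 (fun _ => z)) 2 (X 2)) 1 (E 1) := by
      rw [Function.update_comm n01.symm, Function.update_comm n02.symm]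
    rw [ee']
    refine conv_use hC1 hconv hok.c10 hok.c11 n13 ht0 ht1 hA0 hR' ((hW 1).restrict hR hR' hs)
      hadm' _ ?_
    intro ε'' hadm'' R'' J'' hR'' hs' z' hz'
    have hs'' : R'' ⊆ R := hs'.trans hs
    have hJ'' : J''.1 ≤ N := (Qe292.iv_level (hR.reg.1 J'' (hs'' hR''.top))).trans hJN
    rw [Function.update_comm n12.symm, hY, upd_static, upd_static]
    exact hAn bb ε'' hadm'' R'' J'' hR'' hJ'' 2 n23 _ _ _ _ _ ((hW 2).restrict hR hR'' hs'') _
      fun j _ => upd_nrm n13 hz' (upd_nrm n03 (fun p hp => hz p (hs' hp))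
        fun p hp => hF4 j p (hs'' hp))
  -- three small letters
  set s : ℝ := ((C * t ^ (c1 / 2)) ^ 2 * (C * t⁻¹) ^ k) ^ (1 / (2 + k)) with hs
  have hs0 : 0 < s := by positivity
  have hEs : ∀ j, j ≠ 3 → ∀ p ∈ R, aq (qx k q3 j) p (E j p) ≤ s := by
    intro j hj p hp
    rw [qx_ne hj]
    refine aq_interp hk0 (by linarith) ((hW j).eav p hp) fun y hy => ?_
    have h := (hW j).esup p hp y hy
    rwa [sx_ne hj, Real.rpow_neg_one] at h
  set b : Fin 4 → ℝ := ![s, s, s, 1] with hb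
  have hb0 : ∀ j, 0 < b j := by
    intro j
    fin_cases j <;> simp [hb, hs0]
  have hbn : ∀ j, ∀ p ∈ R, aq (qx k q3 j) p (Function.update Y1 2 (E 2) j p) ≤ b j := by
    intro j p hp
    fin_cases j
    · have := hEs 0 n03 p hp
      simpa [hY1, hY0, hb] using this
    · have := hEs 1 n13 p hp
      simpa [hY1, hY0, hb] using this
    · have := hEs 2 n23 p hp
      simpa [hY1, hY0, hb] using this
    · have := hF4 3 p hp
      simpa [hY1, hY0, hb, hY] using this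
  have h3 : ‖TP bb ε R (Function.update Y1 2 (E 2))‖ ≤ 2 * C ^ 4 * B * t ^ bt * len J := by
    have h := bn_term hk0 hok.hq3 hB0 hB hadm hR hJN hT (adp_upd hY1ad (hW 2).adE) hb0 hbn hc
    refine h.trans (mul_le_mul_of_nonneg_right ?_ hl.le)
    have hp : ∏ j, b j = s ^ 3 := by
      rw [Fin.prod_univ_four]
      simp [hb]
      ring
    rw [hp]
    calc B * s ^ 3 * (1 + C * t ^ (-c1)) = B * (s ^ 3 * (1 + C * t ^ (-c1))) := by ring
      _ ≤ B * (2 * C ^ 4 * t ^ bt) :=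
          mul_le_mul_of_nonneg_left (small_size hok hC1 ht0 ht1) hB0
      _ = _ := by ring
  -- total
  have htot : TR bb ε R F = TP bb ε R Y := rfl
  rw [htot, s0, s1, s2]
  have t20 : t ^ (-(5 * k)) ≤ t ^ (-(20 * k)) :=
    Real.rpow_le_rpow_of_exponent_ge ht0 ht1 (by linarith)
  have t1 : 1 ≤ t ^ (-(20 * k)) :=
    Real.one_le_rpow_of_pos_of_le_one_of_nonpos ht0 ht1 (by linarith)
  have t10 : t ^ (-(5 * k)) * t ^ (-(5 * k)) ≤ t ^ (-(20 * k)) := by
    rw [← Real.rpow_add ht0]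
    exact Real.rpow_le_rpow_of_exponent_ge ht0 ht1 (by linarith)
  set Z : ℝ := t ^ (-(20 * k)) with hZ
  have hZ0 : 0 ≤ Z := by linarith
  have b0 : A ≤ Z * A := by nlinarith
  have b1 : C' * t ^ (-(5 * k)) * A ≤ C' * Z * A :=
    mul_le_mul_of_nonneg_right (mul_le_mul_of_nonneg_left t20 hC'0) hA0
  have b2 : C' * t ^ (-(5 * k)) * (C' * t ^ (-(5 * k)) * A) ≤ C' ^ 2 * Z * A := by
    calc C' * t ^ (-(5 * k)) * (C' * t ^ (-(5 * k)) * A)
        = (C' ^ 2 * A) * (t ^ (-(5 * k)) * t ^ (-(5 * k))) := by ring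
      _ ≤ (C' ^ 2 * A) * Z := mul_le_mul_of_nonneg_left t10 (by positivity)
      _ = _ := by ring
  have htb : 0 ≤ t ^ bt := Real.rpow_nonneg ht0.le _
  have hBt : 0 ≤ (1 + C' + C' ^ 2) * B * t ^ bt := by positivity
  have hZA : 0 ≤ 2 * C ^ 4 * Z * A := by positivity
  calc ‖TP bb ε R (Function.update Y 0 (X 0)) + TP bb ε R (Function.update Y 0 (H 0)) +
        (TP bb ε R (Function.update Y0 1 (X 1)) + TP bb ε R (Function.update Y0 1 (H 1)) +
          (TP bb ε R (Function.update Y1 2 (X 2)) + TP bb ε R (Function.update Y1 2 (H 2)) +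
            TP bb ε R (Function.update Y1 2 (E 2))))‖
      ≤ A * len J + Q * len J + (C' * t ^ (-(5 * k)) * A * len J + Q * len J +
          (C' * t ^ (-(5 * k)) * (C' * t ^ (-(5 * k)) * A) * len J + Q * len J +
            2 * C ^ 4 * B * t ^ bt * len J)) := by
        refine (norm_add₃_le).trans (add_le_add (add_le_add g0 f0) ?_)
        refine (norm_add₃_le).trans (add_le_add (add_le_add g1 f1) ?_)
        exact (norm_add₃_le).trans (add_le_add (add_le_add g2 f2) h3)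
    _ = (A + C' * t ^ (-(5 * k)) * A + C' * t ^ (-(5 * k)) * (C' * t ^ (-(5 * k)) * A) +
          3 * Q + 2 * C ^ 4 * B * t ^ bt) * len J := by ring
    _ ≤ _ := by
        refine mul_le_mul_of_nonneg_right ?_ hl.le
        have : 3 * Q + (1 + C' + C' ^ 2 + 2 * C ^ 4) * Z * A + (1 + C' + C' ^ 2 + 2 * C ^ 4) * B * t ^ bt
            = Z * A + C' * Z * A + C' ^ 2 * Z * A + 3 * Q + 2 * C ^ 4 * B * t ^ bt +
              2 * C ^ 4 * Z * A + (1 + C' + C' ^ 2) * B * t ^ bt := by ring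
        rw [this]
        linarith

end Crest.Agent.R079.TRecN.TTop13
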