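import Crest.Agent.R079.TDw_351
import Crest.Agent.R079.TWinE_649
import Crest.Agent.R079.TS3d_903

-- ▼ part R079/TWLw_351
section

/-! R079, [T1] of `TDef_853` (helper649): common windows of four static letters.

`winLem_of` : the statement `WinLem` for dictionaries closed under conjugation. -/

set_option autoImplicit false

namespace Crest.Agent.R079.TWLw

open Finset Crest.Agent.R079.Grid Crest.Agent.R079.Glue Crest.Agent.R079.Growth
  Crest.Agent.R079.QRed Crest.Agent.R079.Qe292 Crest.Agent.R079.TWin649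

/-- power means -/
theorem av_le_aq {q : ℝ} (hq : 2 ≤ q) (p : Nd) (f : Fn) : av p f ≤ TRec.aq q p f := by
  have hl := Growth.len_pos p
  have hq0 : 0 < q := by linarith
  have h0 : 0 ≤ TRec.aq q p f := Lq853.avq_nonneg _ _ _ _
  have ha0 : 0 ≤ av p f := Real.sqrt_nonneg _
  have h1 : TRec.aq q p f ^ q = (1 / len p) * ∑ y ∈ iv p, ‖f y‖ ^ q := by
    unfold TRec.aq Lq853.avq len iv
    rw [← Real.rpow_mul (mul_nonneg (by positivity)
      (Finset.sum_nonneg fun y _ => Real.rpow_nonneg (norm_nonneg _) _)),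
      one_div_mul_cancel hq0.ne', Real.rpow_one]
  have h2 : (av p f ^ 2) ^ (q / 2) ≤ TRec.aq q p f ^ q := by
    rw [h1, QVar181.av_sq]
    have h := Real.rpow_arith_mean_le_arith_mean_rpow (iv p) (fun _ => 1 / len p)
      (fun y => ‖f y‖ ^ 2) (fun _ _ => by positivity) ?_ (fun y _ => by positivity)
      (p := q / 2) (by linarith)
    · rw [← Finset.mul_sum, ← Finset.mul_sum] at h
      refine h.trans (le_of_eq ?_)
      congr 1
      refine Finset.sum_congr rfl fun y _ => ?_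
      rw [← Real.rpow_natCast, ← Real.rpow_mul (norm_nonneg _)]
      congr 1
      push_cast
      ring
    · rw [Finset.sum_const, nsmul_eq_mul, card_iv]
      field_simp
  have h3 : (av p f ^ 2) ^ (q / 2) = av p f ^ q := by
    rw [← Real.rpow_natCast, ← Real.rpow_mul ha0]
    congr 1
    push_cast
    ring
  rw [h3] at h2
  exact (Real.rpow_le_rpow_iff ha0 h0 hq0).1 h2


theorem sx_le_one {sg : ℝ} (h : sg ≤ 1) (j : Fin 4) : TRec.sx sg j ≤ 1 := by
  unfold TRec.sx; split_ifs <;> linarith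

theorem av_two (p : Nd) (X Y : Fn) :
    av p X ^ 2 ≤ 2 * av p (fun y => X y - Y y) ^ 2 + 2 * av p Y ^ 2 := by
  have hl := Growth.len_pos p
  rw [QVar181.av_sq, QVar181.av_sq, QVar181.av_sq]
  have h : ∑ y ∈ iv p, ‖X y‖ ^ 2 ≤ 2 * ∑ y ∈ iv p, ‖X y - Y y‖ ^ 2 + 2 * ∑ y ∈ iv p, ‖Y y‖ ^ 2 := by
    rw [Finset.mul_sum, Finset.mul_sum, ← Finset.sum_add_distrib]
    refine Finset.sum_le_sum fun y _ => ?_
    have h1 : ‖X y‖ ≤ ‖X y - Y y‖ + ‖Y y‖ := by
      have := norm_add_le (X y - Y y) (Y y)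
      rwa [sub_add_cancel] at this
    nlinarith [norm_nonneg (X y), norm_nonneg (X y - Y y), norm_nonneg (Y y),
      sq_nonneg (‖X y - Y y‖ - ‖Y y‖)]
  have h2 := mul_le_mul_of_nonneg_left h (by positivity : 0 ≤ 1 / len p)
  linarith

/-- closed under conjugation -/
def CC (D : TRec.Dict) : Prop :=
  ∀ j t, ∀ φ ∈ D j t, (fun y => (starRingEnd ℂ) (φ y)) ∈ D j t

section dict

variable {D : TRec.Dict} {sg : ℝ} (hD : TRecw.Dic D sg) (hc : CC D) (j : Fin 4) {t : ℝ}
  (ht : 0 < t) (ht1 : t ≤ 1)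

/-- 853's dictionary as a priced dictionary: atoms `t^sx φ` of price `t^sx` -/
noncomputable def dic : TWin649.Dict where
  at' φ w := w = t ^ TRec.sx sg j ∧ ∃ ψ ∈ D j t, φ = fun y => ((w : ℝ) : ℂ) * ψ y
  conj φ w h := by
    obtain ⟨h1, ψ, hψ, rfl⟩ := h
    exact ⟨h1, _, hc j t ψ hψ, funext fun y => by rw [map_mul, Complex.conj_ofReal]⟩
  bd φ w h y := by
    obtain ⟨h1, ψ, hψ, rfl⟩ := h
    have hw : 0 ≤ w := h1 ▸ Real.rpow_nonneg ht.le _
    rw [norm_mul, Complex.norm_real, Real.norm_of_nonneg hw]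
    calc w * ‖ψ y‖ ≤ w * t ^ (-(TRec.sx sg j)) :=
          mul_le_mul_of_nonneg_left (hD.sup j t ht ht1 ψ hψ y) hw
      _ = 1 := by rw [h1, ← Real.rpow_add ht, add_neg_cancel, Real.rpow_zero]
  pos φ w h := h.1 ▸ Real.rpow_pos_of_pos ht _

variable {hD hc j ht ht1}

theorem fz_of {p : Nd} {f : Fn} {τ M : ℝ} (h : Rp (dic hD hc j ht ht1) p f τ) (hM : τ ≤ M) :
    TRec.Fz D j t M p f := by
  obtain ⟨n, φ, w, c, ha, hf, ht'⟩ := h
  have ha' : ∀ i, w i = t ^ TRec.sx sg j ∧ ∃ ψ ∈ D j t, φ i = fun y => ((w i : ℝ) : ℂ) * ψ y := ha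
  choose hw ψ hψ hφ using ha'
  refine ⟨n, ψ, fun i => c i * ((w i : ℝ) : ℂ), hψ, ?_, ?_⟩
  · intro y hy
    rw [hf y hy]
    refine Finset.sum_congr rfl fun i _ => ?_
    rw [hφ i]
    ring
  · refine le_trans (le_of_eq ?_) (ht'.trans hM)
    refine Finset.sum_congr rfl fun i _ => ?_
    have : 0 ≤ w i := by rw [hw i]; exact Real.rpow_nonneg ht.le _
    rw [norm_mul, Complex.norm_real, Real.norm_of_nonneg this]

theorem lv_of {p : Nd} {g : Fn} {e : ℝ} (h : Lv (dic hD hc j ht ht1) p g e)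
    (he : e ≤ t ^ TRec.sx sg j) : TRec.Lv D j t 2 p g := by
  intro ψ hψ
  have hw : 0 < t ^ TRec.sx sg j := Real.rpow_pos_of_pos ht _
  have h1 := h (fun y => ((t ^ TRec.sx sg j : ℝ) : ℂ) * ψ y) (t ^ TRec.sx sg j)
    ⟨rfl, ψ, hψ, rfl⟩
  have e1 : ∑ y ∈ iv p, g y * (((t ^ TRec.sx sg j : ℝ) : ℂ) * ψ y)
      = ((t ^ TRec.sx sg j : ℝ) : ℂ) * ∑ y ∈ iv p, g y * ψ y := by
    rw [Finset.mul_sum]
    exact Finset.sum_congr rfl fun y _ => by ring
  rw [e1, norm_mul, Complex.norm_real, Real.norm_of_nonneg hw.le] at h1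
  have h2 : (t ^ TRec.sx sg j + e) * len p ≤ t ^ TRec.sx sg j * (2 * len p) := by
    have := mul_le_mul_of_nonneg_right he (Growth.len_pos p).le
    linarith
  exact le_of_mul_le_mul_left (h1.trans h2) hw

theorem price (φ : Fn) (w : ℝ) (h : (dic hD hc j ht ht1).at' φ w) : t ^ TRec.sx sg j ≤ w :=
  le_of_eq h.1.symm

end dict

/-- the window of a node between -/
theorem win_eq {R : Finset Nd} {S : Finset Nd} {W : Nd → Finset Nd}
    {A : ℝ} (hS : Sysw R S W A) {K K' p q : Nd} (hK : K ∈ S) (hK' : K' ∈ S) (hp : p ∈ W K)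
    (hpq : iv p ⊆ iv q) (hq : iv q ⊆ iv K) (hq' : q ∈ W K') : K = K' := by
  have h1 : q ∈ W K := (hS.full K hK).reg.2 p hp q hpq hq
  by_contra hne
  exact Finset.disjoint_left.1 (hS.disj K hK K' hK' hne) h1 hq'

theorem iv_child (m : ℕ) (l c : ℤ) (hc : c / 2 = l) : iv (m, c) ⊆ iv (m + 1, l) :=
  iv_sub_iff.2 ⟨1, by rw [pow_one, hc]⟩

/-- a node strictly above a child contains the parent -/
theorem above_child {m : ℕ} {l c : ℤ} (hc : c / 2 = l) {K : Nd} (h : iv (m, c) ⊆ iv K)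
    (hne : K ≠ (m, c)) : iv (m + 1, l) ⊆ iv K := by
  obtain ⟨i, hi⟩ := iv_sub_iff.1 h
  cases i with
  | zero => exact absurd (by rw [hi]; simp) hne
  | succ i =>
    refine iv_sub_iff.2 ⟨i, ?_⟩
    rw [hi, ← hc]
    refine Prod.ext ?_ ?_
    · simp only
      omega
    · simp only
      have := L0e.ediv_pow_pow c 1 i
      rw [pow_one] at this
      rw [this, Nat.add_comm]

theorem not_sub_child {m : ℕ} {l c : ℤ} : ¬ iv (m + 1, l) ⊆ iv (m, c) := by
  intro h
  obtain ⟨i, hi⟩ := iv_sub_iff.1 h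
  have := congrArg Prod.fst hi
  simp only at this
  omega

theorem sib_half {R : Finset Nd} {J : Nd} (hR : Full R J) {S : Finset Nd} {W : Nd → Finset Nd}
    {A : ℝ} (hS : Sysw R S W A) {m : ℕ} {l c c' : ℤ} (hP : (m + 1, l) ∈ R) (hc : c / 2 = l)
    (hc' : c' / 2 = l) (hb : ∀ (V : Finset Nd) (I : Nd), Full V I → (m + 1, l) ∈ V →
      ((m, c) ∈ V ↔ (m, c') ∈ V)) (hK : (m, c) ∈ S) : (m, c') ∈ S := by
  have hcR : (m, c') ∈ R := (hb R J hR hP).1 (hS.sub hK)
  obtain ⟨K₀, hK₀, hPK₀⟩ := hS.cover _ hP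
  obtain ⟨K₁, hK₁, hcK₁⟩ := hS.cover _ hcR
  by_cases hne : K₁ = (m, c')
  · rw [← hne]; exact hK₁
  · exfalso
    have h1 : iv (m + 1, l) ⊆ iv K₁ :=
      above_child hc' ((hS.full K₁ hK₁).reg.1 _ hcK₁) hne
    have h2 : K₁ = K₀ := win_eq hS hK₁ hK₀ hcK₁ (iv_child m l c' hc') h1 hPK₀
    rw [h2] at hcK₁
    have h3 : (m, c) ∈ W K₀ := (hb (W K₀) K₀ (hS.full K₀ hK₀) hPK₀).2 hcK₁
    have h4 : (m, c) = K₀ := by
      by_contra h5
      exact Finset.disjoint_left.1 (hS.disj _ hK _ hK₀ h5) (hS.full _ hK).top h3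
    have h6 := (hS.full K₀ hK₀).reg.1 _ hPK₀
    rw [← h4] at h6
    exact not_sub_child h6

theorem tops_of {R : Finset Nd} {J : Nd} (hR : Full R J) {S : Finset Nd} {W : Nd → Finset Nd}
    {A : ℝ} (hS : Sysw R S W A) (hJ : J ∈ S) : TRec.Tops R J S where
  sub := hS.sub
  top := hJ
  sib m l hP := by
    have h1 : (2 * l) / 2 = l := by omega
    have h2 : (2 * l + 1) / 2 = l := by omega
    exact ⟨sib_half hR hS hP h1 h2 fun V I hV h => hV.bin m l h,
      sib_half hR hS hP h2 h1 fun V I hV h => (hV.bin m l h).symm⟩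

/-- the window top of `p` is the owner -/
theorem wn_eq {R : Finset Nd} {S : Finset Nd} {W : Nd → Finset Nd}
    {A : ℝ} (hS : Sysw R S W A) {K p I : Nd} (hK : K ∈ S) (hp : p ∈ W K) (hI : TRec.Wn S I p) :
    K = I := by
  have h1 := (hS.full K hK).reg.1 p hp
  exact win_eq hS hK hI.1 hp hI.2.1 (hI.2.2 K hK h1) (hS.full I hI.1).top

/-- **[T1]** -/
theorem winLem_of : ∃ C : ℝ, 1 ≤ C ∧ ∀ (D : TRec.Dict) (k q3 sg c1 : ℝ), TRecw.Dic D sg → CC D →
    0 < k → k < 1 → 2 < q3 → 0 ≤ sg →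
    sg ≤ 1 → 0 < c1 → c1 ≤ 1 → ∀ R J, Full R J → ∀ G : Fin 4 → Fn, TRec.nrm k q3 R G →
    ∀ t, 0 < t → t ≤ 1 → ∃ (T : Finset Nd) (H E : Fin 4 → Nd → Fn),
      ∀ j, TRec.WRd D k q3 sg c1 C j t R J T (G j) (H j) (E j)
        (fun p y => G j y - H j p y - E j p y) := by
  classical
  refine ⟨100, by norm_num, ?_⟩
  intro D k q3 sg c1 hD hc hk0 hk1 hq3 hsg0 hsg1 hc10 hc11 R J hR G hG t ht ht1
  have hloc : ∀ j, ∀ p ∈ R, av p (G j) ≤ 1 := by
    intro j p hp
    refine (av_le_aq ?_ p (G j)).trans (hG j p hp)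
    unfold TRec.qx
    split_ifs <;> linarith
  -- parameters
  have hδ0 : 0 < t ^ c1 := Real.rpow_pos_of_pos ht _
  have hδ1 : t ^ c1 ≤ 1 := Real.rpow_le_one ht.le ht1 hc10.le
  set δ : ℝ := t ^ c1 with hδ
  set η : ℝ := t ^ 2 * δ / 64 with hη
  have ht2 : 0 < t ^ 2 := by positivity
  have ht21 : t ^ 2 ≤ 1 := pow_le_one₀ ht.le ht1
  have hη0 : 0 < η := by positivity
  have hη2 : η ≤ t ^ 2 := by
    rw [hη]
    have : t ^ 2 * δ ≤ t ^ 2 * 1 := mul_le_mul_of_nonneg_left hδ1 ht2.le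
    linarith
  have hηh : η ≤ 1 / 64 := by
    rw [hη]
    have : t ^ 2 * δ ≤ 1 := mul_le_one₀ ht21 hδ0.le hδ1
    linarith
  have hηδ : 16 * (Fintype.card (Fin 4) : ℝ) * η ≤ δ := by
    rw [hη, Fintype.card_fin]
    push_cast
    have : t ^ 2 * δ ≤ 1 * δ := mul_le_mul_of_nonneg_right ht21 hδ0.le
    linarith
  have hsq : ∀ j, Real.sqrt η ≤ t ^ TRec.sx sg j := by
    intro j
    have h1 : Real.sqrt η ≤ t := (Real.sqrt_le_left ht.le).2 hη2
    refine h1.trans ?_
    have := Real.rpow_le_rpow_of_exponent_ge ht ht1 (sx_le_one hsg1 j)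
    rwa [Real.rpow_one] at this
  obtain ⟨f, τ, hdat⟩ := exists_Data (fun j : Fin 4 => dic hD hc j ht ht1) hη0 G
  obtain ⟨S, W, hS, hJS, hdv, hen⟩ := exists_windows hdat hR hloc hδ0 hη0.le (by linarith) hηδ
  have hex : ∀ p : Nd, ∃ K : Nd, p ∈ R → K ∈ S ∧ p ∈ W K := by
    intro p
    by_cases hp : p ∈ R
    · obtain ⟨K, hK, hpK⟩ := hS.cover p hp
      exact ⟨K, fun _ => ⟨hK, hpK⟩⟩
    · exact ⟨p, fun h => absurd h hp⟩
  choose o ho using hex
  have hoI : ∀ p ∈ R, ∀ I, TRec.Wn S I p → o p = I := fun p hp I hI =>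
    wn_eq hS (ho p hp).1 (ho p hp).2 hI
  have hoS : ∀ I ∈ S, o I = I := fun I hI =>
    wn_eq hS (ho I (hS.sub hI)).1 (ho I (hS.sub hI)).2
      ⟨hI, subset_rfl, fun I' _ h => h⟩
  have hsub : ∀ p ∈ R, iv p ⊆ iv (o p) := fun p hp =>
    (hS.full _ (ho p hp).1).reg.1 p (ho p hp).2
  -- sup bound of the near-minimisers
  have htm : ∀ j, t ^ (-(TRec.sx sg j)) = 1 / t ^ TRec.sx sg j := fun j => by
    rw [Real.rpow_neg ht.le, one_div]
  have hsup : ∀ j, ∀ p ∈ R, ∀ y ∈ iv p, ‖f j p y‖ ≤ t ^ (-(TRec.sx sg j)) := by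
    intro j p hp y hy
    have hw : 0 < t ^ TRec.sx sg j := Real.rpow_pos_of_pos ht _
    refine (hdat.sup hw (price) (hloc j p hp) y hy).trans ?_
    rw [htm j, div_le_div_iff₀ (by positivity) hw]
    nlinarith
  have hmass : ∀ j, ∀ p ∈ R, τ j p ≤ 1 := by
    intro j p hp
    have h1 := (hdat.near j).t_le p
    have h2 : av p (G j) ^ 2 ≤ 1 := pow_le_one₀ (Real.sqrt_nonneg _) (hloc j p hp)
    linarith
  have hsup0 : ∀ j, 0 ≤ t ^ (-(TRec.sx sg j)) := fun j => Real.rpow_nonneg ht.le _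
  have hdvi : ∀ j, ∀ p ∈ R, av p (fun y => f j (o p) y - f j p y) ^ 2 ≤ δ := by
    intro j p hp
    refine le_trans ?_ (hdv (o p) (ho p hp).1 p (ho p hp).2)
    unfold dv
    exact Finset.single_le_sum (f := fun i => av p (fun y => f i (o p) y - f i p y) ^ 2)
      (fun i _ => sq_nonneg _) (Finset.mem_univ j)
  have hδh : δ ^ (1 / 2 : ℝ) = t ^ (c1 / 2) := by
    rw [hδ, ← Real.rpow_mul ht.le]
    congr 1
    ring
  refine ⟨S, fun j p => f j (o p), fun j p => Ew (f j) (W (o p)) (o p), fun j => ?_⟩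
  refine ⟨tops_of hR hS hJS, ?_, ?_, fun _ _ _ => rfl, hG j, ?_, ?_, ?_, ?_, ?_, ?_, ?_, ?_⟩
  · -- adH
    intro p hp I hI
    show f j (o p) = f j (o I)
    rw [hoI p hp I hI, hoS I hI.1]
  · intro p hp I hI
    show Ew (f j) (W (o p)) (o p) = Ew (f j) (W (o I)) (o I)
    rw [hoI p hp I hI, hoS I hI.1]
  · -- level
    intro p hp φ hφ
    have hK := (ho p hp).1
    have h1 : Lv (dic hD hc j ht ht1) p (fun y => G j y - gl (W (o p)) (f j) y) (Real.sqrt η) :=
      lv_gl (hS.full _ hK) (hdat.near j).lev (ho p hp).2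
    have h2 := lv_of h1 (hsq j) φ hφ
    have h3 : ∑ y ∈ iv p, (G j y - f j (o p) y - Ew (f j) (W (o p)) (o p) y) * φ y
        = ∑ y ∈ iv p, (G j y - gl (W (o p)) (f j) y) * φ y := by
      refine Finset.sum_congr rfl fun y hy => ?_
      rw [Ew_of (hsub p hp hy)]
      ring
    rw [h3]
    refine h2.trans (mul_le_mul_of_nonneg_right (by norm_num) (Growth.len_pos p).le)
  · -- frozen
    intro p hp
    refine fz_of (rp_mono (hsub p hp) ((hdat.near j).rep (o p))) ?_
    linarith [hmass j (o p) (hS.sub (ho p hp).1)]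
  · -- local norm of H
    intro p hp
    have h1 := av_two p (f j (o p)) (f j p)
    have h2 := (hdat.near j).av_le p
    have h3 : av p (G j) ^ 2 ≤ 1 := pow_le_one₀ (Real.sqrt_nonneg _) (hloc j p hp)
    have h4 := hdvi j p hp
    have h5 : 0 ≤ av p (f j (o p)) := Real.sqrt_nonneg _
    show av p (f j (o p)) ≤ 100
    nlinarith
  · -- local norm of E
    intro p hp
    have h1 := Ew_loc (hS.full _ (ho p hp).1) (hdv (o p) (ho p hp).1) j (ho p hp).2
    have h2 : 0 ≤ t ^ (c1 / 2) := Real.rpow_nonneg ht.le _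
    have h3 : (t ^ (c1 / 2)) ^ 2 = δ := by
      rw [← Real.rpow_natCast, ← Real.rpow_mul ht.le, hδ]
      congr 1
      push_cast
      ring
    rw [← h3] at h1
    have h4 := abs_le_of_sq_le_sq h1 h2
    show av p (Ew (f j) (W (o p)) (o p)) ≤ 100 * t ^ (c1 / 2)
    have h5 : av p (Ew (f j) (W (o p)) (o p)) ≤ t ^ (c1 / 2) := (le_abs_self _).trans h4
    linarith
  · intro p hp y hy
    refine (hsup j (o p) (hS.sub (ho p hp).1) y (hsub p hp hy)).trans ?_
    linarith [hsup0 j]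
  · intro p hp y hy
    have h1 := Ew_sup (hS.full _ (ho p hp).1) (hsup0 j)
      (fun q hq => hsup j q (hS.wsub _ (ho p hp).1 hq)) y
    refine h1.trans ?_
    linarith [hsup0 j]
  · -- count
    intro p hp
    have h1 := hS.cnt p hp
    refine le_trans (Finset.sum_le_sum_of_subset_of_nonneg ?_ fun I _ _ =>
      (Growth.len_pos I).le) (h1.trans ?_)
    · intro I hI
      rw [Finset.mem_filter] at hI ⊢
      exact ⟨hI.1, hI.2.1⟩
    · refine mul_le_mul_of_nonneg_right ?_ (Growth.len_pos p).le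
      rw [Real.rpow_neg ht.le, Fintype.card_fin, ← hδ]
      push_cast
      have h2 : 1 ≤ δ⁻¹ := (one_le_inv₀ hδ0).2 hδ1
      rw [div_eq_mul_inv]
      linarith
  · -- squares
    intro p hp
    have h1 := hen p hp
    refine le_trans (le_trans (Finset.sum_le_sum fun I hI => ?_)
      (Finset.sum_le_sum_of_subset_of_nonneg (f := fun K => en f (W K) K)
        (t := S.filter fun K => iv K ⊆ iv p) ?_ fun I _ _ => en_nonneg f (W I) I)) (h1.trans ?_)
    · have hIS : I ∈ S := (Finset.mem_filter.1 hI).1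
      show ∑ y ∈ iv I, ‖Ew (f j) (W (o I)) (o I) y‖ ^ 2 ≤ en f (W I) I
      rw [hoS I hIS, sum_av, av_Ew subset_rfl]
      unfold en
      refine mul_le_mul_of_nonneg_left ?_ (Growth.len_pos I).le
      exact Finset.single_le_sum
        (f := fun i => av I (fun y => gl (W I) (f i) y - f i I y) ^ 2)
        (fun i _ => sq_nonneg _) (Finset.mem_univ j)
    · intro I hI
      rw [Finset.mem_filter] at hI ⊢
      exact ⟨hI.1, hI.2.1⟩
    · rw [Fintype.card_fin, mul_comm]
      refine mul_le_mul_of_nonneg_right ?_ (Growth.len_pos p).le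
      push_cast
      linarith

/-- **[T1] WINDOWS** (literal of `TDef_853`) -/
theorem winLem : TRecw.WinLem := by
  obtain ⟨C, hC, h⟩ := winLem_of
  exact ⟨C, hC, fun D k q3 sg c1 hD hk0 hk1 hq3 hs0 hs1 hc0 hc1 =>
    h D k q3 sg c1 hD hD.conj hk0 hk1 hq3 hs0 hs1 hc0 hc1⟩

end Crest.Agent.R079.TWLw
end

-- ▼ part R079/TS3w_351

/-! R079, REC v3: copy of `TS3d_903` (helper903) over `TRecw.Dic` (helper351). -/

set_option autoImplicit false

namespace Crest.Agent.R079.TRecw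

open Finset Crest.Agent.R079.Grid Crest.Agent.R079.Growth Crest.Agent.R079.QRed
open Crest.Agent.R079.TRec

variable {D : Dict} {k q3 sg c0 e t0 K : ℝ}

namespace T3b

open Crest.Agent.R079.TRec.T3b

/-- frozen at a coarse parameter = frozen at a finer one -/
theorem Fz_finer {D : Dict} {sg : ℝ} (hD : Dic D sg) {j : Fin 4} {s t M : ℝ} {p : Nd} {f : Fn}
    (hs : 0 < s) (hst : s ≤ t) (ht : t ≤ 1) (h : Fz D j t M p f) : Fz D j s M p f := by
  obtain ⟨n, φ, c, hφ, hf, hM⟩ := h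
  choose φ' hφ' a ha0 ha1 hφa using fun i => hD.mono j s t hs hst ht (φ i) (hφ i)
  refine ⟨n, φ', fun i => c i * a i, hφ', ?_, ?_⟩
  · intro y hy
    rw [hf y hy]
    refine Finset.sum_congr rfl fun i _ => ?_
    rw [hφa i]
    ring
  · refine (Finset.sum_le_sum fun i _ => ?_).trans hM
    rw [norm_mul, Complex.norm_real, Real.norm_of_nonneg (ha0 i)]
    exact mul_le_of_le_one_right (norm_nonneg _) (ha1 i)


variable {R : Finset Nd} {J : Nd}

/-- **[T3a] v2, strong form** -/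
theorem two_core2 (hConv : ConvLem) (D : Dict) (k q3 sg c0 c3 e c1 bt t0 K C : ℝ)
    (o : Ok k q3 sg c0 c3 e c1 bt) (ht01 : t0 ≤ 1) (hK : 0 ≤ K) (hC : 1 ≤ C)
    (hD : Dic D sg) (hRA : RuleA2 D k q3 c0 e t0 K) : ∃ K' : ℝ, 0 ≤ K' ∧
    ∀ N B t A, 0 ≤ B → BN k q3 N B → 0 < t → t ≤ t0 → 0 ≤ A →
      An D k q3 sg c1 C N (t ^ (1 + e)) A →
      Bn D k q3 sg c1 C N (t ^ (1 + e)) t
        (K' * t ^ (-(5 * k)) * A + K' * (1 + B) * t ^ (bt + 18 * k)) := by
  classical
  obtain ⟨C', hC', hcv⟩ := hConv k o.k0 (by linarith [k_small o]) C hC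
  have hC0 : 0 < C := by linarith
  refine ⟨1 + C' + 9 * C ^ 5 * K, by positivity, ?_⟩
  intro N B t A hB hBN ht htt0 hA0 hAn bb ε hA R J hR hJ m m' hm hm' hmm T G H E X hW T' G' H' E' X'
    hW' F hF
  have ht1 : t ≤ 1 := htt0.trans ht01
  set τ : ℝ := t ^ (1 + e) with hτd
  have hτ : 0 < τ := Real.rpow_pos_of_pos ht _
  have hτt : τ ≤ t := by
    calc τ ≤ t ^ (1 : ℝ) := Real.rpow_le_rpow_of_exponent_ge ht ht1 (by linarith [o.e0])
      _ = t := Real.rpow_one t
  have hτ1 : τ ≤ 1 := hτt.trans ht1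
  have hL := Growth.len_pos J
  set Y : Fin 4 → Nd → Fn := Function.update (fun j _ => F j) m X with hYd
  have hne : m' ≠ m := hmm.symm
  -- static slot `m'`
  have hstat : ∀ z : Fn, Function.update Y m' (fun _ => z)
      = Function.update (fun j _ => Function.update F m' z j) m X := by
    intro z
    rw [hYd, Function.update_comm hmm]
    congr 1
    funext j
    by_cases hj : j = m'
    · subst hj; simp
    · simp [hj]
  have hsmall : ∀ ε', Adm bb ε' → ∀ R' J', Full R' J' → R' ⊆ R → ∀ z : Fn,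
      (∀ p ∈ R', aq (2 + k) p z ≤ 1) →
      ‖TP bb ε' R' (Function.update Y m' (fun _ => z))‖ ≤ A * len J' := by
    intro ε' hε' R' J' hR' hs z hz
    rw [hstat z]
    refine hAn bb ε' hε' R' J' hR' ((ht_le hR hR' hs).trans hJ) m hm _ G H E X
      (hW.restrict hR hR' hs) (Function.update F m' z) ?_
    intro j hj p hp
    by_cases hjm : j = m'
    · subst hjm
      rw [Function.update_self, qx_ne hm']
      exact hz p hp
    · rw [Function.update_of_ne hjm]
      exact hF j hj hjm p (hs hp)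
  -- word G'
  have hG : ‖TP bb ε R (Function.update Y m' (fun _ => G'))‖ ≤ A * len J := by
    refine hsmall ε hA R J hR (Finset.Subset.refl _) G' ?_
    intro p hp
    have := hW'.nrm p hp
    rwa [qx_ne hm'] at this
  -- word E'
  have hE : ‖TP bb ε R (Function.update Y m' E')‖ ≤ C' * t ^ (-(5 * k)) * A * len J := by
    have hc : t ^ (-c1) ≤ t⁻¹ := by
      rw [← Real.rpow_neg_one]
      exact Real.rpow_le_rpow_of_exponent_ge ht ht1 (by linarith [o.c11])
    refine hcv bb m' t A ht ht1 hA0 R J hR Y T' E' hW'.tops hW'.adE ?_ ?_ ?_ hW'.sq hsmall ε hA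
    · intro p hp
      refine (hW'.eav p hp).trans ?_
      have : t ^ (c1 / 2) ≤ 1 := Real.rpow_le_one ht.le ht1 (by linarith [o.c10])
      nlinarith
    · intro p hp y hy
      refine (hW'.esup p hp y hy).trans (le_of_eq ?_)
      rw [sx_ne hm', Real.rpow_neg_one]
    · exact hW'.cnt.mono (mul_le_mul_of_nonneg_left hc hC0.le)
  -- word H'
  have hH : ‖TP bb ε R (Function.update Y m' H')‖
      ≤ 9 * C ^ 5 * K * (1 + B) * t ^ (bt + 18 * k) * len J := by
    have hTT := hW.tops.union hW'.tops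
    have hadX : Adp R (T ∪ T') X := hW.adX.finer hR hW.tops hTT Finset.subset_union_left
    have hadH : Adp R (T ∪ T') H' := hW'.adH.finer hR hW'.tops hTT Finset.subset_union_right
    have had : ∀ j, Adp R (T ∪ T') (Function.update Y m' H' j) := by
      intro j
      by_cases hj : j = m'
      · subst hj; rw [Function.update_self]; exact hadH
      · rw [Function.update_of_ne hj, hYd]
        by_cases hj' : j = m
        · subst hj'; rw [Function.update_self]; exact hadX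
        · rw [Function.update_of_ne hj']; exact Adp.const _
    have hcτ : t ^ (-c1) ≤ τ ^ (-c1) :=
      Real.rpow_le_rpow_of_nonpos hτ hτt (by linarith [o.c10])
    have hcτ1 : 1 ≤ τ ^ (-c1) :=
      Real.one_le_rpow_of_pos_of_le_one_of_nonpos hτ hτ1 (by linarith [o.c10])
    have hcnt : Cnt R (T ∪ T') (2 * C * τ ^ (-c1)) :=
      (hW.cnt.union hW'.cnt).mono (by nlinarith)
    have hpk : t ^ (-(k / 2)) ≤ t ^ (-k) :=
      Real.rpow_le_rpow_of_exponent_ge ht ht1 (by linarith [o.k0])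
    have hpk' : τ ^ (-(k / 2)) ≤ t ^ (-k) := by
      rw [hτd, ← Real.rpow_mul ht.le]
      refine Real.rpow_le_rpow_of_exponent_ge ht ht1 ?_
      nlinarith [o.k0, o.e1]
    have hk1 : 1 ≤ t ^ (-k) :=
      Real.one_le_rpow_of_pos_of_le_one_of_nonpos ht ht1 (by linarith [o.k0])
    set a : Fin 4 → ℝ := fun j =>
      (if j = m then 3 * C * t ^ (-k) else 1) * (if j = m' then C * t ^ (-k) else 1) with had'
    have ha1 : ∀ j, 1 ≤ a j := by
      intro j
      have h1 : (1 : ℝ) ≤ (if j = m then 3 * C * t ^ (-k) else 1) := by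
        split_ifs
        · nlinarith
        · exact le_refl _
      have h2 : (1 : ℝ) ≤ (if j = m' then C * t ^ (-k) else 1) := by
        split_ifs
        · nlinarith
        · exact le_refl _
      simp only [had']
      nlinarith
    have hprod : ∏ j, a j = 3 * C * t ^ (-k) * (C * t ^ (-k)) := by
      simp only [had', Finset.prod_mul_distrib, Finset.prod_ite_eq', Finset.mem_univ, if_true]
    have hpos : 0 ≤ K * (1 + B) * C ^ 2 * (3 * C * t ^ (-k) * (C * t ^ (-k))) * τ ^ c0 := by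
      have := Real.rpow_nonneg hτ.le c0
      have h1B : 0 ≤ 1 + B := by linarith
      positivity
    have hwin : ∀ I ∈ T ∪ T', ‖TR bb ε (win R (T ∪ T') I)
        (fun j => Function.update Y m' H' j I)‖
        ≤ K * (1 + B) * C ^ 2 * (3 * C * t ^ (-k) * (C * t ^ (-k))) * τ ^ c0 * len I := by
      intro I hI
      have hWf := win_full hR hTT hI
      have hIR : I ∈ R := hTT.sub hI
      have hsub : win R (T ∪ T') I ⊆ R := win_sub
      have e1 : Function.update Y m' H' m' I = H' I := by rw [Function.update_self]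
      have e2 : Function.update Y m' H' m I = X I := by
        rw [Function.update_of_ne hmm, hYd, Function.update_self]
      have hnrm : ∀ j, ∀ p ∈ win R (T ∪ T') I,
          aq (qx k q3 j) p (Function.update Y m' H' j I) ≤ a j := by
        intro j p hp
        have hpR := hsub hp
        by_cases hj : j = m'
        · subst hj
          rw [e1, ← hadH.eq hp]
          refine (H_le hW' hm' o.k0 o.hq3 hC ht ht1 hpR).trans ?_
          simp only [had', if_neg hne, if_true, one_mul]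
          exact mul_le_mul_of_nonneg_left hpk hC0.le
        · by_cases hj' : j = m
          · subst hj'
            rw [e2, ← hadX.eq hp]
            refine (X_le hW hm o.k0 o.hq3 o.sg0 o.c10.le hC hτ hτ1 hpR).trans ?_
            simp only [had', if_neg hj, if_true, mul_one]
            exact mul_le_mul_of_nonneg_left hpk' (by positivity)
          · rw [Function.update_of_ne hj, hYd, Function.update_of_ne hj']
            refine (hF j hj' hj p hpR).trans (ha1 j)
      have hfz : Fz D m' (τ ^ (1 + e)) C I (Function.update Y m' H' m' I) := by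
        rw [e1]
        refine Fz_finer hD (Real.rpow_pos_of_pos hτ _) ?_ ht1 (hW'.frz I hIR)
        calc τ ^ (1 + e) ≤ τ ^ (1 : ℝ) :=
              Real.rpow_le_rpow_of_exponent_ge hτ hτ1 (by linarith [o.e0])
          _ = τ := Real.rpow_one τ
          _ ≤ t := hτt
      have hlv : ∀ p ∈ win R (T ∪ T') I, Lv D m τ C p (Function.update Y m' H' m I) := by
        intro p hp
        rw [e2, ← hadX.eq hp]
        exact hW.lev p (hsub hp)
      have hfin := RuleA2_scaled o.k0 o.hq3 hK hRA hB hBN hτ (hτt.trans htt0) hA hWf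
        ((iv_level (hR.reg.1 I hIR)).trans hJ) hC ha1 hnrm hne hm' hm hfz hlv
      rwa [hprod] at hfin
    have h1 := sum_win_cnt bb ε hR hTT had hpos hcnt hwin
    refine h1.trans (mul_le_mul_of_nonneg_right ?_ hL.le)
    have h2 : 1 + 2 * C * τ ^ (-c1) ≤ 3 * C * τ ^ (-c1) := by nlinarith
    refine (mul_le_mul_of_nonneg_left h2 hpos).trans ?_
    have h3 := expo o ht ht1
    have h1B : 0 ≤ 1 + B := by linarith
    have h4 : 0 ≤ 9 * C ^ 5 * K * (1 + B) := by positivity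
    calc K * (1 + B) * C ^ 2 * (3 * C * t ^ (-k) * (C * t ^ (-k))) * τ ^ c0 * (3 * C * τ ^ (-c1))
        = 9 * C ^ 5 * K * (1 + B) * (t ^ (-k) * t ^ (-k) * (τ ^ c0 * τ ^ (-c1))) := by ring
      _ ≤ 9 * C ^ 5 * K * (1 + B) * t ^ (bt + 18 * k) := mul_le_mul_of_nonneg_left h3 h4
  have hexp : Function.update (Function.update (fun j _ => F j) m X) m' X'
      = Function.update Y m' X' := rfl
  rw [hexp, TP_sub3 bb ε Y m' hW'.eq]
  have h5 : 1 ≤ t ^ (-(5 * k)) :=
    Real.one_le_rpow_of_pos_of_le_one_of_nonpos ht ht1 (by linarith [o.k0])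
  have h6 : 0 ≤ t ^ (bt + 18 * k) := Real.rpow_nonneg ht.le _
  have h1B : 0 ≤ 1 + B := by linarith
  have htri : ‖TP bb ε R (Function.update Y m' (fun _ => G')) -
      TP bb ε R (Function.update Y m' H') - TP bb ε R (Function.update Y m' E')‖
      ≤ ‖TP bb ε R (Function.update Y m' (fun _ => G'))‖ +
        ‖TP bb ε R (Function.update Y m' H')‖ + ‖TP bb ε R (Function.update Y m' E')‖ :=
    (norm_sub_le _ _).trans (add_le_add (norm_sub_le _ _) le_rfl)
  refine htri.trans ?_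
  have hfinal : A * len J + 9 * C ^ 5 * K * (1 + B) * t ^ (bt + 18 * k) * len J
      + C' * t ^ (-(5 * k)) * A * len J
      ≤ ((1 + C' + 9 * C ^ 5 * K) * t ^ (-(5 * k)) * A
        + (1 + C' + 9 * C ^ 5 * K) * (1 + B) * t ^ (bt + 18 * k)) * len J := by
    have a1 : A ≤ t ^ (-(5 * k)) * A := le_mul_of_one_le_left hA0 h5
    have a2 : 0 ≤ 9 * C ^ 5 * K * (t ^ (-(5 * k)) * A) := by positivity
    have a3 : 0 ≤ (1 + C') * ((1 + B) * t ^ (bt + 18 * k)) := by positivity
    rw [← add_mul, ← add_mul]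
    refine mul_le_mul_of_nonneg_right ?_ hL.le
    nlinarith
  linarith

end T3b

/-- **[T3a] v2** -/
theorem twoLem2 (hConv : ConvLem) : TwoLem2 := by
  intro D k q3 c0 cS CS s1 e c1 bt κ t0 K C K0 o ht0 ht01 hK hC hD hRA
  obtain ⟨hkκ, o'⟩ := o.okκ
  obtain ⟨K', hK', h⟩ := T3b.two_core2 hConv D k q3 0 c0 _ e c1 _ t0 K C o' ht01 hK hC hD hRA
  refine ⟨K', hK', fun N B t A hB hBN ht htt0 hA hAn => ?_⟩
  intro bb ε hAd R J hR hJ m m' hm hm' hmm T G H E X hW T' G' H' E' X' hW' F hF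
  have h1 := h N B t A hB hBN ht htt0 hA hAn bb ε hAd R J hR hJ m m' hm hm' hmm T G H E X hW
    T' G' H' E' X' hW' F hF
  have ht1 := htt0.trans ht01
  have hk0 := o.k0
  refine h1.trans (mul_le_mul_of_nonneg_right ?_ (Growth.len_pos J).le)
  refine add_le_add (mul_le_mul_of_nonneg_right (mul_le_mul_of_nonneg_left
    (Real.rpow_le_rpow_of_exponent_ge ht ht1 (by linarith)) hK') hA)
    (mul_le_mul_of_nonneg_left (Real.rpow_le_rpow_of_exponent_ge ht ht1 (by linarith))
      (mul_nonneg hK' (by linarith)))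

end Crest.Agent.R079.TRecw
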