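import Crest.Agent.R079.TNS0_533
import Crest.Agent.R079.TApr_964
import Crest.Agent.R079.TS4c_351
import Crest.Agent.R079.TS3d_903
import Crest.Agent.R079.TRec2_13
import Crest.Agent.R079.TNTop_533_Mg
import Crest.Agent.R079.TNS4c_533
import Crest.Agent.R079.TDw_351
import Crest.Agent.R079.TTop_13
import Crest.Agent.R079.TS3w_351_Mg
import Crest.Agent.R079.TS4w_351
import Crest.Agent.R079.AsmP_734

-- ▼ part R079/TNApr_533
section

/-! R079, node-dependent recursion (helper533; port of `TAprw_351`): a priori bound. -/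

set_option autoImplicit false

namespace Crest.Agent.R079.TRecN

open Finset Crest.Agent.R079.Grid Crest.Agent.R079.Glue Crest.Agent.R079.Growth
  Crest.Agent.R079.QRed Crest.Agent.R079.QRed.Qc406
open Crest.Agent.R079.TRec Crest.Agent.R079.TRec.Apr964

namespace Apr964

/-- level against point masses ⟹ sup bound -/
lemma sup_of_Lv {D : Dict} {th : ℝ} (hD : PtE D th) {m : Fin 4} (hm : m ≠ 3) {t C : ℝ}
    (hC0 : 0 ≤ C) (ht : 0 < t) (ht1 : t ≤ 1) {p : Nd} {g : Fn} (h : Lv D m t C p g) :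
    ∀ y ∈ iv p, ‖g y‖ ≤ C * t ^ th * len p := by
  intro y hy
  obtain ⟨u, hu, hut, hmem⟩ := hD m hm t ht ht1 y
  have h1 := h _ (hmem p)
  have hfin : C * u * len p ≤ C * t ^ th * len p :=
    mul_le_mul_of_nonneg_right (mul_le_mul_of_nonneg_left hut hC0) (Growth.len_pos p).le
  refine le_trans ?_ hfin
  clear hfin hmem h hut
  replace ht := hu
  generalize u = t at h1 ht ⊢
  have h2 : ∑ y' ∈ iv p, g y' * (if y' = y then ((t : ℂ))⁻¹ else 0) = g y * ((t : ℂ))⁻¹ := by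
    rw [Finset.sum_eq_single y]
    · rw [if_pos rfl]
    · intro b _ hb
      rw [if_neg hb, mul_zero]
    · intro h'
      exact absurd hy h'
  rw [h2, norm_mul, norm_inv, Complex.norm_real, Real.norm_of_nonneg ht.le] at h1
  rw [← div_eq_mul_inv, div_le_iff₀ ht] at h1
  calc ‖g y‖ ≤ C * len p * t := h1
    _ = C * t * len p := by ring

end Apr964

open Apr964 in
/-- **[T4a]** a priori bound at finite resolution -/
theorem aprLem : AprLem := by
  intro D k q3 sg c0 c3 e c1 bt C th hok hD hC N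
  have hC0 : (0 : ℝ) ≤ C := zero_le_one.trans hC
  refine ⟨64 * (N + 1) * (((2 : ℝ) ^ (N + 7)) ^ 4 * C), by positivity, ?_⟩
  intro t ht ht1 bb ε hbb R J hF hJ m hm T G H E X hW F hFn
  have hL : (0 : ℝ) ≤ 2 ^ (N + 7) := by positivity
  obtain ⟨s, hsdef⟩ : ∃ s : ℝ, s = t ^ th := ⟨_, rfl⟩
  have hs0 : 0 < s := by rw [hsdef]; exact Real.rpow_pos_of_pos ht _
  rw [← hsdef]
  have hsub : ∀ p ∈ R, iv p ⊆ iv J := hF.reg.1
  have hq : ∀ j, 1 ≤ qx k q3 j := by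
    intro j
    have h1 := hok.k0
    have h2 := hok.hq3
    unfold qx
    split_ifs <;> linarith
  -- one node
  have hnode : ∀ p ∈ R, ‖TI bb ε (fun j => Function.update (fun j _ => F j) m X j p) p‖ ≤
      64 * (((2 : ℝ) ^ (N + 7)) ^ 4 * (C * s)) * len p := by
    intro p hp
    have hpN : p.1 ≤ N := (level_le (hsub p hp)).trans hJ
    have hlp : len p ≤ 2 ^ (N + 7) := len_le_pow hpN
    refine (norm_TI_le bb hbb.1 ε hbb.2 _ p).trans ?_
    have h3 : ∏ j, av2 (p.1 + 7) p.2 (Function.update (fun j _ => F j) m X j p) ≤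
        ∏ j : Fin 4, ((2 : ℝ) ^ (N + 7) * (if j = m then C * s else 1)) := by
      refine Finset.prod_le_prod (fun j _ => av2_nonneg _ _ _) fun j _ => ?_
      by_cases hj : j = m
      · subst hj
        rw [Function.update_self, if_pos rfl]
        refine av2_le_sup (by positivity) fun y hy => ?_
        calc ‖X p y‖ ≤ C * s * len p := by rw [hsdef]; exact sup_of_Lv hD hm hC0 ht ht1 (hW.lev p hp) y hy
          _ ≤ C * s * 2 ^ (N + 7) := mul_le_mul_of_nonneg_left hlp (by positivity)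
          _ = 2 ^ (N + 7) * (C * s) := by ring
      · rw [Function.update_of_ne hj, if_neg hj, mul_one]
        refine av2_le_sup hL fun y hy => ?_
        exact (sup_of_aq (hq j) (hFn j hj p hp) y hy).trans hlp
    have h4 : ∏ j : Fin 4, ((2 : ℝ) ^ (N + 7) * (if j = m then C * s else 1)) =
        ((2 : ℝ) ^ (N + 7)) ^ 4 * (C * s) := by
      rw [Finset.prod_mul_distrib, Finset.prod_const, Finset.prod_ite_eq']
      simp
    rw [h4] at h3
    have h5 : (0 : ℝ) ≤ 64 * 2 ^ (p.1 + 7) := by positivity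
    calc 64 * 2 ^ (p.1 + 7) *
          ∏ j, av2 (p.1 + 7) p.2 (Function.update (fun j _ => F j) m X j p)
        ≤ 64 * 2 ^ (p.1 + 7) * (((2 : ℝ) ^ (N + 7)) ^ 4 * (C * s)) :=
          mul_le_mul_of_nonneg_left h3 h5
      _ = 64 * (((2 : ℝ) ^ (N + 7)) ^ 4 * (C * s)) * len p := by unfold len; ring
  have hJN : (J.1 : ℝ) ≤ N := by exact_mod_cast hJ
  have hlJ : 0 ≤ len J := len_nonneg J
  calc ‖TP bb ε R (Function.update (fun j _ => F j) m X)‖
      ≤ ∑ p ∈ R, ‖TI bb ε (fun j => Function.update (fun j _ => F j) m X j p) p‖ :=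
        norm_sum_le _ _
    _ ≤ ∑ p ∈ R, 64 * (((2 : ℝ) ^ (N + 7)) ^ 4 * (C * s)) * len p := Finset.sum_le_sum hnode
    _ = 64 * (((2 : ℝ) ^ (N + 7)) ^ 4 * (C * s)) * ∑ p ∈ R, len p := by rw [Finset.mul_sum]
    _ ≤ 64 * (((2 : ℝ) ^ (N + 7)) ^ 4 * (C * s)) * ((J.1 + 1) * len J) :=
        mul_le_mul_of_nonneg_left (region_len R J hsub) (by positivity)
    _ ≤ 64 * (((2 : ℝ) ^ (N + 7)) ^ 4 * (C * s)) * ((N + 1) * len J) := by
        refine mul_le_mul_of_nonneg_left (mul_le_mul_of_nonneg_right ?_ hlJ) (by positivity)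
        linarith
    _ = 64 * (N + 1) * (((2 : ℝ) ^ (N + 7)) ^ 4 * C) * s * len J := by ring

end Crest.Agent.R079.TRecN
end

-- ▼ part R079/TNRec_533
section

/-! R079, node-dependent recursion (helper533; port of `TAsm_398`, `TFin3_351`): assembly and
**`TRecN.target_of_analytic2 : TRecN.Analytic2 → L0.Target`**, no other hypothesis. -/

set_option autoImplicit false

namespace Crest.Agent.R079.TRecN

open Finset Crest.Agent.R079.Grid Crest.Agent.R079.Growth Crest.Agent.R079.QRed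
open Crest.Agent.R079.TRec Crest.Agent.R079.TRec.TAsm398 Crest.Agent.R079.TRec.TRec213

section
variable {D : Dict} {k q3 sg c1 C : ℝ} {N : ℕ} {t : ℝ}

/-- the best constant with one windowed residual is admissible -/
lemma an_inf (hne : ∃ A : ℝ, 0 ≤ A ∧ An D k q3 sg c1 C N t A) :
    0 ≤ sInf {A : ℝ | 0 ≤ A ∧ An D k q3 sg c1 C N t A} ∧
      An D k q3 sg c1 C N t (sInf {A : ℝ | 0 ≤ A ∧ An D k q3 sg c1 C N t A}) := by
  refine ⟨le_csInf hne fun B hB => hB.1,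
    fun bb ε h R J hF hJ m hm T G H E X hW F hFF => ?_⟩
  have hJ0 := Growth.len_pos J
  rw [← div_le_iff₀ hJ0]
  refine le_csInf hne fun A hA => ?_
  rw [div_le_iff₀ hJ0]
  exact hA.2 bb ε h R J hF hJ m hm T G H E X hW F hFF

lemma an_inf_le {A : ℝ} (hA0 : 0 ≤ A) (hA : An D k q3 sg c1 C N t A) :
    sInf {A : ℝ | 0 ≤ A ∧ An D k q3 sg c1 C N t A} ≤ A :=
  csInf_le ⟨0, fun _ h => h.1⟩ ⟨hA0, hA⟩

end

lemma ruleA2_mono {D : Dict} {k q3 c0 e t0 t0' K : ℝ} (h : RuleA2 D k q3 c0 e t0 K)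
    (ht : t0' ≤ t0) : RuleA2 D k q3 c0 e t0' K :=
  fun N B hB hBN t h0 h1 => h N B hB hBN t h0 (h1.trans ht)

lemma ruleS_mono {D : Dict} {k q3 cS CS s1 e t0 t0' K : ℝ} (h : RuleS D k q3 cS CS s1 e t0 K)
    (ht : t0' ≤ t0) : RuleS D k q3 cS CS s1 e t0' K :=
  fun N B hB hBN t h0 h1 => h N B hB hBN t h0 (h1.trans ht)

/-- **MAIN ASSEMBLY** -/
theorem recGoal2_of (hS : StepLem2) (hP : AprLem) (hT : TopLem) : RecGoal2 := by
  obtain ⟨Cs, hCs1, hS⟩ := hS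
  obtain ⟨Ct, hCt1, hT⟩ := hT
  intro D k q3 c0 cS CS s1 e c1 bt κ t0 K K0 hok ht0 hK hD hPt hA hRS hF
  have hok1 := hok.ok
  set C := max Cs Ct with hC
  have hC1 : 1 ≤ C := hCs1.trans (le_max_left _ _)
  -- exponents
  have hk := hok.k0
  have hq3 := hok.hq3
  have hbt0 := hok.bt0
  have he0 := hok.e0
  have hebt : e * bt ≤ bt := by nlinarith [hok.e1]
  have h40 := hok.hk
  have hK0 : (0 : ℝ) ≤ K0 := Nat.cast_nonneg _
  have hkκ : k ≤ κ := by nlinarith [hok.kκ]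
  have hκ0 : 0 < κ := by linarith
  have hbt1 : bt ≤ 1 / 2 := by
    have h1 := hok.hC
    have h2 := hok.c11
    linarith
  -- the three inputs
  obtain ⟨K1, hK10, hS⟩ := hS D k q3 c0 cS CS s1 e c1 bt κ (min t0 1) K C K0 hok (lt_min ht0 one_pos)
    (min_le_right _ _) hK (le_max_left _ _) hD (ruleA2_mono hA (min_le_left _ _))
    (ruleS_mono hRS (min_le_left _ _))
  obtain ⟨K2, hK20, hT⟩ := hT D k q3 0 c0 (bt + 20 * k) e c1 bt C hok1 hD (le_max_right _ _) hF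
  have hP := hP D k q3 0 c0 (bt + 20 * k) e c1 bt C bt hok1 hPt hC1
  obtain ⟨t1, ht10, ht1, ht11, hsm⟩ := TIter.exists_small (C := K2) (γ := bt) (δ := 1 / 4)
    (t0 := min t0 1) hbt0 (by norm_num) (lt_min ht0 one_pos)
  -- best constants
  let B : ℕ → ℝ := fun N => sInf {B : ℝ | 0 ≤ B ∧ BN k q3 N B}
  let a : ℕ → ℝ → ℝ := fun N t => sInf {A : ℝ | 0 ≤ A ∧ An D k q3 0 c1 C N t A}
  have hB : ∀ N, 0 ≤ B N ∧ BN k q3 N (B N) := fun N => bn_inf (bn_apr hk hq3 N)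
  have hane : ∀ N t, 0 < t → t ≤ 1 → ∃ A : ℝ, 0 ≤ A ∧ An D k q3 0 c1 C N t A := by
    intro N t h0 h1
    obtain ⟨M, hM0, hM⟩ := hP N
    exact ⟨M * t ^ bt, mul_nonneg hM0 (Real.rpow_nonneg h0.le _), hM t h0 h1⟩
  have ha : ∀ N t, 0 < t → t ≤ 1 → 0 ≤ a N t ∧ An D k q3 0 c1 C N t (a N t) :=
    fun N t h0 h1 => an_inf (hane N t h0 h1)
  obtain ⟨M, hM⟩ : ∃ M, ∀ N, B N ≤ M := by
    classical
    -- the constants of the top step
    let Kf : ℝ → ℝ := fun t => if h : 0 < t ∧ t ≤ 1 then Classical.choose (hT t h.1 h.2) else 0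
    refine TIter.bootstrap a B Kf (C := max K1 K2) (α := 20 * κ) (β := bt) (ε := e) (t0 := t1)
      (hK10.trans (le_max_left _ _)) he0 (by linarith) (by linarith) ht10 (fun N => (hB N).1)
      ?_ ?_ ?_
    · intro N
      obtain ⟨M, hM0, hM⟩ := hP N
      refine ⟨M, fun t h0 h1 => ?_⟩
      exact an_inf_le (mul_nonneg hM0 (Real.rpow_nonneg h0.le _))
        (hM t h0 (h1.trans ht11))
    · intro N t h0 h1
      have hs0 : 0 < t ^ (1 + e) := Real.rpow_pos_of_pos h0 _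
      have hs1 : t ^ (1 + e) ≤ 1 := Real.rpow_le_one h0.le (h1.trans ht11) (by linarith)
      have hA' := ha N (t ^ (1 + e)) hs0 hs1
      have hB' := hB N
      have h2 := hS N (B N) t (a N (t ^ (1 + e))) hB'.1 hB'.2 h0 (h1.trans ht1) hA'.1 hA'.2
      have hp1 : 0 ≤ t ^ (-(20 * κ)) := Real.rpow_nonneg h0.le _
      have hp2 : 0 ≤ t ^ bt := Real.rpow_nonneg h0.le _
      have h1B : 0 ≤ 1 + B N := by linarith [hB'.1]
      refine (an_inf_le (add_nonneg (mul_nonneg (mul_nonneg hK10 hp1) hA'.1)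
        (mul_nonneg (mul_nonneg hK10 h1B) hp2)) h2).trans ?_
      have hmx : K1 ≤ max K1 K2 := le_max_left _ _
      exact add_le_add
        (mul_le_mul_of_nonneg_right (mul_le_mul_of_nonneg_right hmx hp1) hA'.1)
        (mul_le_mul_of_nonneg_right (mul_le_mul_of_nonneg_right hmx h1B) hp2)
    · intro t h0 h1 N
      have ht1' : t ≤ 1 := h1.trans ht11
      have hKf : Kf t = Classical.choose (hT t h0 ht1') := dif_pos ⟨h0, ht1'⟩
      obtain ⟨hc0, hc⟩ := Classical.choose_spec (hT t h0 ht1')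
      rw [← hKf] at hc0 hc
      have hA' := ha N t h0 ht1'
      have hB' := hB N
      have h2 := hc N (B N) (a N t) hB'.1 hB'.2 hA'.1 hA'.2
      have hp1 : 0 ≤ t ^ (-(20 * k)) := Real.rpow_nonneg h0.le _
      have hp2 : 0 ≤ t ^ bt := Real.rpow_nonneg h0.le _
      refine (bn_inf_le (add_nonneg (add_nonneg hc0 (mul_nonneg (mul_nonneg hK20 hp1) hA'.1))
        (mul_nonneg (mul_nonneg hK20 hB'.1) hp2)) h2).trans ?_
      have hmx : K2 ≤ max K1 K2 := le_max_right _ _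
      have h3 : K2 * t ^ bt ≤ 1 / 4 :=
        (mul_le_mul_of_nonneg_left (Real.rpow_le_rpow h0.le h1 hbt0.le) hK20).trans hsm
      have h4 : K2 * B N * t ^ bt ≤ 1 / 4 * B N := by
        calc K2 * B N * t ^ bt = (K2 * t ^ bt) * B N := by ring
          _ ≤ 1 / 4 * B N := mul_le_mul_of_nonneg_right h3 hB'.1
      have h6 : t ^ (-(20 * k)) ≤ t ^ (-(20 * κ)) :=
        Real.rpow_le_rpow_of_exponent_ge h0 ht1' (by linarith)
      have h7 : K2 * t ^ (-(20 * k)) ≤ max K1 K2 * t ^ (-(20 * κ)) :=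
        mul_le_mul hmx h6 hp1 (hK20.trans hmx)
      have h5 : K2 * t ^ (-(20 * k)) * a N t ≤ max K1 K2 * t ^ (-(20 * κ)) * a N t :=
        mul_le_mul_of_nonneg_right h7 hA'.1
      linarith
  refine ⟨max M 0, le_max_right _ _, fun N bb ε h R J hR hJ F hF4 => ?_⟩
  refine ((hB N).2 bb ε h R J hR hJ F hF4).trans ?_
  exact mul_le_mul_of_nonneg_right ((hM N).trans (le_max_left _ _)) (Growth.len_pos J).le

/-- **THE RECURSION, node-dependent dictionaries: no hypothesis** -/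
theorem recGoal2 : RecGoal2 :=
  recGoal2_of (S351.stepLem2 winLem T2.convLem (twoLem2 T2.convLem)) aprLem
    (TTop13.topLem winLem T2.convLem)

/-- **`S0106` from the analytic input for node-dependent dictionaries** -/
theorem target_of_analytic2 (hA : Analytic2) : L0.Target := by
  obtain ⟨D, k, q3, c0, cS, CS, s1, e, c1, bt, κ, t0, K, K0, hok, ht0, hK, hD, hP, hR, hRS, hF⟩ := hA
  have hok1 := hok.ok
  have h := recGoal2 D k q3 c0 cS CS s1 e c1 bt κ t0 K K0 hok ht0 hK hD hP hR hRS hF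
  exact Lq853.target_of_BBq (2 + k) (by have := hok1.k0; linarith) (by have := hok1.k1; linarith)
    (TX229.exitLem k q3 hok1.k0 hok1.k1 hok1.hq3 h)

end Crest.Agent.R079.TRecN
end

-- ▼ part R079/TTopw_351
section

/-! R079, REC v3: copy of `topLem` of `TTop_13` (helper13) over `TRecw.Dic` (helper351). -/

set_option autoImplicit false

namespace Crest.Agent.R079.TRecw.TTopw

open Finset Crest.Agent.R079.Grid Crest.Agent.R079.Growth Crest.Agent.R079.QRed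
open Crest.Agent.R079.TRec Crest.Agent.R079.TTop13

/-- **[T4b] TOP STEP** -/
theorem topLem (hWin : WinLem) (hConv : ConvLem) : TopLem := by
  obtain ⟨Cw, hCw1, hWin⟩ := hWin
  refine ⟨Cw, hCw1, ?_⟩
  intro D k q3 sg c0 c3 e c1 bt C hok hD hCw hF
  have hk0 := hok.k0
  have hk1 := ok_k hok
  have hC1 : 1 ≤ C := hCw1.trans hCw
  have hC0 : 0 < C := by linarith
  obtain ⟨C', hC'0, hconv⟩ := hConv k hk0 (by linarith) C hC1
  refine ⟨1 + C' + C' ^ 2 + 2 * C ^ 4, by positivity, ?_⟩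
  intro t ht0 ht1
  obtain ⟨K, hK0, hK⟩ := hF t ht0 ht1
  have hti : 1 ≤ t⁻¹ := (one_le_inv₀ ht0).2 ht1
  have hM1 : 1 ≤ C * t⁻¹ := one_le_mul_of_one_le_of_one_le hC1 hti
  have hcnt0 : 0 ≤ C * t ^ (-c1) := mul_nonneg hC0.le (Real.rpow_nonneg ht0.le _)
  set Q : ℝ := (K * ∏ _j : Fin 4, C * t⁻¹) * (1 + C * t ^ (-c1)) with hQ
  have hQ0 : 0 ≤ Q := by positivity
  refine ⟨3 * Q, by positivity, ?_⟩
  intro N B A hB0 hB hA0 hAn bb ε hadm R J hR hJN F hnrm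
  obtain ⟨T, H, E, hWR⟩ := hWin D k q3 sg c1 hD hk0 hok.k1 hok.hq3 hok.sg0 hok.sg1 hok.c10 hok.c11
    R J hR F hnrm t ht0 ht1
  set X : Fin 4 → Nd → Fn := fun j p y => F j y - H j p y - E j p y with hX
  have hW : ∀ j, WRd D k q3 sg c1 C j t R J T (F j) (H j) (E j) (X j) := fun j =>
    WRd_mono hCw ht0 (hWR j)
  have hl := Growth.len_pos J
  have hT : Tops R J T := (hW 0).tops
  have hc : Cnt R T (C * t ^ (-c1)) := (hW 0).cnt
  set Y : Fin 4 → Nd → Fn := fun j _ => F j with hY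
  have hYad : ∀ j, Adp R T (Y j) := fun j => Adp.const (F j)
  have hsplit : ∀ j, ∀ p ∈ R, ∀ y, Y j p y = X j p y + H j p y + E j p y := by
    intro j p _ y
    show F j y = (F j y - H j p y - E j p y) + H j p y + E j p y
    ring
  have hF4 : ∀ j, ∀ p ∈ R, aq (qx k q3 j) p (F j) ≤ 1 := hnrm
  -- crude norms
  have hYc : ∀ j, ∀ p ∈ R, aq (qx k q3 j) p (Y j p) ≤ C * t⁻¹ := fun j p hp =>
    (hF4 j p hp).trans hM1
  have hHc : ∀ j, j ≠ 3 → ∀ p ∈ R, aq (qx k q3 j) p (H j p) ≤ C * t⁻¹ := by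
    intro j hj p hp
    refine aq_le_of_sup (qx_pos hk0 hok.hq3 j) (by linarith) fun y hy => ?_
    have h := (hW j).hsup p hp y hy
    rwa [sx_ne hj, Real.rpow_neg_one] at h
  have hEc : ∀ j, j ≠ 3 → ∀ p ∈ R, aq (qx k q3 j) p (E j p) ≤ C * t⁻¹ := by
    intro j hj p hp
    refine aq_le_of_sup (qx_pos hk0 hok.hq3 j) (by linarith) fun y hy => ?_
    have h := (hW j).esup p hp y hy
    rwa [sx_ne hj, Real.rpow_neg_one] at h
  have hcp : ∀ _j : Fin 4, 0 < C * t⁻¹ := fun _ => by linarith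
  have hCM : C ≤ C * t⁻¹ := le_mul_of_one_le_right hC0.le hti
  have n03 : (0 : Fin 4) ≠ 3 := by decide
  have n13 : (1 : Fin 4) ≠ 3 := by decide
  have n23 : (2 : Fin 4) ≠ 3 := by decide
  have n01 : (0 : Fin 4) ≠ 1 := by decide
  have n02 : (0 : Fin 4) ≠ 2 := by decide
  have n12 : (1 : Fin 4) ≠ 2 := by decide
  -- the splittings
  have s0 := TP_split bb ε R Y 0 (Y 0) (X 0) (H 0) (E 0) (hsplit 0)
  rw [Function.update_eq_self] at s0
  set Y0 := Function.update Y 0 (E 0) with hY0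
  have s1 := TP_split bb ε R Y0 1 (Y 1) (X 1) (H 1) (E 1) (hsplit 1)
  have e1 : Function.update Y0 1 (Y 1) = Y0 := by
    rw [hY0, Function.update_comm n01, Function.update_eq_self]
  rw [e1] at s1
  set Y1 := Function.update Y0 1 (E 1) with hY1
  have s2 := TP_split bb ε R Y1 2 (Y 2) (X 2) (H 2) (E 2) (hsplit 2)
  have e2 : Function.update Y1 2 (Y 2) = Y1 := by
    rw [hY1, hY0, Function.update_comm n12, Function.update_comm n02,
      Function.update_eq_self]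
  rw [e2] at s2
  have hY0ad : ∀ j, Adp R T (Y0 j) := adp_upd hYad (hW 0).adE
  have hY1ad : ∀ j, Adp R T (Y1 j) := adp_upd hY0ad (hW 1).adE
  have hY0c : ∀ j, ∀ p ∈ R, aq (qx k q3 j) p (Y0 j p) ≤ C * t⁻¹ := nrm_upd hYc (hEc 0 n03)
  have hY1c : ∀ j, ∀ p ∈ R, aq (qx k q3 j) p (Y1 j p) ≤ C * t⁻¹ := nrm_upd hY0c (hEc 1 n13)
  -- frozen terms
  have f0 : ‖TP bb ε R (Function.update Y 0 (H 0))‖ ≤ Q * len J :=
    frz_term (D := D) (i := 0) hk0 hok.hq3 hK0 hK hadm hR hT (adp_upd hYad (hW 0).adH) hcp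
      (nrm_upd hYc (hHc 0 n03)) n03 hCM
      (fun p hp => by rw [Function.update_self]; exact (hW 0).frz p hp) hc
  have f1 : ‖TP bb ε R (Function.update Y0 1 (H 1))‖ ≤ Q * len J :=
    frz_term (D := D) (i := 1) hk0 hok.hq3 hK0 hK hadm hR hT (adp_upd hY0ad (hW 1).adH) hcp
      (nrm_upd hY0c (hHc 1 n13)) n13 hCM
      (fun p hp => by rw [Function.update_self]; exact (hW 1).frz p hp) hc
  have f2 : ‖TP bb ε R (Function.update Y1 2 (H 2))‖ ≤ Q * len J :=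
    frz_term (D := D) (i := 2) hk0 hok.hq3 hK0 hK hadm hR hT (adp_upd hY1ad (hW 2).adH) hcp
      (nrm_upd hY1c (hHc 2 n23)) n23 hCM
      (fun p hp => by rw [Function.update_self]; exact (hW 2).frz p hp) hc
  -- one residual, three static letters
  have g0 : ‖TP bb ε R (Function.update Y 0 (X 0))‖ ≤ A * len J :=
    hAn bb ε hadm R J hR hJN 0 n03 T (F 0) (H 0) (E 0) (X 0) (hW 0) F fun j _ => hF4 j
  have ht5 : 0 < t ^ (-(5 * k)) := Real.rpow_pos_of_pos ht0 _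
  have g1 : ‖TP bb ε R (Function.update Y0 1 (X 1))‖ ≤ C' * t ^ (-(5 * k)) * A * len J := by
    rw [hY0, Function.update_comm n01]
    refine conv_use hC1 hconv hok.c10 hok.c11 n03 ht0 ht1 hA0 hR (hW 0) hadm _ ?_
    intro ε' hadm' R' J' hR' hs z hz
    rw [Function.update_comm n01.symm, hY, upd_static]
    have hJ' : J'.1 ≤ N := (Qe292.iv_level (hR.reg.1 J' (hs hR'.top))).trans hJN
    exact hAn bb ε' hadm' R' J' hR' hJ' 1 n13 _ _ _ _ _ ((hW 1).restrict hR hR' hs) _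
      fun j _ => upd_nrm n03 hz fun p hp => hF4 j p (hs hp)
  have g2 : ‖TP bb ε R (Function.update Y1 2 (X 2))‖ ≤
      C' * t ^ (-(5 * k)) * (C' * t ^ (-(5 * k)) * A) * len J := by
    have ee : Function.update Y1 2 (X 2) =
        Function.update (Function.update (Function.update Y 2 (X 2)) 1 (E 1)) 0 (E 0) := by
      rw [hY1, hY0, Function.update_comm n12, Function.update_comm n02,
        Function.update_comm n01]
    rw [ee]
    refine conv_use hC1 hconv hok.c10 hok.c11 n03 ht0 ht1 (by positivity) hR (hW 0) hadm _ ?_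
    intro ε' hadm' R' J' hR' hs z hz
    have hJ' : J'.1 ≤ N := (Qe292.iv_level (hR.reg.1 J' (hs hR'.top))).trans hJN
    have ee' : Function.update (Function.update (Function.update Y 2 (X 2)) 1 (E 1)) 0
        (fun _ => z) =
        Function.update (Function.update (Function.update Y 0 (fun _ => z)) 2 (X 2)) 1 (E 1) := by
      rw [Function.update_comm n01.symm, Function.update_comm n02.symm]
    rw [ee']
    refine conv_use hC1 hconv hok.c10 hok.c11 n13 ht0 ht1 hA0 hR' ((hW 1).restrict hR hR' hs)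
      hadm' _ ?_
    intro ε'' hadm'' R'' J'' hR'' hs' z' hz'
    have hs'' : R'' ⊆ R := hs'.trans hs
    have hJ'' : J''.1 ≤ N := (Qe292.iv_level (hR.reg.1 J'' (hs'' hR''.top))).trans hJN
    rw [Function.update_comm n12.symm, hY, upd_static, upd_static]
    exact hAn bb ε'' hadm'' R'' J'' hR'' hJ'' 2 n23 _ _ _ _ _ ((hW 2).restrict hR hR'' hs'') _
      fun j _ => upd_nrm n13 hz' (upd_nrm n03 (fun p hp => hz p (hs' hp))
        fun p hp => hF4 j p (hs'' hp))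
  -- three small letters
  set s : ℝ := ((C * t ^ (c1 / 2)) ^ 2 * (C * t⁻¹) ^ k) ^ (1 / (2 + k)) with hs
  have hs0 : 0 < s := by positivity
  have hEs : ∀ j, j ≠ 3 → ∀ p ∈ R, aq (qx k q3 j) p (E j p) ≤ s := by
    intro j hj p hp
    rw [qx_ne hj]
    refine aq_interp hk0 (by linarith) ((hW j).eav p hp) fun y hy => ?_
    have h := (hW j).esup p hp y hy
    rwa [sx_ne hj, Real.rpow_neg_one] at h
  set b : Fin 4 → ℝ := ![s, s, s, 1] with hb
  have hb0 : ∀ j, 0 < b j := by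
    intro j
    fin_cases j <;> simp [hb, hs0]
  have hbn : ∀ j, ∀ p ∈ R, aq (qx k q3 j) p (Function.update Y1 2 (E 2) j p) ≤ b j := by
    intro j p hp
    fin_cases j
    · have := hEs 0 n03 p hp
      simpa [hY1, hY0, hb] using this
    · have := hEs 1 n13 p hp
      simpa [hY1, hY0, hb] using this
    · have := hEs 2 n23 p hp
      simpa [hY1, hY0, hb] using this
    · have := hF4 3 p hp
      simpa [hY1, hY0, hb, hY] using this
  have h3 : ‖TP bb ε R (Function.update Y1 2 (E 2))‖ ≤ 2 * C ^ 4 * B * t ^ bt * len J := by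
    have h := bn_term hk0 hok.hq3 hB0 hB hadm hR hJN hT (adp_upd hY1ad (hW 2).adE) hb0 hbn hc
    refine h.trans (mul_le_mul_of_nonneg_right ?_ hl.le)
    have hp : ∏ j, b j = s ^ 3 := by
      rw [Fin.prod_univ_four]
      simp [hb]
      ring
    rw [hp]
    calc B * s ^ 3 * (1 + C * t ^ (-c1)) = B * (s ^ 3 * (1 + C * t ^ (-c1))) := by ring
      _ ≤ B * (2 * C ^ 4 * t ^ bt) :=
          mul_le_mul_of_nonneg_left (small_size hok hC1 ht0 ht1) hB0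
      _ = _ := by ring
  -- total
  have htot : TR bb ε R F = TP bb ε R Y := rfl
  rw [htot, s0, s1, s2]
  have t20 : t ^ (-(5 * k)) ≤ t ^ (-(20 * k)) :=
    Real.rpow_le_rpow_of_exponent_ge ht0 ht1 (by linarith)
  have t1 : 1 ≤ t ^ (-(20 * k)) :=
    Real.one_le_rpow_of_pos_of_le_one_of_nonpos ht0 ht1 (by linarith)
  have t10 : t ^ (-(5 * k)) * t ^ (-(5 * k)) ≤ t ^ (-(20 * k)) := by
    rw [← Real.rpow_add ht0]
    exact Real.rpow_le_rpow_of_exponent_ge ht0 ht1 (by linarith)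
  set Z : ℝ := t ^ (-(20 * k)) with hZ
  have hZ0 : 0 ≤ Z := by linarith
  have b0 : A ≤ Z * A := by nlinarith
  have b1 : C' * t ^ (-(5 * k)) * A ≤ C' * Z * A :=
    mul_le_mul_of_nonneg_right (mul_le_mul_of_nonneg_left t20 hC'0) hA0
  have b2 : C' * t ^ (-(5 * k)) * (C' * t ^ (-(5 * k)) * A) ≤ C' ^ 2 * Z * A := by
    calc C' * t ^ (-(5 * k)) * (C' * t ^ (-(5 * k)) * A)
        = (C' ^ 2 * A) * (t ^ (-(5 * k)) * t ^ (-(5 * k))) := by ring
      _ ≤ (C' ^ 2 * A) * Z := mul_le_mul_of_nonneg_left t10 (by positivity)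
      _ = _ := by ring
  have htb : 0 ≤ t ^ bt := Real.rpow_nonneg ht0.le _
  have hBt : 0 ≤ (1 + C' + C' ^ 2) * B * t ^ bt := by positivity
  have hZA : 0 ≤ 2 * C ^ 4 * Z * A := by positivity
  calc ‖TP bb ε R (Function.update Y 0 (X 0)) + TP bb ε R (Function.update Y 0 (H 0)) +
        (TP bb ε R (Function.update Y0 1 (X 1)) + TP bb ε R (Function.update Y0 1 (H 1)) +
          (TP bb ε R (Function.update Y1 2 (X 2)) + TP bb ε R (Function.update Y1 2 (H 2)) +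
            TP bb ε R (Function.update Y1 2 (E 2))))‖
      ≤ A * len J + Q * len J + (C' * t ^ (-(5 * k)) * A * len J + Q * len J +
          (C' * t ^ (-(5 * k)) * (C' * t ^ (-(5 * k)) * A) * len J + Q * len J +
            2 * C ^ 4 * B * t ^ bt * len J)) := by
        refine (norm_add₃_le).trans (add_le_add (add_le_add g0 f0) ?_)
        refine (norm_add₃_le).trans (add_le_add (add_le_add g1 f1) ?_)
        exact (norm_add₃_le).trans (add_le_add (add_le_add g2 f2) h3)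
    _ = (A + C' * t ^ (-(5 * k)) * A + C' * t ^ (-(5 * k)) * (C' * t ^ (-(5 * k)) * A) +
          3 * Q + 2 * C ^ 4 * B * t ^ bt) * len J := by ring
    _ ≤ _ := by
        refine mul_le_mul_of_nonneg_right ?_ hl.le
        have : 3 * Q + (1 + C' + C' ^ 2 + 2 * C ^ 4) * Z * A + (1 + C' + C' ^ 2 + 2 * C ^ 4) * B * t ^ bt
            = Z * A + C' * Z * A + C' ^ 2 * Z * A + 3 * Q + 2 * C ^ 4 * B * t ^ bt +
              2 * C ^ 4 * Z * A + (1 + C' + C' ^ 2) * B * t ^ bt := by ring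
        rw [this]
        linarith

end Crest.Agent.R079.TRecw.TTopw
end

-- ▼ part R079/TAprw_351
section

/-! R079, REC v3: copy of `TApr_964` (helper964) over `TRecw.Dic` (helper351). -/

set_option autoImplicit false

namespace Crest.Agent.R079.TRecw

open Finset Crest.Agent.R079.Grid Crest.Agent.R079.Glue Crest.Agent.R079.Growth
  Crest.Agent.R079.QRed Crest.Agent.R079.QRed.Qc406
open Crest.Agent.R079.TRec Crest.Agent.R079.TRec.Apr964

namespace Apr964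

/-- level against point masses ⟹ sup bound -/
lemma sup_of_Lv {D : Dict} {sg : ℝ} (hD : Dic D sg) {m : Fin 4} (hm : m ≠ 3) {t C : ℝ}
    (hC0 : 0 ≤ C) (ht : 0 < t) (ht1 : t ≤ 1) {p : Nd} {g : Fn} (h : Lv D m t C p g) :
    ∀ y ∈ iv p, ‖g y‖ ≤ C * t ^ (1 / 2 : ℝ) * len p := by
  intro y hy
  obtain ⟨u, hu, hut, hmem⟩ := hD.ptw m hm t ht ht1 y
  have h1 := h _ hmem
  have hfin : C * u * len p ≤ C * t ^ (1 / 2 : ℝ) * len p :=
    mul_le_mul_of_nonneg_right (mul_le_mul_of_nonneg_left hut hC0) (Growth.len_pos p).le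
  refine le_trans ?_ hfin
  clear hfin hmem h hut
  replace ht := hu
  generalize u = t at h1 ht ⊢
  have h2 : ∑ y' ∈ iv p, g y' * (if y' = y then ((t : ℂ))⁻¹ else 0) = g y * ((t : ℂ))⁻¹ := by
    rw [Finset.sum_eq_single y]
    · rw [if_pos rfl]
    · intro b _ hb
      rw [if_neg hb, mul_zero]
    · intro h'
      exact absurd hy h'
  rw [h2, norm_mul, norm_inv, Complex.norm_real, Real.norm_of_nonneg ht.le] at h1
  rw [← div_eq_mul_inv, div_le_iff₀ ht] at h1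
  calc ‖g y‖ ≤ C * len p * t := h1
    _ = C * t * len p := by ring

end Apr964

open Apr964 in
/-- **[T4a]** a priori bound at finite resolution -/
theorem aprLem : AprLem := by
  intro D k q3 sg c0 c3 e c1 bt C hok hD hC N
  have hC0 : (0 : ℝ) ≤ C := zero_le_one.trans hC
  refine ⟨64 * (N + 1) * (((2 : ℝ) ^ (N + 7)) ^ 4 * C), by positivity, ?_⟩
  intro t ht ht1 bb ε hbb R J hF hJ m hm T G H E X hW F hFn
  have hL : (0 : ℝ) ≤ 2 ^ (N + 7) := by positivity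
  obtain ⟨s, hsdef⟩ : ∃ s : ℝ, s = t ^ (1 / 2 : ℝ) := ⟨_, rfl⟩
  have hs0 : 0 < s := by rw [hsdef]; exact Real.rpow_pos_of_pos ht _
  rw [← hsdef]
  have hsub : ∀ p ∈ R, iv p ⊆ iv J := hF.reg.1
  have hq : ∀ j, 1 ≤ qx k q3 j := by
    intro j
    have h1 := hok.k0
    have h2 := hok.hq3
    unfold qx
    split_ifs <;> linarith
  -- one node
  have hnode : ∀ p ∈ R, ‖TI bb ε (fun j => Function.update (fun j _ => F j) m X j p) p‖ ≤
      64 * (((2 : ℝ) ^ (N + 7)) ^ 4 * (C * s)) * len p := by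
    intro p hp
    have hpN : p.1 ≤ N := (level_le (hsub p hp)).trans hJ
    have hlp : len p ≤ 2 ^ (N + 7) := len_le_pow hpN
    refine (norm_TI_le bb hbb.1 ε hbb.2 _ p).trans ?_
    have h3 : ∏ j, av2 (p.1 + 7) p.2 (Function.update (fun j _ => F j) m X j p) ≤
        ∏ j : Fin 4, ((2 : ℝ) ^ (N + 7) * (if j = m then C * s else 1)) := by
      refine Finset.prod_le_prod (fun j _ => av2_nonneg _ _ _) fun j _ => ?_
      by_cases hj : j = m
      · subst hj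
        rw [Function.update_self, if_pos rfl]
        refine av2_le_sup (by positivity) fun y hy => ?_
        calc ‖X p y‖ ≤ C * s * len p := by rw [hsdef]; exact sup_of_Lv hD hm hC0 ht ht1 (hW.lev p hp) y hy
          _ ≤ C * s * 2 ^ (N + 7) := mul_le_mul_of_nonneg_left hlp (by positivity)
          _ = 2 ^ (N + 7) * (C * s) := by ring
      · rw [Function.update_of_ne hj, if_neg hj, mul_one]
        refine av2_le_sup hL fun y hy => ?_
        exact (sup_of_aq (hq j) (hFn j hj p hp) y hy).trans hlp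
    have h4 : ∏ j : Fin 4, ((2 : ℝ) ^ (N + 7) * (if j = m then C * s else 1)) =
        ((2 : ℝ) ^ (N + 7)) ^ 4 * (C * s) := by
      rw [Finset.prod_mul_distrib, Finset.prod_const, Finset.prod_ite_eq']
      simp
    rw [h4] at h3
    have h5 : (0 : ℝ) ≤ 64 * 2 ^ (p.1 + 7) := by positivity
    calc 64 * 2 ^ (p.1 + 7) *
          ∏ j, av2 (p.1 + 7) p.2 (Function.update (fun j _ => F j) m X j p)
        ≤ 64 * 2 ^ (p.1 + 7) * (((2 : ℝ) ^ (N + 7)) ^ 4 * (C * s)) :=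
          mul_le_mul_of_nonneg_left h3 h5
      _ = 64 * (((2 : ℝ) ^ (N + 7)) ^ 4 * (C * s)) * len p := by unfold len; ring
  have hJN : (J.1 : ℝ) ≤ N := by exact_mod_cast hJ
  have hlJ : 0 ≤ len J := len_nonneg J
  calc ‖TP bb ε R (Function.update (fun j _ => F j) m X)‖
      ≤ ∑ p ∈ R, ‖TI bb ε (fun j => Function.update (fun j _ => F j) m X j p) p‖ :=
        norm_sum_le _ _
    _ ≤ ∑ p ∈ R, 64 * (((2 : ℝ) ^ (N + 7)) ^ 4 * (C * s)) * len p := Finset.sum_le_sum hnode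
    _ = 64 * (((2 : ℝ) ^ (N + 7)) ^ 4 * (C * s)) * ∑ p ∈ R, len p := by rw [Finset.mul_sum]
    _ ≤ 64 * (((2 : ℝ) ^ (N + 7)) ^ 4 * (C * s)) * ((J.1 + 1) * len J) :=
        mul_le_mul_of_nonneg_left (region_len R J hsub) (by positivity)
    _ ≤ 64 * (((2 : ℝ) ^ (N + 7)) ^ 4 * (C * s)) * ((N + 1) * len J) := by
        refine mul_le_mul_of_nonneg_left (mul_le_mul_of_nonneg_right ?_ hlJ) (by positivity)
        linarith
    _ = 64 * (N + 1) * (((2 : ℝ) ^ (N + 7)) ^ 4 * C) * s * len J := by ring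

end Crest.Agent.R079.TRecw
end

-- ▼ part R079/TFin3_351
section

/-! R079, REC v3: assembly (copy of `TRec2_13`, helper13) over `TRecw.Dic`, and
`target_of_analytic3 : Analytic3 → L0.Target` (helper351). -/

set_option autoImplicit false

namespace Crest.Agent.R079.TRecw

open Finset Crest.Agent.R079.Grid Crest.Agent.R079.Growth Crest.Agent.R079.QRed
open Crest.Agent.R079.TRec Crest.Agent.R079.TRec.TAsm398 Crest.Agent.R079.TRec.TRec213

/-- **MAIN ASSEMBLY** -/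
theorem recGoal2_of (hS : StepLem2) (hP : AprLem) (hT : TopLem) : RecGoal2 := by
  obtain ⟨Cs, hCs1, hS⟩ := hS
  obtain ⟨Ct, hCt1, hT⟩ := hT
  intro D k q3 c0 cS CS s1 e c1 bt κ t0 K K0 hok ht0 hK hD hA hRS hF
  have hok1 := hok.ok
  set C := max Cs Ct with hC
  have hC1 : 1 ≤ C := hCs1.trans (le_max_left _ _)
  -- exponents
  have hk := hok.k0
  have hq3 := hok.hq3
  have hbt0 := hok.bt0
  have he0 := hok.e0
  have hebt : e * bt ≤ bt := by nlinarith [hok.e1]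
  have h40 := hok.hk
  have hK0 : (0 : ℝ) ≤ K0 := Nat.cast_nonneg _
  have hkκ : k ≤ κ := by nlinarith [hok.kκ]
  have hκ0 : 0 < κ := by linarith
  have hbt1 : bt ≤ 1 / 2 := by
    have h1 := hok.hC
    have h2 := hok.c11
    linarith
  -- the three inputs
  obtain ⟨K1, hK10, hS⟩ := hS D k q3 c0 cS CS s1 e c1 bt κ (min t0 1) K C K0 hok (lt_min ht0 one_pos)
    (min_le_right _ _) hK (le_max_left _ _) hD (ruleA2_mono hA (min_le_left _ _))
    (ruleS_mono hRS (min_le_left _ _))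
  obtain ⟨K2, hK20, hT⟩ := hT D k q3 0 c0 (bt + 20 * k) e c1 bt C hok1 hD (le_max_right _ _) hF
  have hP := hP D k q3 0 c0 (bt + 20 * k) e c1 bt C hok1 hD hC1
  obtain ⟨t1, ht10, ht1, ht11, hsm⟩ := TIter.exists_small (C := K2) (γ := bt) (δ := 1 / 4)
    (t0 := min t0 1) hbt0 (by norm_num) (lt_min ht0 one_pos)
  -- best constants
  let B : ℕ → ℝ := fun N => sInf {B : ℝ | 0 ≤ B ∧ BN k q3 N B}
  let a : ℕ → ℝ → ℝ := fun N t => sInf {A : ℝ | 0 ≤ A ∧ An D k q3 0 c1 C N t A}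
  have hB : ∀ N, 0 ≤ B N ∧ BN k q3 N (B N) := fun N => bn_inf (bn_apr hk hq3 N)
  have hane : ∀ N t, 0 < t → t ≤ 1 → ∃ A : ℝ, 0 ≤ A ∧ An D k q3 0 c1 C N t A := by
    intro N t h0 h1
    obtain ⟨M, hM0, hM⟩ := hP N
    exact ⟨M * t ^ (1 / 2 : ℝ), mul_nonneg hM0 (Real.rpow_nonneg h0.le _), hM t h0 h1⟩
  have ha : ∀ N t, 0 < t → t ≤ 1 → 0 ≤ a N t ∧ An D k q3 0 c1 C N t (a N t) :=
    fun N t h0 h1 => an_inf (hane N t h0 h1)
  obtain ⟨M, hM⟩ : ∃ M, ∀ N, B N ≤ M := by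
    classical
    -- the constants of the top step
    let Kf : ℝ → ℝ := fun t => if h : 0 < t ∧ t ≤ 1 then Classical.choose (hT t h.1 h.2) else 0
    refine TIter.bootstrap a B Kf (C := max K1 K2) (α := 20 * κ) (β := bt) (ε := e) (t0 := t1)
      (hK10.trans (le_max_left _ _)) he0 (by linarith) (by linarith) ht10 (fun N => (hB N).1)
      ?_ ?_ ?_
    · intro N
      obtain ⟨M, hM0, hM⟩ := hP N
      refine ⟨M, fun t h0 h1 => ?_⟩
      refine (an_inf_le (mul_nonneg hM0 (Real.rpow_nonneg h0.le _))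
        (hM t h0 (h1.trans ht11))).trans ?_
      refine mul_le_mul_of_nonneg_left ?_ hM0
      exact Real.rpow_le_rpow_of_exponent_ge h0 (h1.trans ht11) hbt1
    · intro N t h0 h1
      have hs0 : 0 < t ^ (1 + e) := Real.rpow_pos_of_pos h0 _
      have hs1 : t ^ (1 + e) ≤ 1 := Real.rpow_le_one h0.le (h1.trans ht11) (by linarith)
      have hA' := ha N (t ^ (1 + e)) hs0 hs1
      have hB' := hB N
      have h2 := hS N (B N) t (a N (t ^ (1 + e))) hB'.1 hB'.2 h0 (h1.trans ht1) hA'.1 hA'.2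
      have hp1 : 0 ≤ t ^ (-(20 * κ)) := Real.rpow_nonneg h0.le _
      have hp2 : 0 ≤ t ^ bt := Real.rpow_nonneg h0.le _
      have h1B : 0 ≤ 1 + B N := by linarith [hB'.1]
      refine (an_inf_le (add_nonneg (mul_nonneg (mul_nonneg hK10 hp1) hA'.1)
        (mul_nonneg (mul_nonneg hK10 h1B) hp2)) h2).trans ?_
      have hmx : K1 ≤ max K1 K2 := le_max_left _ _
      exact add_le_add
        (mul_le_mul_of_nonneg_right (mul_le_mul_of_nonneg_right hmx hp1) hA'.1)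
        (mul_le_mul_of_nonneg_right (mul_le_mul_of_nonneg_right hmx h1B) hp2)
    · intro t h0 h1 N
      have ht1' : t ≤ 1 := h1.trans ht11
      have hKf : Kf t = Classical.choose (hT t h0 ht1') := dif_pos ⟨h0, ht1'⟩
      obtain ⟨hc0, hc⟩ := Classical.choose_spec (hT t h0 ht1')
      rw [← hKf] at hc0 hc
      have hA' := ha N t h0 ht1'
      have hB' := hB N
      have h2 := hc N (B N) (a N t) hB'.1 hB'.2 hA'.1 hA'.2
      have hp1 : 0 ≤ t ^ (-(20 * k)) := Real.rpow_nonneg h0.le _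
      have hp2 : 0 ≤ t ^ bt := Real.rpow_nonneg h0.le _
      refine (bn_inf_le (add_nonneg (add_nonneg hc0 (mul_nonneg (mul_nonneg hK20 hp1) hA'.1))
        (mul_nonneg (mul_nonneg hK20 hB'.1) hp2)) h2).trans ?_
      have hmx : K2 ≤ max K1 K2 := le_max_right _ _
      have h3 : K2 * t ^ bt ≤ 1 / 4 :=
        (mul_le_mul_of_nonneg_left (Real.rpow_le_rpow h0.le h1 hbt0.le) hK20).trans hsm
      have h4 : K2 * B N * t ^ bt ≤ 1 / 4 * B N := by
        calc K2 * B N * t ^ bt = (K2 * t ^ bt) * B N := by ring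
          _ ≤ 1 / 4 * B N := mul_le_mul_of_nonneg_right h3 hB'.1
      have h6 : t ^ (-(20 * k)) ≤ t ^ (-(20 * κ)) :=
        Real.rpow_le_rpow_of_exponent_ge h0 ht1' (by linarith)
      have h7 : K2 * t ^ (-(20 * k)) ≤ max K1 K2 * t ^ (-(20 * κ)) :=
        mul_le_mul hmx h6 hp1 (hK20.trans hmx)
      have h5 : K2 * t ^ (-(20 * k)) * a N t ≤ max K1 K2 * t ^ (-(20 * κ)) * a N t :=
        mul_le_mul_of_nonneg_right h7 hA'.1
      linarith
  refine ⟨max M 0, le_max_right _ _, fun N bb ε h R J hR hJ F hF4 => ?_⟩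
  refine ((hB N).2 bb ε h R J hR hJ F hF4).trans ?_
  exact mul_le_mul_of_nonneg_right ((hM N).trans (le_max_left _ _)) (Growth.len_pos J).le

/-- **REC v3: no hypothesis** -/
theorem recGoal3 : RecGoal2 :=
  recGoal2_of (S351.stepLem2 TWLw.winLem T2.convLem (twoLem2 T2.convLem)) aprLem
    (TTopw.topLem TWLw.winLem T2.convLem)

/-- **`S0106` from the analytic input v3** -/
theorem target_of_analytic3 (hA : Analytic3) : L0.Target := by
  obtain ⟨D, k, q3, c0, cS, CS, s1, e, c1, bt, κ, t0, K, K0, hok, ht0, hK, hD, hR, hRS, hF⟩ := hA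
  have hok1 := hok.ok
  have h := recGoal3 D k q3 c0 cS CS s1 e c1 bt κ t0 K K0 hok ht0 hK hD hR hRS hF
  exact Lq853.target_of_BBq (2 + k) (by have := hok1.k0; linarith) (by have := hok1.k1; linarith)
    (TX229.exitLem k q3 hok1.k0 hok1.k1 hok1.hq3 h)

end Crest.Agent.R079.TRecw
end

-- ▼ part R079/TGr_351
section

/-! R079, REC v3: GRADED dictionaries by reparametrisation (helper351).

`grade D μ j t = D j (t ^ μ j)`.  The nontrivial rule (A) is needed only for pairs (frozen `i`,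
killer `m`) with `m < i`; for `i < m` only the trivial kill (frozen at `s`, killer of level
`s ^ (1 + δ)`).  `Analytic4 → L0.Target`. -/

set_option autoImplicit false

namespace Crest.Agent.R079.TRecw

open Finset Crest.Agent.R079.Grid Crest.Agent.R079.Growth Crest.Agent.R079.QRed
open Crest.Agent.R079.TRec

/-- reparametrised dictionary -/
def grade (D : Dict) (μ : Fin 4 → ℝ) : Dict := fun j t => D j (t ^ μ j)

/-- **RULE (A), NONTRIVIAL PAIRS** `m < i` (killer slot below the frozen slot): frozen at `t ^ (1 + e)`,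
killer of level `t` -/
def RuleNT (D : Dict) (k q3 c0 e t0 K : ℝ) : Prop :=
  ∀ (N : ℕ) (B : ℝ), 0 ≤ B → BN k q3 N B → ∀ t, 0 < t → t ≤ t0 → ∀ bb ε, Adm bb ε → ∀ W I,
    Full W I → I.1 ≤ N → ∀ F, nrm k q3 W F →
    ∀ i m : Fin 4, m < i → i ≠ 3 → Fz D i (t ^ (1 + e)) 1 I (F i) →
      (∀ p ∈ W, Lv D m t 1 p (F m)) → ‖TR bb ε W F‖ ≤ K * (1 + B) * t ^ c0 * len I

/-- **TRIVIAL KILL**, pairs `i < m`: frozen at `s`, killer of level `s ^ (1 + δ)` (finer) -/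
def RuleTr (D : Dict) (k q3 c0 δ t0 K : ℝ) : Prop :=
  ∀ (N : ℕ) (B : ℝ), 0 ≤ B → BN k q3 N B → ∀ s, 0 < s → s ≤ t0 → ∀ bb ε, Adm bb ε → ∀ W I,
    Full W I → I.1 ≤ N → ∀ F, nrm k q3 W F →
    ∀ i m : Fin 4, i < m → m ≠ 3 → Fz D i s 1 I (F i) →
      (∀ p ∈ W, Lv D m (s ^ (1 + δ)) 1 p (F m)) → ‖TR bb ε W F‖ ≤ K * (1 + B) * s ^ c0 * len I

/-- exponents `μ 0 < μ 1 < μ 2 = 1` -/
noncomputable def gm (ρ : ℝ) (j : Fin 4) : ℝ := if j = 0 then ρ ^ (-(2 : ℝ)) else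
  if j = 1 then ρ ^ (-(1 : ℝ)) else 1

section gm
variable {ρ : ℝ}

lemma gm_le (h1 : 1 ≤ ρ) (j : Fin 4) : gm ρ j ≤ 1 := by
  unfold gm
  split_ifs
  · exact Real.rpow_le_one_of_one_le_of_nonpos h1 (by norm_num)
  · exact Real.rpow_le_one_of_one_le_of_nonpos h1 (by norm_num)
  · exact le_rfl

lemma gm_half (h1 : 1 ≤ ρ) (h2 : ρ ^ 2 ≤ 2) (j : Fin 4) : 1 / 2 ≤ gm ρ j := by
  have h0 : 0 < ρ := by linarith
  have e2 : ρ ^ (-(2 : ℝ)) = (ρ ^ 2)⁻¹ := by
    rw [Real.rpow_neg h0.le, Real.rpow_two]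
  have e1 : ρ ^ (-(1 : ℝ)) = ρ⁻¹ := by rw [Real.rpow_neg h0.le, Real.rpow_one]
  unfold gm
  split_ifs
  · rw [e2, one_div]
    exact inv_anti₀ (by positivity) h2
  · rw [e1, one_div]
    exact inv_anti₀ h0 (by nlinarith)
  · norm_num

/-- `m < i ≤ 2`: `μ i ≤ ρ² μ m` -/
lemma gm_ratio_up (h1 : 1 ≤ ρ) {i m : Fin 4} (him : m < i) (hi : i ≠ 3) :
    gm ρ i ≤ ρ ^ 2 * gm ρ m := by
  have h0 : 0 < ρ := by linarith
  have e2 : ρ ^ (-(2 : ℝ)) = (ρ ^ 2)⁻¹ := by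
    rw [Real.rpow_neg h0.le, Real.rpow_two]
  have e1 : ρ ^ (-(1 : ℝ)) = ρ⁻¹ := by rw [Real.rpow_neg h0.le, Real.rpow_one]
  have hρ2 : 1 ≤ ρ ^ 2 := one_le_pow₀ h1
  have a1 : ρ ^ 2 * (ρ ^ 2)⁻¹ = 1 := mul_inv_cancel₀ (by positivity)
  have a2 : ρ ^ 2 * ρ⁻¹ = ρ := by field_simp
  have a3 : ρ⁻¹ ≤ 1 := inv_le_one_of_one_le₀ h1
  fin_cases i <;> fin_cases m <;> simp_all [gm]

/-- `i < m ≤ 2`: `ρ μ i ≤ μ m` -/
lemma gm_ratio_dn (h1 : 1 ≤ ρ) {i m : Fin 4} (him : i < m) (hm : m ≠ 3) :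
    ρ * gm ρ i ≤ gm ρ m := by
  have h0 : 0 < ρ := by linarith
  have e2 : ρ ^ (-(2 : ℝ)) = (ρ ^ 2)⁻¹ := by
    rw [Real.rpow_neg h0.le, Real.rpow_two]
  have e1 : ρ ^ (-(1 : ℝ)) = ρ⁻¹ := by rw [Real.rpow_neg h0.le, Real.rpow_one]
  have a1 : ρ * (ρ ^ 2)⁻¹ = ρ⁻¹ := by field_simp
  have a2 : ρ * ρ⁻¹ = 1 := mul_inv_cancel₀ h0.ne'
  have a3 : ρ⁻¹ ≤ 1 := inv_le_one_of_one_le₀ h1
  fin_cases i <;> fin_cases m <;> simp_all [gm]

end gm

/-- the graded dictionary is admissible -/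
theorem dic_grade {D : Dict} (hD : TRec.Dic D 0) {ρ : ℝ} (h1 : 1 ≤ ρ) (h2 : ρ ^ 2 ≤ 2) :
    Dic (grade D (gm ρ)) 0 := by
  have hμ := gm_half h1 h2
  have hμ1 := gm_le h1
  refine ⟨?_, ?_, ?_, ?_⟩
  · intro j t ht ht1 φ hφ y
    have ht' : 0 < t ^ gm ρ j := Real.rpow_pos_of_pos ht _
    have h := hD.sup j (t ^ gm ρ j) ht'
      (Real.rpow_le_one ht.le ht1 (by have := hμ j; linarith)) φ hφ y
    refine h.trans ?_
    rw [← Real.rpow_mul ht.le]
    refine Real.rpow_le_rpow_of_exponent_ge ht ht1 ?_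
    have hsx : 0 ≤ sx 0 j := by
      unfold sx
      split_ifs <;> norm_num
    have := mul_le_mul_of_nonneg_right (hμ1 j) hsx
    linarith
  · intro j s t hs hst ht φ hφ
    have hj : 0 ≤ gm ρ j := by have := hμ j; linarith
    exact hD.mono j (s ^ gm ρ j) (t ^ gm ρ j) (Real.rpow_pos_of_pos hs _)
      (Real.rpow_le_rpow hs.le hst hj) (Real.rpow_le_one (hs.le.trans hst) ht hj) φ hφ
  · intro j t φ hφ
    exact hD.conj j _ φ hφ
  · intro j hj t ht ht1 y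
    refine ⟨t ^ gm ρ j, Real.rpow_pos_of_pos ht _,
      Real.rpow_le_rpow_of_exponent_ge ht ht1 (hμ j), ?_⟩
    exact hD.pt j hj (t ^ gm ρ j) (Real.rpow_pos_of_pos ht _)
      (Real.rpow_le_one ht.le ht1 (by have := hμ j; linarith)) y

/-- **rule (A) for the graded dictionary** -/
theorem ruleA2_grade {D : Dict} (hD : TRec.Dic D 0) {k q3 c0 e δ ρ e' t0 K : ℝ} (h1 : 1 ≤ ρ)
    (h2 : ρ ^ 2 ≤ 2) (hc0 : 0 ≤ c0) (ht0 : 0 < t0) (ht01 : t0 ≤ 1) (hK : 0 ≤ K) (he' : 0 ≤ e') (hδ : 0 ≤ δ)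
    (hup : ρ ^ 2 * (1 + e') ≤ 1 + e) (hdn : (1 + δ) * (1 + e') ≤ ρ)
    (hN : RuleNT D k q3 c0 e t0 K) (hT : RuleTr D k q3 c0 δ t0 K) :
    RuleA2 (grade D (gm ρ)) k q3 (c0 / 2) e' (t0 ^ 2) K := by
  intro N B hB hBN t ht htt bb ε hε W I hW hI F hF i m him hi hm hf hl
  have hμ := gm_half h1 h2
  have hμ1 := gm_le h1
  have ht02 : t0 ^ 2 ≤ 1 := pow_le_one₀ ht0.le ht01
  have ht1 : t ≤ 1 := htt.trans ht02
  have hpow : ∀ x : ℝ, 1 / 2 ≤ x → t ^ x ≤ t0 := by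
    intro x hx
    have e1 : t ^ x ≤ t ^ (1 / 2 : ℝ) := Real.rpow_le_rpow_of_exponent_ge ht ht1 hx
    have e2 : t ^ (1 / 2 : ℝ) ≤ (t0 ^ 2) ^ (1 / 2 : ℝ) :=
      Real.rpow_le_rpow ht.le htt (by norm_num)
    have e3 : (t0 ^ 2) ^ (1 / 2 : ℝ) = t0 := by
      rw [← Real.rpow_natCast, ← Real.rpow_mul ht0.le]
      norm_num
    linarith
  have hle : 0 ≤ len I := (Growth.len_pos I).le
  have hKB : 0 ≤ K * (1 + B) := mul_nonneg hK (by linarith)
  have hf' : Fz D i ((t ^ (1 + e')) ^ gm ρ i) 1 I (F i) := hf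
  have hl' : ∀ p ∈ W, Lv D m (t ^ gm ρ m) 1 p (F m) := hl
  rw [← Real.rpow_mul ht.le] at hf'
  have hfin : ∀ x : ℝ, 1 / 2 ≤ x → K * (1 + B) * (t ^ x) ^ c0 * len I ≤
      K * (1 + B) * t ^ (c0 / 2) * len I := by
    intro x hx
    refine mul_le_mul_of_nonneg_right (mul_le_mul_of_nonneg_left ?_ hKB) hle
    rw [← Real.rpow_mul ht.le]
    refine Real.rpow_le_rpow_of_exponent_ge ht ht1 ?_
    nlinarith
  rcases lt_or_gt_of_ne him with h | h
  · -- i < m : trivial kill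
    have hs0 : 0 < t ^ ((1 + e') * gm ρ i) := Real.rpow_pos_of_pos ht _
    have hx : 1 / 2 ≤ (1 + e') * gm ρ i := by
      have := hμ i
      nlinarith
    have hr := gm_ratio_dn h1 h hm
    have hlev : ∀ p ∈ W, Lv D m ((t ^ ((1 + e') * gm ρ i)) ^ (1 + δ)) 1 p (F m) := by
      intro p hp
      rw [← Real.rpow_mul ht.le]
      refine Crest.Agent.R079.TRec.S351.Lv_mono hD (Real.rpow_pos_of_pos ht _) ?_ ?_ zero_le_one (hl' p hp)
      · refine Real.rpow_le_rpow_of_exponent_ge ht ht1 ?_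
        have h3 := mul_le_mul_of_nonneg_right hdn (by have := hμ i; linarith : 0 ≤ gm ρ i)
        nlinarith
      · refine Real.rpow_le_one ht.le ht1 ?_
        have h3 : 0 ≤ gm ρ i := by have := hμ i; linarith
        positivity
    exact (hT N B hB hBN _ hs0 (hpow _ hx) bb ε hε W I hW hI F hF i m h hm hf' hlev).trans
      (hfin _ hx)
  · -- m < i : nontrivial
    have hs0 : 0 < t ^ gm ρ m := Real.rpow_pos_of_pos ht _
    have hx : 1 / 2 ≤ gm ρ m := hμ m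
    have hr := gm_ratio_up h1 h hi
    have hfz : Fz D i ((t ^ gm ρ m) ^ (1 + e)) 1 I (F i) := by
      rw [← Real.rpow_mul ht.le]
      refine Crest.Agent.R079.TRec.S351.Fz_mono hD (Real.rpow_pos_of_pos ht _) ?_ ?_ hf'
      · refine Real.rpow_le_rpow_of_exponent_ge ht ht1 ?_
        have h3 := mul_le_mul_of_nonneg_right hup (by have := hμ m; linarith : 0 ≤ gm ρ m)
        have h4 := mul_le_mul_of_nonneg_left hr (by linarith : 0 ≤ 1 + e')
        nlinarith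
      · refine Real.rpow_le_one ht.le ht1 ?_
        have := hμ i
        nlinarith
    exact (hN N B hB hBN _ hs0 (hpow _ hx) bb ε hε W I hW hI F hF i m h hi hfz hl').trans
      (hfin _ hx)

/-- **rule (S) for the graded dictionary** -/
theorem ruleS_grade {D : Dict} (hD : TRec.Dic D 0) {k q3 cS CS s1 e ρ e' t0 K : ℝ} (h1 : 1 ≤ ρ)
    (h2 : ρ ^ 2 ≤ 2) (hcS : 0 ≤ cS) (hCS : 0 ≤ CS) (hs1 : 0 ≤ s1) (ht0 : 0 < t0) (ht01 : t0 ≤ 1)
    (hK : 0 ≤ K) (he : 0 ≤ e) (hee : e' ≤ e) (he' : 0 ≤ e')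
    (hS : RuleS D k q3 cS CS s1 e t0 K) :
    RuleS (grade D (gm ρ)) k q3 (cS / 2) CS s1 e' (t0 ^ 2) K := by
  intro N B hB hBN t ht htt bb W I hW hI m hm P G X E hP hG hf hX hl hE
  have hμ := gm_half h1 h2
  have hμ1 := gm_le h1
  have ht02 : t0 ^ 2 ≤ 1 := pow_le_one₀ ht0.le ht01
  have ht1 : t ≤ 1 := htt.trans ht02
  have hu0 : 0 < t ^ gm ρ m := Real.rpow_pos_of_pos ht _
  have hu1 : t ^ gm ρ m ≤ 1 := Real.rpow_le_one ht.le ht1 (by have := hμ m; linarith)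
  have hut0 : t ^ gm ρ m ≤ t0 := by
    have e1 : t ^ gm ρ m ≤ t ^ (1 / 2 : ℝ) := Real.rpow_le_rpow_of_exponent_ge ht ht1 (hμ m)
    have e2 : t ^ (1 / 2 : ℝ) ≤ (t0 ^ 2) ^ (1 / 2 : ℝ) :=
      Real.rpow_le_rpow ht.le htt (by norm_num)
    have e3 : (t0 ^ 2) ^ (1 / 2 : ℝ) = t0 := by
      rw [← Real.rpow_natCast, ← Real.rpow_mul ht0.le]
      norm_num
    linarith
  have hf' : Fz D m ((t ^ (1 + e')) ^ gm ρ m) 1 I P := hf
  have hfz : Fz D m ((t ^ gm ρ m) ^ (1 + e)) 1 I P := by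
    rw [← Real.rpow_mul ht.le] at hf' ⊢
    refine Crest.Agent.R079.TRec.S351.Fz_mono hD (Real.rpow_pos_of_pos ht _) ?_ ?_ hf'
    · refine Real.rpow_le_rpow_of_exponent_ge ht ht1 ?_
      have := hμ m
      nlinarith
    · refine Real.rpow_le_one ht.le ht1 ?_
      have := hμ m
      positivity
  have hE' : ∀ p ∈ W, av p E ≤ (t ^ gm ρ m) ^ s1 := by
    intro p hp
    refine (hE p hp).trans ?_
    rw [← Real.rpow_mul ht.le]
    refine Real.rpow_le_rpow_of_exponent_ge ht ht1 ?_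
    have := mul_le_mul_of_nonneg_right (hμ1 m) hs1
    linarith
  obtain ⟨T, hT1, hT2, hT3⟩ := hS N B hB hBN _ hu0 hut0 bb W I hW hI m hm P G X E hP hG hfz hX hl hE'
  refine ⟨T, hT1, hT2.mono ?_, ?_⟩
  · refine mul_le_mul_of_nonneg_left ?_ hK
    rw [← Real.rpow_mul ht.le]
    refine Real.rpow_le_rpow_of_exponent_ge ht ht1 ?_
    have := mul_le_mul_of_nonneg_right (hμ1 m) hCS
    linarith
  · intro I' hI' W' J hW' hs F hFm hF3 hFj ε hε
    refine (hT3 I' hI' W' J hW' hs F hFm hF3 hFj ε hε).trans ?_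
    refine mul_le_mul_of_nonneg_right (mul_le_mul_of_nonneg_left ?_
      (mul_nonneg hK (by linarith))) (Growth.len_pos J).le
    rw [← Real.rpow_mul ht.le]
    refine Real.rpow_le_rpow_of_exponent_ge ht ht1 ?_
    have := mul_le_mul_of_nonneg_right (hμ m) hcS
    linarith

/-- frozen letters at a fixed parameter -/
theorem frzBd_grade {D : Dict} {k q3 ρ : ℝ} (h1 : 1 ≤ ρ) (h2 : ρ ^ 2 ≤ 2) (hF : FrzBd D k q3) :
    FrzBd (grade D (gm ρ)) k q3 := by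
  intro t ht ht1
  have hμ := gm_half h1 h2
  choose K hK0 hK using fun i : Fin 4 => hF (t ^ gm ρ i) (Real.rpow_pos_of_pos ht _)
    (Real.rpow_le_one ht.le ht1 (by have := hμ i; linarith))
  refine ⟨∑ i, K i, Finset.sum_nonneg fun i _ => hK0 i, ?_⟩
  intro bb ε hε W I hW F hn i hi hf
  refine (hK i bb ε hε W I hW F hn i hi hf).trans ?_
  exact mul_le_mul_of_nonneg_right
    (Finset.single_le_sum (f := K) (fun i _ => hK0 i) (Finset.mem_univ i)) (Growth.len_pos I).le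

/-- **what the analysis has to deliver, v4 (graded)**: the nontrivial rule (A) only for `m < i` -/
def Analytic4 : Prop :=
  ∃ (D : Dict) (k q3 c0 cS CS s1 e e' δ ρ c1 bt κ t0 K : ℝ) (K0 : ℕ),
    Ok2 k q3 (c0 / 2) (cS / 2) CS s1 e' c1 bt κ K0 ∧ 1 ≤ ρ ∧ ρ ^ 2 ≤ 2 ∧ 0 ≤ δ ∧
    ρ ^ 2 * (1 + e') ≤ 1 + e ∧ (1 + δ) * (1 + e') ≤ ρ ∧ 0 ≤ c0 ∧ 0 ≤ cS ∧ 0 ≤ s1 ∧
    0 < t0 ∧ t0 ≤ 1 ∧ 0 ≤ K ∧ TRec.Dic D 0 ∧ RuleNT D k q3 c0 e t0 K ∧
    RuleTr D k q3 c0 δ t0 K ∧ RuleS D k q3 cS CS s1 e t0 K ∧ FrzBd D k q3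

/-- **`S0106` from the graded analytic input** -/
theorem target_of_analytic4 (hA : Analytic4) : L0.Target := by
  obtain ⟨D, k, q3, c0, cS, CS, s1, e, e', δ, ρ, c1, bt, κ, t0, K, K0, ok, h1, h2, hδ, hup, hdn,
    hc0, hcS, hs1, ht0, ht01, hK, hD, hN, hT, hS, hF⟩ := hA
  have he' := ok.e0
  have hee : e' ≤ e := by
    have : 1 ≤ ρ ^ 2 := one_le_pow₀ h1
    nlinarith
  exact target_of_analytic3 ⟨grade D (gm ρ), k, q3, c0 / 2, cS / 2, CS, s1, e', c1, bt, κ, t0 ^ 2,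
    K, K0, ok, by positivity, hK, dic_grade hD h1 h2,
    ruleA2_grade hD h1 h2 hc0 ht0 ht01 hK he'.le hδ hup hdn hN hT,
    ruleS_grade hD h1 h2 hcS ok.CS0 hs1 ht0 ht01 hK (he'.le.trans hee) hee he'.le hS,
    frzBd_grade h1 h2 hF⟩

end Crest.Agent.R079.TRecw
end

-- ▼ part R079/TNGr_533
section

/-! R079, node-dependent recursion (helper533; port of `TGr_351`): GRADED dictionaries by
reparametrisation.

`grade D μ j t = D j (t ^ μ j)`.  The nontrivial rule (A) is needed only for pairs (frozen `i`,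
killer `m`) with `m < i`; for `i < m` only the trivial kill (frozen at `s`, killer of level
`s ^ (1 + δ)`).  **`target_of_analytic4 : TRecN.Analytic4 → L0.Target`**. -/

set_option autoImplicit false

namespace Crest.Agent.R079.TRecN

open Finset Crest.Agent.R079.Grid Crest.Agent.R079.Growth Crest.Agent.R079.QRed
open Crest.Agent.R079.TRec Crest.Agent.R079.TRecw

/-- reparametrised dictionary -/
noncomputable def grade (D : Dict) (μ : Fin 4 → ℝ) : Dict := fun j t => D j (t ^ μ j)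

/-- **RULE (A), NONTRIVIAL PAIRS** `m < i` (killer slot below the frozen slot): frozen at `t ^ (1 + e)`,
killer of level `t` -/
def RuleNT (D : Dict) (k q3 c0 e t0 K : ℝ) : Prop :=
  ∀ (N : ℕ) (B : ℝ), 0 ≤ B → BN k q3 N B → ∀ t, 0 < t → t ≤ t0 → ∀ bb ε, Adm bb ε → ∀ W I,
    Full W I → I.1 ≤ N → ∀ F, nrm k q3 W F →
    ∀ i m : Fin 4, m < i → i ≠ 3 → (∀ p ∈ W, Fz D i (t ^ (1 + e)) 1 p (F i)) →
      (∀ p ∈ W, Lv D m t 1 p (F m)) → ‖TR bb ε W F‖ ≤ K * (1 + B) * t ^ c0 * len I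

/-- **TRIVIAL KILL**, pairs `i < m`: frozen at `s`, killer of level `s ^ (1 + δ)` (finer) -/
def RuleTr (D : Dict) (k q3 c0 δ t0 K : ℝ) : Prop :=
  ∀ (N : ℕ) (B : ℝ), 0 ≤ B → BN k q3 N B → ∀ s, 0 < s → s ≤ t0 → ∀ bb ε, Adm bb ε → ∀ W I,
    Full W I → I.1 ≤ N → ∀ F, nrm k q3 W F →
    ∀ i m : Fin 4, i < m → m ≠ 3 → (∀ p ∈ W, Fz D i s 1 p (F i)) →
      (∀ p ∈ W, Lv D m (s ^ (1 + δ)) 1 p (F m)) → ‖TR bb ε W F‖ ≤ K * (1 + B) * s ^ c0 * len I

/-- the graded dictionary is admissible -/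
theorem dic_grade {D : Dict} (hD : Dic D 0) {ρ : ℝ} (h1 : 1 ≤ ρ) (h2 : ρ ^ 2 ≤ 2) :
    Dic (grade D (gm ρ)) 0 := by
  have hμ := gm_half h1 h2
  have hμ1 := gm_le h1
  have hp : ∀ (j : Fin 4) (t : ℝ), 0 < t → t ≤ 1 → 0 < t ^ gm ρ j ∧ t ^ gm ρ j ≤ 1 := fun j t ht ht1 =>
    ⟨Real.rpow_pos_of_pos ht _, Real.rpow_le_one ht.le ht1 (by have := hμ j; linarith)⟩
  refine ⟨?_, ?_, ?_, ?_⟩
  · intro j t ht ht1
    exact hD.cst j _ (hp j t ht ht1).1 (hp j t ht ht1).2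
  · intro j t ht ht1 p f y hy
    have h := hD.sup j (t ^ gm ρ j) (hp j t ht ht1).1 (hp j t ht ht1).2 p f y hy
    have hc := (hD.cst j _ (hp j t ht ht1).1 (hp j t ht ht1).2).nonneg p f
    refine h.trans (mul_le_mul_of_nonneg_left ?_ hc)
    rw [← Real.rpow_mul ht.le]
    refine Real.rpow_le_rpow_of_exponent_ge ht ht1 ?_
    have hsx : 0 ≤ sx 0 j := by
      unfold sx
      split_ifs <;> norm_num
    have := mul_le_mul_of_nonneg_right (hμ1 j) hsx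
    linarith
  · intro j s t hs hst ht p f
    have hj : 0 ≤ gm ρ j := by have := hμ j; linarith
    exact hD.mono j (s ^ gm ρ j) (t ^ gm ρ j) (Real.rpow_pos_of_pos hs _)
      (Real.rpow_le_rpow hs.le hst hj) (Real.rpow_le_one (hs.le.trans hst) ht hj) p f
  · intro j t ht ht1 p f
    exact hD.conj j _ (hp j t ht ht1).1 (hp j t ht ht1).2 p f

/-- point masses of the graded dictionary -/
theorem ptE_grade {D : Dict} {th : ℝ} (hth : 0 ≤ th) (hP : PtE D (2 * th)) {ρ : ℝ} (h1 : 1 ≤ ρ)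
    (h2 : ρ ^ 2 ≤ 2) : PtE (grade D (gm ρ)) th := by
  intro j hj t ht ht1 y
  have hμ := gm_half h1 h2 j
  obtain ⟨u, hu, hut, hc⟩ := hP j hj (t ^ gm ρ j) (Real.rpow_pos_of_pos ht _)
    (Real.rpow_le_one ht.le ht1 (by linarith)) y
  refine ⟨u, hu, hut.trans ?_, hc⟩
  rw [← Real.rpow_mul ht.le]
  refine Real.rpow_le_rpow_of_exponent_ge ht ht1 ?_
  nlinarith

/-- **rule (A) for the graded dictionary** -/
theorem ruleA2_grade {D : Dict} (hD : Dic D 0) {k q3 c0 e δ ρ e' t0 K : ℝ} (h1 : 1 ≤ ρ)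
    (h2 : ρ ^ 2 ≤ 2) (hc0 : 0 ≤ c0) (ht0 : 0 < t0) (ht01 : t0 ≤ 1) (hK : 0 ≤ K) (he' : 0 ≤ e') (hδ : 0 ≤ δ)
    (hup : ρ ^ 2 * (1 + e') ≤ 1 + e) (hdn : (1 + δ) * (1 + e') ≤ ρ)
    (hN : RuleNT D k q3 c0 e t0 K) (hT : RuleTr D k q3 c0 δ t0 K) :
    RuleA2 (grade D (gm ρ)) k q3 (c0 / 2) e' (t0 ^ 2) K := by
  intro N B hB hBN t ht htt bb ε hε W I hW hI F hF i m him hi hm hf hl
  have hμ := gm_half h1 h2
  have hμ1 := gm_le h1
  have ht02 : t0 ^ 2 ≤ 1 := pow_le_one₀ ht0.le ht01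
  have ht1 : t ≤ 1 := htt.trans ht02
  have hpow : ∀ x : ℝ, 1 / 2 ≤ x → t ^ x ≤ t0 := by
    intro x hx
    have e1 : t ^ x ≤ t ^ (1 / 2 : ℝ) := Real.rpow_le_rpow_of_exponent_ge ht ht1 hx
    have e2 : t ^ (1 / 2 : ℝ) ≤ (t0 ^ 2) ^ (1 / 2 : ℝ) :=
      Real.rpow_le_rpow ht.le htt (by norm_num)
    have e3 : (t0 ^ 2) ^ (1 / 2 : ℝ) = t0 := by
      rw [← Real.rpow_natCast, ← Real.rpow_mul ht0.le]
      norm_num
    linarith
  have hle : 0 ≤ len I := (Growth.len_pos I).le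
  have hKB : 0 ≤ K * (1 + B) := mul_nonneg hK (by linarith)
  have hf' : ∀ p ∈ W, Fz D i ((t ^ (1 + e')) ^ gm ρ i) 1 p (F i) := hf
  have hl' : ∀ p ∈ W, Lv D m (t ^ gm ρ m) 1 p (F m) := hl
  simp only [← Real.rpow_mul ht.le] at hf'
  have hfin : ∀ x : ℝ, 1 / 2 ≤ x → K * (1 + B) * (t ^ x) ^ c0 * len I ≤
      K * (1 + B) * t ^ (c0 / 2) * len I := by
    intro x hx
    refine mul_le_mul_of_nonneg_right (mul_le_mul_of_nonneg_left ?_ hKB) hle
    rw [← Real.rpow_mul ht.le]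
    refine Real.rpow_le_rpow_of_exponent_ge ht ht1 ?_
    nlinarith
  rcases lt_or_gt_of_ne him with h | h
  · -- i < m : trivial kill
    have hs0 : 0 < t ^ ((1 + e') * gm ρ i) := Real.rpow_pos_of_pos ht _
    have hx : 1 / 2 ≤ (1 + e') * gm ρ i := by
      have := hμ i
      nlinarith
    have hr := gm_ratio_dn h1 h hm
    have hlev : ∀ p ∈ W, Lv D m ((t ^ ((1 + e') * gm ρ i)) ^ (1 + δ)) 1 p (F m) := by
      intro p hp
      rw [← Real.rpow_mul ht.le]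
      refine Lv_mono hD (Real.rpow_pos_of_pos ht _) ?_ ?_ (hl' p hp)
      · refine Real.rpow_le_rpow_of_exponent_ge ht ht1 ?_
        have h3 := mul_le_mul_of_nonneg_right hdn (by have := hμ i; linarith : 0 ≤ gm ρ i)
        nlinarith
      · refine Real.rpow_le_one ht.le ht1 ?_
        have h3 : 0 ≤ gm ρ i := by have := hμ i; linarith
        positivity
    exact (hT N B hB hBN _ hs0 (hpow _ hx) bb ε hε W I hW hI F hF i m h hm hf' hlev).trans
      (hfin _ hx)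
  · -- m < i : nontrivial
    have hs0 : 0 < t ^ gm ρ m := Real.rpow_pos_of_pos ht _
    have hx : 1 / 2 ≤ gm ρ m := hμ m
    have hr := gm_ratio_up h1 h hi
    have hfz : ∀ p ∈ W, Fz D i ((t ^ gm ρ m) ^ (1 + e)) 1 p (F i) := by
      intro p hp
      rw [← Real.rpow_mul ht.le]
      refine Fz_mono hD (Real.rpow_pos_of_pos ht _) ?_ ?_ (hf' p hp)
      · refine Real.rpow_le_rpow_of_exponent_ge ht ht1 ?_
        have h3 := mul_le_mul_of_nonneg_right hup (by have := hμ m; linarith : 0 ≤ gm ρ m)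
        have h4 := mul_le_mul_of_nonneg_left hr (by linarith : 0 ≤ 1 + e')
        nlinarith
      · refine Real.rpow_le_one ht.le ht1 ?_
        have := hμ i
        nlinarith
    exact (hN N B hB hBN _ hs0 (hpow _ hx) bb ε hε W I hW hI F hF i m h hi hfz hl').trans
      (hfin _ hx)

/-- **rule (S) for the graded dictionary** -/
theorem ruleS_grade {D : Dict} (hD : Dic D 0) {k q3 cS CS s1 e ρ e' t0 K : ℝ} (h1 : 1 ≤ ρ)
    (h2 : ρ ^ 2 ≤ 2) (hcS : 0 ≤ cS) (hCS : 0 ≤ CS) (hs1 : 0 ≤ s1) (ht0 : 0 < t0) (ht01 : t0 ≤ 1)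
    (hK : 0 ≤ K) (_he : 0 ≤ e) (hee : e' ≤ e) (he' : 0 ≤ e')
    (hS : RuleS D k q3 cS CS s1 e t0 K) :
    RuleS (grade D (gm ρ)) k q3 (cS / 2) CS s1 e' (t0 ^ 2) K := by
  intro N B hB hBN t ht htt bb W I hW hI m hm P G X E hP hG hf hX hl hE
  have hμ := gm_half h1 h2
  have hμ1 := gm_le h1
  have ht02 : t0 ^ 2 ≤ 1 := pow_le_one₀ ht0.le ht01
  have ht1 : t ≤ 1 := htt.trans ht02
  have hu0 : 0 < t ^ gm ρ m := Real.rpow_pos_of_pos ht _
  have hu1 : t ^ gm ρ m ≤ 1 := Real.rpow_le_one ht.le ht1 (by have := hμ m; linarith)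
  have hut0 : t ^ gm ρ m ≤ t0 := by
    have e1 : t ^ gm ρ m ≤ t ^ (1 / 2 : ℝ) := Real.rpow_le_rpow_of_exponent_ge ht ht1 (hμ m)
    have e2 : t ^ (1 / 2 : ℝ) ≤ (t0 ^ 2) ^ (1 / 2 : ℝ) :=
      Real.rpow_le_rpow ht.le htt (by norm_num)
    have e3 : (t0 ^ 2) ^ (1 / 2 : ℝ) = t0 := by
      rw [← Real.rpow_natCast, ← Real.rpow_mul ht0.le]
      norm_num
    linarith
  have hf' : ∀ p ∈ W, Fz D m ((t ^ (1 + e')) ^ gm ρ m) 1 p P := hf
  have hfz : ∀ p ∈ W, Fz D m ((t ^ gm ρ m) ^ (1 + e)) 1 p P := by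
    intro p hp
    have hf1 := hf' p hp
    rw [← Real.rpow_mul ht.le] at hf1 ⊢
    refine Fz_mono hD (Real.rpow_pos_of_pos ht _) ?_ ?_ hf1
    · refine Real.rpow_le_rpow_of_exponent_ge ht ht1 ?_
      have := hμ m
      nlinarith
    · refine Real.rpow_le_one ht.le ht1 ?_
      have := hμ m
      positivity
  have hE' : ∀ p ∈ W, av p E ≤ (t ^ gm ρ m) ^ s1 := by
    intro p hp
    refine (hE p hp).trans ?_
    rw [← Real.rpow_mul ht.le]
    refine Real.rpow_le_rpow_of_exponent_ge ht ht1 ?_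
    have := mul_le_mul_of_nonneg_right (hμ1 m) hs1
    linarith
  obtain ⟨T, hT1, hT2, hT3⟩ := hS N B hB hBN _ hu0 hut0 bb W I hW hI m hm P G X E hP hG hfz hX hl hE'
  refine ⟨T, hT1, hT2.mono ?_, ?_⟩
  · refine mul_le_mul_of_nonneg_left ?_ hK
    rw [← Real.rpow_mul ht.le]
    refine Real.rpow_le_rpow_of_exponent_ge ht ht1 ?_
    have := mul_le_mul_of_nonneg_right (hμ1 m) hCS
    linarith
  · intro I' hI' W' J hW' hs F hFm hF3 hFj ε hε
    refine (hT3 I' hI' W' J hW' hs F hFm hF3 hFj ε hε).trans ?_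
    refine mul_le_mul_of_nonneg_right (mul_le_mul_of_nonneg_left ?_
      (mul_nonneg hK (by linarith))) (Growth.len_pos J).le
    rw [← Real.rpow_mul ht.le]
    refine Real.rpow_le_rpow_of_exponent_ge ht ht1 ?_
    have := mul_le_mul_of_nonneg_right (hμ m) hcS
    linarith

/-- frozen letters at a fixed parameter -/
theorem frzBd_grade {D : Dict} {k q3 ρ : ℝ} (h1 : 1 ≤ ρ) (h2 : ρ ^ 2 ≤ 2) (hF : FrzBd D k q3) :
    FrzBd (grade D (gm ρ)) k q3 := by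
  intro t ht ht1
  have hμ := gm_half h1 h2
  choose K hK0 hK using fun i : Fin 4 => hF (t ^ gm ρ i) (Real.rpow_pos_of_pos ht _)
    (Real.rpow_le_one ht.le ht1 (by have := hμ i; linarith))
  refine ⟨∑ i, K i, Finset.sum_nonneg fun i _ => hK0 i, ?_⟩
  intro bb ε hε W I hW F hn i hi hf
  refine (hK i bb ε hε W I hW F hn i hi hf).trans ?_
  exact mul_le_mul_of_nonneg_right
    (Finset.single_le_sum (f := K) (fun i _ => hK0 i) (Finset.mem_univ i)) (Growth.len_pos I).le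

/-- **what the analysis has to deliver, v4 (graded)**: the nontrivial rule (A) only for `m < i` -/
def Analytic4 : Prop :=
  ∃ (D : Dict) (k q3 c0 cS CS s1 e e' δ ρ c1 bt κ t0 K : ℝ) (K0 : ℕ),
    Ok2 k q3 (c0 / 2) (cS / 2) CS s1 e' c1 bt κ K0 ∧ 1 ≤ ρ ∧ ρ ^ 2 ≤ 2 ∧ 0 ≤ δ ∧
    ρ ^ 2 * (1 + e') ≤ 1 + e ∧ (1 + δ) * (1 + e') ≤ ρ ∧ 0 ≤ c0 ∧ 0 ≤ cS ∧ 0 ≤ s1 ∧
    0 < t0 ∧ t0 ≤ 1 ∧ 0 ≤ K ∧ Dic D 0 ∧ PtE D (2 * bt) ∧ RuleNT D k q3 c0 e t0 K ∧
    RuleTr D k q3 c0 δ t0 K ∧ RuleS D k q3 cS CS s1 e t0 K ∧ FrzBd D k q3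

/-- **`S0106` from the graded analytic input** -/
theorem target_of_analytic4 (hA : Analytic4) : L0.Target := by
  obtain ⟨D, k, q3, c0, cS, CS, s1, e, e', δ, ρ, c1, bt, κ, t0, K, K0, ok, h1, h2, hδ, hup, hdn,
    hc0, hcS, hs1, ht0, ht01, hK, hD, hP, hN, hT, hS, hF⟩ := hA
  have he' := ok.e0
  have hee : e' ≤ e := by
    have : 1 ≤ ρ ^ 2 := one_le_pow₀ h1
    nlinarith
  exact target_of_analytic2 ⟨grade D (gm ρ), k, q3, c0 / 2, cS / 2, CS, s1, e', c1, bt, κ, t0 ^ 2,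
    K, K0, ok, by positivity, hK, dic_grade hD h1 h2, ptE_grade ok.bt0.le hP h1 h2,
    ruleA2_grade hD h1 h2 hc0 ht0 ht01 hK he'.le hδ hup hdn hN hT,
    ruleS_grade hD h1 h2 hcS ok.CS0 hs1 ht0 ht01 hK (he'.le.trans hee) hee he'.le hS,
    frzBd_grade h1 h2 hF⟩

end Crest.Agent.R079.TRecN
end

-- ▼ part R079/Par4_734
section

/-! R079: ALL PARAMETERS of the graded input `Analytic4` (helper351's `TGr_351`) are chosen here (helper734).

ORDER.  `c_NT` (gain of the nontrivial rule (A), pairs `m < i`) does not depend on `e`; the gain of the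
trivial kill `RuleTr` at `δ = e / 16` DOES depend on `e`; so `c0 = min`, `c1 < c0`, `s1 ≤ c1 / 4` are chosen
AFTER `e`.  Hence the static rule (S) is needed in the order `∀ e ≤ e2, ∀ s1 > 0, ∃ cS CS` (this is what
Step II gives: the mass `t^(-(1+e))` enters it only polynomially); the order `∀ s1, ∃ e2` of
`TRec.analytic2_of'` would be circular for graded dictionaries.

* `analytic4_of`  : `Dic`, `FrzBd`, `RuleNT`, `RuleTr`, `RuleS` => `Analytic4`;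
* `ruleNT_exists` : Step I (graded weights) + Step II for the pairs `m < i` => `RuleNT`;
* `target_of_steps` : everything => `L0.Target` (= `S0106`). -/

set_option autoImplicit false

namespace Crest.Agent.R079.Par4734

open Finset Crest.Agent.R079.Grid Crest.Agent.R079.Growth Crest.Agent.R079.QRed
open Crest.Agent.R079.TRec Crest.Agent.R079.TRecw
open Crest.Agent.R079.AsmA844 Crest.Agent.R079.AsmG734 Crest.Agent.R079.AsmP734

theorem ruleNT_mono {D : Dict} {k q3 c0 e t0 K c0' t0' K' : ℝ} (h : RuleNT D k q3 c0 e t0 K)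
    (ht : t0' ≤ t0) (ht1 : t0' ≤ 1) (hc : c0' ≤ c0) (hK0 : 0 ≤ K) (hK : K ≤ K') :
    RuleNT D k q3 c0' e t0' K' := by
  intro N B hB hBN t h0 h1 bb ε hA W I hW hI F hF i m him hi hfz hlv
  have h2 := h N B hB hBN t h0 (h1.trans ht) bb ε hA W I hW hI F hF i m him hi hfz hlv
  refine h2.trans (mul_le_mul_of_nonneg_right ?_ (Growth.len_pos I).le)
  have h3 : t ^ c0 ≤ t ^ c0' := Real.rpow_le_rpow_of_exponent_ge h0 (h1.trans ht1) hc
  have h4 : 0 ≤ t ^ c0 := Real.rpow_nonneg h0.le _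
  calc K * (1 + B) * t ^ c0 ≤ K' * (1 + B) * t ^ c0 :=
        mul_le_mul_of_nonneg_right (mul_le_mul_of_nonneg_right hK (by linarith)) h4
    _ ≤ K' * (1 + B) * t ^ c0' :=
        mul_le_mul_of_nonneg_left h3 (mul_nonneg (hK0.trans hK) (by linarith))

theorem ruleTr_mono {D : Dict} {k q3 c0 δ t0 K c0' t0' K' : ℝ} (h : RuleTr D k q3 c0 δ t0 K)
    (ht : t0' ≤ t0) (ht1 : t0' ≤ 1) (hc : c0' ≤ c0) (hK0 : 0 ≤ K) (hK : K ≤ K') :
    RuleTr D k q3 c0' δ t0' K' := by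
  intro N B hB hBN t h0 h1 bb ε hA W I hW hI F hF i m him hm hfz hlv
  have h2 := h N B hB hBN t h0 (h1.trans ht) bb ε hA W I hW hI F hF i m him hm hfz hlv
  refine h2.trans (mul_le_mul_of_nonneg_right ?_ (Growth.len_pos I).le)
  have h3 : t ^ c0 ≤ t ^ c0' := Real.rpow_le_rpow_of_exponent_ge h0 (h1.trans ht1) hc
  have h4 : 0 ≤ t ^ c0 := Real.rpow_nonneg h0.le _
  calc K * (1 + B) * t ^ c0 ≤ K' * (1 + B) * t ^ c0 :=
        mul_le_mul_of_nonneg_right (mul_le_mul_of_nonneg_right hK (by linarith)) h4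
    _ ≤ K' * (1 + B) * t ^ c0' :=
        mul_le_mul_of_nonneg_left h3 (mul_nonneg (hK0.trans hK) (by linarith))

/-- admissible parameters, `e` given -/
theorem ok2_fix {q3 c0 e : ℝ} (hq3 : 2 < q3) (hc0 : 0 < c0) (he : 0 < e) (he1 : e ≤ 1)
    {Q : ℝ → ℝ → ℝ → Prop}
    (hS : ∀ s1 : ℝ, 0 < s1 → ∃ cS CS : ℝ, 0 < cS ∧ 0 ≤ CS ∧ Q s1 cS CS) :
    ∃ s1 cS CS : ℝ, 0 < s1 ∧ 0 < cS ∧ 0 ≤ CS ∧ Q s1 cS CS ∧
      ∃ (c1 bt κ km : ℝ) (K0 : ℕ), 0 < km ∧ ∀ k, 0 < k → k ≤ km →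
        Ok2 k q3 c0 cS CS s1 e c1 bt κ K0 := by
  set c1 : ℝ := min 1 (c0 / 4) with hc1
  have hc1p : 0 < c1 := lt_min one_pos (by positivity)
  have hc11 : c1 ≤ 1 := min_le_left _ _
  have hc1c : c1 ≤ c0 / 4 := min_le_right _ _
  obtain ⟨cS, CS, hcS, hCS, hQ⟩ := hS (c1 / 4) (by positivity)
  refine ⟨c1 / 4, cS, CS, by positivity, hcS, hCS, hQ, ?_⟩
  have hq0 : 0 < q3 := by linarith
  set M : ℝ := min (min (c0 / 2) cS) (min (c1 / 4) (c1 / q3)) with hM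
  have hMp : 0 < M := by
    refine lt_min (lt_min (by positivity) hcS) (lt_min (by positivity) (by positivity))
  have hM1 : M ≤ c0 / 2 := (min_le_left _ _).trans (min_le_left _ _)
  have hM2 : M ≤ cS := (min_le_left _ _).trans (min_le_right _ _)
  have hM3 : M ≤ c1 / 4 := (min_le_right _ _).trans (min_le_left _ _)
  have hM4 : M ≤ c1 / q3 := (min_le_right _ _).trans (min_le_right _ _)
  obtain ⟨K0, hK0⟩ := exists_nat_ge ((CS + 6) / (c1 / 2))
  have hK0' : CS + 6 ≤ K0 * (c1 / 2) := by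
    rw [div_le_iff₀ (by positivity)] at hK0; exact hK0
  have hsum : M / 2 + 20 * (e * M / 80) ≤ M := by nlinarith
  refine ⟨c1, M / 2, e * M / 80, min (1 / 80) (e * M / 80 / (40 * (K0 + 1))), K0,
    lt_min (by norm_num) (by positivity), fun k hk hkm => ?_⟩
  have hk1 : k ≤ 1 / 80 := hkm.trans (min_le_left _ _)
  have hk2 : k ≤ e * M / 80 / (40 * (K0 + 1)) := hkm.trans (min_le_right _ _)
  have hKp : (0 : ℝ) < 40 * ((K0 : ℝ) + 1) := by positivity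
  rw [le_div_iff₀ hKp] at hk2
  exact
    { k0 := hk, k1 := hk1, kκ := by linarith, hq3 := hq3, e0 := he, e1 := he1, c10 := hc1p,
      c11 := hc11, bt0 := by positivity, CS0 := hCS,
      hA := by nlinarith,
      hS := hsum.trans hM2, hs := le_rfl, hC := hsum.trans hM3, hC3 := hsum.trans hM4,
      hK := hK0', hk := by nlinarith }

/-- **`Analytic4` from the rules with free small parameters** -/
theorem analytic4_of {q3 : ℝ} (hq3 : 2 < q3) (D : ℝ → ℝ → Dict)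
    (hD : ∀ e k, 0 < e → 0 < k → k ≤ 1 / 80 → TRec.Dic (D e k) 0)
    (hF : ∀ e k, 0 < e → 0 < k → k ≤ 1 / 80 → FrzBd (D e k) k q3)
    (hN : ∃ c0 e1 : ℝ, 0 < c0 ∧ 0 < e1 ∧ ∀ e, 0 < e → e ≤ e1 → ∃ k1 : ℝ, 0 < k1 ∧
      ∀ k, 0 < k → k ≤ k1 → ∃ t0 K : ℝ, 0 < t0 ∧ 0 ≤ K ∧ RuleNT (D e k) k q3 c0 e t0 K)
    (hT : ∃ e3 : ℝ, 0 < e3 ∧ ∀ e, 0 < e → e ≤ e3 → ∀ δ, 0 < δ → ∃ c0 k3 : ℝ, 0 < c0 ∧ 0 < k3 ∧
      ∀ k, 0 < k → k ≤ k3 → ∃ t0 K : ℝ, 0 < t0 ∧ 0 ≤ K ∧ RuleTr (D e k) k q3 c0 δ t0 K)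
    (hS : ∃ e2 : ℝ, 0 < e2 ∧ ∀ e, 0 < e → e ≤ e2 → ∀ s1, 0 < s1 → ∃ cS CS k2 : ℝ,
      0 < cS ∧ 0 ≤ CS ∧ 0 < k2 ∧ ∀ k, 0 < k → k ≤ k2 →
        ∃ t0 K : ℝ, 0 < t0 ∧ 0 ≤ K ∧ RuleS (D e k) k q3 cS CS s1 e t0 K) : Analytic4 := by
  obtain ⟨cN, e1, hcN, he1, hN⟩ := hN
  obtain ⟨e3, he3, hT⟩ := hT
  obtain ⟨e2, he2, hS⟩ := hS
  set e : ℝ := min 1 (min e1 (min e2 e3)) with he
  have hep : 0 < e := lt_min one_pos (lt_min he1 (lt_min he2 he3))
  have hel : e ≤ 1 := min_le_left _ _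
  have hee1 : e ≤ e1 := (min_le_right _ _).trans (min_le_left _ _)
  have hee2 : e ≤ e2 := (min_le_right _ _).trans ((min_le_right _ _).trans (min_le_left _ _))
  have hee3 : e ≤ e3 := (min_le_right _ _).trans ((min_le_right _ _).trans (min_le_right _ _))
  obtain ⟨k1, hk1, hN⟩ := hN e hep hee1
  obtain ⟨cT, k3, hcT, hk3, hT⟩ := hT e hep hee3 (e / 16) (by positivity)
  set c0 : ℝ := min cN cT with hc0
  have hc0p : 0 < c0 := lt_min hcN hcT
  obtain ⟨s1, cS', CS, hs1, hcS', hCS, hQ, c1, bt, κ, km, K0, hkm, hok⟩ :=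
    ok2_fix (q3 := q3) (c0 := c0 / 2) (e := e / 8) hq3 (by positivity) (by positivity)
      (by linarith) (Q := fun s1 x CS => ∃ k2 : ℝ, 0 < k2 ∧ ∀ k, 0 < k → k ≤ k2 →
        ∃ t0 K : ℝ, 0 < t0 ∧ 0 ≤ K ∧ RuleS (D e k) k q3 (2 * x) CS s1 e t0 K)
      (fun s1 hs1 => by
        obtain ⟨cS, CS, k2, hcS, hCS, hk2, h⟩ := hS e hep hee2 s1 hs1
        refine ⟨cS / 2, CS, by positivity, hCS, k2, hk2, fun k hk hkk => ?_⟩
        have e1 : 2 * (cS / 2) = cS := by ring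
        rw [e1]
        exact h k hk hkk)
  obtain ⟨k2, hk2, hQ⟩ := hQ
  set k : ℝ := min (min k1 k2) (min k3 km) with hk
  have hkp : 0 < k := lt_min (lt_min hk1 hk2) (lt_min hk3 hkm)
  obtain ⟨t1, K1, ht1, hK1, hN⟩ := hN k hkp ((min_le_left _ _).trans (min_le_left _ _))
  obtain ⟨t2, K2, ht2, hK2, hQ⟩ := hQ k hkp ((min_le_left _ _).trans (min_le_right _ _))
  obtain ⟨t3, K3, ht3, hK3, hT⟩ := hT k hkp ((min_le_right _ _).trans (min_le_left _ _))
  have ok := hok k hkp ((min_le_right _ _).trans (min_le_right _ _))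
  set tt : ℝ := min 1 (min t1 (min t2 t3)) with htt
  have http : 0 < tt := lt_min one_pos (lt_min ht1 (lt_min ht2 ht3))
  have htt1 : tt ≤ 1 := min_le_left _ _
  have ha : tt ≤ t1 := (min_le_right _ _).trans (min_le_left _ _)
  have hb : tt ≤ t2 := (min_le_right _ _).trans ((min_le_right _ _).trans (min_le_left _ _))
  have hc : tt ≤ t3 := (min_le_right _ _).trans ((min_le_right _ _).trans (min_le_right _ _))
  have e2' : 2 * cS' / 2 = cS' := by ring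
  have q1 : e ^ 2 ≤ e := by nlinarith
  have q2 : e ^ 3 ≤ e := by
    have : e ^ 3 = e * e ^ 2 := by ring
    rw [this]
    nlinarith
  have r1 : (1 + e / 4) ^ 2 ≤ 2 := by nlinarith
  have r2 : (1 + e / 4) ^ 2 * (1 + e / 8) ≤ 1 + e := by
    have : (1 + e / 4) ^ 2 * (1 + e / 8) = 1 + 5 * e / 8 + e ^ 2 / 8 + e ^ 3 / 128 := by ring
    rw [this]
    linarith
  have r3 : (1 + e / 16) * (1 + e / 8) ≤ 1 + e / 4 := by
    have : (1 + e / 16) * (1 + e / 8) = 1 + 3 * e / 16 + e ^ 2 / 128 := by ring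
    rw [this]
    linarith
  refine ⟨D e k, k, q3, c0, 2 * cS', CS, s1, e, e / 8, e / 16, 1 + e / 4, c1, bt, κ, tt,
    K1 + K2 + K3, K0, ?_, by linarith, r1, by positivity, r2, r3, hc0p.le, by positivity, hs1.le, http, htt1, by positivity,
    hD e k hep hkp ok.k1, ?_, ?_, ?_, hF e k hep hkp ok.k1⟩
  · rw [e2']
    exact ok
  · exact ruleNT_mono hN ha htt1 (min_le_left _ _) hK1 (by linarith)
  · exact ruleTr_mono hT hc htt1 (min_le_right _ _) hK3 (by linarith)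
  · exact hQ.mono hb (by linarith)




end Crest.Agent.R079.Par4734
end

-- ▼ part R079/TNPar_533

/-! R079, node-dependent recursion (helper533; port of `Par4_734`): ALL PARAMETERS of the graded input
`TRecN.Analytic4` are chosen here.

* `analytic4_of`  : `Dic`, `PtE`, `FrzBd`, `RuleNT`, `RuleTr`, `RuleS` => `Analytic4`;
  the dictionary `D e k` may depend on `e`, `k`; the gain of `RuleNT` and the exponent of the point
  masses may depend on `e`;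
* **`target_of_rules`** : the same => `L0.Target` (= `S0106`). -/

set_option autoImplicit false

namespace Crest.Agent.R079.TRecN

open Finset Crest.Agent.R079.Grid Crest.Agent.R079.Growth Crest.Agent.R079.QRed
open Crest.Agent.R079.TRec Crest.Agent.R079.TRecw
open Crest.Agent.R079.AsmA844 Crest.Agent.R079.AsmG734 Crest.Agent.R079.AsmP734 Crest.Agent.R079.Par4734

theorem ruleNT_mono {D : Dict} {k q3 c0 e t0 K c0' t0' K' : ℝ} (h : RuleNT D k q3 c0 e t0 K)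
    (ht : t0' ≤ t0) (ht1 : t0' ≤ 1) (hc : c0' ≤ c0) (hK0 : 0 ≤ K) (hK : K ≤ K') :
    RuleNT D k q3 c0' e t0' K' := by
  intro N B hB hBN t h0 h1 bb ε hA W I hW hI F hF i m him hi hfz hlv
  have h2 := h N B hB hBN t h0 (h1.trans ht) bb ε hA W I hW hI F hF i m him hi hfz hlv
  refine h2.trans (mul_le_mul_of_nonneg_right ?_ (Growth.len_pos I).le)
  have h3 : t ^ c0 ≤ t ^ c0' := Real.rpow_le_rpow_of_exponent_ge h0 (h1.trans ht1) hc
  have h4 : 0 ≤ t ^ c0 := Real.rpow_nonneg h0.le _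
  calc K * (1 + B) * t ^ c0 ≤ K' * (1 + B) * t ^ c0 :=
        mul_le_mul_of_nonneg_right (mul_le_mul_of_nonneg_right hK (by linarith)) h4
    _ ≤ K' * (1 + B) * t ^ c0' :=
        mul_le_mul_of_nonneg_left h3 (mul_nonneg (hK0.trans hK) (by linarith))

theorem ruleTr_mono {D : Dict} {k q3 c0 δ t0 K c0' t0' K' : ℝ} (h : RuleTr D k q3 c0 δ t0 K)
    (ht : t0' ≤ t0) (ht1 : t0' ≤ 1) (hc : c0' ≤ c0) (hK0 : 0 ≤ K) (hK : K ≤ K') :
    RuleTr D k q3 c0' δ t0' K' := by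
  intro N B hB hBN t h0 h1 bb ε hA W I hW hI F hF i m him hm hfz hlv
  have h2 := h N B hB hBN t h0 (h1.trans ht) bb ε hA W I hW hI F hF i m him hm hfz hlv
  refine h2.trans (mul_le_mul_of_nonneg_right ?_ (Growth.len_pos I).le)
  have h3 : t ^ c0 ≤ t ^ c0' := Real.rpow_le_rpow_of_exponent_ge h0 (h1.trans ht1) hc
  have h4 : 0 ≤ t ^ c0 := Real.rpow_nonneg h0.le _
  calc K * (1 + B) * t ^ c0 ≤ K' * (1 + B) * t ^ c0 :=
        mul_le_mul_of_nonneg_right (mul_le_mul_of_nonneg_right hK (by linarith)) h4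
    _ ≤ K' * (1 + B) * t ^ c0' :=
        mul_le_mul_of_nonneg_left h3 (mul_nonneg (hK0.trans hK) (by linarith))

theorem ruleS_mono' {D : Dict} {k q3 cS CS s1 e t0 t0' K K' : ℝ} (h : RuleS D k q3 cS CS s1 e t0 K)
    (ht : t0' ≤ t0) (hK : K ≤ K') : RuleS D k q3 cS CS s1 e t0' K' := by
  intro N B hB hBN t h0 h1 bb W I hW hI m hm P G X E hP hG hf hX hl hE
  obtain ⟨T, hT1, hT2, hT3⟩ :=
    h N B hB hBN t h0 (h1.trans ht) bb W I hW hI m hm P G X E hP hG hf hX hl hE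
  refine ⟨T, hT1, hT2.mono (mul_le_mul_of_nonneg_right hK (Real.rpow_nonneg h0.le _)), ?_⟩
  intro I' hI' W' J hW' hs F hFm hF3 hFj ε hε
  refine (hT3 I' hI' W' J hW' hs F hFm hF3 hFj ε hε).trans ?_
  refine mul_le_mul_of_nonneg_right ?_ (Growth.len_pos J).le
  exact mul_le_mul_of_nonneg_right (mul_le_mul_of_nonneg_right hK (by linarith))
    (Real.rpow_nonneg h0.le _)

/-- admissible parameters, `e` given, `bt` below a given number -/
theorem ok2_fix' {q3 c0 e th : ℝ} (hq3 : 2 < q3) (hc0 : 0 < c0) (he : 0 < e) (he1 : e ≤ 1)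
    (hth : 0 < th) {Q : ℝ → ℝ → ℝ → Prop}
    (hS : ∀ s1 : ℝ, 0 < s1 → ∃ cS CS : ℝ, 0 < cS ∧ 0 ≤ CS ∧ Q s1 cS CS) :
    ∃ s1 cS CS : ℝ, 0 < s1 ∧ 0 < cS ∧ 0 ≤ CS ∧ Q s1 cS CS ∧
      ∃ (c1 bt κ km : ℝ) (K0 : ℕ), bt ≤ th ∧ 0 < km ∧ ∀ k, 0 < k → k ≤ km →
        Ok2 k q3 c0 cS CS s1 e c1 bt κ K0 := by
  set c1 : ℝ := min 1 (c0 / 4) with hc1
  have hc1p : 0 < c1 := lt_min one_pos (by positivity)
  have hc11 : c1 ≤ 1 := min_le_left _ _
  have hc1c : c1 ≤ c0 / 4 := min_le_right _ _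
  obtain ⟨cS, CS, hcS, hCS, hQ⟩ := hS (c1 / 4) (by positivity)
  refine ⟨c1 / 4, cS, CS, by positivity, hcS, hCS, hQ, ?_⟩
  have hq0 : 0 < q3 := by linarith
  set M : ℝ := min (min (min (c0 / 2) cS) (min (c1 / 4) (c1 / q3))) th with hM
  have hMp : 0 < M := by
    refine lt_min (lt_min (lt_min (by positivity) hcS) (lt_min (by positivity) (by positivity))) hth
  have hM0 : M ≤ min (min (c0 / 2) cS) (min (c1 / 4) (c1 / q3)) := min_le_left _ _
  have hM1 : M ≤ c0 / 2 := hM0.trans ((min_le_left _ _).trans (min_le_left _ _))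
  have hM2 : M ≤ cS := hM0.trans ((min_le_left _ _).trans (min_le_right _ _))
  have hM3 : M ≤ c1 / 4 := hM0.trans ((min_le_right _ _).trans (min_le_left _ _))
  have hM4 : M ≤ c1 / q3 := hM0.trans ((min_le_right _ _).trans (min_le_right _ _))
  have hM5 : M ≤ th := min_le_right _ _
  obtain ⟨K0, hK0⟩ := exists_nat_ge ((CS + 6) / (c1 / 2))
  have hK0' : CS + 6 ≤ K0 * (c1 / 2) := by
    rw [div_le_iff₀ (by positivity)] at hK0; exact hK0
  have hsum : M / 2 + 20 * (e * M / 80) ≤ M := by nlinarith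
  refine ⟨c1, M / 2, e * M / 80, min (1 / 80) (e * M / 80 / (40 * (K0 + 1))), K0, by linarith,
    lt_min (by norm_num) (by positivity), fun k hk hkm => ?_⟩
  have hk1 : k ≤ 1 / 80 := hkm.trans (min_le_left _ _)
  have hk2 : k ≤ e * M / 80 / (40 * (K0 + 1)) := hkm.trans (min_le_right _ _)
  have hKp : (0 : ℝ) < 40 * ((K0 : ℝ) + 1) := by positivity
  rw [le_div_iff₀ hKp] at hk2
  exact
    { k0 := hk, k1 := hk1, kκ := by linarith, hq3 := hq3, e0 := he, e1 := he1, c10 := hc1p,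
      c11 := hc11, bt0 := by positivity, CS0 := hCS,
      hA := by nlinarith,
      hS := hsum.trans hM2, hs := le_rfl, hC := hsum.trans hM3, hC3 := hsum.trans hM4,
      hK := hK0', hk := by nlinarith }

theorem ptE_mono {D : Dict} {th th' : ℝ} (h : PtE D th) (hh : th' ≤ th) : PtE D th' := by
  intro j hj t ht ht1 y
  obtain ⟨u, hu, hut, hc⟩ := h j hj t ht ht1 y
  exact ⟨u, hu, hut.trans (Real.rpow_le_rpow_of_exponent_ge ht ht1 hh), hc⟩

/-- **`Analytic4` from the rules with free small parameters** -/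
theorem analytic4_of {q3 : ℝ} (hq3 : 2 < q3) (D : ℝ → ℝ → Dict)
    (hD : ∀ e k, 0 < e → 0 < k → k ≤ 1 / 80 → Dic (D e k) 0)
    (hP : ∀ e, 0 < e → ∃ th : ℝ, 0 < th ∧ ∀ k, 0 < k → k ≤ 1 / 80 → PtE (D e k) th)
    (hF : ∀ e k, 0 < e → 0 < k → k ≤ 1 / 80 → FrzBd (D e k) k q3)
    (hN : ∃ e1 : ℝ, 0 < e1 ∧ ∀ e, 0 < e → e ≤ e1 → ∃ c0 k1 : ℝ, 0 < c0 ∧ 0 < k1 ∧
      ∀ k, 0 < k → k ≤ k1 → ∃ t0 K : ℝ, 0 < t0 ∧ 0 ≤ K ∧ RuleNT (D e k) k q3 c0 e t0 K)
    (hT : ∃ e3 : ℝ, 0 < e3 ∧ ∀ e, 0 < e → e ≤ e3 → ∀ δ, 0 < δ → ∃ c0 k3 : ℝ, 0 < c0 ∧ 0 < k3 ∧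
      ∀ k, 0 < k → k ≤ k3 → ∃ t0 K : ℝ, 0 < t0 ∧ 0 ≤ K ∧ RuleTr (D e k) k q3 c0 δ t0 K)
    (hS : ∃ e2 : ℝ, 0 < e2 ∧ ∀ e, 0 < e → e ≤ e2 → ∀ s1, 0 < s1 → ∃ cS CS k2 : ℝ,
      0 < cS ∧ 0 ≤ CS ∧ 0 < k2 ∧ ∀ k, 0 < k → k ≤ k2 →
        ∃ t0 K : ℝ, 0 < t0 ∧ 0 ≤ K ∧ RuleS (D e k) k q3 cS CS s1 e t0 K) : Analytic4 := by
  obtain ⟨e1, he1, hN⟩ := hN
  obtain ⟨e3, he3, hT⟩ := hT
  obtain ⟨e2, he2, hS⟩ := hS
  set e : ℝ := min 1 (min e1 (min e2 e3)) with he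
  have hep : 0 < e := lt_min one_pos (lt_min he1 (lt_min he2 he3))
  have hel : e ≤ 1 := min_le_left _ _
  have hee1 : e ≤ e1 := (min_le_right _ _).trans (min_le_left _ _)
  have hee2 : e ≤ e2 := (min_le_right _ _).trans ((min_le_right _ _).trans (min_le_left _ _))
  have hee3 : e ≤ e3 := (min_le_right _ _).trans ((min_le_right _ _).trans (min_le_right _ _))
  obtain ⟨cN, k1, hcN, hk1, hN⟩ := hN e hep hee1
  obtain ⟨cT, k3, hcT, hk3, hT⟩ := hT e hep hee3 (e / 16) (by positivity)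
  set c0 : ℝ := min cN cT with hc0
  have hc0p : 0 < c0 := lt_min hcN hcT
  obtain ⟨th, hth, hP⟩ := hP e hep
  obtain ⟨s1, cS', CS, hs1, hcS', hCS, hQ, c1, bt, κ, km, K0, hbth, hkm, hok⟩ :=
    ok2_fix' (q3 := q3) (c0 := c0 / 2) (e := e / 8) (th := th / 2) hq3 (by positivity)
      (by positivity) (by linarith) (by positivity) (Q := fun s1 x CS => ∃ k2 : ℝ, 0 < k2 ∧ ∀ k, 0 < k → k ≤ k2 →
        ∃ t0 K : ℝ, 0 < t0 ∧ 0 ≤ K ∧ RuleS (D e k) k q3 (2 * x) CS s1 e t0 K)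
      (fun s1 hs1 => by
        obtain ⟨cS, CS, k2, hcS, hCS, hk2, h⟩ := hS e hep hee2 s1 hs1
        refine ⟨cS / 2, CS, by positivity, hCS, k2, hk2, fun k hk hkk => ?_⟩
        have e1 : 2 * (cS / 2) = cS := by ring
        rw [e1]
        exact h k hk hkk)
  obtain ⟨k2, hk2, hQ⟩ := hQ
  set k : ℝ := min (min k1 k2) (min k3 km) with hk
  have hkp : 0 < k := lt_min (lt_min hk1 hk2) (lt_min hk3 hkm)
  obtain ⟨t1, K1, ht1, hK1, hN⟩ := hN k hkp ((min_le_left _ _).trans (min_le_left _ _))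
  obtain ⟨t2, K2, ht2, hK2, hQ⟩ := hQ k hkp ((min_le_left _ _).trans (min_le_right _ _))
  obtain ⟨t3, K3, ht3, hK3, hT⟩ := hT k hkp ((min_le_right _ _).trans (min_le_left _ _))
  have ok := hok k hkp ((min_le_right _ _).trans (min_le_right _ _))
  set tt : ℝ := min 1 (min t1 (min t2 t3)) with htt
  have http : 0 < tt := lt_min one_pos (lt_min ht1 (lt_min ht2 ht3))
  have htt1 : tt ≤ 1 := min_le_left _ _
  have ha : tt ≤ t1 := (min_le_right _ _).trans (min_le_left _ _)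
  have hb : tt ≤ t2 := (min_le_right _ _).trans ((min_le_right _ _).trans (min_le_left _ _))
  have hc : tt ≤ t3 := (min_le_right _ _).trans ((min_le_right _ _).trans (min_le_right _ _))
  have e2' : 2 * cS' / 2 = cS' := by ring
  have q1 : e ^ 2 ≤ e := by nlinarith
  have q2 : e ^ 3 ≤ e := by
    have : e ^ 3 = e * e ^ 2 := by ring
    rw [this]
    nlinarith
  have r1 : (1 + e / 4) ^ 2 ≤ 2 := by nlinarith
  have r2 : (1 + e / 4) ^ 2 * (1 + e / 8) ≤ 1 + e := by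
    have : (1 + e / 4) ^ 2 * (1 + e / 8) = 1 + 5 * e / 8 + e ^ 2 / 8 + e ^ 3 / 128 := by ring
    rw [this]
    linarith
  have r3 : (1 + e / 16) * (1 + e / 8) ≤ 1 + e / 4 := by
    have : (1 + e / 16) * (1 + e / 8) = 1 + 3 * e / 16 + e ^ 2 / 128 := by ring
    rw [this]
    linarith
  refine ⟨D e k, k, q3, c0, 2 * cS', CS, s1, e, e / 8, e / 16, 1 + e / 4, c1, bt, κ, tt,
    K1 + K2 + K3, K0, ?_, by linarith, r1, by positivity, r2, r3, hc0p.le, by positivity, hs1.le, http, htt1, by positivity,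
    hD e k hep hkp ok.k1, ptE_mono (hP k hkp ok.k1) (by linarith), ?_, ?_, ?_, hF e k hep hkp ok.k1⟩
  · rw [e2']
    exact ok
  · exact ruleNT_mono hN ha htt1 (min_le_left _ _) hK1 (by linarith)
  · exact ruleTr_mono hT hc htt1 (min_le_right _ _) hK3 (by linarith)
  · exact ruleS_mono' hQ hb (by linarith)

/-- **`S0106` FROM THE RULES, node-dependent dictionary, ALL PARAMETERS CHOSEN**: `D e k` is a
dictionary for every `e, k`; `hN` = rule (A) for the pairs `m < i`, `hT` = trivial kill for the pairs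
`i < m`, `hS` = static rule. -/
theorem target_of_rules {q3 : ℝ} (hq3 : 2 < q3) (D : ℝ → ℝ → Dict)
    (hD : ∀ e k, 0 < e → 0 < k → k ≤ 1 / 80 → Dic (D e k) 0)
    (hP : ∀ e, 0 < e → ∃ th : ℝ, 0 < th ∧ ∀ k, 0 < k → k ≤ 1 / 80 → PtE (D e k) th)
    (hF : ∀ e k, 0 < e → 0 < k → k ≤ 1 / 80 → FrzBd (D e k) k q3)
    (hN : ∃ e1 : ℝ, 0 < e1 ∧ ∀ e, 0 < e → e ≤ e1 → ∃ c0 k1 : ℝ, 0 < c0 ∧ 0 < k1 ∧
      ∀ k, 0 < k → k ≤ k1 → ∃ t0 K : ℝ, 0 < t0 ∧ 0 ≤ K ∧ RuleNT (D e k) k q3 c0 e t0 K)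
    (hT : ∃ e3 : ℝ, 0 < e3 ∧ ∀ e, 0 < e → e ≤ e3 → ∀ δ, 0 < δ → ∃ c0 k3 : ℝ, 0 < c0 ∧ 0 < k3 ∧
      ∀ k, 0 < k → k ≤ k3 → ∃ t0 K : ℝ, 0 < t0 ∧ 0 ≤ K ∧ RuleTr (D e k) k q3 c0 δ t0 K)
    (hS : ∃ e2 : ℝ, 0 < e2 ∧ ∀ e, 0 < e → e ≤ e2 → ∀ s1, 0 < s1 → ∃ cS CS k2 : ℝ,
      0 < cS ∧ 0 ≤ CS ∧ 0 < k2 ∧ ∀ k, 0 < k → k ≤ k2 →
        ∃ t0 K : ℝ, 0 < t0 ∧ 0 ≤ K ∧ RuleS (D e k) k q3 cS CS s1 e t0 K) : L0.Target :=
  target_of_analytic4 (analytic4_of hq3 D hD hP hF hN hT hS)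

end Crest.Agent.R079.TRecN
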