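import Crest.Agent.R079.KbS_259
import Crest.Agent.R079.Lab_530
import Crest.Agent.R079.EW5_702
import Crest.Agent.R079.HEs_702
import Crest.Agent.R079.MainE_255_Mg
import Crest.Agent.R079.RuS2_256
import Crest.Agent.R079.RuS3_256
import Crest.Agent.R079.HLf_254
import Crest.Agent.R079.NCol_37
import Crest.Agent.R079.BadN_360
import Crest.Agent.R079.BAt_112
import Crest.Agent.R079.NodeB_254
import Crest.Agent.R079.GenT_934
import Crest.Agent.R079.S2D_530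
import Crest.Agent.R079.PQ_263
import Crest.Agent.R079.WT_112

-- ▼ part R079/KbSe_259
section

/-! R079 (T4/T5): edge-generic version of `KbS_259`.  Edge `e : Fin 3`, line slots `j.succAbove e`,
`j.succAbove (e+1)`, static slot `j.succAbove (e+2)` (any slot, not only `3`).  helper259. -/

set_option autoImplicit false
set_option linter.unusedVariables false

namespace Crest.Agent.R079.KbSe259

open Finset Crest.Agent.R079.Grid Crest.Agent.R079.Glue Crest.Agent.R079.GlueK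
  Crest.Agent.R079.LK990 Crest.Agent.R079.EWG990 Crest.Agent.R079.Growth Crest.Agent.R079.QRed
  Crest.Agent.R079.Cg408 Crest.Agent.R079.S2D530 Crest.Agent.R079.XR112

/-- the main kernel on the edge `e`, with the factor `κ` -/
noncomputable def Kme (j : Fin 4) (e : Fin 3) (κ : ℝ) (T : Fin 3 → Finset ℤ)
    (g : Fin 3 → ℤ → ℤ → ℂ) {n : ℕ} (u v : Fin n → ℤ → ℤ → ℂ) (d : Fin n → ℂ)
    (F : Fin 4 → ℤ → ℂ) (s A : ℤ) : ℂ :=
  (κ : ℂ) * KP j T (upk g e (fun w z z' => ∑ l, d l * (u l w z * v l w z')))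
    (upF F (j.succAbove (e + 2))) s A

/-- the error kernel of the window -/
noncomputable def Kbe (j : Fin 4) (e : Fin 3) (κ : ℝ) (T : Fin 3 → Finset ℤ)
    (g : Fin 3 → ℤ → ℤ → ℂ) {n : ℕ} (u v : Fin n → ℤ → ℤ → ℂ) (d : Fin n → ℂ) (J : Nd)
    (F : Fin 4 → ℤ → ℂ) (s A : ℤ) : ℂ :=
  ∏ i, rs J F i (A - sl i * s) - Kme j e κ T g u v d (rs J F) s A

lemma split_kbe (j : Fin 4) (e : Fin 3) (κ : ℝ) (T : Fin 3 → Finset ℤ) (g : Fin 3 → ℤ → ℤ → ℂ)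
    {n : ℕ} (u v : Fin n → ℤ → ℤ → ℂ) (d : Fin n → ℂ) (J : Nd) (F : Fin 4 → ℤ → ℂ) (s A : ℤ) :
    ∏ i, rs J F i (A - sl i * s) =
      Kme j e κ T g u v d (rs J F) s A + Kbe j e κ T g u v d J F s A := by
  unfold Kbe; ring

/-- **the error kernel on a box of the window** -/
theorem kbe_box (j : Fin 4) (e : Fin 3) (κ : ℝ) (T : Fin 3 → Finset ℤ)
    (g : Fin 3 → ℤ → ℤ → ℂ) {n : ℕ} (u v : Fin n → ℤ → ℤ → ℂ) (d : Fin n → ℂ)
    (E X : ℤ → ℤ → ℤ → ℂ) {J K : Nd} (hJK : iv J ⊆ iv K) (F : Fin 4 → ℤ → ℂ)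
    (hF : ∀ y ∈ iv J, F j y = atom j κ T (g 0) (g 1) (g 2) y)
    (hdec : ∀ w, ∀ z ∈ T e, ∀ z' ∈ T (e + 1), (sl j - sl (j.succAbove (e + 2))) * w +
        (sl (j.succAbove e) - sl (j.succAbove (e + 2))) * z +
        (sl (j.succAbove (e + 1)) - sl (j.succAbove (e + 2))) * z' ∈ iv K →
      Cc (g e) (F (j.succAbove (e + 2))) (sl j - sl (j.succAbove (e + 2)))
        (sl (j.succAbove e) - sl (j.succAbove (e + 2)))
        (sl (j.succAbove (e + 1)) - sl (j.succAbove (e + 2))) w z z' =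
        ∑ l, d l * (u l w z * v l w z') + E w z z' + X w z z')
    {bb : ℤ} (hbb : bb = -1 ∨ bb = -7) {p : Nd} (hp : iv p ⊆ iv J) {x : ℤ} (hx : x ∈ adm p.1 p.2) :
    LboxG (2 ^ p.1) bb (Kbe j e κ T g u v d J F) x =
      (κ : ℂ) * LboxG (2 ^ p.1) bb (KP j T (upk g e E) (upF F (j.succAbove (e + 2)))) x +
      (κ : ℂ) * LboxG (2 ^ p.1) bb (KP j T (upk g e X) (upF F (j.succAbove (e + 2)))) x := by
  rw [← EW5702.LboxG_smul, ← EW5702.LboxG_smul, ← LboxG_add]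
  refine LboxG_congr _ bb _ _ x fun w => ?_
  set s : ℤ := bb * ((2 ^ p.1 : ℕ) : ℤ) + ∑ i, ((w i : ℕ) : ℤ) with hs
  set A : ℤ := x + ∑ i, sl i * ((w i : ℕ) : ℤ) with hA
  have hy : ∀ k : Fin 4, A - sl k * s ∈ iv J := by
    intro k
    have h1 := yv_mem p.1 p.2 bb x hbb hx w k
    rw [yv_eq] at h1
    exact hp h1
  have hrs : ∀ k : Fin 4, rs J F k (A - sl k * s) = F k (A - sl k * s) := by
    intro k
    unfold rs
    rw [if_pos (hy k)]
  have hprod : ∏ i, rs J F i (A - sl i * s) = ∏ i, F i (A - sl i * s) :=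
    Finset.prod_congr rfl fun i _ => hrs i
  have hKm : Kme j e κ T g u v d (rs J F) s A = Kme j e κ T g u v d F s A := by
    unfold Kme KP
    congr 2
    refine Finset.prod_congr rfl fun f _ => ?_
    unfold upF
    split_ifs with h
    · rfl
    · exact hrs _
  unfold Kbe
  rw [hprod, hKm, KbS259.prod_atom κ T g F s A (hF _ (hy j))]
  have hsp := KP_split j e T g F (fun w z z' => ∑ l, d l * (u l w z * v l w z')) E X (iv K)
    hdec s A (hJK (hy _))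
  rw [hsp]
  unfold Kme
  ring

/-- the error word over any set of nodes of the window -/
theorem kbe_sum (j : Fin 4) (e : Fin 3) {κ : ℝ} (hκ : 0 ≤ κ) (T : Fin 3 → Finset ℤ)
    (g : Fin 3 → ℤ → ℤ → ℂ) {n : ℕ} (u v : Fin n → ℤ → ℤ → ℂ) (d : Fin n → ℂ)
    (E X : ℤ → ℤ → ℤ → ℂ) {J K : Nd} (hJK : iv J ⊆ iv K) (F : Fin 4 → ℤ → ℂ)
    (hF : ∀ y ∈ iv J, F j y = atom j κ T (g 0) (g 1) (g 2) y)
    (hdec : ∀ w, ∀ z ∈ T e, ∀ z' ∈ T (e + 1), (sl j - sl (j.succAbove (e + 2))) * w +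
        (sl (j.succAbove e) - sl (j.succAbove (e + 2))) * z +
        (sl (j.succAbove (e + 1)) - sl (j.succAbove (e + 2))) * z' ∈ iv K →
      Cc (g e) (F (j.succAbove (e + 2))) (sl j - sl (j.succAbove (e + 2)))
        (sl (j.succAbove e) - sl (j.succAbove (e + 2)))
        (sl (j.succAbove (e + 1)) - sl (j.succAbove (e + 2))) w z z' =
        ∑ l, d l * (u l w z * v l w z') + E w z z' + X w z z')
    {bb : ℤ} (hbb : bb = -1 ∨ bb = -7) {R Y : Finset Nd} (hR : ∀ p ∈ R, iv p ⊆ iv J) (hY : Y ⊆ R) :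
    ∑ p ∈ Y, ∑ x ∈ adm p.1 p.2, ‖LboxG (2 ^ p.1) bb (Kbe j e κ T g u v d J F) x‖ ≤
      κ * ∑ p ∈ R, ∑ x ∈ adm p.1 p.2,
        ‖LboxG (2 ^ p.1) bb (KP j T (upk g e E) (upF F (j.succAbove (e + 2)))) x‖ +
      κ * ∑ p ∈ R, ∑ x ∈ adm p.1 p.2,
        ‖LboxG (2 ^ p.1) bb (KP j T (upk g e X) (upF F (j.succAbove (e + 2)))) x‖ := by
  have hsub : ∑ p ∈ Y, ∑ x ∈ adm p.1 p.2, ‖LboxG (2 ^ p.1) bb (Kbe j e κ T g u v d J F) x‖ ≤
      ∑ p ∈ R, ∑ x ∈ adm p.1 p.2, ‖LboxG (2 ^ p.1) bb (Kbe j e κ T g u v d J F) x‖ :=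
    Finset.sum_le_sum_of_subset_of_nonneg hY fun p _ _ => Finset.sum_nonneg fun x _ => norm_nonneg _
  refine hsub.trans ?_
  rw [Finset.mul_sum, Finset.mul_sum, ← Finset.sum_add_distrib]
  refine Finset.sum_le_sum fun p hp => ?_
  rw [Finset.mul_sum, Finset.mul_sum, ← Finset.sum_add_distrib]
  refine Finset.sum_le_sum fun x hx => ?_
  rw [kbe_box j e κ T g u v d E X hJK F hF hdec hbb (hR p hp) hx]
  refine (norm_add_le _ _).trans (le_of_eq ?_)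
  rw [norm_mul, norm_mul, Complex.norm_real, Real.norm_of_nonneg hκ]

end Crest.Agent.R079.KbSe259
end

-- ▼ part R079/CC_702
section

/-! R079, Step II (helper702): GENERAL EDGE.  The plane layer of `Tr_230` / `PerT_530` for an abstract
coefficient vector `cc : Fin 3 → ℤ`, and the rotation `per_rot` which turns the edge `e` of a frozen slot
`j` into the edge `0` (`cc = rot e (cf j)`, `T' = rot e T`, `g' = rot e g`). -/

set_option autoImplicit false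
set_option linter.unusedVariables false

namespace Crest.Agent.R079.CC702

open Finset Crest.Agent.R079.Grid Crest.Agent.R079.Glue Crest.Agent.R079.Tr230
  Crest.Agent.R079.LK990 Crest.Agent.R079.EWG990

/-- rotation of a triple: `rot e f = (f e, f (e+1), f (e+2))` -/
def rot {α : Type*} (e : Fin 3) (f : Fin 3 → α) : Fin 3 → α := ![f e, f (e + 1), f (e + 2)]

@[simp] lemma rot_zero {α : Type*} (e : Fin 3) (f : Fin 3 → α) : rot e f 0 = f e := rfl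
@[simp] lemma rot_one {α : Type*} (e : Fin 3) (f : Fin 3 → α) : rot e f 1 = f (e + 1) := rfl
@[simp] lemma rot_two {α : Type*} (e : Fin 3) (f : Fin 3 → α) : rot e f 2 = f (e + 2) := rfl

lemma rot_id {α : Type*} (f : Fin 3 → α) : rot 0 f = f := by
  funext i; fin_cases i <;> rfl


/-- periodised kernel of a coefficient vector -/
noncomputable def PerC (cc : Fin 3 → ℤ) (T : Fin 3 → Finset ℤ) (Φ : ℤ → ℤ → ℤ → ℤ → ℂ)
    (y s : ℤ) : ℂ :=
  ∑ z0 ∈ T 0, ∑ z1 ∈ T 1, ∑ z2 ∈ T 2,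
    if cc 0 * z0 + cc 1 * z1 + cc 2 * z2 = y then Φ (s - z0 - z1 - z2) z0 z1 z2 else 0

lemma per_eq (j : Fin 4) (T : Fin 3 → Finset ℤ) (Φ : ℤ → ℤ → ℤ → ℤ → ℂ) (y s : ℤ) :
    Per j T Φ y s = PerC (cf j) T Φ y s := rfl

lemma rot_upk (g : Fin 3 → ℤ → ℤ → ℂ) (e : Fin 3) (E : ℤ → ℤ → ℤ → ℂ) :
    rot e (upk g e E) = upk (rot e g) 0 E := by
  have h1 : e + 1 ≠ e := by revert e; decide
  have h2 : e + 2 ≠ e := by revert e; decide
  funext i
  fin_cases i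
  · show upk g e E e = upk (rot e g) 0 E 0
    funext w
    unfold upk
    rw [if_pos rfl, if_pos rfl]
  · show upk g e E (e + 1) = upk (rot e g) 0 E 1
    funext w
    unfold upk
    rw [if_neg h1, if_neg (by decide)]
    rfl
  · show upk g e E (e + 2) = upk (rot e g) 0 E 2
    funext w
    unfold upk
    rw [if_neg h2, if_neg (by decide)]
    rfl

/-- **rotation of the coordinates** -/
theorem per_rot (cc : Fin 3 → ℤ) (e : Fin 3) (T : Fin 3 → Finset ℤ) (k : Fin 3 → ℤ → ℤ → ℤ → ℂ)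
    (y s : ℤ) : PerC cc T (PhiW k) y s = PerC (rot e cc) (rot e T) (PhiW (rot e k)) y s := by
  obtain rfl | rfl | rfl : e = 0 ∨ e = 1 ∨ e = 2 := by fin_cases e <;> simp
  · rw [rot_id, rot_id, rot_id]
  · have h : PerC (rot 1 cc) (rot 1 T) (PhiW (rot 1 k)) y s =
        ∑ z1 ∈ T 1, ∑ z2 ∈ T 2, ∑ z0 ∈ T 0, if cc 0 * z0 + cc 1 * z1 + cc 2 * z2 = y then
          PhiW k (s - z0 - z1 - z2) z0 z1 z2 else 0 := by
      unfold PerC
      refine Finset.sum_congr rfl fun z1 _ => Finset.sum_congr rfl fun z2 _ =>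
        Finset.sum_congr rfl fun z0 _ => ?_
      have e1 : rot 1 cc 0 * z1 + rot 1 cc 1 * z2 + rot 1 cc 2 * z0 =
          cc 0 * z0 + cc 1 * z1 + cc 2 * z2 := by
        show cc 1 * z1 + cc 2 * z2 + cc 0 * z0 = _
        ring
      have e2 : s - z1 - z2 - z0 = s - z0 - z1 - z2 := by ring
      rw [e1, e2]
      have e3 : PhiW (rot 1 k) (s - z0 - z1 - z2) z1 z2 z0 =
          PhiW k (s - z0 - z1 - z2) z0 z1 z2 := by
        show k 1 (s - z0 - z1 - z2) z1 z2 * k 2 (s - z0 - z1 - z2) z2 z0 *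
          k 0 (s - z0 - z1 - z2) z0 z1 = k 0 (s - z0 - z1 - z2) z0 z1 *
          k 1 (s - z0 - z1 - z2) z1 z2 * k 2 (s - z0 - z1 - z2) z2 z0
        ring
      rw [e3]
    rw [h]
    unfold PerC
    rw [Finset.sum_comm]
    refine Finset.sum_congr rfl fun z1 _ => ?_
    rw [Finset.sum_comm]
  · have h : PerC (rot 2 cc) (rot 2 T) (PhiW (rot 2 k)) y s =
        ∑ z2 ∈ T 2, ∑ z0 ∈ T 0, ∑ z1 ∈ T 1, if cc 0 * z0 + cc 1 * z1 + cc 2 * z2 = y then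
          PhiW k (s - z0 - z1 - z2) z0 z1 z2 else 0 := by
      unfold PerC
      refine Finset.sum_congr rfl fun z2 _ => Finset.sum_congr rfl fun z0 _ =>
        Finset.sum_congr rfl fun z1 _ => ?_
      have e1 : rot 2 cc 0 * z2 + rot 2 cc 1 * z0 + rot 2 cc 2 * z1 =
          cc 0 * z0 + cc 1 * z1 + cc 2 * z2 := by
        show cc 2 * z2 + cc 0 * z0 + cc 1 * z1 = _
        ring
      have e2 : s - z2 - z0 - z1 = s - z0 - z1 - z2 := by ring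
      rw [e1, e2]
      have e3 : PhiW (rot 2 k) (s - z0 - z1 - z2) z2 z0 z1 =
          PhiW k (s - z0 - z1 - z2) z0 z1 z2 := by
        show k 2 (s - z0 - z1 - z2) z2 z0 * k 0 (s - z0 - z1 - z2) z0 z1 *
          k 1 (s - z0 - z1 - z2) z1 z2 = k 0 (s - z0 - z1 - z2) z0 z1 *
          k 1 (s - z0 - z1 - z2) z1 z2 * k 2 (s - z0 - z1 - z2) z2 z0
        ring
      rw [e3]
    rw [h]
    unfold PerC
    symm
    rw [Finset.sum_comm]
    refine Finset.sum_congr rfl fun z0 _ => ?_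
    rw [Finset.sum_comm]

/-! ### the plane of a coefficient vector (port of `Tr_230`) -/

/-- the linear form -/
def cfzC (cc : Fin 3 → ℤ) (z : ℤ × ℤ × ℤ) : ℤ := cc 0 * z.1 + cc 1 * z.2.1 + cc 2 * z.2.2


lemma cfzC_add (cc : Fin 3 → ℤ) (z s : ℤ × ℤ × ℤ) : cfzC cc (z + s) = cfzC cc z + cfzC cc s := by
  simp only [cfzC, Prod.fst_add, Prod.snd_add]; ring

lemma cfzC_sub (cc : Fin 3 → ℤ) (z s : ℤ × ℤ × ℤ) : cfzC cc (z - s) = cfzC cc z - cfzC cc s := by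
  simp only [cfzC, Prod.fst_sub, Prod.snd_sub]; ring

/-- the translates which meet `Z` -/
def ShC (cc : Fin 3 → ℤ) (T : Fin 3 → Finset ℤ) (Z : Finset (ℤ × ℤ × ℤ)) : Finset (ℤ × ℤ × ℤ) :=
  (((T 0 ×ˢ T 1 ×ˢ T 2) ×ˢ Z).image (fun q => q.1 - q.2)).filter (fun s => cfzC cc s = 0)

lemma ShC_plane {cc : Fin 3 → ℤ} {T : Fin 3 → Finset ℤ} {Z : Finset (ℤ × ℤ × ℤ)} {s : ℤ × ℤ × ℤ}
    (h : s ∈ ShC cc T Z) : cfzC cc s = 0 := (Finset.mem_filter.1 h).2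

/-- **the periodised kernel is the sum over the plane translates** -/
theorem perC_translates (cc : Fin 3 → ℤ) (T : Fin 3 → Finset ℤ) (Φ : ℤ → ℤ → ℤ → ℤ → ℂ)
    (Z S : Finset (ℤ × ℤ × ℤ)) (hS : ShC cc T Z ⊆ S) (hS0 : ∀ s ∈ S, cfzC cc s = 0)
    {z : ℤ × ℤ × ℤ} (hz : z ∈ Z) (t : ℤ) :
    PerC cc T Φ (cfzC cc z) t = ∑ s ∈ S,
      if z.1 + s.1 ∈ T 0 ∧ z.2.1 + s.2.1 ∈ T 1 ∧ z.2.2 + s.2.2 ∈ T 2 then
        Φ (t - (z.1 + s.1) - (z.2.1 + s.2.1) - (z.2.2 + s.2.2)) (z.1 + s.1) (z.2.1 + s.2.1)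
          (z.2.2 + s.2.2) else 0 := by
  have h0 : PerC cc T Φ (cfzC cc z) t =
      ∑ w ∈ (T 0 ×ˢ T 1 ×ˢ T 2).filter (fun w => cfzC cc w = cfzC cc z),
      Φ (t - w.1 - w.2.1 - w.2.2) w.1 w.2.1 w.2.2 := by
    unfold PerC
    rw [Finset.sum_filter, Finset.sum_product]
    refine Finset.sum_congr rfl fun z0 _ => ?_
    rw [Finset.sum_product]
    rfl
  rw [h0, ← Finset.sum_filter]
  refine Finset.sum_bij' (fun w _ => w - z) (fun s _ => z + s) ?_ ?_ ?_ ?_ ?_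
  · intro w hw
    rw [Finset.mem_filter] at hw
    have hc : cfzC cc (w - z) = 0 := by rw [cfzC_sub, hw.2, sub_self]
    rw [Finset.mem_filter]
    refine ⟨hS ?_, ?_⟩
    · unfold ShC
      rw [Finset.mem_filter]
      refine ⟨Finset.mem_image.2 ⟨(w, z), Finset.mem_product.2 ⟨hw.1, hz⟩, rfl⟩, hc⟩
    · have h1 := hw.1
      simp only [Finset.mem_product] at h1
      simpa using h1
  · intro s hs
    rw [Finset.mem_filter] at hs ⊢
    refine ⟨?_, ?_⟩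
    · simp only [Finset.mem_product, Prod.fst_add, Prod.snd_add]
      exact hs.2
    · rw [cfzC_add, hS0 s hs.1, add_zero]
  · intro w _
    show z + (w - z) = w
    abel
  · intro s _
    show z + s - z = s
    abel
  · intro w _
    have e0 : z.1 + (w - z).1 = w.1 := by simp
    have e1 : z.2.1 + (w - z).2.1 = w.2.1 := by simp
    have e2 : z.2.2 + (w - z).2.2 = w.2.2 := by simp
    rw [e0, e1, e2]

/-- two coordinates of a plane vector determine it -/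
lemma injC12 {cc : Fin 3 → ℤ} (h0 : cc 0 ≠ 0) {s s' : ℤ × ℤ × ℤ} (h : cfzC cc s = 0)
    (h' : cfzC cc s' = 0) (h1 : s.2.1 = s'.2.1) (h2 : s.2.2 = s'.2.2) : s = s' := by
  have h3 : s.1 = s'.1 := by
    have e : cc 0 * s.1 = cc 0 * s'.1 := by
      simp only [cfzC] at h h'
      rw [h1, h2] at h
      linarith
    exact mul_left_cancel₀ h0 e
  ext
  · exact h3
  · exact h1
  · exact h2

lemma injC20 {cc : Fin 3 → ℤ} (h1 : cc 1 ≠ 0) {s s' : ℤ × ℤ × ℤ} (h : cfzC cc s = 0)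
    (h' : cfzC cc s' = 0) (h2 : s.2.2 = s'.2.2) (h0 : s.1 = s'.1) : s = s' := by
  have h3 : s.2.1 = s'.2.1 := by
    have e : cc 1 * s.2.1 = cc 1 * s'.2.1 := by
      simp only [cfzC] at h h'
      rw [h2, h0] at h
      linarith
    exact mul_left_cancel₀ h1 e
  ext
  · exact h0
  · exact h3
  · exact h2


theorem priceC12 {cc : Fin 3 → ℤ} (hc : cc 0 ≠ 0) {S : Finset (ℤ × ℤ × ℤ)}
    (hS0 : ∀ s ∈ S, cfzC cc s = 0) (T T' : Finset ℤ)
    (a : ℤ → ℤ → ℂ) (r : ℕ) (hr : r ≠ 0) (z z' : ℤ) :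
    ∑ s ∈ S, ‖kT T T' a (z + s.2.1) (z' + s.2.2)‖ ^ r ≤ ∑ x ∈ T, ∑ x' ∈ T', ‖a x x'‖ ^ r := by
  refine le_trans (le_of_eq ?_) (sum_shift_le (fun s => s.2.1) (fun s => s.2.2)
    (fun s hs s' hs' h0 h1 => injC12 hc (hS0 s hs) (hS0 s' hs') h0 h1) T T' (fun x x' => ‖a x x'‖ ^ r)
    (fun _ _ _ _ => by positivity) z z')
  refine Finset.sum_congr rfl fun s _ => ?_
  unfold kT
  split_ifs <;> simp [hr]

theorem priceC20 {cc : Fin 3 → ℤ} (hc : cc 1 ≠ 0) {S : Finset (ℤ × ℤ × ℤ)}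
    (hS0 : ∀ s ∈ S, cfzC cc s = 0) (T T' : Finset ℤ)
    (a : ℤ → ℤ → ℂ) (r : ℕ) (hr : r ≠ 0) (z z' : ℤ) :
    ∑ s ∈ S, ‖kT T T' a (z + s.2.2) (z' + s.1)‖ ^ r ≤ ∑ x ∈ T, ∑ x' ∈ T', ‖a x x'‖ ^ r := by
  refine le_trans (le_of_eq ?_) (sum_shift_le (fun s => s.2.2) (fun s => s.1)
    (fun s hs s' hs' h0 h1 => injC20 hc (hS0 s hs) (hS0 s' hs') h0 h1) T T' (fun x x' => ‖a x x'‖ ^ r)
    (fun _ _ _ _ => by positivity) z z')
  refine Finset.sum_congr rfl fun s _ => ?_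
  unfold kT
  split_ifs <;> simp [hr]


/-! ### coefficient vectors of a slot -/

lemma cf_inj (j : Fin 4) {i i' : Fin 3} (h : i ≠ i') : cf j i ≠ cf j i' := by
  intro hc
  unfold cf at hc
  have h1 : sl (j.succAbove i) = sl (j.succAbove i') := by linarith
  exact h (Fin.succAbove_right_injective (Qa246.sl_inj h1))

lemma rot_cf_ne (j : Fin 4) (e i : Fin 3) : rot e (cf j) i ≠ 0 := by
  fin_cases i
  · exact cf_ne j e
  · exact cf_ne j (e + 1)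
  · exact cf_ne j (e + 2)

lemma rot_cf_inj (j : Fin 4) (e : Fin 3) : rot e (cf j) 0 ≠ rot e (cf j) 1 ∧
    rot e (cf j) 1 ≠ rot e (cf j) 2 ∧ rot e (cf j) 0 ≠ rot e (cf j) 2 := by
  have h1 : e ≠ e + 1 := by revert e; decide
  have h2 : e + 1 ≠ e + 2 := by revert e; decide
  have h3 : e ≠ e + 2 := by revert e; decide
  exact ⟨cf_inj j h1, cf_inj j h2, cf_inj j h3⟩

/-! ### labels (port of `PerT_530`) -/






end Crest.Agent.R079.CC702
end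

-- ▼ part R079/HErC_702
section

/-! R079, Step II (helper702): GENERAL EDGE version of `HEr_702` / `HEs_702` (leaf quantity `Wb71.LK` of the
error kernels `E`, `X`) for an abstract coefficient vector `cc`. -/

set_option autoImplicit false
set_option linter.unusedVariables false

namespace Crest.Agent.R079.HErC702

open Finset Crest.Agent.R079.Grid Crest.Agent.R079.Pot Crest.Agent.R079.Glue Crest.Agent.R079.R244
  Crest.Agent.R079.F24 Crest.Agent.R079.EWG990 Crest.Agent.R079.LK990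
  Crest.Agent.R079.EW5702 Crest.Agent.R079.Growth Crest.Agent.R079.Tr230 Crest.Agent.R079.CC702
open Crest.Agent.R079.Wb71 (LK Xs mem_Xs)
open Crest.Agent.R079.HEr702 (norm_sum_mul_sq_le op_le_e4 wsum_sq_le te card_Xs UU sum_shift_le_UU
  LK_l2 LK_add LK_nonneg tm te_tm tile hh fe fe_nonneg hh_tile kE kE_nonneg Pn_near mem_iv_div)

/-! ### the periodised kernel -/

section per

variable (cc : Fin 3 → ℤ) (T : Fin 3 → Finset ℤ) (g : Fin 3 → ℤ → ℤ → ℂ) (E : ℤ → ℤ → ℤ → ℂ) (r : ℤ)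

/-- periodised kernel as a sum over the plane translates -/
theorem per_te (Z S : Finset (ℤ × ℤ × ℤ)) (hS : ShC cc T Z ⊆ S) (hS0 : ∀ s ∈ S, cfzC cc s = 0)
    (z z' : ℤ) (hz : (z, z', 0) ∈ Z) :
    PerC cc T (PhiW (upk g 0 E)) (cc 0 * z + cc 1 * z') (r + z + z') =
      ∑ s ∈ S, kT (T 1) (T 2) (g 1) (z' + s.2.1) (0 + s.2.2) *
        (kT (T 2) (T 0) (g 2) (0 + s.2.2) (z + s.1) * te T E r s z z') := by
  have e : cc 0 * z + cc 1 * z' = cfzC cc (z, z', 0) := by simp [cfzC]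
  rw [e, perC_translates cc T _ Z S hS hS0 hz]
  refine Finset.sum_congr rfl fun s _ => ?_
  have ew : r + z + z' - (z + s.1) - (z' + s.2.1) - s.2.2 =
      r - (s.1 + s.2.1 + s.2.2) := by ring
  simp only [zero_add]
  rw [ew]
  by_cases h : z + s.1 ∈ T 0 ∧ z' + s.2.1 ∈ T 1 ∧ s.2.2 ∈ T 2
  · rw [if_pos h, PhiW_zero]
    unfold kT te
    rw [if_pos ⟨h.2.1, h.2.2⟩, if_pos ⟨h.2.2, h.1⟩, if_pos ⟨h.1, h.2.1⟩]
    ring
  · rw [if_neg h]
    symm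
    unfold kT te
    by_cases h1 : z + s.1 ∈ T 0 ∧ z' + s.2.1 ∈ T 1
    · have h2 : ¬ (z' + s.2.1 ∈ T 1 ∧ s.2.2 ∈ T 2) := fun hc => h ⟨h1.1, h1.2, hc.2⟩
      rw [if_neg h2, zero_mul]
    · rw [if_neg h1, mul_zero, mul_zero]

/-- for a fixed `z'` the map `(z, s) ↦ (w, z + s₀, z' + s₁)` is injective on the plane -/
lemma te_inj (h02 : cc 0 ≠ cc 2) {s s' : ℤ × ℤ × ℤ} (h : cfzC cc s = 0) (h' : cfzC cc s' = 0) {z y : ℤ} {z' : ℤ}
    (hw : r - (s.1 + s.2.1 + s.2.2) = r - (s'.1 + s'.2.1 + s'.2.2)) (h0 : z + s.1 = y + s'.1)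
    (h1 : z' + s.2.1 = z' + s'.2.1) : z = y ∧ s = s' := by
  have h1' : s.2.1 = s'.2.1 := by linarith
  have e1 : s.1 + s.2.2 = s'.1 + s'.2.2 := by linarith
  have e2 : cc 0 * s.1 + cc 2 * s.2.2 = cc 0 * s'.1 + cc 2 * s'.2.2 := by
    simp only [cfzC] at h h'
    rw [h1'] at h
    linarith
  have e3 : (cc 0 - cc 2) * s.1 = (cc 0 - cc 2) * s'.1 := by
    have : s.2.2 = s'.1 + s'.2.2 - s.1 := by linarith
    rw [this] at e2
    linarith
  have h00 : s.1 = s'.1 := mul_left_cancel₀ (sub_ne_zero.2 h02) e3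
  refine ⟨by linarith, ?_⟩
  have h2 : s.2.2 = s'.2.2 := by linarith
  ext
  · exact h00
  · exact h1'
  · exact h2

/-- **counting**: for a fixed `z'`, sums over `(z, s)` are sums over distinct `(w, Z, Z')` -/
theorem sum_inj (h02 : cc 0 ≠ cc 2) (U : Finset ℤ) (S : Finset (ℤ × ℤ × ℤ)) (hS0 : ∀ s ∈ S, cfzC cc s = 0) (z' : ℤ)
    (Q : ℤ × ℤ × ℤ → ℝ) {B : ℝ} (hQ : ∀ R : Finset (ℤ × ℤ × ℤ), ∑ t ∈ R, Q t ≤ B) :
    ∑ z ∈ U, ∑ s ∈ S, Q (r - (s.1 + s.2.1 + s.2.2), z + s.1, z' + s.2.1) ≤ B := by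
  classical
  rw [← Finset.sum_product' U S
    (fun z s => Q (r - (s.1 + s.2.1 + s.2.2), z + s.1, z' + s.2.1))]
  have h := Finset.sum_image (f := Q) (s := U ×ˢ S)
    (g := fun x : ℤ × (ℤ × ℤ × ℤ) => (r - (x.2.1 + x.2.2.1 + x.2.2.2), x.1 + x.2.1, z' + x.2.2.1)) (by
      intro x hx y hy hxy
      have hx2 := hS0 _ (Finset.mem_product.1 (Finset.mem_coe.1 hx)).2
      have hy2 := hS0 _ (Finset.mem_product.1 (Finset.mem_coe.1 hy)).2
      simp only [Prod.mk.injEq] at hxy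
      obtain ⟨h1, h2⟩ := te_inj cc r h02 hx2 hy2 hxy.1 hxy.2.1 hxy.2.2
      exact Prod.ext h1 h2)
  rw [← h]
  exact hQ _

end per

/-! ### one node -/

section node

variable (cc : Fin 3 → ℤ) (T : Fin 3 → Finset ℤ) (g : Fin 3 → ℤ → ℤ → ℂ) (E : ℤ → ℤ → ℤ → ℂ) (r : ℤ)
  (κ : ℝ)

/-- the error kernel of the leaf quantity -/
noncomputable def PKC (x z : ℤ) : ℂ :=
  (κ : ℂ) * PerC cc T (PhiW (upk g 0 E)) (cc 0 * x + cc 1 * z) (r + x + z)

variable {cc T g E r κ}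

/-- **LEAF QUANTITY OF THE ERROR `E`, one node** -/
theorem LK_E (hc0 : cc 0 ≠ 0) (h02 : cc 0 ≠ cc 2) (hκ : 0 ≤ κ) (hg2 : ∀ z z', ‖g 2 z z'‖ ≤ 1) {M B' BE : ℝ} (hM0 : 0 ≤ M) (hB : 0 ≤ B')
    (h1 : κ * ∑ z ∈ T 1, ∑ z' ∈ T 2, ‖g 1 z z'‖ ^ 2 ≤ M) (hBE : 0 ≤ BE)
    (hE : ∀ R : Finset (ℤ × ℤ × ℤ), ∑ t ∈ R, ‖tm T E t.1 t.2.1 t.2.2‖ ^ 2 ≤ BE)
    (c' d' c d : ℤ) (β : ℤ → ℂ) (p : Nd)
    (hy : ∀ q : ℤ, ∑ u ∈ range (2 ^ p.1), ‖β (q + (u : ℤ))‖ ^ 2 ≤ B' * len p) :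
    LK c' d' c d (PKC cc T g E r κ) β p ≤ 128 * B' * (M * (κ * BE)) := by
  classical
  refine LK_l2 c' d' c d _ β p hB (by positivity) hy fun z hz => ?_
  set Z : Finset (ℤ × ℤ × ℤ) := (UU c' d' p ×ˢ Xs c d p).image (fun x => (x.1, x.2, 0)) with hZ
  set S := ShC cc T Z with hS
  have hS0 : ∀ s ∈ S, cfzC cc s = 0 := fun s hs => ShC_plane hs
  have hpt : ∀ x ∈ UU c' d' p, ‖PKC cc T g E r κ x z‖ ^ 2 ≤
      κ * (M * ∑ s ∈ S, ‖te T E r s x z‖ ^ 2) := by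
    intro x hx
    have hxz : (x, z, (0 : ℤ)) ∈ Z := Finset.mem_image.2 ⟨(x, z), Finset.mem_product.2 ⟨hx, hz⟩, rfl⟩
    unfold PKC
    rw [per_te cc T g E r Z S (le_of_eq hS.symm) hS0 x z hxz, norm_mul, mul_pow, Complex.norm_real,
      Real.norm_of_nonneg hκ]
    have h2 := norm_sum_mul_sq_le S (fun s => kT (T 1) (T 2) (g 1) (z + s.2.1) (0 + s.2.2))
      (fun s => kT (T 2) (T 0) (g 2) (0 + s.2.2) (x + s.1) * te T E r s x z)
    have h3 := priceC12 hc0 hS0 (T 1) (T 2) (g 1) 2 (by norm_num) z 0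
    have h4 : ∑ s ∈ S, ‖kT (T 2) (T 0) (g 2) (0 + s.2.2) (x + s.1) * te T E r s x z‖ ^ 2 ≤
        ∑ s ∈ S, ‖te T E r s x z‖ ^ 2 := by
      refine Finset.sum_le_sum fun s _ => ?_
      rw [norm_mul, mul_pow]
      refine mul_le_of_le_one_left (by positivity) (pow_le_one₀ (norm_nonneg _) ?_)
      unfold kT
      split_ifs
      · exact hg2 _ _
      · rw [norm_zero]; exact zero_le_one
    have h5 : 0 ≤ ∑ s ∈ S, ‖te T E r s x z‖ ^ 2 := by positivity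
    calc κ ^ 2 * _ ≤ κ ^ 2 * ((∑ x ∈ T 1, ∑ x' ∈ T 2, ‖g 1 x x'‖ ^ 2) *
          ∑ s ∈ S, ‖te T E r s x z‖ ^ 2) := by
          refine mul_le_mul_of_nonneg_left (h2.trans ?_) (by positivity)
          exact mul_le_mul h3 h4 (by positivity) (by positivity)
      _ = κ * ((κ * ∑ x ∈ T 1, ∑ x' ∈ T 2, ‖g 1 x x'‖ ^ 2) *
          ∑ s ∈ S, ‖te T E r s x z‖ ^ 2) := by ring
      _ ≤ _ := mul_le_mul_of_nonneg_left (mul_le_mul_of_nonneg_right h1 h5) hκ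
  refine (Finset.sum_le_sum hpt).trans ?_
  rw [← Finset.mul_sum, ← Finset.mul_sum]
  have h6 := sum_inj cc r h02 (UU c' d' p) S hS0 z (fun t => ‖tm T E t.1 t.2.1 t.2.2‖ ^ 2) hE
  calc κ * (M * ∑ x ∈ UU c' d' p, ∑ s ∈ S, ‖te T E r s x z‖ ^ 2) ≤ κ * (M * BE) :=
        mul_le_mul_of_nonneg_left (mul_le_mul_of_nonneg_left h6 hM0) hκ
    _ = M * (κ * BE) := by ring

/-- `ℓ⁴` price of the letters -/
lemma fe_sq (hc1 : cc 1 ≠ 0) (hg2 : ∀ z z', ‖g 2 z z'‖ ≤ 1) {S : Finset (ℤ × ℤ × ℤ)} (hS0 : ∀ s ∈ S, cfzC cc s = 0)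
    (β : ℤ → ℂ) (k : ℕ) (q : ℤ) {D : ℝ} (hD : ∑ u ∈ range (2 ^ k), ‖β (q + (u : ℤ))‖ ^ 2 ≤ D) :
    ∑ s ∈ S, fe T g β k s q ^ 2 ≤ D ^ 2 * ∑ z ∈ T 2, ∑ z' ∈ T 0, ‖g 2 z z'‖ ^ 2 := by
  have hk1 : ∀ z z', ‖kT (T 2) (T 0) (g 2) z z'‖ ^ 2 ≤ 1 := by
    intro z z'
    refine pow_le_one₀ (norm_nonneg _) ?_
    unfold kT
    split_ifs
    · exact hg2 _ _
    · rw [norm_zero]; exact zero_le_one
  have hD0 : 0 ≤ D := le_trans (by positivity) hD
  have h1 : ∀ s ∈ S, fe T g β k s q ^ 2 ≤ D * ∑ u ∈ range (2 ^ k),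
      ‖β (q + (u : ℤ))‖ ^ 2 * ‖kT (T 2) (T 0) (g 2) (0 + s.2.2) (q + (u : ℤ) + s.1)‖ ^ 2 := by
    intro s _
    have e : fe T g β k s q = ∑ u ∈ range (2 ^ k), ‖β (q + (u : ℤ))‖ ^ 2 *
        ‖kT (T 2) (T 0) (g 2) (0 + s.2.2) (q + (u : ℤ) + s.1)‖ ^ 2 := by
      unfold fe
      exact Finset.sum_congr rfl fun u _ => by rw [norm_mul, mul_pow, norm_star]
    rw [e]
    refine (wsum_sq_le _ _ _ (fun _ _ => by positivity) (fun _ _ => by positivity)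
      (fun _ _ => hk1 _ _)).trans ?_
    exact mul_le_mul_of_nonneg_right hD (Finset.sum_nonneg fun _ _ => by positivity)
  refine (Finset.sum_le_sum h1).trans ?_
  rw [← Finset.mul_sum, Finset.sum_comm, sq, mul_assoc]
  refine mul_le_mul_of_nonneg_left ?_ hD0
  set M2 := ∑ z ∈ T 2, ∑ z' ∈ T 0, ‖g 2 z z'‖ ^ 2 with hM2
  have h2 : ∀ u ∈ range (2 ^ k), ∑ s ∈ S, ‖β (q + (u : ℤ))‖ ^ 2 *
      ‖kT (T 2) (T 0) (g 2) (0 + s.2.2) (q + (u : ℤ) + s.1)‖ ^ 2 ≤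
      ‖β (q + (u : ℤ))‖ ^ 2 * M2 := by
    intro u _
    rw [← Finset.mul_sum]
    exact mul_le_mul_of_nonneg_left (priceC20 hc1 hS0 (T 2) (T 0) (g 2) 2 (by norm_num) 0
      (q + (u : ℤ))) (by positivity)
  refine (Finset.sum_le_sum h2).trans ?_
  rw [← Finset.sum_mul]
  exact mul_le_mul_of_nonneg_right hD (by rw [hM2]; positivity)

set_option maxHeartbeats 1600000 in
/-- **LEAF QUANTITY OF THE ERROR `X`, one node** -/
theorem LK_X (hc0 : cc 0 ≠ 0) (hc1 : cc 1 ≠ 0) (h02 : cc 0 ≠ cc 2) (hκ : 0 ≤ κ) (hg2 : ∀ z z', ‖g 2 z z'‖ ≤ 1) {M B' V σ : ℝ} (hM0 : 0 ≤ M)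
    (hB : 0 ≤ B') (hV : 0 ≤ V) (hσ : 0 ≤ σ)
    (h1 : κ * ∑ z ∈ T 1, ∑ z' ∈ T 2, ‖g 1 z z'‖ ^ 2 ≤ M)
    (h2 : κ * ∑ z ∈ T 2, ∑ z' ∈ T 0, ‖g 2 z z'‖ ^ 2 ≤ M) (p : Nd)
    {X : ℤ → ℤ → ℤ → ℂ}
    (hX : ∀ R : Finset (ℤ × ℤ × ℤ), ∑ t ∈ R, e4 (tm T X t.1) (2 ^ p.1) t.2.1 t.2.2 ≤
      σ * (len p * V))
    (c' c : ℤ) (d' : ℤ) {d : ℤ} (hd : d ≠ 0) (β : ℤ → ℂ)
    (hy : ∀ q : ℤ, ∑ u ∈ range (2 ^ p.1), ‖β (q + (u : ℤ))‖ ^ 2 ≤ B' * len p) :
    LK c' d' c d (PKC cc T g X r κ) β p ≤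
      256 * B' * (M * Real.sqrt (M * (κ * V) * σ)) * len p := by
  classical
  have hlp : 0 < len p := Qe292.len_pos p
  set Z : Finset (ℤ × ℤ × ℤ) := (UU c' d' p ×ˢ Xs c d p).image (fun x => (x.1, x.2, 0)) with hZ
  set S := ShC cc T Z with hS
  have hS0 : ∀ s ∈ S, cfzC cc s = 0 := fun s hs => ShC_plane hs
  obtain ⟨y0, htile⟩ := tile c hd p
  set M2 := ∑ z ∈ T 2, ∑ z' ∈ T 0, ‖g 2 z z'‖ ^ 2 with hM2
  have hM20 : 0 ≤ M2 := by rw [hM2]; positivity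
  -- one average
  have hpt : ∀ q ∈ Xs c' d' p, ∀ z ∈ Xs c d p,
      ‖(1 / 2 ^ p.1 : ℂ) * ∑ u ∈ range (2 ^ p.1), star (β (q + (u : ℤ))) *
        PKC cc T g X r κ (q + (u : ℤ)) z‖ ^ 2 ≤
      κ * (M * ∑ s ∈ S, ‖hh T g X r β p.1 s q z‖ ^ 2) := by
    intro q hq z hz
    have e : (1 / 2 ^ p.1 : ℂ) * ∑ u ∈ range (2 ^ p.1), star (β (q + (u : ℤ))) *
        PKC cc T g X r κ (q + (u : ℤ)) z =
        (κ : ℂ) * ∑ s ∈ S, kT (T 1) (T 2) (g 1) (z + s.2.1) (0 + s.2.2) *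
          hh T g X r β p.1 s q z := by
      have e1 : ∀ u ∈ range (2 ^ p.1), star (β (q + (u : ℤ))) * PKC cc T g X r κ (q + (u : ℤ)) z =
          (κ : ℂ) * ∑ s ∈ S, kT (T 1) (T 2) (g 1) (z + s.2.1) (0 + s.2.2) *
            ((star (β (q + (u : ℤ))) * kT (T 2) (T 0) (g 2) (0 + s.2.2) (q + (u : ℤ) + s.1)) *
            tm T X (r - (s.1 + s.2.1 + s.2.2)) (q + s.1 + (u : ℤ)) (z + s.2.1)) := by
        intro u hu
        have hxz : (q + (u : ℤ), z, (0 : ℤ)) ∈ Z := Finset.mem_image.2 ⟨(q + (u : ℤ), z),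
          Finset.mem_product.2 ⟨Finset.mem_image.2 ⟨(q, u), Finset.mem_product.2 ⟨hq, hu⟩, rfl⟩,
            hz⟩, rfl⟩
        unfold PKC
        rw [per_te cc T g X r Z S (le_of_eq hS.symm) hS0 _ z hxz]
        rw [mul_left_comm, Finset.mul_sum]
        congr 1
        refine Finset.sum_congr rfl fun s _ => ?_
        rw [te_tm]
        have e2 : q + (u : ℤ) + s.1 = q + s.1 + (u : ℤ) := by ring
        rw [e2]
        ring
      rw [Finset.sum_congr rfl e1, ← Finset.mul_sum, Finset.sum_comm, mul_left_comm,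
        Finset.mul_sum]
      congr 1
      refine Finset.sum_congr rfl fun s _ => ?_
      rw [← Finset.mul_sum, mul_left_comm]
      unfold hh
      push_cast
      rfl
    rw [e, norm_mul, mul_pow, Complex.norm_real, Real.norm_of_nonneg hκ]
    have h3 := norm_sum_mul_sq_le S (fun s => kT (T 1) (T 2) (g 1) (z + s.2.1) (0 + s.2.2))
      (fun s => hh T g X r β p.1 s q z)
    have h4 := priceC12 hc0 hS0 (T 1) (T 2) (g 1) 2 (by norm_num) z 0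
    have h5 : 0 ≤ ∑ s ∈ S, ‖hh T g X r β p.1 s q z‖ ^ 2 := by positivity
    calc κ ^ 2 * _ ≤ κ ^ 2 * ((∑ x ∈ T 1, ∑ x' ∈ T 2, ‖g 1 x x'‖ ^ 2) *
          ∑ s ∈ S, ‖hh T g X r β p.1 s q z‖ ^ 2) := by
          refine mul_le_mul_of_nonneg_left (h3.trans ?_) (by positivity)
          exact mul_le_mul_of_nonneg_right h4 h5
      _ = κ * ((κ * ∑ x ∈ T 1, ∑ x' ∈ T 2, ‖g 1 x x'‖ ^ 2) *
          ∑ s ∈ S, ‖hh T g X r β p.1 s q z‖ ^ 2) := by ring
      _ ≤ _ := mul_le_mul_of_nonneg_left (mul_le_mul_of_nonneg_right h1 h5) hκ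
  -- sum over the tiles
  set ε : ℤ → ℕ → ℤ × ℤ × ℤ → ℝ := fun q i s =>
    e4 (tm T X (r - (s.1 + s.2.1 + s.2.2))) (2 ^ p.1) (q + s.1)
      (y0 + 2 ^ p.1 * (i : ℤ) + s.2.1) with hε
  have hε0 : ∀ q i s, 0 ≤ ε q i s := fun q i s => e4_nonneg _ _ _ _
  have hz : ∀ q ∈ Xs c' d' p, ∑ z ∈ Xs c d p, ∑ s ∈ S, ‖hh T g X r β p.1 s q z‖ ^ 2 ≤
      ∑ i ∈ range 256, ∑ s ∈ S, fe T g β p.1 s q * Real.sqrt (ε q i s) := by
    intro q _
    refine (htile (fun z => ∑ s ∈ S, ‖hh T g X r β p.1 s q z‖ ^ 2)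
      (fun z => by positivity)).trans ?_
    refine Finset.sum_le_sum fun i _ => ?_
    rw [Finset.sum_comm]
    exact Finset.sum_le_sum fun s _ => hh_tile X β p.1 s q _
  -- Cauchy--Schwarz over `(q, i, s)`
  set Ω : Finset (ℤ × ℕ × (ℤ × ℤ × ℤ)) := Xs c' d' p ×ˢ (range 256 ×ˢ S) with hΩ
  have hsum : ∑ q ∈ Xs c' d' p, ∑ i ∈ range 256, ∑ s ∈ S,
      fe T g β p.1 s q * Real.sqrt (ε q i s) ≤
      256 * (B' * len p) * len p * Real.sqrt (M2 * (σ * V)) := by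
    have e1 : ∑ q ∈ Xs c' d' p, ∑ i ∈ range 256, ∑ s ∈ S,
        fe T g β p.1 s q * Real.sqrt (ε q i s) =
        ∑ x ∈ Ω, fe T g β p.1 x.2.2 x.1 * Real.sqrt (ε x.1 x.2.1 x.2.2) := by
      rw [hΩ, Finset.sum_product]
      refine Finset.sum_congr rfl fun q _ => ?_
      rw [Finset.sum_product]
    rw [e1]
    have h3 := Finset.sum_mul_sq_le_sq_mul_sq Ω (fun x => fe T g β p.1 x.2.2 x.1)
      (fun x => Real.sqrt (ε x.1 x.2.1 x.2.2))
    have h4 : ∑ x ∈ Ω, fe T g β p.1 x.2.2 x.1 ^ 2 ≤ 256 * (len p * ((B' * len p) ^ 2 * M2)) := by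
      rw [hΩ, Finset.sum_product]
      have h5 : ∀ q ∈ Xs c' d' p, ∑ y ∈ range 256 ×ˢ S, fe T g β p.1 y.2 q ^ 2 ≤
          256 * ((B' * len p) ^ 2 * M2) := by
        intro q _
        rw [Finset.sum_product]
        have h6 : ∀ i ∈ range 256, ∑ s ∈ S, fe T g β p.1 s q ^ 2 ≤ (B' * len p) ^ 2 * M2 :=
          fun i _ => fe_sq hc1 hg2 hS0 β p.1 q (hy q)
        refine (Finset.sum_le_sum h6).trans (le_of_eq ?_)
        rw [Finset.sum_const, Finset.card_range, nsmul_eq_mul]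
        norm_num
      refine (Finset.sum_le_sum h5).trans ?_
      rw [Finset.sum_const, nsmul_eq_mul]
      calc ((Xs c' d' p).card : ℝ) * (256 * ((B' * len p) ^ 2 * M2)) ≤
            len p * (256 * ((B' * len p) ^ 2 * M2)) :=
            mul_le_mul_of_nonneg_right (card_Xs c' d' p) (by positivity)
        _ = _ := by ring
    have h7 : ∑ x ∈ Ω, Real.sqrt (ε x.1 x.2.1 x.2.2) ^ 2 ≤ 256 * (σ * (len p * V)) := by
      have e2 : ∑ x ∈ Ω, Real.sqrt (ε x.1 x.2.1 x.2.2) ^ 2 =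
          ∑ i ∈ range 256, ∑ q ∈ Xs c' d' p, ∑ s ∈ S, ε q i s := by
        rw [hΩ, Finset.sum_product, Finset.sum_comm' (t' := range 256 ×ˢ S)
          (s' := fun _ => Xs c' d' p) (by intro x y; tauto)]
        rw [Finset.sum_product]
        refine Finset.sum_congr rfl fun i _ => ?_
        rw [Finset.sum_comm]
        refine Finset.sum_congr rfl fun q _ => Finset.sum_congr rfl fun s _ => ?_
        exact Real.sq_sqrt (hε0 _ _ _)
      rw [e2]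
      have h8 : ∀ i ∈ range 256, ∑ q ∈ Xs c' d' p, ∑ s ∈ S, ε q i s ≤ σ * (len p * V) :=
        fun i _ => sum_inj cc r h02 (Xs c' d' p) S hS0 (y0 + 2 ^ p.1 * (i : ℤ))
          (fun t => e4 (tm T X t.1) (2 ^ p.1) t.2.1 t.2.2) hX
      refine (Finset.sum_le_sum h8).trans (le_of_eq ?_)
      rw [Finset.sum_const, Finset.card_range, nsmul_eq_mul]
      norm_num
    have h9 : 0 ≤ ∑ x ∈ Ω, fe T g β p.1 x.2.2 x.1 * Real.sqrt (ε x.1 x.2.1 x.2.2) :=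
      Finset.sum_nonneg fun x _ => mul_nonneg (fe_nonneg _ _ _ _) (Real.sqrt_nonneg _)
    have h10 : (∑ x ∈ Ω, fe T g β p.1 x.2.2 x.1 * Real.sqrt (ε x.1 x.2.1 x.2.2)) ^ 2 ≤
        (256 * (B' * len p) * len p) ^ 2 * (M2 * (σ * V)) := by
      refine h3.trans ?_
      calc _ ≤ (256 * (len p * ((B' * len p) ^ 2 * M2))) * (256 * (σ * (len p * V))) :=
            mul_le_mul h4 h7 (by positivity) (by positivity)
        _ = _ := by ring
    have h11 := Real.sqrt_le_sqrt h10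
    rw [Real.sqrt_sq h9, Real.sqrt_mul (sq_nonneg _), Real.sqrt_sq (by positivity)] at h11
    exact h11
  -- end
  have hLK : LK c' d' c d (PKC cc T g X r κ) β p ≤
      (1 / len p) * (κ * (M * (256 * (B' * len p) * len p * Real.sqrt (M2 * (σ * V))))) := by
    unfold Wb71.LK
    rw [← Finset.mul_sum]
    refine mul_le_mul_of_nonneg_left ?_ (by positivity)
    have h3 : ∀ q ∈ Xs c' d' p, ∑ z ∈ Xs c d p, ‖(1 / 2 ^ p.1 : ℂ) * ∑ u ∈ range (2 ^ p.1),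
        star (β (q + (u : ℤ))) * PKC cc T g X r κ (q + (u : ℤ)) z‖ ^ 2 ≤
        κ * (M * ∑ i ∈ range 256, ∑ s ∈ S, fe T g β p.1 s q * Real.sqrt (ε q i s)) := by
      intro q hq
      refine (Finset.sum_le_sum (hpt q hq)).trans ?_
      rw [← Finset.mul_sum, ← Finset.mul_sum]
      exact mul_le_mul_of_nonneg_left (mul_le_mul_of_nonneg_left (hz q hq) hM0) hκ
    refine (Finset.sum_le_sum h3).trans ?_
    rw [← Finset.mul_sum, ← Finset.mul_sum]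
    exact mul_le_mul_of_nonneg_left (mul_le_mul_of_nonneg_left hsum hM0) hκ
  refine hLK.trans ?_
  have h12 : κ * Real.sqrt (M2 * (σ * V)) ≤ Real.sqrt (M * (κ * V) * σ) := by
    have e : κ * Real.sqrt (M2 * (σ * V)) = Real.sqrt ((κ * M2) * (κ * V) * σ) := by
      have : (κ * M2) * (κ * V) * σ = κ ^ 2 * (M2 * (σ * V)) := by ring
      rw [this, Real.sqrt_mul (sq_nonneg _), Real.sqrt_sq hκ]
    rw [e]
    refine Real.sqrt_le_sqrt ?_
    have : 0 ≤ κ * V * σ := by positivity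
    calc (κ * M2) * (κ * V) * σ = (κ * M2) * (κ * V * σ) := by ring
      _ ≤ M * (κ * V * σ) := mul_le_mul_of_nonneg_right h2 this
      _ = _ := by ring
  calc (1 / len p) * (κ * (M * (256 * (B' * len p) * len p * Real.sqrt (M2 * (σ * V))))) =
        256 * B' * (M * (κ * Real.sqrt (M2 * (σ * V)))) * len p := by field_simp
    _ ≤ _ := by gcongr


end node

end Crest.Agent.R079.HErC702
end

-- ▼ part R079/HEsC_702
section

/-! R079, Step II (helper702): GENERAL EDGE `e` of the frozen slot `j`: hypothesis `herr` of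
`Wr408.wr_total`, free slots `a = j.succAbove e`, `b = j.succAbove (e + 1)`, static slot
`m = j.succAbove (e + 2)`. -/

set_option autoImplicit false
set_option linter.unusedVariables false

namespace Crest.Agent.R079.HErC702

open Finset Crest.Agent.R079.Grid Crest.Agent.R079.Pot Crest.Agent.R079.Glue Crest.Agent.R079.R244
  Crest.Agent.R079.F24 Crest.Agent.R079.EWG990 Crest.Agent.R079.LK990
  Crest.Agent.R079.EW5702 Crest.Agent.R079.Growth Crest.Agent.R079.Tr230 Crest.Agent.R079.CC702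
open Crest.Agent.R079.Wb71 (LK Xs mem_Xs)
open Crest.Agent.R079.F2 Crest.Agent.R079.QRed
open Crest.Agent.R079.XR112 (at' E2T)
open Crest.Agent.R079.HEr702 (tm tm_at kE kE_nonneg Pn_near mem_iv_div LK_add)

/-- the error kernel of the edge `e` -/
noncomputable def PKe (j : Fin 4) (e : Fin 3) (T : Fin 3 → Finset ℤ) (g : Fin 3 → ℤ → ℤ → ℂ)
    (E : ℤ → ℤ → ℤ → ℂ) (r : ℤ) (κ : ℝ) (x z : ℤ) : ℂ :=
  (κ : ℂ) * Per j T (PhiW (upk g e E)) (cf j e * x + cf j (e + 1) * z) (r + x + z)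

theorem PKe_eq (j : Fin 4) (e : Fin 3) (T : Fin 3 → Finset ℤ) (g : Fin 3 → ℤ → ℤ → ℂ)
    (E : ℤ → ℤ → ℤ → ℂ) (r : ℤ) (κ : ℝ) (x z : ℤ) :
    PKe j e T g E r κ x z = PKC (rot e (cf j)) (rot e T) (rot e g) E r κ x z := by
  unfold PKe PKC
  rw [per_eq, per_rot (cf j) e T, rot_upk]
  rfl

theorem PKe_fun (j : Fin 4) (e : Fin 3) (T : Fin 3 → Finset ℤ) (g : Fin 3 → ℤ → ℤ → ℂ)
    (E : ℤ → ℤ → ℤ → ℂ) (r : ℤ) (κ : ℝ) :
    PKe j e T g E r κ = PKC (rot e (cf j)) (rot e T) (rot e g) E r κ := by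
  funext x z; exact PKe_eq j e T g E r κ x z

lemma dst_je (j : Fin 4) (e : Fin 3) :
    Dst (j.succAbove (e + 2)) j (j.succAbove e) (j.succAbove (e + 1)) := by
  revert j e; decide

lemma dst_ie (j : Fin 4) (e : Fin 3) :
    Dst j (j.succAbove (e + 2)) (j.succAbove e) (j.succAbove (e + 1)) := by
  revert j e; decide

lemma PerC_mul_congr (cc : Fin 3 → ℤ) (T : Fin 3 → Finset ℤ) (Φ Φ' : ℤ → ℤ → ℤ → ℤ → ℂ) (y s : ℤ)
    (c c' : ℂ) (h : ∀ z0 ∈ T 0, ∀ z1 ∈ T 1, ∀ z2 ∈ T 2,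
      cc 0 * z0 + cc 1 * z1 + cc 2 * z2 = y →
      Φ (s - z0 - z1 - z2) z0 z1 z2 * c = Φ' (s - z0 - z1 - z2) z0 z1 z2 * c') :
    PerC cc T Φ y s * c = PerC cc T Φ' y s * c' := by
  unfold PerC
  simp only [Finset.sum_mul]
  refine Finset.sum_congr rfl fun z0 h0 => Finset.sum_congr rfl fun z1 h1 =>
    Finset.sum_congr rfl fun z2 h2 => ?_
  split_ifs with hc
  · exact h z0 h0 z1 h1 z2 h2 hc
  · simp

/-- the error kernel restricted to one node -/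
theorem PKC_at {cc : Fin 3 → ℤ} {α γ δ : ℤ} (h0' : cc 0 = γ - α) (h1' : cc 1 = δ - α)
    (h2' : cc 2 = -α) (T : Fin 3 → Finset ℤ) (g : Fin 3 → ℤ → ℤ → ℂ) (E : ℤ → ℤ → ℤ → ℂ) (r : ℤ)
    (κ : ℝ) (p : Nd) (x z Y : ℤ) (hY : α * (r + x + z) + (cc 0 * x + cc 1 * z) = Y)
    [Decidable (Y ∈ iv p)] :
    PKC cc T g (at' α γ δ (T 0) (T 1) E p) r κ x z =
    if Y ∈ iv p then PKC cc T g E r κ x z else 0 := by
  classical
  have h := PerC_mul_congr cc T (PhiW (upk g 0 (at' α γ δ (T 0) (T 1) E p))) (PhiW (upk g 0 E))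
    (cc 0 * x + cc 1 * z) (r + x + z) 1 (if Y ∈ iv p then 1 else 0) (by
      intro z0 h0 z1 h1 z2 h2 hc
      rw [PhiW_zero, PhiW_zero]
      have e : α * (r + x + z - z0 - z1 - z2) + γ * z0 + δ * z1 = Y := by
        rw [← hY]
        have e1 : γ = cc 0 + α := by rw [h0']; ring
        have e2 : δ = cc 1 + α := by rw [h1']; ring
        rw [e1, e2]
        rw [h2'] at hc
        linear_combination hc
      unfold XR112.at' cK
      rw [if_pos ⟨h0, h1⟩, e]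
      unfold res
      by_cases hm : Y ∈ iv p
      · have hm' : Y ∈ dI (p.1 + 7) p.2 := hm
        rw [if_pos hm, if_pos hm']; ring
      · have hm' : ¬ Y ∈ dI (p.1 + 7) p.2 := hm
        rw [if_neg hm, if_neg hm']; ring)
  unfold PKC
  rw [mul_one] at h
  rw [h]
  by_cases hm : Y ∈ iv p
  · rw [if_pos hm, if_pos hm, mul_one]
  · rw [if_neg hm, if_neg hm, mul_zero, mul_zero]

/-- the error kernel of the edge `e` restricted to one node -/
theorem PKe_at (j : Fin 4) (e : Fin 3) (T : Fin 3 → Finset ℤ) (g : Fin 3 → ℤ → ℤ → ℂ)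
    (E : ℤ → ℤ → ℤ → ℂ) (r : ℤ) (κ : ℝ) (p : Nd) (x z : ℤ)
    [Decidable ((sl j * r + sl (j.succAbove e) * x +
      sl (j.succAbove (e + 1)) * z) - sl (j.succAbove (e + 2)) * (r + x + z) ∈ iv p)] :
    PKe j e T g (at' (sl j - sl (j.succAbove (e + 2))) (sl (j.succAbove e) - sl (j.succAbove (e + 2)))
      (sl (j.succAbove (e + 1)) - sl (j.succAbove (e + 2))) (T e) (T (e + 1)) E p) r κ x z =
    if (sl j * r + sl (j.succAbove e) * x + sl (j.succAbove (e + 1)) * z) -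
      sl (j.succAbove (e + 2)) * (r + x + z) ∈ iv p then PKe j e T g E r κ x z else 0 := by
  rw [PKe_eq, PKe_eq]
  refine PKC_at (α := sl j - sl (j.succAbove (e + 2)))
    (γ := sl (j.succAbove e) - sl (j.succAbove (e + 2)))
    (δ := sl (j.succAbove (e + 1)) - sl (j.succAbove (e + 2))) ?_ ?_ ?_ (rot e T) (rot e g) E r κ p
    x z _ ?_
  · rw [rot_zero]; unfold cf; ring
  · rw [rot_one]; unfold cf; ring
  · rw [rot_two]; unfold cf; ring
  · rw [rot_zero, rot_one]; unfold cf; ring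

/-- one node, edge `e`, error `E` -/
theorem LK_Ee (j : Fin 4) (e : Fin 3) (T : Fin 3 → Finset ℤ) (g : Fin 3 → ℤ → ℤ → ℂ) {κ : ℝ}
    (hκ : 0 ≤ κ) (hg2 : ∀ z z', ‖g (e + 2) z z'‖ ≤ 1) {M B' BE : ℝ} (hM0 : 0 ≤ M) (hB : 0 ≤ B')
    (h1 : κ * ∑ z ∈ T (e + 1), ∑ z' ∈ T (e + 2), ‖g (e + 1) z z'‖ ^ 2 ≤ M) (hBE : 0 ≤ BE)
    {E : ℤ → ℤ → ℤ → ℂ} (α γ δ : ℤ) (p p' : Nd)
    (hE : ∀ R : Finset (ℤ × ℤ × ℤ),
      ∑ t ∈ R, ‖at' α γ δ (T e) (T (e + 1)) E p' t.1 t.2.1 t.2.2‖ ^ 2 ≤ BE) (r : ℤ)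
    (c' d' c d : ℤ) (β : ℤ → ℂ)
    (hy : ∀ q : ℤ, ∑ u ∈ range (2 ^ p.1), ‖β (q + (u : ℤ))‖ ^ 2 ≤ B' * len p) :
    LK c' d' c d (PKe j e T g (at' α γ δ (T e) (T (e + 1)) E p') r κ) β p ≤
      128 * B' * (M * (κ * BE)) := by
  rw [PKe_fun]
  have hg2' : ∀ z z', ‖rot e g 2 z z'‖ ≤ 1 := by rw [rot_two]; exact hg2
  have h1' : κ * ∑ z ∈ rot e T 1, ∑ z' ∈ rot e T 2, ‖rot e g 1 z z'‖ ^ 2 ≤ M := by
    rw [rot_one, rot_one, rot_two]; exact h1
  have h3 := tm_at (rot e T) E α γ δ p'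
  rw [rot_zero, rot_one] at h3
  have hE' : ∀ R : Finset (ℤ × ℤ × ℤ), ∑ t ∈ R, ‖tm (rot e T)
      (at' α γ δ (T e) (T (e + 1)) E p') t.1 t.2.1 t.2.2‖ ^ 2 ≤ BE := by
    rw [h3]; exact hE
  exact LK_E (cc := rot e (cf j)) (T := rot e T) (g := rot e g) (rot_cf_ne j e 0)
    (rot_cf_inj j e).2.2 hκ hg2' hM0 hB h1' hBE hE' c' d' c d β p hy

/-- one node, edge `e`, error `X` -/
theorem LK_Xe (j : Fin 4) (e : Fin 3) (T : Fin 3 → Finset ℤ) (g : Fin 3 → ℤ → ℤ → ℂ) {κ : ℝ}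
    (hκ : 0 ≤ κ) (hg2 : ∀ z z', ‖g (e + 2) z z'‖ ≤ 1) {M B' V σ : ℝ} (hM0 : 0 ≤ M) (hB : 0 ≤ B')
    (hV : 0 ≤ V) (hσ : 0 ≤ σ)
    (h1 : κ * ∑ z ∈ T (e + 1), ∑ z' ∈ T (e + 2), ‖g (e + 1) z z'‖ ^ 2 ≤ M)
    (h2 : κ * ∑ z ∈ T (e + 2), ∑ z' ∈ T e, ‖g (e + 2) z z'‖ ^ 2 ≤ M)
    {X : ℤ → ℤ → ℤ → ℂ} (α γ δ : ℤ) (p p' : Nd)
    (hX : ∀ R : Finset (ℤ × ℤ × ℤ),
      ∑ t ∈ R, e4 (at' α γ δ (T e) (T (e + 1)) X p' t.1) (2 ^ p.1) t.2.1 t.2.2 ≤
        σ * (len p * V)) (r : ℤ) (c' c : ℤ) (d' : ℤ) {d : ℤ} (hd : d ≠ 0) (β : ℤ → ℂ)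
    (hy : ∀ q : ℤ, ∑ u ∈ range (2 ^ p.1), ‖β (q + (u : ℤ))‖ ^ 2 ≤ B' * len p) :
    LK c' d' c d (PKe j e T g (at' α γ δ (T e) (T (e + 1)) X p') r κ) β p ≤
      256 * B' * (M * Real.sqrt (M * (κ * V) * σ)) * len p := by
  rw [PKe_fun]
  have hg2' : ∀ z z', ‖rot e g 2 z z'‖ ≤ 1 := by rw [rot_two]; exact hg2
  have h1' : κ * ∑ z ∈ rot e T 1, ∑ z' ∈ rot e T 2, ‖rot e g 1 z z'‖ ^ 2 ≤ M := by
    rw [rot_one, rot_one, rot_two]; exact h1
  have h2' : κ * ∑ z ∈ rot e T 2, ∑ z' ∈ rot e T 0, ‖rot e g 2 z z'‖ ^ 2 ≤ M := by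
    rw [rot_two, rot_two, rot_zero]; exact h2
  have h3 := tm_at (rot e T) X α γ δ p'
  rw [rot_zero, rot_one] at h3
  have hX' : ∀ R : Finset (ℤ × ℤ × ℤ), ∑ t ∈ R, e4 (tm (rot e T)
      (at' α γ δ (T e) (T (e + 1)) X p') t.1) (2 ^ p.1) t.2.1 t.2.2 ≤ σ * (len p * V) := by
    rw [h3]; exact hX
  exact LK_X (cc := rot e (cf j)) (T := rot e T) (g := rot e g) (rot_cf_ne j e 0)
    (rot_cf_ne j e 1) (rot_cf_inj j e).2.2 hκ hg2' hM0 hB hV hσ h1' h2' p hX' c' c d' hd β hy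

/-- **LEAF QUANTITY OF `E`**, sum over the nodes of the static slot -/
theorem LK_E11 (j : Fin 4) (e : Fin 3) (T : Fin 3 → Finset ℤ) (g : Fin 3 → ℤ → ℤ → ℂ) {κ : ℝ} (hκ : 0 ≤ κ)
    (hg2 : ∀ z z', ‖g (e + 2) z z'‖ ≤ 1) {M B' BE : ℝ} (hM0 : 0 ≤ M) (hB : 0 ≤ B')
    (h1 : κ * ∑ z ∈ T (e + 1), ∑ z' ∈ T (e + 2), ‖g (e + 1) z z'‖ ^ 2 ≤ M) (hBE : 0 ≤ BE) {E : ℤ → ℤ → ℤ → ℂ}
    (p : Nd) (hE : ∀ l, p.2 - 5 ≤ l → l ≤ p.2 + 5 → ∀ R : Finset (ℤ × ℤ × ℤ),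
      ∑ t ∈ R, ‖at' (sl j - sl (j.succAbove (e + 2))) (sl (j.succAbove e) - sl (j.succAbove (e + 2)))
        (sl (j.succAbove (e + 1)) - sl (j.succAbove (e + 2))) (T e) (T (e + 1)) E (p.1, l) t.1 t.2.1 t.2.2‖ ^ 2 ≤
        BE * len p) (r : ℤ) (β : ℤ → ℂ)
    (hy : ∀ q : ℤ, ∑ u ∈ range (2 ^ p.1), ‖β (q + (u : ℤ))‖ ^ 2 ≤ B' * len p) :
    LK ((sl j - sl (j.succAbove (e + 1))) * r) (-dd (j.succAbove e) (j.succAbove (e + 1)))
      ((sl j - sl (j.succAbove e)) * r) (dd (j.succAbove e) (j.succAbove (e + 1)))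
      (PKe j e T g E r κ) β p ≤ 11 ^ 2 * (128 * B' * (M * (κ * BE))) * len p := by
  classical
  have hD := dst_je j e
  obtain ⟨hd1, hd3⟩ := LfK71.dd_natAbs _ _ _ _ hD
  have hd : dd (j.succAbove e) (j.succAbove (e + 1)) ≠ 0 := by
    intro h0; rw [h0] at hd1; simp at hd1
  have hd' : -dd (j.succAbove e) (j.succAbove (e + 1)) ≠ 0 := neg_ne_zero.2 hd
  have hlp : 0 < len p := Qe292.len_pos p
  set S : Finset ℤ := Finset.Icc (p.2 - 5) (p.2 + 5) with hS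
  have hc : (S.card : ℝ) = 11 := by
    rw [hS, Int.card_Icc]
    have : (p.2 + 5 + 1 - (p.2 - 5)).toNat = 11 := by
      rw [show p.2 + 5 + 1 - (p.2 - 5) = 11 by ring]; rfl
    rw [this]; norm_num
  rw [LfK71.LK_congr _ _ _ _ (PKe j e T g E r κ) (fun x z => ∑ l ∈ S,
    PKe j e T g (at' (sl j - sl (j.succAbove (e + 2))) (sl (j.succAbove e) - sl (j.succAbove (e + 2)))
      (sl (j.succAbove (e + 1)) - sl (j.succAbove (e + 2))) (T e) (T (e + 1)) E (p.1, l)) r κ x z) β p ?_]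
  · refine (LfK71.LK_sum S _ _ _ _ (fun l => PKe j e T g (at' (sl j - sl (j.succAbove (e + 2)))
      (sl (j.succAbove e) - sl (j.succAbove (e + 2))) (sl (j.succAbove (e + 1)) - sl (j.succAbove (e + 2)))
      (T e) (T (e + 1)) E (p.1, l)) r κ) β p).trans ?_
    have h2 : ∀ l ∈ S, LK ((sl j - sl (j.succAbove (e + 1))) * r) (-dd (j.succAbove e) (j.succAbove (e + 1)))
      ((sl j - sl (j.succAbove e)) * r) (dd (j.succAbove e) (j.succAbove (e + 1)))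
      (PKe j e T g (at' (sl j - sl (j.succAbove (e + 2))) (sl (j.succAbove e) - sl (j.succAbove (e + 2)))
      (sl (j.succAbove (e + 1)) - sl (j.succAbove (e + 2))) (T e) (T (e + 1)) E (p.1, l)) r κ) β p ≤
        128 * B' * (M * (κ * (BE * len p))) := by
      intro l hl
      have hl' := Finset.mem_Icc.1 hl
      exact LK_Ee j e T g hκ hg2 hM0 hB h1 (by positivity) _ _ _ p _ (hE l hl'.1 hl'.2) r
        _ _ _ _ β hy
    refine (mul_le_mul_of_nonneg_left (Finset.sum_le_sum h2) (by positivity)).trans (le_of_eq ?_)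
    rw [Finset.sum_const, nsmul_eq_mul, hc]
    ring
  · intro q hq u hu z hz
    have hq' := (mem_Xs hd').1 hq
    have hz' := (mem_Xs hd).1 hz
    have hn := LfK71.slot_near (i := j) hD p r q z u hu hq' hz'
    simp only [PKe_at]
    rw [Finset.sum_eq_single_of_mem _ hn]
    · rw [if_pos (mem_iv_div.2 rfl)]
    · intro l _ hl
      rw [if_neg]
      intro hm
      exact hl (mem_iv_div.1 hm).symm

/-- **LEAF QUANTITY OF `X`**, sum over the nodes of the static slot -/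
theorem LK_X11 (j : Fin 4) (e : Fin 3) (T : Fin 3 → Finset ℤ) (g : Fin 3 → ℤ → ℤ → ℂ) {κ : ℝ} (hκ : 0 ≤ κ)
    (hg2 : ∀ z z', ‖g (e + 2) z z'‖ ≤ 1) {M B' V σ : ℝ} (hM0 : 0 ≤ M) (hB : 0 ≤ B') (hV : 0 ≤ V)
    (hσ : 0 ≤ σ) (h1 : κ * ∑ z ∈ T (e + 1), ∑ z' ∈ T (e + 2), ‖g (e + 1) z z'‖ ^ 2 ≤ M)
    (h2 : κ * ∑ z ∈ T (e + 2), ∑ z' ∈ T e, ‖g (e + 2) z z'‖ ^ 2 ≤ M) {X : ℤ → ℤ → ℤ → ℂ}
    (p : Nd) (hX : ∀ l, p.2 - 5 ≤ l → l ≤ p.2 + 5 → ∀ R : Finset (ℤ × ℤ × ℤ),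
      ∑ t ∈ R, e4 (at' (sl j - sl (j.succAbove (e + 2))) (sl (j.succAbove e) - sl (j.succAbove (e + 2)))
        (sl (j.succAbove (e + 1)) - sl (j.succAbove (e + 2))) (T e) (T (e + 1)) X (p.1, l) t.1) (2 ^ p.1)
        t.2.1 t.2.2 ≤ σ * (len p * V)) (r : ℤ) (β : ℤ → ℂ)
    (hy : ∀ q : ℤ, ∑ u ∈ range (2 ^ p.1), ‖β (q + (u : ℤ))‖ ^ 2 ≤ B' * len p) :
    LK ((sl j - sl (j.succAbove (e + 1))) * r) (-dd (j.succAbove e) (j.succAbove (e + 1)))
      ((sl j - sl (j.succAbove e)) * r) (dd (j.succAbove e) (j.succAbove (e + 1)))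
      (PKe j e T g X r κ) β p ≤
      11 ^ 2 * (256 * B' * (M * Real.sqrt (M * (κ * V) * σ))) * len p := by
  classical
  have hD := dst_je j e
  obtain ⟨hd1, hd3⟩ := LfK71.dd_natAbs _ _ _ _ hD
  have hd : dd (j.succAbove e) (j.succAbove (e + 1)) ≠ 0 := by
    intro h0; rw [h0] at hd1; simp at hd1
  have hd' : -dd (j.succAbove e) (j.succAbove (e + 1)) ≠ 0 := neg_ne_zero.2 hd
  have hlp : 0 < len p := Qe292.len_pos p
  set S : Finset ℤ := Finset.Icc (p.2 - 5) (p.2 + 5) with hS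
  have hc : (S.card : ℝ) = 11 := by
    rw [hS, Int.card_Icc]
    have : (p.2 + 5 + 1 - (p.2 - 5)).toNat = 11 := by
      rw [show p.2 + 5 + 1 - (p.2 - 5) = 11 by ring]; rfl
    rw [this]; norm_num
  rw [LfK71.LK_congr _ _ _ _ (PKe j e T g X r κ) (fun x z => ∑ l ∈ S,
    PKe j e T g (at' (sl j - sl (j.succAbove (e + 2))) (sl (j.succAbove e) - sl (j.succAbove (e + 2)))
      (sl (j.succAbove (e + 1)) - sl (j.succAbove (e + 2))) (T e) (T (e + 1)) X (p.1, l)) r κ x z) β p ?_]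
  · refine (LfK71.LK_sum S _ _ _ _ (fun l => PKe j e T g (at' (sl j - sl (j.succAbove (e + 2)))
      (sl (j.succAbove e) - sl (j.succAbove (e + 2))) (sl (j.succAbove (e + 1)) - sl (j.succAbove (e + 2)))
      (T e) (T (e + 1)) X (p.1, l)) r κ) β p).trans ?_
    have h2 : ∀ l ∈ S, LK ((sl j - sl (j.succAbove (e + 1))) * r) (-dd (j.succAbove e) (j.succAbove (e + 1)))
      ((sl j - sl (j.succAbove e)) * r) (dd (j.succAbove e) (j.succAbove (e + 1)))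
      (PKe j e T g (at' (sl j - sl (j.succAbove (e + 2))) (sl (j.succAbove e) - sl (j.succAbove (e + 2)))
      (sl (j.succAbove (e + 1)) - sl (j.succAbove (e + 2))) (T e) (T (e + 1)) X (p.1, l)) r κ) β p ≤
        256 * B' * (M * Real.sqrt (M * (κ * V) * σ)) * len p := by
      intro l hl
      have hl' := Finset.mem_Icc.1 hl
      exact LK_Xe j e T g hκ hg2 hM0 hB hV hσ h1 h2 _ _ _ p _ (hX l hl'.1 hl'.2) r
        _ _ _ hd β hy
    refine (mul_le_mul_of_nonneg_left (Finset.sum_le_sum h2) (by positivity)).trans (le_of_eq ?_)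
    rw [Finset.sum_const, nsmul_eq_mul, hc]
    ring
  · intro q hq u hu z hz
    have hq' := (mem_Xs hd').1 hq
    have hz' := (mem_Xs hd).1 hz
    have hn := LfK71.slot_near (i := j) hD p r q z u hu hq' hz'
    simp only [PKe_at]
    rw [Finset.sum_eq_single_of_mem _ hn]
    · rw [if_pos (mem_iv_div.2 rfl)]
    · intro l _ hl
      rw [if_neg]
      intro hm
      exact hl (mem_iv_div.1 hm).symm

/-- **HYPOTHESIS `herr` OF `Wr408.wr_total`** (frozen slot `j`, static slot `j.succAbove (e + 2)`, free slots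
`a = j.succAbove e`, `b = j.succAbove (e + 1)`; `K` = any kernel equal to the sum of the two periodised error
kernels at the points whose four shadows lie in `iv I`). -/
theorem herr_val (j : Fin 4) (e : Fin 3) (T : Fin 3 → Finset ℤ) (g : Fin 3 → ℤ → ℤ → ℂ) {κ : ℝ} (hκ : 0 ≤ κ)
    (hg2 : ∀ z z', ‖g (e + 2) z z'‖ ≤ 1) {M V BE σ B : ℝ} (hM0 : 0 ≤ M) (hV : 0 ≤ V) (hBE : 0 ≤ BE)
    (hσ : 0 ≤ σ) (hB0 : 0 ≤ B)
    (h1 : κ * ∑ z ∈ T (e + 1), ∑ z' ∈ T (e + 2), ‖g (e + 1) z z'‖ ^ 2 ≤ M)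
    (h2 : κ * ∑ z ∈ T (e + 2), ∑ z' ∈ T e, ‖g (e + 2) z z'‖ ^ 2 ≤ M)
    {W : Finset Nd} {I : Nd} (hW : Full W I) (C : ℕ) (hC : 7 ≤ C) (r : ℤ) (f F : ℤ → ℂ)
    (hf : ∀ z, ‖f z‖ ≤ ‖F ((sl j - sl (j.succAbove (e + 1))) * r +
      -dd (j.succAbove e) (j.succAbove (e + 1)) * z)‖)
    (hB : ∀ p ∈ W, ∑ y ∈ iv p, ‖F y‖ ^ 2 ≤ B * len p) {E X : ℤ → ℤ → ℤ → ℂ}
    (hE : E2T W (sl j - sl (j.succAbove (e + 2))) (sl (j.succAbove e) - sl (j.succAbove (e + 2)))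
      (sl (j.succAbove (e + 1)) - sl (j.succAbove (e + 2))) (T e) (T (e + 1)) BE E) {κ' : ℕ}
    (hX : EW49.S4W W κ' V σ (sl j - sl (j.succAbove (e + 2))) (sl (j.succAbove e) - sl (j.succAbove (e + 2)))
      (sl (j.succAbove (e + 1)) - sl (j.succAbove (e + 2))) (T e) (T (e + 1)) X (fun _ => 1))
    (K : ℤ → ℤ → ℂ)
    (hK : ∀ z z' : ℤ,
      (sl j - sl (j.succAbove e)) * r + dd (j.succAbove e) (j.succAbove (e + 1)) * z' ∈ iv I →
      (sl j - sl (j.succAbove (e + 1))) * r + -dd (j.succAbove e) (j.succAbove (e + 1)) * z ∈ iv I →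
      (sl (j.succAbove e) - sl j) * z + (sl (j.succAbove (e + 1)) - sl j) * z' ∈ iv I →
      (sl j - sl (j.succAbove (e + 2))) * r + (sl (j.succAbove e) - sl (j.succAbove (e + 2))) * z +
        (sl (j.succAbove (e + 1)) - sl (j.succAbove (e + 2))) * z' ∈ iv I →
      K z z' = PKe j e T g E r κ z z' + PKe j e T g X r κ z z')
    (k : ℕ) (p : Nd) (hp : p ∈ Wa71.Pn W C ((sl j - sl (j.succAbove (e + 1))) * r)
      (-dd (j.succAbove e) (j.succAbove (e + 1))) k) :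
    LK ((sl j - sl (j.succAbove (e + 1))) * r) (-dd (j.succAbove e) (j.succAbove (e + 1)))
      ((sl j - sl (j.succAbove e)) * r) (dd (j.succAbove e) (j.succAbove (e + 1))) K
      (Wb71.mk W C ((sl j - sl (j.succAbove (e + 1))) * r) (-dd (j.succAbove e) (j.succAbove (e + 1))) f k) p ≤
      kE κ M V BE σ B * len p := by
  classical
  have hD := dst_je j e
  have hD' := dst_ie j e
  obtain ⟨hd1, hd3⟩ := LfK71.dd_natAbs _ _ _ _ hD
  have hd : dd (j.succAbove e) (j.succAbove (e + 1)) ≠ 0 := by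
    intro h0; rw [h0] at hd1; simp at hd1
  have hd' : -dd (j.succAbove e) (j.succAbove (e + 1)) ≠ 0 := neg_ne_zero.2 hd
  have hd3' : |-dd (j.succAbove e) (j.succAbove (e + 1))| ≤ 3 := by
    rw [abs_neg, Int.abs_eq_natAbs]
    exact_mod_cast hd3
  have hd128 : |-dd (j.succAbove e) (j.succAbove (e + 1))| ≤ 128 := by linarith
  have hlp : 0 < len p := Qe292.len_pos p
  have hpk : p.1 = k := (Wa71.mem_Pn.1 hp).2.1
  subst hpk
  have hnear : ∀ l, p.2 - 5 ≤ l → l ≤ p.2 + 5 → ((p.1, l) : Nd) ∈ W :=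
    fun l h3 h4 => Pn_near hW C hC _ hd' hd128 hp h3 h4
  have hsub : ∀ y : ℤ, y / 2 ^ (p.1 + 7) ∈ Finset.Icc (p.2 - 5) (p.2 + 5) → y ∈ iv I := by
    intro y hy
    obtain ⟨h3, h4⟩ := Finset.mem_Icc.1 hy
    exact hW.reg.1 _ (hnear _ h3 h4) (mem_iv_div.2 rfl)
  have hy : ∀ q : ℤ, ∑ u ∈ range (2 ^ p.1), ‖Wb71.mk W C ((sl j - sl (j.succAbove (e + 1))) * r)
      (-dd (j.succAbove e) (j.succAbove (e + 1))) f p.1 (q + (u : ℤ))‖ ^ 2 ≤ (3 * B) * len p :=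
    fun q => LfK71.mk_win W C _ hd' hd128 f F p.1 hf B hB0 hB q
  rw [LfK71.LK_congr _ _ _ _ K (fun x z => PKe j e T g E r κ x z + PKe j e T g X r κ x z) _ p ?_]
  · refine (LK_add _ _ _ _ (PKe j e T g E r κ) (PKe j e T g X r κ) _ p).trans ?_
    have hEe := LK_E11 j e T g hκ hg2 hM0 (by positivity : 0 ≤ 3 * B) h1 hBE p
      (fun l h3 h4 R => hE _ (hnear l h3 h4) R) r _ hy
    have hXx := LK_X11 j e T g hκ hg2 hM0 (by positivity : 0 ≤ 3 * B) hV hσ h1 h2 p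
      (fun l h3 h4 R => hX _ (hnear l h3 h4) 0 (Nat.zero_le _) R) r _ hy
    calc _ ≤ 2 * (11 ^ 2 * (128 * (3 * B) * (M * (κ * BE))) * len p +
          11 ^ 2 * (256 * (3 * B) * (M * Real.sqrt (M * (κ * V) * σ))) * len p) := by
          have := add_le_add hEe hXx
          linarith
      _ = _ := by unfold kE; ring
  · intro q hq u hu z hz
    have hq' := (mem_Xs hd').1 hq
    have hz' := (mem_Xs hd).1 hz
    have n1 := hsub _ (LfK71.slot_near (i := j) hD p r q z u hu hq' hz')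
    have n2 := hsub _ (LfK71.slot_near (i := j) hD' p r q z u hu hq' hz')
    have hL : (0 : ℤ) < 2 ^ (p.1 + 7) := by positivity
    refine hK _ _ (hW.reg.1 p (Wa71.mem_Pn.1 hp).1 hz') ?_ ?_ ?_
    · refine hsub _ ?_
      rw [Ero526.mem_iv'] at hq'
      have hLp : (2 : ℤ) ^ (p.1 + 7) = 128 * 2 ^ p.1 := by ring
      have hU0 := Int.natCast_nonneg u
      have hU1 : (u : ℤ) < 2 ^ p.1 := by exact_mod_cast hu
      have h3 : |-dd (j.succAbove e) (j.succAbove (e + 1)) * (u : ℤ)| ≤ 3 * (u : ℤ) := by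
        rw [abs_mul, abs_of_nonneg hU0]
        exact mul_le_mul_of_nonneg_right hd3' hU0
      rw [abs_le] at h3
      have ee : (sl j - sl (j.succAbove (e + 1))) * r + -dd (j.succAbove e) (j.succAbove (e + 1)) *
          (q + (u : ℤ)) = ((sl j - sl (j.succAbove (e + 1))) * r +
          -dd (j.succAbove e) (j.succAbove (e + 1)) * q) +
          -dd (j.succAbove e) (j.succAbove (e + 1)) * (u : ℤ) := by ring
      rw [ee, Finset.mem_Icc]
      generalize (sl j - sl (j.succAbove (e + 1))) * r +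
          -dd (j.succAbove e) (j.succAbove (e + 1)) * q = Y at hq' ⊢
      generalize -dd (j.succAbove e) (j.succAbove (e + 1)) * (u : ℤ) = D at h3 ⊢
      constructor
      · rw [Int.le_ediv_iff_mul_le hL]; nlinarith
      · have : (Y + D) / 2 ^ (p.1 + 7) < p.2 + 6 := by
          rw [Int.ediv_lt_iff_lt_mul hL]; nlinarith
        linarith
    · refine (congrArg (· ∈ iv I) ?_).mp n2
      ring
    · refine (congrArg (· ∈ iv I) ?_).mp n1
      ring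

end Crest.Agent.R079.HErC702
end

-- ▼ part R079/CoE2_255
section

/-! R079, Step II of `RuleNT` (helper255), EDGE-GENERIC version of helper256's `RuS2_256`: ONE STATIC
WINDOW, dictionary-free.  Frozen slot `j`, static slot `j.succAbove (e+2)`, leaf value `k1` as a
hypothesis. -/

set_option autoImplicit false
set_option linter.unusedVariables false

namespace Crest.Agent.R079.CoEx255

open Finset Crest.Agent.R079.Grid Crest.Agent.R079.Growth Crest.Agent.R079.QRed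
  Crest.Agent.R079.Glue Crest.Agent.R079.TWin Crest.Agent.R079.R244 Crest.Agent.R079.F24
  Crest.Agent.R079.XR112 Crest.Agent.R079.XS4x219 Crest.Agent.R079.EWG990
  Crest.Agent.R079.Cg408 Crest.Agent.R079.Tr230 Crest.Agent.R079.LK990 Crest.Agent.R079.MainEx255
  Crest.Agent.R079.KbSe259 Crest.Agent.R079.S2D530
  Crest.Agent.R079.F2 Crest.Agent.R079.Ero526 Crest.Agent.R079.LfK71
open Crest.Agent.R079.RuS256 (AtD kE_le)
open Crest.Agent.R079.HEr702 (kE kE_nonneg)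

/-- three components of an edge-indexed property -/
lemma all3 {p : Fin 3 → Prop} (h0 : p 0) (h1 : p 1) (h2 : p 2) (e : Fin 3) : p e := by
  obtain rfl | rfl | rfl := LabEx255.e3 e
  · exact h0
  · exact h1
  · exact h2

lemma AtD.gg {κ M : ℝ} {T : Fin 3 → Finset ℤ} {g : Fin 3 → ℤ → ℤ → ℂ} (h : AtD κ M T g)
    (e : Fin 3) : ∀ z z', ‖g e z z'‖ ≤ 1 :=
  all3 (p := fun e => ∀ z z', ‖g e z z'‖ ≤ 1) h.g0 h.g1 h.g2 e

lemma AtD.nn {κ M : ℝ} {T : Fin 3 → Finset ℤ} {g : Fin 3 → ℤ → ℤ → ℂ} (h : AtD κ M T g)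
    (e : Fin 3) : κ * BAt112.n2 (T e) (T (e + 1)) (g e) ≤ M :=
  all3 (p := fun e => κ * BAt112.n2 (T e) (T (e + 1)) (g e) ≤ M) h.n0 h.n1 h.n2 e

lemma AtD.nn1 {κ M : ℝ} {T : Fin 3 → Finset ℤ} {g : Fin 3 → ℤ → ℤ → ℂ} (h : AtD κ M T g)
    (e : Fin 3) : κ * BAt112.n2 (T (e + 1)) (T (e + 2)) (g (e + 1)) ≤ M := by
  have := AtD.nn h (e + 1)
  rwa [LabEx255.ee1] at this

lemma AtD.nn2 {κ M : ℝ} {T : Fin 3 → Finset ℤ} {g : Fin 3 → ℤ → ℤ → ℂ} (h : AtD κ M T g)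
    (e : Fin 3) : κ * BAt112.n2 (T (e + 2)) (T e) (g (e + 2)) ≤ M := by
  have := AtD.nn h (e + 2)
  rwa [LabEx255.ee2] at this

/-- output of `Plug2` on the window `WK` (top `K`), edge `e` -/
structure PlDe (j : Fin 4) (e : Fin 3) (κ M σ : ℝ) (T : Fin 3 → Finset ℤ)
    (g : Fin 3 → ℤ → ℤ → ℂ) (G : ℤ → ℂ)
    (WK : Finset Nd) (K : Nd) {n : ℕ} (u v : Fin n → ℤ → ℤ → ℂ) (d : Fin n → ℂ)
    (E X : ℤ → ℤ → ℤ → ℂ) : Prop where
  full : Full WK K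
  hu : ∀ l w z, ‖u l w z‖ ≤ 1
  hv : ∀ l w z, ‖v l w z‖ ≤ 1
  hd : ∑ l, ‖d l‖ ≤ 1 / σ
  dec : ∀ w, ∀ z ∈ T e, ∀ z' ∈ T (e + 1), (sl j - sl (j.succAbove (e + 2))) * w +
        (sl (j.succAbove e) - sl (j.succAbove (e + 2))) * z +
        (sl (j.succAbove (e + 1)) - sl (j.succAbove (e + 2))) * z' ∈ iv K →
      Cc (g e) G (sl j - sl (j.succAbove (e + 2))) (sl (j.succAbove e) - sl (j.succAbove (e + 2)))
        (sl (j.succAbove (e + 1)) - sl (j.succAbove (e + 2))) w z z' =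
        ∑ l, d l * (u l w z * v l w z') + E w z z' + X w z z'
  hE : ∀ w z z', ‖E w z z'‖ ≤ 2 / σ
  e2 : E2T WK (sl j - sl (j.succAbove (e + 2))) (sl (j.succAbove e) - sl (j.succAbove (e + 2)))
    (sl (j.succAbove (e + 1)) - sl (j.succAbove (e + 2))) (T e) (T (e + 1))
    (9 * σ ^ 3 * (M / κ)) E
  xr : XR WK (sl j - sl (j.succAbove (e + 2))) (sl (j.succAbove e) - sl (j.succAbove (e + 2)))
    (sl (j.succAbove (e + 1)) - sl (j.succAbove (e + 2))) (T e) (T (e + 1))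
    (Cc (g e) G (sl j - sl (j.succAbove (e + 2))) (sl (j.succAbove e) - sl (j.succAbove (e + 2)))
      (sl (j.succAbove (e + 1)) - sl (j.succAbove (e + 2)))) (M / κ) σ
    (σ ^ 3) (σ ^ 3) X

/-- the leaf values of the window are at most `k1` (every letter of local `L²` norm `≤ 1`) -/
def HL (j : Fin 4) (e : Fin 3) (P G : ℤ → ℂ) (W : Finset Nd) (C : ℕ) (k1 : ℝ) : Prop :=
  ∀ fb : ℤ → ℂ, (∀ p ∈ W, ∑ y ∈ iv p, ‖fb y‖ ^ 2 ≤ 1 * len p) →
    ∀ r : ℕ, r < (dd (j.succAbove e) (j.succAbove (e + 1))).natAbs → ∀ k,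
      ∀ p ∈ Wa71.Pn W C ((sl j - sl (j.succAbove (e + 1))) * r)
        (-dd (j.succAbove e) (j.succAbove (e + 1))) k,
      Wb71.LK ((sl j - sl (j.succAbove (e + 1))) * r) (-dd (j.succAbove e) (j.succAbove (e + 1)))
        ((sl j - sl (j.succAbove e)) * r) (dd (j.succAbove e) (j.succAbove (e + 1)))
        (K2 j j (j.succAbove (e + 2)) (j.succAbove e) (j.succAbove (e + 1)) P G r)
        (Wb71.mk W C ((sl j - sl (j.succAbove (e + 1))) * r)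
          (-dd (j.succAbove e) (j.succAbove (e + 1)))
          (fun z => star (fb ((sl j - sl (j.succAbove (e + 1))) * r +
            -dd (j.succAbove e) (j.succAbove (e + 1)) * z))) k) p ≤ k1 * len p

open Classical in
/-- **ONE STATIC WINDOW** -/
theorem window_core : ∃ K1 : ℝ, 0 ≤ K1 ∧ ∀ (j : Fin 4) (e : Fin 3),
    ∀ (k κ M σ θ k1 : ℝ), 0 < k → 0 < σ → σ ≤ 1 / 2 ^ 60 → 0 < θ → 0 ≤ k1 →
    ∀ (T : Fin 3 → Finset ℤ) (g : Fin 3 → ℤ → ℤ → ℂ), AtD κ M T g →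
    ∀ (P G : ℤ → ℂ) (I : Nd),
      (∀ y ∈ iv I, P y = atom j κ T (g 0) (g 1) (g 2) y) → (∀ y, ‖G y‖ ≤ σ ^ (-(2 / k))) →
    ∀ (WK : Finset Nd) (K : Nd), iv K ⊆ iv I → ∀ (n : ℕ) (u v : Fin n → ℤ → ℤ → ℂ) (d : Fin n → ℂ)
      (E X : ℤ → ℤ → ℤ → ℂ), PlDe j e κ M σ T g G WK K u v d E X →
    ∀ V' : Finset Nd, V' ⊆ WK →
      LabOK (j := j) (e := e) (κ := κ) (T := T) (g := g) v d (Sh j T (Z0 j e I)) V' θ →
    ∀ (W : Finset Nd) (J : Nd), Full W J → W ⊆ V' → ∀ F : Fin 4 → ℤ → ℂ, F j = P →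
      F (j.succAbove (e + 2)) = G →
      (∀ i, i ≠ j → i ≠ j.succAbove (e + 2) → ∀ p ∈ W, TRec.aq (2 + k) p (F i) ≤ 1) →
      (∀ p ∈ W, ∑ y ∈ iv p, ‖G y‖ ^ 2 ≤ len p) → HL j e P G W 7 k1 →
    ∀ bb : ℤ, (bb = -1 ∨ bb = -7) →
      ∃ Ka Kb : ℤ → ℤ → ℂ, (∀ T A, ∏ i, rs J F i (A - sl i * T) = Ka T A + Kb T A) ∧
        ∑ p ∈ W.filter (fun p => ¬ Bad W 7 p), ∑ x ∈ adm p.1 p.2, ‖LboxG (2 ^ p.1) bb Ka x‖ ≤
          K1 * √(k1 + 2 ^ 31 * M ^ 2 * σ ^ (1 / 5 : ℝ) + θ * (1 / σ * M)) * len J ∧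
        ∑ p ∈ W.filter (fun p => ¬ Bad W 7 p), ∑ x ∈ adm p.1 p.2, ‖LboxG (2 ^ p.1) bb Kb x‖ ≤
          K1 * (1 + 1 / k) * σ ^ (1 / 20 : ℝ) * M * len J := by
  obtain ⟨K2, hK2, hW2⟩ := error_words
  refine ⟨K2 + 96 * (16 * (2 * (7 + 2 + 1) + 1) + 1), by positivity, ?_⟩
  intro j e k κ M σ θ k1 hk hσ hσs hθ hk10 T g hg P G I hP hG WK K
    hKI n u v d E X hD V' hV' hlab W J hW hWV F hFj hF3 hF hG2 hL bb hbb
  have hσ1 : σ ≤ 1 := hσs.trans (by norm_num)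
  have hκ := hg.k0
  have hM := hg.M0
  have hV : 0 < M / κ := div_pos hM hκ
  have hWK : W ⊆ WK := hWV.trans hV'
  have hJK : iv J ⊆ iv K := hD.full.reg.1 J (hWK hW.top)
  have hJI : iv J ⊆ iv I := hJK.trans hKI
  have hpJ : ∀ p ∈ W, iv p ⊆ iv J := hW.reg.1
  have ha0 : j.succAbove e ≠ j.succAbove (e + 2) := (dst_j j e).2.2.2.1.symm
  have ha1 : j.succAbove (e + 1) ≠ j.succAbove (e + 2) := (dst_j j e).2.2.2.2.1.symm
  have haF0 : ∀ p ∈ W, TRec.aq (2 + k) p (F (j.succAbove e)) ≤ 1 :=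
    hF _ (Fin.succAbove_ne j e) ha0
  have haF1 : ∀ p ∈ W, TRec.aq (2 + k) p (F (j.succAbove (e + 1))) ≤ 1 :=
    hF _ (Fin.succAbove_ne j (e + 1)) ha1
  have hn : ∀ (A A' : Finset ℤ) (a : ℤ → ℤ → ℂ), κ * BAt112.n2 A A' a ≤ M →
      BAt112.n2 A A' a ≤ M / κ := fun A A' a h1 => by
    rw [le_div_iff₀ hκ, mul_comm]; exact h1
  have hE2W : E2T W (sl j - sl (j.succAbove (e + 2)))
      (sl (j.succAbove e) - sl (j.succAbove (e + 2)))
      (sl (j.succAbove (e + 1)) - sl (j.succAbove (e + 2))) (T e)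
      (T (e + 1)) (9 * σ ^ 3 * (M / κ)) E := fun p hp => hD.e2 p (hWK hp)
  have hXRW : XR W (sl j - sl (j.succAbove (e + 2)))
      (sl (j.succAbove e) - sl (j.succAbove (e + 2)))
      (sl (j.succAbove (e + 1)) - sl (j.succAbove (e + 2))) (T e)
      (T (e + 1)) (Cc (g e) G (sl j - sl (j.succAbove (e + 2)))
        (sl (j.succAbove e) - sl (j.succAbove (e + 2)))
        (sl (j.succAbove (e + 1)) - sl (j.succAbove (e + 2))))
      (M / κ) σ (σ ^ 3) (σ ^ 3) X := fun p hp => hD.xr p (hWK hp)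
  have hFj' : ∀ y ∈ iv J, F j y = atom j κ T (g 0) (g 1) (g 2) y := fun y hy => by
    rw [hFj]; exact hP y (hJI hy)
  refine ⟨Kme j e κ T g u v d (rs J F), Kbe j e κ T g u v d J F,
    split_kbe j e κ T g u v d J F, ?_, ?_⟩
  · -- main word
    have hrs : ∀ i y, ‖rs J F i y‖ ≤ ‖F i y‖ := by
      intro i y
      unfold rs
      split_ifs
      · exact le_rfl
      · simp
    have hr0 : ∀ p ∈ W, TRec.aq (2 + k) p (rs J F (j.succAbove e)) ≤ 1 := fun p hp =>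
      (BadN360.aq_mono (by linarith) fun y _ => hrs _ y).trans (haF0 p hp)
    have hr1 : ∀ p ∈ W, TRec.aq (2 + k) p (rs J F (j.succAbove (e + 1))) ≤ 1 := fun p hp =>
      (BadN360.aq_mono (by linarith) fun y _ => hrs _ y).trans (haF1 p hp)
    set kEE : ℝ := kE κ M (M / κ) (9 * σ ^ 3 * (M / κ)) (2 ^ 25 * σ ^ (2 / 5 : ℝ)) 1 with hkEE
    have hkE0 : 0 ≤ kEE := kE_nonneg hκ.le hM.le (by positivity) zero_le_one
    have hc0 : ∑ q ∈ T e ×ˢ T (e + 1), ‖g e q.1 q.2‖ ^ 2 ≤ M / κ := by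
      rw [Finset.sum_product]; exact hn _ _ _ (AtD.nn hg e)
    have hS4 : EW49.S4W W 0 (M / κ) (2 ^ 25 * σ ^ (2 / 5 : ℝ)) (sl j - sl (j.succAbove (e + 2)))
        (sl (j.succAbove e) - sl (j.succAbove (e + 2)))
        (sl (j.succAbove (e + 1)) - sl (j.succAbove (e + 2)))
        (T e) (T (e + 1)) X (fun _ => 1) := by
      obtain ⟨s0, s1, s2⟩ := sd j e
      exact s4w_of_XR' (M := M / κ) (c := g e) (F := G) s0 s1 s2 hσ hσ1
        (show (0 : ℝ) ≤ σ ^ 3 by positivity) le_rfl (le_refl (σ ^ 3)) hV.le le_rfl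
        (AtD.gg hg e) hc0 hG2 hXRW
    have main := main_word (e := e) hκ.le T g hM.le (show (0 : ℝ) ≤ 1 / σ by positivity)
      (AtD.nn2 hg e) u v d
      hD.hu hD.hd I hW hJI hWV hθ hlab (rs J F)
      (fun p hp => Leaf259.sum2_of_aq (by linarith) (hr0 p hp))
      (fun p hp => Leaf259.sum2_of_aq (by linarith) (hr1 p hp)) hbb 7 (by norm_num) P G hk10 hkE0
      (hL _ fun p hp => Leaf259.sum2_of_aq (by linarith) (hr1 p hp))
      (fun r hr m p hp => ?_) (W.filter (fun p => ¬ Bad W 7 p))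
      (Finset.filter_subset _ _) (fun p hp => (Finset.mem_filter.1 hp).2)
    · have e1 : 48 * (16 * (2 * (((7 : ℕ) : ℝ) + 2 + 1) + 1) + 1) *
          (2 * √(k1 + kEE + θ * (1 / σ * M))) * len J =
          96 * (16 * (2 * (7 + 2 + 1) + 1) + 1) * √(k1 + kEE + θ * (1 / σ * M)) * len J := by
        push_cast; ring
      refine main.trans (e1.le.trans ?_)
      have hl := Growth.len_pos J
      refine mul_le_mul_of_nonneg_right ?_ hl.le
      refine mul_le_mul (by linarith) (Real.sqrt_le_sqrt ?_) (Real.sqrt_nonneg _) (by positivity)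
      have := kE_le hκ hM hσ hσ1
      linarith
    · refine HErC702.herr_val j e T g hκ.le (AtD.gg hg (e + 2)) hM.le hV.le (by positivity)
        (by positivity) zero_le_one
        (AtD.nn1 hg e) (AtD.nn2 hg e) hW 7 le_rfl (r : ℤ) _ (rs J F (j.succAbove (e + 1)))
        (fun z => by rw [norm_star])
        (fun p hp => Leaf259.sum2_of_aq (by linarith) (hr1 p hp))
        hE2W hS4 _ ?_ m p hp
      intro z z' y1 y2 y3 y4
      have hr3 : r < 3 := hr.trans_le (dj_le j e)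
      refine er0_eq e hκ.le T g u v d E X P G I K hD.dec hr3 (hJI y1) (hJI y2) ?_ ?_
      · refine (congrArg (· ∈ iv K) ?_).mp (hJK y4)
        ring
      · refine hP _ (hJI ?_)
        exact y3
  · -- error words
    have h1 := kbe_sum j e hκ.le T g u v d E X hJK F hFj' (by rw [hF3]; exact hD.dec) hbb hpJ
      (Finset.filter_subset (fun p => ¬ Bad W 7 p) W)
    refine h1.trans ?_
    have h2 := hW2 bb hbb W J hW j e T g F G E X (M / κ) σ k hV hσ hσs hk (AtD.gg hg e)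
      (AtD.gg hg (e + 1)) (AtD.gg hg (e + 2))
      (hn _ _ _ (AtD.nn hg e)) (hn _ _ _ (AtD.nn1 hg e)) (hn _ _ _ (AtD.nn2 hg e)) haF0 haF1
      hG2 hG hE2W hD.hE hXRW
    rw [← mul_add]
    refine (mul_le_mul_of_nonneg_left h2 hκ.le).trans ?_
    have e1 : κ * (K2 * (1 + 1 / k) * σ ^ (1 / 20 : ℝ) * (M / κ) * len J) =
        K2 * ((1 + 1 / k) * σ ^ (1 / 20 : ℝ) * M * len J) := by field_simp
    rw [e1]
    have hl := Growth.len_pos J
    have h20 : 0 < σ ^ (1 / 20 : ℝ) := Real.rpow_pos_of_pos hσ _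
    have h3 : 0 ≤ (1 + 1 / k) * σ ^ (1 / 20 : ℝ) * M * len J := by positivity
    calc _ ≤ (K2 + 96 * (16 * (2 * (7 + 2 + 1) + 1) + 1)) *
          ((1 + 1 / k) * σ ^ (1 / 20 : ℝ) * M * len J) :=
          mul_le_mul_of_nonneg_right (by linarith) h3
      _ = _ := by ring

end Crest.Agent.R079.CoEx255
end

-- ▼ part R079/CoE3_255
section

/-! R079, Step II of `RuleNT` (helper255), EDGE-GENERIC version of helper256's `RuS3_256`: REGIONS
(windows of `plug2` and of the labels), dictionary-free. -/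

set_option autoImplicit false
set_option linter.unusedVariables false

namespace Crest.Agent.R079.CoEx255

open Finset Crest.Agent.R079.Grid Crest.Agent.R079.Growth Crest.Agent.R079.QRed
  Crest.Agent.R079.Glue Crest.Agent.R079.TWin Crest.Agent.R079.R244 Crest.Agent.R079.F24
  Crest.Agent.R079.XR112 Crest.Agent.R079.XS4x219 Crest.Agent.R079.EWG990
  Crest.Agent.R079.Cg408 Crest.Agent.R079.Tr230 Crest.Agent.R079.LK990 Crest.Agent.R079.MainEx255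
  Crest.Agent.R079.S2D530 Crest.Agent.R079.F2 Crest.Agent.R079.Ero526
open Crest.Agent.R079.RuS256 (AtD)

/-- the windows of `plug2` in the form `PlDe` -/
theorem plug_windows {j : Fin 4} (e : Fin 3) {κ M σ : ℝ} {T : Fin 3 → Finset ℤ}
    {g : Fin 3 → ℤ → ℤ → ℂ} (hg : AtD κ M T g) (hσ : 0 < σ) {R : Finset Nd} {I : Nd} (hR : Full R I)
    {G : ℤ → ℂ} (hG : ∀ p ∈ R, ∑ y ∈ iv p, ‖G y‖ ^ 2 ≤ len p) :
    ∃ (S : Finset Nd) (V : Nd → Finset Nd), Part R S V (2 + 16 / σ ^ 3) ∧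
      ∀ K ∈ S, ∃ (n : ℕ) (u v : Fin n → ℤ → ℤ → ℂ) (d : Fin n → ℂ) (E X : ℤ → ℤ → ℤ → ℂ),
        PlDe j e κ M σ T g G (V K) K u v d E X := by
  obtain ⟨s0, s1, s2⟩ := sd j e
  have hV : 0 < M / κ := div_pos hg.M0 hg.k0
  obtain ⟨S, V, hP, hS⟩ := Plug2700.plug2 hR s0 s1 s2 (T e) (T (e + 1)) (g e) G (M := M / κ) (A := 1)
    (V := M / κ) hV.le zero_le_one hV (by rw [mul_one]) (by
      rw [Finset.sum_product]
      have := AtD.nn hg e
      rw [le_div_iff₀ hg.k0, mul_comm]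
      exact this) (fun p hp => by rw [one_mul]; exact hG p hp) (σ := σ) (θ := σ ^ 3) (η := σ ^ 3) hσ
    (by positivity) (by positivity)
  refine ⟨S, V, hP, fun K hK => ?_⟩
  obtain ⟨n, u, v, d, E, X, h1, h2, h3, h4, h5, h6, h7⟩ := hS K hK
  exact ⟨n, u, v, d, E, X,
    { full := hP.full K hK, hu := h1, hv := h2, hd := h3, dec := h4, hE := h5, e2 := h6, xr := h7 }⟩

open Classical in
/-- **THE REGION**: windows of the labels inside the windows of `plug2` -/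
theorem region_core : ∃ K1 : ℝ, 0 ≤ K1 ∧ ∀ (j : Fin 4) (e : Fin 3),
    ∀ (k κ M σ θ k1 : ℝ), 0 < k → 0 < σ → σ ≤ 1 / 2 ^ 60 → 0 < θ → 0 ≤ k1 →
    ∀ (T : Fin 3 → Finset ℤ) (g : Fin 3 → ℤ → ℤ → ℂ), AtD κ M T g →
    ∀ (P G : ℤ → ℂ) (R : Finset Nd) (I : Nd), Full R I →
      (∀ y ∈ iv I, P y = atom j κ T (g 0) (g 1) (g 2) y) → (∀ y, ‖G y‖ ≤ σ ^ (-(2 / k))) →
      (∀ p ∈ R, ∑ y ∈ iv p, ‖G y‖ ^ 2 ≤ len p) →
      (∀ W J, Full W J → W ⊆ R → HL j e P G W 7 k1) →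
    ∃ (S : Finset Nd) (V : Nd → Finset Nd),
      Part R S V ((1 + 3 * (2 + 40 * (1 / σ * M) ^ 2 / θ ^ 2)) * (1 + (2 + 16 / σ ^ 3))) ∧
      ∀ K' ∈ S, ∀ (W : Finset Nd) (J : Nd), Full W J → W ⊆ V K' → ∀ F : Fin 4 → ℤ → ℂ, F j = P →
        F (j.succAbove (e + 2)) = G →
        (∀ i, i ≠ j → i ≠ j.succAbove (e + 2) → ∀ p ∈ W, TRec.aq (2 + k) p (F i) ≤ 1) →
        ∀ bb : ℤ, (bb = -1 ∨ bb = -7) →
        ∃ Ka Kb : ℤ → ℤ → ℂ, (∀ T A, ∏ i, rs J F i (A - sl i * T) = Ka T A + Kb T A) ∧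
          ∑ p ∈ W.filter (fun p => ¬ Bad W 7 p), ∑ x ∈ adm p.1 p.2, ‖LboxG (2 ^ p.1) bb Ka x‖ ≤
            K1 * √(k1 + 2 ^ 31 * M ^ 2 * σ ^ (1 / 5 : ℝ) + θ * (1 / σ * M)) * len J ∧
          ∑ p ∈ W.filter (fun p => ¬ Bad W 7 p), ∑ x ∈ adm p.1 p.2, ‖LboxG (2 ^ p.1) bb Kb x‖ ≤
            K1 * (1 + 1 / k) * σ ^ (1 / 20 : ℝ) * M * len J := by
  obtain ⟨K1, hK1, hw⟩ := window_core
  refine ⟨K1, hK1, ?_⟩
  intro j e k κ M σ θ k1 hk hσ hσs hθ hk1 T g hg P G R I hR hP hG hG2 hL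
  obtain ⟨S0, V0, hP0, hS0⟩ := plug_windows (j := j) e hg hσ hR hG2
  have hex : ∀ K : Nd, ∃ (n : ℕ) (u v : Fin n → ℤ → ℤ → ℂ) (d : Fin n → ℂ)
      (E X : ℤ → ℤ → ℤ → ℂ), K ∈ S0 → PlDe j e κ M σ T g G (V0 K) K u v d E X := by
    intro K
    by_cases hK : K ∈ S0
    · obtain ⟨n, u, v, d, E, X, h1⟩ := hS0 K hK
      exact ⟨n, u, v, d, E, X, fun _ => h1⟩
    · exact ⟨0, fun _ _ _ => 0, fun _ _ _ => 0, fun _ => 0, fun _ _ _ => 0, fun _ _ _ => 0,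
        fun h => absurd h hK⟩
  choose n u v d E X hD using hex
  obtain ⟨S, V, hPt, hSV⟩ := main_windows hR j e hg.k0.le T g hg.M0.le (AtD.nn1 hg e) hP0 I n v d
    (D := 1 / σ) (fun K hK => (hD K hK).hv) (fun K hK => (hD K hK).hd) hθ
  refine ⟨S, V, hPt, ?_⟩
  intro K' hK' W J hW hWV F hFj hF3 hF bb hbb
  obtain ⟨K, hK, hK'K, hVK, hlab⟩ := hSV K' hK'
  have hWR : ∀ p ∈ W, p ∈ R := fun p hp => hP0.wsub K hK (hVK (hWV hp))
  exact hw j e k κ M σ θ k1 hk hσ hσs hθ hk1 T g hg P G I hP hG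
    (V0 K) K (hR.reg.1 K (hP0.sub hK)) (n K) (u K) (v K) (d K) (E K) (X K) (hD K hK) (V K') hVK hlab
    W J hW hWV F hFj hF3 hF (fun p hp => hG2 p (hWR p hp)) (hL W J hW hWR) bb hbb

end Crest.Agent.R079.CoEx255
end

-- ▼ part R079/CoE4_255
section

/-! R079, Step II of `RuleNT` (helper255): DICTIONARY-FREE STATIC RULE for the two-sided scheme.

Frozen slot `i` (mixture of bounded atoms of mass `A1 t^(-C1)`, local `L²` norms `≤ A3 t^(-cl)`), killer slot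
`m ≠ i` with the non-collision property `NCol W R (A2 t^gm) (A2 t^dx)`, two further letters in local
`L^(2+k)`.  `NodeB` = literal of the bad nodes (helper254). -/

set_option autoImplicit false
set_option linter.unusedVariables false

namespace Crest.Agent.R079.CoEx255

open Finset Crest.Agent.R079.Grid Crest.Agent.R079.Growth Crest.Agent.R079.QRed
  Crest.Agent.R079.Glue Crest.Agent.R079.TWin Crest.Agent.R079.TRec Crest.Agent.R079.BadN360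
  Crest.Agent.R079.BAt112 Crest.Agent.R079.NC237 Crest.Agent.R079.Ero526
open Crest.Agent.R079.RuS256 (AtD)

/-! ### heights of bounded atoms -/




/-! ### the low part keeps the non-collision property -/

theorem lo_eq_sub (H : ℝ) (G : Fn) (y : ℤ) : lo H G y = G y - hi H G y := by
  rw [lo_add_hi H G y]; ring

/-- shifted energies -/
theorem shift_le {p p' : Nd} (hl : p'.1 = p.1) (h : ℤ) {f : Fn} {A : ℝ}
    (hf : ∑ y ∈ iv p', ‖f y‖ ^ 2 ≤ A * len p') :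
    ∑ y ∈ (iv p).filter (fun y => y + h ∈ iv p'), ‖f (y + h)‖ ^ 2 ≤ A * len p := by
  have e : len p = len p' := by unfold len; rw [hl]
  rw [e]
  refine le_trans ?_ hf
  have h1 : ∑ y ∈ (iv p).filter (fun y => y + h ∈ iv p'), ‖f (y + h)‖ ^ 2 =
      ∑ y ∈ ((iv p).filter (fun y => y + h ∈ iv p')).image (fun y => y + h), ‖f y‖ ^ 2 := by
    rw [Finset.sum_image fun a _ b _ hab => by simpa using hab]
  rw [h1]
  refine Finset.sum_le_sum_of_subset_of_nonneg (fun x hx => ?_) fun _ _ _ => by positivity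
  obtain ⟨y, hy, rfl⟩ := Finset.mem_image.1 hx
  exact (Finset.mem_filter.1 hy).2

theorem ncol_lo {W : Finset Nd} {R : Fn} {g dl H η : ℝ} (hη : 0 ≤ η) (h : NCol W R g dl)
    (hR : ∀ p ∈ W, ∑ y ∈ iv p, ‖R y‖ ^ 2 ≤ len p)
    (hh : ∀ p ∈ W, ∑ y ∈ iv p, ‖hi H R y‖ ^ 2 ≤ η ^ 2 * len p) :
    NCol W (lo H R) (g + 2 * η) dl := by
  intro p hp p' hp' hl
  obtain ⟨Bd, h1, h2⟩ := h p hp p' hp' hl
  refine ⟨Bd, h1, fun h0 hh0 ξ => ?_⟩
  set S : Finset ℤ := (iv p).filter (fun y => y + h0 ∈ iv p') with hS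
  have hlp : 0 < len p := Growth.len_pos p
  have e : ∑ y ∈ S, lo H R y * (starRingEnd ℂ) (lo H R (y + h0)) * Cell37.ee (ξ * (y : ℝ)) =
      ∑ y ∈ S, R y * (starRingEnd ℂ) (R (y + h0)) * Cell37.ee (ξ * (y : ℝ)) -
      ∑ y ∈ S, hi H R y * (starRingEnd ℂ) (R (y + h0)) * Cell37.ee (ξ * (y : ℝ)) -
      ∑ y ∈ S, lo H R y * (starRingEnd ℂ) (hi H R (y + h0)) * Cell37.ee (ξ * (y : ℝ)) := by
    rw [← Finset.sum_sub_distrib, ← Finset.sum_sub_distrib]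
    refine Finset.sum_congr rfl fun y _ => ?_
    rw [lo_eq_sub H R (y + h0), lo_eq_sub H R y, map_sub]
    ring
  -- Cauchy-Schwarz
  have cs : ∀ (u v : ℤ → ℂ), (∑ y ∈ S, ‖u y‖ ^ 2) * (∑ y ∈ S, ‖v (y + h0)‖ ^ 2) ≤
      (η * len p) ^ 2 → ‖∑ y ∈ S, u y * (starRingEnd ℂ) (v (y + h0)) *
        Cell37.ee (ξ * (y : ℝ))‖ ≤ η * len p := by
    intro u v huv
    have h3 : ‖∑ y ∈ S, u y * (starRingEnd ℂ) (v (y + h0)) * Cell37.ee (ξ * (y : ℝ))‖ ≤
        ∑ y ∈ S, ‖u y‖ * ‖v (y + h0)‖ := by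
      refine (norm_sum_le _ _).trans (Finset.sum_le_sum fun y _ => ?_)
      rw [norm_mul, norm_mul, Cell37.norm_ee, mul_one, RCLike.norm_conj]
    have h4 := Finset.sum_mul_sq_le_sq_mul_sq S (fun y => ‖u y‖) (fun y => ‖v (y + h0)‖)
    have h5 : (∑ y ∈ S, ‖u y‖ * ‖v (y + h0)‖) ^ 2 ≤ (η * len p) ^ 2 := h4.trans huv
    exact h3.trans (abs_le_of_sq_le_sq' h5 (by positivity)).2
  have hSs : S ⊆ iv p := Finset.filter_subset _ _
  have sub : ∀ (u : ℤ → ℂ) (A : ℝ), ∑ y ∈ iv p, ‖u y‖ ^ 2 ≤ A → ∑ y ∈ S, ‖u y‖ ^ 2 ≤ A :=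
    fun u A hA => (Finset.sum_le_sum_of_subset_of_nonneg hSs fun _ _ _ => by positivity).trans hA
  have lo1 : ∑ y ∈ iv p, ‖lo H R y‖ ^ 2 ≤ len p :=
    (Finset.sum_le_sum fun y _ => pow_le_pow_left₀ (norm_nonneg _) (norm_lo_le' H R y) 2).trans
      (hR p hp)
  have t1 : ‖∑ y ∈ S, hi H R y * (starRingEnd ℂ) (R (y + h0)) * Cell37.ee (ξ * (y : ℝ))‖ ≤
      η * len p := by
    refine cs _ _ ?_
    have a1 := sub _ _ (hh p hp)
    have a2 := shift_le (A := 1) hl h0 (f := R) (by rw [one_mul]; exact hR p' hp')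
    rw [← hS] at a2
    calc _ ≤ (η ^ 2 * len p) * (1 * len p) := mul_le_mul a1 a2
          (Finset.sum_nonneg fun _ _ => by positivity) (by positivity)
      _ = _ := by ring
  have t2 : ‖∑ y ∈ S, lo H R y * (starRingEnd ℂ) (hi H R (y + h0)) * Cell37.ee (ξ * (y : ℝ))‖ ≤
      η * len p := by
    refine cs _ _ ?_
    have a1 := sub _ _ lo1
    have a2 := shift_le (A := η ^ 2) hl h0 (f := hi H R) (hh p' hp')
    rw [← hS] at a2
    calc _ ≤ len p * (η ^ 2 * len p) := mul_le_mul a1 a2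
          (Finset.sum_nonneg fun _ _ => by positivity) hlp.le
      _ = _ := by ring
  have t0 := h2 h0 hh0 ξ
  rw [e]
  calc _ ≤ ‖∑ y ∈ S, R y * (starRingEnd ℂ) (R (y + h0)) * Cell37.ee (ξ * (y : ℝ))‖ +
        ‖∑ y ∈ S, hi H R y * (starRingEnd ℂ) (R (y + h0)) * Cell37.ee (ξ * (y : ℝ))‖ +
        ‖∑ y ∈ S, lo H R y * (starRingEnd ℂ) (hi H R (y + h0)) * Cell37.ee (ξ * (y : ℝ))‖ :=
        (norm_sub_le _ _).trans (add_le_add (norm_sub_le _ _) le_rfl)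
    _ ≤ g * len p + η * len p + η * len p := add_le_add (add_le_add t0 t1) t2
    _ = _ := by ring

end Crest.Agent.R079.CoEx255
end

-- ▼ part R079/CoE5_255
section

/-! R079, Step II of `RuleNT` (helper255): **DICTIONARY-FREE STATIC RULE** of the two-sided scheme.

`stat_core`: frozen slot `i` (mixture of bounded atoms of mass `A1 t^(-C1)`, local `L²` norms
`≤ A3 t^(-cl)`), killer slot `m ≠ i` with `NCol W R (A2 t^gm) (A2 t^dx)` and `aq (2+k) ≤ 1`: windows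
(`Part W S V (K t^(-CS))`) such that on every full window `W' ⊆ V K'`, with any two letters of local
`L^(2+k)` norms `≤ 1` in the other slots, `‖TR bb ε W' F‖ ≤ K t^cS len J`.
Conditions: `2 cS ≤ gm - 2 cl`, `2 cS ≤ dx - 2 C1`. -/

set_option autoImplicit false
set_option linter.unusedVariables false

namespace Crest.Agent.R079.CoEx255

open Finset Crest.Agent.R079.Grid Crest.Agent.R079.Growth Crest.Agent.R079.QRed
  Crest.Agent.R079.Glue Crest.Agent.R079.TWin Crest.Agent.R079.TRec Crest.Agent.R079.BadN360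
  Crest.Agent.R079.BAt112 Crest.Agent.R079.NC237 Crest.Agent.R079.Ero526 Crest.Agent.R079.F24
  Crest.Agent.R079.LK990 Crest.Agent.R079.LfK71
open Crest.Agent.R079.RuS256 (AtD)
open Crest.Agent.R079.F2 (dd)

/-- the edge of a pair of slots -/
theorem exists_edge (i m : Fin 4) (h : i ≠ m) : ∃ e : Fin 3, i.succAbove (e + 2) = m := by
  revert i m; decide

/-- exponent of the number of windows -/
noncomputable def cnE (C1 gm cS : ℝ) : ℝ := 7 * (gm + 20 * (C1 + cS)) + 4 * C1 + 4 * cS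


/-- **TALL WORDS OF THE SLOT `m`** next to a frozen letter of the slot `i` -/
theorem tall_slot : ∃ K : ℝ, 0 ≤ K ∧ ∀ bb, (bb = -1 ∨ bb = -7) → ∀ R J, IsRegion R J →
    ∀ (F : Fin 4 → Fn) (i m : Fin 4), i ≠ m → ∀ M η : ℝ, 0 ≤ η →
      (∀ j, j ≠ i → j ≠ m → ∀ p ∈ R, av p (F j) ≤ 1) → (∀ p ∈ R, av p (F m) ≤ η) →
      Rep i J (F i) M →
      ∑ p ∈ R, ∑ x ∈ adm p.1 p.2, ‖Lbox (2 ^ p.1) bb F x‖ ≤ K * M * η * len J := by
  obtain ⟨K, hK, hq⟩ := abs_qb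
  refine ⟨K, hK, ?_⟩
  intro bb hbb R J hR F i m him M η hη hF hm hrep
  -- sizes: `i` is not used by `abs_qb` except through a finite bound
  obtain ⟨A0, hA0, hA⟩ : ∃ A0 : ℝ, 0 ≤ A0 ∧ ∀ p ∈ R, av p (F i) ≤ A0 := by
    refine ⟨∑ p ∈ R, av p (F i), Finset.sum_nonneg fun p _ => Real.sqrt_nonneg _, fun p hp => ?_⟩
    exact Finset.single_le_sum (f := fun p => av p (F i)) (fun p _ => Real.sqrt_nonneg _) hp
  have h := hq bb hbb R J hR F (fun j => if j = i then A0 else if j = m then η else 1)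
    (fun j => by split_ifs <;> first | exact hA0 | exact hη | norm_num)
    (fun j p hp => by
      split_ifs with h1 h2
      · subst h1; exact hA p hp
      · subst h2; exact hm p hp
      · exact hF j h1 h2 p hp) i M hrep
  refine h.trans (le_of_eq ?_)
  have : (∏ j : Fin 3, (if i.succAbove j = i then A0 else
      if i.succAbove j = m then η else (1 : ℝ))) = η := by
    have e1 : ∀ j : Fin 3, (if i.succAbove j = i then A0 else
      if i.succAbove j = m then η else (1 : ℝ)) = if i.succAbove j = m then η else (1 : ℝ) := by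
      intro j; rw [if_neg (Fin.succAbove_ne i j)]
    rw [Finset.prod_congr rfl fun j _ => e1 j]
    obtain ⟨j0, hj0⟩ := Fin.exists_succAbove_eq him.symm
    rw [← hj0]
    rw [Finset.prod_eq_single j0]
    · rw [if_pos rfl]
    · intro b _ hb
      rw [if_neg (fun hc => hb (Fin.succAbove_right_injective hc))]
    · intro hc; exact absurd (Finset.mem_univ _) hc
  rw [this]

/-- numbers of the leaf values / node values -/
theorem num_k1 {t C1 cl gm dx cS A1 A2 A3 b : ℝ} (ht : 0 < t) (ht1 : t ≤ 1)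
    (hA2 : 0 ≤ A2) (h1 : 2 * cS ≤ gm - 2 * cl) (h2 : 2 * cS ≤ dx - 2 * C1) (hb : gm ≤ b) :
    (A2 * t ^ gm + 2 * t ^ b) * (A3 * t ^ (-cl)) ^ 2 + A2 * t ^ dx * (A1 * t ^ (-C1)) ^ 2 ≤
      ((A2 + 2) * A3 ^ 2 + A2 * A1 ^ 2) * t ^ (2 * cS) := by
  have e1 : (A3 * t ^ (-cl)) ^ 2 = A3 ^ 2 * t ^ (-(2 * cl)) := by
    rw [mul_pow, ← Real.rpow_natCast (t ^ _), ← Real.rpow_mul ht.le]
    congr 2
    push_cast
    ring
  have e2 : (A1 * t ^ (-C1)) ^ 2 = A1 ^ 2 * t ^ (-(2 * C1)) := by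
    rw [mul_pow, ← Real.rpow_natCast (t ^ _), ← Real.rpow_mul ht.le]
    congr 2
    push_cast
    ring
  have f0 : t ^ b ≤ t ^ gm := Real.rpow_le_rpow_of_exponent_ge ht ht1 hb
  have f1 : t ^ gm * t ^ (-(2 * cl)) ≤ t ^ (2 * cS) := by
    rw [← Real.rpow_add ht]
    exact Real.rpow_le_rpow_of_exponent_ge ht ht1 (by linarith)
  have f2 : t ^ dx * t ^ (-(2 * C1)) ≤ t ^ (2 * cS) := by
    rw [← Real.rpow_add ht]
    exact Real.rpow_le_rpow_of_exponent_ge ht ht1 (by linarith)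
  rw [e1, e2]
  have g0 : 0 ≤ t ^ (-(2 * cl)) := Real.rpow_nonneg ht.le _
  have g1 : (A2 * t ^ gm + 2 * t ^ b) * (A3 ^ 2 * t ^ (-(2 * cl))) ≤
      ((A2 + 2) * A3 ^ 2) * t ^ (2 * cS) := by
    calc (A2 * t ^ gm + 2 * t ^ b) * (A3 ^ 2 * t ^ (-(2 * cl)))
        ≤ (A2 * t ^ gm + 2 * t ^ gm) * (A3 ^ 2 * t ^ (-(2 * cl))) :=
          mul_le_mul_of_nonneg_right (by linarith) (by positivity)
      _ = ((A2 + 2) * A3 ^ 2) * (t ^ gm * t ^ (-(2 * cl))) := by ring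
      _ ≤ _ := mul_le_mul_of_nonneg_left f1 (by positivity)
  have g2 : A2 * t ^ dx * (A1 ^ 2 * t ^ (-(2 * C1))) ≤ (A2 * A1 ^ 2) * t ^ (2 * cS) := by
    calc A2 * t ^ dx * (A1 ^ 2 * t ^ (-(2 * C1))) = (A2 * A1 ^ 2) * (t ^ dx * t ^ (-(2 * C1))) := by
          ring
      _ ≤ _ := mul_le_mul_of_nonneg_left f2 (by positivity)
  calc _ ≤ ((A2 + 2) * A3 ^ 2) * t ^ (2 * cS) + (A2 * A1 ^ 2) * t ^ (2 * cS) := add_le_add g1 g2
    _ = _ := by ring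

theorem sqrt_num {Q t cS x : ℝ} (ht : 0 < t) (hQ : 0 ≤ Q) (hx : x ≤ Q * t ^ (2 * cS)) :
    √x ≤ √Q * t ^ cS := by
  refine (Real.sqrt_le_sqrt hx).trans (le_of_eq ?_)
  rw [Real.sqrt_mul hQ]
  congr 1
  have htc : 0 < t ^ cS := Real.rpow_pos_of_pos ht _
  have : t ^ (2 * cS) = (t ^ cS) ^ 2 := by
    rw [← Real.rpow_natCast, ← Real.rpow_mul ht.le]
    congr 1
    push_cast
    ring
  rw [this, Real.sqrt_sq htc.le]

theorem num_main {t C1 cS A1 b : ℝ} (ht : 0 < t) (ht1 : t ≤ 1) (hA1 : 0 ≤ A1)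
    (hb : 10 * (C1 + cS) ≤ b) :
    2 ^ 31 * ((A1 + 1) * t ^ (-C1)) ^ 2 * (t ^ b) ^ (1 / 5 : ℝ) +
      t ^ (b + C1 + 2 * cS) * (1 / t ^ b * ((A1 + 1) * t ^ (-C1))) ≤
      (2 ^ 31 * (A1 + 1) ^ 2 + (A1 + 1)) * t ^ (2 * cS) := by
  have e2 : ((A1 + 1) * t ^ (-C1)) ^ 2 = (A1 + 1) ^ 2 * t ^ (-(2 * C1)) := by
    rw [mul_pow, ← Real.rpow_natCast (t ^ _), ← Real.rpow_mul ht.le]
    congr 2
    push_cast
    ring
  have e3 : (t ^ b) ^ (1 / 5 : ℝ) = t ^ (b / 5) := by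
    rw [← Real.rpow_mul ht.le]
    congr 1
    ring
  have f1 : t ^ (-(2 * C1)) * t ^ (b / 5) ≤ t ^ (2 * cS) := by
    rw [← Real.rpow_add ht]
    exact Real.rpow_le_rpow_of_exponent_ge ht ht1 (by linarith)
  have f2 : t ^ (b + C1 + 2 * cS) * (1 / t ^ b * ((A1 + 1) * t ^ (-C1))) =
      (A1 + 1) * t ^ (2 * cS) := by
    rw [one_div, ← Real.rpow_neg ht.le]
    have : t ^ (b + C1 + 2 * cS) * (t ^ (-b) * ((A1 + 1) * t ^ (-C1))) =
        (A1 + 1) * (t ^ (b + C1 + 2 * cS) * t ^ (-b) * t ^ (-C1)) := by ring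
    rw [this, ← Real.rpow_add ht, ← Real.rpow_add ht]
    congr 2
    ring
  rw [e2, e3, f2]
  have g1 : 2 ^ 31 * ((A1 + 1) ^ 2 * t ^ (-(2 * C1))) * t ^ (b / 5) ≤
      2 ^ 31 * (A1 + 1) ^ 2 * t ^ (2 * cS) := by
    calc _ = 2 ^ 31 * (A1 + 1) ^ 2 * (t ^ (-(2 * C1)) * t ^ (b / 5)) := by ring
      _ ≤ _ := mul_le_mul_of_nonneg_left f1 (by positivity)
  calc _ ≤ 2 ^ 31 * (A1 + 1) ^ 2 * t ^ (2 * cS) + (A1 + 1) * t ^ (2 * cS) := add_le_add g1 le_rfl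
    _ = _ := by ring

/-- splitting one slot of `TR` -/
theorem TR_split (bb : ℤ) (ε : ℕ → ℤ → ℂ) (W : Finset Nd) (F : Fin 4 → Fn) (m : Fin 4) (H : ℝ) :
    TR bb ε W F = TR bb ε W (Function.update F m (lo H (F m))) +
      TR bb ε W (Function.update F m (hi H (F m))) := by
  unfold TR TI
  rw [← Finset.sum_add_distrib]
  refine Finset.sum_congr rfl fun p _ => ?_
  rw [← Finset.sum_add_distrib]
  refine Finset.sum_congr rfl fun x _ => ?_
  rw [← mul_add]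
  congr 1
  rw [← Lbox_upd_add]
  congr 1
  funext j
  by_cases hj : j = m
  · subst hj
    rw [Function.update_self]
    funext y
    exact lo_add_hi H (F j) y
  · rw [Function.update_of_ne hj]

set_option maxHeartbeats 2000000 in
open Classical in
/-- **THE STATIC RULE, dictionary-free** (height `A4 t^(-h1)` of the frozen letter separate from its mass
`A1 t^(-C1)`) -/
theorem stat_coreH {C1 hh cl gm dx cS : ℝ} (hC1 : 0 ≤ C1) (hcS : 0 < cS) (hgm : 0 ≤ gm)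
    (h1 : 2 * cS ≤ gm - 2 * cl) (h2 : 2 * cS ≤ dx - 2 * hh)
    {k A1 A2 A3 A4 : ℝ} (hk : 0 < k) (hA1 : 0 ≤ A1) (hA2 : 0 ≤ A2) (hA3 : 0 ≤ A3) (hA4 : 0 ≤ A4) :
    ∃ t0 K : ℝ, 0 < t0 ∧ t0 ≤ 1 ∧ 0 ≤ K ∧ ∀ t, 0 < t → t ≤ t0 → ∀ (W : Finset Nd) (I : Nd),
      Full W I → ∀ i m : Fin 4, i ≠ m → ∀ P R : Fn, RepB i I P (A1 * t ^ (-C1)) →
      (∀ y ∈ iv I, ‖P y‖ ≤ A4 * t ^ (-hh)) →
      (∀ p ∈ W, av p P ≤ A3 * t ^ (-cl)) → (∀ p ∈ W, aq (2 + k) p R ≤ 1) →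
      NCol W R (A2 * t ^ gm) (A2 * t ^ dx) →
      ∃ (S : Finset Nd) (V : Nd → Finset Nd), Part W S V (K * t ^ (-cnE C1 gm cS)) ∧
        ∀ K' ∈ S, ∀ W' J, Full W' J → W' ⊆ V K' → ∀ F : Fin 4 → Fn, F i = P → F m = R →
          (∀ j, j ≠ i → j ≠ m → ∀ p ∈ W', aq (2 + k) p (F j) ≤ 1) →
          ∀ bb ε, Adm bb ε → ‖TR bb ε W' F‖ ≤ K * t ^ cS * len J := by
  obtain ⟨K1, hK1, hreg⟩ := region_core
  obtain ⟨K2, hK2, htall⟩ := tall_slot
  set b : ℝ := gm + 20 * (C1 + cS) with hb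
  have hCc : 0 ≤ C1 + cS := by linarith
  have hb0 : 0 < b := by rw [hb]; positivity
  have hb1 : gm ≤ b := by rw [hb]; linarith
  have hb2 : 10 * (C1 + cS) ≤ b := by rw [hb]; linarith
  have hb3 : C1 + cS ≤ b / 20 := by rw [hb]; linarith
  have hb4 : cS ≤ -C1 + b := by rw [hb]; linarith
  set Q1 : ℝ := (A2 + 2) * A3 ^ 2 + A2 * A4 ^ 2 with hQ1
  have hQ10 : 0 ≤ Q1 := by positivity
  set Q0 : ℝ := 2 ^ 28 * Q1 + (2 ^ 31 * (A1 + 1) ^ 2 + (A1 + 1)) with hQ0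
  have hQ00 : 0 ≤ Q0 := by positivity
  set K0 : ℝ := K1 * √Q0 + K1 * (1 + 1 / k) * (A1 + 1) +
    16 * (2 * ((7 : ℕ) + 1) + 1) * (2 ^ 12 * √(3 * Q1)) + K2 * A1 with hK0d
  have hK0 : 0 ≤ K0 := by positivity
  set K : ℝ := K0 + (7 + 120 * (A1 + 1) ^ 2) * 19 with hK
  have hKn : 0 ≤ K := by positivity
  refine ⟨min 1 ((1 / 2 ^ 60 : ℝ) ^ (1 / b)), K, lt_min one_pos (Real.rpow_pos_of_pos (by norm_num) _),
    min_le_left _ _, hKn, ?_⟩
  intro t ht htt W I hW i m him P R hrep hPH haP haR hNC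
  have ht1 : t ≤ 1 := htt.trans (min_le_left _ _)
  obtain ⟨e, rfl⟩ := exists_edge i m him
  have hσs : t ^ b ≤ 1 / 2 ^ 60 := by
    have h1 : t ≤ (1 / 2 ^ 60 : ℝ) ^ (1 / b) := htt.trans (min_le_right _ _)
    calc t ^ b ≤ ((1 / 2 ^ 60 : ℝ) ^ (1 / b)) ^ b := Real.rpow_le_rpow ht.le h1 hb0.le
      _ = 1 / 2 ^ 60 := by
          rw [← Real.rpow_mul (by norm_num), one_div_mul_cancel hb0.ne', Real.rpow_one]
  have htC : 0 < t ^ (-C1) := Real.rpow_pos_of_pos ht _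
  have htC1 : 1 ≤ t ^ (-C1) := RuS256.one_le_neg ht ht1 hC1
  obtain ⟨κ, hκ, hκ1, f, hf, hPf⟩ := one_atom hrep
  set M : ℝ := (A1 + 1) * t ^ (-C1) with hM
  have hM0 : 0 < M := by positivity
  have hf' : BA i κ M f := hf.mono (by rw [hM]; linarith)
  obtain ⟨T, a, b', c', hBA⟩ := hf'
  have hσ : 0 < t ^ b := Real.rpow_pos_of_pos ht _
  have hθ : 0 < t ^ (b + C1 + 2 * cS) := Real.rpow_pos_of_pos ht _
  -- the low letter
  set H : ℝ := (t ^ b) ^ (-(2 / k)) with hH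
  have hH0 : 0 < H := Real.rpow_pos_of_pos hσ _
  set G : Fn := lo H R with hG
  have haG : ∀ p ∈ W, aq (2 + k) p G ≤ 1 := fun p hp =>
    (aq_lo (by linarith) H p R).trans (haR p hp)
  have s2 : ∀ p : Nd, ∀ u : Fn, aq (2 + k) p u ≤ 1 → ∑ y ∈ iv p, ‖u y‖ ^ 2 ≤ len p := by
    intro p u hu
    have h3 := Leaf259.sum2_of_av ((TWL649.av_le_aq (by linarith) p u).trans hu)
    rwa [one_pow, one_mul] at h3
  have hhi : ∀ p ∈ W, ∑ y ∈ iv p, ‖hi H R y‖ ^ 2 ≤ (t ^ b) ^ 2 * len p := by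
    intro p hp
    have h3 := RuS256.tall_energy hk hσ (haR p hp)
    rw [RuS256.tl_eq_hi, ← hH] at h3
    exact h3
  have hNG : NCol W G (A2 * t ^ gm + 2 * t ^ b) (A2 * t ^ dx) :=
    ncol_lo hσ.le hNC (fun p hp => s2 p R (haR p hp)) hhi
  have hth : 0 ≤ t ^ (-hh) := Real.rpow_nonneg ht.le _
  have hP2 : ∀ p ∈ W, ∑ y ∈ iv p, ‖P y‖ ^ 2 ≤ (A3 * t ^ (-cl)) ^ 2 * len p := fun p hp =>
    Leaf259.sum2_of_av (haP p hp)
  have hg0 : 0 ≤ A2 * t ^ gm + 2 * t ^ b := by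
    have := Real.rpow_nonneg ht.le gm
    positivity
  have hd0 : 0 ≤ A2 * t ^ dx := mul_nonneg hA2 (Real.rpow_nonneg ht.le _)
  have hk1 := num_k1 (C1 := hh) (A1 := A4) (cl := cl) (A3 := A3) (b := b) ht ht1 hA2 h1 h2 hb1
  set X1 : ℝ := (A2 * t ^ gm + 2 * t ^ b) * (A3 * t ^ (-cl)) ^ 2 +
    A2 * t ^ dx * (A4 * t ^ (-hh)) ^ 2 with hX1
  have hX10 : 0 ≤ X1 := by positivity
  -- leaf values
  have hHL : ∀ W' J, Full W' J → W' ⊆ W → HL i e P G W' 7 (2 ^ 28 * X1) := by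
    intro W' J hW' hsub fb hfb r hr n p hp
    have h3 := HLfx254.hleaf_nc (MainEx255.dst_j i e) 7 le_rfl (r : ℤ)
      (fun z => star (fb ((sl i - sl (i.succAbove (e + 1))) * r +
            -dd (i.succAbove e) (i.succAbove (e + 1)) * z))) fb
      (fun z => by rw [norm_star]) (P := P) (R := G) (AF := 1) (AP := (A3 * t ^ (-cl)) ^ 2)
      (AR := 1) (H := A4 * t ^ (-hh)) (g := A2 * t ^ gm + 2 * t ^ b) (δ := A2 * t ^ dx)
      zero_le_one (by positivity) zero_le_one (by positivity) hg0 hd0 hfb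
      (fun p hp => hP2 p (hsub hp))
      (fun p hp y hy => hPH y (hW.reg.1 p (hsub hp) hy))
      (fun p hp => by rw [one_mul]; exact s2 p G (haG p (hsub hp)))
      (fun p hp p' hp' hl => nc2_of_ncol hNG (hsub hp) (hsub hp') hl) n p hp
    refine h3.trans (le_of_eq ?_)
    rw [hX1]; ring
  obtain ⟨S, V, hPt, hS⟩ := hreg i e k κ M (t ^ b) (t ^ (b + C1 + 2 * cS)) (2 ^ 28 * X1) hk hσ hσs
    hθ (by positivity) T ![a, b', c']
    { k0 := hκ, M0 := hM0, g0 := hBA.ha, g1 := hBA.hb, g2 := hBA.hc, n0 := hBA.na, n1 := hBA.nb,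
      n2 := hBA.nc } P G W I hW
    (fun y hy => by rw [hPf y hy, hBA.eq y]; rfl) (fun y => norm_lo_le hH0.le R y)
    (fun p hp => s2 p G (haG p hp)) hHL
  have htS : 0 < t ^ (-cnE C1 gm cS) := Real.rpow_pos_of_pos ht _
  refine ⟨S, V, WinA222.part_mono hPt ?_, ?_⟩
  · have h3 := RuS256.num_cnt (C := C1 / 2) (A := A1) (b := b) (t := t) (c := cS) hA1
      (by positivity) hb0.le hcS.le ht ht1
    rw [show 2 * (C1 / 2) = C1 by ring] at h3
    have e3 : -(7 * b + 8 * (C1 / 2) + 4 * cS) = -cnE C1 gm cS := by unfold cnE; rw [← hb]; ring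
    rw [e3] at h3
    refine h3.trans (mul_le_mul_of_nonneg_right ?_ htS.le)
    rw [hK]; linarith
  · intro K' hK' W' J hW' hsub F hFi hFm hF bb ε hε
    have hl := Growth.len_pos J
    have htc : 0 < t ^ cS := Real.rpow_pos_of_pos ht _
    have hWsub : ∀ p ∈ W', p ∈ W := fun p hp => hPt.wsub K' hK' (hsub hp)
    have hJI : iv J ⊆ iv I := hW.reg.1 J (hWsub J hW'.top)
    have hmi : i.succAbove (e + 2) ≠ i := Fin.succAbove_ne i (e + 2)
    have him' : i ≠ i.succAbove (e + 2) := hmi.symm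
    -- low word
    set F' : Fin 4 → Fn := Function.update F (i.succAbove (e + 2)) (lo H (F (i.succAbove (e + 2))))
      with hF'
    have hF'i : F' i = P := by rw [hF', Function.update_of_ne him', hFi]
    have hF'm : F' (i.succAbove (e + 2)) = G := by rw [hF', Function.update_self, hFm]
    have hF'o : ∀ j, j ≠ i → j ≠ i.succAbove (e + 2) → F' j = F j := fun j _ hj => by
      rw [hF', Function.update_of_ne hj]
    obtain ⟨Ka, Kb, g1, g2, g3⟩ := hS K' hK' W' J hW' hsub F' hF'i hF'm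
      (fun j hj hjm p hp => by rw [hF'o j hj hjm]; exact hF j hj hjm p hp) bb hε.1
    have hav : ∀ j, j ≠ i → j ≠ i.succAbove (e + 2) → ∀ p ∈ W', av p (F j) ≤ 1 :=
      fun j hj hjm p hp => (TWL649.av_le_aq (by linarith) p (F j)).trans (hF j hj hjm p hp)
    have m1 : √(2 ^ 28 * X1 + 2 ^ 31 * M ^ 2 * (t ^ b) ^ (1 / 5 : ℝ) +
        t ^ (b + C1 + 2 * cS) * (1 / t ^ b * M)) ≤ √Q0 * t ^ cS := by
      refine sqrt_num ht hQ00 ?_
      have h3 := num_main (t := t) (C1 := C1) (cS := cS) (A1 := A1) (b := b) ht ht1 hA1 hb2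
      rw [← hM] at h3
      calc _ = 2 ^ 28 * X1 + (2 ^ 31 * M ^ 2 * (t ^ b) ^ (1 / 5 : ℝ) +
            t ^ (b + C1 + 2 * cS) * (1 / t ^ b * M)) := by ring
        _ ≤ 2 ^ 28 * (Q1 * t ^ (2 * cS)) +
            (2 ^ 31 * (A1 + 1) ^ 2 + (A1 + 1)) * t ^ (2 * cS) :=
            add_le_add (mul_le_mul_of_nonneg_left hk1 (by norm_num)) h3
        _ = _ := by rw [hQ0]; ring
    have m2 : K1 * (1 + 1 / k) * (t ^ b) ^ (1 / 20 : ℝ) * M ≤ K1 * (1 + 1 / k) * (A1 + 1) * t ^ cS := by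
      have h4 := RuS256.num_K (C := C1 / 2) (A := A1) (b := b) (t := t) (c := cS) hA1
        (by linarith) ht ht1
      rw [show 2 * (C1 / 2) = C1 by ring] at h4
      calc K1 * (1 + 1 / k) * (t ^ b) ^ (1 / 20 : ℝ) * M
          = K1 * (1 + 1 / k) * ((t ^ b) ^ (1 / 20 : ℝ) * ((A1 + 1) * t ^ (-C1))) := by
            rw [hM]; ring
        _ ≤ K1 * (1 + 1 / k) * ((A1 + 1) * t ^ cS) :=
            mul_le_mul_of_nonneg_left h4 (by positivity)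
        _ = K1 * (1 + 1 / k) * (A1 + 1) * t ^ cS := by ring
    have m3 : 2 ^ 12 * √(3 * (A2 * t ^ gm + 2 * t ^ b) * (A3 * t ^ (-cl)) ^ 2 +
        A2 * t ^ dx * ((A4 * t ^ (-hh)) ^ 2 * 1)) ≤ 2 ^ 12 * √(3 * Q1) * t ^ cS := by
      rw [mul_assoc (2 ^ 12 : ℝ) (√(3 * Q1)) (t ^ cS)]
      refine mul_le_mul_of_nonneg_left (sqrt_num ht (by positivity) ?_) (by positivity)
      have h5 : 0 ≤ A2 * t ^ dx * (A4 * t ^ (-hh)) ^ 2 := by positivity
      calc _ ≤ 3 * X1 := by rw [hX1]; linarith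
        _ ≤ 3 * (Q1 * t ^ (2 * cS)) := mul_le_mul_of_nonneg_left hk1 (by norm_num)
        _ = _ := by ring
    have hlow : ‖TR bb ε W' F'‖ ≤ (K1 * (√Q0 * t ^ cS) + K1 * (1 + 1 / k) * (A1 + 1) * t ^ cS +
        16 * (2 * ((7 : ℕ) + 1) + 1) * (2 ^ 12 * √(3 * Q1) * t ^ cS)) * len J := by
      refine S2D530.window_split hε hW' 7 F' Ka Kb g1 (by positivity)
        (g2.trans (mul_le_mul_of_nonneg_right (mul_le_mul_of_nonneg_left m1 hK1) hl.le))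
        (g3.trans (mul_le_mul_of_nonneg_right m2 hl.le)) ?_
      intro p hp _
      have hpW := hWsub p hp
      obtain ⟨d1, d2, d3, d4, d5, d6⟩ := MainEx255.dst_j i e
      have hn := NodeBx254.node_nc (MainEx255.dst_j i e) p hε.1 F'
        (AP := (A3 * t ^ (-cl)) ^ 2) (AR := 1) (H := A4 * t ^ (-hh))
        (g := A2 * t ^ gm + 2 * t ^ b) (δ := A2 * t ^ dx) (by positivity) hg0 (by positivity)
        zero_le_one hd0 (by rw [hF'i]; exact hP2 p hpW)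
        (fun y hy => by rw [hF'i]; exact hPH y (hW.reg.1 p hpW hy))
        (by rw [hF'm, one_mul]; exact s2 p G (haG p hpW))
        (by rw [hF'm]; exact nc2_of_ncol hNG hpW hpW rfl)
      refine hn.trans ?_
      have ha : av p (F' (i.succAbove e)) ≤ 1 := by
        rw [hF'o _ (Fin.succAbove_ne i e) d4.symm]
        exact hav _ (Fin.succAbove_ne i e) d4.symm p hp
      have hb' : av p (F' (i.succAbove (e + 1))) ≤ 1 := by
        rw [hF'o _ (Fin.succAbove_ne i (e + 1)) d5.symm]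
        exact hav _ (Fin.succAbove_ne i (e + 1)) d5.symm p hp
      have hlp : 0 < len p := Growth.len_pos p
      have hn1 : ∀ u : Fn, 0 ≤ av p u := fun u => Real.sqrt_nonneg _
      refine mul_le_mul_of_nonneg_right ?_ hlp.le
      calc _ ≤ 2 ^ 12 * √(3 * (A2 * t ^ gm + 2 * t ^ b) * (A3 * t ^ (-cl)) ^ 2 +
            A2 * t ^ dx * ((A4 * t ^ (-hh)) ^ 2 * 1)) * 1 * 1 :=
            mul_le_mul (mul_le_mul_of_nonneg_left ha (by positivity)) hb' (hn1 _) (by positivity)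
        _ ≤ _ := by rw [mul_one, mul_one]; exact m3
    -- tall word
    have hrepJ : Rep i J (F i) (A1 * t ^ (-C1)) := by
      rw [hFi]; exact rep_mono hrep.rep hJI
    have hhi2 : ‖TR bb ε W' (Function.update F (i.succAbove (e + 2))
        (hi H (F (i.succAbove (e + 2)))))‖ ≤ K2 * (A1 * t ^ (-C1)) * t ^ b * len J := by
      refine (Qb247.norm_TR_le hε.2 W' _).trans (htall bb hε.1 W' J hW'.reg _ i
        (i.succAbove (e + 2)) him' _ _ hσ.le (fun j hj hjm p hp => ?_) (fun p hp => ?_) ?_)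
      · rw [Function.update_of_ne hjm]; exact hav j hj hjm p hp
      · rw [Function.update_self, hFm]
        have h3 := av_hi (q := 2 + k) (by linarith) hH0 (haR p (hWsub p hp))
        have e3 : H ^ (-((2 + k - 2) / 2)) = t ^ b := by
          rw [hH, ← Real.rpow_mul hσ.le]
          have : -(2 / k) * -((2 + k - 2) / 2) = 1 := by field_simp; ring
          rw [this, Real.rpow_one]
        rwa [e3] at h3
      · rw [Function.update_of_ne him']; exact hrepJ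
    have hhi3 : K2 * (A1 * t ^ (-C1)) * t ^ b ≤ K2 * A1 * t ^ cS := by
      have f1 : t ^ (-C1) * t ^ b ≤ t ^ cS := by
        rw [← Real.rpow_add ht]
        exact Real.rpow_le_rpow_of_exponent_ge ht ht1 hb4
      calc _ = K2 * A1 * (t ^ (-C1) * t ^ b) := by ring
        _ ≤ _ := mul_le_mul_of_nonneg_left f1 (by positivity)
    rw [TR_split bb ε W' F (i.succAbove (e + 2)) H]
    refine (norm_add_le _ _).trans ?_
    calc _ ≤ (K1 * (√Q0 * t ^ cS) + K1 * (1 + 1 / k) * (A1 + 1) * t ^ cS +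
        16 * (2 * ((7 : ℕ) + 1) + 1) * (2 ^ 12 * √(3 * Q1) * t ^ cS)) * len J +
          K2 * A1 * t ^ cS * len J := add_le_add hlow
            (hhi2.trans (mul_le_mul_of_nonneg_right hhi3 hl.le))
      _ = K0 * (t ^ cS * len J) := by rw [hK0d]; ring
      _ ≤ K * (t ^ cS * len J) := by
          refine mul_le_mul_of_nonneg_right ?_ (by positivity)
          rw [hK]
          have : 0 ≤ (7 + 120 * (A1 + 1) ^ 2) * 19 := by positivity
          linarith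
      _ = _ := by ring


end Crest.Agent.R079.CoEx255
end

-- ▼ part R079/CoE6_255
section

/-! R079, Step II of `RuleNT` (helper255): `stat_core` in the form of helper252's `StatO` / `StatQ`
(static tops `TB`, `It260.Piece`). -/

set_option autoImplicit false
set_option linter.unusedVariables false

namespace Crest.Agent.R079.CoEx255

open Finset Crest.Agent.R079.Grid Crest.Agent.R079.Growth Crest.Agent.R079.QRed
  Crest.Agent.R079.Glue Crest.Agent.R079.TWin Crest.Agent.R079.TRec Crest.Agent.R079.BadN360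
  Crest.Agent.R079.BAt112 Crest.Agent.R079.NC237 Crest.Agent.R079.AsmA844

/-- a full region without interior tops lies in one window -/
theorem sub_window {W S : Finset Nd} {V : Nd → Finset Nd} {C : ℝ} (h : Part W S V C)
    {R : Finset Nd} {J : Nd} (hR : Full R J) (hRW : R ⊆ W) (hT : ∀ q ∈ S, q ∈ R → q = J) :
    ∃ K ∈ S, R ⊆ V K := by
  obtain ⟨K, hK, hJK⟩ := h.cover J (hRW hR.top)
  refine ⟨K, hK, fun p hp => ?_⟩
  obtain ⟨A, hA, hpA⟩ := h.cover p (hRW hp)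
  have h1 : iv p ⊆ iv A := (h.full A hA).reg.1 p hpA
  have h2 : iv p ⊆ iv J := hR.reg.1 p hp
  rcases Qe292.sub_total h1 h2 with h3 | h3
  · have hAR : A ∈ R := hR.reg.2 p hp A h1 h3
    have hAJ : A = J := hT A hA hAR
    have hKA : K = A := by
      refine WinA222.own_unique h hK hA hJK ?_
      rw [← hAJ]; exact (h.full A hA).top
    rw [hKA]; exact hpA
  · have hJA : J ∈ V A := (h.full A hA).reg.2 p hpA J h2 h3
    have hKA : K = A := WinA222.own_unique h hK hA hJK hJA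
    rw [hKA]; exact hpA

/-- windows with a bound for normalised letters give `Tops`, `Cnt`, `Piece` -/
theorem piece_of_part {k : ℝ} (hk : 0 < k) {W S : Finset Nd} {V : Nd → Finset Nd} {C α : ℝ}
    (hα : 0 ≤ α) (hP : Part W S V C) {bb : ℤ} {ε : ℕ → ℤ → ℂ} {F : Fin 4 → Fn} {i m x y : Fin 4}
    (him : i ≠ m) (hO : Oth i m x y)
    (h : ∀ K' ∈ S, ∀ W' J, Full W' J → W' ⊆ V K' → ∀ F' : Fin 4 → Fn, F' i = F i → F' m = F m →
      (∀ j, j ≠ i → j ≠ m → ∀ p ∈ W', aq (2 + k) p (F' j) ≤ 1) → ‖TR bb ε W' F'‖ ≤ α * len J) :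
    It260.Piece (v4 bb ε F x y) (Sm k) W S α := by
  intro s hs R J hR hRW hT X Y hXY
  obtain ⟨K, hK, hRK⟩ := sub_window hP hR hRW hT
  have hq : (0 : ℝ) < 2 + k := by linarith
  have hB := GenT934.bil_v4 bb ε F hO.ab
  set X' : Fn := fun y => ((s⁻¹ : ℝ) : ℂ) * X y with hX'
  set Y' : Fn := fun y => ((s⁻¹ : ℝ) : ℂ) * Y y with hY'
  have hN := GenT934.Sm_smul hk hXY (inv_nonneg.2 hs.le)
  rw [inv_mul_cancel₀ hs.ne'] at hN
  have hsc : ∀ (Z : Fn), Z = fun y => (s : ℂ) * (((s⁻¹ : ℝ) : ℂ) * Z y) := by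
    intro Z
    funext y
    have : (s : ℂ) * ((s⁻¹ : ℝ) : ℂ) = 1 := by
      push_cast
      exact mul_inv_cancel₀ (by exact_mod_cast hs.ne')
    rw [← mul_assoc, this, one_mul]
  have e1 : ∀ p, v4 bb ε F x y X Y p = (s : ℂ) ^ 2 * v4 bb ε F x y X' Y' p := by
    intro p
    have e : v4 bb ε F x y X Y p =
        v4 bb ε F x y (fun y => (s : ℂ) * X' y) (fun y => (s : ℂ) * Y' y) p := by
      conv_lhs => rw [hsc X, hsc Y]
    rw [e, hB.smul1, hB.smul2]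
    ring
  have e2 : ∑ p ∈ R, v4 bb ε F x y X Y p = (s : ℂ) ^ 2 *
      TR bb ε R (Function.update (Function.update F x X') y Y') := by
    unfold TR
    rw [Finset.mul_sum]
    exact Finset.sum_congr rfl fun p _ => e1 p
  rw [e2, norm_mul, norm_pow, Complex.norm_real, Real.norm_of_nonneg hs.le]
  have h1 := h K hK R J hR hRK (Function.update (Function.update F x X') y Y')
    (by rw [Function.update_of_ne hO.bi.symm, Function.update_of_ne hO.ai.symm])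
    (by rw [Function.update_of_ne hO.bm.symm, Function.update_of_ne hO.am.symm])
    (fun j hji hjm p hp => by
      have hj : j = x ∨ j = y := by
        obtain ⟨a1, a2, a3, a4, a5⟩ := hO
        clear * - hji hjm a1 a2 a3 a4 a5 him
        revert i m x y j; decide
      by_cases hjy : j = y
      · subst hjy
        rw [Function.update_self]
        exact (hN p hp).2
      · have hjx : j = x := by tauto
        subst hjx
        rw [Function.update_of_ne hjy, Function.update_self]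
        exact (hN p hp).1)
  calc s ^ 2 * ‖TR bb ε R (Function.update (Function.update F x X') y Y')‖
      ≤ s ^ 2 * (α * len J) := mul_le_mul_of_nonneg_left h1 (by positivity)
    _ = s ^ 2 * α * len J := by ring

/-- **STEP II, dictionary-free, in the form of `StatO`** -/
theorem stat_piece {C1 hh cl gm dx cS : ℝ} (hC1 : 0 ≤ C1) (hcS : 0 < cS) (hgm : 0 ≤ gm)
    (h1 : 2 * cS ≤ gm - 2 * cl) (h2 : 2 * cS ≤ dx - 2 * hh)
    {k A1 A2 A3 A4 : ℝ} (hk : 0 < k) (hA1 : 0 ≤ A1) (hA2 : 0 ≤ A2) (hA3 : 0 ≤ A3) (hA4 : 0 ≤ A4) :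
    ∃ t0 K : ℝ, 0 < t0 ∧ t0 ≤ 1 ∧ 0 ≤ K ∧ ∀ t, 0 < t → t ≤ t0 → ∀ (W : Finset Nd) (I : Nd),
      Full W I → ∀ i m : Fin 4, i ≠ m → ∀ F : Fin 4 → Fn, RepB i I (F i) (A1 * t ^ (-C1)) →
      (∀ y ∈ iv I, ‖F i y‖ ≤ A4 * t ^ (-hh)) →
      (∀ p ∈ W, av p (F i) ≤ A3 * t ^ (-cl)) → (∀ p ∈ W, aq (2 + k) p (F m) ≤ 1) →
      NCol W (F m) (A2 * t ^ gm) (A2 * t ^ dx) → ∀ x y : Fin 4, Oth i m x y →
      ∃ TB : Finset Nd, Tops W I TB ∧ Cnt W TB (K * t ^ (-cnE C1 gm cS)) ∧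
        ∀ bb ε, Adm bb ε → It260.Piece (v4 bb ε F x y) (Sm k) W TB (K * t ^ cS) := by
  obtain ⟨t0, K, g1, g2, g3, g4⟩ := stat_coreH hC1 hcS hgm h1 h2 hk hA1 hA2 hA3 hA4
  refine ⟨t0, K, g1, g2, g3, ?_⟩
  intro t ht htt W I hW i m him F hrep hH haP haR hNC x y hO
  obtain ⟨S, V, hP, hS⟩ := g4 t ht htt W I hW i m him (F i) (F m) hrep hH haP haR hNC
  refine ⟨S, WinA222.tops_of_part hW hP, WinA222.cnt_of_part hP, fun bb ε hε => ?_⟩
  exact piece_of_part hk (mul_nonneg g3 (Real.rpow_nonneg ht.le _)) hP him hO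
    fun K' hK' W' J hW' hsub F' hFi hFm hF => hS K' hK' W' J hW' hsub F' hFi hFm hF bb ε hε

end Crest.Agent.R079.CoEx255
end

-- ▼ part R079/PW_263

/-! R079, T2/T6 (helper263): **LEAVES FOR THE CORE DATA.**

`QP P d i m e e' ε k` = the core data (`QC`) of a nontrivial pair for the final dictionary `DF0 P`.
* `statC` : Step II for the core data (`stat_piece` of 255);
* `LeavesC` : the open inputs `cell`, `op`, `genC` (Step I for the core data);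
* `leaves1_of_core` : `LeavesC → Leaves1` (112), `target_of_leavesC`. -/

set_option autoImplicit false
set_option linter.unusedVariables false

namespace Crest.Agent.R079.POx263

open Finset Crest.Agent.R079.Grid Crest.Agent.R079.Growth Crest.Agent.R079.QRed
open Crest.Agent.R079.TRec Crest.Agent.R079.T6ax252 Crest.Agent.R079.T6bx252
open Crest.Agent.R079.OpS276 Crest.Agent.R079.OLevSw Crest.Agent.R079.Qe292
open Crest.Agent.R079.BAt112 Crest.Agent.R079.DicB112 Crest.Agent.R079.WS112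
open Crest.Agent.R079.WS0112 Crest.Agent.R079.AsmA844

/-- exponent of the cap of the weight -/
noncomputable def xxC (P : Prm) (i : Fin 4) : ℝ := 2 * (P.θ * (P.x i + 2 * P.f i + 12 * P.g i))

/-- exponent of the fibre cap -/
noncomputable def ffC (P : Prm) (i : Fin 4) : ℝ := 2 * (P.θ * (2 * P.f i + 12 * P.g i))

/-- **core data of a nontrivial pair** -/
def QP (P : Prm) (d : ℝ) (i m e e' : Fin 4) (ε k : ℝ) : DataQ :=
  QC (DF0 P) k 1 (clx P d i) ((1 + ε) * (P.θ * P.g i)) (xxC P i) (ffC P i) i m e e'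

/-- **Step II for the core data** -/
theorem statC {P : Prm} (h : Ok0 P) {d q3 : ℝ} {i m e e' : Fin 4} (hdd : Dst4 i m e e')
    (hm3 : m ≠ 3) (hc1 : 2 * clx P d i < P.θ * P.gc m) (hc2 : 4 * P.g i < P.Cc m - P.gc m)
    (hd : 0 ≤ d) :
    ∃ cS CS e2 : ℝ, 0 < cS ∧ 0 < e2 ∧ ∀ ε, 0 < ε → ε ≤ e2 → ∃ k2 : ℝ, 0 < k2 ∧
      ∀ k, 0 < k → k ≤ k2 → ∃ t0 K : ℝ, 0 < t0 ∧ 0 ≤ K ∧
        StatQ (QP P d i m e e' ε k) k q3 cS CS t0 K i m := by
  have hθ := h.θ0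
  have hg : 0 ≤ P.θ * P.g i := mul_nonneg hθ.le (h.g0 i)
  have hx : 0 ≤ P.θ * P.x i := mul_nonneg hθ.le (h.x0 i)
  have hf : 0 ≤ P.θ * P.f i := mul_nonneg hθ.le (h.f0 i)
  have hgc : 0 ≤ P.θ * P.gc m := mul_nonneg hθ.le (h.gc0 m)
  set gm : ℝ := 1 * (P.θ * P.gc m) with hgm
  set dx : ℝ := 1 * (P.θ * (P.Cc m - P.gc m)) with hdx
  set hh : ℝ := 2 * (P.θ * P.g i) with hhd
  set cl : ℝ := clx P d i with hcl
  set C1 : ℝ := 2 * (P.θ * P.g i) + ffC P i + xxC P i with hC1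
  have hxx0 : 0 ≤ xxC P i := by unfold xxC; nlinarith
  have hff0 : 0 ≤ ffC P i := by unfold ffC; nlinarith
  have hC10 : 0 ≤ C1 := by positivity
  have hdh : 2 * hh < dx := by
    have := mul_lt_mul_of_pos_left hc2 hθ
    rw [hhd, hdx]
    linarith
  set cS : ℝ := min ((gm - 2 * cl) / 2) ((dx - 2 * hh) / 2) with hcS
  have hcS0 : 0 < cS := lt_min (by rw [hgm]; linarith) (by linarith)
  have hs1 : 2 * cS ≤ gm - 2 * cl := by
    have := min_le_left ((gm - 2 * cl) / 2) ((dx - 2 * hh) / 2)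
    linarith
  have hs2 : 2 * cS ≤ dx - 2 * hh := by
    have := min_le_right ((gm - 2 * cl) / 2) ((dx - 2 * hh) / 2)
    linarith
  have hCg : P.gc m ≤ P.Cc m := by have := h.g0 i; linarith
  refine ⟨cS, CoEx255.cnE C1 gm cS, 1, hcS0, one_pos, fun ε hε hε1 => ⟨1, one_pos, fun k hk hk1 => ?_⟩⟩
  obtain ⟨t0, K, ht0, ht01, hK, hP⟩ := CoEx255.stat_piece (C1 := C1) (hh := hh) (cl := cl) (gm := gm)
    (dx := dx) (cS := cS) hC10 hcS0 (by rw [hgm]; linarith) hs1 hs2 (k := k) (A1 := 1864296)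
    (A2 := 3) (A3 := 4) (A4 := 621432) hk (by norm_num) (by norm_num) (by norm_num) (by norm_num)
  refine ⟨t0, K, ht0, hK, ?_⟩
  intro N B hB hBN t ht htt bb W I F hQ hI x y hO
  have ht1 : t ≤ 1 := htt.trans ht01
  have hQ' : PRc (DF0 P) k 1 cl t (621432 * t ^ (-((1 + ε) * (P.θ * P.g i)))) (3 * t ^ (-(xxC P i)))
    (t ^ (-(ffC P i))) W I i m e e' F := hQ
  have hpow : ∀ {r s : ℝ}, s ≤ r → t ^ r ≤ t ^ s := fun h =>
    Real.rpow_le_rpow_of_exponent_ge ht ht1 h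
  have hla : t ^ (-((1 + ε) * (P.θ * P.g i))) ≤ t ^ (-hh) := hpow (by rw [hhd]; nlinarith)
  have hrep : RepB i I (F i) (1864296 * t ^ (-C1)) := by
    refine (Rc.repB hdd (by positivity) (by positivity) hQ'.mix).mono ?_
    have h1 : t ^ (-C1) = t ^ (-hh) * (t ^ (-(ffC P i)) * t ^ (-(xxC P i))) := by
      rw [← Real.rpow_add ht, ← Real.rpow_add ht]
      congr 1
      rw [hC1, hhd]; ring
    rw [h1]
    have h2 : 0 ≤ t ^ (-(ffC P i)) * t ^ (-(xxC P i)) := by positivity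
    calc 621432 * t ^ (-((1 + ε) * (P.θ * P.g i))) * (t ^ (-(ffC P i)) * (3 * t ^ (-(xxC P i)))) =
        1864296 * (t ^ (-((1 + ε) * (P.θ * P.g i))) * (t ^ (-(ffC P i)) * t ^ (-(xxC P i)))) := by
          ring
      _ ≤ _ := mul_le_mul_of_nonneg_left (mul_le_mul_of_nonneg_right hla h2) (by norm_num)
  have hsup : ∀ y ∈ iv I, ‖F i y‖ ≤ 621432 * t ^ (-hh) := fun y hy =>
    (Rc.sup hdd hQ'.mix hy).trans (mul_le_mul_of_nonneg_left hla (by norm_num))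
  have hnc : NC237.NCol W (F m) (3 * t ^ gm) (3 * t ^ dx) := by
    have h1 := hQ'.ncol h hdd hk.le hm3 zero_le_one hCg ht ht1
    intro p hp p' hp' hl
    obtain ⟨Bd, h3, h4⟩ := h1 p hp p' hp' hl
    refine ⟨Bd, h3.trans ?_, h4⟩
    have hlp : 0 < len p := QVar181.len_pos' p
    have h5 : 0 < t ^ dx := Real.rpow_pos_of_pos ht _
    refine mul_le_mul_of_nonneg_right ?_ hlp.le
    show 2 * t ^ dx ≤ 3 * t ^ dx
    linarith
  obtain ⟨TB, hTB, hc, hPc⟩ := hP t ht htt W I hQ'.full i m hdd.jk.symm F hrep hsup hQ'.avP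
    hQ'.nR hnc x y hO
  refine ⟨TB, hTB, hc, fun ε' hA s hs R J hR hRR hJ X Y hXY =>
    (hPc bb ε' hA s hs R J hR hRR hJ X Y hXY).trans ?_⟩
  have h4 : K * t ^ cS ≤ K * (1 + B) * t ^ cS := by
    have h5 : 0 ≤ t ^ cS := Real.rpow_nonneg ht.le _
    have h6 : K * 1 * t ^ cS ≤ K * (1 + B) * t ^ cS :=
      mul_le_mul_of_nonneg_right (mul_le_mul_of_nonneg_left (by linarith) hK) h5
    linarith
  exact mul_le_mul_of_nonneg_right (mul_le_mul_of_nonneg_left h4 (sq_nonneg _))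
    (Growth.len_pos J).le

/-- **THE OPEN INPUTS**, Step I for the core data -/
structure LeavesC (P : Prm) (q3 d : ℝ) : Prop where
  /-- cells, all pairs -/
  cell : ∀ i m : Fin 4, i ≠ m → i ≠ 3 → m ≠ 3 → ∃ c0 e1 : ℝ, 0 < c0 ∧ 0 < e1 ∧
    ∀ e, 0 ≤ e → e ≤ e1 → ∃ k1 : ℝ, 0 < k1 ∧ ∀ k, 0 < k → k ≤ k1 → ∃ t0 K : ℝ, 0 < t0 ∧ 0 ≤ K ∧
      CellKill (DF0 P) (CA0 P) k q3 c0 (1 + e) 1 t0 K i m
  /-- op-atoms, trivial pairs -/
  op : ∀ i m : Fin 4, i < m → m ≠ 3 → ∃ d1 : ℝ, 0 < d1 ∧ ∀ δ, 0 < δ → δ ≤ d1 →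
    ∃ c0 k1 : ℝ, 0 < c0 ∧ 0 < k1 ∧ ∀ k, 0 < k → k ≤ k1 → ∃ t0 K : ℝ, 0 < t0 ∧ 0 ≤ K ∧
      OpKill (DF0 P) (OA0 P) k q3 c0 1 (1 + δ) t0 K i m
  /-- Step I for the core data -/
  gen : ∀ i m e e' : Fin 4, Dst4 i m e e' → m < i → i ≠ 3 → ∃ cm : ℝ, 0 < cm ∧
    ∀ c1, 0 < c1 → c1 ≤ cm →
    ∃ C g ys : ℝ, 0 < C ∧ 0 < g ∧ 0 < ys ∧ ∀ y, 0 < y → y ≤ ys → ∃ e1 : ℝ, 0 < e1 ∧
      ∀ ε, 0 < ε → ε ≤ e1 → ∃ k1 : ℝ, 0 < k1 ∧ ∀ k, 0 < k → k ≤ k1 → ∃ t0 K : ℝ, 0 < t0 ∧ 0 ≤ K ∧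
        GenQ (QP P d i m e e' ε k) k q3 c1 (C * y) (g * y) t0 K i m

/-- rule (A) for mixtures of op-atoms, from the core data -/
theorem leaves1_of_core {P : Prm} (h : Ok0 P) (hp : Pos0 P) {q3 d : ℝ} (hq3 : 2 < q3) (hd : 0 ≤ d)
    (hst : ∀ i m : Fin 4, m < i → i ≠ 3 → 2 * clx P d i < P.θ * P.gc m ∧
      4 * P.g i < P.Cc m - P.gc m)
    (hL : LeavesC P q3 d) : Leaves1 P q3 d := by
  refine ⟨hL.cell, hL.op, fun i m hmi hi3 => ?_⟩
  have him : i ≠ m := hmi.ne'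
  have hm3 : m ≠ 3 := by
    rintro rfl
    have := i.2
    have h1 : (3 : ℕ) < i.1 := hmi
    omega
  obtain ⟨x, y, hxi, hxm, hyi, hym, hxy⟩ := exists_oth i m him
  have hdd : Dst4 i m x y := ⟨him.symm, hxm.symm, hym.symm, hxi.symm, hyi.symm, hxy⟩
  have hg : 0 < P.θ * P.g i := mul_pos h.θ0 (hp.g i)
  obtain ⟨c0, e1, hc0, he1, hO⟩ := pairQ_exists hq3 (fun ε k => QP P d i m x y ε k)
    (fun ε k t W I F hQ => PRc.full hQ) him (hL.gen i m x y hdd hmi hi3)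
    (statC h hdd hm3 (hst i m hmi hi3).1 (hst i m hmi hi3).2 hd)
  refine ⟨min c0 (P.θ * P.g i), min e1 1, lt_min hc0 hg, lt_min he1 one_pos, fun ε hε hεe => ?_⟩
  have hε1 : ε ≤ 1 := hεe.trans (min_le_right _ _)
  obtain ⟨k1, hk1, hO⟩ := hO ε hε (hεe.trans (min_le_left _ _))
  refine ⟨min k1 1, lt_min hk1 one_pos, fun k hk hkk => ?_⟩
  obtain ⟨t0, K, ht0, ht01, hK, hO⟩ := hO k hk (hkk.trans (min_le_left _ _))
  refine ⟨t0, K + 3, ht0, ht01, by linarith, ?_⟩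
  have hx0 : 0 ≤ P.θ * P.x i := mul_nonneg h.θ0.le (h.x0 i)
  have hf0 : 0 ≤ P.θ * P.f i := mul_nonneg h.θ0.le (h.f0 i)
  have hcl : 0 ≤ clx P d i := by
    have := mul_nonneg h.θ0.le (h.gc0 i)
    unfold clx
    linarith
  have h1 := pairO_of_pairQ (D := DF0 P) (OA := OA0 P) (k := k) (q3 := q3) (cO := c0) (a := 1 + ε)
    (b := 1) (cl := clx P d i) (th := P.θ) (γ := P.g i) (x := P.x i) (f := P.f i)
    (ω := 12 * ((1 + ε) * P.θ * P.g i)) (la := (1 + ε) * (P.θ * P.g i)) (xx := xxC P i)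
    (ff := ffC P i) (t0 := t0) (K := K) hdd hi3 hk (hkk.trans (min_le_right _ _)) hq3 (by linarith)
    h.θ0.le (h.g0 i) (h.x0 i) (h.f0 i) (by nlinarith) hcl ht01 hK (fun s hs hs1 => ?_)
    (by linarith) ?_ ?_ hO
  · refine pairO_iff.2 (pairQ_mono h1 le_rfl ht01 ?_ (by linarith) le_rfl)
    refine min_le_min le_rfl ?_
    nlinarith
  · rw [oA0_eq]
  · unfold xxC; nlinarith
  · unfold ffC; nlinarith

/-- **`S0106` from the open inputs for the core data** -/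
theorem target_of_leavesC {P : Prm} (h : Ok0 P) (hp : Pos0 P) {q3 d : ℝ} (hq3 : 2 < q3)
    (hd : 0 < d)
    (hst : ∀ i m : Fin 4, m < i → i ≠ 3 → 2 * clx P d i < P.θ * P.gc m ∧
      4 * P.g i < P.Cc m - P.gc m)
    (hL : LeavesC P q3 d) : L0.Target :=
  target_of_leaves1 h hp hq3 hd (leaves1_of_core h hp hq3 hd.le hst hL)

end Crest.Agent.R079.POx263
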