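import Crest.Agent.R079.KCb_996
import Crest.Agent.R079.KLa_446
import Crest.Agent.R079.TK_248
import Crest.Agent.R079.Qb_247
import Crest.Agent.R079.PO_263
import Crest.Agent.R079.OpKa_276
import Crest.Agent.R079.BadN_360
import Crest.Agent.R079.KTz_279
import Crest.Agent.R079.TS2_815
import Crest.Agent.R079.GnQ_45
import Crest.Agent.R079.PW_263

-- ▼ part R079/TKb_248
section

/-! R079 (helper248): the corner on `ℤ` with heights and floor; the UNIFORM KILLER (operator bound on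
ALL boxes of the region, no exceptional set) at one frozen value `w`. -/

set_option autoImplicit false

namespace Crest.Agent.R079.TKx248

open Finset Crest.Agent.R079.Grid Crest.Agent.R079.Pot Crest.Agent.R079.Glue Crest.Agent.R079.GlueK
  Crest.Agent.R079.Growth Crest.Agent.R079.QRed Crest.Agent.R079.BadTx138 Crest.Agent.R079.KLx446
  Crest.Agent.R079.KC996

/-- the corner on `ℤ` with heights `≤ H` of the partners and floor `δ` (cf. `CR371h.CornerH`) -/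
def CornerZF : Prop := ∀ (l : ℤ), |l| ≤ 7 → ∀ C1 : ℝ, ∃ K : ℝ, 0 ≤ K ∧
  ∀ (M' S0 : ℕ) (A B C : ℤ → ℤ → ℝ) (al : ℕ → ℤ → ℤ → Prop) (w : ℤ) (a2 b2 τ E0 Ar H δ : ℝ),
    0 < τ → 0 ≤ E0 → 0 < Ar → 0 < H → 0 < δ →
    (∀ x y, A x y ≠ 0 → |x| ≤ S0 ∧ |y| ≤ S0) → (∀ x y, B x y ≠ 0 → |x| ≤ S0 ∧ |y| ≤ S0) →
    (∀ x y, C x y ≠ 0 → |x| ≤ S0 ∧ |y| ≤ S0) →
    ∑ x ∈ Icc (-(S0 : ℤ)) S0, ∑ y ∈ Icc (-(S0 : ℤ)) S0, A x y ^ 2 ≤ a2 →
    ∑ x ∈ Icc (-(S0 : ℤ)) S0, ∑ y ∈ Icc (-(S0 : ℤ)) S0, B x y ^ 2 ≤ b2 →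
    (∀ x y, |A x y| ≤ H) → (∀ x y, |B x y| ≤ H) →
    RegZ C al M' 6 31 S0 τ C1 → LastZ C al M' 6 S0 E0 Ar →
    ∀ L1 : ℕ, ∑ m ∈ range M', (1 / (2 : ℝ) ^ m) * ∑ i ∈ range (2 ^ m),
      ∑ p0 ∈ Icc (-(L1 : ℤ)) L1, ∑ p1 ∈ Icc (-(L1 : ℤ)) L1,
        (open Classical in if Al4Z al m (l * 2 ^ m + (i : ℤ) - w - p0 - p1) p0 then
          |Lb3r A B C (2 ^ m) p0 p1 (l * 2 ^ m + (i : ℤ) - w - p0 - p1)| else 0) ≤
      K * (1 + Real.log (1 + E0 * H ^ 2 / (τ ^ 2 * δ))) * (τ * √(a2 + δ * Ar) * √(b2 + δ * Ar))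

theorem cornerZF_of (h : CornerZ) : CornerZF := by
  classical
  intro l hl C1
  obtain ⟨K, hK0, hK⟩ := h l hl C1
  refine ⟨K * 6, by positivity, ?_⟩
  intro M' S0 A B C al w a2 b2 τ E0 Ar H δ hτ hE hAr hH hδ sA sB sC hA2 hB2 hA hB hR hL L1
  set X : ℝ := E0 * H ^ 2 / (τ ^ 2 * δ) with hX
  have hX0 : 0 ≤ X := by positivity
  obtain ⟨J, hJ1, hJ2⟩ : ∃ J : ℕ, X ≤ 2 ^ J ∧ ((J : ℝ) ≤ 1 + 2 * Real.log (1 + X)) := by
    refine ⟨⌈Real.logb 2 (1 + X)⌉₊, ?_, ?_⟩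
    · have h1 : Real.logb 2 (1 + X) ≤ (⌈Real.logb 2 (1 + X)⌉₊ : ℝ) := Nat.le_ceil _
      have h2 : (1 + X) = (2 : ℝ) ^ (Real.logb 2 (1 + X)) := by
        rw [Real.rpow_logb (by norm_num) (by norm_num) (by linarith)]
      have h3 : (2 : ℝ) ^ (Real.logb 2 (1 + X)) ≤ (2 : ℝ) ^ ((⌈Real.logb 2 (1 + X)⌉₊ : ℕ) : ℝ) :=
        Real.rpow_le_rpow_of_exponent_le (by norm_num) h1
      rw [← h2, Real.rpow_natCast] at h3
      linarith
    · have h0 : 0 ≤ Real.logb 2 (1 + X) := Real.logb_nonneg (by norm_num) (by linarith)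
      have h1 := (Nat.ceil_lt_add_one h0).le
      have h2 : Real.logb 2 (1 + X) ≤ 2 * Real.log (1 + X) := by
        rw [Real.logb, div_le_iff₀ (Real.log_pos (by norm_num))]
        have h3 : (1 / 2 : ℝ) ≤ Real.log 2 := by
          have := Real.log_two_gt_d9
          linarith
        have h4 : 0 ≤ Real.log (1 + X) := Real.log_nonneg (by linarith)
        nlinarith
      linarith
  have hp : 0 < τ ^ 2 * δ := by positivity
  have hsA : 0 ≤ a2 := le_trans (Finset.sum_nonneg fun _ _ => Finset.sum_nonneg fun _ _ =>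
    sq_nonneg _) hA2
  have hsB : 0 ≤ b2 := le_trans (Finset.sum_nonneg fun _ _ => Finset.sum_nonneg fun _ _ =>
    sq_nonneg _) hB2
  have hr : 0 < δ * Ar / H ^ 2 := by positivity
  have key : ∀ (F : ℤ → ℤ → ℝ) (f2 : ℝ), (∀ x y, |F x y| ≤ H) → 0 ≤ f2 → ∀ x y,
      F x y ^ 2 ≤ (f2 + δ * Ar) / (δ * Ar / H ^ 2) := by
    intro F f2 hF hs x y
    have h1 : F x y ^ 2 ≤ H ^ 2 := by
      have := hF x y
      rw [← sq_abs]
      exact pow_le_pow_left₀ (abs_nonneg _) this 2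
    refine h1.trans ?_
    rw [le_div_iff₀ hr]
    have : H ^ 2 * (δ * Ar / H ^ 2) = δ * Ar := by
      field_simp
    rw [this]
    linarith
  have hmain := hK M' J S0 A B C al w (a2 + δ * Ar) (b2 + δ * Ar) (δ * Ar / H ^ 2) τ E0 Ar
    (by positivity) (by positivity) hr hτ sA sB sC
    (by linarith [mul_pos hδ hAr]) (by linarith [mul_pos hδ hAr]) (key A a2 hA hsA)
    (key B b2 hB hsB) hR hL ?_ L1
  · refine hmain.trans ?_
    have hl0 : 0 ≤ Real.log (1 + X) := Real.log_nonneg (by linarith)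
    have h5 : K * (2 * (J : ℝ) + 1) ≤ K * 6 * (1 + Real.log (1 + X)) := by
      rw [mul_assoc]
      refine mul_le_mul_of_nonneg_left ?_ hK0
      linarith
    exact mul_le_mul_of_nonneg_right h5 (by positivity)
  · have h6 : X * (τ ^ 2 * δ) = E0 * H ^ 2 := by
      rw [hX, div_mul_cancel₀]
      positivity
    have h7 : E0 * H ^ 2 ≤ 2 ^ J * (τ ^ 2 * δ) := by
      rw [← h6]
      exact mul_le_mul_of_nonneg_right hJ1 hp.le
    have h8 : τ ^ 2 * (δ * Ar / H ^ 2 * 2 ^ J) = (2 ^ J * (τ ^ 2 * δ)) * Ar / H ^ 2 := by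
      ring
    rw [h8, le_div_iff₀ (by positivity)]
    nlinarith

/-! ### the alive family -/

/-- all shadows in the region, inside the domain -/
def AlU (R : Finset Nd) (α β γ w x0 x1 y0 y1 : ℤ) (m : ℕ) (q u : ℤ) : Prop :=
  Om R α β γ w m q u ∧ Dm2 x0 x1 y0 y1 m q u

lemma lpF : Lp (fun _ _ _ => False) := ⟨fun _ _ _ _ _ h => h, fun _ _ _ _ _ _ _ _ h => h⟩

lemma exit_alU {R : Finset Nd} {α β γ w x0 x1 y0 y1 : ℤ} {k' m : ℕ} {q p : ℤ}
    (h : ExitZ (AlU R α β γ w x0 x1 y0 y1) k' m q p) :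
    ExitZ (AlG R α β γ w x0 x1 y0 y1 (fun _ _ _ => False)) k' m q p := by
  obtain ⟨h1, a, b, ha, hb, h2⟩ := h
  exact ⟨⟨h1, fun h => h⟩, a, b, ha, hb, fun h3 => h2 h3.1⟩

lemma level_of_om {R : Finset Nd} {J : Nd} (hR : IsRegion R J) {α β γ w : ℤ} {m : ℕ} {q u : ℤ}
    (h : Om R α β γ w m q u) : m < J.1 + 1 := by
  have hm0 : (0 : ℤ) < 2 ^ m := by positivity
  have h1 := h q (Finset.mem_Ico.2 ⟨le_rfl, by linarith⟩) u (Finset.mem_Ico.2 ⟨le_rfl, by linarith⟩)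
  rw [mem_Rm] at h1
  exact Nat.lt_succ_of_le (level_le R J hR _ h1)

/-- Region data of the uniform killer -/
theorem regZ_alU {R : Finset Nd} {J : Nd} (hR : IsRegion R J) {α β γ : ℤ} (hc : Cof α β γ)
    (w x0 x1 y0 y1 : ℤ) {S0 : ℕ} (hx0 : -(S0 : ℤ) ≤ x0) (hx1 : x1 ≤ S0) (hy0 : -(S0 : ℤ) ≤ y0)
    (hy1 : y1 ≤ S0) {C : ℤ → ℤ → ℝ} {τ : ℝ}
    (hop : ∀ m q u, Om R α β γ w m q u → OpZ C (2 ^ m) q u (2 ^ m * τ)) :
    RegZ C (AlU R α β γ w x0 x1 y0 y1) (J.1 + 1) 6 31 S0 τ KG := by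
  classical
  constructor
  · rintro m q p ⟨h1, h2⟩
    have hm0 : (0 : ℤ) < 2 ^ m := by positivity
    refine ⟨level_of_om hR h1, abs_le.2 ⟨?_, ?_⟩, abs_le.2 ⟨?_, ?_⟩⟩
    · linarith [h2.1]
    · linarith [h2.2.1]
    · linarith [h2.2.2.1]
    · linarith [h2.2.2.2]
  · intro m q p h
    exact hop m q p h.1
  · intro k' hk L c d
    refine le_trans ?_ (good_local (x0 := x0) (x1 := x1) (y0 := y0) (y1 := y1) (w := w) hR hc lpF hk
      L c d)
    exact count_mono (fun m q p h => exit_alU h) _ _ _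

theorem lastZ_alU {R : Finset Nd} {J : Nd} (hR : IsRegion R J) {α β γ : ℤ} (hc : Cof α β γ)
    (w x0 x1 y0 y1 : ℤ) {S0 : ℕ} {C : ℤ → ℤ → ℝ} {E0 : ℝ}
    (hhs : ∀ m q u, Om R α β γ w m q u →
      ∑ x ∈ Ico q (q + (2 : ℤ) ^ m), ∑ y ∈ Ico u (u + (2 : ℤ) ^ m), C x y ^ 2 ≤ 4 ^ m * E0) :
    LastZ C (AlU R α β γ w x0 x1 y0 y1) (J.1 + 1) 6 S0 E0 (61 * ((Ico x0 x1).card * len J)) := by
  classical
  have hl := (Growth.len_pos J).le
  constructor
  · intro m q p h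
    exact hhs m q p h.1
  · intro m
    refine (area_global (w := w) hR hc m (al := AlU R α β γ w x0 x1 y0 y1)
      (x0 := x0) (x1 := x1) (y0 := y0) (y1 := y1) (fun q p h => h) _ _).trans ?_
    have : (0 : ℝ) ≤ (Ico x0 x1).card * len J := by positivity
    linarith
  · intro k' hk
    refine le_trans ?_ (good_global (x0 := x0) (x1 := x1) (y0 := y0) (y1 := y1) (w := w) hR hc lpF hk
      (J.1 + 1) (Icc (-(S0 : ℤ)) S0) (Icc (-(S0 : ℤ)) S0))
    exact count_mono (fun m q p h => exit_alU h) _ _ _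

end Crest.Agent.R079.TKx248
end

-- ▼ part R079/TKc_248
section

/-! R079 (helper248): UNIFORM KILLER, part 2: one word at one frozen value (`tw_le`); operator and
Hilbert–Schmidt bounds of (gauge × line letter) on the boxes of a region. -/

set_option autoImplicit false

namespace Crest.Agent.R079.TKx248

open Finset Crest.Agent.R079.Grid Crest.Agent.R079.Pot Crest.Agent.R079.Glue Crest.Agent.R079.GlueK
  Crest.Agent.R079.Growth Crest.Agent.R079.QRed Crest.Agent.R079.BadTx138 Crest.Agent.R079.KLx446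
  Crest.Agent.R079.KC996

/-- the box form vanishes if the killer vanishes on the box -/
lemma lb3r_zero {A B C : ℤ → ℤ → ℝ} {m : ℕ} {p0 p1 p2 : ℤ}
    (h : ∀ x ∈ Ico p2 (p2 + 2 ^ (m + 1)), ∀ y ∈ Ico p0 (p0 + 2 ^ (m + 1)), C x y = 0) :
    Lb3r A B C (2 ^ m) p0 p1 p2 = 0 := by
  unfold Lb3r
  have e : (2 : ℤ) ^ (m + 1) = ((2 ^ m + 2 ^ m : ℕ) : ℤ) := by push_cast; ring
  rw [e] at h
  rw [Finset.sum_eq_zero, mul_zero]
  intro i0 _
  refine Finset.sum_eq_zero fun i1 _ => Finset.sum_eq_zero fun i2 _ => ?_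
  have h0 : ((i0 : ℕ) : ℤ) < ((2 ^ m + 2 ^ m : ℕ) : ℤ) := by exact_mod_cast i0.isLt
  have h2 : ((i2 : ℕ) : ℤ) < ((2 ^ m + 2 ^ m : ℕ) : ℤ) := by exact_mod_cast i2.isLt
  have h0' : (0 : ℤ) ≤ ((i0 : ℕ) : ℤ) := by positivity
  have h2' : (0 : ℤ) ≤ ((i2 : ℕ) : ℤ) := by positivity
  rw [h (p2 + ((i2 : ℕ) : ℤ)) (Finset.mem_Ico.2 ⟨by linarith, by linarith⟩)
    (p0 + ((i0 : ℕ) : ℤ)) (Finset.mem_Ico.2 ⟨by linarith, by linarith⟩)]
  ring

open Classical in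
/-- **one word at one frozen value, uniform killer** -/
theorem tw_le (hC : CornerZF) {l : ℤ} (hl : |l| ≤ 7) : ∃ K : ℝ, 0 ≤ K ∧
    ∀ (R : Finset Nd) (J : Nd), IsRegion R J → ∀ (α β γ : ℤ), Cof α β γ →
    ∀ (w x0 x1 y0 y1 : ℤ) (A B C : ℤ → ℤ → ℝ) (SA SB : Finset (ℤ × ℤ)) (τ E0 H δ a2 b2 : ℝ),
    x0 < x1 → 0 < τ → 0 ≤ E0 → 0 < H → 0 < δ →
    (∀ x y, A x y ≠ 0 → (x, y) ∈ SA) → (∀ x y, B x y ≠ 0 → (x, y) ∈ SB) →
    (∀ x y, C x y ≠ 0 → x0 + 2 ^ (J.1 + 1) ≤ x ∧ x + 2 ^ (J.1 + 1) < x1 ∧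
      y0 + 2 ^ (J.1 + 1) ≤ y ∧ y + 2 ^ (J.1 + 1) < y1) →
    ∑ z ∈ SA, A z.1 z.2 ^ 2 ≤ a2 → ∑ z ∈ SB, B z.1 z.2 ^ 2 ≤ b2 →
    (∀ x y, |A x y| ≤ H) → (∀ x y, |B x y| ≤ H) →
    (∀ m q u, Om R α β γ w m q u → OpZ C (2 ^ m) q u (2 ^ m * τ)) →
    (∀ m q u, Om R α β γ w m q u →
      ∑ x ∈ Ico q (q + (2 : ℤ) ^ m), ∑ y ∈ Ico u (u + (2 : ℤ) ^ m), C x y ^ 2 ≤ 4 ^ m * E0) →
    ∀ (Gm : ℕ → ℤ → ℤ → ℤ → Prop), (∀ m p0 p1 p2, Gm m p0 p1 p2 →
      ∀ x ∈ Ico p2 (p2 + 2 ^ (m + 1)), ∀ y ∈ Ico p0 (p0 + 2 ^ (m + 1)),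
        α * w + β * x + γ * y ∈ Rm R m) →
    ∀ L1 : ℕ, Tw Gm A B C (J.1 + 1) L1 l w ≤
      K * (1 + Real.log (1 + E0 * H ^ 2 / (τ ^ 2 * δ))) *
        (τ * √(a2 + δ * (61 * ((Ico x0 x1).card * len J))) *
          √(b2 + δ * (61 * ((Ico x0 x1).card * len J)))) := by
  obtain ⟨K, hK0, hK⟩ := hC l hl KG
  refine ⟨K, hK0, ?_⟩
  intro R J hR α β γ hc w x0 x1 y0 y1 A B C SA SB τ E0 H δ a2 b2 hx hτ hE hH hδ sA sB sC hA2 hB2
    hA hB hop hhs Gm hG L1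
  -- a large window
  have hpos : ∀ (S : Finset (ℤ × ℤ)), ∃ n : ℕ, ∀ z ∈ S, |z.1| ≤ n ∧ |z.2| ≤ n := by
    intro S
    refine ⟨∑ z ∈ S, (z.1.natAbs + z.2.natAbs), fun z hz => ?_⟩
    have h1 : z.1.natAbs + z.2.natAbs ≤ ∑ z ∈ S, (z.1.natAbs + z.2.natAbs) :=
      Finset.single_le_sum (f := fun z : ℤ × ℤ => z.1.natAbs + z.2.natAbs)
        (fun _ _ => Nat.zero_le _) hz
    constructor
    · rw [Int.abs_eq_natAbs]; exact_mod_cast (Nat.le_add_right _ _).trans h1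
    · rw [Int.abs_eq_natAbs]; exact_mod_cast (Nat.le_add_left _ _).trans h1
  obtain ⟨nA, hnA⟩ := hpos SA
  obtain ⟨nB, hnB⟩ := hpos SB
  set S0 : ℕ := nA + nB + x0.natAbs + x1.natAbs + y0.natAbs + y1.natAbs with hS0
  have hx0 : -(S0 : ℤ) ≤ x0 := by omega
  have hx1 : x1 ≤ S0 := by omega
  have hy0 : -(S0 : ℤ) ≤ y0 := by omega
  have hy1 : y1 ≤ S0 := by omega
  have hcard : (0 : ℝ) < (Ico x0 x1).card := by
    have : 0 < (Ico x0 x1).card := by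
      rw [Int.card_Ico]; omega
    exact_mod_cast this
  have hlJ := Growth.len_pos J
  have hAr : 0 < 61 * ((Ico x0 x1).card * len J) := by positivity
  have sA' : ∀ x y, A x y ≠ 0 → |x| ≤ S0 ∧ |y| ≤ S0 := by
    intro x y h
    have := hnA _ (sA x y h)
    simp only at this
    have h1 : (nA : ℤ) ≤ S0 := by omega
    exact ⟨this.1.trans h1, this.2.trans h1⟩
  have sB' : ∀ x y, B x y ≠ 0 → |x| ≤ S0 ∧ |y| ≤ S0 := by
    intro x y h
    have := hnB _ (sB x y h)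
    simp only at this
    have h1 : (nB : ℤ) ≤ S0 := by omega
    exact ⟨this.1.trans h1, this.2.trans h1⟩
  have h2J : (0 : ℤ) < 2 ^ (J.1 + 1) := by positivity
  have sC' : ∀ x y, C x y ≠ 0 → |x| ≤ S0 ∧ |y| ≤ S0 := by
    intro x y h
    obtain ⟨h1, h2, h3, h4⟩ := sC x y h
    exact ⟨abs_le.2 ⟨by linarith, by linarith⟩, abs_le.2 ⟨by linarith, by linarith⟩⟩
  have hsum : ∀ (F : ℤ → ℤ → ℝ) (S : Finset (ℤ × ℤ)) (f2 : ℝ), (∀ x y, F x y ≠ 0 → (x, y) ∈ S) →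
      ∑ z ∈ S, F z.1 z.2 ^ 2 ≤ f2 →
      ∑ x ∈ Icc (-(S0 : ℤ)) S0, ∑ y ∈ Icc (-(S0 : ℤ)) S0, F x y ^ 2 ≤ f2 := by
    intro F S f2 hF hf
    refine le_trans ?_ hf
    rw [← Finset.sum_product (s := Icc (-(S0 : ℤ)) S0) (t := Icc (-(S0 : ℤ)) S0)
      (f := fun z => F z.1 z.2 ^ 2)]
    have e : ∑ z ∈ Icc (-(S0 : ℤ)) S0 ×ˢ Icc (-(S0 : ℤ)) S0, F z.1 z.2 ^ 2 =
        ∑ z ∈ (Icc (-(S0 : ℤ)) S0 ×ˢ Icc (-(S0 : ℤ)) S0).filter (fun z => z ∈ S),
          F z.1 z.2 ^ 2 := by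
      rw [Finset.sum_filter]
      refine Finset.sum_congr rfl fun z _ => ?_
      split_ifs with hz
      · rfl
      · have : F z.1 z.2 = 0 := by
          by_contra h0
          exact hz (hF z.1 z.2 h0)
        rw [this]; norm_num
    rw [e]
    exact Finset.sum_le_sum_of_subset_of_nonneg (fun z hz => (Finset.mem_filter.1 hz).2)
      fun _ _ _ => sq_nonneg _
  have hmain := hK (J.1 + 1) S0 A B C (AlU R α β γ w x0 x1 y0 y1) w a2 b2 τ E0
    (61 * ((Ico x0 x1).card * len J)) H δ hτ hE hAr hH hδ sA' sB' sC' (hsum A SA a2 sA hA2)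
    (hsum B SB b2 sB hB2) hA hB (regZ_alU hR hc w x0 x1 y0 y1 hx0 hx1 hy0 hy1 hop)
    (lastZ_alU hR hc w x0 x1 y0 y1 hhs) L1
  refine le_trans ?_ hmain
  unfold Tw
  refine Finset.sum_le_sum fun m hm => mul_le_mul_of_nonneg_left ?_ (by positivity)
  refine Finset.sum_le_sum fun i _ => Finset.sum_le_sum fun p0 _ => Finset.sum_le_sum fun p1 _ => ?_
  set p2 : ℤ := l * 2 ^ m + (i : ℤ) - w - p0 - p1 with hp2
  by_cases hg : Gm m p0 p1 p2
  · rw [if_pos hg]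
    have hO := hG m p0 p1 p2 hg
    have hm2 : (2 : ℤ) ^ (m + 1) ≤ 2 ^ (J.1 + 1) :=
      pow_le_pow_right₀ (by norm_num) (by have := Finset.mem_range.1 hm; omega)
    have e2 : (2 : ℤ) ^ (m + 1) = 2 ^ m + 2 ^ m := by ring
    have hm0 : (0 : ℤ) < 2 ^ m := by positivity
    by_cases hd : x0 ≤ p2 ∧ p2 + 2 ^ (m + 1) ≤ x1 ∧ y0 ≤ p0 ∧ p0 + 2 ^ (m + 1) ≤ y1
    · rw [if_pos]
      intro a b ha hb
      have ha' : (a : ℤ) ≤ 1 := by
        have : a ≤ 1 := Nat.le_of_lt_succ ha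
        exact_mod_cast this
      have hb' : (b : ℤ) ≤ 1 := by
        have : b ≤ 1 := Nat.le_of_lt_succ hb
        exact_mod_cast this
      have ha0 : (0 : ℤ) ≤ a := by positivity
      have hb0 : (0 : ℤ) ≤ b := by positivity
      have ka : (a : ℤ) * 2 ^ m ≤ 2 ^ m := by nlinarith
      have kb : (b : ℤ) * 2 ^ m ≤ 2 ^ m := by nlinarith
      have ka0 : (0 : ℤ) ≤ a * 2 ^ m := by positivity
      have kb0 : (0 : ℤ) ≤ b * 2 ^ m := by positivity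
      refine ⟨fun x hx y hy => ?_, ?_, ?_, ?_, ?_⟩
      · rw [Finset.mem_Ico] at hx hy
        exact hO x (Finset.mem_Ico.2 ⟨by linarith, by linarith⟩) y
          (Finset.mem_Ico.2 ⟨by linarith, by linarith⟩)
      · linarith [hd.1]
      · linarith [hd.2.1]
      · linarith [hd.2.2.1]
      · linarith [hd.2.2.2]
    · have hz : Lb3r A B C (2 ^ m) p0 p1 p2 = 0 := by
        refine lb3r_zero fun x hx y hy => ?_
        by_contra h0
        obtain ⟨h1, h2, h3, h4⟩ := sC x y h0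
        rw [Finset.mem_Ico] at hx hy
        exact hd ⟨by linarith, by linarith, by linarith, by linarith⟩
      rw [hz, abs_zero]
      split_ifs <;> exact le_rfl
  · rw [if_neg hg]
    split_ifs
    · exact abs_nonneg _
    · exact le_rfl

/-! ### gauge × line letter -/

/-- the boxes of a region see at most three nodes on a row -/
theorem row_sum_le {R : Finset Nd} {f : ℤ → ℝ} (hf : ∀ y, 0 ≤ f y) {A : ℝ} {m : ℕ}
    (hR : ∀ p ∈ R, p.1 = m → ∑ y ∈ iv p, f y ≤ A * 2 ^ m) (hA : 0 ≤ A) {b : ℤ} (hb : b ≠ 0)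
    (hb3 : |b| ≤ 3) (a u : ℤ) (h : ∀ y ∈ Ico u (u + (2 : ℤ) ^ m), a + b * y ∈ Rm R m) :
    ∑ y ∈ Ico u (u + (2 : ℤ) ^ m), f (a + b * y) ≤ 3 * A * 2 ^ m := by
  classical
  have hm0 : (0 : ℤ) < 2 ^ m := by positivity
  set c0 : ℤ := (a + b * u) / 2 ^ (m + 7) with hc0
  have h7 : (2 : ℤ) ^ (m + 7) = 128 * 2 ^ m := by rw [pow_add]; norm_num; ring
  have h7p : (0 : ℤ) < 2 ^ (m + 7) := by positivity
  -- the three nodes
  set P : Finset Nd := ({(m, c0 - 1), (m, c0), (m, c0 + 1)} : Finset Nd).filter (fun p => p ∈ R)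
    with hP
  have hmem : ∀ y ∈ Ico u (u + (2 : ℤ) ^ m), a + b * y ∈ P.biUnion iv := by
    intro y hy
    have h1 := h y hy
    rw [mem_Rm] at h1
    rw [Finset.mem_Ico] at hy
    have h2 : |b * (y - u)| ≤ 3 * 2 ^ m := by
      rw [abs_mul]
      exact mul_le_mul hb3 (abs_le.2 ⟨by linarith, by linarith⟩) (abs_nonneg _) (by norm_num)
    have h3 := abs_le.1 h2
    have e : a + b * y = a + b * u + b * (y - u) := by ring
    have q1 := Int.mul_ediv_add_emod (a + b * u) (2 ^ (m + 7))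
    have q2 := Int.emod_nonneg (a + b * u) h7p.ne'
    have q3 := Int.emod_lt_of_pos (a + b * u) h7p
    rw [← hc0] at q1
    have k1 : c0 - 1 ≤ (a + b * y) / 2 ^ (m + 7) := by
      apply Int.le_ediv_of_mul_le h7p
      rw [e]
      nlinarith [h3.1, h3.2]
    have k2 : (a + b * y) / 2 ^ (m + 7) ≤ c0 + 1 := by
      apply Int.le_of_lt_add_one
      apply Int.ediv_lt_of_lt_mul h7p
      rw [e]
      nlinarith [h3.1, h3.2]
    rw [Finset.mem_biUnion]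
    refine ⟨(m, (a + b * y) / 2 ^ (m + 7)), ?_, ?_⟩
    · rw [hP, Finset.mem_filter]
      refine ⟨?_, h1⟩
      have : (a + b * y) / 2 ^ (m + 7) = c0 - 1 ∨ (a + b * y) / 2 ^ (m + 7) = c0 ∨
          (a + b * y) / 2 ^ (m + 7) = c0 + 1 := by omega
      rcases this with h | h | h <;> rw [h] <;> simp
    · unfold iv
      rw [mem_dI_iff]
  have h1 : ∑ y ∈ Ico u (u + (2 : ℤ) ^ m), f (a + b * y) =
      ∑ z ∈ (Ico u (u + (2 : ℤ) ^ m)).image (fun y => a + b * y), f z := by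
    rw [Finset.sum_image]
    intro x _ y _ hxy
    have h3 : b * (x - y) = 0 := by
      have : a + b * x = a + b * y := hxy
      linarith
    rcases mul_eq_zero.1 h3 with h4 | h4
    · exact absurd h4 hb
    · linarith
  rw [h1]
  have hsub : (Ico u (u + (2 : ℤ) ^ m)).image (fun y => a + b * y) ⊆ P.biUnion iv := by
    intro z hz
    rw [Finset.mem_image] at hz
    obtain ⟨y, hy, rfl⟩ := hz
    exact hmem y hy
  refine (Finset.sum_le_sum_of_subset_of_nonneg hsub fun z _ _ => hf z).trans ?_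
  have hb1 : ∑ z ∈ P.biUnion iv, f z ≤ ∑ p ∈ P, ∑ z ∈ iv p, f z := by
    have hd : Set.PairwiseDisjoint (P : Set Nd) iv := by
      intro p hp q hq hpq
      rw [Function.onFun, Finset.disjoint_left]
      intro z hz hz'
      rw [Finset.mem_coe, hP, Finset.mem_filter] at hp hq
      unfold iv at hz hz'
      rw [mem_dI_iff] at hz hz'
      have e1 : p.1 = m := by
        have := hp.1
        simp only [Finset.mem_insert, Finset.mem_singleton] at this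
        rcases this with h | h | h <;> rw [h]
      have e2 : q.1 = m := by
        have := hq.1
        simp only [Finset.mem_insert, Finset.mem_singleton] at this
        rcases this with h | h | h <;> rw [h]
      apply hpq
      rw [e1] at hz
      rw [e2] at hz'
      exact Prod.ext (e1.trans e2.symm) (hz.symm.trans hz')
    rw [Finset.sum_biUnion hd]
  refine hb1.trans ?_
  have hcard : P.card ≤ 3 := (Finset.card_filter_le _ _).trans Finset.card_le_three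
  have hA2 : 0 ≤ A * 2 ^ m := by positivity
  calc ∑ p ∈ P, ∑ z ∈ iv p, f z ≤ ∑ _p ∈ P, A * 2 ^ m := by
        refine Finset.sum_le_sum fun p hp => ?_
        rw [hP, Finset.mem_filter] at hp
        refine hR p hp.2 ?_
        have := hp.1
        simp only [Finset.mem_insert, Finset.mem_singleton] at this
        rcases this with h | h | h <;> rw [h]
    _ = P.card * (A * 2 ^ m) := by rw [Finset.sum_const, nsmul_eq_mul]
    _ ≤ 3 * (A * 2 ^ m) := mul_le_mul_of_nonneg_right (by exact_mod_cast hcard) hA2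
    _ = _ := by ring

/-- Schur for real kernels on a box -/
theorem opZ_schur {C : ℤ → ℤ → ℝ} {N : ℕ} {q p : ℤ} {s : ℝ} (hs : 0 ≤ s)
    (hr : ∀ x ∈ Ico q (q + (N : ℤ)), ∑ y ∈ Ico p (p + (N : ℤ)), |C x y| ≤ s)
    (hc : ∀ y ∈ Ico p (p + (N : ℤ)), ∑ x ∈ Ico q (q + (N : ℤ)), |C x y| ≤ s) :
    OpZ C N q p s := by
  intro f g
  have h := opB_schur (K := fun x y => (C x y : ℂ)) (I := Ico q (q + (N : ℤ)))
    (J := Ico p (p + (N : ℤ))) hs (fun x hx => by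
      refine le_trans (le_of_eq ?_) (hr x hx)
      exact Finset.sum_congr rfl fun y _ => by rw [Complex.norm_real, Real.norm_eq_abs])
    (fun y hy => by
      refine le_trans (le_of_eq ?_) (hc y hy)
      exact Finset.sum_congr rfl fun x _ => by rw [Complex.norm_real, Real.norm_eq_abs])
    (fun x => (f x : ℂ)) (fun y => (g y : ℂ))
  have e1 : ∑ x ∈ Ico q (q + (N : ℤ)), ∑ y ∈ Ico p (p + (N : ℤ)),
      (f x : ℂ) * (C x y : ℂ) * (g y : ℂ) =
      ((∑ x ∈ Ico q (q + (N : ℤ)), ∑ y ∈ Ico p (p + (N : ℤ)), f x * C x y * g y : ℝ) : ℂ) := by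
    push_cast; rfl
  rw [e1, Complex.norm_real, Real.norm_eq_abs, sq_abs] at h
  refine h.trans (le_of_eq ?_)
  congr 2
  · exact Finset.sum_congr rfl fun x _ => by rw [Complex.norm_real, Real.norm_eq_abs, sq_abs]
  · exact Finset.sum_congr rfl fun x _ => by rw [Complex.norm_real, Real.norm_eq_abs, sq_abs]

end Crest.Agent.R079.TKx248
end

-- ▼ part R079/TKd_248
section

/-! R079 (helper248): UNIFORM KILLER, part 3: region sum with a product kernel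
`a(z0,z1) b(z1,z2) c(z2,z0)` in the frozen slot `k`, killer = the line letter of the slot `k1` (edge
`(z2,z0)`) with small local `L¹` averages, partners of height `≤ h`. -/

set_option autoImplicit false

namespace Crest.Agent.R079.TKx248

open Finset Crest.Agent.R079.Grid Crest.Agent.R079.Pot Crest.Agent.R079.Glue Crest.Agent.R079.GlueK
  Crest.Agent.R079.Growth Crest.Agent.R079.QRed Crest.Agent.R079.BadTx138 Crest.Agent.R079.KLx446
  Crest.Agent.R079.KC996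

lemma sl_bd4 (a b : Fin 4) : |sl a - sl b| ≤ 3 := by
  revert a b; decide

lemma cof_D4 {k k0 k1 k2 : Fin 4} (h : D4 k k0 k1 k2) :
    Cof (sl k - sl k1) (sl k2 - sl k1) (sl k0 - sl k1) := by
  have inj : ∀ a b : Fin 4, sl a = sl b → a = b := by decide
  refine ⟨?_, ?_, ?_, ?_, ?_, ?_, sl_bd4 _ _, sl_bd4 _ _, sl_bd4 _ _⟩
  · exact sub_ne_zero.2 fun e => h.h1 (inj _ _ e)
  · exact sub_ne_zero.2 fun e => h.h12 (inj _ _ e).symm
  · exact sub_ne_zero.2 fun e => h.h01 (inj _ _ e)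
  · intro e
    exact h.h0 (inj _ _ (by linarith))
  · intro e
    exact h.h2 (inj _ _ (by linarith))
  · intro e
    exact h.h02 (inj _ _ (by linarith)).symm

lemma abs_pr_le (σ : Bool) (z : ℂ) : |pr σ z| ≤ ‖z‖ := by
  unfold pr
  split_ifs
  · exact Complex.abs_re_le_norm z
  · exact Complex.abs_im_le_norm z

lemma pr_zero (σ : Bool) : pr σ 0 = 0 := by unfold pr; split_ifs <;> simp

/-- letters masked by the top -/
noncomputable def mk4 (k : Fin 4) (J : Nd) (F : Fin 4 → Fn) : Fin 4 → Fn :=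
  fun s y => if s = k then F k y else if y ∈ iv J then F s y else 0

lemma mk4_k (k : Fin 4) (J : Nd) (F : Fin 4 → Fn) : mk4 k J F k = F k := by
  funext y; simp [mk4]

lemma mk4_ne {k s : Fin 4} (h : s ≠ k) (J : Nd) (F : Fin 4 → Fn) (y : ℤ) :
    mk4 k J F s y = if y ∈ iv J then F s y else 0 := by simp [mk4, h]

lemma mk4_in (k s : Fin 4) {J : Nd} (F : Fin 4 → Fn) {y : ℤ} (hy : y ∈ iv J) :
    mk4 k J F s y = F s y := by
  unfold mk4
  split_ifs with h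
  · rw [h]
  · rfl

/-- energy of (kernel × masked line letter), summed over the frozen value -/
lemma sum_w_energy {J : Nd} {X : Fn} {e2 : ℝ} (he : ∑ y ∈ iv J, ‖X y‖ ^ 2 ≤ e2) {α : ℤ}
    (hα : α ≠ 0) (S : Finset (ℤ × ℤ)) (g : ℤ × ℤ → ℂ) (f : ℤ × ℤ → ℤ) (W : Finset ℤ) {G : ℝ}
    (hG : ∑ z ∈ S, ‖g z‖ ^ 2 ≤ G) :
    ∑ w ∈ W, ∑ z ∈ S, ‖g z * (if α * w + f z ∈ iv J then X (α * w + f z) else 0)‖ ^ 2 ≤ G * e2 := by
  classical
  have he0 : 0 ≤ e2 := (Finset.sum_nonneg fun _ _ => sq_nonneg _).trans he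
  rw [Finset.sum_comm]
  have h1 : ∀ z ∈ S, ∑ w ∈ W, ‖g z * (if α * w + f z ∈ iv J then X (α * w + f z) else 0)‖ ^ 2 ≤
      ‖g z‖ ^ 2 * e2 := by
    intro z _
    have e1 : ∀ w, ‖g z * (if α * w + f z ∈ iv J then X (α * w + f z) else 0)‖ ^ 2 =
        ‖g z‖ ^ 2 * (if α * w + f z ∈ iv J then ‖X (α * w + f z)‖ ^ 2 else 0) := by
      intro w
      rw [norm_mul, mul_pow]
      split_ifs <;> simp
    simp only [e1]
    rw [← Finset.mul_sum]
    refine mul_le_mul_of_nonneg_left ?_ (sq_nonneg _)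
    rw [← Finset.sum_filter]
    have e2' : ∑ w ∈ W.filter (fun w => α * w + f z ∈ iv J), ‖X (α * w + f z)‖ ^ 2 =
        ∑ y ∈ (W.filter (fun w => α * w + f z ∈ iv J)).image (fun w => α * w + f z), ‖X y‖ ^ 2 := by
      rw [Finset.sum_image]
      intro x _ y _ hxy
      have h3 : α * (x - y) = 0 := by
        have : α * x + f z = α * y + f z := hxy
        linarith
      rcases mul_eq_zero.1 h3 with h4 | h4
      · exact absurd h4 hα
      · linarith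
    rw [e2']
    refine (Finset.sum_le_sum_of_subset_of_nonneg ?_ fun _ _ _ => sq_nonneg _).trans he
    intro y hy
    rw [Finset.mem_image] at hy
    obtain ⟨w, hw, rfl⟩ := hy
    exact (Finset.mem_filter.1 hw).2
  refine (Finset.sum_le_sum h1).trans ?_
  rw [← Finset.sum_mul]
  exact mul_le_mul_of_nonneg_right hG he0

/-- number of frozen values seen -/
lemma card_w {J : Nd} {n : ℕ} (hn : 2 ^ J.1 ≤ n) {α β γ : ℤ} (hα : α ≠ 0) (hβ : |β| ≤ 3)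
    (hγ : |γ| ≤ 3) (t0 t1 : ℤ) (W : Finset ℤ)
    (hW : ∀ w ∈ W, ∃ z ∈ Ico t0 (t0 + (n : ℤ)), ∃ z' ∈ Ico t1 (t1 + (n : ℤ)),
      α * w + β * z + γ * z' ∈ iv J) : (W.card : ℝ) ≤ 141 * n := by
  classical
  have h2 : (1 : ℕ) ≤ 2 ^ J.1 := Nat.one_le_two_pow
  set lo : ℤ := J.2 * 2 ^ (J.1 + 7) - 6 * n with hlo
  set m : ℕ := 2 ^ (J.1 + 7) + 12 * n with hm
  have h1 : W.card ≤ (Ico lo (lo + (m : ℤ))).card := by
    refine Finset.card_le_card_of_injOn (fun w => α * w + β * t0 + γ * t1) ?_ ?_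
    · intro w hw
      obtain ⟨z, hz, z', hz', h⟩ := hW w (Finset.mem_coe.1 hw)
      rw [Finset.mem_Ico] at hz hz'
      have hiv : iv J = Ico (J.2 * 2 ^ (J.1 + 7)) ((J.2 + 1) * 2 ^ (J.1 + 7)) := rfl
      rw [hiv, Finset.mem_Ico] at h
      have b1 : |β * (z - t0)| ≤ 3 * n := by
        rw [abs_mul]
        exact mul_le_mul hβ (abs_le.2 ⟨by linarith, by linarith⟩) (abs_nonneg _) (by norm_num)
      have b2 : |γ * (z' - t1)| ≤ 3 * n := by
        rw [abs_mul]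
        exact mul_le_mul hγ (abs_le.2 ⟨by linarith, by linarith⟩) (abs_nonneg _) (by norm_num)
      have c1 := abs_le.1 b1
      have c2 := abs_le.1 b2
      rw [Finset.mem_coe, Finset.mem_Ico, hlo, hm]
      push_cast
      have e : α * w + β * z + γ * z' = (α * w + β * t0 + γ * t1) + β * (z - t0) + γ * (z' - t1) := by
        ring
      rw [e] at h
      constructor
      · linarith [h.1, c1.2, c2.2]
      · have : (J.2 + 1) * (2 : ℤ) ^ (J.1 + 7) = J.2 * 2 ^ (J.1 + 7) + 2 ^ (J.1 + 7) := by ring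
        rw [this] at h
        linarith [h.2, c1.1, c2.1]
    · intro x _ y _ hxy
      have h3 : α * (x - y) = 0 := by
        have : α * x + β * t0 + γ * t1 = α * y + β * t0 + γ * t1 := hxy
        linarith
      rcases mul_eq_zero.1 h3 with h4 | h4
      · exact absurd h4 hα
      · linarith
  rw [Int.card_Ico, show lo + (m : ℤ) - lo = m by ring, Int.toNat_natCast] at h1
  have h3 : W.card ≤ 141 * n := by
    have : 2 ^ (J.1 + 7) = 128 * 2 ^ J.1 := by rw [pow_add]; norm_num; ring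
    rw [hm, this] at h1
    omega
  exact_mod_cast h3

/-- masked letter -/
noncomputable def mk (J : Nd) (X : Fn) : Fn := fun y => if y ∈ iv J then X y else 0

lemma mk4_eq {k s : Fin 4} (h : s ≠ k) (J : Nd) (F : Fin 4 → Fn) : mk4 k J F s = mk J (F s) := by
  funext y; exact mk4_ne h J F y

lemma norm_mk_le (J : Nd) (X : Fn) (y : ℤ) : ‖mk J X y‖ ≤ ‖X y‖ := by
  unfold mk
  split_ifs
  · exact le_rfl
  · rw [norm_zero]; exact norm_nonneg _

/-- energy of a frozen kernel of a masked letter -/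
lemma fr4_energy {J : Nd} {X : Fn} {e2 : ℝ} (he : ∑ y ∈ iv J, ‖X y‖ ^ 2 ≤ e2) {α : ℤ} (hα : α ≠ 0)
    (β γ : ℤ) (T T' : Finset ℤ) (a : ℤ → ℤ → ℂ) (W : Finset ℤ) {G : ℝ}
    (hG : ∑ z ∈ T ×ˢ T', ‖a z.1 z.2‖ ^ 2 ≤ G) :
    ∑ w ∈ W, ∑ z ∈ T ×ˢ T', ‖fr4 T T' a (mk J X) α β γ w z.1 z.2‖ ^ 2 ≤ G * e2 := by
  refine le_trans (Finset.sum_le_sum fun w _ => Finset.sum_le_sum fun z hz => ?_)
    (sum_w_energy he hα (T ×ˢ T') (fun z => a z.1 z.2) (fun z => β * z.1 + γ * z.2) W hG)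
  rw [Finset.mem_product] at hz
  unfold fr4 mk
  rw [if_pos hz]
  have e : α * w + β * z.1 + γ * z.2 = α * w + (β * z.1 + γ * z.2) := by ring
  rw [e]

lemma fr4_sup {J : Nd} {X : Fn} {h Hg : ℝ} (hh : 0 < h) (hHg : 0 < Hg) (hX : ∀ y ∈ iv J, ‖X y‖ ≤ h)
    (α β γ : ℤ) (T T' : Finset ℤ) {a : ℤ → ℤ → ℂ} (ha : ∀ z z', ‖a z z'‖ ≤ Hg) (w x y : ℤ) :
    ‖fr4 T T' a (mk J X) α β γ w x y‖ ≤ Hg * h := by
  unfold fr4
  by_cases h1 : x ∈ T ∧ y ∈ T'
  · rw [if_pos h1, norm_mul]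
    refine mul_le_mul (ha _ _) ?_ (norm_nonneg _) hHg.le
    unfold mk
    by_cases h2 : α * w + β * x + γ * y ∈ iv J
    · rw [if_pos h2]; exact hX _ h2
    · rw [if_neg h2, norm_zero]; exact hh.le
  · rw [if_neg h1, norm_zero]; positivity

lemma fr4_le {X : Fn} (α β γ : ℤ) (T T' : Finset ℤ) {c : ℤ → ℤ → ℂ}
    (hc : ∀ z z', ‖c z z'‖ ≤ 1) (w x y : ℤ) :
    ‖fr4 T T' c X α β γ w x y‖ ≤ ‖X (α * w + β * x + γ * y)‖ := by
  unfold fr4
  by_cases h1 : x ∈ T ∧ y ∈ T'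
  · rw [if_pos h1, norm_mul]
    exact mul_le_of_le_one_left (norm_nonneg _) (hc _ _)
  · rw [if_neg h1, norm_zero]; exact norm_nonneg _

/-- operator bound of the killer -/
lemma opZ_fr4 {R : Finset Nd} {X : Fn} {A1 : ℝ} (hA1 : 0 ≤ A1)
    (hL1 : ∀ p ∈ R, ∑ y ∈ iv p, ‖X y‖ ≤ A1 * len p) {α β γ : ℤ} (hcof : Cof α β γ)
    (T T' : Finset ℤ) {c : ℤ → ℤ → ℂ} (hc : ∀ z z', ‖c z z'‖ ≤ 1) (σ : Bool) (w : ℤ) (m : ℕ)
    (q u : ℤ) (hO : Om R α β γ w m q u) :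
    OpZ (fun x y => pr σ (fr4 T T' c X α β γ w x y)) (2 ^ m) q u (2 ^ m * (384 * A1)) := by
  have hlen : ∀ p : Nd, len p = 128 * 2 ^ p.1 := by intro p; unfold len; ring
  have hn1 : ∀ p ∈ R, p.1 = m → ∑ y ∈ iv p, ‖X y‖ ≤ 128 * A1 * 2 ^ m := by
    intro p hp hpm
    refine (hL1 p hp).trans (le_of_eq ?_)
    rw [hlen p, hpm]; ring
  have e2 : (((2 : ℕ) ^ m : ℕ) : ℤ) = (2 : ℤ) ^ m := by push_cast; rfl
  refine opZ_schur (by positivity) (fun x hx => ?_) (fun y hy => ?_)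
  · rw [e2] at hx ⊢
    refine (Finset.sum_le_sum fun y _ => (abs_pr_le σ _).trans (fr4_le α β γ T T' hc w x y)).trans ?_
    exact (row_sum_le (f := fun z => ‖X z‖) (fun _ => norm_nonneg _) (m := m)
      (A := 128 * A1) hn1 (by positivity) hcof.γ0 hcof.γ3
      (α * w + β * x) u (fun y hy => hO x hx y hy)).trans (le_of_eq (by ring))
  · rw [e2] at hy ⊢
    refine (Finset.sum_le_sum fun x _ => (abs_pr_le σ _).trans (fr4_le α β γ T T' hc w x y)).trans ?_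
    have e3 : ∀ x, α * w + β * x + γ * y = (α * w + γ * y) + β * x := fun x => by ring
    simp only [e3]
    exact (row_sum_le (f := fun z => ‖X z‖) (fun _ => norm_nonneg _) (m := m)
      (A := 128 * A1) hn1 (by positivity) hcof.β0 hcof.β3
      (α * w + γ * y) q (fun x hx => by rw [← e3]; exact hO x hx y hy)).trans
      (le_of_eq (by ring))

/-- Hilbert–Schmidt bound of the killer -/
lemma hs_fr4 {R : Finset Nd} {X : Fn} {A2 : ℝ} (hA2 : 0 ≤ A2)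
    (hL2 : ∀ p ∈ R, ∑ y ∈ iv p, ‖X y‖ ^ 2 ≤ A2 * len p) {α β γ : ℤ} (hcof : Cof α β γ)
    (T T' : Finset ℤ) {c : ℤ → ℤ → ℂ} (hc : ∀ z z', ‖c z z'‖ ≤ 1) (σ : Bool) (w : ℤ) (m : ℕ)
    (q u : ℤ) (hO : Om R α β γ w m q u) :
    ∑ x ∈ Ico q (q + (2 : ℤ) ^ m), ∑ y ∈ Ico u (u + (2 : ℤ) ^ m),
      (pr σ (fr4 T T' c X α β γ w x y)) ^ 2 ≤ 4 ^ m * (384 * A2) := by
  have hlen : ∀ p : Nd, len p = 128 * 2 ^ p.1 := by intro p; unfold len; ring
  have hn2 : ∀ p ∈ R, p.1 = m → ∑ y ∈ iv p, ‖X y‖ ^ 2 ≤ 128 * A2 * 2 ^ m := by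
    intro p hp hpm
    refine (hL2 p hp).trans (le_of_eq ?_)
    rw [hlen p, hpm]; ring
  have hrow : ∀ x ∈ Ico q (q + (2 : ℤ) ^ m), ∑ y ∈ Ico u (u + (2 : ℤ) ^ m),
      (pr σ (fr4 T T' c X α β γ w x y)) ^ 2 ≤ 384 * A2 * 2 ^ m := by
    intro x hx
    have h1 : ∀ y ∈ Ico u (u + (2 : ℤ) ^ m), (pr σ (fr4 T T' c X α β γ w x y)) ^ 2 ≤
        ‖X (α * w + β * x + γ * y)‖ ^ 2 := by
      intro y _
      rw [← sq_abs]
      exact pow_le_pow_left₀ (abs_nonneg _) ((abs_pr_le σ _).trans (fr4_le α β γ T T' hc w x y)) 2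
    refine (Finset.sum_le_sum h1).trans ?_
    exact (row_sum_le (f := fun z => ‖X z‖ ^ 2) (fun _ => sq_nonneg _) (m := m)
      (A := 128 * A2) hn2 (by positivity) hcof.γ0 hcof.γ3
      (α * w + β * x) u (fun y hy => hO x hx y hy)).trans (le_of_eq (by ring))
  refine (Finset.sum_le_sum hrow).trans ?_
  rw [Finset.sum_const, nsmul_eq_mul]
  have e : ((Ico q (q + (2 : ℤ) ^ m)).card : ℝ) = 2 ^ m := by
    rw [Int.card_Ico, show q + (2 : ℤ) ^ m - q = ((2 ^ m : ℕ) : ℤ) by push_cast; ring,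
      Int.toNat_natCast]
    push_cast; rfl
  rw [e, show (4 : ℝ) ^ m = 2 ^ m * 2 ^ m by rw [← mul_pow]; norm_num]
  exact le_of_eq (by ring)

open Classical in
/-- **one frozen value**: gauge `|c| ≤ 1` times a line letter with small local `L¹` averages -/
theorem uni_one (hC : CornerZF) {l : ℤ} (hl : |l| ≤ 7) : ∃ K : ℝ, 0 ≤ K ∧
    ∀ (R : Finset Nd) (J : Nd), IsRegion R J → ∀ (α β γ : ℤ), Cof α β γ →
    ∀ (n : ℕ), 2 ^ J.1 ≤ n → ∀ (w t0 t1 t2 : ℤ) (A B : ℤ → ℤ → ℝ) (c : ℤ → ℤ → ℂ) (X : Fn)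
      (σ : Bool) (A1 A2 H a2 b2 : ℝ), 0 < A1 → 0 ≤ A2 → 0 < H →
    (∀ x y, A x y ≠ 0 → (x, y) ∈ Ico t0 (t0 + (n : ℤ)) ×ˢ Ico t1 (t1 + (n : ℤ))) →
    (∀ x y, B x y ≠ 0 → (x, y) ∈ Ico t1 (t1 + (n : ℤ)) ×ˢ Ico t2 (t2 + (n : ℤ))) →
    ∑ z ∈ Ico t0 (t0 + (n : ℤ)) ×ˢ Ico t1 (t1 + (n : ℤ)), A z.1 z.2 ^ 2 ≤ a2 →
    ∑ z ∈ Ico t1 (t1 + (n : ℤ)) ×ˢ Ico t2 (t2 + (n : ℤ)), B z.1 z.2 ^ 2 ≤ b2 →
    (∀ x y, |A x y| ≤ H) → (∀ x y, |B x y| ≤ H) → (∀ z z', ‖c z z'‖ ≤ 1) →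
    (∀ p ∈ R, ∑ y ∈ iv p, ‖X y‖ ≤ A1 * len p) → (∀ p ∈ R, ∑ y ∈ iv p, ‖X y‖ ^ 2 ≤ A2 * len p) →
    ∀ (Gm : ℕ → ℤ → ℤ → ℤ → Prop), (∀ m p0 p1 p2, Gm m p0 p1 p2 →
      ∀ x ∈ Ico p2 (p2 + 2 ^ (m + 1)), ∀ y ∈ Ico p0 (p0 + 2 ^ (m + 1)),
        α * w + β * x + γ * y ∈ Rm R m) →
    ∀ L1 : ℕ, Tw Gm A B (fun x y => pr σ (fr4 (Ico t2 (t2 + (n : ℤ))) (Ico t0 (t0 + (n : ℤ))) c X
        α β γ w x y)) (J.1 + 1) L1 l w ≤
      K * (1 + Real.log (1 + A2 * H ^ 2 / A1 ^ 2)) *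
        (384 * A1 * (√(a2 + 305 * (n * len J)) * √(b2 + 305 * (n * len J)))) := by
  obtain ⟨K, hK0, hK⟩ := tw_le hC hl
  refine ⟨K, hK0, ?_⟩
  intro R J hR α β γ hcof n hn w t0 t1 t2 A B c X σ A1 A2 H a2 b2 hA1 hA2 hH sA sB hA2' hB2' hA hB hc
    hL1 hL2 Gm hG L1
  have hlJ := Growth.len_pos J
  have hnJ : (2 : ℝ) ^ J.1 ≤ n := by exact_mod_cast hn
  have h2J : (0 : ℤ) < 2 ^ (J.1 + 1) := by positivity
  have hn0 : (0 : ℤ) ≤ n := by positivity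
  have h1 := hK R J hR α β γ hcof w (t2 - 2 ^ (J.1 + 1)) (t2 + n + 2 ^ (J.1 + 1))
    (t0 - 2 ^ (J.1 + 1)) (t0 + n + 2 ^ (J.1 + 1)) A B
    (fun x y => pr σ (fr4 (Ico t2 (t2 + (n : ℤ))) (Ico t0 (t0 + (n : ℤ))) c X α β γ w x y))
    _ _ (384 * A1) (384 * A2) H 1 a2 b2 (by linarith) (by positivity) (by positivity) hH one_pos
    sA sB (fun x y hxy => ?_) hA2' hB2' hA hB
    (fun m q u hO => opZ_fr4 hA1.le hL1 hcof _ _ hc σ w m q u hO)
    (fun m q u hO => hs_fr4 hA2 hL2 hcof _ _ hc σ w m q u hO) Gm hG L1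
  · refine h1.trans ?_
    have hcard : ((Ico (t2 - 2 ^ (J.1 + 1)) (t2 + (n : ℤ) + 2 ^ (J.1 + 1))).card : ℝ) ≤ 5 * n := by
      have e : (Ico (t2 - 2 ^ (J.1 + 1)) (t2 + (n : ℤ) + 2 ^ (J.1 + 1))).card =
          n + 2 ^ (J.1 + 2) := by
        rw [Int.card_Ico, show t2 + (n : ℤ) + 2 ^ (J.1 + 1) - (t2 - 2 ^ (J.1 + 1)) =
          ((n + 2 ^ (J.1 + 2) : ℕ) : ℤ) by push_cast; ring]
        exact Int.toNat_natCast _
      rw [e]
      push_cast
      have : (2 : ℝ) ^ (J.1 + 2) = 4 * 2 ^ J.1 := by ring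
      rw [this]
      linarith
    have hAr : 1 * (61 * (((Ico (t2 - 2 ^ (J.1 + 1)) (t2 + (n : ℤ) + 2 ^ (J.1 + 1))).card : ℝ) *
        len J)) ≤ 305 * (n * len J) := by
      have := mul_le_mul_of_nonneg_right hcard hlJ.le
      linarith
    have hX0 : 0 ≤ A2 * H ^ 2 / A1 ^ 2 := by positivity
    have e : 384 * A2 * H ^ 2 / ((384 * A1) ^ 2 * 1) = (A2 * H ^ 2 / A1 ^ 2) * (1 / 384) := by
      field_simp
    have hX1 : 384 * A2 * H ^ 2 / ((384 * A1) ^ 2 * 1) ≤ A2 * H ^ 2 / A1 ^ 2 := by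
      rw [e]; linarith
    have hX2 : 0 ≤ 384 * A2 * H ^ 2 / ((384 * A1) ^ 2 * 1) := by
      rw [e]; positivity
    have hlog : 1 + Real.log (1 + 384 * A2 * H ^ 2 / ((384 * A1) ^ 2 * 1)) ≤
        1 + Real.log (1 + A2 * H ^ 2 / A1 ^ 2) :=
      add_le_add le_rfl (Real.log_le_log (by linarith) (add_le_add le_rfl hX1))
    have hlog0 : 0 ≤ Real.log (1 + A2 * H ^ 2 / A1 ^ 2) := Real.log_nonneg (by linarith)
    have hs1 := Real.sqrt_le_sqrt (add_le_add (le_refl a2) hAr)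
    have hs2 := Real.sqrt_le_sqrt (add_le_add (le_refl b2) hAr)
    rw [mul_assoc (384 * A1)]
    refine mul_le_mul (mul_le_mul_of_nonneg_left hlog hK0) ?_ (by positivity)
      (mul_nonneg hK0 (by linarith))
    refine mul_le_mul_of_nonneg_left ?_ (by positivity)
    exact mul_le_mul hs1 hs2 (Real.sqrt_nonneg _) (Real.sqrt_nonneg _)
  · have hm : x ∈ Ico t2 (t2 + (n : ℤ)) ∧ y ∈ Ico t0 (t0 + (n : ℤ)) := by
      by_contra hcon
      apply hxy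
      simp only [fr4]
      rw [if_neg hcon, pr_zero]
    rw [Finset.mem_Ico, Finset.mem_Ico] at hm
    exact ⟨by linarith [hm.1.1], by linarith [hm.1.2], by linarith [hm.2.1], by linarith [hm.2.2]⟩

/-- the word vanishes if the first kernel vanishes -/
lemma tw_zero {Gm : ℕ → ℤ → ℤ → ℤ → Prop} {A B C : ℤ → ℤ → ℝ} (h : ∀ x y, A x y = 0) (M L1 : ℕ)
    (l w : ℤ) : Tw Gm A B C M L1 l w = 0 := by
  classical
  unfold Tw
  refine Finset.sum_eq_zero fun m _ => ?_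
  rw [Finset.sum_eq_zero, mul_zero]
  intro i _
  refine Finset.sum_eq_zero fun p0 _ => Finset.sum_eq_zero fun p1 _ => ?_
  have hz : Lb3r A B C (2 ^ m) p0 p1 (l * 2 ^ m + (i : ℤ) - w - p0 - p1) = 0 := by
    unfold Lb3r
    rw [Finset.sum_eq_zero, mul_zero]
    intro i0 _
    refine Finset.sum_eq_zero fun i1 _ => Finset.sum_eq_zero fun i2 _ => ?_
    simp only [h, zero_mul, mul_zero]
  rw [hz, abs_zero]
  split_ifs <;> rfl

/-- Cauchy–Schwarz over the frozen values, with floor -/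
lemma cs_floor {W : Finset ℤ} {a2 b2 : ℤ → ℝ} {n : ℕ} {L : ℝ} (hL : 0 ≤ L)
    (hcard : (W.card : ℝ) ≤ 141 * n) (ha0 : ∀ w, 0 ≤ a2 w) (hb0 : ∀ w, 0 ≤ b2 w)
    (ha : ∑ w ∈ W, a2 w ≤ (n : ℝ) ^ 2 * L) (hb : ∑ w ∈ W, b2 w ≤ (n : ℝ) ^ 2 * L) :
    ∑ w ∈ W, √(a2 w + 305 * (n * L)) * √(b2 w + 305 * (n * L)) ≤ 43006 * ((n : ℝ) ^ 2 * L) := by
  have hAr0 : (0 : ℝ) ≤ 305 * (n * L) := by positivity
  have hEn : ∀ (e2 : ℤ → ℝ), ∑ w ∈ W, e2 w ≤ (n : ℝ) ^ 2 * L →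
      ∑ w ∈ W, (e2 w + 305 * (n * L)) ≤ 43006 * ((n : ℝ) ^ 2 * L) := by
    intro e2 he
    rw [Finset.sum_add_distrib, Finset.sum_const, nsmul_eq_mul]
    have h1 : (W.card : ℝ) * (305 * (n * L)) ≤ 141 * n * (305 * (n * L)) :=
      mul_le_mul_of_nonneg_right hcard hAr0
    have h2 : (141 : ℝ) * n * (305 * (n * L)) = 43005 * ((n : ℝ) ^ 2 * L) := by ring
    linarith
  have h1 := hEn a2 ha
  have h2 := hEn b2 hb
  have h3 := Finset.sum_mul_sq_le_sq_mul_sq W (fun w => √(a2 w + 305 * (n * L)))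
    (fun w => √(b2 w + 305 * (n * L)))
  have e1 : ∑ w ∈ W, √(a2 w + 305 * (n * L)) ^ 2 = ∑ w ∈ W, (a2 w + 305 * (n * L)) :=
    Finset.sum_congr rfl fun w _ => Real.sq_sqrt (add_nonneg (ha0 w) hAr0)
  have e2 : ∑ w ∈ W, √(b2 w + 305 * (n * L)) ^ 2 = ∑ w ∈ W, (b2 w + 305 * (n * L)) :=
    Finset.sum_congr rfl fun w _ => Real.sq_sqrt (add_nonneg (hb0 w) hAr0)
  rw [e1, e2] at h3
  have h4 : (∑ w ∈ W, √(a2 w + 305 * (n * L)) * √(b2 w + 305 * (n * L))) ^ 2 ≤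
      (43006 * ((n : ℝ) ^ 2 * L)) ^ 2 := by
    refine h3.trans ?_
    rw [sq (43006 * ((n : ℝ) ^ 2 * L))]
    exact mul_le_mul h1 h2 (Finset.sum_nonneg fun w _ => add_nonneg (hb0 w) hAr0) (by positivity)
  exact (abs_le_of_sq_le_sq' h4 (by positivity)).2

open Classical in
/-- **REGION SUM, UNIFORM KILLER** -/
theorem uni_region (hC : CornerZF) : ∃ K : ℝ, 0 ≤ K ∧ ∀ (k k0 k1 k2 : Fin 4), D4 k k0 k1 k2 →
    ∀ (bb : ℤ), bb = -1 ∨ bb = -7 → ∀ (R : Finset Nd) (J : Nd), IsRegion R J →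
    ∀ (n : ℕ), 2 ^ J.1 ≤ n → ∀ (t0 t1 t2 : ℤ) (a b c : ℤ → ℤ → ℂ) (F : Fin 4 → Fn)
      (A1 A2 Hg h : ℝ), 0 < A1 → 0 ≤ A2 → 0 < Hg → 0 < h →
    F k = kerF4 k k0 k1 k2 1 (Ico t0 (t0 + (n : ℤ))) (Ico t1 (t1 + (n : ℤ)))
      (Ico t2 (t2 + (n : ℤ))) (fun z0 z1 z2 => a z0 z1 * b z1 z2 * c z2 z0) →
    (∀ z z', ‖c z z'‖ ≤ 1) → (∀ z z', ‖a z z'‖ ≤ Hg) → (∀ z z', ‖b z z'‖ ≤ Hg) →
    ∑ z ∈ Ico t0 (t0 + (n : ℤ)) ×ˢ Ico t1 (t1 + (n : ℤ)), ‖a z.1 z.2‖ ^ 2 ≤ (n : ℝ) ^ 2 →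
    ∑ z ∈ Ico t1 (t1 + (n : ℤ)) ×ˢ Ico t2 (t2 + (n : ℤ)), ‖b z.1 z.2‖ ^ 2 ≤ (n : ℝ) ^ 2 →
    (∀ p ∈ R, ∑ y ∈ iv p, ‖F k1 y‖ ≤ A1 * len p) →
    (∀ p ∈ R, ∑ y ∈ iv p, ‖F k1 y‖ ^ 2 ≤ A2 * len p) →
    (∀ y ∈ iv J, ‖F k2 y‖ ≤ h) → (∀ y ∈ iv J, ‖F k0 y‖ ≤ h) →
    ∑ y ∈ iv J, ‖F k2 y‖ ^ 2 ≤ len J → ∑ y ∈ iv J, ‖F k0 y‖ ^ 2 ≤ len J →
    ∑ p ∈ R, ∑ x ∈ adm p.1 p.2, ‖Lbox (2 ^ p.1) bb F x‖ ≤
      K * (1 + Real.log (1 + A2 * (Hg * h) ^ 2 / A1 ^ 2)) * (A1 * ((n : ℝ) ^ 2 * len J)) := by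
  have hK : ∀ l : ℤ, ∃ K : ℝ, 0 ≤ K ∧ (|l| ≤ 7 → ∀ (R : Finset Nd) (J : Nd), IsRegion R J →
    ∀ (α β γ : ℤ), Cof α β γ →
    ∀ (n : ℕ), 2 ^ J.1 ≤ n → ∀ (w t0 t1 t2 : ℤ) (A B : ℤ → ℤ → ℝ) (c : ℤ → ℤ → ℂ) (X : Fn)
      (σ : Bool) (A1 A2 H a2 b2 : ℝ), 0 < A1 → 0 ≤ A2 → 0 < H →
    (∀ x y, A x y ≠ 0 → (x, y) ∈ Ico t0 (t0 + (n : ℤ)) ×ˢ Ico t1 (t1 + (n : ℤ))) →
    (∀ x y, B x y ≠ 0 → (x, y) ∈ Ico t1 (t1 + (n : ℤ)) ×ˢ Ico t2 (t2 + (n : ℤ))) →
    ∑ z ∈ Ico t0 (t0 + (n : ℤ)) ×ˢ Ico t1 (t1 + (n : ℤ)), A z.1 z.2 ^ 2 ≤ a2 →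
    ∑ z ∈ Ico t1 (t1 + (n : ℤ)) ×ˢ Ico t2 (t2 + (n : ℤ)), B z.1 z.2 ^ 2 ≤ b2 →
    (∀ x y, |A x y| ≤ H) → (∀ x y, |B x y| ≤ H) → (∀ z z', ‖c z z'‖ ≤ 1) →
    (∀ p ∈ R, ∑ y ∈ iv p, ‖X y‖ ≤ A1 * len p) → (∀ p ∈ R, ∑ y ∈ iv p, ‖X y‖ ^ 2 ≤ A2 * len p) →
    ∀ (Gm : ℕ → ℤ → ℤ → ℤ → Prop), (∀ m p0 p1 p2, Gm m p0 p1 p2 →
      ∀ x ∈ Ico p2 (p2 + 2 ^ (m + 1)), ∀ y ∈ Ico p0 (p0 + 2 ^ (m + 1)),
        α * w + β * x + γ * y ∈ Rm R m) →
    ∀ L1 : ℕ, Tw Gm A B (fun x y => pr σ (fr4 (Ico t2 (t2 + (n : ℤ))) (Ico t0 (t0 + (n : ℤ))) c X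
        α β γ w x y)) (J.1 + 1) L1 l w ≤
      K * (1 + Real.log (1 + A2 * H ^ 2 / A1 ^ 2)) *
        (384 * A1 * (√(a2 + 305 * (n * len J)) * √(b2 + 305 * (n * len J))))) := by
    intro l
    by_cases hl : |l| ≤ 7
    · obtain ⟨K, h0, h1⟩ := uni_one hC hl
      exact ⟨K, h0, fun _ => h1⟩
    · exact ⟨0, le_rfl, fun h => absurd h hl⟩
  choose KK hKK0 hKK using hK
  set K1 : ℝ := ∑ l ∈ Icc (-7 : ℤ) 7, KK l with hK1
  have hK1l : ∀ l : ℤ, |l| ≤ 7 → KK l ≤ K1 := by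
    intro l hl
    refine Finset.single_le_sum (f := KK) (fun l _ => hKK0 l) ?_
    rw [Finset.mem_Icc]
    exact abs_le.1 hl
  have hK10 : 0 ≤ K1 := Finset.sum_nonneg fun l _ => hKK0 l
  refine ⟨8 * (K1 * 384 * 43006), by positivity, ?_⟩
  intro k k0 k1 k2 hD bb hbb R J hR n hn t0 t1 t2 a b c F A1 A2 Hg h hA1 hA2 hHg hh hFk hc1 ha hb
    ha2 hb2 hL1 hL2 hh2 hh0 he2 he0
  have hlJ := Growth.len_pos J
  have inj : ∀ a b : Fin 4, sl a = sl b → a = b := by decide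
  have hk2 : k2 ≠ k := hD.h2.symm
  have hk0 : k0 ≠ k := hD.h0.symm
  have hk1 : k1 ≠ k := hD.h1.symm
  -- masked letters
  have hbox : ∀ p ∈ R, ∀ x ∈ adm p.1 p.2,
      ‖Lbox (2 ^ p.1) bb F x‖ = ‖Lbox (2 ^ p.1) bb (mk4 k J F) x‖ := by
    intro p hp x hx
    rw [Qb247.Lbox_congr p.1 p.2 bb x hbb hx F (mk4 k J F) fun s y hy =>
      (mk4_in k s F (hR.1 p hp hy)).symm]
  rw [Finset.sum_congr rfl fun p hp => Finset.sum_congr rfl fun x hx => hbox p hp x hx]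
  have hX0 : 0 ≤ A2 * (Hg * h) ^ 2 / A1 ^ 2 := by positivity
  have hlog0 : 0 ≤ Real.log (1 + A2 * (Hg * h) ^ 2 / A1 ^ 2) := Real.log_nonneg (by linarith)
  have hmain := region_words hD (K1 * (1 + Real.log (1 + A2 * (Hg * h) ^ 2 / A1 ^ 2)) *
      (384 * A1 * (43006 * ((n : ℝ) ^ 2 * len J)))) bb hbb R J hR (Ico t0 (t0 + (n : ℤ)))
      (Ico t1 (t1 + (n : ℤ))) (Ico t2 (t2 + (n : ℤ))) a b c (mk4 k J F) ?_ 1 zero_le_one
    (by rw [mk4_k]; exact hFk)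
  · exact hmain.trans (le_of_eq (by ring))
  intro l hl σ0 σ1 σ2 Wf L1
  set a2 : ℤ → ℝ := fun w => ∑ z ∈ Ico t0 (t0 + (n : ℤ)) ×ˢ Ico t1 (t1 + (n : ℤ)),
    ‖kA k k0 k1 k2 (Ico t0 (t0 + (n : ℤ))) (Ico t1 (t1 + (n : ℤ))) a (mk4 k J F) w z.1 z.2‖ ^ 2
    with ha2d
  set b2 : ℤ → ℝ := fun w => ∑ z ∈ Ico t1 (t1 + (n : ℤ)) ×ˢ Ico t2 (t2 + (n : ℤ)),
    ‖kB k k0 k1 k2 (Ico t1 (t1 + (n : ℤ))) (Ico t2 (t2 + (n : ℤ))) b (mk4 k J F) w z.1 z.2‖ ^ 2
    with hb2d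
  have hone : ∀ w, Tw (fun m p0 p1 p2 => Gd k k0 k1 k2 R m w p0 p1 p2)
        (fun z z' => pr σ0 (kA k k0 k1 k2 (Ico t0 (t0 + (n : ℤ))) (Ico t1 (t1 + (n : ℤ))) a
          (mk4 k J F) w z z'))
        (fun z z' => pr σ1 (kB k k0 k1 k2 (Ico t1 (t1 + (n : ℤ))) (Ico t2 (t2 + (n : ℤ))) b
          (mk4 k J F) w z z'))
        (fun z z' => pr σ2 (kC k k0 k1 k2 (Ico t2 (t2 + (n : ℤ))) (Ico t0 (t0 + (n : ℤ))) c
          (mk4 k J F) w z z')) (J.1 + 1) L1 l w ≤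
      K1 * (1 + Real.log (1 + A2 * (Hg * h) ^ 2 / A1 ^ 2)) *
        (384 * A1 * (√(a2 w + 305 * (n * len J)) * √(b2 w + 305 * (n * len J)))) := by
    intro w
    have h1 := hKK l hl R J hR (sl k - sl k1) (sl k2 - sl k1) (sl k0 - sl k1) (cof_D4 hD) n hn w
      t0 t1 t2
      (fun z z' => pr σ0 (kA k k0 k1 k2 (Ico t0 (t0 + (n : ℤ))) (Ico t1 (t1 + (n : ℤ))) a
          (mk4 k J F) w z z'))
      (fun z z' => pr σ1 (kB k k0 k1 k2 (Ico t1 (t1 + (n : ℤ))) (Ico t2 (t2 + (n : ℤ))) b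
          (mk4 k J F) w z z')) c (mk4 k J F k1) σ2 A1 A2 (Hg * h) (a2 w) (b2 w) hA1 hA2
      (by positivity) ?_ ?_ ?_ ?_ ?_ ?_ hc1 ?_ ?_
      (fun m p0 p1 p2 => Gd k k0 k1 k2 R m w p0 p1 p2) ?_ L1
    · refine h1.trans ?_
      exact mul_le_mul_of_nonneg_right (mul_le_mul_of_nonneg_right (hK1l l hl) (by linarith))
        (by positivity)
    · intro x y hxy
      rw [Finset.mem_product]
      by_contra hcon
      apply hxy
      simp only [kA, fr4]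
      rw [if_neg (fun h => hcon ⟨h.1, h.2⟩), pr_zero]
    · intro x y hxy
      rw [Finset.mem_product]
      by_contra hcon
      apply hxy
      simp only [kB, fr4]
      rw [if_neg (fun h => hcon ⟨h.1, h.2⟩), pr_zero]
    · refine Finset.sum_le_sum fun z _ => ?_
      rw [← sq_abs]
      exact pow_le_pow_left₀ (abs_nonneg _) (abs_pr_le _ _) 2
    · refine Finset.sum_le_sum fun z _ => ?_
      rw [← sq_abs]
      exact pow_le_pow_left₀ (abs_nonneg _) (abs_pr_le _ _) 2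
    · intro x y
      refine (abs_pr_le _ _).trans ?_
      unfold kA
      rw [mk4_eq hk2]
      exact fr4_sup hh hHg hh2 _ _ _ _ _ ha w x y
    · intro x y
      refine (abs_pr_le _ _).trans ?_
      unfold kB
      rw [mk4_eq hk0]
      exact fr4_sup hh hHg hh0 _ _ _ _ _ hb w x y
    · intro p hp
      rw [mk4_eq hk1]
      exact (Finset.sum_le_sum fun y _ => norm_mk_le J (F k1) y).trans (hL1 p hp)
    · intro p hp
      rw [mk4_eq hk1]
      exact (Finset.sum_le_sum fun y _ =>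
        pow_le_pow_left₀ (norm_nonneg _) (norm_mk_le J (F k1) y) 2).trans (hL2 p hp)
    · intro m p0 p1 p2 hg x hx y hy
      rw [Finset.mem_Ico] at hx hy
      have := (hg (y - p0) 0 (x - p2) (by linarith) (by linarith) le_rfl (by positivity)
        (by linarith) (by linarith)).2.2
      unfold sha at this
      rw [show p2 + (x - p2) = x by ring, show p0 + (y - p0) = y by ring] at this
      exact this
  -- the frozen values that matter
  set Wa : Finset ℤ := Wf.filter (fun w => ∃ z ∈ Ico t0 (t0 + (n : ℤ)) ×ˢ Ico t1 (t1 + (n : ℤ)),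
    kA k k0 k1 k2 (Ico t0 (t0 + (n : ℤ))) (Ico t1 (t1 + (n : ℤ))) a (mk4 k J F) w z.1 z.2 ≠ 0)
    with hWa
  have hA0 : ∀ w ∈ Wf, w ∉ Wa → ∀ x y, pr σ0 (kA k k0 k1 k2 (Ico t0 (t0 + (n : ℤ)))
      (Ico t1 (t1 + (n : ℤ))) a (mk4 k J F) w x y) = 0 := by
    intro w hw hwa x y
    by_cases hm : x ∈ Ico t0 (t0 + (n : ℤ)) ∧ y ∈ Ico t1 (t1 + (n : ℤ))
    · have : kA k k0 k1 k2 (Ico t0 (t0 + (n : ℤ))) (Ico t1 (t1 + (n : ℤ))) a (mk4 k J F) w x y =
          0 := by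
        by_contra h0
        exact hwa (Finset.mem_filter.2 ⟨hw, (x, y), Finset.mem_product.2 hm, h0⟩)
      rw [this, pr_zero]
    · simp only [kA, fr4]
      rw [if_neg hm, pr_zero]
  rw [← Finset.sum_subset (Finset.filter_subset _ _ : Wa ⊆ Wf) fun w hw hwa =>
    tw_zero (hA0 w hw hwa) _ _ _ _]
  have hcardW : (Wa.card : ℝ) ≤ 141 * n := by
    refine card_w hn (α := sl k - sl k2) (β := sl k0 - sl k2) (γ := sl k1 - sl k2)
      (sub_ne_zero.2 fun e => hD.h2 (inj _ _ e)) (sl_bd4 _ _) (sl_bd4 _ _) t0 t1 Wa fun w hw => ?_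
    obtain ⟨z, hz, h0⟩ := (Finset.mem_filter.1 hw).2
    rw [Finset.mem_product] at hz
    refine ⟨z.1, hz.1, z.2, hz.2, ?_⟩
    by_contra hcon
    apply h0
    unfold kA fr4
    rw [mk4_eq hk2, if_pos hz]
    unfold mk
    rw [if_neg hcon, mul_zero]
  have hsA : ∑ w ∈ Wa, a2 w ≤ (n : ℝ) ^ 2 * len J := by
    simp only [ha2d, kA]
    rw [mk4_eq hk2]
    exact fr4_energy he2 (sub_ne_zero.2 fun e => hD.h2 (inj _ _ e)) _ _ _ _ _ _ ha2
  have hsB : ∑ w ∈ Wa, b2 w ≤ (n : ℝ) ^ 2 * len J := by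
    simp only [hb2d, kB]
    rw [mk4_eq hk0]
    exact fr4_energy he0 (sub_ne_zero.2 fun e => hD.h0 (inj _ _ e)) _ _ _ _ _ _ hb2
  have hCS := cs_floor (n := n) hlJ.le hcardW (a2 := a2) (b2 := b2)
    (fun w => Finset.sum_nonneg fun _ _ => sq_nonneg _)
    (fun w => Finset.sum_nonneg fun _ _ => sq_nonneg _) hsA hsB
  refine (Finset.sum_le_sum fun w _ => hone w).trans ?_
  rw [← Finset.mul_sum, ← Finset.mul_sum]
  refine mul_le_mul_of_nonneg_left ?_ (mul_nonneg hK10 (by linarith))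
  exact mul_le_mul_of_nonneg_left hCS (by positivity)

end Crest.Agent.R079.TKx248
end

-- ▼ part R079/TKe_248
section

/-! R079 (helper248): TALL KILL for MIXTURES OF OP-ATOMS.  `word3` : the frozen letter is a core mixture
(`Rc`), one of the three other letters (any slot `s`) has small local `L¹` averages `≤ A1` on the region,
the two others are bounded by `h`, all three have local `L²` averages `≤ 1`:
`|TR| ≤ K La (1 + log (1 + Hf Ht h² / A1²)) A1 |J|`. -/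

set_option autoImplicit false

namespace Crest.Agent.R079.TKx248

open Finset Crest.Agent.R079.Grid Crest.Agent.R079.Pot Crest.Agent.R079.Glue Crest.Agent.R079.GlueK
  Crest.Agent.R079.Growth Crest.Agent.R079.QRed Crest.Agent.R079.BadTx138 Crest.Agent.R079.KLx446
  Crest.Agent.R079.KC996 Crest.Agent.R079.OpS276 Crest.Agent.R079.OLevSw Crest.Agent.R079.POx263

/-- the corner with floors, unconditional -/
theorem cornerZF : CornerZF := cornerZF_of Crest.Agent.R079.KTx279.cornerZ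

/-- an operator atom as a letter with kernel -/
theorem opA_kerF4 (k j e e' : Fin 4) (n : ℕ) (w q u : ℤ) (m : ℤ → ℤ → ℂ)
    (U V : Fin n → Fin n → ℂ) : opA k j e e' n w q u m U V =
      kerF4 k e' j e 1 (Ico u (u + (n : ℤ))) (Ico w (w + (n : ℤ))) (Ico q (q + (n : ℤ)))
        (fun z0 z1 z2 => DicOp679.ext w u V z1 z0 * DicOp679.ext w q U z1 z2 * m z2 z0) := by
  funext y
  unfold opA kerF4
  simp only [OLevSw.sum_Ico_fin, DicOp679.ext_val]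
  rw [Complex.ofReal_one, one_mul]
  have e : ∀ g : Fin n → Fin n → Fin n → ℂ, ∑ c, ∑ i, ∑ i', g c i i' =
      ∑ i', ∑ c, ∑ i, g c i i' := by
    intro g
    calc ∑ c, ∑ i, ∑ i', g c i i' = ∑ c, ∑ i', ∑ i, g c i i' :=
          Finset.sum_congr rfl fun c _ => Finset.sum_comm
      _ = _ := Finset.sum_comm
  rw [e]
  refine Finset.sum_congr rfl fun i' _ => Finset.sum_congr rfl fun c _ =>
    Finset.sum_congr rfl fun i _ => ?_
  unfold lf4
  refine ite_congr (propext ⟨fun h => ?_, fun h => ?_⟩) (fun _ => by ring) fun _ => rfl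
  · linarith
  · linarith

/-- energy of a section -/
theorem ext_energy {n : ℕ} (w q : ℤ) (U : Fin n → Fin n → ℂ) {α : Fin n → ℝ}
    (h : ∀ c, ∑ i, ‖U c i‖ ^ 2 ≤ n * α c) (hα : ∑ c, α c ≤ n) :
    ∑ z ∈ Ico w (w + (n : ℤ)) ×ˢ Ico q (q + (n : ℤ)), ‖DicOp679.ext w q U z.1 z.2‖ ^ 2 ≤
      (n : ℝ) ^ 2 := by
  rw [Finset.sum_product, OLevSw.sum_Ico_fin]
  have h1 : ∀ c : Fin n, ∑ y ∈ Ico q (q + (n : ℤ)),
      ‖DicOp679.ext w q U (w + ((c : ℕ) : ℤ)) y‖ ^ 2 ≤ n * α c := by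
    intro c
    rw [OLevSw.sum_Ico_fin]
    simp only [DicOp679.ext_val]
    exact h c
  calc _ ≤ ∑ c : Fin n, n * α c := Finset.sum_le_sum fun c _ => h1 c
    _ = n * ∑ c, α c := by rw [Finset.mul_sum]
    _ ≤ n * n := mul_le_mul_of_nonneg_left hα (Nat.cast_nonneg n)
    _ = (n : ℝ) ^ 2 := by ring

theorem en_of_av {p : Nd} {X : Fn} (h : av p X ≤ 1) : ∑ x ∈ iv p, ‖X x‖ ^ 2 ≤ len p := by
  unfold av av2 at h
  rw [Real.sqrt_le_left zero_le_one, one_div, inv_mul_le_iff₀ (by positivity)] at h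
  unfold iv len
  linarith

theorem len_mono {J I : Nd} (h : iv J ⊆ iv I) : J.1 ≤ I.1 := by
  have h0 : ((iv J).card : ℝ) ≤ (iv I).card := by exact_mod_cast Finset.card_le_card h
  rw [Growth.card_iv, Growth.card_iv] at h0
  have h1 : 2 ^ (J.1 + 7) ≤ 2 ^ (I.1 + 7) := by
    unfold len at h0
    exact_mod_cast h0
  have h2 := (Nat.pow_le_pow_iff_right (by norm_num : 1 < 2)).1 h1
  omega

open Classical in
/-- one unit atom, special vertex `s` = killer slot -/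
theorem word1 : ∃ K : ℝ, 0 ≤ K ∧ ∀ (i s e e' : Fin 4), Dst4 i s e e' →
    ∀ {bb : ℤ} {ε : ℕ → ℤ → ℂ}, Adm bb ε → ∀ (W : Finset Nd) (J : Nd), Full W J →
    ∀ (n : ℕ), 2 ^ J.1 ≤ n → ∀ (F : Fin 4 → Fn) (Ht Hf A1 h : ℝ), 0 < Ht → 0 < Hf → 0 < A1 → 0 < h →
    IsOpS i s e e' n Ht Hf (F i) →
    (∀ p ∈ W, ∑ y ∈ iv p, ‖F s y‖ ≤ A1 * len p) →
    (∀ j, j ≠ i → ∀ p ∈ W, av p (F j) ≤ 1) →
    (∀ j, j ≠ i → j ≠ s → ∀ y ∈ iv J, ‖F j y‖ ≤ h) →
    ‖TR bb ε W F‖ ≤ K * (1 + Real.log (1 + Hf * Ht * h ^ 2 / A1 ^ 2)) *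
      (A1 * ((n : ℝ) ^ 2 * len J)) := by
  obtain ⟨K, hK0, hK⟩ := uni_region cornerZF
  refine ⟨K, hK0, ?_⟩
  intro i s e e' hd bb ε hA W J hW n hn F Ht Hf A1 h hHt hHf hA1 hh hF hL1 hav hhh
  obtain ⟨w, q, u, m, U, V, α, hD, hFi⟩ := hF
  have hD4 : D4 i e' s e := ⟨hd.ke', hd.jk.symm, hd.ke, hd.je'.symm, hd.ee'.symm, hd.je⟩
  have hH : ∀ x : ℝ, x ^ 2 ≤ Hf * Ht → 0 ≤ x → x ≤ √(Hf * Ht) := fun x hx hx0 =>
    Real.le_sqrt_of_sq_le hx
  have hU : ∀ c i, ‖U c i‖ ≤ √(Hf * Ht) := fun c i =>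
    hH _ ((hD.UH c i).trans (mul_le_mul_of_nonneg_left (hD.αH c) hHf.le)) (norm_nonneg _)
  have hV : ∀ c i, ‖V c i‖ ≤ √(Hf * Ht) := fun c i =>
    hH _ ((hD.VH c i).trans (mul_le_mul_of_nonneg_left (hD.αH c) hHf.le)) (norm_nonneg _)
  have hsq : (√(Hf * Ht) * h) ^ 2 = Hf * Ht * h ^ 2 := by
    rw [mul_pow, Real.sq_sqrt (by positivity)]
  have hen : ∀ j, j ≠ i → ∀ p ∈ W, ∑ y ∈ iv p, ‖F j y‖ ^ 2 ≤ len p := by
    intro j hj p hp
    exact en_of_av (hav j hj p hp)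
  have h1 := hK i e' s e hD4 bb hA.1 W J hW.reg n hn u w q
    (fun z0 z1 => DicOp679.ext w u V z1 z0) (fun z1 z2 => DicOp679.ext w q U z1 z2)
    (fun z2 z0 => m z2 z0) F A1 1 (√(Hf * Ht)) h hA1 zero_le_one
    (Real.sqrt_pos.2 (by positivity)) hh ?_ hD.m1
    (fun z z' => DicOp679.ext_le w u V (Real.sqrt_nonneg _) hV _ _)
    (fun z z' => DicOp679.ext_le w q U (Real.sqrt_nonneg _) hU _ _) ?_
    (ext_energy w q U hD.U2 hD.α1) hL1
    (fun p hp => by rw [one_mul]; exact hen s hd.jk p hp)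
    (hhh e (Ne.symm hd.ke) (Ne.symm hd.je)) (hhh e' (Ne.symm hd.ke') (Ne.symm hd.je'))
    (hen e (Ne.symm hd.ke) J hW.top) (hen e' (Ne.symm hd.ke') J hW.top)
  · rw [hsq, one_mul] at h1
    exact (Qb247.norm_TR_le hA.2 W F).trans h1
  · rw [hFi]
    exact opA_kerF4 i s e e' n w q u m U V
  · have h2 := ext_energy w u V hD.V2 hD.α1
    rw [Finset.sum_product] at h2 ⊢
    rw [Finset.sum_comm]
    exact h2

theorem exists_two' : ∀ {i m : Fin 4}, i ≠ m → ∃ e1 e2 : Fin 4,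
    m ≠ i ∧ m ≠ e1 ∧ m ≠ e2 ∧ i ≠ e1 ∧ i ≠ e2 ∧ e1 ≠ e2 := by
  decide

open Classical in
/-- one unit atom of side `n`, any special vertex, any killer slot `s` -/
theorem word2 : ∃ K : ℝ, 0 ≤ K ∧ ∀ (i m e e' s : Fin 4), Dst4 i m e e' → s ≠ i →
    ∀ {bb : ℤ} {ε : ℕ → ℤ → ℂ}, Adm bb ε → ∀ (W : Finset Nd) (J : Nd), Full W J →
    ∀ (n : ℕ), 2 ^ J.1 ≤ n → ∀ (F : Fin 4 → Fn) (Ht Hf A1 h : ℝ), 0 < Ht → 0 < Hf → 0 < A1 → 0 < h →
    IsOpS i m e e' n Ht Hf (F i) →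
    (∀ p ∈ W, ∑ y ∈ iv p, ‖F s y‖ ≤ A1 * len p) →
    (∀ j, j ≠ i → ∀ p ∈ W, av p (F j) ≤ 1) →
    (∀ j, j ≠ i → j ≠ s → ∀ y ∈ iv J, ‖F j y‖ ≤ h) →
    ‖TR bb ε W F‖ ≤ K * (1 + Real.log (1 + Hf * Ht * h ^ 2 / A1 ^ 2)) *
      (A1 * ((n : ℝ) ^ 2 * len J)) := by
  obtain ⟨K, hK0, hK⟩ := word1
  refine ⟨324 * K, by positivity, ?_⟩
  intro i m e e' s hd hsi bb ε hA W J hW n hn F Ht Hf A1 h hHt hHf hA1 hh hF hL1 hav hhh
  obtain ⟨e1, e2, g1, g2, g3, g4, g5, g6⟩ := exists_two' (Ne.symm hsi)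
  have hd' : Dst4 i s e1 e2 := ⟨g1, g2, g3, g4, g5, g6⟩
  have hn0 : 0 < n := lt_of_lt_of_le (by positivity) hn
  have hlJ := Growth.len_pos J
  obtain ⟨M, ψ, hM, hψ, hsum⟩ := isOpS_any hd.jk (Ne.symm hd.ke) (Ne.symm hd.ke') hd.je hd.je'
    hd.ee' hn0 hHf.le hF s e1 e2 g1 (Ne.symm g4) (Ne.symm g5) g2 g3 g6
  have hX0 : 0 ≤ Hf * Ht * h ^ 2 / A1 ^ 2 := by positivity
  have hlog0 : 0 ≤ Real.log (1 + Hf * Ht * h ^ 2 / A1 ^ 2) := Real.log_nonneg (by linarith)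
  set R := K * (1 + Real.log (1 + Hf * Ht * h ^ 2 / A1 ^ 2)) * (A1 * ((n : ℝ) ^ 2 * len J))
    with hR
  have hR0 : 0 ≤ R := by positivity
  have h3 := OpK276.TR_comb (ε := ε) hA (W := W) (I := J) (fun p hp => hW.reg.1 p hp) F i
    (fun l y => ψ l y) (fun _ => 1) (fun y _ => by rw [hsum]; simp)
  have h1 : ∀ l, ‖TR bb ε W (Function.update F i (ψ l))‖ ≤ R := by
    intro l
    refine hK i s e1 e2 hd' hA W J hW n hn _ Ht Hf A1 h hHt hHf hA1 hh ?_ ?_ ?_ ?_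
    · rw [Function.update_self]
      exact hψ l
    · rw [Function.update_of_ne hsi]
      exact hL1
    · intro j hj
      rw [Function.update_of_ne hj]
      exact hav j hj
    · intro j hj
      rw [Function.update_of_ne hj]
      exact hhh j hj
  rw [h3]
  calc ‖∑ l, (1 : ℂ) * TR bb ε W (Function.update F i (fun y => ψ l y))‖ ≤ ∑ _l : Fin M, R := by
        refine (norm_sum_le _ _).trans (Finset.sum_le_sum fun l _ => ?_)
        rw [one_mul]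
        exact h1 l
    _ = M * R := by simp
    _ ≤ 324 * R := by
        have : (M : ℝ) ≤ 324 := by exact_mod_cast hM
        exact mul_le_mul_of_nonneg_right this hR0
    _ = _ := by rw [hR]; ring

open Classical in
/-- **core mixture, killer slot `s`** -/
theorem word3 : ∃ K : ℝ, 0 ≤ K ∧ ∀ (i m e e' s : Fin 4), Dst4 i m e e' → s ≠ i →
    ∀ {bb : ℤ} {ε : ℕ → ℤ → ℂ}, Adm bb ε → ∀ (W : Finset Nd) (J I : Nd), Full W J → iv J ⊆ iv I →
    ∀ (F : Fin 4 → Fn) (Ht Hf La A1 h : ℝ), 0 < Ht → 0 < Hf → 0 < A1 → 0 < h →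
    Rc i m e e' I Ht Hf La (F i) →
    (∀ p ∈ W, ∑ y ∈ iv p, ‖F s y‖ ≤ A1 * len p) →
    (∀ j, j ≠ i → ∀ p ∈ W, av p (F j) ≤ 1) →
    (∀ j, j ≠ i → j ≠ s → ∀ y ∈ iv J, ‖F j y‖ ≤ h) →
    ‖TR bb ε W F‖ ≤ K * (1 + Real.log (1 + Hf * Ht * h ^ 2 / A1 ^ 2)) * (La * A1 * len J) := by
  obtain ⟨K, hK0, hK⟩ := word2
  refine ⟨K, hK0, ?_⟩
  intro i m e e' s hd hsi bb ε hA W J I hW hJI F Ht Hf La A1 h hHt hHf hA1 hh hF hL1 hav hhh
  obtain ⟨L, ψ, α, h0, h1, h2, h3⟩ := hF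
  have hn : 2 ^ J.1 ≤ 2 ^ I.1 := Nat.pow_le_pow_right (by norm_num) (len_mono hJI)
  have hX0 : 0 ≤ Hf * Ht * h ^ 2 / A1 ^ 2 := by positivity
  have hlog0 : 0 ≤ Real.log (1 + Hf * Ht * h ^ 2 / A1 ^ 2) := Real.log_nonneg (by linarith)
  have hlJ := Growth.len_pos J
  set R := K * (1 + Real.log (1 + Hf * Ht * h ^ 2 / A1 ^ 2)) * (A1 * len J) with hR
  have hR0 : 0 ≤ R := by positivity
  have hN : (0 : ℝ) < (2 : ℝ) ^ I.1 := by positivity
  have h4 := OpK276.TR_comb (ε := ε) hA (W := W) (I := J) (fun p hp => hW.reg.1 p hp) F i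
    (fun l y => ψ l y) (fun l => ((α l / ((2 : ℝ) ^ I.1) ^ 2 : ℝ) : ℂ))
    (fun y hy => h2 y (hJI hy))
  have h5 : ∀ l, ‖TR bb ε W (Function.update F i (ψ l))‖ ≤ R * ((2 : ℝ) ^ I.1) ^ 2 := by
    intro l
    have h6 := hK i m e e' s hd hsi hA W J hW (2 ^ I.1) hn (Function.update F i (ψ l)) Ht Hf A1 h
      hHt hHf hA1 hh (by rw [Function.update_self]; exact h1 l)
      (by rw [Function.update_of_ne hsi]; exact hL1)
      (fun j hj => by rw [Function.update_of_ne hj]; exact hav j hj)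
      (fun j hj => by rw [Function.update_of_ne hj]; exact hhh j hj)
    refine h6.trans (le_of_eq ?_)
    rw [hR]
    push_cast
    ring
  rw [h4]
  calc ‖∑ l, ((α l / ((2 : ℝ) ^ I.1) ^ 2 : ℝ) : ℂ) * TR bb ε W (Function.update F i (fun y =>
      ψ l y))‖ ≤ ∑ l, α l * R := by
        refine (norm_sum_le _ _).trans (Finset.sum_le_sum fun l _ => ?_)
        rw [norm_mul, Complex.norm_real, Real.norm_of_nonneg (div_nonneg (h0 l) (by positivity))]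
        calc α l / ((2 : ℝ) ^ I.1) ^ 2 * ‖TR bb ε W (Function.update F i (fun y => ψ l y))‖ ≤
            α l / ((2 : ℝ) ^ I.1) ^ 2 * (R * ((2 : ℝ) ^ I.1) ^ 2) :=
              mul_le_mul_of_nonneg_left (h5 l) (div_nonneg (h0 l) (by positivity))
          _ = _ := by field_simp
    _ = (∑ l, α l) * R := by rw [Finset.sum_mul]
    _ ≤ La * R := mul_le_mul_of_nonneg_right h3 hR0
    _ = _ := by rw [hR]; ring

end Crest.Agent.R079.TKx248
end

-- ▼ part R079/TKf_248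
section

/-! R079 (helper248): **THE TALL PART OF A LETTER IS KILLED** (852 (K2)) next to a core mixture of op-atoms
and two other letters which are only bounded in local `L²`: telescoping over the heights `2^l H` of all
three letters.  `tall_TR` : `|TR (.., hi H (F s), ..)| ≤ K (1 + log (1 + Hf Ht) + log H) (La / H) |J|`. -/

set_option autoImplicit false

namespace Crest.Agent.R079.TKx248

open Finset Crest.Agent.R079.Grid Crest.Agent.R079.Pot Crest.Agent.R079.Glue Crest.Agent.R079.GlueK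
  Crest.Agent.R079.Growth Crest.Agent.R079.QRed Crest.Agent.R079.BadTx138 Crest.Agent.R079.KLx446
  Crest.Agent.R079.KC996 Crest.Agent.R079.OpS276 Crest.Agent.R079.OLevSw Crest.Agent.R079.POx263
  Crest.Agent.R079.BadN360

open Classical in
/-- letters at level `l` -/
noncomputable def lv3 (F : Fin 4 → Fn) (i s : Fin 4) (H : ℝ) (l : ℕ) (j : Fin 4) : Fn :=
  if j = i then F i else if j = s then fun y => lo (2 ^ l * H) (F s) y - lo H (F s) y
    else lo (2 ^ l * H) (F j)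

/-- part of `X` of height in `(2^l H, 2^(l+1) H]` -/
noncomputable def bd3 (X : Fn) (H : ℝ) (l : ℕ) : Fn :=
  fun y => lo (2 ^ (l + 1) * H) X y - lo (2 ^ l * H) X y

lemma lv3_i (F : Fin 4 → Fn) (i s : Fin 4) (H : ℝ) (l : ℕ) : lv3 F i s H l i = F i := by
  unfold lv3; rw [if_pos rfl]

lemma lv3_diff {F : Fin 4 → Fn} {i s : Fin 4} {H : ℝ} {l : ℕ} {j : Fin 4} (hj : j ≠ i) (y : ℤ) :
    lv3 F i s H (l + 1) j y - lv3 F i s H l j y = bd3 (F j) H l y := by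
  unfold lv3 bd3
  rw [if_neg hj, if_neg hj]
  by_cases h : j = s
  · subst h
    rw [if_pos rfl, if_pos rfl]
    ring
  · rw [if_neg h, if_neg h]

lemma lv3_le {F : Fin 4 → Fn} {i s : Fin 4} {H : ℝ} (hH : 0 ≤ H) {l : ℕ} {j : Fin 4} (hj : j ≠ i)
    (y : ℤ) : ‖lv3 F i s H l j y‖ ≤ ‖F j y‖ := by
  have h1 : H ≤ 2 ^ l * H := by
    have : (1 : ℝ) ≤ 2 ^ l := one_le_pow₀ (by norm_num)
    nlinarith
  unfold lv3
  rw [if_neg hj]
  by_cases h : j = s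
  · subst h
    rw [if_pos rfl]
    unfold lo
    by_cases h2 : ‖F j y‖ ≤ H
    · rw [if_pos h2, if_pos (h2.trans h1), sub_self, norm_zero]
      exact norm_nonneg _
    · rw [if_neg h2, sub_zero]
      split_ifs
      · exact le_rfl
      · simp
  · rw [if_neg h]
    exact norm_lo_le' _ _ _

lemma lv3_sup {F : Fin 4 → Fn} {i s : Fin 4} {H : ℝ} (hH : 0 ≤ H) {l : ℕ} {j : Fin 4} (hj : j ≠ i)
    (y : ℤ) : ‖lv3 F i s H l j y‖ ≤ 2 ^ l * H := by
  have h1 : H ≤ 2 ^ l * H := by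
    have : (1 : ℝ) ≤ 2 ^ l := one_le_pow₀ (by norm_num)
    nlinarith
  unfold lv3
  rw [if_neg hj]
  by_cases h : j = s
  · subst h
    rw [if_pos rfl]
    unfold lo
    by_cases h2 : ‖F j y‖ ≤ H
    · rw [if_pos h2, if_pos (h2.trans h1), sub_self, norm_zero]
      linarith
    · rw [if_neg h2, sub_zero]
      split_ifs with h3
      · exact h3
      · simp only [norm_zero]; linarith
  · rw [if_neg h]
    exact norm_lo_le (by linarith) _ _

lemma bd3_le {X : Fn} {H : ℝ} (hH : 0 ≤ H) {l : ℕ} (y : ℤ) : ‖bd3 X H l y‖ ≤ ‖X y‖ := by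
  have h1 : (2 : ℝ) ^ l * H ≤ 2 ^ (l + 1) * H := by
    have : (2 : ℝ) ^ l ≤ 2 ^ (l + 1) := pow_le_pow_right₀ (by norm_num) (Nat.le_succ l)
    exact mul_le_mul_of_nonneg_right this hH
  unfold bd3 lo
  by_cases h2 : ‖X y‖ ≤ 2 ^ l * H
  · rw [if_pos h2, if_pos (h2.trans h1), sub_self, norm_zero]
    exact norm_nonneg _
  · rw [if_neg h2, sub_zero]
    split_ifs
    · exact le_rfl
    · simp

/-- `L¹` density of a band -/
lemma bd3_l1 {X : Fn} {H : ℝ} (hH : 0 < H) {l : ℕ} (y : ℤ) :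
    ‖bd3 X H l y‖ ≤ (2 ^ l * H)⁻¹ * ‖X y‖ ^ 2 := by
  have h0 : (0 : ℝ) < 2 ^ l * H := by positivity
  by_cases h2 : ‖X y‖ ≤ 2 ^ l * H
  · have h1 : (2 : ℝ) ^ l * H ≤ 2 ^ (l + 1) * H := by
      have : (2 : ℝ) ^ l ≤ 2 ^ (l + 1) := pow_le_pow_right₀ (by norm_num) (Nat.le_succ l)
      exact mul_le_mul_of_nonneg_right this hH.le
    unfold bd3 lo
    rw [if_pos h2, if_pos (h2.trans h1), sub_self, norm_zero]
    positivity
  · push Not at h2
    refine (bd3_le hH.le y).trans ?_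
    rw [← div_eq_inv_mul, le_div_iff₀ h0]
    nlinarith [norm_nonneg (X y)]

lemma TR_sub (bb : ℤ) (ε : ℕ → ℤ → ℂ) (W : Finset Nd) (F : Fin 4 → Fn) (r : Fin 4) (X Y : Fn) :
    TR bb ε W (Function.update F r X) - TR bb ε W (Function.update F r Y) =
      TR bb ε W (Function.update F r (fun y => X y - Y y)) := by
  unfold TR
  rw [← Finset.sum_sub_distrib]
  refine Finset.sum_congr rfl fun p _ => ?_
  exact ((TRec.T2.Lp bb ε F r p).map_sub X Y).symm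

lemma univ4 : ∀ {i s p q : Fin 4}, i ≠ s → i ≠ p → i ≠ q → s ≠ p → s ≠ q → p ≠ q →
    ∀ j : Fin 4, j = i ∨ j = s ∨ j = p ∨ j = q := by
  decide

/-- numbers -/
lemma log_level {P H : ℝ} (hP : 0 ≤ P) (hH : 1 ≤ H) (l : ℕ) :
    1 + Real.log (1 + P * (2 ^ (l + 1) * H) ^ 2 / ((2 ^ l * H)⁻¹) ^ 2) ≤
      5 * ((1 + (Real.log (1 + P) + Real.log H)) * (1 + l)) := by
  have hX : (1 : ℝ) ≤ 2 ^ l * H := by
    have : (1 : ℝ) ≤ 2 ^ l := one_le_pow₀ (by norm_num)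
    nlinarith
  have hX0 : (0 : ℝ) < 2 ^ l * H := by linarith
  have e1 : P * (2 ^ (l + 1) * H) ^ 2 / ((2 ^ l * H)⁻¹) ^ 2 = 4 * P * (2 ^ l * H) ^ 4 := by
    rw [inv_pow, div_inv_eq_mul, pow_succ]
    ring
  rw [e1]
  have h4 : (1 : ℝ) ≤ (2 ^ l * H) ^ 4 := one_le_pow₀ hX
  have h1 : 1 + 4 * P * (2 ^ l * H) ^ 4 ≤ 5 * ((1 + P) * (2 ^ l * H) ^ 4) := by
    nlinarith [mul_nonneg hP (by linarith : (0 : ℝ) ≤ (2 ^ l * H) ^ 4)]
  have h0 : 0 < 1 + 4 * P * (2 ^ l * H) ^ 4 := by positivity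
  have h2 := Real.log_le_log h0 h1
  have h1P : (0 : ℝ) < 1 + P := by linarith
  rw [Real.log_mul (by norm_num) (by positivity), Real.log_mul h1P.ne' (by positivity),
    Real.log_pow, Real.log_mul (by positivity) (by linarith), Real.log_pow] at h2
  have h5 : Real.log 5 ≤ 4 := by
    have := Real.log_le_sub_one_of_pos (show (0 : ℝ) < 5 by norm_num)
    linarith
  have hl2 : Real.log 2 ≤ 1 := by
    have := Real.log_le_sub_one_of_pos (show (0 : ℝ) < 2 by norm_num)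
    linarith
  have hlP : 0 ≤ Real.log (1 + P) := Real.log_nonneg (by linarith)
  have hlH : 0 ≤ Real.log H := Real.log_nonneg hH
  have hl0 : (0 : ℝ) ≤ l := Nat.cast_nonneg l
  have h6 : (l : ℝ) * Real.log 2 ≤ l := by nlinarith
  push_cast at h2
  nlinarith [mul_nonneg hlP hl0, mul_nonneg hlH hl0]

lemma sum_level (L : ℕ) : ∑ l ∈ range L, (1 + (l : ℝ)) * (2 ^ l)⁻¹ ≤ 4 := by
  have h : ∑ l ∈ range L, (1 + (l : ℝ)) * (2 ^ l)⁻¹ = 4 - (2 * L + 4) * (2 ^ L)⁻¹ := by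
    induction L with
    | zero => norm_num
    | succ n ih =>
      rw [Finset.sum_range_succ, ih]
      push_cast
      rw [pow_succ, mul_inv]
      ring
  rw [h]
  have : (0 : ℝ) ≤ (2 * L + 4) * (2 ^ L)⁻¹ := by positivity
  linarith

open Classical in
/-- **THE TALL PART IS KILLED** -/
theorem tall_TR : ∃ K : ℝ, 0 ≤ K ∧ ∀ (i m e e' s : Fin 4), Dst4 i m e e' → s ≠ i →
    ∀ {bb : ℤ} {ε : ℕ → ℤ → ℂ}, Adm bb ε → ∀ (W : Finset Nd) (J I : Nd), Full W J → iv J ⊆ iv I →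
    ∀ (F : Fin 4 → Fn) (Ht Hf La H : ℝ), 0 < Ht → 0 < Hf → 1 ≤ H →
    Rc i m e e' I Ht Hf La (F i) →
    (∀ j, j ≠ i → ∀ p ∈ W, av p (F j) ≤ 1) →
    ‖TR bb ε W (Function.update F s (hi H (F s)))‖ ≤
      K * (1 + (Real.log (1 + Hf * Ht) + Real.log H)) * (La / H * len J) := by
  obtain ⟨K, hK0, hK⟩ := word3
  refine ⟨60 * K, by positivity, ?_⟩
  intro i m e e' s hd hsi bb ε hA W J I hW hJI F Ht Hf La H hHt hHf hH hF hav
  have hH0 : 0 < H := by linarith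
  have hlJ := Growth.len_pos J
  obtain ⟨p, q, hsi', hsp, hsq, hip, hiq, hpq⟩ := exists_two' (Ne.symm hsi)
  have huniv := univ4 (Ne.symm hsi) hip hiq hsp hsq hpq
  have hLa : 0 ≤ La := by
    obtain ⟨n, ψ, α, h0, -, -, h3⟩ := hF
    exact (Finset.sum_nonneg fun l _ => h0 l).trans h3
  set Λ : ℝ := 1 + (Real.log (1 + Hf * Ht) + Real.log H) with hΛ
  have hP : 0 ≤ Hf * Ht := by positivity
  -- one word
  have hone : ∀ (l : ℕ) (r : Fin 4), r ≠ i → ∀ Y : Fin 4 → Fn, Y i = F i →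
      (∀ j, j ≠ i → ∀ y, ‖Y j y‖ ≤ ‖F j y‖) → (∀ j, j ≠ i → ∀ y, ‖Y j y‖ ≤ 2 ^ (l + 1) * H) →
      ‖TR bb ε W (Function.update Y r (bd3 (F r) H l))‖ ≤
        K * (5 * (Λ * (1 + l))) * (La * (2 ^ l * H)⁻¹ * len J) := by
    intro l r hr Y hYi hY1 hY2
    have h1 := hK i m e e' r hd hr hA W J I hW hJI (Function.update Y r (bd3 (F r) H l)) Ht Hf La
      (2 ^ l * H)⁻¹ (2 ^ (l + 1) * H) hHt hHf (by positivity) (by positivity)
      (by rw [Function.update_of_ne hr.symm, hYi]; exact hF) ?_ ?_ ?_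
    · refine h1.trans ?_
      refine mul_le_mul_of_nonneg_right (mul_le_mul_of_nonneg_left (log_level hP hH l) hK0) ?_
      positivity
    · intro p hp
      rw [Function.update_self]
      calc ∑ y ∈ iv p, ‖bd3 (F r) H l y‖ ≤ ∑ y ∈ iv p, (2 ^ l * H)⁻¹ * ‖F r y‖ ^ 2 :=
            Finset.sum_le_sum fun y _ => bd3_l1 hH0 y
        _ = (2 ^ l * H)⁻¹ * ∑ y ∈ iv p, ‖F r y‖ ^ 2 := by rw [Finset.mul_sum]
        _ ≤ _ := mul_le_mul_of_nonneg_left (en_of_av (hav r hr p hp)) (by positivity)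
    · intro j hj p hp
      by_cases hjr : j = r
      · subst hjr
        rw [Function.update_self]
        exact (av_mono fun y _ => bd3_le hH0.le y).trans (hav j hj p hp)
      · rw [Function.update_of_ne hjr]
        exact (av_mono fun y _ => hY1 j hj y).trans (hav j hj p hp)
    · intro j hj hjr y _
      rw [Function.update_of_ne hjr]
      exact hY2 j hj y
  -- one level
  set G : ℕ → Fin 4 → Fn := fun l => lv3 F i s H l with hG
  have hGle : ∀ l j, j ≠ i → ∀ y, ‖G l j y‖ ≤ ‖F j y‖ := fun l j hj y => lv3_le hH0.le hj y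
  have hGsup : ∀ l j, j ≠ i → ∀ y, ‖G l j y‖ ≤ 2 ^ (l + 1) * H := fun l j hj y =>
    (lv3_sup hH0.le hj y).trans (mul_le_mul_of_nonneg_right
      (pow_le_pow_right₀ (by norm_num) (Nat.le_succ l)) hH0.le)
  have hGsup' : ∀ l j, j ≠ i → ∀ y, ‖G (l + 1) j y‖ ≤ 2 ^ (l + 1) * H := fun l j hj y =>
    lv3_sup hH0.le hj y
  have hstep : ∀ l, ‖TR bb ε W (G (l + 1)) - TR bb ε W (G l)‖ ≤
      3 * (K * (5 * (Λ * (1 + l))) * (La * (2 ^ l * H)⁻¹ * len J)) := by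
    intro l
    set Y1 := Function.update (G (l + 1)) s (G l s) with hY1
    set Y2 := Function.update Y1 p (G l p) with hY2
    have hpi : p ≠ i := hip.symm
    have hqi : q ≠ i := hiq.symm
    have e3 : Function.update Y2 q (G l q) = G l := by
      funext j
      rcases huniv j with rfl | rfl | rfl | rfl
      · rw [Function.update_of_ne hiq, hY2, Function.update_of_ne hip, hY1,
          Function.update_of_ne hsi.symm]
        exact (lv3_i F j s H (l + 1)).trans (lv3_i F j s H l).symm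
      · rw [Function.update_of_ne hsq, hY2, Function.update_of_ne hsp, hY1, Function.update_self]
      · rw [Function.update_of_ne hpq, hY2, Function.update_self]
      · rw [Function.update_self]
    have e0 : TR bb ε W (G (l + 1)) = TR bb ε W (Function.update (G (l + 1)) s (G (l + 1) s)) := by
      rw [Function.update_eq_self]
    have e1 : TR bb ε W Y1 = TR bb ε W (Function.update Y1 p (G (l + 1) p)) := by
      have : Y1 p = G (l + 1) p := by rw [hY1, Function.update_of_ne hsp.symm]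
      rw [← this, Function.update_eq_self]
    have e2 : TR bb ε W Y2 = TR bb ε W (Function.update Y2 q (G (l + 1) q)) := by
      have : Y2 q = G (l + 1) q := by
        rw [hY2, Function.update_of_ne hpq.symm, hY1, Function.update_of_ne hsq.symm]
      rw [← this, Function.update_eq_self]
    have hdiff : ∀ j, j ≠ i → (fun y => G (l + 1) j y - G l j y) = bd3 (F j) H l := fun j hj =>
      funext fun y => lv3_diff hj y
    have d0 : TR bb ε W (G (l + 1)) - TR bb ε W Y1 =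
        TR bb ε W (Function.update (G (l + 1)) s (bd3 (F s) H l)) := by
      rw [e0, hY1, TR_sub, hdiff s hsi]
    have d1 : TR bb ε W Y1 - TR bb ε W Y2 = TR bb ε W (Function.update Y1 p (bd3 (F p) H l)) := by
      rw [e1, hY2, TR_sub, hdiff p hpi]
    have d2 : TR bb ε W Y2 - TR bb ε W (G l) =
        TR bb ε W (Function.update Y2 q (bd3 (F q) H l)) := by
      rw [e2, ← e3, TR_sub]
      rw [hdiff q hqi]
    have y1i : Y1 i = F i := by
      rw [hY1, Function.update_of_ne hsi.symm]; exact lv3_i _ _ _ _ _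
    have y2i : Y2 i = F i := by
      rw [hY2, Function.update_of_ne hip]; exact y1i
    have y1a : ∀ j, j ≠ i → ∀ y, ‖Y1 j y‖ ≤ ‖F j y‖ := by
      intro j hj y
      by_cases hjs : j = s
      · subst hjs
        rw [hY1, Function.update_self]; exact hGle _ _ hj y
      · rw [hY1, Function.update_of_ne hjs]; exact hGle _ _ hj y
    have y1b : ∀ j, j ≠ i → ∀ y, ‖Y1 j y‖ ≤ 2 ^ (l + 1) * H := by
      intro j hj y
      by_cases hjs : j = s
      · subst hjs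
        rw [hY1, Function.update_self]; exact hGsup _ _ hj y
      · rw [hY1, Function.update_of_ne hjs]; exact hGsup' _ _ hj y
    have y2a : ∀ j, j ≠ i → ∀ y, ‖Y2 j y‖ ≤ ‖F j y‖ := by
      intro j hj y
      by_cases hjs : j = p
      · subst hjs
        rw [hY2, Function.update_self]; exact hGle _ _ hj y
      · rw [hY2, Function.update_of_ne hjs]; exact y1a _ hj y
    have y2b : ∀ j, j ≠ i → ∀ y, ‖Y2 j y‖ ≤ 2 ^ (l + 1) * H := by
      intro j hj y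
      by_cases hjs : j = p
      · subst hjs
        rw [hY2, Function.update_self]; exact hGsup _ _ hj y
      · rw [hY2, Function.update_of_ne hjs]; exact y1b _ hj y
    have t0 := hone l s hsi (G (l + 1)) (lv3_i _ _ _ _ _) (hGle _) (hGsup' _)
    have t1 := hone l p hpi Y1 y1i y1a y1b
    have t2 := hone l q hqi Y2 y2i y2a y2b
    rw [← d0] at t0
    rw [← d1] at t1
    rw [← d2] at t2
    have e4 : TR bb ε W (G (l + 1)) - TR bb ε W (G l) =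
        (TR bb ε W (G (l + 1)) - TR bb ε W Y1) + (TR bb ε W Y1 - TR bb ε W Y2) +
          (TR bb ε W Y2 - TR bb ε W (G l)) := by ring
    rw [e4]
    refine (norm_add₃_le).trans ?_
    linarith
  -- level zero
  have hz : TR bb ε W (G 0) = 0 := by
    have h1 : G 0 = Function.update (G 0) s (fun _ => 0) := by
      funext j
      by_cases hj : j = s
      · subst hj
        rw [Function.update_self]
        show lv3 F i j H 0 j = _
        unfold lv3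
        rw [if_neg hsi, if_pos rfl]
        funext y
        simp
      · rw [Function.update_of_ne hj]
    rw [h1]
    have h2 := TR_sub bb ε W (G 0) s (fun _ => 0) (fun _ => 0)
    rw [sub_self] at h2
    simp only [sub_zero] at h2
    exact h2.symm
  -- top level
  obtain ⟨L, hL⟩ := pow_unbounded_of_one_lt (∑ j : Fin 4, ∑ y ∈ iv J, ‖F j y‖)
    (by norm_num : (1 : ℝ) < 2)
  have hFL : ∀ j : Fin 4, ∀ y ∈ iv J, ‖F j y‖ ≤ 2 ^ L * H := by
    intro j y hy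
    have h1 : ‖F j y‖ ≤ ∑ j : Fin 4, ∑ y ∈ iv J, ‖F j y‖ :=
      (Finset.single_le_sum (f := fun y => ‖F j y‖) (fun _ _ => norm_nonneg _) hy).trans
        (Finset.single_le_sum (f := fun j => ∑ y ∈ iv J, ‖F j y‖)
          (fun _ _ => Finset.sum_nonneg fun _ _ => norm_nonneg _) (Finset.mem_univ j))
    have h2 : (2 : ℝ) ^ L ≤ 2 ^ L * H := by
      have : (0 : ℝ) < 2 ^ L := by positivity
      nlinarith
    linarith
  have htop : TR bb ε W (Function.update F s (hi H (F s))) = TR bb ε W (G L) := by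
    unfold TR
    refine Finset.sum_congr rfl fun p' hp' => Qb247.TI_congr bb hA.1 ε _ _ p' fun j y hy => ?_
    have hyJ : y ∈ iv J := hW.reg.1 p' hp' hy
    show _ = lv3 F i s H L j y
    unfold lv3
    by_cases hji : j = i
    · subst hji
      rw [Function.update_of_ne hsi.symm, if_pos rfl]
    · rw [if_neg hji]
      by_cases hjs : j = s
      · subst hjs
        rw [Function.update_self, if_pos rfl]
        have h1 := lo_add_hi H (F j) y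
        have h2 : lo (2 ^ L * H) (F j) y = F j y := by
          unfold lo; rw [if_pos (hFL j y hyJ)]
        show hi H (F j) y = lo (2 ^ L * H) (F j) y - lo H (F j) y
        rw [h2]
        exact eq_sub_of_add_eq' h1.symm
      · rw [Function.update_of_ne hjs, if_neg hjs]
        unfold lo
        rw [if_pos (hFL j y hyJ)]
  rw [htop]
  have htel : TR bb ε W (G L) = ∑ l ∈ range L, (TR bb ε W (G (l + 1)) - TR bb ε W (G l)) := by
    rw [Finset.sum_range_sub (fun l => TR bb ε W (G l)), hz, sub_zero]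
  rw [htel]
  refine (norm_sum_le _ _).trans ((Finset.sum_le_sum fun l _ => hstep l).trans ?_)
  have e5 : ∀ l : ℕ, 3 * (K * (5 * (Λ * (1 + l))) * (La * (2 ^ l * H)⁻¹ * len J)) =
      (15 * K * Λ * (La / H * len J)) * ((1 + (l : ℝ)) * (2 ^ l)⁻¹) := by
    intro l
    rw [mul_inv]
    ring
  rw [Finset.sum_congr rfl fun l _ => e5 l, ← Finset.mul_sum]
  have hΛ0 : 0 ≤ Λ := by
    have h1 : 0 ≤ Real.log (1 + Hf * Ht) := Real.log_nonneg (by linarith)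
    have h2 : 0 ≤ Real.log H := Real.log_nonneg hH
    rw [hΛ]; linarith
  calc 15 * K * Λ * (La / H * len J) * ∑ l ∈ range L, (1 + (l : ℝ)) * (2 ^ l)⁻¹ ≤
      15 * K * Λ * (La / H * len J) * 4 := mul_le_mul_of_nonneg_left (sum_level L) (by positivity)
    _ = 60 * K * Λ * (La / H * len J) := by ring

end Crest.Agent.R079.TKx248
end

-- ▼ part R079/TKg_248

/-! R079 (helper248): **`TallW` / `TallQ` for the core data**: the tall part (height `> H`) of a letter with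
local `L²` averages `≤ 1` is killed next to a core mixture of op-atoms and two letters with local `L²`
averages `≤ 1`: `kT = K La H⁻¹ (1 + log ..)`, hence any power of `t` at the height `t ^ (-h)`.

* `tallW_of` : `GnM_45.TallW` from `Rc`;
* `tallQ_QC`, `tallQ_QP` : the hypothesis `hT` of `GnQ_45.genQ_exists` for 263's `QP`. -/

set_option autoImplicit false

namespace Crest.Agent.R079.TKx248

open Finset Crest.Agent.R079.Grid Crest.Agent.R079.Growth Crest.Agent.R079.QRed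
  Crest.Agent.R079.OpS276 Crest.Agent.R079.POx263 Crest.Agent.R079.BadN360
  Crest.Agent.R079.GnMx45 Crest.Agent.R079.GnQx45 Crest.Agent.R079.AsmA844
  Crest.Agent.R079.T6bx252 Crest.Agent.R079.TRec Crest.Agent.R079.AsmG734
  Crest.Agent.R079.GnOx45 Crest.Agent.R079.WS0112

lemma oth_cases : ∀ {i m x y j : Fin 4}, i ≠ m → x ≠ i → x ≠ m → y ≠ i → y ≠ m → x ≠ y → j ≠ i →
    j = m ∨ j = x ∨ j = y := by
  decide

/-- **`TallW`** for a core mixture -/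
theorem tallW_of : ∃ K : ℝ, 0 ≤ K ∧ ∀ (i m e e' : Fin 4), Dst4 i m e e' →
    ∀ {bb : ℤ} {ε : ℕ → ℤ → ℂ}, Adm bb ε → ∀ (R0 : Finset Nd) (I : Nd), Full R0 I →
    ∀ (F : Fin 4 → Fn) (Ht Hf La H : ℝ), 0 < Ht → 0 < Hf → 1 ≤ H →
    Rc i m e e' I Ht Hf La (F i) → (∀ p ∈ R0, av p (F m) ≤ 1) →
    ∀ x y : Fin 4, Oth i m x y →
    TallW (v4 bb ε F x y) R0 H (K * (1 + (Real.log (1 + Hf * Ht) + Real.log H)) * (La / H)) := by
  obtain ⟨K, hK0, hK⟩ := tall_TR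
  refine ⟨K, hK0, ?_⟩
  intro i m e e' hd bb ε hA R0 I hR0 F Ht Hf La H hHt hHf hH hF hFm x y hO
  have hxi := hO.ai
  have hyi := hO.bi
  have hxy := hO.ab
  intro W J hW hWR E Z hE hZ
  have hJI : iv J ⊆ iv I := hR0.reg.1 J (hWR hW.top)
  have key : ∀ (G : Fin 4 → Fn), G i = F i → G m = F m → (∀ p ∈ W, av p (G x) ≤ 1) →
      (∀ p ∈ W, av p (G y) ≤ 1) → ∀ s, s ≠ i →
      ‖TR bb ε W (Function.update G s (hi H (G s)))‖ ≤
        K * (1 + (Real.log (1 + Hf * Ht) + Real.log H)) * (La / H) * len J := by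
    intro G hGi hGm hGx hGy s hs
    have h1 := hK i m e e' s hd hs hA W J I hW hJI G Ht Hf La H hHt hHf hH (by rw [hGi]; exact hF)
      (fun j hj p hp => by
        rcases oth_cases hd.jk.symm hxi hO.am hyi hO.bm hxy hj with rfl | rfl | rfl
        · rw [hGm]; exact hFm p (hWR hp)
        · exact hGx p hp
        · exact hGy p hp)
    refine h1.trans (le_of_eq ?_)
    ring
  have e1 : Function.update (Function.update (Function.update F x E) y Z) x (hi H E) =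
      Function.update (Function.update F x (hi H E)) y Z := by
    funext j
    by_cases hjx : j = x
    · subst hjx
      rw [Function.update_self, Function.update_of_ne hxy, Function.update_self]
    · rw [Function.update_of_ne hjx]
      by_cases hjy : j = y
      · subst hjy
        rw [Function.update_self, Function.update_self]
      · rw [Function.update_of_ne hjy, Function.update_of_ne hjy, Function.update_of_ne hjx,
          Function.update_of_ne hjx]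
  have e2 : Function.update (Function.update (Function.update F x Z) y E) y (hi H E) =
      Function.update (Function.update F x Z) y (hi H E) := Function.update_idem _ _ _
  have f1 := key (Function.update (Function.update F x E) y Z)
    (by rw [Function.update_of_ne hyi.symm, Function.update_of_ne hxi.symm])
    (by rw [Function.update_of_ne hO.bm.symm, Function.update_of_ne hO.am.symm])
    (by rw [Function.update_of_ne hxy, Function.update_self]; exact hE)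
    (by rw [Function.update_self]; exact hZ) x hxi
  have f2 := key (Function.update (Function.update F x Z) y E)
    (by rw [Function.update_of_ne hyi.symm, Function.update_of_ne hxi.symm])
    (by rw [Function.update_of_ne hO.bm.symm, Function.update_of_ne hO.am.symm])
    (by rw [Function.update_of_ne hxy, Function.update_self]; exact hZ)
    (by rw [Function.update_self]; exact hE) y hyi
  rw [Function.update_of_ne hxy, Function.update_self, e1] at f1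
  rw [Function.update_self, e2] at f2
  unfold TR at f1 f2
  unfold v4
  exact ⟨f1, f2⟩

/-- logarithms against `t⁻¹` -/
lemma log_pow {t c h : ℝ} (ht : 0 < t) (ht1 : t ≤ 1) (hc : 0 ≤ c) (hh : 0 ≤ h) {P : ℝ}
    (hP0 : 0 ≤ P) (hP : P ≤ 3 * t ^ (-c)) :
    1 + (Real.log (1 + P) + Real.log (t ^ (-h))) ≤ (4 + c + h) * t ^ (-1 : ℝ) := by
  have hti : 1 ≤ t ^ (-1 : ℝ) := Real.one_le_rpow_of_pos_of_le_one_of_nonpos ht ht1 (by norm_num)
  have hlog : -Real.log t ≤ t ^ (-1 : ℝ) := by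
    have h1 := Real.log_le_sub_one_of_pos (inv_pos.2 ht)
    rw [Real.log_inv] at h1
    rw [Real.rpow_neg_one]
    linarith
  have htc : 1 ≤ t ^ (-c) := Real.one_le_rpow_of_pos_of_le_one_of_nonpos ht ht1 (by linarith)
  have h1 : 1 + P ≤ 4 * t ^ (-c) := by linarith
  have h2 := Real.log_le_log (by linarith : (0 : ℝ) < 1 + P) h1
  rw [Real.log_mul (by norm_num) (by linarith [htc] : t ^ (-c) ≠ 0) , Real.log_rpow ht] at h2
  have h4 : Real.log 4 ≤ 3 := by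
    have := Real.log_le_sub_one_of_pos (show (0 : ℝ) < 4 by norm_num)
    linarith
  rw [Real.log_rpow ht]
  have h5 : c * (-Real.log t) ≤ c * t ^ (-1 : ℝ) := mul_le_mul_of_nonneg_left hlog hc
  have h6 : h * (-Real.log t) ≤ h * t ^ (-1 : ℝ) := mul_le_mul_of_nonneg_left hlog hh
  nlinarith

/-- **`TallQ` for the core data**, any power -/
theorem tallQ_QC {D : TRecN.Dict} {i m e e' : Fin 4} (hd : Dst4 i m e e') {k q3 b cl la xx ff gT h : ℝ}
    (hk : 0 < k) (hh : 0 ≤ h) (hc : 0 ≤ xx + ff) (h1 : gT ≤ h - la - 1) :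
    ∃ K : ℝ, 0 ≤ K ∧ TallQ (QC D k b cl la xx ff i m e e') k q3 h gT 1 K i m := by
  obtain ⟨K, hK0, hK⟩ := tallW_of
  refine ⟨K * 621432 * (4 + (xx + ff) + h), by positivity, ?_⟩
  intro N B hB _ t ht ht1 W I F hQ _ x y hO bb ε hA
  have hQ' : PRc D k b cl t (621432 * t ^ (-la)) (3 * t ^ (-xx)) (t ^ (-ff)) W I i m e e' F := hQ
  have P : ∀ s : ℝ, 0 < t ^ s := fun s => Real.rpow_pos_of_pos ht s
  have hH : 1 ≤ t ^ (-h) := Real.one_le_rpow_of_pos_of_le_one_of_nonpos ht ht1 (by linarith)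
  have h2 := hK i m e e' hd hA W I hQ'.full F (3 * t ^ (-xx)) (t ^ (-ff)) (621432 * t ^ (-la))
    (t ^ (-h)) (mul_pos (by norm_num) (P _)) (P _) hH hQ'.mix
    (fun p hp => (TAsm398.av_le_aq (by linarith) p (F m)).trans (hQ'.nR p hp)) x y hO
  refine tallW_mono h2 ?_
  have h3 : t ^ (-ff) * (3 * t ^ (-xx)) = 3 * t ^ (-(xx + ff)) := by
    have : t ^ (-(xx + ff)) = t ^ (-xx) * t ^ (-ff) := by
      rw [← Real.rpow_add ht]
      congr 1
      ring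
    rw [this]
    ring
  have h4 := log_pow (P := t ^ (-ff) * (3 * t ^ (-xx))) ht ht1 hc hh
    (mul_pos (P _) (mul_pos (by norm_num) (P _))).le h3.le
  have h5 : 621432 * t ^ (-la) / t ^ (-h) = 621432 * t ^ (h - la) := by
    rw [mul_div_assoc, ← Real.rpow_sub ht]
    congr 2
    ring
  rw [h5]
  have h6 : 0 ≤ K * (621432 * t ^ (h - la)) := mul_nonneg hK0 (mul_pos (by norm_num) (P _)).le
  have h7 : t ^ (-1 : ℝ) * t ^ (h - la) ≤ t ^ gT := by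
    rw [← Real.rpow_add ht]
    exact Real.rpow_le_rpow_of_exponent_ge ht ht1 (by linarith)
  calc K * (1 + (Real.log (1 + t ^ (-ff) * (3 * t ^ (-xx))) + Real.log (t ^ (-h)))) *
      (621432 * t ^ (h - la)) = K * (621432 * t ^ (h - la)) *
        (1 + (Real.log (1 + t ^ (-ff) * (3 * t ^ (-xx))) + Real.log (t ^ (-h)))) := by ring
    _ ≤ K * (621432 * t ^ (h - la)) * ((4 + (xx + ff) + h) * t ^ (-1 : ℝ)) :=
        mul_le_mul_of_nonneg_left h4 h6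
    _ = K * 621432 * (4 + (xx + ff) + h) * (t ^ (-1 : ℝ) * t ^ (h - la)) := by ring
    _ ≤ K * 621432 * (4 + (xx + ff) + h) * t ^ gT :=
        mul_le_mul_of_nonneg_left h7 (by positivity)
    _ ≤ K * 621432 * (4 + (xx + ff) + h) * (1 + B) * t ^ gT := by
        have h8 : 0 ≤ K * 621432 * (4 + (xx + ff) + h) := by positivity
        have h9 : K * 621432 * (4 + (xx + ff) + h) * 1 ≤ K * 621432 * (4 + (xx + ff) + h) * (1 + B) :=
          mul_le_mul_of_nonneg_left (by linarith) h8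
        have := mul_le_mul_of_nonneg_right h9 (P gT).le
        linarith

/-- **the hypothesis `hT` of `genQ_exists`** for the core data of a nontrivial pair -/
theorem tallQ_QP {P : WS112.Prm} (hP : WS0112.Ok0 P) {q3 d : ℝ} {i m e e' : Fin 4}
    (hdd : Dst4 i m e e') : ∀ gT : ℝ, ∃ h e1 : ℝ, 0 ≤ h ∧ 0 < e1 ∧ ∀ ε, 0 < ε → ε ≤ e1 →
      ∃ k1 : ℝ, 0 < k1 ∧ ∀ k, 0 < k → k ≤ k1 → ∃ t0 K : ℝ, 0 < t0 ∧ 0 ≤ K ∧
        TallQ (QP P d i m e e' ε k) k q3 h gT t0 K i m := by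
  intro gT
  have hθ := hP.θ0
  have hg : 0 ≤ P.θ * P.g i := mul_nonneg hθ.le (hP.g0 i)
  have hx : 0 ≤ P.θ * P.x i := mul_nonneg hθ.le (hP.x0 i)
  have hf : 0 ≤ P.θ * P.f i := mul_nonneg hθ.le (hP.f0 i)
  have hxx0 : 0 ≤ xxC P i := by unfold xxC; nlinarith
  have hff0 : 0 ≤ ffC P i := by unfold ffC; nlinarith
  refine ⟨max 0 (gT + 2 * (P.θ * P.g i) + 1), 1, le_max_left _ _, one_pos, fun ε hε hε1 =>
    ⟨1, one_pos, fun k hk hk1 => ?_⟩⟩
  obtain ⟨K, hK0, hK⟩ := tallQ_QC (D := WS0112.DF0 P) hdd (k := k) (q3 := q3) (b := 1)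
    (cl := clx P d i) (la := (1 + ε) * (P.θ * P.g i)) (xx := xxC P i) (ff := ffC P i) (gT := gT)
    (h := max 0 (gT + 2 * (P.θ * P.g i) + 1)) hk (le_max_left _ _) (by linarith) (by
      have h1 := le_max_right 0 (gT + 2 * (P.θ * P.g i) + 1)
      have h2 : (1 + ε) * (P.θ * P.g i) ≤ 2 * (P.θ * P.g i) :=
        mul_le_mul_of_nonneg_right (by linarith) hg
      linarith)
  exact ⟨1, K, one_pos, hK0, hK⟩

end Crest.Agent.R079.TKx248
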