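import Crest.Agent.R079.NG_112
import Crest.Agent.R079.OpKi_276
import Crest.Agent.R079.TKg_248
import Crest.Agent.R079.GnQ_45
import Crest.Agent.R079.CKk_217
import Crest.Agent.R079.CKn_37
import Crest.Agent.R079.KT_279
import Crest.Agent.R079.CRfin_253
import Crest.Agent.R079.CKw_37
import Crest.Agent.R079.OpKe_276
import Crest.Agent.R079.NP_112
import Crest.Agent.R079.KLh_446
import Crest.Agent.R079.OpKg_276
import Crest.Agent.R079.GnN_263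
import Crest.Agent.R079.GaD_571
import Crest.Agent.R079.WdT_276
import Crest.Agent.R079.SbY_795

-- ▼ part R079/NH_112
section

/-! R079 (helper112): **THE TWO REMAINING INPUTS**: `CellF` (cells) and `SpF` (splitting of one
generation, `GnQ_45.SpQ`, for the core data `QP` of helper263).  The leaf `op` (276, 446) and the tall
kill (248) are theorems.  **`target_of_two`**. -/

set_option autoImplicit false
set_option linter.unusedVariables false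

namespace Crest.Agent.R079.NP112

open Finset Crest.Agent.R079.Grid Crest.Agent.R079.Growth Crest.Agent.R079.QRed
open Crest.Agent.R079.WS112 Crest.Agent.R079.WS0112 Crest.Agent.R079.POx263
open Crest.Agent.R079.T6bx252 Crest.Agent.R079.OpS276 Crest.Agent.R079.GnQx45

/-- **THE LAST LITERAL OF STEP I**: the splitting of one generation for the core data -/
def SpF (P : Prm) (q3 d : ℝ) : Prop :=
  ∀ i m e e' : Fin 4, Dst4 i m e e' → m < i → i ≠ 3 → ∃ cm : ℝ, 0 < cm ∧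
    ∀ c1, 0 < c1 → c1 ≤ cm →
    ∃ C g ys : ℝ, 0 < C ∧ 0 < g ∧ 0 < ys ∧ ∀ y, 0 < y → y ≤ ys → ∃ e1 : ℝ, 0 < e1 ∧
      ∀ ε, 0 < ε → ε ≤ e1 → ∃ k1 : ℝ, 0 < k1 ∧ ∀ k, 0 < k → k ≤ k1 → ∃ t0 K : ℝ, 0 < t0 ∧ 0 ≤ K ∧
        SpQ (QP P d i m e e' ε k) k q3 c1 (C * y) (g * y) t0 K i m

/-- Step I from the splitting and the tall kill -/
theorem genF_of_spF {P : Prm} (h : Ok0 P) {q3 d : ℝ} (hS : SpF P q3 d) : GenF P q3 d :=
  fun i m e e' hdd hmi hi3 => genQ_exists (q3 := q3) (QP P d i m e e') (hS i m e e' hdd hmi hi3)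
    (TKx248.tallQ_QP h hdd)

/-- **`S0106` from the cells and the splitting of one generation** -/
theorem target_of_two
    (hc : ∀ {x C ρ c q3 : ℝ}, Adm4 x C ρ c → 40 ≤ x → c ≤ 1 / 8 → 40 * C + 40 ≤ q3 →
      CellF (PF x C ρ c) q3)
    (hs : ∃ x0 : ℝ, ∀ x, x0 ≤ x → ∃ ρ0 : ℝ, 0 < ρ0 ∧ ∀ ρ, 0 < ρ → ρ ≤ ρ0 → ∃ c0 : ℝ, 0 < c0 ∧
      ∀ c, 0 < c → c ≤ c0 → ∃ C0 : ℝ, ∀ C, C0 ≤ C → ∀ q3, 2 < q3 → Adm4 x C ρ c →
        SpF (PF x C ρ c) q3 (dF C ρ c)) : L0.Target := by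
  refine target_of_three hc (fun h hx hq => OpK276.ho_three h hx hq) ?_
  obtain ⟨x0, hs⟩ := hs
  refine ⟨x0, fun x hx => ?_⟩
  obtain ⟨ρ0, hρ0, hs⟩ := hs x hx
  refine ⟨ρ0, hρ0, fun ρ hρ hρρ => ?_⟩
  obtain ⟨c0, hc0, hs⟩ := hs ρ hρ hρρ
  refine ⟨c0, hc0, fun c hc hcc => ?_⟩
  obtain ⟨C0, hs⟩ := hs c hc hcc
  exact ⟨C0, fun C hC q3 hq hA => genF_of_spF (ok_PF hA) (hs C hC q3 hq hA)⟩

end Crest.Agent.R079.NP112
end

-- ▼ part R079/CKt_217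
section

/-! R079 (helper217), CELLKILL part 6 (note 1095 (5)): sum over the frozen value, for one shift `s'`. -/

set_option autoImplicit false

namespace Crest.Agent.R079.CKk217

open Finset Crest.Agent.R079.Grid Crest.Agent.R079.Glue Crest.Agent.R079.Growth
  Crest.Agent.R079.QRed Crest.Agent.R079.KLx446 Crest.Agent.R079.CKh217 Crest.Agent.R079.KC996
  Crest.Agent.R079.CKi217 Crest.Agent.R079.CKj217 Crest.Agent.R079.CKgx37

section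

variable {k k0 k1 k2 : Fin 4} {R : Finset Nd} {J : Nd}

/-- no contribution of far frozen values -/
theorem kB_far {F : Fin 4 → Fn} (hs0 : ∀ y, y ∉ iv J → F k0 y = 0)
    {b : ℤ → ℤ → ℂ} {w : ℤ}
    (hw : ¬ |(sl k - sl k0) * w - J.2 * 2 ^ (J.1 + 7)| ≤ 37 * (lenN J : ℤ)) (σ1 : Bool) (x y : ℤ) :
    pr σ1 (kB k k0 k1 k2 (T6x J) (T6x J) b F w x y) = 0 := by
  by_contra hne
  obtain ⟨hx, hy⟩ := fr4_ne hne
  apply hw
  have hsh : (sl k - sl k0) * w + (sl k1 - sl k0) * x + (sl k2 - sl k0) * y ∈ iv J := by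
    by_contra hc
    apply hne
    unfold kB fr4
    split_ifs
    · rw [hs0 _ hc, mul_zero, pr_zero]
    · exact pr_zero _
  rw [iv_lenN, Finset.mem_Ico] at hsh
  have h1 := mem_T6x' hx
  have h2 := mem_T6x' hy
  have c1 : |(sl k1 - sl k0) * x| ≤ 3 * (6 * (lenN J : ℤ)) := by
    rw [abs_mul]
    exact mul_le_mul (sl_abs3 k0 k1) (by rw [abs_of_nonneg h1.1]; exact h1.2.le) (abs_nonneg _)
      (by norm_num)
  have c2 : |(sl k2 - sl k0) * y| ≤ 3 * (6 * (lenN J : ℤ)) := by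
    rw [abs_mul]
    exact mul_le_mul (sl_abs3 k0 k2) (by rw [abs_of_nonneg h2.1]; exact h2.2.le) (abs_nonneg _)
      (by norm_num)
  rw [abs_le] at c1 c2
  rw [abs_le]
  constructor <;> linarith [c1.1, c1.2, c2.1, c2.2, hsh.1, hsh.2]

theorem sum_sqrt_le {W1 : Finset ℤ} {f g : ℤ → ℝ} {X : ℝ} (hf : ∀ w, 0 ≤ f w) (hg : ∀ w, 0 ≤ g w)
    (h1 : ∑ w ∈ W1, f w ≤ X) (h2 : ∑ w ∈ W1, g w ≤ X) : ∑ w ∈ W1, √(f w) * √(g w) ≤ X := by
  have hX : 0 ≤ X := (Finset.sum_nonneg fun w _ => hf w).trans h1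
  calc ∑ w ∈ W1, √(f w) * √(g w) ≤ √(∑ w ∈ W1, f w) * √(∑ w ∈ W1, g w) :=
        Real.sum_sqrt_mul_sqrt_le W1 hf hg
    _ ≤ √X * √X := mul_le_mul (Real.sqrt_le_sqrt h1) (Real.sqrt_le_sqrt h2) (Real.sqrt_nonneg _)
        (Real.sqrt_nonneg _)
    _ = X := Real.mul_self_sqrt hX

/-- energy of the first kernel -/
noncomputable def EAd (k k0 k1 k2 : Fin 4) (R : Finset Nd) (J : Nd) (F : Fin 4 → Fn) (a : ℤ → ℤ → ℂ)
    (c : ℤ → ℂ) (γ0 : ℝ) (S : Finset ℤ) (s' : ℤ) (σ0 : Bool) (j : ℕ) (w : ℤ) : ℝ :=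
  ∑ x ∈ Icc (-(S0 k k0 J : ℤ)) (S0 k k0 J), ∑ y ∈ Icc (-(S0 k k0 J : ℤ)) (S0 k k0 J),
    AJ k k0 k1 k2 R J F a c γ0 S s' σ0 j w x y ^ 2

/-- energy of the second kernel -/
noncomputable def EBd (k k0 k1 k2 : Fin 4) (R : Finset Nd) (J : Nd) (F : Fin 4 → Fn) (b : ℤ → ℤ → ℂ)
    (c : ℤ → ℂ) (γ0 : ℝ) (S : Finset ℤ) (s' : ℤ) (σ1 : Bool) (j : ℕ) (w : ℤ) : ℝ :=
  ∑ x ∈ Icc (-(S0 k k0 J : ℤ)) (S0 k k0 J), ∑ y ∈ Icc (-(S0 k k0 J : ℤ)) (S0 k k0 J),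
    BJ k k0 k1 k2 R J F b c γ0 S s' σ1 j w x y ^ 2

theorem EAd_nonneg (F : Fin 4 → Fn) (a : ℤ → ℤ → ℂ)
    (c : ℤ → ℂ) (γ0 : ℝ) (S : Finset ℤ) (s' : ℤ) (σ0 : Bool) (j : ℕ) (w : ℤ) :
    0 ≤ EAd k k0 k1 k2 R J F a c γ0 S s' σ0 j w :=
  Finset.sum_nonneg fun _ _ => Finset.sum_nonneg fun _ _ => sq_nonneg _

theorem EBd_nonneg (F : Fin 4 → Fn) (a : ℤ → ℤ → ℂ)
    (c : ℤ → ℂ) (γ0 : ℝ) (S : Finset ℤ) (s' : ℤ) (σ0 : Bool) (j : ℕ) (w : ℤ) :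
    0 ≤ EBd k k0 k1 k2 R J F a c γ0 S s' σ0 j w :=
  Finset.sum_nonneg fun _ _ => Finset.sum_nonneg fun _ _ => sq_nonneg _

theorem EAd_sum (h : D4 k k0 k1 k2) (hJ : J ∈ R) {F : Fin 4 → Fn} (hF : ∀ p ∈ R, av p (F k2) ≤ 1)
    (hs : ∀ y, y ∉ iv J → F k2 y = 0) {c : ℤ → ℂ} {S : Finset ℤ}
    (hS : ∀ y, y ∉ S → c y = 0) {γ0 : ℝ} (hγ0 : 0 < γ0) (hM : ∑ y ∈ S, ‖c y‖ ≤ γ0 * 2 ^ J.1)
    {θ : ℤ → ℝ} (hθ : ∀ z, 0 ≤ θ z) {a : ℤ → ℤ → ℂ} (ha : ∀ z0 z1, ‖a z0 z1‖ ^ 2 ≤ θ z1)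
    (W1 : Finset ℤ) (s' : ℤ) (σ0 : Bool) (j : ℕ) {δ : ℝ} (hδ : 0 ≤ δ)
    (hW : (W1.card : ℝ) ≤ 80 * len J) :
    ∑ w ∈ W1, (EAd k k0 k1 k2 R J F a c γ0 S s' σ0 j w + δ) ≤
      80 * len J * ((∑ z1 ∈ T6x J, θ z1) * eJ (len J) j + δ) := by
  have h1 := EA_sum h hJ hF hs (g := fun v => ‖c v‖) (fun v => norm_nonneg _) (S := S)
    (fun v hv => by rw [hS v hv, norm_zero]) hγ0 hM hθ ha (T0x k k0 J) (T6x J) W1
    (Icc (-(S0 k k0 J : ℤ)) (S0 k k0 J)) s' σ0 j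
  rw [card_T0x] at h1
  have h2 := mul_le_mul_of_nonneg_right hW hδ
  rw [Finset.sum_add_distrib, Finset.sum_const, nsmul_eq_mul]
  refine (add_le_add h1 h2).trans (le_of_eq ?_)
  ring

theorem EBd_sum (h : D4 k k0 k1 k2) (hJ : J ∈ R) {F : Fin 4 → Fn} (hF : ∀ p ∈ R, av p (F k0) ≤ 1)
    (hs : ∀ y, y ∉ iv J → F k0 y = 0) {c : ℤ → ℂ} {S : Finset ℤ}
    (hS : ∀ y, y ∉ S → c y = 0) {γ0 : ℝ} (hγ0 : 0 < γ0) (hM : ∑ y ∈ S, ‖c y‖ ≤ γ0 * 2 ^ J.1)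
    {θ : ℤ → ℝ} (hθ : ∀ z, 0 ≤ θ z) {b : ℤ → ℤ → ℂ} (hb : ∀ z1 z2, ‖b z1 z2‖ ^ 2 ≤ θ z1)
    (W1 : Finset ℤ) (s' : ℤ) (σ0 : Bool) (j : ℕ) {δ : ℝ} (hδ : 0 ≤ δ)
    (hW : (W1.card : ℝ) ≤ 80 * len J) :
    ∑ w ∈ W1, (EBd k k0 k1 k2 R J F b c γ0 S s' σ0 j w + δ) ≤
      80 * len J * ((∑ z1 ∈ T6x J, θ z1) * eJ (len J) j + δ) := by
  have h1 := EB_sum h hJ hF hs (g := fun v => ‖c v‖) (fun v => norm_nonneg _) (S := S)
    (fun v hv => by rw [hS v hv, norm_zero]) hγ0 hM hθ hb (T6x J) (T6x J) W1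
    (Icc (-(S0 k k0 J : ℤ)) (S0 k k0 J)) s' σ0 j
  rw [card_T6x] at h1
  have h2 := mul_le_mul_of_nonneg_right hW hδ
  rw [Finset.sum_add_distrib, Finset.sum_const, nsmul_eq_mul]
  have hL0 : 0 < len J := Growth.len_pos J
  have he0 := eJ_nonneg hL0.le j
  have hΘ0 : 0 ≤ ∑ z1 ∈ T6x J, θ z1 := Finset.sum_nonneg fun z _ => hθ z
  have h3 : 6 * len J * (∑ z1 ∈ T6x J, θ z1) * eJ (len J) j ≤
      80 * len J * (∑ z1 ∈ T6x J, θ z1) * eJ (len J) j := by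
    have : 0 ≤ len J * (∑ z1 ∈ T6x J, θ z1) * eJ (len J) j := by positivity
    linarith
  refine (add_le_add (h1.trans h3) h2).trans (le_of_eq ?_)
  ring

/-- the word at one frozen value -/
noncomputable def TwS (k k0 k1 k2 : Fin 4) (R : Finset Nd) (J : Nd) (F : Fin 4 → Fn)
    (a b : ℤ → ℤ → ℂ) (c : ℤ → ℂ) (s' l : ℤ) (σ0 σ1 σ2 : Bool) (L1 : ℕ) (w : ℤ) : ℝ :=
  Tw (fun m p0 p1 p2 => Gd k k0 k1 k2 R m w p0 p1 p2)
        (fun z z' => pr σ0 (kA k k0 k1 k2 (T0x k k0 J) (T6x J) a F w z z'))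
        (fun z z' => pr σ1 (kB k k0 k1 k2 (T6x J) (T6x J) b F w z z'))
        (fun z z' => pr σ2 (kC k k0 k1 k2 (T6x J) (T0x k k0 J) (gc k k0 k2 c s') F w z z'))
        (J.1 + 1) L1 l w

/-- abstract sum over the frozen value -/
theorem sum_abstract {Wf W1 : Finset ℤ} (hsub : W1 ⊆ Wf) {T : ℤ → ℝ} (h0 : ∀ w ∈ Wf, w ∉ W1 → T w = 0)
    {N : ℕ} {EA EB : ℕ → ℤ → ℝ} {κ δ X L Θ : ℝ} {e : ℕ → ℝ} (hκ : 0 ≤ κ) (hδ : 0 ≤ δ)
    (hΘ : 0 ≤ Θ) (hX : 0 ≤ X)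
    (hT : ∀ w ∈ W1, T w ≤ ∑ j ∈ range (N + 1), κ * 2 ^ j * (√(EA j w + δ) * √(EB j w + δ)))
    (hA0 : ∀ j w, 0 ≤ EA j w) (hB0 : ∀ j w, 0 ≤ EB j w)
    (hA : ∀ j, ∑ w ∈ W1, (EA j w + δ) ≤ X * (Θ * e j + δ))
    (hB : ∀ j, ∑ w ∈ W1, (EB j w + δ) ≤ X * (Θ * e j + δ))
    (he : ∀ j, 2 ^ j * e j ≤ 40 * L) :
    ∑ w ∈ Wf, T w ≤ (N + 1) * (40 * κ * X) * (L * Θ + 2 ^ N * δ) := by
  classical
  have h1 : ∑ w ∈ Wf, T w = ∑ w ∈ W1, T w :=
    (Finset.sum_subset hsub fun w hw hw1 => h0 w hw hw1).symm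
  rw [h1]
  refine (Finset.sum_le_sum hT).trans ?_
  rw [Finset.sum_comm]
  have hj : ∀ j ∈ range (N + 1), ∑ w ∈ W1, κ * 2 ^ j * (√(EA j w + δ) * √(EB j w + δ)) ≤
      (40 * κ * X) * (L * Θ + 2 ^ N * δ) := by
    intro j hjr
    rw [Finset.mem_range] at hjr
    rw [← Finset.mul_sum]
    have h2 := sum_sqrt_le (W1 := W1) (f := fun w => EA j w + δ) (g := fun w => EB j w + δ)
      (fun w => add_nonneg (hA0 j w) hδ) (fun w => add_nonneg (hB0 j w) hδ) (hA j) (hB j)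
    refine (mul_le_mul_of_nonneg_left h2 (by positivity)).trans ?_
    have h3 : (2 : ℝ) ^ j ≤ 2 ^ N := pow_le_pow_right₀ (by norm_num) (by omega)
    have h4 : 2 ^ j * (Θ * e j + δ) ≤ 40 * (L * Θ + 2 ^ N * δ) := by
      have a1 : Θ * (2 ^ j * e j) ≤ Θ * (40 * L) := mul_le_mul_of_nonneg_left (he j) hΘ
      have a2 : (2 : ℝ) ^ j * δ ≤ 2 ^ N * δ := mul_le_mul_of_nonneg_right h3 hδ
      have a3 : (0 : ℝ) ≤ 2 ^ N * δ := by positivity
      calc 2 ^ j * (Θ * e j + δ) = Θ * (2 ^ j * e j) + 2 ^ j * δ := by ring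
        _ ≤ Θ * (40 * L) + 2 ^ N * δ := add_le_add a1 a2
        _ ≤ _ := by linarith
    calc κ * 2 ^ j * (X * (Θ * e j + δ)) = κ * X * (2 ^ j * (Θ * e j + δ)) := by ring
      _ ≤ κ * X * (40 * (L * Θ + 2 ^ N * δ)) := mul_le_mul_of_nonneg_left h4 (by positivity)
      _ = _ := by ring
  refine (Finset.sum_le_sum hj).trans (le_of_eq ?_)
  rw [Finset.sum_const, Finset.card_range, nsmul_eq_mul]
  push_cast
  ring

/-- **ONE SHIFT** -/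
theorem one_shift (hCZ : CornerZ) : ∃ K : ℝ, 0 ≤ K ∧ ∀ (k k0 k1 k2 : Fin 4), D4 k k0 k1 k2 →
    ∀ (R : Finset Nd) (J : Nd), IsRegion R J → J ∈ R → ∀ (F : Fin 4 → Fn) (Hx M3 : ℝ),
    0 < Hx → 0 < M3 →
    (∀ y, y ∉ iv J → F k0 y = 0) → (∀ y, y ∉ iv J → F k2 y = 0) →
    (∀ p ∈ R, av p (F k0) ≤ 1) → (∀ p ∈ R, av p (F k2) ≤ 1) →
    (∀ y, ‖F k0 y‖ ≤ Hx) → (∀ y, ‖F k2 y‖ ≤ Hx) → (∀ y, ‖F k1 y‖ ≤ M3) →
    ∀ (θ : ℤ → ℝ) (Θm : ℝ), (∀ z, 0 ≤ θ z) → (∀ z, θ z ≤ Θm) → 0 < Θm →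
    ∀ (a b : ℤ → ℤ → ℂ), (∀ z0 z1, ‖a z0 z1‖ ^ 2 ≤ θ z1) → (∀ z1 z2, ‖b z1 z2‖ ^ 2 ≤ θ z1) →
    ∀ (c : ℤ → ℂ) (S : Finset ℤ) (γ0 : ℝ) (N : ℕ), (∀ v, v ∉ S → c v = 0) → 0 < γ0 →
    ∑ v ∈ S, ‖c v‖ ≤ γ0 * 2 ^ J.1 → (∀ v, ‖c v‖ ≤ γ0 * 2 ^ N) → ∀ Hg : ℝ, (∀ v, ‖c v‖ ≤ Hg) →
    ∀ (δ : ℝ) (J0 : ℕ), 0 < δ →
    Hg ^ 2 * (6000 * len J ^ 2) ≤ 289 * γ0 ^ 2 * (δ / (Θm * Hx ^ 2) * 2 ^ J0) →
    ∀ (s' l : ℤ), |l| ≤ 7 → ∀ (σ0 σ1 σ2 : Bool) (Wf : Finset ℤ) (L1 : ℕ),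
    ∑ w ∈ Wf, TwS k k0 k1 k2 R J F a b c s' l σ0 σ1 σ2 L1 w ≤
      K * ((N + 1) * (2 * J0 + 1)) * (M3 * γ0) * len J *
        (len J * (∑ z1 ∈ T6x J, θ z1) + 2 ^ N * δ) := by
  obtain ⟨K0, hK0, hone⟩ := one_w hCZ
  refine ⟨54400 * K0, by positivity, ?_⟩
  intro k k0 k1 k2 h R J hR hJ F Hx M3 hHx hM3 hs0 hs2 hav0 hav2 hb0 hb2 hb1 θ Θm hθ0 hθm hΘm a b ha hb
    c S γ0 N hcS hγ0 hcM hcN Hg hcH δ J0 hδ hJ0 s' l hl σ0 σ1 σ2 Wf L1
  have hL0 : 0 < len J := Growth.len_pos J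
  have hL1 : (128 : ℝ) ≤ len J := by rw [← lenN_cast]; exact_mod_cast lenN_ge J
  have hρ0 : sl k - sl k0 ≠ 0 := by
    have := sl_ne0 k k0 h.h0
    intro hc; apply this; linarith
  have hW1c : ((Wf.filter fun w => |(sl k - sl k0) * w - J.2 * 2 ^ (J.1 + 7)| ≤
      37 * (lenN J : ℤ)).card : ℝ) ≤ 80 * len J := by
    have h1 := card_W1 (e := J.2 * 2 ^ (J.1 + 7)) hρ0 (lenN J) Wf
    have h2 : ((Wf.filter fun w => |(sl k - sl k0) * w - J.2 * 2 ^ (J.1 + 7)| ≤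
      37 * (lenN J : ℤ)).card : ℝ) ≤ 74 * (lenN J : ℝ) + 1 := by
      exact_mod_cast h1
    rw [lenN_cast] at h2
    linarith
  have hΘ0 : 0 ≤ ∑ z1 ∈ T6x J, θ z1 := Finset.sum_nonneg fun z _ => hθ0 z
  have hmain := sum_abstract (Wf := Wf)
    (W1 := Wf.filter fun w => |(sl k - sl k0) * w - J.2 * 2 ^ (J.1 + 7)| ≤ 37 * (lenN J : ℤ))
    (Finset.filter_subset _ _) (T := TwS k k0 k1 k2 R J F a b c s' l σ0 σ1 σ2 L1)
    (fun w hw hw1 => tw_zero fun x y => kB_far hs0 (fun hc => hw1 (Finset.mem_filter.2 ⟨hw, hc⟩))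
      σ1 x y) (N := N) (EA := EAd k k0 k1 k2 R J F a c γ0 S s' σ0)
    (EB := EBd k k0 k1 k2 R J F b c γ0 S s' σ1) (κ := K0 * (2 * J0 + 1) * (17 * M3 * γ0)) (δ := δ)
    (X := 80 * len J) (L := len J) (Θ := ∑ z1 ∈ T6x J, θ z1) (e := eJ (len J)) (by positivity) hδ.le
    hΘ0 (by positivity)
    (fun w _ => by
      have h5 := hone k k0 k1 k2 h R J hR F Hx M3 hHx hM3 hb0 hb2 hb1 θ Θm hθm
        hΘm a b ha hb c S γ0 N hcS hγ0 hcM hcN Hg hcH δ J0 hδ hJ0 s' l hl σ0 σ1 σ2 w L1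
      refine (show TwS k k0 k1 k2 R J F a b c s' l σ0 σ1 σ2 L1 w ≤ _ from h5).trans (le_of_eq ?_)
      refine Finset.sum_congr rfl fun j _ => ?_
      show K0 * (2 * J0 + 1) * ((17 * M3 * (γ0 * 2 ^ j)) *
        √(EAd k k0 k1 k2 R J F a c γ0 S s' σ0 j w + δ) *
        √(EBd k k0 k1 k2 R J F b c γ0 S s' σ1 j w + δ)) = _
      ring)
    (fun j w => EAd_nonneg F a c γ0 S s' σ0 j w) (fun j w => EBd_nonneg F b c γ0 S s' σ1 j w)
    (fun j => EAd_sum h hJ hav2 hs2 hcS hγ0 hcM hθ0 ha _ s' σ0 j hδ.le hW1c)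
    (fun j => EBd_sum h hJ hav0 hs0 hcS hγ0 hcM hθ0 hb _ s' σ1 j hδ.le hW1c)
    (fun j => eJ_mul hL0.le j)
  refine hmain.trans (le_of_eq ?_)
  ring

end

end Crest.Agent.R079.CKk217
end

-- ▼ part R079/CKu_217
section

/-! R079 (helper217), CELLKILL part 7 (note 1095 (5)): **HIGH** for a group. -/

set_option autoImplicit false

namespace Crest.Agent.R079.CKk217

open Finset Crest.Agent.R079.Grid Crest.Agent.R079.Glue Crest.Agent.R079.Growth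
  Crest.Agent.R079.QRed Crest.Agent.R079.KLx446 Crest.Agent.R079.CKh217 Crest.Agent.R079.KC996
  Crest.Agent.R079.CKi217 Crest.Agent.R079.CKj217 Crest.Agent.R079.CKgx37

theorem Lbox_update_fsum {ι : Type*} (N : ℕ) (bb x : ℤ) (F : Fin 4 → ℤ → ℂ) (i : Fin 4) (s : Finset ι)
    (φ : ι → ℤ → ℂ) :
    Lbox N bb (Function.update F i (fun y => ∑ k ∈ s, φ k y)) x =
      ∑ k ∈ s, Lbox N bb (Function.update F i (φ k)) x := by
  unfold Lbox
  simp only [Qb247.prod_update]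
  simp only [Finset.mul_sum, Finset.sum_mul]
  rw [Finset.sum_comm]

/-- letters masked to `iv J` -/
noncomputable def mkL (J : Nd) (F : Fin 4 → Fn) : Fin 4 → Fn := fun j y => if y ∈ iv J then F j y else 0

theorem mkL_supp (J : Nd) (F : Fin 4 → Fn) (j : Fin 4) (y : ℤ) (hy : y ∉ iv J) : mkL J F j y = 0 := by
  unfold mkL
  rw [if_neg hy]

theorem mkL_norm (J : Nd) (F : Fin 4 → Fn) (j : Fin 4) (y : ℤ) : ‖mkL J F j y‖ ≤ ‖F j y‖ := by
  unfold mkL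
  split_ifs
  · exact le_rfl
  · rw [norm_zero]; exact norm_nonneg _

theorem final_num {K0 P M3 V h L κ Sg : ℝ} (hK0 : 0 ≤ K0) (hP : 0 ≤ P) (hM : 0 ≤ M3) (hV : 0 ≤ V)
    (hh : 0 < h) (hL : 0 < L) (hκ : κ ≤ 1 / (12 * L ^ 2)) (hS0 : 0 ≤ Sg) (hS : Sg ≤ 6 * L * V) :
    κ * (8 * (K0 * P * (M3 * (512 / h)) * L * (L * Sg + 37 * L * (L * V)))) ≤
      15000 * K0 * P * (M3 * V / h) * L := by
  have h6 : L * Sg + 37 * L * (L * V) ≤ 43 * L ^ 2 * V := by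
    have := mul_le_mul_of_nonneg_left hS hL.le
    linarith
  have h7 : 0 ≤ K0 * P * (M3 * (512 / h)) * L := by positivity
  have h8 : 0 ≤ L * Sg + 37 * L * (L * V) := by positivity
  have h9 : 0 ≤ K0 * P * (M3 * V / h) * L := by positivity
  calc κ * (8 * (K0 * P * (M3 * (512 / h)) * L * (L * Sg + 37 * L * (L * V))))
      ≤ 1 / (12 * L ^ 2) * (8 * (K0 * P * (M3 * (512 / h)) * L * (L * Sg + 37 * L * (L * V)))) :=
        mul_le_mul_of_nonneg_right hκ (by positivity)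
    _ ≤ 1 / (12 * L ^ 2) * (8 * (K0 * P * (M3 * (512 / h)) * L * (43 * L ^ 2 * V))) := by
        refine mul_le_mul_of_nonneg_left ?_ (by positivity)
        refine mul_le_mul_of_nonneg_left ?_ (by norm_num)
        exact mul_le_mul_of_nonneg_left h6 h7
    _ = (344 / 12 * 512) * (K0 * P * (M3 * V / h) * L) := by
        field_simp
        ring
    _ ≤ 15000 * (K0 * P * (M3 * V / h) * L) := mul_le_mul_of_nonneg_right (by norm_num) h9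
    _ = _ := by ring

/-- **HIGH** -/
theorem high_group (hCZ : CornerZ) : ∃ K : ℝ, 0 ≤ K ∧ ∀ (k k0 k1 k2 : Fin 4), D4 k k0 k1 k2 →
    ∀ (R : Finset Nd) (J : Nd), IsRegion R J → J ∈ R → ∀ bb : ℤ, bb = -1 ∨ bb = -7 →
    ∀ (F : Fin 4 → Fn) (Hx M3 : ℝ), 0 < Hx → 0 < M3 →
    (∀ p ∈ R, av p (F k0) ≤ 1) → (∀ p ∈ R, av p (F k2) ≤ 1) →
    (∀ y, ‖F k0 y‖ ≤ Hx) → (∀ y, ‖F k2 y‖ ≤ Hx) → (∀ y, ‖F k1 y‖ ≤ M3) →
    ∀ (V cap Hc h : ℝ) (s0 b0 : ℤ) (S : Finset ℤ) (w : ℤ → ℝ) (u c : ℤ → ℂ) (ξ : ℤ → ℝ),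
    GrpD (lenN J) V cap Hc s0 b0 S w u c → 0 < cap → 0 < h →
    (∀ y ∈ iv J, F k y = grp S w u (hiC h c) ξ y) → ∀ N J0 : ℕ, Hc * h ≤ 512 * 2 ^ N →
    (Hc * h) ^ 2 * Hx ^ 2 * cap * 2 ^ N ≤ 2 ^ J0 →
    ∑ p ∈ R, ∑ x ∈ adm p.1 p.2, ‖Lbox (2 ^ p.1) bb F x‖ ≤
      K * ((N + 1) * (2 * J0 + 1)) * (M3 * V / h) * len J := by
  obtain ⟨K0, hK0, hone⟩ := one_shift hCZ
  refine ⟨15000 * K0, by positivity, ?_⟩
  intro k k0 k1 k2 h4 R J hR hJ bb hbb F Hx M3 hHx hM3 hav0 hav2 hb0 hb2 hb1 V cap Hc h s0 b0 S w u c ξ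
    hG hcap hh hFk N J0 hN hJ0
  have hL0 : 0 < len J := Growth.len_pos J
  have hV := hG.V0
  have hlen : ((lenN J : ℕ) : ℝ) = len J := lenN_cast J
  set c' : ℤ → ℂ := hiC h c with hc'
  set f : ℤ → Fn := fun s' => kerF4 k k0 k1 k2 ((|sl k0 - sl k| : ℤ) / (36 * len J ^ 2)) (T0x k k0 J)
      (T6x J) (T6x J) (fun z0 z1 z2 => ga k k0 k1 S w u ξ s' z0 z1 * gb k k1 k2 S w ξ s' z1 z2 *
          gc k k0 k2 c' s' z2 z0) with hf
  -- decomposition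
  have hdec : ∀ p ∈ R, ∀ x ∈ adm p.1 p.2, ‖Lbox (2 ^ p.1) bb F x‖ ≤
      ∑ s' ∈ Shx s0 J, ‖Lbox (2 ^ p.1) bb (Function.update (mkL J F) k (f s')) x‖ := by
    intro p hp x hx
    have e1 : Lbox (2 ^ p.1) bb F x = Lbox (2 ^ p.1) bb
        (Function.update (mkL J F) k (fun y => ∑ s' ∈ Shx s0 J, f s' y)) x := by
      refine Qb247.Lbox_congr p.1 p.2 bb x hbb hx _ _ fun j y hy => ?_
      have hyJ : y ∈ iv J := hR.1 p hp hy
      by_cases hj : j = k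
      · subst hj
        rw [Function.update_self, hFk y hyJ]
        exact grp_rep h4 J hG.w0 hG.S0 u c' ξ hyJ
      · rw [Function.update_of_ne hj]
        unfold mkL
        rw [if_pos hyJ]
    rw [e1, Lbox_update_fsum]
    exact norm_sum_le _ _
  have hswap : ∑ p ∈ R, ∑ x ∈ adm p.1 p.2, ‖Lbox (2 ^ p.1) bb F x‖ ≤
      ∑ s' ∈ Shx s0 J, ∑ p ∈ R, ∑ x ∈ adm p.1 p.2,
        ‖Lbox (2 ^ p.1) bb (Function.update (mkL J F) k (f s')) x‖ := by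
    rw [Finset.sum_comm]
    refine Finset.sum_le_sum fun p hp => ?_
    rw [Finset.sum_comm]
    exact Finset.sum_le_sum fun x hx => hdec p hp x hx
  refine hswap.trans ?_
  -- one shift
  set θ : ℤ → ℤ → ℝ := fun s' z1 => if s' + (sl k1 - sl k) * z1 ∈ S then
    w (s' + (sl k1 - sl k) * z1) else 0 with hθ
  set Θm : ℝ := cap * V / len J with hΘm
  have hΘm0 : 0 < Θm := by positivity
  set δ : ℝ := len J * V / 2 ^ N with hδ
  have hδ0 : 0 < δ := by positivity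
  set γ0 : ℝ := 512 / h with hγ0
  have hγ0' : 0 < γ0 := by positivity
  set Kb : ℤ → ℝ := fun s' => K0 * ((N + 1) * (2 * J0 + 1)) * (M3 * γ0) * len J *
    (len J * (∑ z1 ∈ T6x J, θ s' z1) + 2 ^ N * δ) with hKb
  set κ : ℝ := ((|sl k0 - sl k| : ℤ) : ℝ) / (36 * len J ^ 2) with hκ
  have habs0 : (0 : ℝ) ≤ ((|sl k0 - sl k| : ℤ) : ℝ) := by exact_mod_cast abs_nonneg _
  have habs3 : ((|sl k0 - sl k| : ℤ) : ℝ) ≤ 3 := by exact_mod_cast sl_abs3 k k0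
  have hκ0 : 0 ≤ κ := by positivity
  have hHc0 : 0 ≤ Hc := (norm_nonneg _).trans (hG.cH 0)
  have hword : ∀ s' ∈ Shx s0 J, ∑ p ∈ R, ∑ x ∈ adm p.1 p.2,
      ‖Lbox (2 ^ p.1) bb (Function.update (mkL J F) k (f s')) x‖ ≤ κ * (8 * Kb s') := by
    intro s' _
    have n0 : k0 ≠ k := Ne.symm h4.h0
    have n1 : k1 ≠ k := Ne.symm h4.h1
    have n2 : k2 ≠ k := Ne.symm h4.h2
    refine region_words h4 (Kb s') bb hbb R J hR (T0x k k0 J) (T6x J) (T6x J)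
      (ga k k0 k1 S w u ξ s') (gb k k1 k2 S w ξ s') (gc k k0 k2 c' s')
      (Function.update (mkL J F) k (f s')) ?_ κ hκ0 (by rw [Function.update_self])
    intro l hl σ0 σ1 σ2 Wf L1
    refine hone k k0 k1 k2 h4 R J hR hJ (Function.update (mkL J F) k (f s')) Hx M3 hHx hM3
      ?_ ?_ ?_ ?_ ?_ ?_ ?_ (θ s') Θm ?_ ?_ hΘm0 (ga k k0 k1 S w u ξ s') (gb k k1 k2 S w ξ s')
      (fun z0 z1 => norm_ga_sq hG.w0 hG.u1 ξ s' z0 z1) (fun z1 z2 => norm_gb_sq hG.w0 ξ s' z1 z2)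
      c' (Finset.Ico b0 (b0 + 2 * (lenN J : ℤ))) γ0 N (fun v hv => hG.hi_supp h v hv) hγ0' ?_ ?_ Hc ?_
      δ J0 hδ0 ?_ s' l hl σ0 σ1 σ2 Wf L1
    · intro y hy
      rw [Function.update_of_ne n0]; exact mkL_supp J F _ y hy
    · intro y hy
      rw [Function.update_of_ne n2]; exact mkL_supp J F _ y hy
    · intro p hp
      rw [Function.update_of_ne n0]
      exact (Cell37.av_mono' fun y _ => mkL_norm J F _ y).trans (hav0 p hp)
    · intro p hp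
      rw [Function.update_of_ne n2]
      exact (Cell37.av_mono' fun y _ => mkL_norm J F _ y).trans (hav2 p hp)
    · intro y
      rw [Function.update_of_ne n0]; exact (mkL_norm J F _ y).trans (hb0 y)
    · intro y
      rw [Function.update_of_ne n2]; exact (mkL_norm J F _ y).trans (hb2 y)
    · intro y
      rw [Function.update_of_ne n1]; exact (mkL_norm J F _ y).trans (hb1 y)
    · intro z
      simp only [hθ]
      split_ifs
      · exact hG.w0 _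
      · exact le_rfl
    · intro z
      simp only [hθ]
      split_ifs
      · rw [hΘm, le_div_iff₀ hL0, ← hlen]
        exact hG.wc _
      · exact hΘm0.le
    · refine (hG.hi_l1 hh).trans (le_of_eq ?_)
      rw [hlen, hγ0]
      unfold len
      rw [pow_add]
      field_simp
      ring
    · intro v
      refine (norm_hiC_le h c v).trans ((hG.cH v).trans ?_)
      rw [hγ0, div_mul_eq_mul_div, le_div_iff₀ hh]
      exact hN
    · intro v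
      exact (norm_hiC_le h c v).trans (hG.cH v)
    · -- numbers
      rw [hγ0, hδ, hΘm]
      have e1 : len J * V / 2 ^ N / (cap * V / len J * Hx ^ 2) * 2 ^ J0 =
          len J ^ 2 * (2 ^ J0 / (2 ^ N * cap * Hx ^ 2)) := by
        field_simp
      rw [e1]
      have h2 : Hc ^ 2 * h ^ 2 ≤ 2 ^ J0 / (2 ^ N * cap * Hx ^ 2) := by
        rw [le_div_iff₀ (by positivity)]
        calc Hc ^ 2 * h ^ 2 * (2 ^ N * cap * Hx ^ 2) = (Hc * h) ^ 2 * Hx ^ 2 * cap * 2 ^ N := by ring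
          _ ≤ 2 ^ J0 := hJ0
      have h3 : Hc ^ 2 ≤ (2 ^ J0 / (2 ^ N * cap * Hx ^ 2)) / h ^ 2 := by
        rw [le_div_iff₀ (by positivity)]
        exact h2
      have h4' : 0 ≤ len J ^ 2 := by positivity
      have h5 : 0 ≤ (2 ^ J0 / (2 ^ N * cap * Hx ^ 2)) / h ^ 2 := by positivity
      calc Hc ^ 2 * (6000 * len J ^ 2) ≤
            (2 ^ J0 / (2 ^ N * cap * Hx ^ 2)) / h ^ 2 * (6000 * len J ^ 2) := by gcongr
        _ ≤ (2 ^ J0 / (2 ^ N * cap * Hx ^ 2)) / h ^ 2 * (75759616 * len J ^ 2) := by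
            gcongr
            norm_num
        _ = 289 * (512 / h) ^ 2 * (len J ^ 2 * (2 ^ J0 / (2 ^ N * cap * Hx ^ 2))) := by
            field_simp
            norm_num
  refine (Finset.sum_le_sum hword).trans ?_
  -- masses
  have hmass : ∑ s' ∈ Shx s0 J, ∑ z1 ∈ T6x J, θ s' z1 ≤ 6 * len J * V := by
    refine (mass_all (T6x J) (Shx s0 J) hG.w0).trans ?_
    rw [card_T6x]
    exact mul_le_mul_of_nonneg_left hG.wV (by positivity)
  have hsum : ∑ s' ∈ Shx s0 J, Kb s' = K0 * ((N + 1) * (2 * J0 + 1)) * (M3 * γ0) * len J *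
      (len J * (∑ s' ∈ Shx s0 J, ∑ z1 ∈ T6x J, θ s' z1) + 37 * len J * (2 ^ N * δ)) := by
    simp only [hKb]
    rw [← Finset.mul_sum, Finset.sum_add_distrib, ← Finset.mul_sum, Finset.sum_const, nsmul_eq_mul,
      card_Shx]
  have hδN : 2 ^ N * δ = len J * V := by rw [hδ]; field_simp
  rw [← Finset.mul_sum, ← Finset.mul_sum, hsum, hδN]
  have hκle : κ ≤ 1 / (12 * len J ^ 2) := by
    rw [hκ, div_le_div_iff₀ (by positivity) (by positivity)]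
    have h9 : 0 ≤ len J ^ 2 := by positivity
    nlinarith
  have hm0 : 0 ≤ ∑ s' ∈ Shx s0 J, ∑ z1 ∈ T6x J, θ s' z1 :=
    Finset.sum_nonneg fun s' _ => Finset.sum_nonneg fun z1 _ => by
      simp only [hθ]
      split_ifs
      · exact hG.w0 _
      · exact le_rfl
  rw [hγ0]
  exact final_num hK0 (by positivity) hM3.le hV.le hh hL0 hκle hm0 hmass

/-- a dyadic bound of a number `≥ 1` -/
theorem exists_dy {P : ℝ} (hP : 1 ≤ P) : ∃ n : ℕ, P ≤ 2 ^ n ∧ ((n : ℝ) + 1) ≤ 3 * (1 + Real.log P) := by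
  have hl0 : 0 ≤ Real.log P := Real.log_nonneg hP
  obtain ⟨n, hn1, hn2⟩ : ∃ n : ℕ, P ≤ 2 ^ n ∧ (n : ℝ) ≤ 1 + Real.log P / Real.log 2 := by
    refine ⟨⌈Real.log P / Real.log 2⌉₊, ?_, ?_⟩
    · have hl2 : 0 < Real.log 2 := Real.log_pos (by norm_num)
      have h1 : Real.log P / Real.log 2 ≤ (⌈Real.log P / Real.log 2⌉₊ : ℝ) := Nat.le_ceil _
      rw [div_le_iff₀ hl2] at h1
      rw [← Real.rpow_natCast, ← Real.exp_log (show (0 : ℝ) < P by linarith),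
        Real.rpow_def_of_pos (by norm_num)]
      rw [Real.log_exp] at *
      exact Real.exp_le_exp.2 (by linarith)
    · have h1 := Nat.ceil_lt_add_one (a := Real.log P / Real.log 2)
        (div_nonneg hl0 (Real.log_pos (by norm_num)).le)
      linarith
  refine ⟨n, hn1, ?_⟩
  have hl2 : (1 / 2 : ℝ) ≤ Real.log 2 := by linarith [Real.log_two_gt_d9]
  have h3 : Real.log P / Real.log 2 ≤ 2 * Real.log P := by
    rw [div_le_iff₀ (by linarith)]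
    nlinarith
  linarith

/-- **HIGH**, log form -/
theorem highN (hCZ : CornerZ) : ∃ K : ℝ, 0 ≤ K ∧ ∀ (i m k3 a : Fin 4), D4 i m k3 a →
    ∀ (W : Finset Nd) (I : Nd), IsRegion W I → I ∈ W → ∀ bb : ℤ, bb = -1 ∨ bb = -7 →
    ∀ (F : Fin 4 → Fn) (h V cap Hc Hx M3 : ℝ) (s0 b0 : ℤ) (S : Finset ℤ) (w : ℤ → ℝ) (u c : ℤ → ℂ)
      (ξ : ℤ → ℝ), 1 ≤ h → 1 ≤ cap → 1 ≤ Hc → 1 ≤ Hx → 0 < M3 →
    GrpD (lenN I) V cap Hc s0 b0 S w u c →
    (∀ j, j ≠ i → ∀ p ∈ W, av p (F j) ≤ 1) → (∀ j, j ≠ i → ∀ y, ‖F j y‖ ≤ Hx) →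
    (∀ y, ‖F k3 y‖ ≤ M3) → (∀ y ∈ iv I, F i y = grp S w u (hiC h c) ξ y) →
    ∑ p ∈ W, ∑ x ∈ adm p.1 p.2, ‖Lbox (2 ^ p.1) bb F x‖ ≤
      K * (1 + Real.log (cap * Hc * Hx)) ^ 2 * (M3 * V / h) * len I := by
  obtain ⟨K0, hK0, hH⟩ := high_group hCZ
  refine ⟨324 * K0, by positivity, ?_⟩
  intro i m k3 a hD W I hW hI bb hbb F h V cap Hc Hx M3 s0 b0 S w u c ξ hh hcap hHc hHx hM3 hG hav hsup
    h3 hFi
  have hV := hG.V0
  have hL := Growth.len_pos I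
  have hP : 1 ≤ cap * Hc * Hx := by
    have := one_le_mul_of_one_le_of_one_le (one_le_mul_of_one_le_of_one_le hcap hHc) hHx
    exact this
  rcases lt_or_ge Hc h with hlt | hge
  · -- nothing is high
    have hz : ∀ y ∈ iv I, F i y = 0 := by
      intro y hy
      rw [hFi y hy]
      unfold grp
      refine Finset.sum_eq_zero fun s _ => ?_
      have : hiC h c (y - s) = 0 := by
        unfold hiC
        rw [if_pos ((hG.cH _).trans hlt.le)]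
      rw [this]; ring
    have h0 : ∀ p ∈ W, ∀ x ∈ adm p.1 p.2, ‖Lbox (2 ^ p.1) bb F x‖ = 0 := by
      intro p hp x hx
      rw [norm_eq_zero]
      unfold Lbox
      rw [Finset.sum_eq_zero, mul_zero]
      intro v _
      have hmem := yv_mem p.1 p.2 bb x hbb hx v i
      exact mul_eq_zero_of_right _ (Finset.prod_eq_zero (Finset.mem_univ i)
        (hz _ (hW.1 p hp hmem)))
    rw [Finset.sum_eq_zero fun p hp => Finset.sum_eq_zero fun x hx => h0 p hp x hx]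
    have : 0 ≤ Real.log (cap * Hc * Hx) := Real.log_nonneg hP
    positivity
  · obtain ⟨n, hn1, hn2⟩ := exists_dy hP
    have hHcn : Hc ≤ 2 ^ n := by
      refine le_trans ?_ hn1
      have h1 : Hc ≤ cap * Hc := le_mul_of_one_le_left (by linarith) hcap
      have h2 : cap * Hc ≤ cap * Hc * Hx := le_mul_of_one_le_right (by positivity) hHx
      linarith
    have hHxn : Hx ≤ 2 ^ n := by
      refine le_trans ?_ hn1
      exact le_mul_of_one_le_left (by linarith) (one_le_mul_of_one_le_of_one_le hcap hHc)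
    have hcapn : cap ≤ 2 ^ n := by
      refine le_trans ?_ hn1
      have h1 : cap ≤ cap * Hc := le_mul_of_one_le_right (by linarith) hHc
      have h2 : cap * Hc ≤ cap * Hc * Hx := le_mul_of_one_le_right (by positivity) hHx
      linarith
    have hHch : Hc * h ≤ 2 ^ n * 2 ^ n := by
      have : h ≤ 2 ^ n := hge.trans hHcn
      exact mul_le_mul hHcn this (by linarith) (by positivity)
    have hmain := hH i m k3 a hD W I hW hI bb hbb F Hx M3 (by linarith) hM3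
      (hav m (Ne.symm hD.h0)) (hav a (Ne.symm hD.h2)) (hsup m (Ne.symm hD.h0)) (hsup a (Ne.symm hD.h2))
      h3 V cap Hc h s0 b0 S w u c ξ hG (by linarith) (by linarith) hFi (2 * n) (9 * n)
      (by
        have e1 : (2 : ℝ) ^ (2 * n) = 2 ^ n * 2 ^ n := by rw [two_mul, pow_add]
        rw [e1]
        have h9 : (0 : ℝ) ≤ 2 ^ n * 2 ^ n := by positivity
        linarith)
      (by
        have e1 : (2 : ℝ) ^ (9 * n) = (2 ^ n * 2 ^ n) ^ 2 * (2 ^ n) ^ 2 * 2 ^ n * 2 ^ (2 * n) := by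
          rw [← pow_mul, ← pow_add, ← pow_mul, ← pow_add, ← pow_add, ← pow_add]
          congr 1
          ring
        rw [e1]
        have h10 : 0 ≤ Hc * h := by positivity
        gcongr)
    refine hmain.trans ?_
    have hN : (((2 * n : ℕ) : ℝ) + 1) * (2 * ((9 * n : ℕ) : ℝ) + 1) ≤ 324 * (1 + Real.log (cap * Hc * Hx)) ^ 2 := by
      push_cast
      have hn0 : (0 : ℝ) ≤ n := by positivity
      have h5 : ((n : ℝ) + 1) ^ 2 ≤ (3 * (1 + Real.log (cap * Hc * Hx))) ^ 2 :=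
        pow_le_pow_left₀ (by positivity) hn2 2
      nlinarith
    have h8 : 0 ≤ (M3 * V / h) * len I := by positivity
    calc K0 * ((((2 * n : ℕ) : ℝ) + 1) * (2 * ((9 * n : ℕ) : ℝ) + 1)) * (M3 * V / h) * len I
        ≤ K0 * (324 * (1 + Real.log (cap * Hc * Hx)) ^ 2) * (M3 * V / h) * len I := by gcongr
      _ = _ := by ring

end Crest.Agent.R079.CKk217
end

-- ▼ part R079/CKv_217
section

/-! R079 (helper217), CELLKILL part 8: HIGH, unconditional, in the form used by the assembly. -/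

set_option autoImplicit false

namespace Crest.Agent.R079.CKk217

open Finset Crest.Agent.R079.Grid Crest.Agent.R079.Glue Crest.Agent.R079.Growth
  Crest.Agent.R079.QRed Crest.Agent.R079.KLx446 Crest.Agent.R079.CKgx37

theorem cornerZ : CornerZ := KTx279.cornerZ_of_cornerR CRfinx253.cornerR


end Crest.Agent.R079.CKk217
end

-- ▼ part R079/CKv_37
section

/-! R079 (helper37), CELLKILL part 9: **FIELD `cell` FOR THE FINAL PARAMETERS** `PF x C ρ c` of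
`NP_112`, from the kill lemma in the LOG form `KillN (PhiL C r e1 0 1 2)` and from
`HighN (PsiL K r)`. -/

set_option autoImplicit false

namespace Crest.Agent.R079.CKgx37

open Finset Crest.Agent.R079.Grid Crest.Agent.R079.Glue Crest.Agent.R079.Growth
  Crest.Agent.R079.QRed Crest.Agent.R079.Cell37 Crest.Agent.R079.OpS276 Crest.Agent.R079.OpK276
  Crest.Agent.R079.WS112 Crest.Agent.R079.WS0112 Crest.Agent.R079.T6bx252
  Crest.Agent.R079.NP112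

/-- the log form of the kill lemma is tame -/
theorem tamP_phiL {C : ℝ} (hC : 0 ≤ C) (r : ℕ) (e1 : ℝ) : TamP (PhiL C r e1 0 1 2) := by
  intro σ ξ C1 h τ hσ hC1 hh hτ hτσ hξ
  obtain ⟨K, t1, hK, ht1, hb⟩ := phiL_num (r := r) (e1 := e1) (e2 := 0) (e4 := 1) (e5 := 2)
    (σ := σ) (X := ξ) (u := C1) (v := 0) (h := h) (G := τ) hC hσ.le (by linarith) hC1 le_rfl hh hτσ
    (by linarith)
  refine ⟨K, t1, hK, ht1, fun t ht htt => ?_⟩
  have := hb t ht htt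
  rwa [neg_zero, Real.rpow_zero] at this

/-- poly-log price of HIGH -/
noncomputable def PsiL (K : ℝ) (r : ℕ) (cap Hc Hx : ℝ) : ℝ :=
  K * (1 + Real.log (2 + cap * Hc * Hx)) ^ r

theorem tamH_psiL {K : ℝ} (hK : 0 ≤ K) (r : ℕ) : TamH (PsiL K r) := by
  intro C1 C2 h ε hC1 hC2 hh hε
  obtain ⟨K1, hK1, hb⟩ := log_pow_le (C1 + C2 + h) (by positivity) (η := ε / (r + 1)) (by positivity)
  refine ⟨K * K1 ^ r, 1, by positivity, one_pos, fun t ht ht1 => ?_⟩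
  unfold PsiL
  have e1 : t ^ (-C1) * t ^ (-C2) * t ^ (-h) = t ^ (-(C1 + C2 + h)) := by
    rw [← Real.rpow_add ht, ← Real.rpow_add ht]; congr 1; ring
  rw [e1]
  have h1 := hb t ht ht1
  have hp : 0 < t ^ (-(C1 + C2 + h)) := Real.rpow_pos_of_pos ht _
  have h0 : 0 ≤ 1 + Real.log (2 + t ^ (-(C1 + C2 + h))) := by
    have := Real.log_nonneg (show (1 : ℝ) ≤ 2 + t ^ (-(C1 + C2 + h)) by linarith)
    linarith
  have h2 : (1 + Real.log (2 + t ^ (-(C1 + C2 + h)))) ^ r ≤ (K1 * t ^ (-(ε / (r + 1)))) ^ r :=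
    pow_le_pow_left₀ h0 h1 r
  have h3 : (t ^ (-(ε / (r + 1)))) ^ r ≤ t ^ (-ε) := by
    rw [← Real.rpow_natCast, ← Real.rpow_mul ht.le]
    refine Real.rpow_le_rpow_of_exponent_ge ht ht1 ?_
    have hr : (0 : ℝ) ≤ r := Nat.cast_nonneg r
    have h4 : ε / (r + 1) * r ≤ ε := by
      rw [div_mul_eq_mul_div, div_le_iff₀ (by positivity)]
      nlinarith
    linarith
  calc K * (1 + Real.log (2 + t ^ (-(C1 + C2 + h)))) ^ r ≤ K * (K1 * t ^ (-(ε / (r + 1)))) ^ r :=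
        mul_le_mul_of_nonneg_left h2 hK
    _ = K * K1 ^ r * (t ^ (-(ε / (r + 1)))) ^ r := by rw [mul_pow]; ring
    _ ≤ _ := mul_le_mul_of_nonneg_left h3 (by positivity)

/-- monotonicity of `HighN` -/
theorem HighN.mono {Ψ Ψ' : ℝ → ℝ → ℝ → ℝ} (h : HighN Ψ)
    (hle : ∀ cap Hc Hx, 1 ≤ cap → 1 ≤ Hc → 1 ≤ Hx → Ψ cap Hc Hx ≤ Ψ' cap Hc Hx) : HighN Ψ' := by
  intro i m a hd bb ε hA W I hW F V cap Hc Hx M3 hh s0 b0 S w u c ξ h1 h2 h3 h4 h5 hG hF hav hH h6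
  refine (h i m a hd bb ε hA W I hW F V cap Hc Hx M3 hh s0 b0 S w u c ξ h1 h2 h3 h4 h5 hG hF hav hH
    h6).trans ?_
  have hV := hG.V0.le
  have hl := (Growth.len_pos I).le
  exact mul_le_mul_of_nonneg_right (mul_le_mul_of_nonneg_right (hle cap Hc Hx h1 h2 h3)
    (by positivity)) hl

/-- **FIELD `cell` OF `LeavesC (PF x C ρ c) q3 d`** -/
theorem cell_PF {x C ρ c : ℝ} (hA : Adm4 x C ρ c) {Φ : ℝ → ℝ → ℝ → ℝ → ℝ → ℝ} (hKN : KillN Φ)
    (hΦ : TamP Φ) {Ψ : ℝ → ℝ → ℝ → ℝ} (hHN : HighN Ψ) (hΨ : TamH Ψ) (hc : c ≤ 1 / 8)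
    (hx : 16 ≤ x) {q3 : ℝ} (hq : 25 + 40 * C ≤ q3) :
    ∀ i m : Fin 4, i ≠ m → i ≠ 3 → m ≠ 3 → ∃ c0 e1 : ℝ, 0 < c0 ∧ 0 < e1 ∧
      ∀ e, 0 ≤ e → e ≤ e1 → ∃ k1 : ℝ, 0 < k1 ∧ ∀ k, 0 < k → k ≤ k1 → ∃ t0 K : ℝ, 0 < t0 ∧ 0 ≤ K ∧
        CellKill (DF0 (PF x C ρ c)) (CA0 (PF x C ρ c)) k q3 c0 (1 + e) 1 t0 K i m := by
  intro i m him hi3 hm3
  refine cell_DF0 (ok_PF hA) hKN hHN hΦ hΨ him hi3 hm3 (G := 1) ?_ one_pos ?_ ?_ ?_
  · show (1 : ℝ) = min 1 1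
    rw [min_self]
  · show 8 * (c * ρ ^ (i : ℕ)) ≤ 1
    have h1 : ρ ^ (i : ℕ) ≤ 1 := pow_le_one₀ hA.ρ0.le (by linarith [hA.ρ1])
    have h2 : 0 ≤ ρ ^ (i : ℕ) := pow_nonneg hA.ρ0.le _
    have h3 := hA.c0
    nlinarith
  · show 16 * (1 : ℝ) ≤ x
    linarith
  · show 5 + (20 * 1 + 40 * C) / 1 ≤ q3
    rw [div_one]
    linarith

end Crest.Agent.R079.CKgx37
end

-- ▼ part R079/CKu_37
section

/-! R079 (helper37), CELLKILL part 10: the kill lemma in log form (helper446, `killN_log`) is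
`KillN (PhiL C 2 1 0 1 2)`, so the field `cell` only waits for HIGH: `cellF_of_high`. -/

set_option autoImplicit false

namespace Crest.Agent.R079.CKgx37

open Finset Crest.Agent.R079.Grid Crest.Agent.R079.Glue Crest.Agent.R079.Growth
  Crest.Agent.R079.QRed Crest.Agent.R079.OpK276 Crest.Agent.R079.WS112 Crest.Agent.R079.WS0112
  Crest.Agent.R079.NP112

/-- the kill lemma, log form, as `PhiL` -/
theorem killN_phiL : ∃ C : ℝ, 0 ≤ C ∧ KillN (PhiL C 2 1 0 1 2) := by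
  obtain ⟨C, hC, h⟩ := KLx446.killN_log
  refine ⟨C * (5 + Real.log 5), by
    have := Real.log_nonneg (show (1 : ℝ) ≤ 5 by norm_num)
    positivity, h.mono fun s D Ht Hf H hs hs1 hD hD1 h1 h2 h3 => ?_⟩
  unfold PhiL
  set Y := Ht * Hf * H / (s * D) with hYd
  have hsD : 0 < s * D := mul_pos hs hD
  have hsD1 : s * D ≤ 1 := by nlinarith
  have hHt0 : 0 < Ht := by linarith
  have hHf0 : 0 < Hf := by linarith
  have hH0 : 0 < H := by linarith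
  have hY : 0 < Y := by positivity
  have hY1 : Ht ≤ Y := by
    rw [hYd, le_div_iff₀ hsD]
    have : 1 ≤ Hf * H := one_le_mul_of_one_le_of_one_le h2 h3
    calc Ht * (s * D) ≤ Ht * 1 := mul_le_mul_of_nonneg_left hsD1 hHt0.le
      _ ≤ Ht * (Hf * H) := mul_le_mul_of_nonneg_left this hHt0.le
      _ = Ht * Hf * H := by ring
  have e1 : Y ^ 4 = (Ht ^ 4 * Hf ^ 4 * H ^ 4) / (s * D) ^ 4 := by rw [hYd, div_pow]; ring
  have p4 : ∀ x : ℝ, 1 ≤ x → x ≤ x ^ 4 := fun x hx => by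
    calc x = x ^ 1 := (pow_one x).symm
      _ ≤ x ^ 4 := pow_le_pow_right₀ hx (by norm_num)
  have hHt4 := p4 Ht h1
  have hHf4 := p4 Hf h2
  have hHf41 : 1 ≤ Hf ^ 4 := one_le_pow₀ h2
  have a1 : H ^ 4 * Hf * Ht / s ^ 2 ≤ 1 * Y ^ 4 := by
    rw [e1, one_mul]
    have d1 : (s * D) ^ 4 ≤ s ^ 2 := by
      have i1 : D ^ 4 ≤ 1 := pow_le_one₀ hD.le hD1
      have i2 : s ^ 4 ≤ s ^ 2 := pow_le_pow_of_le_one hs.le hs1 (by norm_num)
      calc (s * D) ^ 4 = s ^ 4 * D ^ 4 := by ring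
        _ ≤ s ^ 2 * 1 := mul_le_mul i2 i1 (by positivity) (by positivity)
        _ = s ^ 2 := mul_one _
    have d2 : H ^ 4 * Hf * Ht ≤ Ht ^ 4 * Hf ^ 4 * H ^ 4 := by
      calc H ^ 4 * Hf * Ht ≤ H ^ 4 * Hf ^ 4 * Ht ^ 4 := by gcongr
        _ = _ := by ring
    exact div_le_div₀ (by positivity) d2 (by positivity) d1
  have a2 : 5 * H ^ 4 * Ht / D ≤ 5 * Y ^ 4 := by
    rw [e1]
    have d1 : (s * D) ^ 4 ≤ D := by
      have i1 : D ^ 4 ≤ D ^ 1 := pow_le_pow_of_le_one hD.le hD1 (by norm_num)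
      have i2 : s ^ 4 ≤ 1 := pow_le_one₀ hs.le hs1
      calc (s * D) ^ 4 = s ^ 4 * D ^ 4 := by ring
        _ ≤ 1 * D ^ 1 := mul_le_mul i2 i1 (by positivity) zero_le_one
        _ = D := by ring
    have d2 : H ^ 4 * Ht ≤ Ht ^ 4 * Hf ^ 4 * H ^ 4 := by
      calc H ^ 4 * Ht ≤ H ^ 4 * Ht ^ 4 := by gcongr
        _ ≤ H ^ 4 * Ht ^ 4 * Hf ^ 4 := le_mul_of_one_le_right (by positivity) hHf41
        _ = _ := by ring
    have d3 : H ^ 4 * Ht / D ≤ (Ht ^ 4 * Hf ^ 4 * H ^ 4) / (s * D) ^ 4 :=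
      div_le_div₀ (by positivity) d2 (by positivity) d1
    calc 5 * H ^ 4 * Ht / D = 5 * (H ^ 4 * Ht / D) := by ring
      _ ≤ _ := mul_le_mul_of_nonneg_left d3 (by norm_num)
  set Lg : ℝ := 1 + Real.log (2 + Y) with hLg
  have hLg1 : 1 ≤ Lg := by
    have := Real.log_nonneg (show (1 : ℝ) ≤ 2 + Y by linarith)
    rw [hLg]; linarith
  have l5 : 0 ≤ Real.log 5 := Real.log_nonneg (by norm_num)
  have b1 := log_le_of_pow4 (C1 := 1) le_rfl hY.le (by positivity) a1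
  have b2 := log_le_of_pow4 (C1 := 5) (by norm_num) hY.le (by positivity) a2
  rw [Real.log_one, add_zero] at b1
  have b3 : 1 + Real.log Ht ≤ Lg := by
    have : Real.log Ht ≤ Real.log (2 + Y) := Real.log_le_log hHt0 (by linarith)
    rw [hLg]; linarith
  have hHt00 : 0 ≤ 1 + Real.log Ht := by
    have := Real.log_nonneg h1
    linarith
  have c1 : (1 + Real.log (1 + H ^ 4 * Hf * Ht / s ^ 2)) * s ≤
      (5 + Real.log 5) * Lg ^ 2 * s := by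
    refine mul_le_mul_of_nonneg_right (b1.trans ?_) hs.le
    calc 5 * (1 + Real.log (2 + Y)) = 5 * Lg := rfl
      _ ≤ 5 * Lg ^ 2 := by nlinarith
      _ ≤ (5 + Real.log 5) * Lg ^ 2 := by
          refine mul_le_mul_of_nonneg_right (by linarith) (by positivity)
  have c2 : (1 + Real.log (1 + 5 * H ^ 4 * Ht / D)) * (Hf * D * (1 + Real.log Ht) / s ^ 2) ≤
      (5 + Real.log 5) * Lg ^ 2 * (Hf * D / s ^ 2) := by
    have i1 : Hf * D * (1 + Real.log Ht) / s ^ 2 ≤ Lg * (Hf * D / s ^ 2) := by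
      calc Hf * D * (1 + Real.log Ht) / s ^ 2 = (1 + Real.log Ht) * (Hf * D / s ^ 2) := by ring
        _ ≤ _ := mul_le_mul_of_nonneg_right b3 (by positivity)
    calc _ ≤ ((5 + Real.log 5) * Lg) * (Lg * (Hf * D / s ^ 2)) :=
          mul_le_mul b2 i1 (by positivity) (by positivity)
      _ = _ := by ring
  have e2 : Hf ^ (1 : ℝ) * Ht ^ (0 : ℝ) * D ^ (1 : ℝ) / s ^ (2 : ℝ) = Hf * D / s ^ 2 := by
    rw [Real.rpow_one, Real.rpow_zero, Real.rpow_one, mul_one]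
    congr 1
    exact_mod_cast Real.rpow_natCast s 2
  rw [e2]
  calc C * ((1 + Real.log (1 + H ^ 4 * Hf * Ht / s ^ 2)) * s +
      (1 + Real.log (1 + 5 * H ^ 4 * Ht / D)) * (Hf * D * (1 + Real.log Ht) / s ^ 2)) ≤
      C * ((5 + Real.log 5) * Lg ^ 2 * s + (5 + Real.log 5) * Lg ^ 2 * (Hf * D / s ^ 2)) :=
        mul_le_mul_of_nonneg_left (add_le_add c1 c2) hC
    _ = _ := by ring

/-- **FIELD `cell` FROM HIGH** -/
theorem cellF_of_high {K : ℝ} (hK : 0 ≤ K) {r : ℕ} (hHN : HighN (PsiL K r)) {x C ρ c q3 : ℝ}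
    (hA : Adm4 x C ρ c) (hx : 40 ≤ x) (hc : c ≤ 1 / 8) (hq : 40 * C + 40 ≤ q3) :
    CellF (PF x C ρ c) q3 := by
  obtain ⟨C1, hC1, hKN⟩ := killN_phiL
  exact cell_PF hA hKN (tamP_phiL hC1 2 1) hHN (tamH_psiL hK r) hc (by linarith) (by linarith)

end Crest.Agent.R079.CKgx37
end

-- ▼ part R079/CKx_217
section

/-! R079 (helper217), CELLKILL, end: the field `cell` is unconditional. -/

set_option autoImplicit false

namespace Crest.Agent.R079.CKk217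

open Finset Crest.Agent.R079.Grid Crest.Agent.R079.Glue Crest.Agent.R079.Growth
  Crest.Agent.R079.QRed Crest.Agent.R079.KLx446 Crest.Agent.R079.CKgx37 Crest.Agent.R079.NP112

theorem highN_psiL : ∃ K : ℝ, 0 ≤ K ∧ HighN (PsiL K 2) := by
  obtain ⟨K, hK, hH⟩ := highN cornerZ
  refine ⟨K, hK, ?_⟩
  intro i m a hD bb ε hA W I hW F V cap Hc Hx M3 h s0 b0 S w u c ξ hcap hHc hHx hM3 hh hG hFi hav hsup h3
  refine (Qb247.norm_TR_le hA.2 W F).trans ((hH i m 3 a hD W I hW.reg hW.top bb hA.1 F h V cap Hc Hx M3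
    s0 b0 S w u c ξ hh hcap hHc hHx (by linarith) hG hav hsup h3 hFi).trans ?_)
  have hV := hG.V0
  have hL := Growth.len_pos I
  have hP : 1 ≤ cap * Hc * Hx :=
    one_le_mul_of_one_le_of_one_le (one_le_mul_of_one_le_of_one_le hcap hHc) hHx
  have h0 : 0 ≤ Real.log (cap * Hc * Hx) := Real.log_nonneg hP
  have h1 : Real.log (cap * Hc * Hx) ≤ Real.log (2 + cap * Hc * Hx) :=
    Real.log_le_log (by linarith) (by linarith)
  unfold PsiL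
  gcongr

/-- **FIELD `cell`** -/
theorem cellF_PF {x C ρ c q3 : ℝ} (hA : Adm4 x C ρ c) (hx : 40 ≤ x) (hc : c ≤ 1 / 8)
    (hq : 40 * C + 40 ≤ q3) : CellF (PF x C ρ c) q3 := by
  obtain ⟨K, hK, hH⟩ := highN_psiL
  exact cellF_of_high hK hH hA hx hc hq

end Crest.Agent.R079.CKk217
end

-- ▼ part R079/NI_112
section

/-! R079 (helper112): **THE ONE REMAINING INPUT** of `S0106`: `SpF` (splitting of one generation for the
core data), or `GDF` (= 263's `GenP`: tree, frame errors, word totals).  The leaves `cell` (217, 37, 446)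
and `op` (276, 446) and the tall kill (248) are theorems.  **`target_of_one`**, **`target_of_genP`**. -/

set_option autoImplicit false
set_option linter.unusedVariables false

namespace Crest.Agent.R079.NP112

open Finset Crest.Agent.R079.Grid Crest.Agent.R079.Growth Crest.Agent.R079.QRed
open Crest.Agent.R079.WS112 Crest.Agent.R079.WS0112 Crest.Agent.R079.POx263
open Crest.Agent.R079.T6bx252 Crest.Agent.R079.OpS276 Crest.Agent.R079.GnQx45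

/-- **`S0106` from the splitting of one generation** -/
theorem target_of_one
    (hs : ∃ x0 : ℝ, ∀ x, x0 ≤ x → ∃ ρ0 : ℝ, 0 < ρ0 ∧ ∀ ρ, 0 < ρ → ρ ≤ ρ0 → ∃ c0 : ℝ, 0 < c0 ∧
      ∀ c, 0 < c → c ≤ c0 → ∃ C0 : ℝ, ∀ C, C0 ≤ C → ∀ q3, 2 < q3 → Adm4 x C ρ c →
        SpF (PF x C ρ c) q3 (dF C ρ c)) : L0.Target :=
  target_of_two (fun hA hx hc hq => CKk217.cellF_PF hA hx hc hq) hs

/-- tree, frame errors and word totals of one generation for the core data (263's `GenP`) -/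
def GDF (P : Prm) (q3 d : ℝ) : Prop :=
  ∀ i m e e' : Fin 4, Dst4 i m e e' → m < i → i ≠ 3 → ∃ cm : ℝ, 0 < cm ∧
    ∀ c1, 0 < c1 → c1 ≤ cm →
    ∃ C g ys : ℝ, 0 < C ∧ 0 < g ∧ 0 < ys ∧ ∀ y, 0 < y → y ≤ ys → ∃ e1 : ℝ, 0 < e1 ∧
      ∀ ε, 0 < ε → ε ≤ e1 → ∃ k1 : ℝ, 0 < k1 ∧ ∀ k, 0 < k → k ≤ k1 →
        ∃ t0 K CM nE : ℝ, 0 < t0 ∧ t0 ≤ 1 ∧ 1 ≤ K ∧ CM + C * y + 2 * c1 + g * y ≤ nE ∧
          GnNx263.GenP (QP P d i m e e' ε k) k q3 c1 (C * y) (g * y) CM nE t0 K i m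

theorem spF_of_GDF {P : Prm} {q3 d : ℝ} (h : GDF P q3 d) : SpF P q3 d :=
  fun i m e e' hdd hmi hi3 =>
    GnNx263.spQ_exists (q3 := q3) (QP P d i m e e') (h i m e e' hdd hmi hi3)

/-- **`S0106` from tree, frame errors and word totals of one generation** -/
theorem target_of_genP
    (hs : ∃ x0 : ℝ, ∀ x, x0 ≤ x → ∃ ρ0 : ℝ, 0 < ρ0 ∧ ∀ ρ, 0 < ρ → ρ ≤ ρ0 → ∃ c0 : ℝ, 0 < c0 ∧
      ∀ c, 0 < c → c ≤ c0 → ∃ C0 : ℝ, ∀ C, C0 ≤ C → ∀ q3, 2 < q3 → Adm4 x C ρ c →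
        GDF (PF x C ρ c) q3 (dF C ρ c)) : L0.Target := by
  refine target_of_one ?_
  obtain ⟨x0, hs⟩ := hs
  refine ⟨x0, fun x hx => ?_⟩
  obtain ⟨ρ0, hρ0, hs⟩ := hs x hx
  refine ⟨ρ0, hρ0, fun ρ hρ hρρ => ?_⟩
  obtain ⟨c0, hc0, hs⟩ := hs ρ hρ hρρ
  refine ⟨c0, hc0, fun c hc hcc => ?_⟩
  obtain ⟨C0, hs⟩ := hs c hc hcc
  exact ⟨C0, fun C hC q3 hq hA => spF_of_GDF (hs C hC q3 hq hA)⟩

end Crest.Agent.R079.NP112
end

-- ▼ part R079/TrM_446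
section

/-! R079 (helper446): **the trivial bound of the words** (hypothesis `M` of `GnS_263.GenD`): next to a core
mixture of op-atoms and three letters bounded only in local `L²`,
`|Σ_{p ∈ W} v4 X Y p| ≤ K (1 + log (1 + Hf Ht)) La |J|` — no power of `Ht`.

* `tr_triv` : the form with a general datum `F`;
* `trivM` : `v4` on the full sub-windows of the region;
* `trivM_QC`, `trivM_QP` : powers of `t` for the core data (`CM = la + a`, any `a > 0`). -/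

set_option autoImplicit false

namespace Crest.Agent.R079.TrMx446

open Finset Crest.Agent.R079.Grid Crest.Agent.R079.Growth Crest.Agent.R079.QRed
  Crest.Agent.R079.OpS276 Crest.Agent.R079.POx263 Crest.Agent.R079.BadN360
  Crest.Agent.R079.GnMx45 Crest.Agent.R079.GnQx45 Crest.Agent.R079.AsmA844
  Crest.Agent.R079.T6bx252 Crest.Agent.R079.TRec Crest.Agent.R079.AsmG734
  Crest.Agent.R079.GnOx45 Crest.Agent.R079.WS0112 Crest.Agent.R079.TKx248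

lemma l1_of_av {p : Nd} {f : Fn} (h : av p f ≤ 1) : ∑ y ∈ iv p, ‖f y‖ ≤ len p := by
  have h1 : ∑ y ∈ iv p, ‖f y‖ ^ 2 ≤ len p := en_of_av h
  have h2 : ∑ y ∈ iv p, ‖f y‖ ≤ ∑ y ∈ iv p, (1 / 2 + ‖f y‖ ^ 2 / 2) :=
    Finset.sum_le_sum fun y _ => by nlinarith [sq_nonneg (‖f y‖ - 1)]
  refine h2.trans ?_
  have h3 : ∑ _y ∈ iv p, (1 / 2 : ℝ) = len p / 2 := by
    rw [Finset.sum_const, nsmul_eq_mul]
    rw [card_iv]
    ring
  rw [Finset.sum_add_distrib, h3, ← Finset.sum_div]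
  linarith

open Classical in
/-- **trivial bound of a word** -/
theorem tr_triv : ∃ K : ℝ, 0 ≤ K ∧ ∀ (i m e e' : Fin 4), Dst4 i m e e' →
    ∀ {bb : ℤ} {ε : ℕ → ℤ → ℂ}, Adm bb ε → ∀ (W : Finset Nd) (J I : Nd), Full W J → iv J ⊆ iv I →
    ∀ (F : Fin 4 → Fn) (Ht Hf La : ℝ), 0 < Ht → 0 < Hf →
    Rc i m e e' I Ht Hf La (F i) →
    (∀ j, j ≠ i → ∀ p ∈ W, av p (F j) ≤ 1) →
    ‖TR bb ε W F‖ ≤ K * (1 + Real.log (1 + Hf * Ht)) * (La * len J) := by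
  obtain ⟨K1, hK1, h1⟩ := word3
  obtain ⟨K2, hK2, h2⟩ := tall_TR
  refine ⟨K1 + 3 * K2, by positivity, ?_⟩
  intro i m e e' hd bb ε hA W J I hW hJI F Ht Hf La hHt hHf hF hav
  have hlJ := (Growth.len_pos J).le
  have hLa : 0 ≤ La := by
    obtain ⟨n, ψ, α, h0, -, -, h3⟩ := hF
    exact (Finset.sum_nonneg fun l _ => h0 l).trans h3
  set L : ℝ := 1 + Real.log (1 + Hf * Ht) with hL
  have hL0 : 0 ≤ L := by
    have : 0 ≤ Real.log (1 + Hf * Ht) := Real.log_nonneg (by nlinarith [mul_pos hHf hHt])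
    rw [hL]
    linarith
  -- one step
  have step : ∀ (G : Fin 4 → Fn) (s : Fin 4), s ≠ i → G i = F i →
      (∀ j, j ≠ i → ∀ p ∈ W, av p (G j) ≤ 1) →
      ‖TR bb ε W G‖ ≤ K2 * L * (La * len J) +
        ‖TR bb ε W (Function.update G s (lo 1 (G s)))‖ := by
    intro G s hs hGi hGav
    have e1 : TR bb ε W G - TR bb ε W (Function.update G s (lo 1 (G s))) =
        TR bb ε W (Function.update G s (hi 1 (G s))) := by
      have e2 := TR_sub bb ε W G s (G s) (lo 1 (G s))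
      rw [Function.update_eq_self] at e2
      rw [e2]
      congr 2
      funext y
      rw [sub_eq_iff_eq_add', ← lo_add_hi]
    have e3 : TR bb ε W G = TR bb ε W (Function.update G s (hi 1 (G s))) +
        TR bb ε W (Function.update G s (lo 1 (G s))) := by
      rw [← e1]
      ring
    have e4 := h2 i m e e' s hd hs hA W J I hW hJI G Ht Hf La 1 hHt hHf le_rfl
      (by rw [hGi]; exact hF) hGav
    rw [Real.log_one, add_zero, div_one] at e4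
    rw [e3]
    exact (norm_add_le _ _).trans (add_le_add (e4.trans (le_of_eq (by rw [hL]))) le_rfl)
  have hi_m : m ≠ i := hd.jk
  obtain ⟨p, q, hmi', hmp, hmq, hip, hiq, hpq⟩ := exists_two' (Ne.symm hi_m)
  have huniv := univ4 (Ne.symm hi_m) hip hiq hmp hmq hpq
  -- the three letters
  set G1 : Fin 4 → Fn := Function.update F m (lo 1 (F m)) with hG1
  set G2 : Fin 4 → Fn := Function.update G1 p (lo 1 (G1 p)) with hG2
  set G3 : Fin 4 → Fn := Function.update G2 q (lo 1 (G2 q)) with hG3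
  have upd : ∀ (G : Fin 4 → Fn) (s : Fin 4), (∀ j, j ≠ i → ∀ p ∈ W, av p (G j) ≤ 1) →
      ∀ j, j ≠ i → ∀ p ∈ W, av p (Function.update G s (lo 1 (G s)) j) ≤ 1 := by
    intro G s hG j hj p hp
    by_cases hjs : j = s
    · subst hjs
      rw [Function.update_self]
      exact (av_mono fun y _ => norm_lo_le' 1 (G j) y).trans (hG j hj p hp)
    · rw [Function.update_of_ne hjs]
      exact hG j hj p hp
  have a1 := upd F m hav
  have a2 := upd G1 p a1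
  have a3 := upd G2 q a2
  have i1 : G1 i = F i := by rw [hG1, Function.update_of_ne (Ne.symm hi_m)]
  have i2 : G2 i = F i := by rw [hG2, Function.update_of_ne hip, i1]
  have i3 : G3 i = F i := by rw [hG3, Function.update_of_ne hiq, i2]
  have s1 := step F m hi_m rfl hav
  have s2 := step G1 p hip.symm i1 a1
  have s3 := step G2 q hiq.symm i2 a2
  have hlow : ∀ j, j ≠ i → ∀ y, ‖G3 j y‖ ≤ 1 := by
    intro j hj y
    rcases huniv j with rfl | rfl | rfl | rfl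
    · exact absurd rfl hj
    · have : G3 j = lo 1 (F j) := by
        rw [hG3, Function.update_of_ne hmq, hG2, Function.update_of_ne hmp, hG1,
          Function.update_self]
      rw [this]
      exact norm_lo_le zero_le_one _ _
    · have : G3 j = lo 1 (G1 j) := by
        rw [hG3, Function.update_of_ne hpq, hG2, Function.update_self]
      rw [this]
      exact norm_lo_le zero_le_one _ _
    · have : G3 j = lo 1 (G2 j) := by
        rw [hG3, Function.update_self]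
      rw [this]
      exact norm_lo_le zero_le_one _ _
  have h3 := h1 i m e e' m hd hi_m hA W J I hW hJI G3 Ht Hf La 1 1 hHt hHf one_pos one_pos
    (by rw [i3]; exact hF) (fun p hp => by rw [one_mul]; exact l1_of_av (a3 m hi_m p hp)) a3
    (fun j hj _ y _ => hlow j hj y)
  simp only [one_pow, mul_one, div_one] at h3
  calc ‖TR bb ε W F‖ ≤ K2 * L * (La * len J) + (K2 * L * (La * len J) +
        (K2 * L * (La * len J) + K1 * L * (La * len J))) := by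
        refine s1.trans (add_le_add le_rfl (s2.trans (add_le_add le_rfl
          (s3.trans (add_le_add le_rfl ?_)))))
        exact h3
    _ = _ := by ring

/-- **the constant `M` of `GenD`** -/
theorem trivM : ∃ K : ℝ, 0 ≤ K ∧ ∀ (i m e e' : Fin 4), Dst4 i m e e' →
    ∀ {bb : ℤ} {ε : ℕ → ℤ → ℂ}, Adm bb ε → ∀ (R0 : Finset Nd) (I : Nd), Full R0 I →
    ∀ (F : Fin 4 → Fn) (Ht Hf La : ℝ), 0 < Ht → 0 < Hf →
    Rc i m e e' I Ht Hf La (F i) → (∀ p ∈ R0, av p (F m) ≤ 1) →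
    ∀ x y : Fin 4, Oth i m x y → ∀ W J, Full W J → W ⊆ R0 → ∀ X Y : Fn,
      (∀ p ∈ W, av p X ≤ 1) → (∀ p ∈ W, av p Y ≤ 1) →
      ‖∑ p ∈ W, v4 bb ε F x y X Y p‖ ≤ K * (1 + Real.log (1 + Hf * Ht)) * La * len J := by
  obtain ⟨K, hK0, hK⟩ := tr_triv
  refine ⟨K, hK0, ?_⟩
  intro i m e e' hd bb ε hA R0 I hR0 F Ht Hf La hHt hHf hF hFm x y hO W J hW hWR X Y hX hY
  have hJI : iv J ⊆ iv I := hR0.reg.1 J (hWR hW.top)
  have h1 := hK i m e e' hd hA W J I hW hJI (Function.update (Function.update F x X) y Y) Ht Hf La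
    hHt hHf (by rw [Function.update_of_ne hO.bi.symm, Function.update_of_ne hO.ai.symm]; exact hF)
    (fun j hj p hp => by
      rcases oth_cases hd.jk.symm hO.ai hO.am hO.bi hO.bm hO.ab hj with rfl | rfl | rfl
      · rw [Function.update_of_ne hO.bm.symm, Function.update_of_ne hO.am.symm]
        exact hFm p (hWR hp)
      · rw [Function.update_of_ne hO.ab, Function.update_self]
        exact hX p hp
      · rw [Function.update_self]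
        exact hY p hp)
  unfold TR at h1
  unfold v4
  refine h1.trans (le_of_eq ?_)
  ring

/-- logarithms against small powers of `t⁻¹` -/
lemma log_small {t c a : ℝ} (ht : 0 < t) (ht1 : t ≤ 1) (hc : 0 ≤ c) (ha : 0 < a) {P : ℝ}
    (hP0 : 0 ≤ P) (hP : P ≤ 3 * t ^ (-c)) :
    1 + Real.log (1 + P) ≤ (4 + c / a) * t ^ (-a) := by
  have hta : 1 ≤ t ^ (-a) := Real.one_le_rpow_of_pos_of_le_one_of_nonpos ht ht1 (by linarith)
  have hlog : -Real.log t ≤ t ^ (-a) / a := by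
    have h1 := Real.log_le_rpow_div (inv_pos.2 ht).le ha
    rwa [Real.log_inv, Real.inv_rpow ht.le, ← Real.rpow_neg ht.le] at h1
  have htc : 1 ≤ t ^ (-c) := Real.one_le_rpow_of_pos_of_le_one_of_nonpos ht ht1 (by linarith)
  have h1 : 1 + P ≤ 4 * t ^ (-c) := by linarith
  have h2 := Real.log_le_log (by linarith : (0 : ℝ) < 1 + P) h1
  rw [Real.log_mul (by norm_num) (by linarith [htc] : t ^ (-c) ≠ 0) , Real.log_rpow ht] at h2
  have h4 : Real.log 4 ≤ 3 := by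
    have := Real.log_le_sub_one_of_pos (show (0 : ℝ) < 4 by norm_num)
    linarith
  have h5 : c * (-Real.log t) ≤ c * (t ^ (-a) / a) := mul_le_mul_of_nonneg_left hlog hc
  have h6 : c * (t ^ (-a) / a) = c / a * t ^ (-a) := by ring
  rw [h6] at h5
  nlinarith

/-- **the constant `M`, powers of `t`** (core data) -/
theorem trivM_QC {D : TRecN.Dict} {i m e e' : Fin 4} (hd : Dst4 i m e e')
    {k b cl la xx ff a : ℝ} (hk : 0 < k) (hc : 0 ≤ xx + ff) (ha : 0 < a) :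
    ∃ K : ℝ, 1 ≤ K ∧ ∀ t, 0 < t → t ≤ 1 → ∀ W I F, QC D k b cl la xx ff i m e e' t W I F →
      ∀ x y : Fin 4, Oth i m x y → ∀ bb ε, Adm bb ε → ∀ R J, Full R J → R ⊆ W →
        ∀ X Y, Sm k 1 R X Y → ∀ W' I', Full W' I' → W' ⊆ R →
          ‖∑ p ∈ W', v4 bb ε F x y X Y p‖ ≤ K * t ^ (-(la + a)) * len I' := by
  obtain ⟨K, hK0, hK⟩ := trivM
  refine ⟨max 1 (K * 621432 * (4 + (xx + ff) / a)), le_max_left _ _, ?_⟩
  intro t ht ht1 W I F hQ x y hO bb ε hA R J hR hRW X Y hS W' I' hW' hW'R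
  have hQ' : PRc D k b cl t (621432 * t ^ (-la)) (3 * t ^ (-xx)) (t ^ (-ff)) W I i m e e' F := hQ
  have P : ∀ s : ℝ, 0 < t ^ s := fun s => Real.rpow_pos_of_pos ht s
  have hlI := (Growth.len_pos I').le
  have h2 := hK i m e e' hd hA W I hQ'.full F (3 * t ^ (-xx)) (t ^ (-ff)) (621432 * t ^ (-la))
    (mul_pos (by norm_num) (P _)) (P _) hQ'.mix
    (fun p hp => (TAsm398.av_le_aq (by linarith) p (F m)).trans (hQ'.nR p hp)) x y hO
    W' I' hW' (hW'R.trans hRW) X Y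
    (fun p hp => (TAsm398.av_le_aq (by linarith) p X).trans (hS p (hW'R hp)).1)
    (fun p hp => (TAsm398.av_le_aq (by linarith) p Y).trans (hS p (hW'R hp)).2)
  refine h2.trans (mul_le_mul_of_nonneg_right ?_ hlI)
  have h3 : t ^ (-ff) * (3 * t ^ (-xx)) = 3 * t ^ (-(xx + ff)) := by
    have : t ^ (-(xx + ff)) = t ^ (-xx) * t ^ (-ff) := by
      rw [← Real.rpow_add ht]
      congr 1
      ring
    rw [this]
    ring
  have h4 := log_small (P := t ^ (-ff) * (3 * t ^ (-xx))) ht ht1 hc ha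
    (mul_pos (P _) (mul_pos (by norm_num) (P _))).le h3.le
  have h5 : 0 ≤ K * (621432 * t ^ (-la)) := mul_nonneg hK0 (mul_pos (by norm_num) (P _)).le
  have h6 : t ^ (-a) * t ^ (-la) = t ^ (-(la + a)) := by
    rw [← Real.rpow_add ht]
    congr 1
    ring
  calc K * (1 + Real.log (1 + t ^ (-ff) * (3 * t ^ (-xx)))) * (621432 * t ^ (-la)) =
        K * (621432 * t ^ (-la)) * (1 + Real.log (1 + t ^ (-ff) * (3 * t ^ (-xx)))) := by ring
    _ ≤ K * (621432 * t ^ (-la)) * ((4 + (xx + ff) / a) * t ^ (-a)) :=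
        mul_le_mul_of_nonneg_left h4 h5
    _ = K * 621432 * (4 + (xx + ff) / a) * (t ^ (-a) * t ^ (-la)) := by ring
    _ = K * 621432 * (4 + (xx + ff) / a) * t ^ (-(la + a)) := by rw [h6]
    _ ≤ _ := mul_le_mul_of_nonneg_right (le_max_right _ _) (P _).le

/-- **the constant `M` of `GenP`** for `QP` : `CM = (1 + ε) θ g_i + a`, any `a > 0` -/
theorem trivM_QP {P : WS112.Prm} (hP : WS0112.Ok0 P) {d : ℝ} {i m e e' : Fin 4}
    (hdd : Dst4 i m e e') {ε k a : ℝ} (hk : 0 < k) (ha : 0 < a) :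
    ∃ K : ℝ, 1 ≤ K ∧ ∀ t, 0 < t → t ≤ 1 → ∀ W I F, QP P d i m e e' ε k t W I F →
      ∀ x y : Fin 4, Oth i m x y → ∀ bb ε', Adm bb ε' → ∀ R J, Full R J → R ⊆ W →
        ∀ X Y, Sm k 1 R X Y → ∀ W' I', Full W' I' → W' ⊆ R →
          ‖∑ p ∈ W', v4 bb ε' F x y X Y p‖ ≤
            K * t ^ (-((1 + ε) * (P.θ * P.g i) + a)) * len I' := by
  have hθ := hP.θ0
  have hg : 0 ≤ P.θ * P.g i := mul_nonneg hθ.le (hP.g0 i)
  have hx : 0 ≤ P.θ * P.x i := mul_nonneg hθ.le (hP.x0 i)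
  have hf : 0 ≤ P.θ * P.f i := mul_nonneg hθ.le (hP.f0 i)
  have hxx0 : 0 ≤ xxC P i := by unfold xxC; nlinarith
  have hff0 : 0 ≤ ffC P i := by unfold ffC; nlinarith
  exact trivM_QC (D := WS0112.DF0 P) hdd (k := k) (b := 1) (cl := clx P d i)
    (la := (1 + ε) * (P.θ * P.g i)) (xx := xxC P i) (ff := ffC P i) hk (by linarith) ha

end Crest.Agent.R079.TrMx446
end

-- ▼ part R079/GnU_263

/-! R079, T7 (helper263): SETUP of one generation for the core data.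

* `Su` : the data of one generation: core data `QP` at the parameter `t`, the family `Fam` of the frozen
  letter, the two free letters `Z 0`, `Z 1` in the slots `xy 0`, `xy 1` = `i.succAbove (es c + 2)`;
* `Gn1` : what the tree, the frames and the words have to deliver;
* **`genP_of`** : `GnN_263.GenP` from `Gn1` for all small `η` and all near-minimisers of 571's `PhiE`. -/

set_option autoImplicit false

namespace Crest.Agent.R079.GnUx263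

open Finset Crest.Agent.R079.Grid Crest.Agent.R079.Growth Crest.Agent.R079.QRed
  Crest.Agent.R079.TWin
open Crest.Agent.R079.RelW653 (vl NMP Jv Dv)
open Crest.Agent.R079.RelV653 Crest.Agent.R079.HWx323 Crest.Agent.R079.Chn110
open Crest.Agent.R079.TRec Crest.Agent.R079.T6bx252 Crest.Agent.R079.Tailx726 Crest.Agent.R079.Stk
  Crest.Agent.R079.AsmA844
open Crest.Agent.R079.GnMx45 (en en_nonneg)
open Crest.Agent.R079.FLDx263 Crest.Agent.R079.GnSx263 Crest.Agent.R079.GnNx263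
  Crest.Agent.R079.PFx263 Crest.Agent.R079.GaDx571 Crest.Agent.R079.GaFx371
  Crest.Agent.R079.WS112 Crest.Agent.R079.WS0112 Crest.Agent.R079.POx263
  Crest.Agent.R079.OpS276

lemma f3e : ∀ v : Fin 3, v + 1 + 2 = v := by decide

/-- cap of the weight -/
noncomputable def HtC (P : Prm) (i : Fin 4) (t : ℝ) : ℝ := 3 * t ^ (-(xxC P i))

/-- fibre cap -/
noncomputable def HfC (P : Prm) (i : Fin 4) (t : ℝ) : ℝ := t ^ (-(ffC P i))

/-- mass -/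
noncomputable def LaC (P : Prm) (ε : ℝ) (i : Fin 4) (t : ℝ) : ℝ :=
  621432 * t ^ (-((1 + ε) * (P.θ * P.g i)))

lemma HtC_pos (P : Prm) (i : Fin 4) {t : ℝ} (ht : 0 < t) : 0 < HtC P i t :=
  mul_pos (by norm_num) (Real.rpow_pos_of_pos ht _)

lemma HfC_pos (P : Prm) (i : Fin 4) {t : ℝ} (ht : 0 < t) : 0 < HfC P i t :=
  Real.rpow_pos_of_pos ht _

lemma LaC_pos (P : Prm) (ε : ℝ) (i : Fin 4) {t : ℝ} (ht : 0 < t) : 0 < LaC P ε i t :=
  mul_pos (by norm_num) (Real.rpow_pos_of_pos ht _)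

/-- **SETUP of one generation** -/
structure Su (P : Prm) (d ε k q3 : ℝ) (i m e e' : Fin 4) (N : ℕ) (B t : ℝ) (W : Finset Nd) (I : Nd)
    (F : Fin 4 → Fn) (xy : Fin 2 → Fin 4) (bb : ℤ) (E : ℕ → ℤ → ℂ) (R : Finset Nd) (J : Nd)
    (Z : Fin 2 → Fn) (v : Fin 3) (n : ℕ) (T : Fin n → Fin 3 → Finset ℤ)
    (g : Fin n → Fin 3 → ℤ → ℤ → ℂ) (al : Fin n → ℤ → ℝ) (mu : Fin n → ℝ) (es : Fin 2 → Fin 3) :
    Prop where
  dst : Dst4 i m e e'
  B0 : 0 ≤ B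
  BN : BN k q3 N B
  t0 : 0 < t
  Q : QP P d i m e e' ε k t W I F
  lN : I.1 ≤ N
  oth : Oth i m (xy 0) (xy 1)
  adm : Adm bb E
  full : Full R J
  sub : R ⊆ W
  sm : Sm k 1 R (Z 0) (Z 1)
  fam : Fam i m v I (HtC P i t) (HfC P i t) (LaC P ε i t) n (F i) T g al mu
  slot : ∀ c, i.succAbove (es c + 2) = xy c

section

variable {P : Prm} {d ε k q3 : ℝ} {i m e e' : Fin 4} {N : ℕ} {B t : ℝ} {W : Finset Nd} {I : Nd}
  {F : Fin 4 → Fn} {xy : Fin 2 → Fin 4} {bb : ℤ} {E : ℕ → ℤ → ℂ} {R : Finset Nd} {J : Nd}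
  {Z : Fin 2 → Fn} {v : Fin 3} {n : ℕ} {T : Fin n → Fin 3 → Finset ℤ}
  {g : Fin n → Fin 3 → ℤ → ℤ → ℂ} {al : Fin n → ℤ → ℝ} {mu : Fin n → ℝ} {es : Fin 2 → Fin 3}

/-- core data -/
theorem Su.prc (h : Su P d ε k q3 i m e e' N B t W I F xy bb E R J Z v n T g al mu es) :
    PRc (DF0 P) k 1 (clx P d i) t (LaC P ε i t) (HtC P i t) (HfC P i t) W I i m e e' F := h.Q

theorem Su.W_full (h : Su P d ε k q3 i m e e' N B t W I F xy bb E R J Z v n T g al mu es) :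
    Full W I := h.prc.full

theorem Su.JI (h : Su P d ε k q3 i m e e' N B t W I F xy bb E R J Z v n T g al mu es) :
    iv J ⊆ iv I := h.W_full.reg.1 J (h.sub h.full.top)

theorem Su.lev (h : Su P d ε k q3 i m e e' N B t W I F xy bb E R J Z v n T g al mu es) :
    J.1 ≤ I.1 := Growth.iv_level h.JI


theorem Su.avZ (h : Su P d ε k q3 i m e e' N B t W I F xy bb E R J Z v n T g al mu es)
    (hk : 0 ≤ k) (c : Fin 2) : ∀ p ∈ R, av p (Z c) ≤ 1 := by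
  intro p hp
  have h1 := h.sm p hp
  fin_cases c
  · exact (TAsm398.av_le_aq (by linarith) p _).trans h1.1
  · exact (TAsm398.av_le_aq (by linarith) p _).trans h1.2

theorem Su.avm (h : Su P d ε k q3 i m e e' N B t W I F xy bb E R J Z v n T g al mu es)
    (hk : 0 ≤ k) : ∀ p ∈ W, av p (F m) ≤ 1 := fun p hp =>
  (TAsm398.av_le_aq (by linarith) p _).trans (h.prc.nR p hp)

theorem Su.avi (h : Su P d ε k q3 i m e e' N B t W I F xy bb E R J Z v n T g al mu es) :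
    ∀ p ∈ W, av p (F i) ≤ 4 * t ^ (-(clx P d i)) := h.prc.avP

/-- the slots of the free letters -/
theorem Su.es_ne (h : Su P d ε k q3 i m e e' N B t W I F xy bb E R J Z v n T g al mu es)
    (c : Fin 2) : es c ≠ v + 1 := by
  intro hc
  have h1 := h.slot c
  have h2 : es c + 2 = v := by rw [hc]; exact Crest.Agent.R079.GnUx263.f3e v
  rw [h2, h.fam.vm] at h1
  fin_cases c
  · exact h.oth.am h1.symm
  · exact h.oth.bm h1.symm

theorem Su.es01 (h : Su P d ε k q3 i m e e' N B t W I F xy bb E R J Z v n T g al mu es) :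
    es 0 ≠ es 1 := by
  intro hc
  apply h.oth.ab
  rw [← h.slot 0, ← h.slot 1, hc]

end

/-- **what one generation has to deliver** (`μ = t ^ c1`) -/
def Gn1 (m0 ω Ct κ1 : ℝ) (nS : ℕ) (xy : Fin 2 → Fin 4) (F : Fin 4 → Fn)
    (bb : ℤ) (E : ℕ → ℤ → ℂ) (R : Finset Nd) (J : Nd) (Z : Fin 2 → Fn) (Φ : Fin 2 → Nd → Fn → ℝ)
    (η : ℝ) (f : Fin 2 → Nd → Fn) : Prop :=
  ∃ (S : Finset Nd) (W' Rg : Nd → Finset Nd) (Psi : Fin 2 → Nd → Fn),
    TreeO R J (DF Φ Z f η) (dvF f) m0 ω Ct S W' Rg len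
      (fun K p => ∑ c', av p (ek Z f Rg Psi c' K) ^ 2) ∧
    ‖∑ w ∈ S.filter (fun w => idx S w ≤ nS), ∑ p ∈ W' w,
      v4 bb E F (xy 0) (xy 1) (Gk f W' Psi 0 w) (Z 1) p‖ ≤
      κ1 * (m0 + en J (Z 0) (Z 1)) * len J ∧
    ‖∑ w ∈ S.filter (fun w => idx S w ≤ nS), ∑ p ∈ W' w,
      v4 bb E F (xy 0) (xy 1) (Z 0) (Gk f W' Psi 1 w) p‖ ≤
      κ1 * (m0 + en J (Z 0) (Z 1)) * len J ∧
    ‖∑ w ∈ S.filter (fun w => idx S w ≤ nS), ∑ p ∈ W' w,
      v4 bb E F (xy 0) (xy 1) (Gk f W' Psi 0 w) (Gk f W' Psi 1 w) p‖ ≤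
      κ1 * (m0 + en J (Z 0) (Z 1)) * len J

/-- the functionals of the two slots (571's `PhiE`) -/
noncomputable def PhiC (P : Prm) (ε : ℝ) (i : Fin 4) {n : ℕ} (T : Fin n → Fin 3 → Finset ℤ)
    (g : Fin n → Fin 3 → ℤ → ℤ → ℂ) (mu : Fin n → ℝ) (I : Nd) (t kap : ℝ) (kc Kl : ℕ) (r : ℕ → ℝ)
    (es : Fin 2 → Fin 3) (c : Fin 2) : Nd → Fn → ℝ :=
  PhiE i (es c) T g mu I (LaC P ε i t) kap kc Kl r

/-- **`GenP` from one generation** for all small `η` and all near-minimisers of the functionals `PhiC` -/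
theorem genP_of {P : Prm} {d ε k q3 : ℝ} {i m e e' : Fin 4} (hdd : Dst4 i m e e')
    {c1 a gE CM nE t0 K : ℝ} (ht01 : t0 ≤ 1) (kap : ℝ → ℝ) (kc : ℝ → ℕ) (Kl : ℝ → ℕ)
    (r : ℝ → ℕ → ℝ) (hkap : ∀ t, 0 < t → t ≤ t0 → 0 ≤ kap t)
    (hr : ∀ t, 0 < t → t ≤ t0 → ∀ q, 0 ≤ r t q)
    (hM : ∀ {N : ℕ} {B t : ℝ} {W : Finset Nd} {I : Nd} {F : Fin 4 → Fn} {xy : Fin 2 → Fin 4}
      {bb : ℤ} {E : ℕ → ℤ → ℂ} {R : Finset Nd} {J : Nd} {Z : Fin 2 → Fn} {v : Fin 3} {n : ℕ}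
      {T : Fin n → Fin 3 → Finset ℤ} {g : Fin n → Fin 3 → ℤ → ℤ → ℂ} {al : Fin n → ℤ → ℝ}
      {mu : Fin n → ℝ} {es : Fin 2 → Fin 3},
      Su P d ε k q3 i m e e' N B t W I F xy bb E R J Z v n T g al mu es → t ≤ t0 →
      ∀ W' I', Full W' I' → W' ⊆ R →
        ‖∑ p ∈ W', v4 bb E F (xy 0) (xy 1) (Z 0) (Z 1) p‖ ≤ K * t ^ (-CM) * len I')
    (hG : ∀ {N : ℕ} {B t : ℝ} {W : Finset Nd} {I : Nd} {F : Fin 4 → Fn} {xy : Fin 2 → Fin 4}
      {bb : ℤ} {E : ℕ → ℤ → ℂ} {R : Finset Nd} {J : Nd} {Z : Fin 2 → Fn} {v : Fin 3} {n : ℕ}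
      {T : Fin n → Fin 3 → Finset ℤ} {g : Fin n → Fin 3 → ℤ → ℤ → ℂ} {al : Fin n → ℤ → ℝ}
      {mu : Fin n → ℝ} {es : Fin 2 → Fin 3},
      Su P d ε k q3 i m e e' N B t W I F xy bb E R J Z v n T g al mu es → t ≤ t0 →
      ∃ η0 : ℝ, 0 < η0 ∧ ∀ η, 0 < η → η ≤ η0 → ∀ f : Fin 2 → Nd → Fn,
        (∀ c', NMP (fun _ _ => True)
          (PhiC P ε i T g mu I t (kap t) (kc t) (Kl t) (r t) es c') (Z c') η (f c')) →
        Gn1 (t ^ c1) (K * t ^ (-a)) (K * t ^ (-a)) (K * (1 + B) * t ^ gE) (nn t nE) xy F bb E R J Z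
          (PhiC P ε i T g mu I t (kap t) (kc t) (Kl t) (r t) es) η f) :
    GenP (QP P d i m e e' ε k) k q3 c1 a gE CM nE t0 K i m := by
  intro N B hB hBN t ht htt W I F hQ hIN x y hO bb E hA R J hR hRW X Y hXY
  have ht1 : t ≤ 1 := htt.trans ht01
  obtain ⟨v, n, T, g, al, mu, hfam⟩ := PRc.fam hdd (HfC_pos P i ht).le
    (show PRc (DF0 P) k 1 (clx P d i) t (LaC P ε i t) (HtC P i t) (HfC P i t) W I i m e e' F from hQ)
  -- the slots
  have hslot : ∀ a : Fin 4, a ≠ i → ∃ s : Fin 3, i.succAbove (s + 2) = a := by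
    intro a ha
    obtain ⟨s, hs⟩ := Fin.exists_succAbove_eq ha
    refine ⟨s + 1, ?_⟩
    rw [f3e, hs]
  obtain ⟨s0, hs0⟩ := hslot x hO.ai
  obtain ⟨s1, hs1⟩ := hslot y hO.bi
  set xy : Fin 2 → Fin 4 := ![x, y] with hxy
  set es : Fin 2 → Fin 3 := ![s0, s1] with hes
  set Z : Fin 2 → Fn := ![X, Y] with hZ
  have hSu : Su P d ε k q3 i m e e' N B t W I F xy bb E R J Z v n T g al mu es :=
    { dst := hdd, B0 := hB, BN := hBN, t0 := ht, Q := hQ, lN := hIN, oth := hO, adm := hA,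
      full := hR, sub := hRW, sm := hXY, fam := hfam,
      slot := fun c => by fin_cases c; exacts [hs0, hs1] }
  obtain ⟨η0, hη0, hG1⟩ := hG hSu htt
  set Φ := PhiC P ε i T g mu I t (kap t) (kc t) (Kl t) (r t) es with hΦ
  have hP : ∀ c', PenC 0 (fun _ _ => True) (Φ c') := fun c' =>
    penPhi hfam (es c') (hkap t ht htt) (LaC_pos P ε i ht) (kc t) (Kl t) (hr t ht htt)
  set m0 : ℝ := t ^ c1 with hm0
  have hm0p : 0 < m0 := Real.rpow_pos_of_pos ht _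
  set η1 : ℝ := m0 / (2 * (1 + 2 * J.1)) with hη1
  have hJ0 : (0 : ℝ) ≤ J.1 := Nat.cast_nonneg _
  have hη1p : 0 < η1 := by positivity
  set η : ℝ := min η0 η1 with hη
  have hηp : 0 < η := lt_min hη0 hη1p
  have hex : ∀ c', ∃ f : Nd → Fn, NMP (fun _ _ => True) (Φ c') (Z c') η f := fun c' =>
    exists_NMP (hP c') (Z c') hηp
  choose f hf using hex
  obtain ⟨S, W', Rg, Psi, hT, w1, w2, w3⟩ := hG1 η hηp (min_le_left _ _) f hf
  refine ⟨fun _ => 0, fun _ _ _ => True, Φ, Z, η, f, S, W', Rg, len,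
    fun K p => ∑ c', av p (ek Z f Rg Psi c' K) ^ 2, Psi, 0, rfl, rfl, hP, hf, hT,
    fun K _ p _ => le_refl _, le_refl _, by positivity, ?_, fun K _ => (Growth.len_pos K).le, ?_,
    fun W' I' h1 h2 => hM hSu htt W' I' h1 h2, w1, w2, w3⟩
  · intro K' hK'
    obtain ⟨C, hPt⟩ := hT.part
    have hKK : K' ∈ W' K' := (hPt.full K' hK').top
    have h1 := hT.err K' hK' K' hKK
    have h2 : 0 ≤ ∑ c', av K' (ek Z f Rg Psi c' K') ^ 2 := Finset.sum_nonneg fun _ _ => sq_nonneg _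
    have h3 : 0 ≤ K * t ^ (-a) := by
      by_contra h4
      push Not at h4
      have : K * t ^ (-a) * m0 < 0 := mul_neg_of_neg_of_pos h4 hm0p
      linarith
    have h5 : 0 ≤ ∑ q ∈ Rg K' \ lf (Rg K'), len q * DF Φ Z f η q :=
      Finset.sum_nonneg fun q _ => mul_nonneg (Growth.len_pos q).le (DF_nonneg hP hf q)
    have h6 := mul_le_mul_of_nonneg_left h1 (Growth.len_pos K').le
    have h7 := mul_nonneg h3 h5
    calc len K' * ∑ c', av K' (ek Z f Rg Psi c' K') ^ 2 ≤ len K' * (K * t ^ (-a) * m0) := h6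
      _ ≤ _ := by nlinarith
  · refine (dr_fam hP hf hR hR.top).trans ?_
    rw [Fin.sum_univ_two]
    have h1 : η * (1 + 2 * (J.1 : ℝ)) ≤ m0 / 2 := by
      have h2 : η ≤ η1 := min_le_right _ _
      have h3 : η * (1 + 2 * (J.1 : ℝ)) ≤ η1 * (1 + 2 * J.1) :=
        mul_le_mul_of_nonneg_right h2 (by positivity)
      refine h3.trans (le_of_eq ?_)
      rw [hη1]
      field_simp
    have h4 := (Growth.len_pos J).le
    have e0 : av J (Z 0) = av J X := rfl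
    have e1 : av J (Z 1) = av J Y := rfl
    rw [e0, e1]
    unfold en
    nlinarith [mul_le_mul_of_nonneg_left h1 h4]

/-! ### one generation from the errors of the frames and the words -/

section

open Crest.Agent.R079.SbWx795

variable {R : Finset Nd} {J : Nd} {Z : Fin 2 → Fn} {Φ : Fin 2 → Nd → Fn → ℝ} {η : ℝ}
  {f : Fin 2 → Nd → Fn} {m0 L : ℝ} {k0 j0 n0 : ℕ} {Psi : Fin 2 → Nd → Fn}

/-- range of the top `K` -/
noncomputable def VG (R : Finset Nd) (Φ : Fin 2 → Nd → Fn → ℝ) (Z : Fin 2 → Fn) (η : ℝ)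
    (f : Fin 2 → Nd → Fn) (m0 : ℝ) : Nd → Finset Nd := VK R (DF Φ Z f η) (dvF f) m0

/-- error field of the frames -/
noncomputable def ErG (R : Finset Nd) (Φ : Fin 2 → Nd → Fn → ℝ) (Z : Fin 2 → Fn) (η : ℝ)
    (f : Fin 2 → Nd → Fn) (m0 : ℝ) (Psi : Fin 2 → Nd → Fn) (K p : Nd) : ℝ :=
  ∑ c', av p (ek Z f (VG R Φ Z η f m0) Psi c' K) ^ 2

/-- window of the top `K` -/
noncomputable def WG (R : Finset Nd) (Φ : Fin 2 → Nd → Fn → ℝ) (Z : Fin 2 → Fn) (η : ℝ)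
    (f : Fin 2 → Nd → Fn) (m0 : ℝ) (k0 j0 n0 : ℕ) (Psi : Fin 2 → Nd → Fn) (ω : ℝ) :
    Nd → Finset Nd :=
  WW R (DF Φ Z f η) (dvF f) m0 k0 j0 n0 (ErG R Φ Z η f m0 Psi) (ω * m0)

lemma ErG_nonneg (K p : Nd) : 0 ≤ ErG R Φ Z η f m0 Psi K p :=
  Finset.sum_nonneg fun _ _ => sq_nonneg _

/-- the hypothesis `HE` of the tree from the energy of the errors at the tops -/
theorem hE_of (hR : Full R J)
    (hE : ∀ K ∈ R, ∑ c', len K * av K (ek Z f (VG R Φ Z η f m0) Psi c' K) ^ 2 ≤ L * m0 * len K) :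
    HE R (DF Φ Z f η) (dvF f) m0 k0 j0 n0 (ErG R Φ Z η f m0 Psi) L := by
  intro K hK A hA hdis
  refine le_trans ?_ (hE K hK)
  unfold ErG
  simp only [Finset.mul_sum]
  rw [Finset.sum_comm]
  refine Finset.sum_le_sum fun c' _ => ?_
  have hsub : ∀ p ∈ A, iv p ⊆ iv K := fun p hp =>
    (VK_full (D := DF Φ Z f η) (dev := dvF f) (μ := m0) hR hK).reg.1 p (RK_sub (hA hp))
  have h1 : ∀ p : Nd, len p * av p (ek Z f (VG R Φ Z η f m0) Psi c' K) ^ 2 =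
      ∑ y ∈ iv p, ‖ek Z f (VG R Φ Z η f m0) Psi c' K y‖ ^ 2 := fun p => (Growth.sum_av _ _).symm
  rw [h1 K]
  simp only [h1]
  rw [← Finset.sum_biUnion (fun p hp q hq hpq => hdis p hp q hq hpq)]
  exact Finset.sum_le_sum_of_subset_of_nonneg
    (Finset.biUnion_subset.2 fun p hp => hsub p hp) fun _ _ _ => sq_nonneg _

/-- **`Gn1` from the frames and the words** -/
theorem gn1_of {c : Fin 2 → ℝ} {Kw : Fin 2 → Nd → Fn → Prop}
    (hP : ∀ c', PenC (c c') (Kw c') (Φ c')) (hf : ∀ c', NMP (Kw c') (Φ c') (Z c') η (f c'))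
    (hR : Full R J) (hm : 0 < m0) (hm1 : m0 ≤ 1) (hk : 4 ≤ k0) (hkj : k0 ≤ j0)
    {ω Ct κ1 κG κS : ℝ} {nS : ℕ} {xy : Fin 2 → Fin 4} (hxy : xy 0 ≠ xy 1) {F : Fin 4 → Fn} {bb : ℤ}
    {E : ℕ → ℤ → ℂ} (hω : 0 < ω) (hL : 2 ^ (k0 + 3) * L ≤ ω) (hCt : 2 ^ (k0 + 5) ≤ Ct)
    (hκS : 0 ≤ κS) (hκ : κG + 6 * κS * 2 ^ (k0 + 5) / m0 ^ 2 ≤ κ1)
    (hdr : dr R (DF Φ Z f η) J ≤ (m0 + en J (Z 0) (Z 1)) * len J)
    (hE : ∀ K ∈ R, ∑ c', len K * av K (ek Z f (VG R Φ Z η f m0) Psi c' K) ^ 2 ≤ L * m0 * len K)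
    (hG : ∀ S, TreeO R J (DF Φ Z f η) (dvF f) m0 ω (2 ^ (k0 + 5)) S
        (WG R Φ Z η f m0 k0 j0 n0 Psi ω) (VG R Φ Z η f m0) len (ErG R Φ Z η f m0 Psi) →
      ‖∑ w ∈ S.filter (fun w => idx S w ≤ nS), ∑ p ∈ WG R Φ Z η f m0 k0 j0 n0 Psi ω w,
        v4 bb E F (xy 0) (xy 1) (gl (WG R Φ Z η f m0 k0 j0 n0 Psi ω w) (f 0)) (Z 1) p‖ ≤
        κG * ((m0 + en J (Z 0) (Z 1)) * len J) ∧
      ‖∑ w ∈ S.filter (fun w => idx S w ≤ nS), ∑ p ∈ WG R Φ Z η f m0 k0 j0 n0 Psi ω w,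
        v4 bb E F (xy 0) (xy 1) (Z 0) (gl (WG R Φ Z η f m0 k0 j0 n0 Psi ω w) (f 1)) p‖ ≤
        κG * ((m0 + en J (Z 0) (Z 1)) * len J) ∧
      ‖∑ w ∈ S.filter (fun w => idx S w ≤ nS), ∑ p ∈ WG R Φ Z η f m0 k0 j0 n0 Psi ω w,
        v4 bb E F (xy 0) (xy 1) (gl (WG R Φ Z η f m0 k0 j0 n0 Psi ω w) (f 0))
          (gl (WG R Φ Z η f m0 k0 j0 n0 Psi ω w) (f 1)) p‖ ≤
        κG * ((m0 + en J (Z 0) (Z 1)) * len J))
    (hS : ∀ w ∈ R,
      ‖∑ p ∈ WG R Φ Z η f m0 k0 j0 n0 Psi ω w, v4 bb E F (xy 0) (xy 1) (Psi 0 w) (Z 1) p‖ ≤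
        κS * len w ∧
      ‖∑ p ∈ WG R Φ Z η f m0 k0 j0 n0 Psi ω w, v4 bb E F (xy 0) (xy 1) (Z 0) (Psi 1 w) p‖ ≤
        κS * len w ∧
      ‖∑ p ∈ WG R Φ Z η f m0 k0 j0 n0 Psi ω w, v4 bb E F (xy 0) (xy 1) (Psi 0 w)
        (gl (WG R Φ Z η f m0 k0 j0 n0 Psi ω w) (f 1)) p‖ ≤ κS * len w ∧
      ‖∑ p ∈ WG R Φ Z η f m0 k0 j0 n0 Psi ω w, v4 bb E F (xy 0) (xy 1)
        (gl (WG R Φ Z η f m0 k0 j0 n0 Psi ω w) (f 0)) (Psi 1 w) p‖ ≤ κS * len w ∧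
      ‖∑ p ∈ WG R Φ Z η f m0 k0 j0 n0 Psi ω w, v4 bb E F (xy 0) (xy 1) (Psi 0 w) (Psi 1 w) p‖ ≤
        κS * len w) :
    Gn1 m0 ω Ct κ1 nS xy F bb E R J Z Φ η f := by
  obtain ⟨S, hT⟩ := treeO (k0 := k0) (j0 := j0) (n0 := n0) hR (fldH_fam hP hf R) hm hm1 hk hkj
    (fun K p => ErG_nonneg (R := R) (Φ := Φ) (Z := Z) (η := η) (f := f) (m0 := m0) (Psi := Psi) K p)
    (hE_of hR hE) hω hL
  obtain ⟨g1, g2, g3⟩ := hG S hT
  obtain ⟨C, hPt⟩ := hT.part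
  have hSR : S ⊆ R := hPt.sub
  have hen : 0 ≤ en J (Z 0) (Z 1) := en_nonneg _ _ _
  have hlJ : 0 ≤ len J := (Growth.len_pos J).le
  obtain ⟨t1, t2, t3⟩ := WdTx276.words_genD (GenT934.bil_v4 bb E F hxy) hT hm (by positivity) hdr
    hκS g1 g2 g3 (fun w hw _ => (hS w (hSR hw)).1) (fun w hw _ => (hS w (hSR hw)).2.1)
    (fun w hw _ => (hS w (hSR hw)).2.2.1) (fun w hw _ => (hS w (hSR hw)).2.2.2.1)
    (fun w hw _ => (hS w (hSR hw)).2.2.2.2)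
  have hmono : (κG + 6 * κS * 2 ^ (k0 + 5) / m0 ^ 2) * (m0 + en J (Z 0) (Z 1)) * len J ≤
      κ1 * (m0 + en J (Z 0) (Z 1)) * len J :=
    mul_le_mul_of_nonneg_right (mul_le_mul_of_nonneg_right hκ (by positivity)) hlJ
  refine ⟨S, _, _, Psi, ⟨hT.part, hT.full, hT.sub, hT.good, hT.err, ?_, ?_⟩,
    t1.trans hmono, t2.trans hmono, t3.trans hmono⟩
  · refine hT.cnt.trans (mul_le_mul_of_nonneg_right hCt ?_)
    have := dr_nonneg (R := R) (DF_nonneg hP hf) J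
    positivity
  · refine hT.ene.trans (mul_le_mul_of_nonneg_right hCt ?_)
    have := dr_nonneg (R := R) (DF_nonneg hP hf) J
    positivity

end

end Crest.Agent.R079.GnUx263
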