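import Crest.Agent.R079.KLh_446
import Crest.Agent.R079.GaI_256
import Crest.Agent.R079.GaU_571
import Crest.Agent.R079.GaD_571
import Crest.Agent.R079.GAd_263
import Crest.Agent.R079.B0K_253
import Crest.Agent.R079.GaX_571
import Crest.Agent.R079.GaBt_251
import Crest.Agent.R079.TauW_253
import Crest.Agent.R079.TKg_248

-- ▼ part R079/KLv_446
section

/-! R079, KILL LEMMA, REST WITH TWO REGIONS (helper446, for 571's GaU_571): `V ⊆ R`, same top `J`.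
Boxes, letters and shadows relative to `V`; bad squares (`Pw`, `Bc`, `GoodB`, `ExD`) relative to `R`.

* `rest_AB_logV` : energies of the masked line letters (533's logarithmic form);
* `rest_wordsV`  : the words of the boxes that are not good. -/

set_option autoImplicit false
set_option linter.unusedVariables false

namespace Crest.Agent.R079.KLx446

open Finset Crest.Agent.R079.Grid Crest.Agent.R079.Glue Crest.Agent.R079.Growth
  Crest.Agent.R079.QRed Crest.Agent.R079.BadTx138 Crest.Agent.R079.KC996 Crest.Agent.R079.KLdx138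
  Crest.Agent.R079.TwLx253 Crest.Agent.R079.KLX279

/-- point of the rest: the shadow lies in a node of level `n` of `V`, `ρ ≥ 2^n` for the region `R` -/
def RsPV (V R : Finset Nd) (J : Nd) (c : ℤ → ℤ → ℂ) (K : Fn) (α β γ : ℤ) (s ε : ℝ) (w x y : ℤ) : Prop :=
  ∃ n : ℕ, α * w + β * x + γ * y ∈ Rm V n ∧ Pw R J c K α β γ s ε w x y (2 ^ n)

section mx

variable {R V : Finset Nd} {J : Nd} {c : ℤ → ℤ → ℂ} {K : Fn} {α β γ : ℤ} {s ε : ℝ}

open Classical in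
/-- the energy of the rest at a fixed value of `w` -/
lemma one_wV (hV : Full V J) (hC : Cof α β γ) {X : Fn} {A : ℝ} (hX : ∀ p ∈ V, av p X ≤ A)
    {th : ℤ → ℝ} (hth : ∀ z, 0 ≤ th z) (Xf Yf : Finset ℤ) (T : ℤ)
    (hTx : ∀ x ∈ Xf, |x| + 256 * 2 ^ J.1 ≤ T) (hTy : ∀ y ∈ Yf, |y| + 256 * 2 ^ J.1 ≤ T) (w : ℤ) :
    ∑ x ∈ Xf, ∑ y ∈ Yf, (if RsPV V R J c K α β γ s ε w x y then
      th (-w - x - y) * ‖X (α * w + β * x + γ * y)‖ ^ 2 else 0) ≤
    (3073 * 2 ^ 15 * A ^ 2) * ∑ B ∈ BTs R J c K α β γ s ε th T w,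
      (4 : ℝ) ^ B.1 * avT th 0 512 B w := by
  set G : (ℕ × ℤ × ℤ) → ℤ → ℤ → ℝ := fun B x y =>
    if α * w + β * x + γ * y ∈ Rm V (min (B.1 + 8) J.1) then
      th (-w - x - y) * ‖X (α * w + β * x + γ * y)‖ ^ 2 else 0 with hG
  have hG0 : ∀ B x y, 0 ≤ G B x y := by
    intro B x y
    rw [hG]; simp only
    split_ifs
    · exact mul_nonneg (hth _) (by positivity)
    · exact le_rfl
  set H : (ℕ × ℤ × ℤ) → ℤ → ℤ → ℝ := fun B x y =>
    if x ∈ Icc (B.2.1 * 2 ^ B.1 - 256 * 2 ^ B.1) (B.2.1 * 2 ^ B.1 + 256 * 2 ^ B.1) ∧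
      y ∈ Icc (B.2.2 * 2 ^ B.1 - 256 * 2 ^ B.1) (B.2.2 * 2 ^ B.1 + 256 * 2 ^ B.1) then G B x y else 0
    with hH
  have hH0 : ∀ B x y, 0 ≤ H B x y := by
    intro B x y
    rw [hH]; simp only
    split_ifs
    · exact hG0 _ _ _
    · exact le_rfl
  have h1 : ∀ x ∈ Xf, ∀ y ∈ Yf, (if RsPV V R J c K α β γ s ε w x y then
      th (-w - x - y) * ‖X (α * w + β * x + γ * y)‖ ^ 2 else 0) ≤
      ∑ B ∈ BTs R J c K α β γ s ε th T w, H B x y := by
    intro x hx y hy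
    split_ifs with h
    swap
    · exact Finset.sum_nonneg fun _ _ => hH0 _ _ _
    by_cases ht : th (-w - x - y) = 0
    · rw [ht, zero_mul]
      exact Finset.sum_nonneg fun _ _ => hH0 _ _ _
    obtain ⟨n, hn, m, a, b, hB, hxa, hyb⟩ := h
    obtain ⟨k, hk⟩ := to_max w (J.1 - m) m a b le_rfl hB
    have hMJ : m + k ≤ J.1 := hk.1.1
    -- the dilates
    have hpos : (0 : ℤ) < 2 ^ m := by positivity
    have hle : (2 : ℤ) ^ m ≤ 2 ^ (m + k) := pow_le_pow_right₀ (by norm_num) (by omega)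
    have hleJ : (2 : ℤ) ^ (m + k) ≤ 2 ^ J.1 := pow_le_pow_right₀ (by norm_num) hMJ
    have hn0 : (0 : ℤ) < 2 ^ n := by positivity
    have near : ∀ u v : ℤ, |u - v * 2 ^ m| + 2 ^ n ≤ 256 * 2 ^ m →
        |u - v / 2 ^ k * 2 ^ (m + k)| ≤ 256 * 2 ^ (m + k) := by
      intro u v huv
      have h2 := abs_le.1 (show |u - v * 2 ^ m| ≤ 256 * 2 ^ m by linarith)
      rcases Nat.eq_zero_or_pos k with hk0 | hk0
      · subst hk0
        rw [abs_le]
        simp only [pow_zero, Int.ediv_one, add_zero]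
        exact h2
      · have h3 := anc_near v m k
        have h4 : (2 : ℤ) * 2 ^ m ≤ 2 ^ (m + k) := by
          have : (2 : ℤ) ^ (m + 1) ≤ 2 ^ (m + k) := pow_le_pow_right₀ (by norm_num) (by omega)
          rw [pow_succ] at this
          linarith
        rw [abs_le]
        constructor
        · linarith [h2.1, h2.2, h3.1, h3.2]
        · linarith [h2.1, h2.2, h3.1, h3.2]
    have hx1 := near x a hxa
    have hy1 := near y b hyb
    -- the level of the node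
    have hnm : n ≤ m + 8 := by
      by_contra hcon
      rw [not_le] at hcon
      have h2 : (2 : ℤ) ^ (m + 9) ≤ 2 ^ n := pow_le_pow_right₀ (by norm_num) (by omega)
      have h3 : (2 : ℤ) ^ (m + 9) = 512 * 2 ^ m := by rw [pow_add]; ring
      have h4 := abs_nonneg (x - a * 2 ^ m)
      linarith
    have hnJ : n ≤ J.1 := level_le V J hV.reg _ ((mem_Rm V n _).1 hn)
    have hnode : α * w + β * x + γ * y ∈ Rm V (min (m + k + 8) J.1) := by
      rw [mem_Rm] at hn ⊢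
      exact node_up hV hn (by omega) (by omega)
    -- membership
    have hav : avT th 0 512 (m + k, a / 2 ^ k, b / 2 ^ k) w ≠ 0 := by
      unfold avT
      simp only
      have hpR : (0 : ℝ) < 1 / 2 ^ (m + k) := by positivity
      refine (mul_pos hpR ?_).ne'
      refine lt_of_lt_of_le (lt_of_le_of_ne (hth (-w - x - y)) (Ne.symm ht)) ?_
      have e : -w - x - y = 0 - w - 2 ^ (m + k) * (a / 2 ^ k) - 2 ^ (m + k) * (b / 2 ^ k) +
        (2 ^ (m + k) * (a / 2 ^ k) + 2 ^ (m + k) * (b / 2 ^ k) - x - y) := by ring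
      rw [e]
      refine Finset.single_le_sum (f := fun d => th (0 - w - 2 ^ (m + k) * (a / 2 ^ k) -
        2 ^ (m + k) * (b / 2 ^ k) + d)) (fun _ _ => hth _) ?_
      rw [Finset.mem_Icc]
      have h2 := abs_le.1 hx1
      have h3 := abs_le.1 hy1
      push_cast
      constructor
      · nlinarith [h2.1, h2.2, h3.1, h3.2]
      · nlinarith [h2.1, h2.2, h3.1, h3.2]
    have hidx : ∀ u v : ℤ, |u| + 256 * 2 ^ J.1 ≤ T →
        |u - v / 2 ^ k * 2 ^ (m + k)| ≤ 256 * 2 ^ (m + k) → v / 2 ^ k ∈ Icc (-T) T := by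
      intro u v hu huv
      have h2 := abs_le.1 huv
      have h3 := abs_le.1 (show |u| ≤ T - 256 * 2 ^ J.1 by linarith)
      have h4 : (1 : ℤ) ≤ 2 ^ (m + k) := one_le_pow₀ (by norm_num)
      have h5 : |v / 2 ^ k| ≤ |v / 2 ^ k * 2 ^ (m + k)| := by
        rw [abs_mul]
        have h6 : (1 : ℤ) ≤ |(2 : ℤ) ^ (m + k)| := by rw [abs_of_pos (by linarith)]; exact h4
        exact le_mul_of_one_le_right (abs_nonneg _) h6
      have h7 : |v / 2 ^ k * 2 ^ (m + k)| ≤ T := by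
        rw [abs_le]
        constructor
        · linarith [h2.1, h2.2, h3.1, h3.2]
        · linarith [h2.1, h2.2, h3.1, h3.2]
      rw [Finset.mem_Icc, ← abs_le]
      exact h5.trans h7
    have hmem : (m + k, a / 2 ^ k, b / 2 ^ k) ∈ BTs R J c K α β γ s ε th T w := by
      unfold BTs
      rw [Finset.mem_filter, Finset.mem_product, Finset.mem_product, Finset.mem_range]
      exact ⟨⟨by omega, hidx x a (hTx x hx) hx1, hidx y b (hTy y hy) hy1⟩, hk, hav⟩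
    refine le_trans ?_ (Finset.single_le_sum (f := fun B => H B x y) (fun B _ => hH0 B x y) hmem)
    have h2 := abs_le.1 hx1
    have h3 := abs_le.1 hy1
    rw [hH]
    simp only
    rw [if_pos]
    · rw [hG]; simp only
      rw [if_pos hnode]
    · rw [Finset.mem_Icc, Finset.mem_Icc]
      exact ⟨⟨by linarith [h2.1], by linarith [h2.2]⟩, by linarith [h3.1], by linarith [h3.2]⟩
  refine (Finset.sum_le_sum fun x hx => Finset.sum_le_sum fun y hy => h1 x hx y hy).trans ?_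
  have h2 : ∑ x ∈ Xf, ∑ y ∈ Yf, ∑ B ∈ BTs R J c K α β γ s ε th T w, H B x y =
      ∑ B ∈ BTs R J c K α β γ s ε th T w, ∑ x ∈ Xf, ∑ y ∈ Yf, H B x y := by
    calc ∑ x ∈ Xf, ∑ y ∈ Yf, ∑ B ∈ BTs R J c K α β γ s ε th T w, H B x y
        = ∑ x ∈ Xf, ∑ B ∈ BTs R J c K α β γ s ε th T w, ∑ y ∈ Yf, H B x y :=
          Finset.sum_congr rfl fun x _ => Finset.sum_comm
      _ = _ := Finset.sum_comm
  rw [h2, Finset.mul_sum]
  refine Finset.sum_le_sum fun B hB => ?_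
  unfold BTs at hB
  rw [Finset.mem_filter, Finset.mem_product, Finset.mem_range] at hB
  have h3 := inner hX hth hC (min (B.1 + 8) J.1) B.1 (by omega) (by omega) w B.2.1 B.2.2
  refine le_trans ?_ h3
  rw [← Finset.sum_product', ← Finset.sum_product']
  have h4 : ∑ z ∈ Xf ×ˢ Yf, H B z.1 z.2 = ∑ z ∈ (Xf ×ˢ Yf).filter (fun z =>
      z.1 ∈ Icc (B.2.1 * 2 ^ B.1 - 256 * 2 ^ B.1) (B.2.1 * 2 ^ B.1 + 256 * 2 ^ B.1) ∧
      z.2 ∈ Icc (B.2.2 * 2 ^ B.1 - 256 * 2 ^ B.1) (B.2.2 * 2 ^ B.1 + 256 * 2 ^ B.1)),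
        G B z.1 z.2 := by
    rw [Finset.sum_filter]
  rw [h4]
  refine Finset.sum_le_sum_of_subset_of_nonneg ?_ fun z _ _ => hG0 _ _ _
  intro z hz
  rw [Finset.mem_filter] at hz
  rw [Finset.mem_product]
  exact hz.2

end mx

/-- **[KD] ENERGY OF THE REST**, logarithmic in the cap of the weight. -/
theorem rest_energy_logV : ∃ C0 : ℝ, 0 ≤ C0 ∧ ∀ (V R : Finset Nd) (J : Nd), Full V J → Full R J →
    ∀ (c : ℤ → ℤ → ℂ) (K : Fn) (α β γ : ℤ), Cof α β γ → ∀ (s ε D : ℝ), 0 < ε → 0 ≤ D →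
    ExD R c K α β γ s D → ∀ (th : ℤ → ℝ) (Ht : ℝ) (z0 : ℤ) (n : ℕ), (∀ z, 0 ≤ th z) → 1 ≤ Ht →
    (∀ z, th z ≤ Ht) → (∀ z, th z ≠ 0 → z0 ≤ z ∧ z < z0 + n) →
    ∀ (X : Fn) (A : ℝ), (∀ p ∈ V, av p X ≤ A) → ∀ (w0 : ℤ) (N : ℕ) (Xf Yf : Finset ℤ),
    letI := Classical.dec
    ∑ w ∈ Ico w0 (w0 + N), ∑ x ∈ Xf, ∑ y ∈ Yf, (if RsPV V R J c K α β γ s ε w x y then
      th (-w - x - y) * ‖X (α * w + β * x + γ * y)‖ ^ 2 else 0) ≤
    C0 * A ^ 2 * (D / ε) * (1 + Real.log Ht) * ((N + 2 ^ J.1) * 2 ^ J.1 *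
      (∑ z ∈ Ico z0 (z0 + n), th z + n + 2 ^ J.1)) := by
  classical
  obtain ⟨Cm, hCm, hmax⟩ := Crest.Agent.R079.MaxLx533.exists_max_log
  refine ⟨(3073 * 2 ^ 15) * ((2 * 512 + 7) * 162) * (2 * (2 * 2 ^ 7)) * (1031 * Cm), by positivity, ?_⟩
  intro V R J hV hR c K α β γ hC s ε D hε hD0 hD th Ht z0 n hth hHt hthH hsupp X A hX w0 N Xf Yf
  -- a common bound for the indices
  obtain ⟨T, hTx, hTy⟩ : ∃ T : ℤ, (∀ x ∈ Xf, |x| + 256 * 2 ^ J.1 ≤ T) ∧
      ∀ y ∈ Yf, |y| + 256 * 2 ^ J.1 ≤ T := by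
    refine ⟨∑ x ∈ Xf, |x| + ∑ y ∈ Yf, |y| + 256 * 2 ^ J.1, fun x hx => ?_, fun y hy => ?_⟩
    · have h1 := Finset.single_le_sum (f := fun x : ℤ => |x|) (fun _ _ => abs_nonneg _) hx
      have h2 : 0 ≤ ∑ y ∈ Yf, |y| := Finset.sum_nonneg fun _ _ => abs_nonneg _
      linarith
    · have h1 := Finset.single_le_sum (f := fun x : ℤ => |x|) (fun _ _ => abs_nonneg _) hy
      have h2 : 0 ≤ ∑ x ∈ Xf, |x| := Finset.sum_nonneg fun _ _ => abs_nonneg _
      linarith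
  -- the majorant
  set JJ : ℤ := 2 ^ J.1 with hJJ
  have hJJ0 : 0 < JJ := by rw [hJJ]; positivity
  obtain ⟨g, hg0, hg1, hg2⟩ := hmax th Ht hth hHt hthH (Ico z0 (z0 + n)) (by
    intro x hx
    by_contra hne
    exact hx (Finset.mem_Ico.2 (hsupp x hne)))
  set Sg : Finset ℤ := Ico (z0 - 515 * JJ) (z0 + n + 515 * JJ) with hSg
  have hsg : ∑ x ∈ Sg, g x ≤ Cm * (1 + Real.log Ht) * (Sg.card + ∑ z ∈ Ico z0 (z0 + n), th z) :=
    hg2 Sg
  have hSgc : (Sg.card : ℝ) ≤ n + 1030 * 2 ^ J.1 := by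
    rw [hSg, Int.card_Ico]
    rw [show z0 + n + 515 * JJ - (z0 - 515 * JJ) = ((n + 1030 * 2 ^ J.1 : ℕ) : ℤ) by
      push_cast; rw [hJJ]; ring, Int.toNat_natCast]
    push_cast
    exact le_rfl
  -- the fixed `w` bounds
  set BT : ℤ → Finset (ℕ × ℤ × ℤ) := fun w => BTs R J c K α β γ s ε th T w with hBT
  have step1 : ∑ w ∈ Ico w0 (w0 + N), ∑ x ∈ Xf, ∑ y ∈ Yf,
      (if RsPV V R J c K α β γ s ε w x y then
        th (-w - x - y) * ‖X (α * w + β * x + γ * y)‖ ^ 2 else 0) ≤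
      (3073 * 2 ^ 15 * A ^ 2) * ∑ w ∈ Ico w0 (w0 + N), ∑ B ∈ BT w,
        (4 : ℝ) ^ B.1 * avT th 0 512 B w := by
    rw [Finset.mul_sum]
    exact Finset.sum_le_sum fun w _ => one_wV hV hC hX hth Xf Yf T hTx hTy w
  -- the used cubes
  set LT : ℤ → (ℕ × ℤ × ℤ) → Finset (ℕ × ℤ × ℤ) := fun w B => LTs R J c K α β γ s w B with hLT
  set U : Finset (ℕ × ℤ × ℤ × ℤ) := (Ico w0 (w0 + N)).biUnion fun w => (BT w).biUnion fun B =>
    (LT w B).image fun L => (L.1, w / 2 ^ L.1, L.2.1, L.2.2) with hU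
  have memBT : ∀ w, ∀ B ∈ BT w, B.1 ≤ J.1 ∧ MxB R J c K α β γ s ε w B ∧ avT th 0 512 B w ≠ 0 := by
    intro w B hB
    rw [hBT] at hB
    simp only at hB
    unfold BTs at hB
    rw [Finset.mem_filter, Finset.mem_product, Finset.mem_range] at hB
    exact ⟨by omega, hB.2.1, hB.2.2⟩
  have step2 : ∑ w ∈ Ico w0 (w0 + N), ∑ B ∈ BT w, (4 : ℝ) ^ B.1 * avT th 0 512 B w ≤
      (2 * 512 + 7) * ((162 * D) / ε) * ∑ u ∈ U, cubeS g 0 u := by
    have h := bad_tiles hth hg1 U (ExT R J c K α β γ s) (ρ := 162 * D) (cc := ε) (by positivity) hε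
      (fun u _ => card_ExT hR hC hD hD0 u.1 u.2.1 u.2.2.1 u.2.2.2) (Ico w0 (w0 + N)) BT LT
      (by
        intro w hw B hB L hL
        obtain ⟨h1, h2, h3, h4⟩ := mem_LTs hL
        refine ⟨h1, h2, h3, ?_, h4⟩
        rw [hU, Finset.mem_biUnion]
        refine ⟨w, hw, ?_⟩
        rw [Finset.mem_biUnion]
        refine ⟨B, hB, ?_⟩
        rw [Finset.mem_image]
        exact ⟨L, hL, rfl⟩)
      (by
        intro w hw B hB B' hB' hne
        rw [Finset.disjoint_left]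
        intro L hL hL'
        apply hne
        obtain ⟨h1, h2, h3, -⟩ := mem_LTs hL
        obtain ⟨h1', h2', h3', -⟩ := mem_LTs hL'
        rcases le_total B.1 B'.1 with hle | hle
        · exact mx_eq (memBT w B hB).2.1 (memBT w B' hB').2.1 hle h1 h2 h3 h2' h3'
        · exact (mx_eq (memBT w B' hB').2.1 (memBT w B hB).2.1 hle h1' h2' h3' h2 h3).symm)
      (by
        intro w hw B hB
        exact LTs_area (memBT w B hB).2.1.1) 0 512
    exact_mod_cast h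
  -- the cubes
  have step3 : ∑ u ∈ U, cubeS g 0 u ≤ (Ico (w0 - JJ) (w0 + N + JJ)).card * (∑ x ∈ Sg, g x) *
      ∑ p ∈ Lfs R J, ((enl p).card : ℝ) := by
    refine sum_cubes (α := α) (β := β) (γ := γ) hg0 hC.βγ U (Lfs R J) _ Sg ?_
    intro u hu
    rw [hU, Finset.mem_biUnion] at hu
    obtain ⟨w, hw, hu⟩ := hu
    rw [Finset.mem_biUnion] at hu
    obtain ⟨B, hB, hu⟩ := hu
    rw [Finset.mem_image] at hu
    obtain ⟨L, hL, rfl⟩ := hu
    obtain ⟨hBJ, hMx, hav⟩ := memBT w B hB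
    rw [Finset.mem_Ico] at hw
    exact cube_pt hR hC hsupp hw hBJ hav hL
  have hW : ((Ico (w0 - JJ) (w0 + N + JJ)).card : ℝ) ≤ 2 * (N + 2 ^ J.1) := by
    rw [Int.card_Ico]
    rw [show w0 + N + JJ - (w0 - JJ) = ((N + 2 * 2 ^ J.1 : ℕ) : ℤ) by
      push_cast; rw [hJJ]; ring, Int.toNat_natCast]
    push_cast
    have : (0 : ℝ) ≤ N := by positivity
    linarith
  have hP : ∑ p ∈ Lfs R J, ((enl p).card : ℝ) ≤ 2 * 2 ^ 7 * 2 ^ J.1 := by
    refine (Finset.sum_le_sum fun p _ => card_enl p).trans ?_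
    rw [← Finset.mul_sum]
    have := sum_leaves hR
    rw [pow_add] at this
    linarith
  set Θ : ℝ := ∑ z ∈ Ico z0 (z0 + (n : ℤ)), th z with hΘ
  have hΘ0 : 0 ≤ Θ := Finset.sum_nonneg fun _ _ => hth _
  have hH13 : 0 ≤ 1 + Real.log Ht := by
    have := Real.log_nonneg hHt
    linarith
  have hsg' : ∑ x ∈ Sg, g x ≤ (1031 * Cm) * ((1 + Real.log Ht) * (Θ + n + 2 ^ J.1)) := by
    refine hsg.trans ?_
    have h1 : (Sg.card : ℝ) + Θ ≤ 1031 * (Θ + n + 2 ^ J.1) := by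
      have hn : (0 : ℝ) ≤ n := by positivity
      have hj : (0 : ℝ) ≤ 2 ^ J.1 := by positivity
      linarith
    calc Cm * (1 + Real.log Ht) * (Sg.card + Θ)
        ≤ Cm * (1 + Real.log Ht) * (1031 * (Θ + n + 2 ^ J.1)) :=
          mul_le_mul_of_nonneg_left h1 (mul_nonneg hCm hH13)
      _ = _ := by ring
  have hsg0 : 0 ≤ ∑ x ∈ Sg, g x := Finset.sum_nonneg fun _ _ => hg0 _
  have step4 : ∑ u ∈ U, cubeS g 0 u ≤ (2 * (N + 2 ^ J.1)) *
      ((1031 * Cm) * ((1 + Real.log Ht) * (Θ + n + 2 ^ J.1))) * (2 * 2 ^ 7 * 2 ^ J.1) := by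
    refine step3.trans ?_
    refine mul_le_mul ?_ hP (Finset.sum_nonneg fun _ _ => by positivity) (by positivity)
    exact mul_le_mul hW hsg' hsg0 (by positivity)
  have hA2 : 0 ≤ 3073 * 2 ^ 15 * A ^ 2 := by positivity
  have hDe : 0 ≤ (2 * 512 + 7) * ((162 * D) / ε) := by positivity
  refine step1.trans ?_
  refine (mul_le_mul_of_nonneg_left (step2.trans (mul_le_mul_of_nonneg_left step4 hDe)) hA2).trans ?_
  refine le_of_eq ?_
  field_simp

open Classical in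
/-- rest energy in face coordinates with an arbitrary position set, classical indicator -/
theorem rest_face_logV : ∃ C0 : ℝ, 0 ≤ C0 ∧ ∀ (V R : Finset Nd) (J : Nd), Full V J → Full R J →
    ∀ (c : ℤ → ℤ → ℂ) (K : Fn) (α β γ : ℤ), Cof α β γ → ∀ (s ε D : ℝ), 0 < ε → 0 ≤ D →
    ExD R c K α β γ s D → ∀ (th : ℤ → ℝ) (Ht : ℝ) (t1 : ℤ) (n : ℕ), (∀ z, 0 ≤ th z) → 1 ≤ Ht →
    (∀ z, th z ≤ Ht) → (∀ z, th z ≠ 0 → t1 ≤ z ∧ z < t1 + n) →
    ∀ (X : Fn) (A : ℝ), (∀ p ∈ V, av p X ≤ A) → ∀ (w0 : ℤ) (N : ℕ) (W1 : Finset ℤ),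
    W1 ⊆ Ico w0 (w0 + N) → ∀ (Xf Yf : Finset ℤ),
    ∑ w ∈ W1, ∑ x ∈ Xf, ∑ y ∈ Yf, (if RsPV V R J c K α β γ s ε w x y then
      th (-w - x - y) * ‖X (α * w + β * x + γ * y)‖ ^ 2 else 0) ≤
    C0 * A ^ 2 * (D / ε) * (1 + Real.log Ht) * ((N + 2 ^ J.1) * 2 ^ J.1 *
      (∑ z ∈ Ico t1 (t1 + n), th z + n + 2 ^ J.1)) := by
  obtain ⟨C0, hC0, h⟩ := rest_energy_logV
  refine ⟨C0, hC0, ?_⟩
  intro V R J hV hR c K α β γ hC s ε D hε hD0 hD th Ht t1 n hth hHt hthH hsupp X A hX w0 N W1 hW Xf Yf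
  refine le_trans ?_ (h V R J hV hR c K α β γ hC s ε D hε hD0 hD th Ht t1 n hth hHt hthH hsupp X A hX w0 N
    Xf Yf)
  refine (Finset.sum_le_sum_of_subset_of_nonneg hW fun w _ _ =>
    Finset.sum_nonneg fun x _ => Finset.sum_nonneg fun y _ => ?_).trans (le_of_eq ?_)
  · split_ifs
    · exact mul_nonneg (hth _) (sq_nonneg _)
    · exact le_rfl
  · rfl

open Classical in
/-- **(iii) ENERGIES OF THE MASKED LINE LETTERS ON THE REST.** -/
theorem rest_AB_logV : ∃ C0 : ℝ, 0 ≤ C0 ∧ ∀ (k k0 k1 k2 : Fin 4), D4 k k0 k1 k2 →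
    ∀ (V R : Finset Nd) (J : Nd), Full V J → Full R J →
    ∀ (c : ℤ → ℤ → ℂ) (K : Fn) (s ε D : ℝ), 0 < ε → 0 ≤ D →
    ExD R c K (sl k - sl k1) (sl k2 - sl k1) (sl k0 - sl k1) s D →
    ∀ (th : ℤ → ℝ) (Ht Hf : ℝ) (t1 : ℤ) (n : ℕ), (∀ z, 0 ≤ th z) → 1 ≤ Ht → 0 ≤ Hf →
    (∀ z, th z ≤ Ht) → (∀ z, th z ≠ 0 → t1 ≤ z ∧ z < t1 + n) →
    ∀ (F : Fin 4 → Fn) (w0 : ℤ) (N : ℕ) (W1 : Finset ℤ), W1 ⊆ Ico w0 (w0 + N) →
    (∀ (T0 T1 : Finset ℤ) (a : ℤ → ℤ → ℂ) (A : ℝ), (∀ z0 z1, ‖a z0 z1‖ ^ 2 ≤ Hf * th z1) →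
      (∀ p ∈ V, av p (F k2) ≤ A) → ∀ (Xf Yf : Finset ℤ),
      ∑ w ∈ W1, ∑ z0 ∈ Xf, ∑ z1 ∈ Yf,
        (if RsPV V R J c K (sl k - sl k1) (sl k2 - sl k1) (sl k0 - sl k1) s ε w (-w - z0 - z1) z0 then
          ‖kA k k0 k1 k2 T0 T1 a F w z0 z1‖ ^ 2 else 0) ≤
      Hf * (C0 * A ^ 2 * (D / ε) * (1 + Real.log Ht) * ((N + 2 ^ J.1) * 2 ^ J.1 *
        (∑ z ∈ Ico t1 (t1 + n), th z + n + 2 ^ J.1)))) ∧
    (∀ (T1 T2 : Finset ℤ) (b : ℤ → ℤ → ℂ) (A : ℝ), (∀ z1 z2, ‖b z1 z2‖ ^ 2 ≤ Hf * th z1) →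
      (∀ p ∈ V, av p (F k0) ≤ A) → ∀ (Xf Yf : Finset ℤ),
      ∑ w ∈ W1, ∑ z1 ∈ Xf, ∑ z2 ∈ Yf,
        (if RsPV V R J c K (sl k - sl k1) (sl k2 - sl k1) (sl k0 - sl k1) s ε w z2 (-w - z1 - z2) then
          ‖kB k k0 k1 k2 T1 T2 b F w z1 z2‖ ^ 2 else 0) ≤
      Hf * (C0 * A ^ 2 * (D / ε) * (1 + Real.log Ht) * ((N + 2 ^ J.1) * 2 ^ J.1 *
        (∑ z ∈ Ico t1 (t1 + n), th z + n + 2 ^ J.1)))) := by
  obtain ⟨C0, hC0, h⟩ := rest_face_logV
  refine ⟨C0, hC0, ?_⟩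
  intro k k0 k1 k2 hk V R J hV hR c K s ε D hε hD0 hD th Ht Hf t1 n hth hHt hHf hthH hsupp F w0 N W1 hW
  have hC := hk.cof
  set α := sl k - sl k1 with hα
  set β := sl k2 - sl k1 with hβ
  set γ := sl k0 - sl k1 with hγ
  constructor
  · intro T0 T1 a A ha hA Xf Yf
    set G : ℤ → ℤ → ℤ → ℝ := fun w x y => if RsPV V R J c K α β γ s ε w x y then
      th (-w - x - y) * ‖F k2 (α * w + β * x + γ * y)‖ ^ 2 else 0 with hG
    have hG0 : ∀ w x y, 0 ≤ G w x y := by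
      intro w x y
      rw [hG]; simp only
      split_ifs
      · exact mul_nonneg (hth _) (sq_nonneg _)
      · exact le_rfl
    set P : Finset ℤ := ((W1 ×ˢ Xf) ×ˢ Yf).image (fun t => -t.1.1 - t.1.2 - t.2) with hP
    have h1 : ∀ w ∈ W1, ∀ z0 ∈ Xf, ∀ z1 ∈ Yf,
        (if RsPV V R J c K α β γ s ε w (-w - z0 - z1) z0 then
          ‖kA k k0 k1 k2 T0 T1 a F w z0 z1‖ ^ 2 else 0) ≤ Hf * G w (-w - z0 - z1) z0 := by
      intro w _ z0 _ z1 _
      rw [hG]; simp only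
      split_ifs with hr
      swap
      · rw [mul_zero]
      rw [show -w - (-w - z0 - z1) - z0 = z1 by ring]
      have e : sha k k1 k2 k0 w (-w - z0 - z1) z0 = α * w + β * (-w - z0 - z1) + γ * z0 := rfl
      rw [← e, ← KLrx138.sha_zero]
      unfold kA fr4
      split_ifs
      · rw [norm_mul, mul_pow, ← mul_assoc]
        exact mul_le_mul_of_nonneg_right (ha z0 z1) (sq_nonneg _)
      · rw [norm_zero, zero_pow (by norm_num)]
        exact mul_nonneg hHf (mul_nonneg (hth _) (sq_nonneg _))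
    have h2 : ∀ w ∈ W1, ∀ z0 ∈ Xf, ∑ z1 ∈ Yf, Hf * G w (-w - z0 - z1) z0 ≤
        Hf * ∑ x ∈ P, G w x z0 := by
      intro w hw z0 hz0
      rw [← Finset.mul_sum]
      refine mul_le_mul_of_nonneg_left ?_ hHf
      have hinj : Set.InjOn (fun z1 : ℤ => -w - z0 - z1) (Yf : Set ℤ) := by
        intro z _ z' _ hz
        have : -w - z0 - z = -w - z0 - z' := hz
        linarith
      rw [← Finset.sum_image (f := fun x => G w x z0) hinj]
      refine Finset.sum_le_sum_of_subset_of_nonneg ?_ fun _ _ _ => hG0 _ _ _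
      intro x hx
      rw [Finset.mem_image] at hx
      obtain ⟨z1, hz1, rfl⟩ := hx
      rw [hP, Finset.mem_image]
      exact ⟨((w, z0), z1), Finset.mem_product.2 ⟨Finset.mem_product.2 ⟨hw, hz0⟩, hz1⟩, rfl⟩
    refine (Finset.sum_le_sum fun w hw => Finset.sum_le_sum fun z0 hz0 =>
      (Finset.sum_le_sum fun z1 hz1 => h1 w hw z0 hz0 z1 hz1).trans (h2 w hw z0 hz0)).trans ?_
    have h3 := h V R J hV hR c K α β γ hC s ε D hε hD0 hD th Ht t1 n hth hHt hthH hsupp (F k2) A hA w0 N W1 hW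
      P Xf
    refine le_trans (le_of_eq ?_) (mul_le_mul_of_nonneg_left h3 hHf)
    rw [Finset.mul_sum]
    refine Finset.sum_congr rfl fun w _ => ?_
    rw [← Finset.mul_sum, Finset.sum_comm]
  · intro T1 T2 b A hb hA Xf Yf
    set G : ℤ → ℤ → ℤ → ℝ := fun w x y => if RsPV V R J c K α β γ s ε w x y then
      th (-w - x - y) * ‖F k0 (α * w + β * x + γ * y)‖ ^ 2 else 0 with hG
    have hG0 : ∀ w x y, 0 ≤ G w x y := by
      intro w x y
      rw [hG]; simp only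
      split_ifs
      · exact mul_nonneg (hth _) (sq_nonneg _)
      · exact le_rfl
    set P : Finset ℤ := ((W1 ×ˢ Xf) ×ˢ Yf).image (fun t => -t.1.1 - t.1.2 - t.2) with hP
    have h1 : ∀ w ∈ W1, ∀ z1 ∈ Xf, ∀ z2 ∈ Yf,
        (if RsPV V R J c K α β γ s ε w z2 (-w - z1 - z2) then
          ‖kB k k0 k1 k2 T1 T2 b F w z1 z2‖ ^ 2 else 0) ≤ Hf * G w z2 (-w - z1 - z2) := by
      intro w _ z1 _ z2 _
      rw [hG]; simp only
      split_ifs with hr
      swap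
      · rw [mul_zero]
      rw [show -w - z2 - (-w - z1 - z2) = z1 by ring]
      have e : sha k k1 k2 k0 w z2 (-w - z1 - z2) = α * w + β * z2 + γ * (-w - z1 - z2) := rfl
      rw [← e, ← KLrx138.sha_zero']
      unfold kB fr4
      split_ifs
      · rw [norm_mul, mul_pow, ← mul_assoc]
        exact mul_le_mul_of_nonneg_right (hb z1 z2) (sq_nonneg _)
      · rw [norm_zero, zero_pow (by norm_num)]
        exact mul_nonneg hHf (mul_nonneg (hth _) (sq_nonneg _))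
    have h2 : ∀ w ∈ W1, ∀ z2 ∈ Yf, ∑ z1 ∈ Xf, Hf * G w z2 (-w - z1 - z2) ≤
        Hf * ∑ y ∈ P, G w z2 y := by
      intro w hw z2 hz2
      rw [← Finset.mul_sum]
      refine mul_le_mul_of_nonneg_left ?_ hHf
      have hinj : Set.InjOn (fun z1 : ℤ => -w - z1 - z2) (Xf : Set ℤ) := by
        intro z _ z' _ hz
        have : -w - z - z2 = -w - z' - z2 := hz
        linarith
      rw [← Finset.sum_image (f := fun y => G w z2 y) hinj]
      refine Finset.sum_le_sum_of_subset_of_nonneg ?_ fun _ _ _ => hG0 _ _ _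
      intro x hx
      rw [Finset.mem_image] at hx
      obtain ⟨z1, hz1, rfl⟩ := hx
      rw [hP, Finset.mem_image]
      exact ⟨((w, z1), z2), Finset.mem_product.2 ⟨Finset.mem_product.2 ⟨hw, hz1⟩, hz2⟩, rfl⟩
    have h4 : ∀ w ∈ W1, ∑ z1 ∈ Xf, ∑ z2 ∈ Yf,
        (if RsPV V R J c K α β γ s ε w z2 (-w - z1 - z2) then
          ‖kB k k0 k1 k2 T1 T2 b F w z1 z2‖ ^ 2 else 0) ≤ Hf * ∑ z2 ∈ Yf, ∑ y ∈ P, G w z2 y := by
      intro w hw
      rw [Finset.sum_comm, Finset.mul_sum]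
      exact Finset.sum_le_sum fun z2 hz2 =>
        (Finset.sum_le_sum fun z1 hz1 => h1 w hw z1 hz1 z2 hz2).trans (h2 w hw z2 hz2)
    refine (Finset.sum_le_sum h4).trans ?_
    rw [← Finset.mul_sum]
    exact mul_le_mul_of_nonneg_left (h V R J hV hR c K α β γ hC s ε D hε hD0 hD th Ht t1 n hth hHt hthH
      hsupp (F k0) A hA w0 N W1 hW Yf P) hHf

section boxes

variable {k k0 k1 k2 : Fin 4} {R V : Finset Nd} {J : Nd} {w : ℤ} {m : ℕ} {p0 p1 p2 : ℤ}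
variable {c : ℤ → ℤ → ℂ} {K : Fn} {α β γ : ℤ} {s ε : ℝ}

/-- alive (rest) -/
lemma al4_restV {X0 X1 Y0 Y1 : ℤ} {M : ℕ} (hm : m ≤ M) (hg : Gd k k0 k1 k2 V m w p0 p1 p2)
    (hmt : Mt X0 X1 Y0 Y1 m p2 p0)
    (h : ¬ GoodB R J c K (sl k - sl k1) (sl k2 - sl k1) (sl k0 - sl k1) s ε w m p0 p2) :
    Al4Z (AlR V (sl k - sl k1) (sl k2 - sl k1) (sl k0 - sl k1) w (X0 - 2 ^ (M + 1)) (X1 + 2 ^ (M + 1))
      (Y0 - 2 ^ (M + 1)) (Y1 + 2 ^ (M + 1))
      (Pw R J c K (sl k - sl k1) (sl k2 - sl k1) (sl k0 - sl k1) s ε w)) m p2 p0 :=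
  fun _ _ ha hb => ⟨⟨gd_om hg ha hb, mt_dm2 hm hmt ha hb⟩, rest_half h ha hb⟩

/-- in the rest, every point of the edge `(z0, z1)` is in the static set -/
lemma rest_AV (hg : Gd k k0 k1 k2 V m w p0 p1 p2) (hw : Wn m w p0 p1 p2)
    (h : ¬ GoodB R J c K (sl k - sl k1) (sl k2 - sl k1) (sl k0 - sl k1) s ε w m p0 p2) {z0 z1 : ℤ}
    (h0 : z0 ∈ Ico p0 (p0 + 2 ^ (m + 1))) (h1 : z1 ∈ Ico p1 (p1 + 2 ^ (m + 1))) :
    RsPV V R J c K (sl k - sl k1) (sl k2 - sl k1) (sl k0 - sl k1) s ε w (-w - z0 - z1) z0 := by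
  rw [Finset.mem_Ico] at h0 h1
  refine ⟨m, ?_, ?_⟩
  · rw [sha_A]
    have := (hg (z0 - p0) (z1 - p1) 0 (by linarith) (by linarith) (by linarith) (by linarith) le_rfl
      (by positivity)).1
    convert this using 2 <;> ring
  · have hm0 : (0 : ℤ) < 2 ^ m := by positivity
    have e : (2 : ℤ) ^ (m + 1) = 2 * 2 ^ m := by rw [pow_succ]; ring
    have h3 := rest_half h (a := 0) (b := 0) (by norm_num) (by norm_num)
    unfold Wn at hw
    rw [abs_le] at hw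
    have := (lp_pw R J c K (sl k - sl k1) (sl k2 - sl k1) (sl k0 - sl k1) s ε w).lip _ _
      (-w - z0 - z1) z0 _ (12 * 2 ^ m) (by
        rw [abs_le]
        push_cast
        constructor <;> linarith) (by
        rw [abs_le]
        push_cast
        constructor <;> linarith) h3
    refine (lp_pw R J c K _ _ _ s ε w).anti _ _ _ _ ?_ this
    linarith

/-- in the rest, every point of the edge `(z1, z2)` is in the static set -/
lemma rest_BV (hg : Gd k k0 k1 k2 V m w p0 p1 p2) (hw : Wn m w p0 p1 p2)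
    (h : ¬ GoodB R J c K (sl k - sl k1) (sl k2 - sl k1) (sl k0 - sl k1) s ε w m p0 p2) {z1 z2 : ℤ}
    (h1 : z1 ∈ Ico p1 (p1 + 2 ^ (m + 1))) (h2 : z2 ∈ Ico p2 (p2 + 2 ^ (m + 1))) :
    RsPV V R J c K (sl k - sl k1) (sl k2 - sl k1) (sl k0 - sl k1) s ε w z2 (-w - z1 - z2) := by
  rw [Finset.mem_Ico] at h2 h1
  refine ⟨m, ?_, ?_⟩
  · rw [sha_B]
    have := (hg 0 (z1 - p1) (z2 - p2) le_rfl (by positivity) (by linarith) (by linarith)
      (by linarith) (by linarith)).2.1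
    convert this using 2 <;> ring
  · have hm0 : (0 : ℤ) < 2 ^ m := by positivity
    have e : (2 : ℤ) ^ (m + 1) = 2 * 2 ^ m := by rw [pow_succ]; ring
    have h3 := rest_half h (a := 0) (b := 0) (by norm_num) (by norm_num)
    unfold Wn at hw
    rw [abs_le] at hw
    have := (lp_pw R J c K (sl k - sl k1) (sl k2 - sl k1) (sl k0 - sl k1) s ε w).lip _ _
      z2 (-w - z1 - z2) _ (12 * 2 ^ m) (by
        rw [abs_le]
        push_cast
        constructor <;> linarith) (by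
        rw [abs_le]
        push_cast
        constructor <;> linarith) h3
    refine (lp_pw R J c K _ _ _ s ε w).anti _ _ _ _ ?_ this
    linarith

end boxes

open Classical in
/-- **REST WORDS** (arbitrary families of partners, masked energies) -/
theorem rest_wordsV : ∃ KK : ℝ, 0 ≤ KK ∧ ∀ (l : ℤ), |l| ≤ 7 → ∀ (k k0 k1 k2 : Fin 4), D4 k k0 k1 k2 →
    ∀ (V R : Finset Nd) (J : Nd), Full V J → ∀ (c : ℤ → ℤ → ℂ) (K : Fn) (X0 X1 Y0 Y1 : ℤ),
    (∀ x y, ‖c x y‖ ≤ 1) → (∀ x y, c x y ≠ 0 → X0 ≤ x ∧ x < X1 ∧ Y0 ≤ y ∧ y < Y1) →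
    ∀ (s ε τ : ℝ), 0 < τ →
    (∀ w m q u, Om V (sl k - sl k1) (sl k2 - sl k1) (sl k0 - sl k1) w m q u →
      OpB (kw c K (sl k - sl k1) (sl k2 - sl k1) (sl k0 - sl k1) w) (Ico q (q + 2 ^ m))
        (Ico u (u + 2 ^ m)) (τ * 2 ^ m)) →
    ∀ (HC : ℝ), (∀ y, ‖K y‖ ≤ HC) → ∀ (σ : Bool)
    (A B : ℤ → ℤ → ℤ → ℝ) (HA HB fa fb SA SB : ℝ) (W1 : Finset ℤ),
    (∀ w, FS (A w)) → (∀ w, FS (B w)) → 0 < fa → 0 < fb →
    (∀ w x y, |A w x y| ≤ HA) → (∀ w x y, |B w x y| ≤ HB) →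
    (∀ w, w ∉ W1 → (∀ x y, A w x y = 0) ∨ (∀ x y, B w x y = 0)) →
    (∀ X Y : Finset ℤ, ∑ w ∈ W1, ∑ x ∈ X, ∑ y ∈ Y,
      (if RsPV V R J c K (sl k - sl k1) (sl k2 - sl k1) (sl k0 - sl k1) s ε w (-w - x - y) x then
        A w x y ^ 2 else 0) ≤ SA) →
    (∀ X Y : Finset ℤ, ∑ w ∈ W1, ∑ x ∈ X, ∑ y ∈ Y,
      (if RsPV V R J c K (sl k - sl k1) (sl k2 - sl k1) (sl k0 - sl k1) s ε w y (-w - x - y) then
        B w x y ^ 2 else 0) ≤ SB) →
    ∀ (Wf : Finset ℤ) (L1 : ℕ), ∑ w ∈ Wf, Tw (fun m p0 p1 p2 => Gd k k0 k1 k2 V m w p0 p1 p2 ∧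
      ¬ GoodB R J c K (sl k - sl k1) (sl k2 - sl k1) (sl k0 - sl k1) s ε w m p0 p2) (A w) (B w)
      (fun z z' => pr σ (kw c K (sl k - sl k1) (sl k2 - sl k1) (sl k0 - sl k1) w z z'))
      (J.1 + 1) L1 l w ≤
      KK * (1 + Real.log (1 + HC ^ 2 *
        (((Ico (X0 - 2 ^ (J.1 + 1)) (X1 + 2 ^ (J.1 + 1))).card : ℝ) * len J) *
        (HA ^ 2 / fa + HB ^ 2 / fb) / τ ^ 2)) *
        (τ * √(SA + W1.card * fa) * √(SB + W1.card * fb)) := by
  obtain ⟨KK, hKK, hmain⟩ := sum_tw'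
  refine ⟨KK, hKK, ?_⟩
  intro l hl k k0 k1 k2 h4 V R J hV c K X0 X1 Y0 Y1 hc1 hc0 s ε τ hτ hop HC hHC σ A B HA HB
    fa fb SA SB W1 sA sB hfa hfb hA hB h0 eA eB Wf L1
  set α := sl k - sl k1 with hα
  set β := sl k2 - sl k1 with hβ
  set γ := sl k0 - sl k1 with hγ
  -- masked families
  set A' : ℤ → ℤ → ℤ → ℝ := fun w x y => if RsPV V R J c K α β γ s ε w (-w - x - y) x then A w x y else 0
    with hA'
  set B' : ℤ → ℤ → ℤ → ℝ := fun w x y => if RsPV V R J c K α β γ s ε w y (-w - x - y) then B w x y else 0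
    with hB'
  have hHA : 0 ≤ HA := (abs_nonneg _).trans (hA 0 0 0)
  have hHB : 0 ≤ HB := (abs_nonneg _).trans (hB 0 0 0)
  have hfs : ∀ {D D' : ℤ → ℤ → ℝ}, FS D → (∀ x y, D' x y ≠ 0 → D x y ≠ 0) → FS D' := by
    rintro D D' ⟨S, hS⟩ h
    exact ⟨S, fun x y hxy => hS x y (h x y hxy)⟩
  have hstep : ∀ w ∈ Wf, Tw (fun m p0 p1 p2 => Gd k k0 k1 k2 V m w p0 p1 p2 ∧
      ¬ GoodB R J c K α β γ s ε w m p0 p2) (A w) (B w)
      (fun z z' => pr σ (kw c K α β γ w z z')) (J.1 + 1) L1 l w ≤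
      Tw (fun m p0 p1 p2 => Gd k k0 k1 k2 V m w p0 p1 p2 ∧
      ¬ GoodB R J c K α β γ s ε w m p0 p2) (A' w) (B' w)
      (fun z z' => pr σ (kw c K α β γ w z z')) (J.1 + 1) L1 l w := by
    intro w _
    refine Tw_le hl fun m _ p0 p1 p2 hw hG _ => ⟨hG, ?_⟩
    refine Lb3r_congr fun z0 h0 z1 h1 z2 h2 => ?_
    have e1 : A' w z0 z1 = A w z0 z1 := by
      simp only [hA']
      rw [if_pos]
      exact rest_AV hG.1 hw hG.2 h0 h1
    have e2 : B' w z1 z2 = B w z1 z2 := by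
      simp only [hB']
      rw [if_pos]
      exact rest_BV hG.1 hw hG.2 h1 h2
    rw [e1, e2]
  refine (Finset.sum_le_sum hstep).trans ?_
  refine hmain l hl V J α β γ (X0 - 2 ^ (J.1 + 1))
    (X1 + 2 ^ (J.1 + 1)) (Y0 - 2 ^ (J.1 + 1)) (Y1 + 2 ^ (J.1 + 1))
    (fun w => AlR V α β γ w (X0 - 2 ^ (J.1 + 1))
      (X1 + 2 ^ (J.1 + 1)) (Y0 - 2 ^ (J.1 + 1)) (Y1 + 2 ^ (J.1 + 1))
      (Pw R J c K α β γ s ε w)) hV.reg h4.cof
    (fun w => alC_rest hV.reg h4.cof (lp_pw _ _ _ _ _ _ _ _ _ _)) A' B'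
    (fun w z z' => pr σ (kw c K α β γ w z z'))
    τ HA HB HC fa fb SA SB W1 (fun w => hfs (sA w) fun x y h => ?_)
    (fun w => hfs (sB w) fun x y h => ?_)
    (fun w => fs_of_box (fs_kw hc0 K _ _ _ σ w)) hτ hfa hfb (fun w x y => ?_) (fun w x y => ?_)
    (fun w x y => abs_kw_le hc1 hHC _ _ _ σ w x y) (fun w hw => ?_) (fun X Y => ?_) (fun X Y => ?_) ?_
    (fun w m p0 p1 p2 => Gd k k0 k1 k2 V m w p0 p1 p2 ∧
      ¬ GoodB R J c K α β γ s ε w m p0 p2) ?_ Wf L1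
  · intro h'
    apply h
    simp only [hA', h', ite_self]
  · intro h'
    apply h
    simp only [hB', h', ite_self]
  · simp only [hA']
    split_ifs
    · exact hA w x y
    · simpa using hHA
  · simp only [hB']
    split_ifs
    · exact hB w x y
    · simpa using hHB
  · rcases h0 w hw with h | h
    · left
      intro x y
      simp only [hA', h, ite_self]
    · right
      intro x y
      simp only [hB', h, ite_self]
  · refine le_trans (le_of_eq ?_) (eA X Y)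
    refine Finset.sum_congr rfl fun w _ => Finset.sum_congr rfl fun x _ =>
      Finset.sum_congr rfl fun y _ => ?_
    simp only [hA']
    split_ifs <;> simp
  · refine le_trans (le_of_eq ?_) (eB X Y)
    refine Finset.sum_congr rfl fun w _ => Finset.sum_congr rfl fun x _ =>
      Finset.sum_congr rfl fun y _ => ?_
    simp only [hB']
    split_ifs <;> simp
  · intro w m q p hal
    have := opZ_of_opB (N := 2 ^ m) (q := q) (p := p) (K := kw c K α β γ w) (c := τ * 2 ^ m) (by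
        push_cast
        exact hop w m q p hal.1.1) σ
    rw [mul_comm]
    exact this
  · rintro w m hm p0 p1 p2 ⟨hg, hbad⟩ hex
    exact al4_restV hm hg (mt_of_ex (fs_kw hc0 K _ _ _ σ w) hex) hbad

end Crest.Agent.R079.KLx446
end

-- ▼ part R079/GaIV_446
section

/-! R079, Step I, (G) words (helper446): REST WITH TWO REGIONS, `TA` form (copy of 256's `rest_gen`,
`restR` with 446's `rest_wordsV`, `rest_AB_logV`).  `V`, `R` full with the same top `J`; good boxes and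
exceptional density relative to `(R, J)`; admissible boxes and averages relative to `V`. -/

set_option autoImplicit false

namespace Crest.Agent.R079.GaVx446

open Finset Crest.Agent.R079.Grid Crest.Agent.R079.Glue Crest.Agent.R079.Growth
  Crest.Agent.R079.QRed Crest.Agent.R079.KLx446 Crest.Agent.R079.KLrx138
  Crest.Agent.R079.GaAx571 Crest.Agent.R079.GaBx571 Crest.Agent.R079.GaWx571
  Crest.Agent.R079.GaXx571 Crest.Agent.R079.GaFx371 Crest.Agent.R079.GlueK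
open Crest.Agent.R079.B0Kx253 (cutJ w_range log_price en_lk sup_lk)
open Crest.Agent.R079.GaIx256 (cM GdE ExE kw_lk cutJ_eq gdE_cut av_cut norm_cut_le ta_words8 sq_pr_le
  band_w card_w card_x norm_cM box_cM agr_cut fin_rest lk_kA lk_kB f3j f3i f3e f3f f3g norm_lk2)

open Classical in
/-- **THE REST, raw form**: killer edge `e`, weight `α` of the vertex `e + 2` -/
theorem rest_genV : ∃ K0 : ℝ, 0 ≤ K0 ∧ ∀ (bb : ℤ), bb = -1 ∨ bb = -7 → ∀ (j : Fin 4) (e : Fin 3)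
    (V R : Finset Nd) (J : Nd), Full V J → Full R J → ∀ (n : ℕ), 2 ^ J.1 ≤ n →
    ∀ (Ht Hf : ℝ) (T : Fin 3 → Finset ℤ) (g : Fin 3 → ℤ → ℤ → ℂ) (α : ℤ → ℝ), 1 ≤ Ht → 0 ≤ Hf →
    (∀ e', ∃ t : ℤ, T e' ⊆ Ico t (t + n)) → (∀ z z', ‖g e z z'‖ ≤ 1) → (∀ z, 0 ≤ α z) →
    (∀ z, α z ≤ Ht) → ∑ z ∈ T (e + 2), α z ≤ n →
    (∀ z z', ‖g (e + 1) z z'‖ ^ 2 ≤ Hf * α z') → (∀ z z', ‖g (e + 2) z z'‖ ^ 2 ≤ Hf * α z) →
    ∀ (F X Y : Fn) (s ε D Av HC HX HY AX AY d1 d2 : ℝ), 0 < ε → 0 ≤ D → 0 < Av →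
    (∀ p ∈ V, av p F ≤ Av) → (∀ y ∈ iv J, ‖F y‖ ≤ HC) → ExE j e R T g F s D →
    (∀ y ∈ iv J, ‖X y‖ ≤ HX) → (∀ y ∈ iv J, ‖Y y‖ ≤ HY) → (∀ p ∈ V, av p X ≤ AX) →
    (∀ p ∈ V, av p Y ≤ AY) → 0 < d1 → 0 < d2 →
    ∀ (K : Fin 3 → Kl), (∀ w z z', K e w z z' = lk j T g e F w z z') →
    (∀ w z z', K (e + 1) w z z' = lk j T g (e + 1) X w z z') →
    (∀ w z z', K (e + 2) w z z' = lk j T g (e + 2) Y w z z') → ∀ (L1 : ℕ),
    TA bb (cube L1) (J.1 + 1)
        (fun m p i => ¬ GdE j e R J T g F s ε bb m p i ∧ AdX V m (xv j bb m p)) K ≤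
      K0 * (1 + Real.log (1 + HC ^ 2 * (Hf * Ht * HX ^ 2 / d1 + Hf * Ht * HY ^ 2 / d2) / Av ^ 2)) *
        Av * (√(Hf * AX ^ 2 * (D / ε) * (1 + Real.log Ht) + d1) *
          √(Hf * AY ^ 2 * (D / ε) * (1 + Real.log Ht) + d2)) * (n ^ 2 * len J) := by
  obtain ⟨KK, hKK, hrest⟩ := rest_wordsV
  obtain ⟨C0, hC0, hAB⟩ := rest_AB_logV
  refine ⟨8 * (22480 * KK * (1 + 7 * C0)), by positivity, ?_⟩
  intro bb hbb j e V R J hV hR n hJn Ht Hf T g α hHt hHf hTI hg α0 αH α1 gA gB F X Y s ε D Av HC HX HY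
    AX AY d1 d2 hε hD0 hAv hF hHC hEx hX hY aX aY hd1 hd2 K hKe hK1 hK2 L1
  have hn1 : 1 ≤ n := le_trans Nat.one_le_two_pow hJn
  have hn : (0 : ℝ) < n := by exact_mod_cast hn1
  have hl : 0 < len J := Growth.len_pos J
  obtain ⟨w0, hw0⟩ := band_w (j := j) (e := e + 1) hJn hTI
  choose t ht using hTI
  have hG : 0 ≤ Hf * Ht := mul_nonneg hHf (by linarith)
  have hlog0 : 0 ≤ Real.log Ht := Real.log_nonneg hHt
  -- cut letters
  set F4 : Fin 4 → Fn := Function.update (fun _ => cutJ J Y) (j.succAbove e) (cutJ J X) with hF4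
  have f4e : F4 (j.succAbove e) = cutJ J X := Function.update_self _ _ _
  have f4e1 : F4 (j.succAbove (e + 1)) = cutJ J Y :=
    Function.update_of_ne (fun h => B0Kx253.ne1 e (Fin.succAbove_right_injective h)) _ _
  set K' : Fin 3 → Kl := fun i => if i = e then lk j T g e (cutJ J F) else
    if i = e + 1 then lk j T g (e + 1) (cutJ J X) else lk j T g (e + 2) (cutJ J Y) with hK'
  have k0 : K' e = lk j T g e (cutJ J F) := if_pos rfl
  have k1 : K' (e + 1) = lk j T g (e + 1) (cutJ J X) :=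
    (if_neg (B0Kx253.ne1 e)).trans (if_pos rfl)
  have k2 : K' (e + 2) = lk j T g (e + 2) (cutJ J Y) :=
    (if_neg (B0Kx253.ne2 e)).trans (if_neg (f3j e))
  have hagr : AgrS j V K K' := by
    intro q hq i w z z' hy
    rcases f3i e i with rfl | rfl | rfl
    · rw [k0, hKe]
      exact agr_cut hV hq hy
    · rw [k1, hK1]
      exact agr_cut hV hq hy
    · rw [k2, hK2]
      exact agr_cut hV hq hy
  rw [TA_agr hbb hagr (cube L1) (J.1 + 1) (fun n p v h => h.2)]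
  -- gauges
  have gA' : ∀ z z', ‖g (e + 1) z z'‖ ^ 2 ≤ Hf * Ht := fun z z' =>
    (gA z z').trans (mul_le_mul_of_nonneg_left (αH z') hHf)
  have gB' : ∀ z z', ‖g (e + 2) z z'‖ ^ 2 ≤ Hf * Ht := fun z z' =>
    (gB z z').trans (mul_le_mul_of_nonneg_left (αH z) hHf)
  set th : ℤ → ℝ := fun z => if z ∈ T (e + 2) then α z else 0 with hth
  have th0 : ∀ z, 0 ≤ th z := by
    intro z
    simp only [hth]
    split_ifs
    · exact α0 z
    · exact le_rfl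
  have thH : ∀ z, th z ≤ Ht := by
    intro z
    simp only [hth]
    split_ifs
    · exact αH z
    · linarith
  have ths : ∀ z, th z ≠ 0 → t (e + 2) ≤ z ∧ z < t (e + 2) + n := by
    intro z hz
    simp only [hth] at hz
    split_ifs at hz with h
    · exact Finset.mem_Ico.1 (ht _ h)
    · exact absurd rfl hz
  have thS : ∑ z ∈ Ico (t (e + 2)) (t (e + 2) + n), th z ≤ n := by
    simp only [hth]
    rw [← Finset.sum_filter]
    refine le_trans ?_ α1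
    refine Finset.sum_le_sum_of_subset_of_nonneg (fun z hz => (Finset.mem_filter.1 hz).2)
      fun z _ _ => α0 z
  set W1 : Finset ℤ := Icc (w0 - 140 * (n : ℤ)) (w0 + 140 * n) with hW1
  have hWI : W1 ⊆ Ico (w0 - 140 * (n : ℤ)) (w0 - 140 * n + (281 * n : ℕ)) := by
    intro w hw
    rw [hW1, Finset.mem_Icc] at hw
    rw [Finset.mem_Ico]
    have : (1 : ℤ) ≤ n := by exact_mod_cast hn1
    push_cast
    constructor <;> linarith [hw.1, hw.2]
  have hEx' : ExD R (cM T g e) (cutJ J F) (sl j - sl (j.succAbove (e + 2)))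
      (sl (j.succAbove e) - sl (j.succAbove (e + 2)))
      (sl (j.succAbove (e + 1)) - sl (j.succAbove (e + 2))) s D := GaIx256.exD_congr hR cutJ_eq hEx
  have hcof := (d4e j e).cof
  obtain ⟨enA, enB⟩ := hAB j (j.succAbove (e + 1)) (j.succAbove (e + 2)) (j.succAbove e) (d4e j e)
    V R J hV hR (cM T g e) (cutJ J F) s ε D hε hD0 hEx' th Ht Hf (t (e + 2)) n th0 hHt hHf thH ths F4
    (w0 - 140 * (n : ℤ)) (281 * n) W1 hWI
  -- size of the energies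
  have hvol : ((((281 * n : ℕ) : ℝ) + 2 ^ J.1) * 2 ^ J.1 *
      (∑ z ∈ Ico (t (e + 2)) (t (e + 2) + n), th z + n + 2 ^ J.1)) ≤ 7 * (n ^ 2 * len J) := by
    have h2J : (2 : ℝ) ^ J.1 ≤ n := by exact_mod_cast hJn
    have h0J : (0 : ℝ) < 2 ^ J.1 := by positivity
    have e1 : len J = 128 * 2 ^ J.1 := by
      unfold len
      rw [pow_add]
      norm_num
      ring
    have hS0 : 0 ≤ ∑ z ∈ Ico (t (e + 2)) (t (e + 2) + n), th z := Finset.sum_nonneg fun z _ => th0 z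
    push_cast
    calc (281 * (n : ℝ) + 2 ^ J.1) * 2 ^ J.1 *
        (∑ z ∈ Ico (t (e + 2)) (t (e + 2) + n), th z + n + 2 ^ J.1)
        ≤ (282 * n) * 2 ^ J.1 * (3 * n) := by
          refine mul_le_mul (mul_le_mul_of_nonneg_right (by linarith) h0J.le) (by linarith)
            (by positivity) (by positivity)
      _ ≤ 7 * (n ^ 2 * (128 * 2 ^ J.1)) := by nlinarith [mul_pos (mul_pos hn hn) h0J]
      _ = _ := by rw [e1]
  have hEn : ∀ A : ℝ, Hf * (C0 * A ^ 2 * (D / ε) * (1 + Real.log Ht) *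
      ((((281 * n : ℕ) : ℝ) + 2 ^ J.1) * 2 ^ J.1 *
      (∑ z ∈ Ico (t (e + 2)) (t (e + 2) + n), th z + n + 2 ^ J.1))) ≤
      n ^ 2 * ((7 * C0) * (Hf * A ^ 2 * (D / ε) * (1 + Real.log Ht)) * len J) := by
    intro A
    have h1 : 0 ≤ Hf * (C0 * A ^ 2 * (D / ε) * (1 + Real.log Ht)) := by positivity
    calc _ = Hf * (C0 * A ^ 2 * (D / ε) * (1 + Real.log Ht)) *
          ((((281 * n : ℕ) : ℝ) + 2 ^ J.1) * 2 ^ J.1 *
          (∑ z ∈ Ico (t (e + 2)) (t (e + 2) + n), th z + n + 2 ^ J.1)) := by ring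
      _ ≤ Hf * (C0 * A ^ 2 * (D / ε) * (1 + Real.log Ht)) * (7 * (n ^ 2 * len J)) :=
          mul_le_mul_of_nonneg_left hvol h1
      _ = _ := by ring
  have enA' : ∀ Xf Yf : Finset ℤ, ∑ w ∈ W1, ∑ x ∈ Xf, ∑ y ∈ Yf,
      (if RsPV V R J (cM T g e) (cutJ J F) (sl j - sl (j.succAbove (e + 2)))
        (sl (j.succAbove e) - sl (j.succAbove (e + 2)))
        (sl (j.succAbove (e + 1)) - sl (j.succAbove (e + 2))) s ε w (-w - x - y) x then
        ‖lk j T g (e + 1) (cutJ J X) w x y‖ ^ 2 else 0) ≤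
      n ^ 2 * ((7 * C0) * (Hf * AX ^ 2 * (D / ε) * (1 + Real.log Ht)) * len J) := by
    intro Xf Yf
    refine le_trans ?_ ((enA (T (e + 1)) (T (e + 2))
      (fun z0 z1 => if z1 ∈ T (e + 2) then g (e + 1) z0 z1 else 0) AX (fun z0 z1 => ?_)
      (fun p hp => by rw [f4e, av_cut (hV.reg.1 _ hp)]; exact aX p hp) Xf Yf).trans (hEn AX))
    · refine le_of_eq (Finset.sum_congr rfl fun w _ => Finset.sum_congr rfl fun x _ =>
        Finset.sum_congr rfl fun y _ => ?_)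
      rw [← f4e, lk_kA]
    · simp only [hth]
      split_ifs
      · exact gA z0 z1
      · simp
  have enB' : ∀ Xf Yf : Finset ℤ, ∑ w ∈ W1, ∑ x ∈ Xf, ∑ y ∈ Yf,
      (if RsPV V R J (cM T g e) (cutJ J F) (sl j - sl (j.succAbove (e + 2)))
        (sl (j.succAbove e) - sl (j.succAbove (e + 2)))
        (sl (j.succAbove (e + 1)) - sl (j.succAbove (e + 2))) s ε w y (-w - x - y) then
        ‖lk j T g (e + 2) (cutJ J Y) w x y‖ ^ 2 else 0) ≤
      n ^ 2 * ((7 * C0) * (Hf * AY ^ 2 * (D / ε) * (1 + Real.log Ht)) * len J) := by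
    intro Xf Yf
    refine le_trans ?_ ((enB (T (e + 2)) (T e)
      (fun z1 z2 => if z1 ∈ T (e + 2) then g (e + 2) z1 z2 else 0) AY (fun z1 z2 => ?_)
      (fun p hp => by rw [f4e1, av_cut (hV.reg.1 _ hp)]; exact aY p hp) Xf Yf).trans (hEn AY))
    · refine le_of_eq (Finset.sum_congr rfl fun w _ => Finset.sum_congr rfl fun x _ =>
        Finset.sum_congr rfl fun y _ => ?_)
      rw [← f4e1, lk_kB]
    · simp only [hth]
      split_ifs
      · exact gB z1 z2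
      · simp
  have main : TA bb (cube L1) (J.1 + 1)
      (fun m p i => ¬ GdE j e R J T g F s ε bb m p i ∧ AdX V m (xv j bb m p)) K' ≤
      8 * (KK * (1 + Real.log (1 + |HC| ^ 2 *
        (((Ico (t e - 2 ^ (J.1 + 1)) (t e + n + 2 ^ (J.1 + 1))).card : ℝ) * len J) *
        ((√(Hf * Ht) * |HX|) ^ 2 / (n * (d1 * len J) / 281) +
          (√(Hf * Ht) * |HY|) ^ 2 / (n * (d2 * len J) / 281)) / (16 * Av) ^ 2)) *
        ((16 * Av) * √(n ^ 2 * ((7 * C0) * (Hf * AX ^ 2 * (D / ε) * (1 + Real.log Ht)) * len J) +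
            W1.card * (n * (d1 * len J) / 281)) *
          √(n ^ 2 * ((7 * C0) * (Hf * AY ^ 2 * (D / ε) * (1 + Real.log Ht)) * len J) +
            W1.card * (n * (d2 * len J) / 281)))) := by
    refine ta_words8 hbb (J.1 + 1) L1 e
      (fun m w p0 p1 p2 => KLx446.Gd j (j.succAbove (e + 1)) (j.succAbove (e + 2)) (j.succAbove e)
        V m w p0 p1 p2 ∧ ¬ GoodB R J (cM T g e) (cutJ J F) (sl j - sl (j.succAbove (e + 2)))
        (sl (j.succAbove e) - sl (j.succAbove (e + 2)))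
        (sl (j.succAbove (e + 1)) - sl (j.succAbove (e + 2))) s ε w m p0 p2) _ K' ?_ ?_
    · rintro m hm p hp v hv ⟨hgd, had⟩ _
      exact ⟨GaXx571.gd_of_adX j e hbb hv had, fun h => hgd ((gdE_cut hR).2 h)⟩
    · intro l hl7 σ Wf
      rw [k0, k1, k2]
      have hk : ∀ w z z', lk j T g e (cutJ J F) w z z' = kw (cM T g e) (cutJ J F)
          (sl j - sl (j.succAbove (e + 2))) (sl (j.succAbove e) - sl (j.succAbove (e + 2)))
          (sl (j.succAbove (e + 1)) - sl (j.succAbove (e + 2))) w z z' :=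
        fun w z z' => (kw_lk j T g e (cutJ J F) w z z').symm
      simp only [hk]
      refine hrest l hl7 j (j.succAbove (e + 1)) (j.succAbove (e + 2)) (j.succAbove e) (d4e j e) V R J
        hV (cM T g e) (cutJ J F) (t e) (t e + n) (t (e + 1)) (t (e + 1) + n) (norm_cM hg)
        (box_cM ht) s ε (16 * Av) (by positivity) (fun w m q u hOm =>
          op_om hcof (fun p hp => by rw [av_cut (hV.reg.1 _ hp)]; exact hF p hp) (norm_cM hg) hOm)
        |HC| (norm_cut_le hHC) σ.2.2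
        (fun w z z' => pr σ.1 (lk j T g (e + 1) (cutJ J X) w z z'))
        (fun w z z' => pr σ.2.1 (lk j T g (e + 2) (cutJ J Y) w z z'))
        (√(Hf * Ht) * |HX|) (√(Hf * Ht) * |HY|) (n * (d1 * len J) / 281) (n * (d2 * len J) / 281)
        (n ^ 2 * ((7 * C0) * (Hf * AX ^ 2 * (D / ε) * (1 + Real.log Ht)) * len J))
        (n ^ 2 * ((7 * C0) * (Hf * AY ^ 2 * (D / ε) * (1 + Real.log Ht)) * len J)) W1
        (fun w => TwLx253.fs_of_mem (T := T (e + 1)) (T' := T (e + 1 + 1)) fun x y hxy => by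
          have h1 := sup_lk (j := j) (T := T) (g := g) (e := e + 1) (J := J) (F := X) (w := w)
            (x := x) (y := y) fun h0 => hxy (by
              simp only [h0]; unfold pr; split_ifs <;> simp)
          exact ⟨h1.1, h1.2.1⟩)
        (fun w => TwLx253.fs_of_mem (T := T (e + 2)) (T' := T (e + 2 + 1)) fun x y hxy => by
          have h1 := sup_lk (j := j) (T := T) (g := g) (e := e + 2) (J := J) (F := Y) (w := w)
            (x := x) (y := y) fun h0 => hxy (by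
              simp only [h0]; unfold pr; split_ifs <;> simp)
          exact ⟨h1.1, h1.2.1⟩)
        (by positivity) (by positivity)
        (fun w x y => (abs_pr_le _ _).trans (norm_lk2 gA' j hX w x y))
        (fun w x y => (abs_pr_le _ _).trans (norm_lk2 gB' j hY w x y))
        (fun w hw => Or.inl fun x y => by
          have h0 : lk j T g (e + 1) (cutJ J X) w x y = 0 := by
            by_contra hne
            obtain ⟨h1, h2, h3⟩ := sup_lk hne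
            exact hw (hw0 w x y h1 h2 h3)
          simp only [h0]; unfold pr; split_ifs <;> simp)
        (fun Xf Yf => le_trans (Finset.sum_le_sum fun w _ => Finset.sum_le_sum fun x _ =>
          Finset.sum_le_sum fun y _ => ?_) (enA' Xf Yf))
        (fun Xf Yf => le_trans (Finset.sum_le_sum fun w _ => Finset.sum_le_sum fun x _ =>
          Finset.sum_le_sum fun y _ => ?_) (enB' Xf Yf)) Wf L1
      · split_ifs
        · exact sq_pr_le _ _
        · exact le_rfl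
      · split_ifs
        · exact sq_pr_le _ _
        · exact le_rfl
  refine main.trans ?_
  have h1 := fin_rest (K0 := KK) (HC := |HC|) (l := len J) (HA := √(Hf * Ht) * |HX|)
    (HB := √(Hf * Ht) * |HY|) (C0 := 7 * C0)
    (E1 := Hf * AX ^ 2 * (D / ε) * (1 + Real.log Ht))
    (E2 := Hf * AY ^ 2 * (D / ε) * (1 + Real.log Ht)) hKK hn hl hAv hd1 hd2 (Nat.cast_nonneg _)
    (card_x hJn (t e)) (card_w hn1 w0) (by positivity) (by positivity) (by positivity)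
  have h2 := mul_le_mul_of_nonneg_left h1 (show (0 : ℝ) ≤ 8 by norm_num)
  refine h2.trans (le_of_eq ?_)
  rw [mul_pow, mul_pow, Real.sq_sqrt hG, sq_abs, sq_abs, sq_abs]
  ring

/-- **THE REST of an op-atom**: line letters `X = F (j.succAbove (v + 1))`,
`Y = F (j.succAbove (v + 2))`, killer letter `F (j.succAbove v)` -/
theorem restRV : ∃ K0 : ℝ, 0 ≤ K0 ∧ ∀ (bb : ℤ), bb = -1 ∨ bb = -7 → ∀ (j : Fin 4) (v : Fin 3)
    (V R : Finset Nd) (J : Nd), Full V J → Full R J → ∀ (n : ℕ), 2 ^ J.1 ≤ n →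
    ∀ (Ht Hf : ℝ) (T : Fin 3 → Finset ℤ) (g : Fin 3 → ℤ → ℤ → ℂ) (α : ℤ → ℝ), 1 ≤ Ht → 0 ≤ Hf →
    OpD v n Ht Hf T g α → (∀ e', ∃ t : ℤ, T e' ⊆ Ico t (t + n)) →
    ∀ (F : Fin 4 → Fn) (s ε D Av HC HX HY AX AY d1 d2 : ℝ), 0 < ε → 0 ≤ D → 0 < Av →
    (∀ p ∈ V, av p (F (j.succAbove v)) ≤ Av) → (∀ y ∈ iv J, ‖F (j.succAbove v) y‖ ≤ HC) →
    ExE j (v + 1) R T g (F (j.succAbove v)) s D →
    (∀ y ∈ iv J, ‖F (j.succAbove (v + 1)) y‖ ≤ HX) →
    (∀ y ∈ iv J, ‖F (j.succAbove (v + 2)) y‖ ≤ HY) →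
    (∀ p ∈ V, av p (F (j.succAbove (v + 1))) ≤ AX) →
    (∀ p ∈ V, av p (F (j.succAbove (v + 2))) ≤ AY) → 0 < d1 → 0 < d2 → ∀ (L1 : ℕ),
    TA bb (cube L1) (J.1 + 1)
        (fun m p i => ¬ GdE j (v + 1) R J T g (F (j.succAbove v)) s ε bb m p i ∧
          AdX V m (xv j bb m p)) (lks j T g F) ≤
      K0 * (1 + Real.log (1 + HC ^ 2 * (Hf * Ht * HX ^ 2 / d1 + Hf * Ht * HY ^ 2 / d2) / Av ^ 2)) *
        Av * (√(Hf * AX ^ 2 * (D / ε) * (1 + Real.log Ht) + d1) *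
          √(Hf * AY ^ 2 * (D / ε) * (1 + Real.log Ht) + d2)) * (n ^ 2 * len J) := by
  obtain ⟨K0, hK0, hmain⟩ := rest_genV
  refine ⟨K0, hK0, ?_⟩
  intro bb hbb j v V R J hV hR n hJn Ht Hf T g α hHt hHf hD hTI F s ε D Av HC HX HY AX AY d1 d2 hε hD0
    hAv hF hHC hEx hX hY aX aY hd1 hd2 L1
  refine hmain bb hbb j (v + 1) V R J hV hR n hJn Ht Hf T g α hHt hHf hTI hD.b1 hD.α0 hD.αH ?_ ?_ ?_
    (F (j.succAbove v)) (F (j.succAbove (v + 1))) (F (j.succAbove (v + 2))) s ε D Av HC HX HY AX AY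
    d1 d2 hε hD0 hAv hF hHC hEx hX hY aX aY hd1 hd2 (lks j T g F) ?_ ?_ ?_ L1
  · rw [f3e]
    exact hD.α1
  · intro z z'
    rw [f3f]
    exact hD.VH z' z
  · intro z z'
    rw [f3e]
    exact hD.UH z z'
  · intro w z z'
    unfold lks
    rw [f3e]
  · intro w z z'
    unfold lks
    rw [f3e (v + 1)]
  · intro w z z'
    unfold lks
    rw [f3e]

end Crest.Agent.R079.GaVx446
end

-- ▼ part R079/GaJ_256
section

/-! R079, Step I, (G) words (helper256): THE REST over the windows of index `≤ N` (second sum of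
`GaU_571.word_decomp`).

The windows of one stack are glued into one letter (`glue`), the boxes of different windows are
disjoint (`TA_disj`), so each stack costs one `restR` over the region `R`. -/

set_option autoImplicit false

namespace Crest.Agent.R079.GaJx256

open Finset Crest.Agent.R079.Grid Crest.Agent.R079.Glue Crest.Agent.R079.Growth
  Crest.Agent.R079.QRed
open Crest.Agent.R079.GaAx571 Crest.Agent.R079.GaBx571 Crest.Agent.R079.GaWx571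
  Crest.Agent.R079.GaXx571 Crest.Agent.R079.GaFx371 Crest.Agent.R079.GaUx571
  Crest.Agent.R079.GaIx256 Crest.Agent.R079.Stk Crest.Agent.R079.KLX279

/-! ### disjoint boxes -/


variable {R S : Finset Nd} {J : Nd} {W : Nd → Finset Nd} {C : ℝ}






/-! ### three edges -/

lemma g3a : ∀ v e e' : Fin 3, e ≠ e' → e ≠ v + 1 → e' ≠ v + 1 →
    (e + 2 = v + 1 ∧ e' + 2 = v + 2 ∧ v + 1 + 2 = v) ∨
    (e + 2 = v + 2 ∧ e' + 2 = v + 1 ∧ v + 1 + 2 = v) := by decide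

lemma slot_ne3 (j : Fin 4) (v : Fin 3) : j.succAbove v ≠ j.succAbove (v + 1) ∧
    j.succAbove v ≠ j.succAbove (v + 2) ∧ j.succAbove (v + 1) ≠ j.succAbove (v + 2) := by
  have h : ∀ a b : Fin 3, a ≠ b → j.succAbove a ≠ j.succAbove b := fun a b hab h' =>
    hab (Fin.succAbove_right_injective h')
  exact ⟨h _ _ (by revert v; decide), h _ _ (by revert v; decide), h _ _ (by revert v; decide)⟩


end Crest.Agent.R079.GaJx256
end

-- ▼ part R079/GaL_446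
section

/-! R079, Step I, (G) words (helper446): **HRst** of `GaR_571` from `restRV` (rest with two regions,
`V = Rk R S (k + 1)`), family of op-atoms; static and moving partner. -/

set_option autoImplicit false

namespace Crest.Agent.R079.GaLx446

open Finset Crest.Agent.R079.Grid Crest.Agent.R079.Glue Crest.Agent.R079.Growth
  Crest.Agent.R079.QRed
open Crest.Agent.R079.GaAx571 Crest.Agent.R079.GaBx571 Crest.Agent.R079.GaWx571
  Crest.Agent.R079.GaXx571 Crest.Agent.R079.GaFx371 Crest.Agent.R079.GaUx571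
  Crest.Agent.R079.GaIx256 Crest.Agent.R079.Stk Crest.Agent.R079.KLX279
  Crest.Agent.R079.GaRx571 Crest.Agent.R079.GaTx571 Crest.Agent.R079.GaVx446
  Crest.Agent.R079.GaJx256 Crest.Agent.R079.ThA159
open Crest.Agent.R079.RelW653 (NMP)
open Crest.Agent.R079.RelV653 (PenC)

/-- the price of one rest word -/
noncomputable def eRst (K0 Ht Hf D ε Av HC HX HY AX AY d1 d2 : ℝ) : ℝ :=
  K0 * (1 + Real.log (1 + HC ^ 2 * (Hf * Ht * HX ^ 2 / d1 + Hf * Ht * HY ^ 2 / d2) / Av ^ 2)) *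
    Av * (√(Hf * AX ^ 2 * (D / ε) * (1 + Real.log Ht) + d1) *
      √(Hf * AY ^ 2 * (D / ε) * (1 + Real.log Ht) + d2))

lemma eRst_nonneg {K0 Ht Hf D ε Av HC HX HY AX AY d1 d2 : ℝ} (hK0 : 0 ≤ K0) (hHt : 1 ≤ Ht)
    (hHf : 0 ≤ Hf) (hAv : 0 ≤ Av) (hd1 : 0 ≤ d1) (hd2 : 0 ≤ d2) :
    0 ≤ eRst K0 Ht Hf D ε Av HC HX HY AX AY d1 d2 := by
  unfold eRst
  have h1 : 0 ≤ HC ^ 2 * (Hf * Ht * HX ^ 2 / d1 + Hf * Ht * HY ^ 2 / d2) / Av ^ 2 := by positivity
  have h2 := Real.log_nonneg (show (1 : ℝ) ≤ 1 +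
    HC ^ 2 * (Hf * Ht * HX ^ 2 / d1 + Hf * Ht * HY ^ 2 / d2) / Av ^ 2 by linarith)
  positivity

/-- truncation does not increase averages -/
lemma av_tau_le {H : ℝ} (hH : 0 ≤ H) (p : Nd) (f : Fn) : av p (fun y => tau H (f y)) ≤ av p f := by
  have h1 : len p * av p (fun y => tau H (f y)) ^ 2 ≤ len p * av p f ^ 2 := by
    rw [← Growth.sum_av, ← Growth.sum_av]
    exact Finset.sum_le_sum fun y _ => pow_le_pow_left₀ (norm_nonneg _) (tau_le' hH (f y)) 2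
  exact (sq_le_sq₀ (Growth.av_nonneg _ _) (Growth.av_nonneg _ _)).1
    (le_of_mul_le_mul_left h1 (Growth.len_pos p))

/-- **REST WORDS OF THE STACKS**, any partner -/
theorem hrst : ∃ K0 : ℝ, 0 ≤ K0 ∧ ∀ (bb : ℤ), bb = -1 ∨ bb = -7 → ∀ (j : Fin 4) (v : Fin 3)
    (R : Finset Nd) (J : Nd), Full R J → ∀ (S : Finset Nd) (W : Nd → Finset Nd)
    (C : ℝ), TWin.Part R S W C → ∀ (n : ℕ), 2 ^ J.1 ≤ n → ∀ (Ht Hf : ℝ), 1 ≤ Ht → 0 ≤ Hf →
    ∀ (N : ℕ) (T : Fin N → Fin 3 → Finset ℤ) (g : Fin N → Fin 3 → ℤ → ℤ → ℂ) (θ : Fin N → ℤ → ℝ),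
    (∀ l, OpD v n Ht Hf (T l) (g l) (θ l)) → (∀ l e', ∃ t : ℤ, T l e' ⊆ Ico t (t + n)) →
    ∀ (F : Fin 4 → Fn) (Fm : Fn) (s ε D Av HC HX HY AX AY d1 d2 : ℝ),
    (∀ y ∈ iv J, F (j.succAbove v) y = Fm y) → 0 < ε → 0 ≤ D → 0 < Av →
    (∀ p ∈ R, av p Fm ≤ Av) → (∀ y ∈ iv J, ‖Fm y‖ ≤ HC) →
    (∀ l, ExE j (v + 1) R (T l) (g l) Fm s D) →
    ∀ (e e' : Fin 3), e ≠ e' → e ≠ v + 1 → e' ≠ v + 1 →
    ∀ (nn : ℕ) (f : Nd → Fn) (Yk : ℕ → Fn), 0 ≤ HX →
    (∀ k, 1 ≤ k → k ≤ nn → ∀ p ∈ Rk R S k, av p (TWin.gl (Rk R S k) f) ≤ AX) →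
    (∀ k, 1 ≤ k → k ≤ nn → ∀ y ∈ iv J, ‖Yk k y‖ ≤ HY) →
    (∀ k, 1 ≤ k → k ≤ nn → ∀ p ∈ Rk R S k, av p (Yk k) ≤ AY) → 0 < d1 → 0 < d2 → ∀ (L1 : ℕ),
    HRst j bb e e' T g J ((n : ℝ) ^ 2) F (cube L1) (J.1 + 1) R S nn
      (fun l m p i => GdE j (v + 1) R J (T l) (g l) Fm s ε bb m p i) HX f Yk
      (eRst K0 Ht Hf D ε Av HC HX HY AX AY d1 d2) := by
  classical
  obtain ⟨K0, hK0, hmain⟩ := restRV
  refine ⟨K0, hK0, ?_⟩
  intro bb hbb j v R J hR S W C hP n hJn Ht Hf hHt hHf N T g θ hD hTI F Fm s ε D Av HC HX HY AX AY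
    d1 d2 hFm hε hD0 hAv hF hHC hEx e e' hee he he' nn f Yk hHX aX hY aY hd1 hd2 L1 k hk l
  obtain ⟨s01, s02, s12⟩ := slot_ne3 j v
  set V := Rk R S (k + 1) with hV
  have hVF : Full V J := full_Rk hR hP (by omega)
  have hVR : V ⊆ R := fun p hp => (mem_Rk.1 hp).1
  set X : Fn := fun y => tau HX (TWin.gl V f y) with hXd
  set Y := Yk (k + 1) with hYd
  have gX : ∀ y, ‖X y‖ ≤ HX := fun y => tau_le hHX _
  have aX' : ∀ p ∈ V, av p X ≤ AX := fun p hp =>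
    (av_tau_le hHX p _).trans (aX (k + 1) (by omega) (by omega) p hp)
  have gY : ∀ y ∈ iv J, ‖Y y‖ ≤ HY := hY (k + 1) (by omega) (by omega)
  have aY' : ∀ p ∈ V, av p Y ≤ AY := aY (k + 1) (by omega) (by omega)
  -- letters
  set F' : Fin 4 → Fn := Function.update (Function.update (Function.update F (j.succAbove v) Fm)
    (j.succAbove (e' + 2)) Y) (j.succAbove (e + 2)) X with hF'
  have hne : j.succAbove (e + 2) ≠ j.succAbove (e' + 2) := slot_ne hee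
  have fe : F' (j.succAbove (e + 2)) = X := Function.update_self _ _ _
  have fe' : F' (j.succAbove (e' + 2)) = Y := by
    rw [hF', Function.update_of_ne hne.symm, Function.update_self]
  have fv : F' (j.succAbove v) = Fm := by
    rcases g3a v e e' hee he he' with ⟨h1, h2, h3⟩ | ⟨h1, h2, h3⟩
    · rw [hF', h1, h2, Function.update_of_ne s01, Function.update_of_ne s02,
        Function.update_self]
    · rw [hF', h1, h2, Function.update_of_ne s02, Function.update_of_ne s01,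
        Function.update_self]
  have step : TA bb (cube L1) (J.1 + 1)
      (fun m p i => ¬ GdE j (v + 1) R J (T l) (g l) Fm s ε bb m p i ∧ AdX V m (xv j bb m p))
      (KL j (T l) (g l) F e e' J X Y) = TA bb (cube L1) (J.1 + 1)
      (fun m p i => ¬ GdE j (v + 1) R J (T l) (g l) Fm s ε bb m p i ∧ AdX V m (xv j bb m p))
      (lks j (T l) (g l) F') := by
    refine TA_agr hbb (S := V) ?_ (cube L1) (J.1 + 1) (fun m p v h => h.2)
    intro q hq i w z z' hy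
    have hyJ : Ye j i w z z' ∈ iv J := hVF.reg.1 q hq hy
    unfold KL
    by_cases h1 : i = e
    · subst h1
      rw [Function.update_self]
      unfold lks
      rw [fe, lk_Ye, lk_Ye, cutJ_on hyJ]
    · rw [Function.update_of_ne h1]
      by_cases h2 : i = e'
      · subst h2
        rw [Function.update_self]
        unfold lks
        rw [fe', lk_Ye, lk_Ye, cutJ_on hyJ]
      · rw [Function.update_of_ne h2]
        have h3 : i = v + 1 := by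
          by_contra h3
          exact h2 (f3h v e e' i hee he he' h3 h1)
        subst h3
        unfold lks
        rw [f3e, fv, lk_Ye, lk_Ye]
        beta_reduce
        rw [cutJ_on hyJ, hFm _ hyJ]
  show TA bb (cube L1) (J.1 + 1)
      (fun m p i => ¬ GdE j (v + 1) R J (T l) (g l) Fm s ε bb m p i ∧ AdX V m (xv j bb m p))
      (KL j (T l) (g l) F e e' J X Y) ≤ _
  rw [step]
  have hFV : ∀ p ∈ V, av p Fm ≤ Av := fun p hp => hF p (hVR hp)
  rcases g3a v e e' hee he he' with ⟨h1, h2, h3⟩ | ⟨h1, h2, h3⟩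
  · rw [h1] at fe
    rw [h2] at fe'
    have main := hmain bb hbb j v V R J hVF hR n hJn Ht Hf (T l) (g l) (θ l) hHt hHf (hD l) (hTI l)
      F' s ε D Av HC HX HY AX AY d1 d2 hε hD0 hAv (by rw [fv]; exact hFV) (by rw [fv]; exact hHC)
      (by rw [fv]; exact hEx l) (by rw [fe]; exact fun y _ => gX y)
      (by rw [fe']; exact gY) (by rw [fe]; exact aX') (by rw [fe']; exact aY') hd1 hd2 L1
    rw [fv] at main
    refine main.trans (le_of_eq ?_)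
    unfold eRst
    ring
  · rw [h1] at fe
    rw [h2] at fe'
    have main := hmain bb hbb j v V R J hVF hR n hJn Ht Hf (T l) (g l) (θ l) hHt hHf (hD l) (hTI l)
      F' s ε D Av HC HY HX AY AX d2 d1 hε hD0 hAv (by rw [fv]; exact hFV) (by rw [fv]; exact hHC)
      (by rw [fv]; exact hEx l) (by rw [fe']; exact gY)
      (by rw [fe]; exact fun y _ => gX y) (by rw [fe']; exact aY') (by rw [fe]; exact aX') hd2 hd1 L1
    rw [fv] at main
    refine main.trans (le_of_eq ?_)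
    unfold eRst
    rw [add_comm (Hf * Ht * HY ^ 2 / d2),
      mul_comm (√(Hf * AY ^ 2 * (D / ε) * (1 + Real.log Ht) + d2))]
    ring

/-! ### averages of the glued letters -/

section nmp

variable {I' : Type*} [Fintype I'] {Ω : I' → Type*} {Bd : ∀ i, Nd → Finset (Ω i)}
  {pos : ∀ i, Ω i → ℤ} {Nn : ∀ i, Nd → (Ω i → ℂ) → ℝ} {ν : I' → ℝ} {a : ∀ i, Ω i → ℂ}
  {r : I' → ℝ} {κ : I' → ℝ} {X : Fn} {η : ℝ} {f : Nd → Fn}

/-- averages of the glued near-minimisers on the stacks -/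
lemma av_gl_stack (hP : PenC 0 (fun _ _ => True) (ThF Bd pos Nn ν a r κ))
    (h : NMP (fun _ _ => True) (ThF Bd pos Nn ν a r κ) X η f) {R S : Finset Nd} {J : Nd}
    {W : Nd → Finset Nd} {C : ℝ} (hR : Full R J) (hPt : TWin.Part R S W C) {A AX : ℝ}
    (hA : ∀ p ∈ R, av p X ≤ A) (hAX : √(2 * A ^ 2 + 4 * η) ≤ AX) {k : ℕ} (hk : 1 ≤ k) {p : Nd}
    (hp : p ∈ Rk R S k) : av p (TWin.gl (Rk R S k) f) ≤ AX := by
  have h1 := FLDx263.av_gl_le hP h (full_Rk hR hPt hk) hp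
  have h2 : av p X ^ 2 ≤ A ^ 2 :=
    pow_le_pow_left₀ (Growth.av_nonneg _ _) (hA p (mem_Rk.1 hp).1) 2
  refine le_trans (Real.le_sqrt_of_sq_le ?_) hAX
  linarith

end nmp

/-! ### the common instance `Fam` / `PhiE` -/

open Crest.Agent.R079.GaDx571 Crest.Agent.R079.PFx263 in
/-- **HRst, STATIC PARTNER** -/
theorem hrst_static : ∃ K0 : ℝ, 0 ≤ K0 ∧ ∀ (bb : ℤ), bb = -1 ∨ bb = -7 → ∀ (i m : Fin 4) (v : Fin 3)
    (I : Nd) (Ht Hf La : ℝ) (N : ℕ) (f0 : Fn) (T : Fin N → Fin 3 → Finset ℤ)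
    (g : Fin N → Fin 3 → ℤ → ℤ → ℂ) (θ : Fin N → ℤ → ℝ) (μ : Fin N → ℝ),
    Fam i m v I Ht Hf La N f0 T g θ μ → 1 ≤ Ht → 0 ≤ Hf → 0 < La →
    ∀ (R : Finset Nd) (J : Nd), Full R J → iv J ⊆ iv I → ∀ (S : Finset Nd) (W : Nd → Finset Nd)
    (C : ℝ), TWin.Part R S W C →
    ∀ (F : Fin 4 → Fn) (Fm : Fn) (s ε D Av HC HX HY AX AY d1 d2 : ℝ),
    (∀ y ∈ iv J, F m y = Fm y) → 0 < ε → 0 ≤ D → 0 < Av →
    (∀ p ∈ R, av p Fm ≤ Av) → (∀ y ∈ iv J, ‖Fm y‖ ≤ HC) →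
    (∀ l, ExE i (v + 1) R (T l) (g l) Fm s D) →
    ∀ (e e' : Fin 3), e ≠ e' → e ≠ v + 1 → e' ≠ v + 1 →
    ∀ (nn : ℕ) (kap : ℝ) (kc Kl : ℕ) (r : ℕ → ℝ) (X : Fn) (η A : ℝ) (f : Nd → Fn), 0 ≤ kap →
    (∀ q, 0 ≤ r q) → NMP (fun _ _ => True) (PhiE i e T g μ I La kap kc Kl r) X η f →
    (∀ p ∈ R, av p X ≤ A) → √(2 * A ^ 2 + 4 * η) ≤ AX → 0 ≤ HX →
    ∀ (Y : Fn), (∀ y ∈ iv J, ‖Y y‖ ≤ HY) → (∀ p ∈ R, av p Y ≤ AY) → 0 < d1 → 0 < d2 →
    ∀ (L1 : ℕ), HRst i bb e e' T g J ((sd I : ℝ) ^ 2) F (cube L1) (J.1 + 1) R S nn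
      (fun l m p k => GdE i (v + 1) R J (T l) (g l) Fm s ε bb m p k) HX f (fun _ => Y)
      (eRst K0 Ht Hf D ε Av HC HX HY AX AY d1 d2) := by
  obtain ⟨K0, hK0, hmain⟩ := hrst
  refine ⟨K0, hK0, ?_⟩
  intro bb hbb i m v I Ht Hf La N f0 T g θ μ hFam hHt hHf hLa R J hR hJI S W C hP F Fm s ε D Av HC HX
    HY AX AY d1 d2 hFm hε hD0 hAv hF hHC hEx e e' hee he he' nn kap kc Kl r X η A f hkap hr hf hA hAX
    hHX Y hY aY hd1 hd2 L1
  have hvm := hFam.vm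
  subst hvm
  have hJn : 2 ^ J.1 ≤ sd I := Nat.pow_le_pow_right (by norm_num) (Growth.iv_level hJI)
  have hpen := penPhi hFam e hkap hLa kc Kl hr
  refine hmain bb hbb i v R J hR S W C hP (sd I) hJn Ht Hf hHt hHf N T g θ hFam.opD
    (fun l e' => ?_) F Fm s ε D Av HC HX HY AX AY d1 d2 hFm hε hD0 hAv hF hHC hEx e e' hee he he' nn
    f (fun _ => Y) hHX (fun k hk _ p hp => ?_) (fun _ _ _ => hY)
    (fun k _ _ p hp => aY p (mem_Rk.1 hp).1) hd1 hd2 L1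
  · obtain ⟨a, ha⟩ := hFam.ico l
    exact ⟨a e', by rw [ha e']; exact Finset.Subset.refl _⟩
  · rw [phi_eq] at hpen hf
    exact av_gl_stack hpen hf hR hP hA hAX hk hp

open Crest.Agent.R079.GaDx571 Crest.Agent.R079.PFx263 in
/-- **HRst, MOVING PARTNER**: truncated glued letter of the functional of the other slot -/
theorem hrst_moving : ∃ K0 : ℝ, 0 ≤ K0 ∧ ∀ (bb : ℤ), bb = -1 ∨ bb = -7 → ∀ (i m : Fin 4) (v : Fin 3)
    (I : Nd) (Ht Hf La : ℝ) (N : ℕ) (f0 : Fn) (T : Fin N → Fin 3 → Finset ℤ)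
    (g : Fin N → Fin 3 → ℤ → ℤ → ℂ) (θ : Fin N → ℤ → ℝ) (μ : Fin N → ℝ),
    Fam i m v I Ht Hf La N f0 T g θ μ → 1 ≤ Ht → 0 ≤ Hf → 0 < La →
    ∀ (R : Finset Nd) (J : Nd), Full R J → iv J ⊆ iv I → ∀ (S : Finset Nd) (W : Nd → Finset Nd)
    (C : ℝ), TWin.Part R S W C →
    ∀ (F : Fin 4 → Fn) (Fm : Fn) (s ε D Av HC HX HY AX AY d1 d2 : ℝ),
    (∀ y ∈ iv J, F m y = Fm y) → 0 < ε → 0 ≤ D → 0 < Av →
    (∀ p ∈ R, av p Fm ≤ Av) → (∀ y ∈ iv J, ‖Fm y‖ ≤ HC) →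
    (∀ l, ExE i (v + 1) R (T l) (g l) Fm s D) →
    ∀ (e e' : Fin 3), e ≠ e' → e ≠ v + 1 → e' ≠ v + 1 →
    ∀ (nn : ℕ) (kap : ℝ) (kc Kl : ℕ) (r : ℕ → ℝ) (X : Fn) (η A : ℝ) (f : Nd → Fn), 0 ≤ kap →
    (∀ q, 0 ≤ r q) → NMP (fun _ _ => True) (PhiE i e T g μ I La kap kc Kl r) X η f →
    (∀ p ∈ R, av p X ≤ A) → √(2 * A ^ 2 + 4 * η) ≤ AX → 0 ≤ HX →
    ∀ (kap' : ℝ) (kc' Kl' : ℕ) (r' : ℕ → ℝ) (X' : Fn) (η' A' : ℝ) (f' : Nd → Fn), 0 ≤ kap' →
    (∀ q, 0 ≤ r' q) → NMP (fun _ _ => True) (PhiE i e' T g μ I La kap' kc' Kl' r') X' η' f' →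
    (∀ p ∈ R, av p X' ≤ A') → √(2 * A' ^ 2 + 4 * η') ≤ AY → 0 ≤ HY → 0 < d1 → 0 < d2 →
    ∀ (L1 : ℕ), HRst i bb e e' T g J ((sd I : ℝ) ^ 2) F (cube L1) (J.1 + 1) R S nn
      (fun l m p k => GdE i (v + 1) R J (T l) (g l) Fm s ε bb m p k) HX f
      (fun k y => tau HY (TWin.gl (Rk R S k) f' y))
      (eRst K0 Ht Hf D ε Av HC HX HY AX AY d1 d2) := by
  obtain ⟨K0, hK0, hmain⟩ := hrst
  refine ⟨K0, hK0, ?_⟩
  intro bb hbb i m v I Ht Hf La N f0 T g θ μ hFam hHt hHf hLa R J hR hJI S W C hP F Fm s ε D Av HC HX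
    HY AX AY d1 d2 hFm hε hD0 hAv hF hHC hEx e e' hee he he' nn kap kc Kl r X η A f hkap hr hf hA hAX
    hHX kap' kc' Kl' r' X' η' A' f' hkap' hr' hf' hA' hAY hHY hd1 hd2 L1
  have hvm := hFam.vm
  subst hvm
  have hJn : 2 ^ J.1 ≤ sd I := Nat.pow_le_pow_right (by norm_num) (Growth.iv_level hJI)
  have hpen := penPhi hFam e hkap hLa kc Kl hr
  have hpen' := penPhi hFam e' hkap' hLa kc' Kl' hr'
  refine hmain bb hbb i v R J hR S W C hP (sd I) hJn Ht Hf hHt hHf N T g θ hFam.opD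
    (fun l e' => ?_) F Fm s ε D Av HC HX HY AX AY d1 d2 hFm hε hD0 hAv hF hHC hEx e e' hee he he' nn
    f (fun k y => tau HY (TWin.gl (Rk R S k) f' y)) hHX (fun k hk _ p hp => ?_)
    (fun _ _ _ y _ => tau_le hHY _) (fun k hk _ p hp => ?_) hd1 hd2 L1
  · obtain ⟨a, ha⟩ := hFam.ico l
    exact ⟨a e', by rw [ha e']; exact Finset.Subset.refl _⟩
  · rw [phi_eq] at hpen hf
    exact av_gl_stack hpen hf hR hP hA hAX hk hp
  · rw [phi_eq] at hpen' hf'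
    exact (av_tau_le hHY p _).trans (av_gl_stack hpen' hf' hR hP hA' hAY hk hp)

end Crest.Agent.R079.GaLx446
end

-- ▼ part R079/B0L_253
section

/-! R079, Step I, (G) words (helper253): `B0K_253.b0_line` in the LITERAL form of 571's per-window
hypothesis (msg 7208): operator bound (BT) of the killer on the boxes of the window, sup bound of the
killer, kernels by `Function.update` of `lks`, letters not cut, any number `M` of levels. -/

set_option autoImplicit false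

namespace Crest.Agent.R079.B0Lx253

open Finset Crest.Agent.R079.Grid Crest.Agent.R079.Glue Crest.Agent.R079.Growth
  Crest.Agent.R079.QRed Crest.Agent.R079.KLx446
  Crest.Agent.R079.GaAx571 Crest.Agent.R079.GaBx571 Crest.Agent.R079.GaWx571
  Crest.Agent.R079.GaXx571
  Crest.Agent.R079.TaKx253 Crest.Agent.R079.TwEx253 Crest.Agent.R079.GaFx371
  Crest.Agent.R079.B0Kx253

/-- only the levels `≤ K.1` count -/
lemma TA_M {bb : ℤ} {j : Fin 4} {W : Finset Nd} {K : Nd} (hW : IsRegion W K) (P : Finset (ℤ × ℤ × ℤ))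
    (M : ℕ) (Gd : ℕ → ℤ × ℤ × ℤ → ℕ → Prop) (hG : ∀ n p v, Gd n p v → AdX W n (xv j bb n p))
    (Kk : Fin 3 → Kl) :
    TA bb P M Gd Kk ≤ TA bb P (K.1 + 1) (fun n p _ => AdX W n (xv j bb n p)) Kk := by
  classical
  have h1 : TA bb P M Gd Kk ≤ TA bb P M (fun n p _ => AdX W n (xv j bb n p)) Kk :=
    TA_mono bb P M Kk fun n _ p _ v _ h _ => hG n p v h
  refine h1.trans ?_
  unfold TA
  have h0 : ∀ n, 0 ≤ ∑ p ∈ P, ∑ v ∈ range (2 ^ n + 2 ^ n),
      (if AdX W n (xv j bb n p) then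
        (1 / (((2 ^ n : ℕ) : ℝ) + ((2 ^ n : ℕ) : ℝ))) * ‖bxf bb Kk n p v‖ else 0) := by
    intro n
    refine Finset.sum_nonneg fun p _ => Finset.sum_nonneg fun v _ => ?_
    split_ifs
    · positivity
    · exact le_rfl
  have hz : ∀ n, n ∉ range (K.1 + 1) → ∑ p ∈ P, ∑ v ∈ range (2 ^ n + 2 ^ n),
      (if AdX W n (xv j bb n p) then
        (1 / (((2 ^ n : ℕ) : ℝ) + ((2 ^ n : ℕ) : ℝ))) * ‖bxf bb Kk n p v‖ else 0) = 0 := by
    intro n hn
    refine Finset.sum_eq_zero fun p _ => Finset.sum_eq_zero fun v _ => if_neg ?_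
    rintro ⟨q, hq, hqn, _⟩
    have := Glue.level_le W K hW q hq
    exact hn (Finset.mem_range.2 (by omega))
  calc ∑ n ∈ range M, _ = ∑ n ∈ range M ∩ range (K.1 + 1), _ :=
        (Finset.sum_subset Finset.inter_subset_left fun n hn hn' =>
          hz n fun h => hn' (Finset.mem_inter.2 ⟨hn, h⟩)).symm
    _ ≤ _ := Finset.sum_le_sum_of_subset_of_nonneg Finset.inter_subset_right fun n _ _ => h0 n

lemma third_ne (e e' e'' : Fin 3) (h1 : e ≠ e') (h2 : e'' ≠ e) (h3 : e'' ≠ e') (i : Fin 3) :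
    i = e ∨ i = e' ∨ i = e'' := by
  revert e e' e'' i; decide

lemma rot_cases (e e' e'' : Fin 3) (h1 : e ≠ e') (h2 : e'' ≠ e) (h3 : e'' ≠ e') :
    (e + 1 = e' ∧ e + 2 = e'') ∨ (e + 1 = e'' ∧ e + 2 = e') := by
  revert e e' e''; decide

/-- **THE KILLER WORD OF ONE WINDOW, literal form**: killer `C` on the edge `e`, line letter `y` on the
edge `e'`, line letter `F (j.succAbove (e'' + 2))` on the third edge `e''`. -/
theorem b0_win : ∃ K0 : ℝ, 0 ≤ K0 ∧ ∀ (bb : ℤ), bb = -1 ∨ bb = -7 → ∀ (j : Fin 4) (e e' e'' v : Fin 3),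
    e ≠ e' → e'' ≠ e → e'' ≠ e' →
    ∀ (W : Finset Nd) (K : Nd), IsRegion W K → ∀ (n : ℕ), 2 ^ K.1 ≤ n →
    ∀ (Ht Hf : ℝ) (T : Fin 3 → Finset ℤ) (g : Fin 3 → ℤ → ℤ → ℂ) (α : ℤ → ℝ), 0 ≤ Hf →
    OpD v n Ht Hf T g α → (∀ e', ∃ t : ℤ, T e' ⊆ Ico t (t + n)) →
    ∀ (C : Kl) (F : Fin 4 → Fn) (y : Fn) (c0 τ H dl : ℝ), 0 < τ → 0 ≤ H → 0 < dl →
    (∀ w x z, C w x z ≠ 0 → x ∈ T e ∧ z ∈ T (e + 1) ∧ Ye j e w x z ∈ iv K) →
    (∀ w x z, ‖C w x z‖ ≤ c0) →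
    (∀ x ∈ iv K, ‖y x‖ ≤ H) → (∀ x ∈ iv K, ‖F (j.succAbove (e'' + 2)) x‖ ≤ H) →
    (∀ (w : ℤ) (m : ℕ) (q u : ℤ), m ≤ K.1 → (∀ z ∈ Ico q (q + 2 ^ m), ∀ z' ∈ Ico u (u + 2 ^ m),
      ((m, Ye j e w z z' / 2 ^ (m + 7)) : Nd) ∈ W) →
      ClW59.OpS (Ico q (q + 2 ^ m)) (Ico u (u + 2 ^ m)) (C w) (2 ^ m * τ)) →
    ∀ (L1 M : ℕ) (Gd : ℕ → ℤ × ℤ × ℤ → ℕ → Prop),
    (∀ n p v, Gd n p v → AdX W n (xv j bb n p)) →
    TA bb (cube L1) M Gd
      (Function.update (Function.update (lks j T g F) e' (lk j T g e' y)) e C) ≤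
      K0 * (1 + Real.log (1 + c0 ^ 2 * (2 * (max 1 (√(Hf * Ht)) * H) ^ 2) / (dl * τ ^ 2))) *
        (τ * (n ^ 2 * len K * ((av K y + √dl) * (av K (F (j.succAbove (e'' + 2))) + √dl)))) := by
  obtain ⟨K0, hK0, hK⟩ := b0_line
  refine ⟨K0, hK0, ?_⟩
  intro bb hbb j e e' e'' v hee h2 h3 W K hW n hn Ht Hf T g α hHf hD hTI C F y c0 τ H dl hτ hH hdl
    sC hsup hy hF hop L1 M Gd hGd
  classical
  set FF : Fin 3 → Fn := fun i => if i = e' then y else F (j.succAbove (e'' + 2)) with hFF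
  have hFF1 : FF e' = y := by rw [hFF]; exact if_pos rfl
  have hFF2 : FF e'' = F (j.succAbove (e'' + 2)) := by rw [hFF]; exact if_neg h3
  -- cutting the letters changes nothing
  have hagr : AgrS j W (Function.update (Function.update (lks j T g F) e' (lk j T g e' y)) e C)
      (kk j T g K e C FF) := by
    intro q hq i w z z' hYe
    have hin : Ye j i w z z' ∈ iv K := (hW.1 q hq) hYe
    rcases third_ne e e' e'' hee h2 h3 i with rfl | rfl | rfl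
    · rw [Function.update_self]
      unfold kk
      rw [if_pos rfl]
    · rw [Function.update_of_ne (Ne.symm hee), Function.update_self]
      unfold kk
      rw [if_neg (Ne.symm hee), lk_Ye, lk_Ye, hFF1]
      unfold cutJ
      rw [if_pos hin]
    · rw [Function.update_of_ne h2, Function.update_of_ne h3]
      unfold kk lks
      rw [if_neg h2, lk_Ye, lk_Ye, hFF2]
      unfold cutJ
      rw [if_pos hin]
  have hc0 : 0 ≤ c0 := (norm_nonneg _).trans (hsup 0 0 0)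
  have main := hK bb hbb j e v W K hW n hn Ht Hf T g α hHf hD hTI C FF τ H (c0 ^ 2) dl hτ hH
    (sq_nonneg _) hdl sC
    (by
      intro i x hx
      by_cases hi : i = e'
      · rw [hi, hFF1]; exact hy x hx
      · have e1 : FF i = F (j.succAbove (e'' + 2)) := by rw [hFF]; exact if_neg hi
        rw [e1]; exact hF x hx)
    (by
      intro w m q p _
      calc ∑ x ∈ Ico q (q + (2 : ℤ) ^ m), ∑ z ∈ Ico p (p + (2 : ℤ) ^ m), ‖C w x z‖ ^ 2
          ≤ ∑ _x ∈ Ico q (q + (2 : ℤ) ^ m), ∑ _z ∈ Ico p (p + (2 : ℤ) ^ m), c0 ^ 2 :=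
            Finset.sum_le_sum fun x _ => Finset.sum_le_sum fun z _ =>
              pow_le_pow_left₀ (norm_nonneg _) (hsup w x z) 2
        _ = 4 ^ m * c0 ^ 2 := by
            rw [Finset.sum_const, Finset.sum_const, Int.card_Ico, Int.card_Ico]
            have e1 : (q + (2 : ℤ) ^ m - q).toNat = 2 ^ m := by
              have : q + (2 : ℤ) ^ m - q = ((2 ^ m : ℕ) : ℤ) := by push_cast; ring
              rw [this, Int.toNat_natCast]
            have e2 : (p + (2 : ℤ) ^ m - p).toNat = 2 ^ m := by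
              have : p + (2 : ℤ) ^ m - p = ((2 ^ m : ℕ) : ℤ) := by push_cast; ring
              rw [this, Int.toNat_natCast]
            rw [e1, e2, nsmul_eq_mul, nsmul_eq_mul]
            push_cast
            have e3 : (4 : ℝ) ^ m = 2 ^ m * 2 ^ m := by
              rw [← mul_pow]; norm_num
            rw [e3]
            ring)
    (by
      intro w m q p h
      have hm : m ≤ K.1 := by
        have h0 := h q (Finset.mem_Ico.2 ⟨le_rfl, by linarith [pow_pos (show (0 : ℤ) < 2 by norm_num) m]⟩)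
          p (Finset.mem_Ico.2 ⟨le_rfl, by linarith [pow_pos (show (0 : ℤ) < 2 by norm_num) m]⟩)
        rw [mem_Rm] at h0
        exact Glue.level_le W K hW _ h0
      have h1 := hop w m q p hm (by
        intro z hz z' hz'
        have h0 := h z hz z' hz'
        rw [mem_Rm] at h0
        exact h0)
      have h2 := TwLx253.opB_of_opS h1
      have e1 : (((2 ^ m : ℕ)) : ℤ) = 2 ^ m := by push_cast; rfl
      rw [e1]
      exact h2) L1
  have hTA := TA_agr hbb hagr (cube L1) M (Gd := Gd) hGd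
  rw [hTA]
  refine (TA_M hW (cube L1) M Gd hGd _).trans ?_
  refine main.trans (le_of_eq ?_)
  rcases rot_cases e e' e'' hee h2 h3 with ⟨r1, r2⟩ | ⟨r1, r2⟩
  · rw [r1, r2, hFF1, hFF2]
  · rw [r1, r2, hFF1, hFF2, mul_comm (av K y + √dl)]

end Crest.Agent.R079.B0Lx253
end

-- ▼ part R079/B0M_253
section

/-! R079, Step I, (G) words (helper253): the KILLER PART of `GaU_571.word_decomp` (kernels `KB`).

* `b0_KB`  : one window, one atom, from (BT) = operator bound of `ker (Bd K) (Btk ..)`;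
* `b0_sum` : sum over the windows and the atoms of a family. -/

set_option autoImplicit false

namespace Crest.Agent.R079.B0Mx253

open Finset Crest.Agent.R079.Grid Crest.Agent.R079.Glue Crest.Agent.R079.Growth
  Crest.Agent.R079.QRed Crest.Agent.R079.KLx446
open Crest.Agent.R079.GaAx571 Crest.Agent.R079.GaBx571 Crest.Agent.R079.GaWx571
  Crest.Agent.R079.GaXx571 Crest.Agent.R079.GaTx571 Crest.Agent.R079.GaUx571
  Crest.Agent.R079.GaFx371 Crest.Agent.R079.KLX279 Crest.Agent.R079.B0Lx253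

lemma av_cut (K : Nd) (F : Fn) : av K (cutJ K F) = av K F := by
  have h : ∑ y ∈ iv K, ‖cutJ K F y‖ ^ 2 = ∑ y ∈ iv K, ‖F y‖ ^ 2 := by
    refine Finset.sum_congr rfl fun y hy => ?_
    unfold cutJ
    rw [if_pos hy]
  have h1 := Growth.sum_av K (cutJ K F)
  have h2 := Growth.sum_av K F
  rw [h] at h1
  have h3 : av K (cutJ K F) ^ 2 = av K F ^ 2 :=
    mul_left_cancel₀ (Growth.len_pos K).ne' (by rw [← h1, ← h2])
  exact (sq_eq_sq₀ (Growth.av_nonneg _ _) (Growth.av_nonneg _ _)).1 h3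

lemma norm_cut {K : Nd} {F : Fn} {H : ℝ} (h : ∀ x ∈ iv K, ‖F x‖ ≤ H) :
    ∀ x ∈ iv K, ‖cutJ K F x‖ ≤ H := by
  intro x hx
  unfold cutJ
  rw [if_pos hx]
  exact h x hx

/-- sup bound of the killer kernel -/
lemma btk_sup {Ω : Type*} {Bd : Nd → Finset Ω} {pos : Ω → ℤ} {N : Nd → (Ω → ℂ) → ℝ} {a : Ω → ℂ}
    {r H1 h0 A : ℝ} {W : Finset Nd} {K : Nd} {f : Nd → Fn} (hH1 : 0 ≤ H1) (hh0 : 0 ≤ h0) {ω : Ω}
    (ha : ‖a ω‖ ≤ A) : ‖Btk Bd pos N a r H1 h0 W K f ω‖ ≤ A * H1 + h0 := by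
  unfold Btk
  refine (norm_sub_le _ _).trans (add_le_add ?_ (tau_le hh0 _))
  rw [norm_mul]
  exact mul_le_mul ha (tau_le hH1 _) (norm_nonneg _) ((norm_nonneg _).trans ha)

/-- **ONE WINDOW, ONE ATOM** -/
theorem b0_KB : ∃ K0 : ℝ, 0 ≤ K0 ∧ ∀ (bb : ℤ), bb = -1 ∨ bb = -7 → ∀ (j : Fin 4) (e e' e'' v : Fin 3),
    e ≠ e' → e'' ≠ e → e'' ≠ e' →
    ∀ (W : Finset Nd) (K : Nd), IsRegion W K → ∀ (n : ℕ), 2 ^ K.1 ≤ n →
    ∀ (Ht Hf : ℝ) (T : Fin 3 → Finset ℤ) (g : Fin 3 → ℤ → ℤ → ℂ) (α : ℤ → ℝ), 0 ≤ Hf →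
    OpD v n Ht Hf T g α → (∀ i, ∃ t : ℤ, T i ⊆ Ico t (t + n)) →
    ∀ (F : Fin 4 → Fn) (Bd : Nd → Finset (ℤ × ℤ × ℤ)) (pos : ℤ × ℤ × ℤ → ℤ)
      (N : Nd → (ℤ × ℤ × ℤ → ℂ) → ℝ) (a : ℤ × ℤ × ℤ → ℂ) (r H1 h0 : ℝ) (f : Nd → Fn) (Y : Fn)
      (τ H dl : ℝ), 0 ≤ H1 → 0 ≤ h0 → 0 < τ → 0 ≤ H → 0 < dl →
    (∀ w z z', (w, z, z') ∈ Bd K → z ∈ T e ∧ z' ∈ T (e + 1) ∧ Ye j e w z z' ∈ iv K) →
    (∀ w z z', a (w, z, z') = g e z z') →
    (∀ x ∈ iv K, ‖Y x‖ ≤ H) → (∀ x ∈ iv K, ‖F (j.succAbove (e'' + 2)) x‖ ≤ H) →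
    (∀ (w : ℤ) (m : ℕ) (q u : ℤ), m ≤ K.1 → (∀ z ∈ Ico q (q + 2 ^ m), ∀ z' ∈ Ico u (u + 2 ^ m),
      ((m, Ye j e w z z' / 2 ^ (m + 7)) : Nd) ∈ W) →
      ClW59.OpS (Ico q (q + 2 ^ m)) (Ico u (u + 2 ^ m))
        (ker (Bd K) (Btk Bd pos N a r H1 h0 W K f) w) (2 ^ m * τ)) →
    ∀ (L1 M : ℕ),
    TA bb (cube L1) M (fun m p _ => AdX W m (xv j bb m p))
      (KB j T g F e e' Bd pos N a r H1 h0 W K f Y) ≤
      K0 * (1 + Real.log (1 + (max 1 (√(Hf * Ht)) * H1 + h0) ^ 2 *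
        (2 * (max 1 (√(Hf * Ht)) * H) ^ 2) / (dl * τ ^ 2))) *
        (τ * (n ^ 2 * len K * ((av K Y + √dl) * (av K (F (j.succAbove (e'' + 2))) + √dl)))) := by
  obtain ⟨K0, hK0, hK⟩ := b0_win
  refine ⟨K0, hK0, ?_⟩
  intro bb hbb j e e' e'' v hee h2 h3 W K hW n hn Ht Hf T g α hHf hD hTI F Bd pos N a r H1 h0 f Y τ
    H dl hH1 hh0 hτ hH hdl hmem ha hY hF hBT L1 M
  classical
  have hA0 : 0 ≤ max 1 (√(Hf * Ht)) := le_trans zero_le_one (le_max_left _ _)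
  have main := hK bb hbb j e e' e'' v hee h2 h3 W K hW n hn Ht Hf T g α hHf hD hTI
    (ker (Bd K) (Btk Bd pos N a r H1 h0 W K f)) (fun s => cutJ K (F s)) (cutJ K Y)
    (max 1 (√(Hf * Ht)) * H1 + h0) τ H dl hτ hH hdl
    (by
      intro w z z' h
      unfold ker at h
      by_cases h1 : (w, z, z') ∈ Bd K
      · exact hmem w z z' h1
      · exact absurd (by rw [if_neg h1]) h)
    (by
      intro w z z'
      unfold ker
      by_cases h1 : (w, z, z') ∈ Bd K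
      · rw [if_pos h1]
        refine btk_sup hH1 hh0 ?_
        rw [ha]
        exact hD.sup hHf e z z'
      · rw [if_neg h1, norm_zero]
        positivity)
    (norm_cut hY) (norm_cut hF) hBT L1 M (fun m p _ => AdX W m (xv j bb m p)) (fun _ _ _ h => h)
  rw [av_cut, av_cut] at main
  exact main


end Crest.Agent.R079.B0Mx253
end

-- ▼ part R079/B0N_253
section

/-! R079, Step I, (G) words (helper253): `HB` of `GaR_571` (killer words of the windows) for the common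
instance `Fam` / `PhiE` of `GaD_571`.

* `eKB` : the price of one killer word per unit of length; `eKB_nonneg`;
* `hb_fam` : any partner, bounded by `H`, with averages `≤ AY` on the tops of the windows;
* `hb_static`, `hb_moving`. -/

set_option autoImplicit false

namespace Crest.Agent.R079.B0Nx253

open Finset Crest.Agent.R079.Grid Crest.Agent.R079.Glue Crest.Agent.R079.Growth
  Crest.Agent.R079.QRed
open Crest.Agent.R079.GaAx571 Crest.Agent.R079.GaBx571 Crest.Agent.R079.GaWx571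
  Crest.Agent.R079.GaXx571 Crest.Agent.R079.GaFx371 Crest.Agent.R079.GaUx571
  Crest.Agent.R079.Stk Crest.Agent.R079.KLX279
  Crest.Agent.R079.GaRx571 Crest.Agent.R079.GaTx571 Crest.Agent.R079.GaZx260
  Crest.Agent.R079.ThA159 Crest.Agent.R079.ThB159 Crest.Agent.R079.GaDx571
  Crest.Agent.R079.PFx263 Crest.Agent.R079.GaBtx251 Crest.Agent.R079.B0Mx253
open Crest.Agent.R079.RelW653 (NMP)
open Crest.Agent.R079.RelV653 (PenC)

/-- the price of one killer word (per unit of length) -/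
noncomputable def eKB (K0 Ht Hf H1 h0 H τ dl AY Av : ℝ) : ℝ :=
  K0 * (1 + Real.log (1 + (max 1 (√(Hf * Ht)) * H1 + h0) ^ 2 *
    (2 * (max 1 (√(Hf * Ht)) * H) ^ 2) / (dl * τ ^ 2))) *
    (τ * ((AY + √dl) * (Av + √dl)))

lemma eKB_nonneg {K0 Ht Hf H1 h0 H τ dl AY Av : ℝ} (hK0 : 0 ≤ K0) (hτ : 0 ≤ τ) (hdl : 0 ≤ dl)
    (hAY : 0 ≤ AY) (hAv : 0 ≤ Av) : 0 ≤ eKB K0 Ht Hf H1 h0 H τ dl AY Av := by
  unfold eKB
  have h1 : 0 ≤ (max 1 (√(Hf * Ht)) * H1 + h0) ^ 2 *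
    (2 * (max 1 (√(Hf * Ht)) * H) ^ 2) / (dl * τ ^ 2) := by positivity
  have h2 := Real.log_nonneg (show (1 : ℝ) ≤ 1 + (max 1 (√(Hf * Ht)) * H1 + h0) ^ 2 *
    (2 * (max 1 (√(Hf * Ht)) * H) ^ 2) / (dl * τ ^ 2) by linarith)
  have h3 := Real.sqrt_nonneg dl
  exact mul_nonneg (mul_nonneg hK0 (by linarith)) (mul_nonneg hτ (mul_nonneg (by linarith)
    (by linarith)))

lemma gl_supp_e : ∀ (v e e' : Fin 3), e ≠ e' → e ≠ v + 1 → e' ≠ v + 1 →
    (v + 1 ≠ e ∧ v + 1 ≠ e' ∧ v + 1 + 2 = v) := by decide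

/-- averages of the glued near-minimiser inside one window -/
lemma av_gl_win {I' : Type*} [Fintype I'] {Ω : I' → Type*} {Bd : ∀ i, Nd → Finset (Ω i)}
    {pos : ∀ i, Ω i → ℤ} {Nn : ∀ i, Nd → (Ω i → ℂ) → ℝ} {ν : I' → ℝ} {a : ∀ i, Ω i → ℂ}
    {r : I' → ℝ} {κ : I' → ℝ} {X : Fn} {η : ℝ} {f : Nd → Fn}
    (hP : PenC 0 (fun _ _ => True) (ThF Bd pos Nn ν a r κ))
    (h : NMP (fun _ _ => True) (ThF Bd pos Nn ν a r κ) X η f) {R W : Finset Nd} {K : Nd}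
    (hW : Full W K) (hWR : W ⊆ R) {A AX : ℝ}
    (hA : ∀ p ∈ R, av p X ≤ A) (hAX : √(2 * A ^ 2 + 4 * η) ≤ AX) {p : Nd}
    (hp : p ∈ W) : av p (TWin.gl W f) ≤ AX := by
  have h1 := FLDx263.av_gl_le hP h hW hp
  have h2 : av p X ^ 2 ≤ A ^ 2 :=
    pow_le_pow_left₀ (Growth.av_nonneg _ _) (hA p (hWR hp)) 2
  refine le_trans (Real.le_sqrt_of_sq_le ?_) hAX
  linarith

/-- **HB FOR THE COMMON INSTANCE**, any partner -/
theorem hb_fam : ∃ K0 : ℝ, 0 ≤ K0 ∧ ∀ (bb : ℤ), bb = -1 ∨ bb = -7 → ∀ (i m : Fin 4) (v : Fin 3)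
    (I : Nd) (Ht Hf La : ℝ) (N : ℕ) (f0 : Fn) (T : Fin N → Fin 3 → Finset ℤ)
    (g : Fin N → Fin 3 → ℤ → ℤ → ℂ) (θ : Fin N → ℤ → ℝ) (μ : Fin N → ℝ),
    Fam i m v I Ht Hf La N f0 T g θ μ → 0 ≤ Hf → 0 < La →
    ∀ (R : Finset Nd) (J : Nd), Full R J → iv J ⊆ iv I → ∀ (S : Finset Nd) (W : Nd → Finset Nd)
    (C : ℝ), TWin.Part R S W C →
    ∀ (F : Fin 4 → Fn) (Fm : Fn) (Av H HX h0 τ dl AX AY : ℝ),
    (∀ y ∈ iv J, F m y = Fm y) → (∀ p ∈ R, av p Fm ≤ Av) → (∀ y ∈ iv J, ‖Fm y‖ ≤ H) → 0 ≤ H →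
    ∀ (e e' : Fin 3), e ≠ e' → e ≠ v + 1 → e' ≠ v + 1 →
    ∀ (nn : ℕ) (kap : ℝ) (kc Kl : ℕ) (hKl : 0 < Kl) (r : ℕ → ℝ) (X : Fn) (η A : ℝ) (f : Nd → Fn),
    0 ≤ kap → (∀ q, 0 ≤ r q) → NMP (fun _ _ => True) (PhiE i e T g μ I La kap kc Kl r) X η f →
    (∀ p ∈ R, av p X ≤ A) → √(2 * A ^ 2 + 4 * η) ≤ AX → 0 < HX → 0 < h0 →
    tauB kc (r 0) Ht Hf AX h0 HX ≤ τ → 0 < τ → 0 < dl →
    ∀ (Yw : Nd → Fn), (∀ K ∈ S, ∀ y ∈ iv K, ‖Yw K y‖ ≤ H) → (∀ K ∈ S, av K (Yw K) ≤ AY) →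
    ∀ (L1 M : ℕ), HB i bb e e' T g (fun l => ((l, ⟨0, hKl⟩) : Fin N × Fin Kl)) (BdF i e T I Kl)
      (fun _ => poE i e) (NF i e T I kc Kl) (fun c ω => g c.1 e ω.2.1 ω.2.2) (fun c => r c.2)
      ((sd I : ℝ) ^ 2) F (cube L1) M S W nn HX h0 f Yw
      (eKB K0 Ht Hf HX h0 H τ dl AY Av) := by
  classical
  obtain ⟨K0, hK0, hmain⟩ := b0_KB
  refine ⟨K0, hK0, ?_⟩
  intro bb hbb i m v I Ht Hf La N f0 T g θ μ hFam hHf hLa R J hR hJI S W C hP F Fm Av H HX h0 τ dl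
    AX AY hFm hAv hHm hH0 e e' hee he he' nn kap kc Kl hKl r X η A f hkap hr hf hA hAX hHX hh0 hτB hτ
    hdl Yw hYw aY L1 M K hKS _ l
  have hvm := hFam.vm
  subst hvm
  obtain ⟨g1, g2, g3⟩ := gl_supp_e v e e' hee he he'
  have hWF : Full (W K) K := hP.full K hKS
  have hWR : W K ⊆ R := hP.wsub K hKS
  have hKR : K ∈ R := hP.sub hKS
  have hKJ : iv K ⊆ iv J := hR.reg.1 K hKR
  have hKI : iv K ⊆ iv I := hKJ.trans hJI
  have hKn : 2 ^ K.1 ≤ 2 ^ I.1 := Nat.pow_le_pow_right (by norm_num) (Growth.iv_level hKI)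
  have hn : 0 < 2 ^ I.1 := by positivity
  have hpen := penPhi hFam e hkap hLa kc Kl hr
  rw [phi_eq] at hpen hf
  have aX : ∀ p ∈ W K, av p (TWin.gl (W K) f) ≤ AX := fun p hp =>
    av_gl_win hpen hf hWF hWR hA hAX hp
  have hTI : ∀ i', ∃ t : ℤ, T l i' ⊆ Ico t (t + ((2 ^ I.1 : ℕ) : ℤ)) := by
    intro i'
    obtain ⟨a, ha⟩ := hFam.ico l
    exact ⟨a i', (ha i').le⟩
  have main := hmain bb hbb i e e' (v + 1) v hee g1 g2 (W K) K hWF.reg (2 ^ I.1) hKn Ht Hf (T l) (g l)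
    (θ l) hHf (hFam.opD l) hTI F (BdF i e T I Kl (l, ⟨0, hKl⟩)) (poE i e)
    (NF i e T I kc Kl (l, ⟨0, hKl⟩)) (fun ω => g l e ω.2.1 ω.2.2) (r 0) HX h0 f (Yw K) τ H dl
    hHX.le hh0.le hτ hH0 hdl
    (fun w z z' h => (mem_BdF e _ hKI w z z').1 h)
    (fun w z z' => rfl) (hYw K hKS)
    (by
      intro x hx
      rw [g3, hFm x (hKJ hx)]
      exact hHm x (hKJ hx))
    (by
      intro w m' q u hm hO
      have h1 := opS_Bt (hFam.opD l) hHf he (j := i) hn (J0 := I) (K := K) (k := kc) (hr 0) hh0 hHX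
        hWF f aX (w := w) (m := m') (q := q) (u := u) hO
      have hHtf : 0 ≤ Hf * Ht := (sq_nonneg _).trans ((hFam.opD l).sup' hHf he 0 0)
      have hr0 := hr 0
      have hB0 : 0 ≤ tauB kc (r 0) Ht Hf AX h0 HX := by
        unfold tauB
        positivity
      intro φ
      refine (h1 φ).trans (mul_le_mul_of_nonneg_right (pow_le_pow_left₀ (by positivity)
        (mul_le_mul_of_nonneg_left hτB (by positivity)) 2)
        (Finset.sum_nonneg fun _ _ => sq_nonneg _))) L1 M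
  have e1 : av K (F (i.succAbove v)) = av K Fm := by
    rw [← av_cut K (F (i.succAbove v)), ← av_cut K Fm]
    congr 1
    funext y
    unfold cutJ
    by_cases hy : y ∈ iv K
    · rw [if_pos hy, if_pos hy, hFm y (hKJ hy)]
    · rw [if_neg hy, if_neg hy]
  rw [g3, e1] at main
  refine main.trans ?_
  have hl := (Growth.len_pos K).le
  have hs := Real.sqrt_nonneg dl
  have hL : 0 ≤ Real.log (1 + (max 1 (√(Hf * Ht)) * HX + h0) ^ 2 *
        (2 * (max 1 (√(Hf * Ht)) * H) ^ 2) / (dl * τ ^ 2)) := by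
    refine Real.log_nonneg ?_
    have : 0 ≤ (max 1 (√(Hf * Ht)) * HX + h0) ^ 2 *
        (2 * (max 1 (√(Hf * Ht)) * H) ^ 2) / (dl * τ ^ 2) := by positivity
    linarith
  have hPr : (av K (Yw K) + √dl) * (av K Fm + √dl) ≤ (AY + √dl) * (Av + √dl) := by
    have a1 := Growth.av_nonneg K (Yw K)
    have a2 := Growth.av_nonneg K Fm
    have a3 := aY K hKS
    have a4 := hAv K hKR
    exact mul_le_mul (by linarith) (by linarith) (by linarith) (by linarith)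
  unfold eKB sd
  push_cast
  set Lg := Real.log (1 + (max 1 (√(Hf * Ht)) * HX + h0) ^ 2 *
        (2 * (max 1 (√(Hf * Ht)) * H) ^ 2) / (dl * τ ^ 2)) with hLg
  calc K0 * (1 + Lg) * (τ * (((2 : ℝ) ^ I.1) ^ 2 * len K * ((av K (Yw K) + √dl) * (av K Fm + √dl))))
      = (K0 * (1 + Lg) * τ * ((2 : ℝ) ^ I.1) ^ 2 * len K) *
        ((av K (Yw K) + √dl) * (av K Fm + √dl)) := by ring
    _ ≤ (K0 * (1 + Lg) * τ * ((2 : ℝ) ^ I.1) ^ 2 * len K) * ((AY + √dl) * (Av + √dl)) :=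
        mul_le_mul_of_nonneg_left hPr (by positivity)
    _ = _ := by ring

/-- **HB, STATIC PARTNER** -/
theorem hb_static : ∃ K0 : ℝ, 0 ≤ K0 ∧ ∀ (bb : ℤ), bb = -1 ∨ bb = -7 → ∀ (i m : Fin 4) (v : Fin 3)
    (I : Nd) (Ht Hf La : ℝ) (N : ℕ) (f0 : Fn) (T : Fin N → Fin 3 → Finset ℤ)
    (g : Fin N → Fin 3 → ℤ → ℤ → ℂ) (θ : Fin N → ℤ → ℝ) (μ : Fin N → ℝ),
    Fam i m v I Ht Hf La N f0 T g θ μ → 0 ≤ Hf → 0 < La →
    ∀ (R : Finset Nd) (J : Nd), Full R J → iv J ⊆ iv I → ∀ (S : Finset Nd) (W : Nd → Finset Nd)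
    (C : ℝ), TWin.Part R S W C →
    ∀ (F : Fin 4 → Fn) (Fm : Fn) (Av H HX h0 τ dl AX AY : ℝ),
    (∀ y ∈ iv J, F m y = Fm y) → (∀ p ∈ R, av p Fm ≤ Av) → (∀ y ∈ iv J, ‖Fm y‖ ≤ H) → 0 ≤ H →
    ∀ (e e' : Fin 3), e ≠ e' → e ≠ v + 1 → e' ≠ v + 1 →
    ∀ (nn : ℕ) (kap : ℝ) (kc Kl : ℕ) (hKl : 0 < Kl) (r : ℕ → ℝ) (X : Fn) (η A : ℝ) (f : Nd → Fn),
    0 ≤ kap → (∀ q, 0 ≤ r q) → NMP (fun _ _ => True) (PhiE i e T g μ I La kap kc Kl r) X η f →
    (∀ p ∈ R, av p X ≤ A) → √(2 * A ^ 2 + 4 * η) ≤ AX → 0 < HX → 0 < h0 →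
    tauB kc (r 0) Ht Hf AX h0 HX ≤ τ → 0 < τ → 0 < dl →
    ∀ (Y : Fn), (∀ y ∈ iv J, ‖Y y‖ ≤ H) → (∀ p ∈ R, av p Y ≤ AY) →
    ∀ (L1 M : ℕ), HB i bb e e' T g (fun l => ((l, ⟨0, hKl⟩) : Fin N × Fin Kl)) (BdF i e T I Kl)
      (fun _ => poE i e) (NF i e T I kc Kl) (fun c ω => g c.1 e ω.2.1 ω.2.2) (fun c => r c.2)
      ((sd I : ℝ) ^ 2) F (cube L1) M S W nn HX h0 f (fun _ => Y)
      (eKB K0 Ht Hf HX h0 H τ dl AY Av) := by
  obtain ⟨K0, hK0, hmain⟩ := hb_fam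
  refine ⟨K0, hK0, ?_⟩
  intro bb hbb i m v I Ht Hf La N f0 T g θ μ hFam hHf hLa R J hR hJI S W C hP F Fm Av H HX h0 τ dl
    AX AY hFm hAv hHm hH0 e e' hee he he' nn kap kc Kl hKl r X η A f hkap hr hf hA hAX hHX hh0 hτB hτ
    hdl Y hY aY L1 M
  exact hmain bb hbb i m v I Ht Hf La N f0 T g θ μ hFam hHf hLa R J hR hJI S W C hP F Fm Av H HX h0 τ
    dl AX AY hFm hAv hHm hH0 e e' hee he he' nn kap kc Kl hKl r X η A f hkap hr hf hA hAX hHX hh0
    hτB hτ hdl (fun _ => Y) (fun K hK y hy => hY y (hR.reg.1 K (hP.sub hK) hy))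
    (fun K hK => aY K (hP.sub hK)) L1 M

/-- **HB, MOVING PARTNER**: truncated glued letter of the functional of the other slot -/
theorem hb_moving : ∃ K0 : ℝ, 0 ≤ K0 ∧ ∀ (bb : ℤ), bb = -1 ∨ bb = -7 → ∀ (i m : Fin 4) (v : Fin 3)
    (I : Nd) (Ht Hf La : ℝ) (N : ℕ) (f0 : Fn) (T : Fin N → Fin 3 → Finset ℤ)
    (g : Fin N → Fin 3 → ℤ → ℤ → ℂ) (θ : Fin N → ℤ → ℝ) (μ : Fin N → ℝ),
    Fam i m v I Ht Hf La N f0 T g θ μ → 0 ≤ Hf → 0 < La →
    ∀ (R : Finset Nd) (J : Nd), Full R J → iv J ⊆ iv I → ∀ (S : Finset Nd) (W : Nd → Finset Nd)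
    (C : ℝ), TWin.Part R S W C →
    ∀ (F : Fin 4 → Fn) (Fm : Fn) (Av H HX h0 τ dl AX AY : ℝ),
    (∀ y ∈ iv J, F m y = Fm y) → (∀ p ∈ R, av p Fm ≤ Av) → (∀ y ∈ iv J, ‖Fm y‖ ≤ H) → 0 ≤ H →
    ∀ (e e' : Fin 3), e ≠ e' → e ≠ v + 1 → e' ≠ v + 1 →
    ∀ (nn : ℕ) (kap : ℝ) (kc Kl : ℕ) (hKl : 0 < Kl) (r : ℕ → ℝ) (X : Fn) (η A : ℝ) (f : Nd → Fn),
    0 ≤ kap → (∀ q, 0 ≤ r q) → NMP (fun _ _ => True) (PhiE i e T g μ I La kap kc Kl r) X η f →
    (∀ p ∈ R, av p X ≤ A) → √(2 * A ^ 2 + 4 * η) ≤ AX → 0 < HX → 0 < h0 →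
    tauB kc (r 0) Ht Hf AX h0 HX ≤ τ → 0 < τ → 0 < dl →
    ∀ (kap' : ℝ) (kc' Kl' : ℕ) (r' : ℕ → ℝ) (X' : Fn) (η' A' HY : ℝ) (f' : Nd → Fn), 0 ≤ kap' →
    (∀ q, 0 ≤ r' q) → NMP (fun _ _ => True) (PhiE i e' T g μ I La kap' kc' Kl' r') X' η' f' →
    (∀ p ∈ R, av p X' ≤ A') → √(2 * A' ^ 2 + 4 * η') ≤ AY → 0 ≤ HY → HY ≤ H →
    ∀ (L1 M : ℕ), HB i bb e e' T g (fun l => ((l, ⟨0, hKl⟩) : Fin N × Fin Kl)) (BdF i e T I Kl)
      (fun _ => poE i e) (NF i e T I kc Kl) (fun c ω => g c.1 e ω.2.1 ω.2.2) (fun c => r c.2)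
      ((sd I : ℝ) ^ 2) F (cube L1) M S W nn HX h0 f
      (fun K y => tau HY (TWin.gl (W K) f' y))
      (eKB K0 Ht Hf HX h0 H τ dl AY Av) := by
  obtain ⟨K0, hK0, hmain⟩ := hb_fam
  refine ⟨K0, hK0, ?_⟩
  intro bb hbb i m v I Ht Hf La N f0 T g θ μ hFam hHf hLa R J hR hJI S W C hP F Fm Av H HX h0 τ dl
    AX AY hFm hAv hHm hH0 e e' hee he he' nn kap kc Kl hKl r X η A f hkap hr hf hA hAX hHX hh0 hτB hτ
    hdl kap' kc' Kl' r' X' η' A' HY f' hkap' hr' hf' hA' hAY hHY hHYH L1 M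
  have hpen' := penPhi hFam e' hkap' hLa kc' Kl' hr'
  rw [phi_eq] at hpen' hf'
  exact hmain bb hbb i m v I Ht Hf La N f0 T g θ μ hFam hHf hLa R J hR hJI S W C hP F Fm Av H HX h0 τ
    dl AX AY hFm hAv hHm hH0 e e' hee he he' nn kap kc Kl hKl r X η A f hkap hr hf hA hAX hHX hh0
    hτB hτ hdl (fun K y => tau HY (TWin.gl (W K) f' y))
    (fun K _ y _ => (tau_le hHY _).trans hHYH)
    (fun K hK => (GaLx446.av_tau_le hHY K _).trans
      (av_gl_win hpen' hf' (hP.full K hK) (hP.wsub K hK) hA' hAY (hP.full K hK).top)) L1 M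

end Crest.Agent.R079.B0Nx253
end

-- ▼ part R079/TauM_253

/-! R079, Step I, (G) words (helper253): TRUNCATION OF THE FROZEN KILLER LETTER (slot `m`).

* `tallM`     : the tall part of the letter of the slot `m` is killed next to a core mixture (`Rc`) and
  two letters of size `a`, `b` (from 248's `tall_TR`, scaled);
* `tallMT`    : the same for `E - τ_{H c} E`;
* `word_tauM` : a word over windows against the word with `F m` replaced by `τ_{H c} (F m)`. -/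

set_option autoImplicit false

namespace Crest.Agent.R079.TauMx253

open Finset Crest.Agent.R079.Grid Crest.Agent.R079.Growth Crest.Agent.R079.QRed
  Crest.Agent.R079.OpS276 Crest.Agent.R079.POx263 Crest.Agent.R079.BadN360
  Crest.Agent.R079.GnMx45 Crest.Agent.R079.AsmA844 Crest.Agent.R079.T6bx252
  Crest.Agent.R079.TRec Crest.Agent.R079.TKx248 Crest.Agent.R079.GaTx571
  Crest.Agent.R079.TauWx253

lemma TR_smul (bb : ℤ) (ε : ℕ → ℤ → ℂ) (W : Finset Nd) (F : Fin 4 → Fn) (r : Fin 4) (c : ℂ)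
    (X : Fn) : TR bb ε W (Function.update F r (fun y => c * X y)) =
      c * TR bb ε W (Function.update F r X) := by
  unfold TR
  rw [Finset.mul_sum]
  refine Finset.sum_congr rfl fun p _ => ?_
  exact (TRec.T2.Lp bb ε F r p).map_smul c X

lemma upc {x y : Fin 4} (h : x ≠ y) (X Y : Fn) (F : Fin 4 → Fn) :
    Function.update (Function.update F x X) y Y = Function.update (Function.update F y Y) x X :=
  Function.update_comm h X Y F

lemma smul3 (bb : ℤ) (ε : ℕ → ℤ → ℂ) (W : Finset Nd) (F : Fin 4 → Fn) {m x y : Fin 4}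
    (hxm : x ≠ m) (hym : y ≠ m) (hxy : x ≠ y) (c a b : ℂ) (E X Y : Fn) :
    TR bb ε W (Function.update (Function.update (Function.update F m (fun z => c * E z)) x
      (fun z => a * X z)) y (fun z => b * Y z)) =
      c * (a * (b * TR bb ε W (Function.update (Function.update (Function.update F m E) x X) y Y)))
      := by
  rw [TR_smul, upc hxy (fun z => a * X z) Y, TR_smul,
    upc hym.symm (fun z => c * E z) Y,
    upc hxm.symm (fun z => c * E z) X, TR_smul,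
    upc hxy X Y, upc hym.symm E Y,
    upc hxm.symm E X]
  ring

/-- **the tall part of the killer letter is killed** -/
theorem tallM : ∃ K : ℝ, 0 ≤ K ∧ ∀ (i m e e' : Fin 4), Dst4 i m e e' →
    ∀ {bb : ℤ} {ε : ℕ → ℤ → ℂ}, Adm bb ε → ∀ (W : Finset Nd) (J I : Nd), Full W J → iv J ⊆ iv I →
    ∀ (F : Fin 4 → Fn) (Ht Hf La H : ℝ), 0 < Ht → 0 < Hf → 1 ≤ H →
    Rc i m e e' I Ht Hf La (F i) → ∀ x y : Fin 4, Oth i m x y →
    ∀ (a b c : ℝ), 0 < a → 0 < b → 0 < c → ∀ E X Y : Fn,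
    (∀ p ∈ W, av p X ≤ a) → (∀ p ∈ W, av p Y ≤ b) → (∀ p ∈ W, av p E ≤ c) →
    ‖∑ p ∈ W, v4 bb ε (Function.update F m (hi (H * c) E)) x y X Y p‖ ≤
      K * (1 + (Real.log (1 + Hf * Ht) + Real.log H)) * (La / H) * (a * b * c) * len J := by
  obtain ⟨K, hK0, hK⟩ := tall_TR
  refine ⟨K, hK0, ?_⟩
  intro i m e e' hd bb ε hA W J I hW hJI F Ht Hf La H hHt hHf hH hF x y hO a b c ha hb hc E X Y hX hY
    hE
  have hmi : m ≠ i := hd.jk
  have hxm := hO.am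
  have hym := hO.bm
  have hxy := hO.ab
  set G : Fin 4 → Fn := Function.update (Function.update (Function.update F m
    (fun z => ((c⁻¹ : ℝ) : ℂ) * E z)) x (fun z => ((a⁻¹ : ℝ) : ℂ) * X z)) y
    (fun z => ((b⁻¹ : ℝ) : ℂ) * Y z) with hG
  have Gi : G i = F i := by
    rw [hG, Function.update_of_ne hO.bi.symm, Function.update_of_ne hO.ai.symm,
      Function.update_of_ne hmi.symm]
  have Gm : G m = fun z => ((c⁻¹ : ℝ) : ℂ) * E z := by
    rw [hG, Function.update_of_ne hym.symm, Function.update_of_ne hxm.symm, Function.update_self]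
  have Gx : G x = fun z => ((a⁻¹ : ℝ) : ℂ) * X z := by
    rw [hG, Function.update_of_ne hxy, Function.update_self]
  have Gy : G y = fun z => ((b⁻¹ : ℝ) : ℂ) * Y z := by
    rw [hG, Function.update_self]
  have sc : ∀ {u : ℝ} {Z : Fn}, 0 < u → (∀ p ∈ W, av p Z ≤ u) →
      ∀ p ∈ W, av p (fun z => ((u⁻¹ : ℝ) : ℂ) * Z z) ≤ 1 := by
    intro u Z hu hZ p hp
    rw [av_smul' p (inv_nonneg.2 hu.le)]
    have := mul_le_mul_of_nonneg_left (hZ p hp) (inv_nonneg.2 hu.le)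
    rwa [inv_mul_cancel₀ hu.ne'] at this
  have h1 := hK i m e e' m hd hmi hA W J I hW hJI G Ht Hf La H hHt hHf hH (by rw [Gi]; exact hF)
    (fun j hj p hp => by
      rcases oth_cases hmi.symm hO.ai hxm hO.bi hym hxy hj with rfl | rfl | rfl
      · rw [Gm]; exact sc hc hE p hp
      · rw [Gx]; exact sc ha hX p hp
      · rw [Gy]; exact sc hb hY p hp)
  have e1 : Function.update G m (hi H (G m)) =
      Function.update (Function.update (Function.update F m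
        (fun z => ((c⁻¹ : ℝ) : ℂ) * hi (H * c) E z)) x (fun z => ((a⁻¹ : ℝ) : ℂ) * X z)) y
        (fun z => ((b⁻¹ : ℝ) : ℂ) * Y z) := by
    rw [Gm, hi_smul hc]
    funext j
    by_cases hjm : j = m
    · subst hjm
      rw [Function.update_self, Function.update_of_ne hym.symm, Function.update_of_ne hxm.symm,
        Function.update_self]
    · rw [Function.update_of_ne hjm, hG]
      by_cases hjy : j = y
      · subst hjy
        rw [Function.update_self, Function.update_self]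
      · rw [Function.update_of_ne hjy, Function.update_of_ne hjy]
        by_cases hjx : j = x
        · subst hjx
          rw [Function.update_self, Function.update_self]
        · rw [Function.update_of_ne hjx, Function.update_of_ne hjx, Function.update_of_ne hjm,
            Function.update_of_ne hjm]
  rw [e1, smul3 bb ε W F hxm hym hxy, norm_mul, norm_mul, norm_mul, Complex.norm_real,
    Complex.norm_real, Complex.norm_real, Real.norm_of_nonneg (inv_nonneg.2 ha.le),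
    Real.norm_of_nonneg (inv_nonneg.2 hb.le), Real.norm_of_nonneg (inv_nonneg.2 hc.le)] at h1
  have h2 : ∑ p ∈ W, v4 bb ε (Function.update F m (hi (H * c) E)) x y X Y p =
      TR bb ε W (Function.update (Function.update (Function.update F m (hi (H * c) E)) x X) y Y) :=
    rfl
  rw [h2]
  have h3 := mul_le_mul_of_nonneg_left h1 (show 0 ≤ a * b * c by positivity)
  have h4 : a * b * c * (c⁻¹ * (a⁻¹ * (b⁻¹ * ‖TR bb ε W (Function.update (Function.update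
      (Function.update F m (hi (H * c) E)) x X) y Y)‖))) = ‖TR bb ε W (Function.update
      (Function.update (Function.update F m (hi (H * c) E)) x X) y Y)‖ := by
    field_simp
  rw [h4] at h3
  refine h3.trans (le_of_eq ?_)
  ring

/-- the same for the difference with the truncation `τ_{H c}` -/
theorem tallMT : ∃ K : ℝ, 0 ≤ K ∧ ∀ (i m e e' : Fin 4), Dst4 i m e e' →
    ∀ {bb : ℤ} {ε : ℕ → ℤ → ℂ}, Adm bb ε → ∀ (W : Finset Nd) (J I : Nd), Full W J → iv J ⊆ iv I →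
    ∀ (F : Fin 4 → Fn) (Ht Hf La H : ℝ), 0 < Ht → 0 < Hf → 0 ≤ La → 2 ≤ H →
    Rc i m e e' I Ht Hf La (F i) → ∀ x y : Fin 4, Oth i m x y →
    ∀ (a b c : ℝ), 0 < a → 0 < b → 0 < c → ∀ E X Y : Fn,
    (∀ p ∈ W, av p X ≤ a) → (∀ p ∈ W, av p Y ≤ b) → (∀ p ∈ W, av p E ≤ c) →
    ‖∑ p ∈ W, v4 bb ε (Function.update F m (fun z => E z - tau (H * c) (E z))) x y X Y p‖ ≤
      K * (1 + (Real.log (1 + Hf * Ht) + Real.log H)) * (La / H) * (a * b * c) * len J := by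
  obtain ⟨K, hK0, hK⟩ := tallM
  refine ⟨3 * K, by positivity, ?_⟩
  intro i m e e' hd bb ε hA W J I hW hJI F Ht Hf La H hHt hHf hLa hH hF x y hO a b c ha hb hc E X Y
    hX hY hE
  have hH0 : 0 < H := by linarith
  have hHc : 0 < H * c := mul_pos hH0 hc
  have hmx : m ≠ x := hO.am.symm
  have hmy : m ≠ y := hO.bm.symm
  have e1 : (fun z => E z - tau (H * c) (E z)) =
      fun z => hi (H * c) E z - hi (H / 2 * c) (uH (H * c) E) z := by
    funext z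
    rw [sub_tau hHc, show H / 2 * c = H * c / 2 by ring]
  have hu : ∀ p ∈ W, av p (uH (H * c) E) ≤ c := fun p hp =>
    (av_mono' fun z _ => norm_uH_le hHc E z).trans (hE p hp)
  have f1 := hK i m e e' hd hA W J I hW hJI F Ht Hf La H hHt hHf (by linarith) hF x y hO a b c ha hb
    hc E X Y hX hY hE
  have f2 := hK i m e e' hd hA W J I hW hJI F Ht Hf La (H / 2) hHt hHf (by linarith) hF x y hO a b c
    ha hb hc (uH (H * c) E) X Y hX hY hu
  have e2 : ∑ p ∈ W, v4 bb ε (Function.update F m (fun z => E z - tau (H * c) (E z))) x y X Y p =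
      ∑ p ∈ W, v4 bb ε (Function.update F m (hi (H * c) E)) x y X Y p -
      ∑ p ∈ W, v4 bb ε (Function.update F m (hi (H / 2 * c) (uH (H * c) E))) x y X Y p := by
    rw [e1]
    have h : ∀ Z : Fn, ∑ p ∈ W, v4 bb ε (Function.update F m Z) x y X Y p =
        TR bb ε W (Function.update (Function.update (Function.update F x X) y Y) m Z) := by
      intro Z
      unfold TR v4
      refine Finset.sum_congr rfl fun p _ => ?_
      rw [upc hmx Z X, upc hmy Z Y]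
    rw [h, h, h, TR_sub]
  rw [e2]
  refine (norm_sub_le _ _).trans ((add_le_add f1 f2).trans ?_)
  have hlJ := (Growth.len_pos J).le
  have hL1 : 0 ≤ Real.log (1 + Hf * Ht) := Real.log_nonneg (by nlinarith [mul_pos hHf hHt])
  have hL2 : Real.log (H / 2) ≤ Real.log H := Real.log_le_log (by linarith) (by linarith)
  have hP : 0 ≤ (La / H) * (a * b * c) * len J := by positivity
  have e3 : La / (H / 2) = 2 * (La / H) := by
    field_simp
  rw [e3]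
  have h5 : K * (1 + (Real.log (1 + Hf * Ht) + Real.log (H / 2))) ≤
      K * (1 + (Real.log (1 + Hf * Ht) + Real.log H)) :=
    mul_le_mul_of_nonneg_left (by linarith) hK0
  have h6 := mul_le_mul_of_nonneg_right h5 (mul_nonneg (by norm_num : (0 : ℝ) ≤ 2) hP)
  calc K * (1 + (Real.log (1 + Hf * Ht) + Real.log H)) * (La / H) * (a * b * c) * len J +
        K * (1 + (Real.log (1 + Hf * Ht) + Real.log (H / 2))) * (2 * (La / H)) * (a * b * c) * len J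
      = K * (1 + (Real.log (1 + Hf * Ht) + Real.log H)) * ((La / H) * (a * b * c) * len J) +
        K * (1 + (Real.log (1 + Hf * Ht) + Real.log (H / 2))) *
          (2 * ((La / H) * (a * b * c) * len J)) := by ring
    _ ≤ K * (1 + (Real.log (1 + Hf * Ht) + Real.log H)) * ((La / H) * (a * b * c) * len J) +
        K * (1 + (Real.log (1 + Hf * Ht) + Real.log H)) *
          (2 * ((La / H) * (a * b * c) * len J)) := by linarith
    _ = _ := by ring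

/-- **a word over windows against the word with the truncated killer letter** -/
theorem word_tauM : ∃ K : ℝ, 0 ≤ K ∧ ∀ (i m e e' : Fin 4), Dst4 i m e e' →
    ∀ {bb : ℤ} {ε : ℕ → ℤ → ℂ}, Adm bb ε → ∀ (R0 : Finset Nd) (I0 I : Nd), Full R0 I0 →
    iv I0 ⊆ iv I →
    ∀ (F : Fin 4 → Fn) (Ht Hf La H : ℝ), 0 < Ht → 0 < Hf → 0 ≤ La → 2 ≤ H →
    Rc i m e e' I Ht Hf La (F i) → ∀ x y : Fin 4, Oth i m x y →
    ∀ (c : ℝ), 0 < c → (∀ p ∈ R0, av p (F m) ≤ c) →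
    ∀ (S : Finset Nd) (W : Nd → Finset Nd), (∀ K ∈ S, Full (W K) K ∧ W K ⊆ R0) →
    ∀ (a b : ℝ), 0 < a → 0 < b → ∀ X Y : Nd → Fn,
    (∀ K ∈ S, ∀ p ∈ W K, av p (X K) ≤ a) → (∀ K ∈ S, ∀ p ∈ W K, av p (Y K) ≤ b) →
    ‖∑ K ∈ S, ∑ p ∈ W K, v4 bb ε F x y (X K) (Y K) p‖ ≤
      ‖∑ K ∈ S, ∑ p ∈ W K, v4 bb ε (Function.update F m (fun z => tau (H * c) (F m z))) x y
        (X K) (Y K) p‖ +
      K * (1 + (Real.log (1 + Hf * Ht) + Real.log H)) * (La / H) * (a * b * c) *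
        ∑ K ∈ S, len K := by
  obtain ⟨K0, hK0, hK⟩ := tallMT
  refine ⟨K0, hK0, ?_⟩
  intro i m e e' hd bb ε hA R0 I0 I hR0 hI0 F Ht Hf La H hHt hHf hLa hH hF x y hO c hc hFm S W hS a b
    ha hb X Y hX hY
  have hmx : m ≠ x := hO.am.symm
  have hmy : m ≠ y := hO.bm.symm
  have e1 : ∑ K ∈ S, ∑ p ∈ W K, v4 bb ε F x y (X K) (Y K) p =
      ∑ K ∈ S, ∑ p ∈ W K, v4 bb ε (Function.update F m (fun z => tau (H * c) (F m z))) x y
        (X K) (Y K) p +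
      ∑ K ∈ S, ∑ p ∈ W K, v4 bb ε (Function.update F m (fun z => F m z - tau (H * c) (F m z))) x y
        (X K) (Y K) p := by
    rw [← Finset.sum_add_distrib]
    refine Finset.sum_congr rfl fun K _ => ?_
    have h : ∀ Z : Fn, ∑ p ∈ W K, v4 bb ε (Function.update F m Z) x y (X K) (Y K) p =
        TR bb ε (W K) (Function.update (Function.update (Function.update F x (X K)) y (Y K)) m Z)
        := by
      intro Z
      unfold TR v4
      refine Finset.sum_congr rfl fun p _ => ?_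
      rw [upc hmx Z (X K), upc hmy Z (Y K)]
    have h0 : ∑ p ∈ W K, v4 bb ε F x y (X K) (Y K) p =
        ∑ p ∈ W K, v4 bb ε (Function.update F m (F m)) x y (X K) (Y K) p := by
      rw [Function.update_eq_self]
    rw [h0, h, h, h, ← TR_sub]
    ring
  rw [e1]
  refine (norm_add_le _ _).trans (add_le_add le_rfl ?_)
  rw [Finset.mul_sum]
  refine (norm_sum_le _ _).trans (Finset.sum_le_sum fun K hKS => ?_)
  obtain ⟨hWF, hWR⟩ := hS K hKS
  exact hK i m e e' hd hA (W K) K I hWF ((hR0.reg.1 K (hWR hWF.top)).trans hI0) F Ht Hf La H hHt hHf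
    hLa hH hF x y hO a b c ha hb hc (F m) (X K) (Y K) (hX K hKS) (hY K hKS)
    (fun p hp => hFm p (hWR hp))

end Crest.Agent.R079.TauMx253
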