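import Crest.Agent.R079.FrQd_717
import Crest.Agent.R079.FrZa_360
import Crest.Agent.R079.GaD_571
import Crest.Agent.R079.TauM_253_Mg
import Crest.Agent.R079.GnU_263
import Crest.Agent.R079.ErM_255
import Crest.Agent.R079.NJ_112

-- ▼ part R079/FrQ_717
section

/-! R079, (T5) of note 1820 (helper717): **the far word on a grid node `q0` of a sub-window.**

The split slot is, on the node `P' = q0` below the sub-top `P = K`, the gauge `al` times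
`∑ l, Pf u l * Qf v l`, frames of the cell of `P` which contains the point, dominated on row blocks
(column blocks) of size `|P'|` by kernels `CU` (`CW`) living on the strip of `P'`
(alive labels of `P'`, normalised).  Labels = (cell of `P`) × (block of `P'`-size) × index.

**`fq_word`** : literally `SKword` with `GS` replaced by the energy number `G`. -/

set_option autoImplicit false
set_option linter.unusedSectionVars false

namespace Crest.Agent.R079.FrQx717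

open Finset Crest.Agent.R079.Grid Crest.Agent.R079.Growth Crest.Agent.R079.QRed
  Crest.Agent.R079.Qh249 Crest.Agent.R079.QVar181
  Crest.Agent.R079.TWin Crest.Agent.R079.Glue Crest.Agent.R079.SWc360 Crest.Agent.R079.Cel159
  Crest.Agent.R079.SplSx69 Crest.Agent.R079.ThA159 Crest.Agent.R079.SKx261
open Crest.Agent.R079.ClW59 (OpS cl)
open Crest.Agent.R079.Whit (Ins)

open scoped ComplexConjugate

/-- few pieces per row -/
theorem piece_card {Z : ℤ → ℤ → ℤ} {c β γ : ℤ} (h : Lin Z c β γ) {k : ℕ} {P P' : Nd} {C0 : ℕ}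
    (hC : 1 ≤ C0) (hP : iv P' ⊆ iv P) (hna : ¬ Adj C0 P P') (u : ℤ)
    {κ : Type} (A : Finset κ) (lv : κ → ℕ) (ra cb ra' cb' : κ → ℤ)
    (hinj : ∀ t ∈ A, ∀ t' ∈ A, lv t = lv t' → ra t = ra t' → cb t = cb t' → ra' t = ra' t' →
      cb' t = cb' t' → t = t')
    (hA : ∀ t ∈ A, Mx Z k P (lv t) (ra t) (cb t) ∧ u ∈ dI P'.1 (ra' t) ∧ u ∈ dI (lv t) (ra t) ∧
      ∃ v ∈ dI P'.1 (cb' t), v ∈ dI (lv t) (cb t) ∧ Z u v ∈ iv P') : A.card ≤ 2 ^ 7 + 2 := by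
  classical
  choose! g hg using fun t ht => (hA t ht).2.2.2
  have hlev : ∀ t ∈ A, P'.1 ≤ lv t := fun t ht =>
    level_le_of_size hC (cell_size h hP hna (hA t ht).1 (hA t ht).2.2.1 (hg t ht).2.1
      (hg t ht).2.2)
  have hinj' : Set.InjOn cb' (A : Set κ) := by
    intro t ht t' ht' he
    have h1 : g t ∈ dI P'.1 (cb' t) := (hg t ht).1
    have h2 : g t' ∈ dI P'.1 (cb' t) := by rw [he]; exact (hg t' ht').1
    obtain ⟨s, hs⟩ : ∃ s, lv t = P'.1 + s := ⟨lv t - P'.1, by have := hlev t ht; omega⟩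
    have h3 := L0e.dI_sub P'.1 s (cb' t)
    have h4 := h3 h1
    have h5 := h3 h2
    have h6 := (hg t ht).2.1
    rw [← hs, L0e.mem_dI] at h4 h5
    rw [L0e.mem_dI] at h6
    have h7 : g t' ∈ dI (lv t) (cb t) := L0e.mem_dI.2 (by rw [h5, ← h4, h6])
    obtain ⟨e1, e2, e3⟩ := Mx_eq (hA t ht).1 (hA t' ht').1 (hA t ht).2.2.1 (hA t' ht').2.2.1 h7
      (hg t' ht').2.1
    refine hinj t ht t' ht' e1 e2 e3 ?_ he
    have h8 := (hA t ht).2.1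
    have h9 := (hA t' ht').2.1
    rw [L0e.mem_dI] at h8 h9
    rw [← h8, ← h9]
  have h1 : A.card = (A.image cb').card := (Finset.card_image_of_injOn hinj').symm
  rw [h1]
  refine card_diam _ (2 ^ 7 + 1) ?_
  intro x hx y hy
  obtain ⟨t, ht, rfl⟩ := Finset.mem_image.1 hx
  obtain ⟨t', ht', rfl⟩ := Finset.mem_image.1 hy
  have h2 := dI_diff (hg t ht).2.2 (hg t' ht').2.2
  rw [h.eq, h.eq] at h2
  have e : c + β * u + γ * g t - (c + β * u + γ * g t') = γ * (g t - g t') := by ring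
  rw [e, abs_mul] at h2
  have h3 : 1 ≤ |γ| := Int.one_le_abs h.g0
  have h4 : |g t - g t'| < 2 ^ (P'.1 + 7) := by
    have := abs_nonneg (g t - g t')
    nlinarith
  have h5 : g t < g t' + 2 ^ 7 * 2 ^ P'.1 := by
    have := (abs_lt.1 h4).2
    rw [pow_add] at this
    linarith
  have hp : (0 : ℤ) < 2 ^ P'.1 := by positivity
  have h6 : g t / 2 ^ P'.1 ≤ (g t' + 2 ^ 7 * 2 ^ P'.1) / 2 ^ P'.1 :=
    Int.ediv_le_ediv hp h5.le
  rw [Int.add_mul_ediv_right _ _ hp.ne'] at h6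
  have h7 := (hg t ht).1
  have h8 := (hg t' ht').1
  rw [L0e.mem_dI] at h7 h8
  rw [h7, h8] at h6
  push_cast
  linarith

section gen

variable {γ τ ι : Type} [Fintype γ] [DecidableEq γ] [Fintype τ] [DecidableEq τ]

/-- rows of a piece -/
def XR (Z : ℤ → ℤ → ℤ → ℤ) (P' : Nd) (T1 T2 : Finset ℤ) (lv : γ → ℕ) (ra cb ra' cb' : γ → ℤ)
    (z : ℤ) (c : γ) : Set ℤ :=
  {u | u ∈ dI P'.1 (ra' c) ∧ u ∈ dI (lv c) (ra c) ∧ u ∈ T1 ∧
    ∃ v ∈ dI P'.1 (cb' c), v ∈ dI (lv c) (cb c) ∧ v ∈ T2 ∧ Z z u v ∈ iv P'}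

open Classical in
/-- dominating kernel of a piece -/
noncomputable def BQ (Z : ℤ → ℤ → ℤ → ℤ) (k : ℕ) (P P' : Nd) (T1 T2 : Finset ℤ) (lv : γ → ℕ)
    (ra cb ra' cb' : γ → ℤ) (K : ι → ℤ → γ → ℤ → ℤ → ℂ) (n : ι) (z : ℤ) (c : γ) (x y : ℤ) : ℂ :=
  if x ∈ dI (lv c) (ra c) ∧ y ∈ dI (lv c) (cb c) ∧
    x ∈ {x | Mx (Z z) k P (lv c) (ra c) (cb c) ∧ x ∈ XR Z P' T1 T2 lv ra cb ra' cb' z c} ∧
    y ∈ (Set.univ : Set ℤ) then K n z c x y else 0

/-- data of the rows -/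
structure FrR (Z : ℤ → ℤ → ℤ → ℤ) (S : Finset ι) (k κ0 d : ℕ) (P P' : Nd) (T0 T1 T2 : Finset ℤ)
    (lv : γ → ℕ) (ra cb ra' cb' : γ → ℤ) (Pf : ι → ℤ → γ → ℤ → τ → ℂ)
    (K : ι → ℤ → γ → ℤ → ℤ → ℂ) (ρ r Hr : ℝ) : Prop where
  lin : ∀ z, ∃ c0 β δ, Lin (Z z) c0 β δ
  inj : ∀ t t' : γ, lv t = lv t' → ra t = ra t' → cb t = cb t' → ra' t = ra' t' →
      cb' t = cb' t' → t = t'
  sup : ∀ n ∈ S, ∀ z ∈ T0, ∀ c x y, K n z c x y ≠ 0 → x ∈ T1 ∧ y ∈ T2 ∧ Z z x y ∈ iv P'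
  op : ∀ n ∈ S, ∀ z ∈ T0, ∀ c, Mx (Z z) k P (lv c) (ra c) (cb c) → ∀ m, d ≤ m → m ≤ P'.1 + κ0 →
    ∀ a b, dI m a ⊆ dI (lv c) (ra c) → dI m b ⊆ dI (lv c) (cb c) → OpC (K n z c) m a b ρ
  maj : ∀ n ∈ S, ∀ z ∈ T0, ∀ c, Mx (Z z) k P (lv c) (ra c) (cb c) → ∀ f : ℤ → ℂ,
    ∑ l, ‖∑ x ∈ dI P'.1 (ra' c) ∩ dI (lv c) (ra c), f x * Pf n z c x l‖ ^ 2 ≤
      (r⁻¹ / 2 ^ P'.1) * ∑ y ∈ dI (lv c) (cb c),
        ‖∑ x ∈ dI P'.1 (ra' c) ∩ dI (lv c) (ra c), f x * K n z c x y‖ ^ 2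
  row : ∀ n ∈ S, ∀ z ∈ T0, ∀ c, Mx (Z z) k P (lv c) (ra c) (cb c) → ∀ x ∈ dI (lv c) (ra c),
    ∑ y ∈ dI (lv c) (cb c), ‖K n z c x y‖ ^ 2 ≤ Hr * 2 ^ P'.1

variable {Z : ℤ → ℤ → ℤ → ℤ} {S : Finset ι} {k κ0 d C0 : ℕ} {P P' : Nd} {T0 T1 T2 : Finset ℤ}
  {lv : γ → ℕ} {ra cb ra' cb' : γ → ℤ} {Pf : ι → ℤ → γ → ℤ → τ → ℂ}
  {K : ι → ℤ → γ → ℤ → ℤ → ℂ} {ρ r Hr : ℝ}

/-- the labels of a row of a piece lie in the window of the piece -/
lemma window {z : ℤ} {c0 β δ : ℤ} (hl : Lin (Z z) c0 β δ) {c : γ} {x y : ℤ}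
    (hx : x ∈ XR Z P' T1 T2 lv ra cb ra' cb' z c) (hy : Z z x y ∈ iv P') :
    (cb' c - 2 ^ 8) * 2 ^ P'.1 ≤ y ∧ y < (cb' c - 2 ^ 8) * 2 ^ P'.1 + 2 ^ (P'.1 + (10 + κ0)) := by
  obtain ⟨_, _, _, v, hv, _, _, hvy⟩ := hx
  have h2 := dI_diff hy hvy
  rw [hl.eq, hl.eq] at h2
  have e : c0 + β * x + δ * y - (c0 + β * x + δ * v) = δ * (y - v) := by ring
  rw [e, abs_mul] at h2
  have h3 : 1 ≤ |δ| := Int.one_le_abs hl.g0
  have h4 : |y - v| < 2 ^ (P'.1 + 7) := by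
    have := abs_nonneg (y - v)
    nlinarith
  rw [abs_lt, pow_add] at h4
  unfold dI at hv
  rw [Finset.mem_Ico] at hv
  have hp : (0 : ℤ) < 2 ^ P'.1 := by positivity
  have hk : (1 : ℤ) ≤ 2 ^ κ0 := one_le_pow₀ (by norm_num)
  have e2 : (2 : ℤ) ^ (P'.1 + (10 + κ0)) = 2 ^ P'.1 * (1024 * 2 ^ κ0) := by
    rw [pow_add, pow_add]; norm_num
  rw [e2]
  constructor
  · nlinarith [h4.1, hv.1]
  · nlinarith [h4.2, hv.2, mul_le_mul_of_nonneg_left hk hp.le]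

open Classical in
/-- **frames of the rows** -/
theorem FrR.cellFr (H : FrR Z S k κ0 d P P' T0 T1 T2 lv ra cb ra' cb' Pf K ρ r Hr) (hr : 0 < r)
    (hC : 1 ≤ C0) (hP : iv P' ⊆ iv P) (hna : ¬ Adj C0 P P') {U : ι → ℤ → ℤ → γ × τ → ℂ}
    (hU : ∀ n z x c l, U n z x (c, l) =
      if Mx (Z z) k P (lv c) (ra c) (cb c) ∧ x ∈ XR Z P' T1 T2 lv ra cb ra' cb' z c then
        Pf n z c x l else 0) :
    CellFr S T0 T1 (fun _ => P'.1 + (10 + κ0)) (fun c => (cb' c - 2 ^ 8) * 2 ^ P'.1)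
      (BQ Z k P P' T1 T2 lv ra cb ra' cb' K) U (2 ^ (10 + κ0) * r⁻¹) (2 ^ 7 + 2) := by
  classical
  refine ⟨by positivity, by positivity, ?_, ?_, ?_, ?_⟩
  · intro n hn z hz c q N f
    by_cases hM : Mx (Z z) k P (lv c) (ra c) (cb c)
    · set g : ℤ → ℂ := fun x => (if q ≤ x ∧ x < q + N then f (x - q).toNat else 0) with hg
      set g' : ℤ → ℂ := fun x => if x ∈ XR Z P' T1 T2 lv ra cb ra' cb' z c then g x else 0 with hg'
      set D0 := dI P'.1 (ra' c) ∩ dI (lv c) (ra c) with hD0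
      have hXD : ∀ x, x ∈ XR Z P' T1 T2 lv ra cb ra' cb' z c → x ∈ D0 := fun x hx =>
        Finset.mem_inter.2 ⟨hx.1, hx.2.1⟩
      have e1 : ∀ l, ∑ i ∈ range N, f i * mU T0 T1 (U n) z (q + (i : ℤ)) (c, l) =
          ∑ x ∈ D0, g' x * Pf n z c x l := by
        intro l
        rw [sum_range_rows f (fun x => mU T0 T1 (U n) z x (c, l)) D0 q N]
        · refine Finset.sum_congr rfl fun x _ => ?_
          show g x * mU T0 T1 (U n) z x (c, l) = g' x * Pf n z c x l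
          by_cases hX : x ∈ XR Z P' T1 T2 lv ra cb ra' cb' z c
          · unfold mU
            rw [if_pos ⟨hz, hX.2.2.1⟩, hU, if_pos ⟨hM, hX⟩, hg']
            simp only [if_pos hX]
          · have : mU T0 T1 (U n) z x (c, l) = 0 := by
              unfold mU
              split_ifs
              · rw [hU, if_neg (fun hc => hX hc.2)]
              · rfl
            rw [this, hg']
            simp only [if_neg hX]
            ring
        · intro x hx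
          show mU T0 T1 (U n) z x (c, l) = 0
          unfold mU
          split_ifs
          · rw [hU, if_neg (fun hc => hx (hXD x hc.2))]
          · rfl
      have e2 : ∀ y ∈ dI (lv c) (cb c),
          ∑ i ∈ range N, f i * BQ Z k P P' T1 T2 lv ra cb ra' cb' K n z c (q + (i : ℤ)) y =
          ∑ x ∈ D0, g' x * K n z c x y := by
        intro y hy
        rw [sum_range_rows f (fun x => BQ Z k P P' T1 T2 lv ra cb ra' cb' K n z c x y) D0 q N]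
        · refine Finset.sum_congr rfl fun x hx => ?_
          show g x * BQ Z k P P' T1 T2 lv ra cb ra' cb' K n z c x y = g' x * K n z c x y
          unfold BQ
          by_cases hX : x ∈ XR Z P' T1 T2 lv ra cb ra' cb' z c
          · rw [if_pos ⟨hX.2.1, hy, ⟨hM, hX⟩, Set.mem_univ _⟩, hg']
            simp only [if_pos hX]
          · rw [if_neg (fun hc => hX hc.2.2.1.2), hg']
            simp only [if_neg hX]
            ring
        · intro x hx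
          show BQ Z k P P' T1 T2 lv ra cb ra' cb' K n z c x y = 0
          unfold BQ
          rw [if_neg (fun hc => hx (hXD x hc.2.2.1.2))]
      have e3 : ∑ l, ‖∑ i ∈ range N, f i * mU T0 T1 (U n) z (q + (i : ℤ)) (c, l)‖ ^ 2 =
          ∑ l, ‖∑ x ∈ D0, g' x * Pf n z c x l‖ ^ 2 :=
        Finset.sum_congr rfl fun l _ => by rw [e1 l]
      rw [e3]
      refine (H.maj n hn z hz c hM g').trans ?_
      have e4 : r⁻¹ / 2 ^ P'.1 = 2 ^ (10 + κ0) * r⁻¹ / 2 ^ (P'.1 + (10 + κ0)) := by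
        rw [pow_add (2 : ℝ) P'.1, mul_comm ((2 : ℝ) ^ (10 + κ0)) r⁻¹,
          mul_div_mul_right _ _ (by positivity)]
      rw [e4]
      refine mul_le_mul_of_nonneg_left ?_ (by positivity)
      obtain ⟨c0, β, δ, hl⟩ := H.lin z
      have e5 : ∑ y ∈ dI (lv c) (cb c), ‖∑ x ∈ D0, g' x * K n z c x y‖ ^ 2 =
          ∑ y ∈ (dI (lv c) (cb c)).filter (fun y => (cb' c - 2 ^ 8) * 2 ^ P'.1 ≤ y ∧
            y < (cb' c - 2 ^ 8) * 2 ^ P'.1 + 2 ^ (P'.1 + (10 + κ0))),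
            ‖∑ x ∈ D0, g' x * K n z c x y‖ ^ 2 := by
        symm
        refine Finset.sum_subset (Finset.filter_subset _ _) fun y hy hy' => ?_
        rw [Finset.sum_eq_zero, norm_zero, zero_pow two_ne_zero]
        intro x _
        by_contra hne
        have hx : x ∈ XR Z P' T1 T2 lv ra cb ra' cb' z c := by
          by_contra hX
          apply hne
          rw [hg']
          simp only [if_neg hX, zero_mul]
        have hK : K n z c x y ≠ 0 := fun h0 => hne (by rw [h0, mul_zero])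
        exact hy' (Finset.mem_filter.2 ⟨hy, window (κ0 := κ0) hl hx (H.sup n hn z hz c x y hK).2.2⟩)
      rw [e5]
      refine (Finset.sum_le_sum_of_subset_of_nonneg (t := Ico ((cb' c - 2 ^ 8) * 2 ^ P'.1)
        ((cb' c - 2 ^ 8) * 2 ^ P'.1 + 2 ^ (P'.1 + (10 + κ0)))) (f := fun y =>
        if y ∈ dI (lv c) (cb c) then ‖∑ x ∈ D0, g' x * K n z c x y‖ ^ 2 else 0)
        (s := (dI (lv c) (cb c)).filter (fun y => (cb' c - 2 ^ 8) * 2 ^ P'.1 ≤ y ∧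
            y < (cb' c - 2 ^ 8) * 2 ^ P'.1 + 2 ^ (P'.1 + (10 + κ0)))) ?_ ?_).trans' ?_ |>.trans ?_
      · intro y hy
        exact Finset.mem_Ico.2 (Finset.mem_filter.1 hy).2
      · intro y _ _
        split_ifs
        · exact sq_nonneg _
        · exact le_rfl
      · refine Finset.sum_le_sum fun y hy => ?_
        rw [if_pos (Finset.mem_filter.1 hy).1]
      · refine Finset.sum_le_sum fun y _ => ?_
        by_cases hy : y ∈ dI (lv c) (cb c)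
        · rw [if_pos hy, e2 y hy]
        · rw [if_neg hy]
          exact sq_nonneg _
    · have e1 : ∀ l, ∑ i ∈ range N, f i * mU T0 T1 (U n) z (q + (i : ℤ)) (c, l) = 0 := by
        intro l
        refine Finset.sum_eq_zero fun i _ => ?_
        unfold mU
        split_ifs
        · rw [hU, if_neg (fun hc => hM hc.1), mul_zero]
        · rw [mul_zero]
      rw [Finset.sum_eq_zero fun l _ => by rw [e1 l, norm_zero]; norm_num]
      positivity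
  · intro n hn z hz c y hy x
    by_contra hne
    unfold BQ at hne
    split_ifs at hne with hc
    · obtain ⟨c0, β, δ, hl⟩ := H.lin z
      exact hy (window (κ0 := κ0) hl hc.2.2.1.2 (H.sup n hn z hz c x y hne).2.2)
    · exact hne rfl
  · intro n _ z _ c x hx y
    unfold BQ
    rw [if_neg (fun hc => hx hc.2.2.1.2.2.2.1)]
  · intro n _ z hz x
    refine ⟨Finset.univ.filter (fun c => Mx (Z z) k P (lv c) (ra c) (cb c) ∧
      x ∈ XR Z P' T1 T2 lv ra cb ra' cb' z c), ?_, ?_⟩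
    · obtain ⟨c0, β, δ, hl⟩ := H.lin z
      have h1 := piece_card hl hC hP hna x (Finset.univ.filter (fun c : γ =>
        Mx (Z z) k P (lv c) (ra c) (cb c) ∧ x ∈ XR Z P' T1 T2 lv ra cb ra' cb' z c))
        lv ra cb ra' cb' (fun t _ t' _ => H.inj t t') (by
          intro t ht
          obtain ⟨_, h2, h3⟩ := Finset.mem_filter.1 ht
          obtain ⟨h4, h5, _, v, h6, h7, _, h8⟩ := h3
          exact ⟨h2, h4, h5, v, h6, h7, h8⟩)
      have h2 : (((Finset.univ.filter (fun c : γ => Mx (Z z) k P (lv c) (ra c) (cb c) ∧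
        x ∈ XR Z P' T1 T2 lv ra cb ra' cb' z c)).card : ℕ) : ℝ) ≤ ((2 ^ 7 + 2 : ℕ) : ℝ) := by
        exact_mod_cast h1
      refine h2.trans (le_of_eq ?_)
      push_cast
      ring
    · intro c hc l
      unfold mU
      split_ifs
      · rw [hU, if_neg (fun h => hc (Finset.mem_filter.2 ⟨Finset.mem_univ _, h.1, h.2⟩))]
      · rfl

/-- the level of a cell which is seen -/
lemma seen_lev {z : ℤ} {c0 β δ : ℤ} (hl : Lin (Z z) c0 β δ) (hC : 2 ^ κ0 ≤ C0)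
    (hP : iv P' ⊆ iv P) (hna : ¬ Adj C0 P P') {c : γ} (hM : Mx (Z z) k P (lv c) (ra c) (cb c))
    {x : ℤ} (hx : x ∈ XR Z P' T1 T2 lv ra cb ra' cb' z c) : P'.1 + κ0 ≤ lv c := by
  obtain ⟨_, h1, _, v, _, h2, _, h3⟩ := hx
  have h4 := cell_size hl hP hna hM h1 h2 h3
  exact level_add_le hC h4

/-- **operator bounds of the dominating kernels** -/
theorem FrR.opS (H : FrR Z S k κ0 d P P' T0 T1 T2 lv ra cb ra' cb' Pf K ρ r Hr) (hρ : 0 ≤ ρ)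
    (hC : 2 ^ κ0 ≤ C0) (hP : iv P' ⊆ iv P) (hna : ¬ Adj C0 P P') {n : ι} (hn : n ∈ S) {z : ℤ}
    (hz : z ∈ T0) (c : γ) {m : ℕ} (hdm : d ≤ m) (hm : m ≤ P'.1 + κ0) (i i' : ℤ) :
    OpS (dI m i) (dI m i') (BQ Z k P P' T1 T2 lv ra cb ra' cb' K n z c) (ρ * 2 ^ m) := by
  classical
  by_cases hX : Mx (Z z) k P (lv c) (ra c) (cb c) ∧ ∃ x, x ∈ XR Z P' T1 T2 lv ra cb ra' cb' z c
  · obtain ⟨hM, x0, hx0⟩ := hX
    obtain ⟨c0, β, δ, hl⟩ := H.lin z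
    have h1 := seen_lev hl hC hP hna hM hx0
    have h2 := masked_op (K := K n z c) (a := ra c) (b := cb c) hρ (hm.trans h1)
      (fun i i' h1 h2 => H.op n hn z hz c hM m hdm hm i i' h1 h2)
      {x | Mx (Z z) k P (lv c) (ra c) (cb c) ∧ x ∈ XR Z P' T1 T2 lv ra cb ra' cb' z c}
      (Set.univ : Set ℤ) i i'
    refine PjC881.opS_congr h2 fun x _ y _ => ?_
    unfold BQ
    by_cases hc : x ∈ dI (lv c) (ra c) ∧ y ∈ dI (lv c) (cb c) ∧
      x ∈ {x | Mx (Z z) k P (lv c) (ra c) (cb c) ∧ x ∈ XR Z P' T1 T2 lv ra cb ra' cb' z c} ∧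
      y ∈ (Set.univ : Set ℤ)
    · rw [if_pos hc]
    · rw [if_neg hc]
  · intro f
    have e0 : ∀ x ∈ dI m i, ∑ y ∈ dI m i', BQ Z k P P' T1 T2 lv ra cb ra' cb' K n z c x y * f y =
        0 := by
      intro x _
      refine Finset.sum_eq_zero fun y _ => ?_
      unfold BQ
      rw [if_neg (fun hc => hX ⟨hc.2.2.1.1, x, hc.2.2.1.2⟩), zero_mul]
    rw [Finset.sum_eq_zero fun x hx => by rw [e0 x hx, norm_zero, zero_pow two_ne_zero]]
    positivity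

/-- rows of the dominating kernels -/
theorem FrR.rows (H : FrR Z S k κ0 d P P' T0 T1 T2 lv ra cb ra' cb' Pf K ρ r Hr) (hHr : 0 ≤ Hr)
    {n : ι} (hn : n ∈ S) {z : ℤ} (hz : z ∈ T0) (c : γ) (x : ℤ) (W : Finset ℤ) :
    ∑ y ∈ W, ‖BQ Z k P P' T1 T2 lv ra cb ra' cb' K n z c x y‖ ^ 2 ≤
      Hr * 2 ^ (P'.1 + (10 + κ0)) := by
  classical
  by_cases hX : x ∈ dI (lv c) (ra c) ∧ Mx (Z z) k P (lv c) (ra c) (cb c)
  · have h1 : ∑ y ∈ W, ‖BQ Z k P P' T1 T2 lv ra cb ra' cb' K n z c x y‖ ^ 2 ≤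
        ∑ y ∈ dI (lv c) (cb c), ‖K n z c x y‖ ^ 2 := by
      have h2 : ∑ y ∈ W, ‖BQ Z k P P' T1 T2 lv ra cb ra' cb' K n z c x y‖ ^ 2 =
          ∑ y ∈ W.filter (fun y => y ∈ dI (lv c) (cb c)),
            ‖BQ Z k P P' T1 T2 lv ra cb ra' cb' K n z c x y‖ ^ 2 := by
        symm
        refine Finset.sum_subset (Finset.filter_subset _ _) fun y hy hy' => ?_
        unfold BQ
        rw [if_neg (fun hc => hy' (Finset.mem_filter.2 ⟨hy, hc.2.1⟩)), norm_zero,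
          zero_pow two_ne_zero]
      rw [h2]
      refine (Finset.sum_le_sum (g := fun y => ‖K n z c x y‖ ^ 2) fun y _ => ?_).trans
        (Finset.sum_le_sum_of_subset_of_nonneg ?_ fun _ _ _ => sq_nonneg _)
      · unfold BQ
        split_ifs
        · exact le_rfl
        · rw [norm_zero, zero_pow two_ne_zero]; exact sq_nonneg _
      · intro y hy
        exact (Finset.mem_filter.1 hy).2
    refine h1.trans ((H.row n hn z hz c hX.2 x hX.1).trans ?_)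
    refine mul_le_mul_of_nonneg_left ?_ hHr
    exact pow_le_pow_right₀ (by norm_num) (Nat.le_add_right _ _)
  · rw [Finset.sum_eq_zero]
    · positivity
    · intro y _
      unfold BQ
      rw [if_neg (fun hc => hX ⟨hc.1, hc.2.2.1.1⟩), norm_zero, zero_pow two_ne_zero]

/-- **energy of the dominating kernels**, one position -/
theorem en_le {z : ℤ} {c0 β δ : ℤ} (hl : Lin (Z z) c0 β δ)
    (hinj : ∀ t t' : γ, lv t = lv t' → ra t = ra t' → cb t = cb t' → ra' t = ra' t' →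
      cb' t = cb' t' → t = t') (hC : 1 ≤ C0) (hP : iv P' ⊆ iv P) (hna : ¬ Adj C0 P P')
    {θ : Type} [DecidableEq θ] (ty : γ → θ) (lvt : θ → ℕ) (rat cbt : θ → ℤ)
    (h1 : ∀ c, lv c = lvt (ty c)) (h2 : ∀ c, ra c = rat (ty c)) (h3 : ∀ c, cb c = cbt (ty c))
    {n : ι} (K' : θ → ℤ → ℤ → ℂ) (hK : ∀ c, K n z c = K' (ty c)) (TT : Finset θ)
    (hTT : ∀ c, Mx (Z z) k P (lv c) (ra c) (cb c) →
      (∃ x, x ∈ XR Z P' T1 T2 lv ra cb ra' cb' z c) → ty c ∈ TT) (W : γ → Finset ℤ) :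
    ∑ c, ∑ x ∈ T1, ∑ y ∈ W c, ‖BQ Z k P P' T1 T2 lv ra cb ra' cb' K n z c x y‖ ^ 2 ≤
      (2 ^ 7 + 2) * ∑ t ∈ TT, ∑ x ∈ dI (lvt t) (rat t), ∑ y ∈ dI (lvt t) (cbt t),
        ‖K' t x y‖ ^ 2 := by
  classical
  set g : θ → ℤ → ℝ := fun t x => ∑ y ∈ dI (lvt t) (cbt t), ‖K' t x y‖ ^ 2 with hg
  have hg0 : ∀ t x, 0 ≤ g t x := fun t x => Finset.sum_nonneg fun _ _ => sq_nonneg _
  set A : ℤ → Finset γ := fun x => Finset.univ.filter (fun c =>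
    Mx (Z z) k P (lv c) (ra c) (cb c) ∧ x ∈ XR Z P' T1 T2 lv ra cb ra' cb' z c) with hA
  have hcard : ∀ x, (A x).card ≤ 2 ^ 7 + 2 := by
    intro x
    refine piece_card (k := k) hl hC hP hna x (A x) lv ra cb ra' cb'
      (fun _ _ _ _ => hinj _ _) ?_
    intro t ht
    obtain ⟨_, h2, h3⟩ := Finset.mem_filter.1 ht
    obtain ⟨h4, h5, _, v, h6, h7, _, h8⟩ := h3
    exact ⟨h2, h4, h5, v, h6, h7, h8⟩
  have hB : ∀ c x, ∑ y ∈ W c, ‖BQ Z k P P' T1 T2 lv ra cb ra' cb' K n z c x y‖ ^ 2 ≤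
      if c ∈ A x then g (ty c) x else 0 := by
    intro c x
    by_cases hc : c ∈ A x
    · rw [if_pos hc]
      have h4 : ∑ y ∈ W c, ‖BQ Z k P P' T1 T2 lv ra cb ra' cb' K n z c x y‖ ^ 2 =
          ∑ y ∈ (W c).filter (fun y => y ∈ dI (lv c) (cb c)),
            ‖BQ Z k P P' T1 T2 lv ra cb ra' cb' K n z c x y‖ ^ 2 := by
        symm
        refine Finset.sum_subset (Finset.filter_subset _ _) fun y hy hy' => ?_
        unfold BQ
        rw [if_neg (fun hc => hy' (Finset.mem_filter.2 ⟨hy, hc.2.1⟩)), norm_zero,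
          zero_pow two_ne_zero]
      rw [h4, hg]
      show _ ≤ ∑ y ∈ dI (lvt (ty c)) (cbt (ty c)), ‖K' (ty c) x y‖ ^ 2
      rw [← h1 c, ← h3 c, ← hK c]
      refine (Finset.sum_le_sum (g := fun y => ‖K n z c x y‖ ^ 2) fun y _ => ?_).trans
        (Finset.sum_le_sum_of_subset_of_nonneg ?_ fun _ _ _ => sq_nonneg _)
      · unfold BQ
        split_ifs
        · exact le_rfl
        · rw [norm_zero, zero_pow two_ne_zero]; exact sq_nonneg _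
      · intro y hy
        exact (Finset.mem_filter.1 hy).2
    · rw [if_neg hc, Finset.sum_eq_zero]
      intro y _
      unfold BQ
      rw [if_neg (fun h => hc (Finset.mem_filter.2 ⟨Finset.mem_univ _, h.2.2.1.1, h.2.2.1.2⟩)),
        norm_zero, zero_pow two_ne_zero]
  have hrow : ∀ x, ∑ c, (if c ∈ A x then g (ty c) x else 0) ≤
      (2 ^ 7 + 2) * ∑ t ∈ TT, (if x ∈ dI (lvt t) (rat t) then g t x else 0) := by
    intro x
    rw [← Finset.sum_filter]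
    have e0 : Finset.univ.filter (fun c => c ∈ A x) = A x := by
      ext c; simp
    rw [e0]
    have e1 : ∑ c ∈ A x, g (ty c) x ≤ (2 ^ 7 + 2) * ∑ t ∈ (A x).image ty, g t x := by
      rw [← Finset.sum_fiberwise_of_maps_to (t := (A x).image ty)
        (fun c hc => Finset.mem_image_of_mem ty hc), Finset.mul_sum]
      refine Finset.sum_le_sum fun t _ => ?_
      have e2 : ∑ c ∈ (A x).filter (fun c => ty c = t), g (ty c) x =
          ((A x).filter (fun c => ty c = t)).card * g t x := by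
        rw [Finset.sum_congr rfl fun c hc => by rw [(Finset.mem_filter.1 hc).2], Finset.sum_const,
          nsmul_eq_mul]
      rw [e2]
      refine mul_le_mul_of_nonneg_right ?_ (hg0 t x)
      have h5 : ((A x).filter (fun c => ty c = t)).card ≤ 2 ^ 7 + 2 :=
        (Finset.card_filter_le _ _).trans (hcard x)
      have h6 : ((((A x).filter (fun c => ty c = t)).card : ℕ) : ℝ) ≤ ((2 ^ 7 + 2 : ℕ) : ℝ) := by
        exact_mod_cast h5
      refine h6.trans (le_of_eq ?_)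
      push_cast
      ring
    refine e1.trans (mul_le_mul_of_nonneg_left ?_ (by norm_num))
    rw [← Finset.sum_filter]
    refine Finset.sum_le_sum_of_subset_of_nonneg ?_ fun t _ _ => hg0 t x
    intro t ht
    obtain ⟨c, hc, rfl⟩ := Finset.mem_image.1 ht
    obtain ⟨_, h5, h6⟩ := Finset.mem_filter.1 hc
    refine Finset.mem_filter.2 ⟨hTT c h5 ⟨x, h6⟩, ?_⟩
    rw [← h1 c, ← h2 c]
    exact h6.2.1
  calc ∑ c, ∑ x ∈ T1, ∑ y ∈ W c, ‖BQ Z k P P' T1 T2 lv ra cb ra' cb' K n z c x y‖ ^ 2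
      ≤ ∑ c, ∑ x ∈ T1, (if c ∈ A x then g (ty c) x else 0) :=
        Finset.sum_le_sum fun c _ => Finset.sum_le_sum fun x _ => hB c x
    _ = ∑ x ∈ T1, ∑ c, (if c ∈ A x then g (ty c) x else 0) := Finset.sum_comm
    _ ≤ ∑ x ∈ T1, (2 ^ 7 + 2) * ∑ t ∈ TT, (if x ∈ dI (lvt t) (rat t) then g t x else 0) :=
        Finset.sum_le_sum fun x _ => hrow x
    _ = (2 ^ 7 + 2) * ∑ t ∈ TT, ∑ x ∈ T1, (if x ∈ dI (lvt t) (rat t) then g t x else 0) := by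
        rw [← Finset.mul_sum, Finset.sum_comm]
    _ ≤ _ := by
        refine mul_le_mul_of_nonneg_left (Finset.sum_le_sum fun t _ => ?_) (by norm_num)
        rw [← Finset.sum_filter]
        refine Finset.sum_le_sum_of_subset_of_nonneg ?_ fun x _ _ => hg0 t x
        intro x hx
        exact (Finset.mem_filter.1 hx).2

open Classical in
/-- **numbers**: trace, diagonal, `HSk` -/
theorem FrR.num (H : FrR Z S k κ0 d P P' T0 T1 T2 lv ra cb ra' cb' Pf K ρ r Hr) (hr : 0 < r)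
    (hρ : 0 ≤ ρ) (hHr : 0 ≤ Hr) (hC : 2 ^ κ0 ≤ C0) (hP : iv P' ⊆ iv P) (hna : ¬ Adj C0 P P')
    {R : Finset Nd} (hR : ∀ p ∈ R, p.1 ≤ P'.1) (hRd : ∀ p ∈ R, d ≤ p.1) {kap : ι → ℝ}
    (hkap : ∀ n ∈ S, 0 ≤ kap n) {G : ℝ} (hG : 0 ≤ G)
    (hE : ∑ n ∈ S, kap n * ∑ z ∈ T0, ∑ c, ∑ x ∈ T1,
      ∑ y ∈ Ico ((cb' c - 2 ^ 8) * 2 ^ P'.1) ((cb' c - 2 ^ 8) * 2 ^ P'.1 + 2 ^ (P'.1 + (10 + κ0))),
      ‖BQ Z k P P' T1 T2 lv ra cb ra' cb' K n z c x y‖ ^ 2 ≤ (2 ^ 7 + 2) * (G * 2 ^ P'.1))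
    {U : ι → ℤ → ℤ → γ × τ → ℂ}
    (hU : ∀ n z x c l, U n z x (c, l) =
      if Mx (Z z) k P (lv c) (ra c) (cb c) ∧ x ∈ XR Z P' T1 T2 lv ra cb ra' cb' z c then
        Pf n z c x l else 0) :
    (∑ n ∈ S, kap n * ∑ z ∈ T0, ∑ x ∈ T1, kD T0 T1 (U n) z x ≤ 2 ^ (10 + κ0) * r⁻¹ * G) ∧
    (∀ n ∈ S, ∀ z x, kD T0 T1 (U n) z x ≤ (2 ^ 7 + 2) * (2 ^ (10 + κ0) * r⁻¹ * Hr)) ∧
    HSk S kap R κ0 ((2 ^ 7 + 2) * (8 * (2 ^ (10 + κ0) * r⁻¹ * ρ) ^ 2) * G) T0 T1 U := by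
  have hC1 : 1 ≤ C0 := le_trans (Nat.one_le_two_pow) hC
  have F := H.cellFr hr hC1 hP hna hU
  have hGE : GE S kap T0 T1 (fun _ : γ => P'.1 + (10 + κ0))
      (fun c => (cb' c - 2 ^ 8) * 2 ^ P'.1) (BQ Z k P P' T1 T2 lv ra cb ra' cb' K) ≤ G := by
    have e1 : GE S kap T0 T1 (fun _ : γ => P'.1 + (10 + κ0))
        (fun c => (cb' c - 2 ^ 8) * 2 ^ P'.1) (BQ Z k P P' T1 T2 lv ra cb ra' cb' K) =
        (1 / (2 : ℝ) ^ (P'.1 + (10 + κ0))) * ∑ n ∈ S, kap n * ∑ z ∈ T0, ∑ c, ∑ x ∈ T1,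
        ∑ y ∈ Ico ((cb' c - 2 ^ 8) * 2 ^ P'.1)
          ((cb' c - 2 ^ 8) * 2 ^ P'.1 + 2 ^ (P'.1 + (10 + κ0))),
        ‖BQ Z k P P' T1 T2 lv ra cb ra' cb' K n z c x y‖ ^ 2 := by
      unfold GE
      rw [Finset.mul_sum]
      refine Finset.sum_congr rfl fun n _ => ?_
      rw [mul_left_comm]
      congr 1
      rw [Finset.mul_sum]
      refine Finset.sum_congr rfl fun z _ => ?_
      rw [Finset.mul_sum]
    rw [e1]
    refine (mul_le_mul_of_nonneg_left hE (by positivity)).trans ?_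
    have h2 : (2 ^ 7 + 2 : ℝ) ≤ 2 ^ (10 + κ0) := by
      have h3 : (2 : ℝ) ^ 10 ≤ 2 ^ (10 + κ0) :=
        pow_le_pow_right₀ (by norm_num) (Nat.le_add_right _ _)
      linarith
    have h4 : (1 / (2 : ℝ) ^ (P'.1 + (10 + κ0))) * ((2 ^ 7 + 2) * (G * 2 ^ P'.1)) =
        (2 ^ 7 + 2) / 2 ^ (10 + κ0) * G := by
      rw [pow_add (2 : ℝ) P'.1]
      field_simp
    rw [h4]
    have h5 : (2 ^ 7 + 2 : ℝ) / 2 ^ (10 + κ0) ≤ 1 := (div_le_one (by positivity)).2 h2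
    calc (2 ^ 7 + 2 : ℝ) / 2 ^ (10 + κ0) * G ≤ 1 * G := mul_le_mul_of_nonneg_right h5 hG
      _ = G := one_mul G
  refine ⟨?_, ?_, ?_⟩
  · exact (F.trace hkap).trans (mul_le_mul_of_nonneg_left hGE (by positivity))
  · intro n hn z x
    refine F.kD_le hHr ?_ hn z x
    intro n hn z hz c x
    exact H.rows hHr hn hz c x _
  · have h1 := F.hsk (R := R) (κ0 := κ0) (ρ := ρ) hkap (fun c p hp => by
        have := hR p hp
        show p.1 + κ0 ≤ P'.1 + (10 + κ0)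
        omega) (by
        intro n hn z hz c p hp k' hk' i i'
        have h2 := hR p hp
        have h3 := hRd p hp
        exact H.opS hρ hC hP hna hn hz c (by omega) (by omega) i i')
    intro p hp k' hk' Λ
    exact (h1 p hp k' hk' Λ).trans (mul_le_mul_of_nonneg_left hGE (by positivity))

end gen

/-! ### the instance -/

open Classical in
/-- pieces: (type of the cell of `P`, (row block, column block)) met by the strip of `P'` -/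
noncomputable def GQ (j : Fin 4) (e : Fin 3) (k : ℕ) (P P' : Nd) (T : Fin 3 → Finset ℤ) :
    Finset ((ℕ × ℤ × ℤ) × (ℤ × ℤ)) :=
  ((S3 T e).filter (fun ω => Yl j e ω.1 ω.2.1 ω.2.2 ∈ iv P')).image (fun ω =>
    (tcell j e k P ω.1 ω.2.1 ω.2.2, (ω.2.1 / 2 ^ P'.1, ω.2.2 / 2 ^ P'.1)))

section inst

variable {ι τ : Type} [Fintype τ] [DecidableEq τ] {j : Fin 4} {e : Fin 3} {k κ0 d C0 : ℕ}
  {P P' : Nd} {T : Fin 3 → Finset ℤ} {S : Finset ι} {kap : ι → ℝ} {R : Finset Nd}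
  {Pf Qf : ι → ℤ → ℕ × ℤ × ℤ → ℤ → τ → ℂ} {CU CW : ι → ℤ → ℕ × ℤ × ℤ → ℤ → ℤ → ℂ}
  {ρ r Hr G : ℝ}

/-- rows of a piece -/
def XU (j : Fin 4) (e : Fin 3) (k : ℕ) (P P' : Nd) (T : Fin 3 → Finset ℤ) (z : ℤ)
    (c : {c // c ∈ GQ j e k P P' T}) : Set ℤ :=
  XR (Yl j e) P' (T (e + 1)) (T (e + 2)) (fun c : {c // c ∈ GQ j e k P P' T} => c.1.1.1)
    (fun c => c.1.1.2.1) (fun c => c.1.1.2.2) (fun c => c.1.2.1) (fun c => c.1.2.2) z c

/-- columns of a piece -/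
def XW (j : Fin 4) (e : Fin 3) (k : ℕ) (P P' : Nd) (T : Fin 3 → Finset ℤ) (z : ℤ)
    (c : {c // c ∈ GQ j e k P P' T}) : Set ℤ :=
  XR (fun z v u => Yl j e z u v) P' (T (e + 2)) (T (e + 1))
    (fun c : {c // c ∈ GQ j e k P P' T} => c.1.1.1)
    (fun c => c.1.1.2.2) (fun c => c.1.1.2.1) (fun c => c.1.2.2) (fun c => c.1.2.1) z c

open Classical in
/-- labelled kernel of the edge `(z, u)` -/
noncomputable def lU (j : Fin 4) (e : Fin 3) (k : ℕ) (P P' : Nd) (T : Fin 3 → Finset ℤ)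
    (Pf : ι → ℤ → ℕ × ℤ × ℤ → ℤ → τ → ℂ) (w : ι) (z u : ℤ)
    (l : {c // c ∈ GQ j e k P P' T} × τ) : ℂ :=
  if Mx (Yl j e z) k P l.1.1.1.1 l.1.1.1.2.1 l.1.1.1.2.2 ∧ u ∈ XU j e k P P' T z l.1 then
    Pf w z l.1.1.1 u l.2 else 0

open Classical in
/-- labelled kernel of the edge `(v, z)` -/
noncomputable def lW (j : Fin 4) (e : Fin 3) (k : ℕ) (P P' : Nd) (T : Fin 3 → Finset ℤ)
    (Qf : ι → ℤ → ℕ × ℤ × ℤ → ℤ → τ → ℂ) (w : ι) (v z : ℤ)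
    (l : {c // c ∈ GQ j e k P P' T} × τ) : ℂ :=
  if Mx (fun v u => Yl j e z u v) k P l.1.1.1.1 l.1.1.1.2.2 l.1.1.1.2.1 ∧
    v ∈ XW j e k P P' T z l.1 then Qf w z l.1.1.1 v l.2 else 0

/-- **the labels reproduce the kernel** -/
theorem lab_eqQ (hP : iv P' ⊆ iv P) (w : ι) {z u v : ℤ} (hz : z ∈ T e) (hu : u ∈ T (e + 1))
    (hv : v ∈ T (e + 2)) (hy : Yl j e z u v ∈ iv P') :
    ∑ l, lU j e k P P' T Pf w z u l * lW j e k P P' T Qf w v z l =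
      ∑ l, Pf w z (tcell j e k P z u v) u l * Qf w z (tcell j e k P z u v) v l := by
  classical
  set t0 := tcell j e k P z u v with ht0
  have hM0 : Mx (Yl j e z) k P t0.1 t0.2.1 t0.2.2 := Mx_mcell (hP hy)
  have hu0 : u ∈ dI t0.1 t0.2.1 := by rw [L0e.mem_dI]; rfl
  have hv0 : v ∈ dI t0.1 t0.2.2 := by rw [L0e.mem_dI]; rfl
  have hu1 : u ∈ dI P'.1 (u / 2 ^ P'.1) := L0e.mem_dI.2 rfl
  have hv1 : v ∈ dI P'.1 (v / 2 ^ P'.1) := L0e.mem_dI.2 rfl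
  have hc0 : (t0, (u / 2 ^ P'.1, v / 2 ^ P'.1)) ∈ GQ j e k P P' T := by
    unfold GQ
    refine Finset.mem_image.2 ⟨(z, u, v), Finset.mem_filter.2 ⟨mem_S3.2 ⟨hz, hu, hv⟩, hy⟩, rfl⟩
  rw [Fintype.sum_prod_type, Finset.sum_eq_single
    (⟨(t0, (u / 2 ^ P'.1, v / 2 ^ P'.1)), hc0⟩ : {c // c ∈ GQ j e k P P' T})]
  · refine Finset.sum_congr rfl fun l _ => ?_
    unfold lU lW
    rw [if_pos ⟨hM0, hu1, hu0, hu, v, hv1, hv0, hv, hy⟩,
      if_pos ⟨Mx.swap hM0, hv1, hv0, hv, u, hu1, hu0, hu, hy⟩]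
  · intro c _ hc
    refine Finset.sum_eq_zero fun l _ => ?_
    unfold lU lW
    by_cases h1 : Mx (Yl j e z) k P c.1.1.1 c.1.1.2.1 c.1.1.2.2 ∧ u ∈ XU j e k P P' T z c
    · by_cases h2 : Mx (fun v u => Yl j e z u v) k P c.1.1.1 c.1.1.2.2 c.1.1.2.1 ∧
          v ∈ XW j e k P P' T z c
      · exfalso
        apply hc
        obtain ⟨a1, a2, a3⟩ := Mx_eq h1.1 hM0 h1.2.2.1 hu0 h2.2.2.1 hv0
        have b1 := h1.2.1
        have b2 := h2.2.1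
        rw [L0e.mem_dI] at b1 b2
        refine Subtype.ext (Prod.ext (Prod.ext a1 (Prod.ext a2 a3)) (Prod.ext ?_ ?_))
        · exact b1.symm
        · exact b2.symm
      · show (if _ then _ else _) * (if _ then _ else _) = _
        rw [if_neg h2, mul_zero]
    · show (if _ then _ else _) * (if _ then _ else _) = _
      rw [if_neg h1, zero_mul]
  · intro h
    exact absurd (Finset.mem_univ _) h

/-- rows -/
lemma FQ.rowsFr (H : FQ S kap j e k κ0 d C0 P P' T R Pf Qf CU CW ρ r Hr G) :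
    FrR (Yl j e) S k κ0 d P P' (T e) (T (e + 1)) (T (e + 2))
      (fun c : {c // c ∈ GQ j e k P P' T} => c.1.1.1) (fun c => c.1.1.2.1) (fun c => c.1.1.2.2)
      (fun c => c.1.2.1) (fun c => c.1.2.2) (fun n z c => Pf n z c.1.1)
      (fun n z c => CU n z c.1.1) ρ r Hr where
  lin z := ⟨_, _, _, lin_Yl j e z⟩
  inj _ _ h1 h2 h3 h4 h5 :=
    Subtype.ext (Prod.ext (Prod.ext h1 (Prod.ext h2 h3)) (Prod.ext h4 h5))
  sup n hn z hz c x y h := H.supU n hn z hz c.1.1 x y h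
  op n hn z hz c hM m hdm hm a b ha hb := H.opU n hn z hz c.1.1 hM m hdm hm a b ha hb
  maj n hn z hz c hM f := H.majU n hn z hz c.1.1 hM c.1.2.1 f
  row n hn z hz c hM x hx := H.rowU n hn z hz c.1.1 hM x hx

/-- columns -/
lemma FQ.colsFr (H : FQ S kap j e k κ0 d C0 P P' T R Pf Qf CU CW ρ r Hr G) :
    FrR (fun z v u => Yl j e z u v) S k κ0 d P P' (T e) (T (e + 2)) (T (e + 1))
      (fun c : {c // c ∈ GQ j e k P P' T} => c.1.1.1) (fun c => c.1.1.2.2) (fun c => c.1.1.2.1)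
      (fun c => c.1.2.2) (fun c => c.1.2.1) (fun n z c => Qf n z c.1.1)
      (fun n z c v u => CW n z c.1.1 u v) ρ r Hr where
  lin z := ⟨_, _, _, (lin_Yl j e z).swap⟩
  inj _ _ h1 h2 h3 h4 h5 :=
    Subtype.ext (Prod.ext (Prod.ext h1 (Prod.ext h3 h2)) (Prod.ext h5 h4))
  sup n hn z hz c x y h := by
    obtain ⟨h1, h2, h3⟩ := H.supW n hn z hz c.1.1 y x h
    exact ⟨h2, h1, h3⟩
  op n hn z hz c hM m hdm hm a b ha hb :=
    opC_tr (H.opW n hn z hz c.1.1 (Mx.swap hM) m hdm hm b a hb ha)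
  maj n hn z hz c hM f := H.majW n hn z hz c.1.1 (Mx.swap hM) c.1.2.2 f
  row n hn z hz c hM x hx := H.colW n hn z hz c.1.1 (Mx.swap hM) x hx

open Classical in
/-- the cells of `Clx`, position by position -/
lemma sum_cells (hP : iv P' ⊆ iv P) (E : ℤ × ℕ × ℤ × ℤ → ℝ) :
    ∑ z ∈ T e, ∑ t ∈ (Clx j e k P P' T).filter (fun t => t.1 = z), E t =
      ∑ t ∈ Clx j e k P P' T, E t :=
  Finset.sum_fiberwise_of_maps_to (fun _ ht => (Clx_spec hP ht).1) E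

open Classical in
/-- a seen maximal cell is in `Clx` -/
lemma ty_mem (hP : iv P' ⊆ iv P) {z : ℤ} (hz : z ∈ T e) {t : ℕ × ℤ × ℤ}
    (hM : Mx (Yl j e z) k P t.1 t.2.1 t.2.2) {u v : ℤ} (hu : u ∈ dI t.1 t.2.1)
    (hv : v ∈ dI t.1 t.2.2) (hu' : u ∈ T (e + 1)) (hv' : v ∈ T (e + 2))
    (hy : Yl j e z u v ∈ iv P') : (z, t) ∈ (Clx j e k P P' T).filter (fun t => t.1 = z) := by
  have h1 := mem_Clx (k := k) (P := P) hz hu' hv' hy
  have h2 := Mx_mcell (k := k) (p := P) (ω := (z, u, v)) (hP hy)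
  obtain ⟨a1, a2, a3⟩ := Mx_eq hM h2 hu (L0e.mem_dI.2 rfl) hv (L0e.mem_dI.2 rfl)
  have h3 : (z, t) = mcell (Yl j e) k P (z, u, v) := Prod.ext rfl (Prod.ext a1 (Prod.ext a2 a3))
  rw [h3]
  exact Finset.mem_filter.2 ⟨h1, rfl⟩

/-- energy of the rows -/
lemma FQ.enR (H : FQ S kap j e k κ0 d C0 P P' T R Pf Qf CU CW ρ r Hr G)
    (W : {c // c ∈ GQ j e k P P' T} → Finset ℤ) :
    ∑ n ∈ S, kap n * ∑ z ∈ T e, ∑ c, ∑ x ∈ T (e + 1), ∑ y ∈ W c,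
      ‖BQ (Yl j e) k P P' (T (e + 1)) (T (e + 2))
      (fun c : {c // c ∈ GQ j e k P P' T} => c.1.1.1) (fun c => c.1.1.2.1) (fun c => c.1.1.2.2)
      (fun c => c.1.2.1) (fun c => c.1.2.2) (fun n z c => CU n z c.1.1) n z c x y‖ ^ 2 ≤
      (2 ^ 7 + 2) * (G * 2 ^ P'.1) := by
  classical
  have hC1 : 1 ≤ C0 := le_trans (Nat.one_le_two_pow) H.hC
  refine le_trans ?_ (mul_le_mul_of_nonneg_left H.enU (by norm_num))
  rw [Finset.mul_sum]
  refine Finset.sum_le_sum fun n hn => ?_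
  rw [mul_left_comm]
  refine mul_le_mul_of_nonneg_left ?_ (H.kap0 n hn)
  rw [← sum_cells (T := T) H.hP, Finset.mul_sum]
  refine Finset.sum_le_sum fun z hz => ?_
  exact en_le (k := k) (P := P) (lin_Yl j e z) H.rowsFr.inj hC1 H.hP H.hna
    (fun c => (z, c.1.1)) (fun t => t.2.1) (fun t => t.2.2.1) (fun t => t.2.2.2)
    (fun _ => rfl) (fun _ => rfl) (fun _ => rfl) (fun t => CU n t.1 t.2) (fun _ => rfl) _
    (fun c hM hx => by
      obtain ⟨x, _, h2, h3, v, _, h5, h6, h7⟩ := hx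
      exact ty_mem H.hP hz hM h2 h5 h3 h6 h7) W

/-- energy of the columns -/
lemma FQ.enC (H : FQ S kap j e k κ0 d C0 P P' T R Pf Qf CU CW ρ r Hr G)
    (W : {c // c ∈ GQ j e k P P' T} → Finset ℤ) :
    ∑ n ∈ S, kap n * ∑ z ∈ T e, ∑ c, ∑ x ∈ T (e + 2), ∑ y ∈ W c,
      ‖BQ (fun z v u => Yl j e z u v) k P P' (T (e + 2)) (T (e + 1))
      (fun c : {c // c ∈ GQ j e k P P' T} => c.1.1.1) (fun c => c.1.1.2.2) (fun c => c.1.1.2.1)
      (fun c => c.1.2.2) (fun c => c.1.2.1) (fun n z c v u => CW n z c.1.1 u v) n z c x y‖ ^ 2 ≤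
      (2 ^ 7 + 2) * (G * 2 ^ P'.1) := by
  classical
  have hC1 : 1 ≤ C0 := le_trans (Nat.one_le_two_pow) H.hC
  refine le_trans ?_ (mul_le_mul_of_nonneg_left H.enW (by norm_num))
  rw [Finset.mul_sum]
  refine Finset.sum_le_sum fun n hn => ?_
  rw [mul_left_comm]
  refine mul_le_mul_of_nonneg_left ?_ (H.kap0 n hn)
  rw [← sum_cells (T := T) H.hP, Finset.mul_sum]
  refine Finset.sum_le_sum fun z hz => ?_
  refine (en_le (k := k) (P := P) (Z := fun z v u => Yl j e z u v) (lin_Yl j e z).swap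
    H.colsFr.inj hC1 H.hP H.hna
    (fun c => (z, c.1.1)) (fun t => t.2.1) (fun t => t.2.2.2) (fun t => t.2.2.1)
    (fun _ => rfl) (fun _ => rfl) (fun _ => rfl) (fun t v u => CW n t.1 t.2 u v) (fun _ => rfl) _
    (fun c hM hx => by
      obtain ⟨x, _, h2, h3, v, _, h5, h6, h7⟩ := hx
      exact ty_mem H.hP hz (Mx.swap hM) h5 h2 h6 h3 h7) W).trans ?_
  refine mul_le_mul_of_nonneg_left (Finset.sum_le_sum fun t _ => ?_) (by norm_num)
  rw [Finset.sum_comm]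

end inst

/-! ### the word -/

/-- the gain with the enlarged windows -/
lemma XS_scale {A g d ρ r Hr Θ B : ℝ} {m0 : ℕ} (hr : 0 < r) (hΘ : 0 < Θ) (hB : 1 ≤ B) :
    XS A g d ρ (r / B) Hr m0 (B * Θ)⁻¹ ≤ B ^ 2 * XS A g d ρ r Hr m0 Θ⁻¹ := by
  have hB0 : 0 < B := by linarith
  have e1 : 1 / (4 * (r / B)) = B * (1 / (4 * r)) := by
    field_simp
  have h1 : eS ρ (r / B) = B ^ 2 * eS ρ r := by
    unfold eS
    rw [e1]
    ring
  have h2 : hS (r / B) Hr = B * hS r Hr := by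
    unfold hS
    rw [e1]
    ring
  have h3 : (B * Θ)⁻¹ ≤ B ^ 2 * Θ⁻¹ := by
    have h4 : (B * Θ)⁻¹ ≤ Θ⁻¹ := by
      refine inv_anti₀ hΘ ?_
      nlinarith
    have h5 : 0 < Θ⁻¹ := inv_pos.2 hΘ
    have h6 : 1 ≤ B ^ 2 := one_le_pow₀ hB
    nlinarith
  unfold XS
  rw [e1, h1, h2]
  have e2 : 2 ^ 7 * g ^ 2 * (B ^ 2 * eS ρ r) + (2 ^ 14 * A ^ 2 * d * (B * hS r Hr) +
      2 ^ 8 * A ^ 2 * (B * hS r Hr) / 2 ^ m0) * (B * (1 / (4 * r))) =
      B ^ 2 * (2 ^ 7 * g ^ 2 * eS ρ r + (2 ^ 14 * A ^ 2 * d * hS r Hr +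
      2 ^ 8 * A ^ 2 * hS r Hr / 2 ^ m0) * (1 / (4 * r))) := by ring
  rw [e2, mul_add (B ^ 2) _ Θ⁻¹]
  exact add_le_add le_rfl h3

lemma XS_nonneg {A g d ρ r Hr θ : ℝ} {m0 : ℕ} (hr : 0 < r) (hHr : 0 ≤ Hr) (hd : 0 ≤ d)
    (hθ : 0 ≤ θ) : 0 ≤ XS A g d ρ r Hr m0 θ := by
  have h1 := hS_nonneg hr hHr
  have h2 := eS_nonneg ρ r
  unfold XS
  positivity

/-- **the far word on `q0`** -/
theorem fq_word : FqP := by
  obtain ⟨K, hK, κ0, hL⟩ := sword_g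
  refine ⟨57 * K * 2 ^ (12 + κ0) * (1 + Real.log (2 ^ (12 + κ0))), ?_, κ0, ?_⟩
  · have : 0 ≤ Real.log ((2 : ℝ) ^ (12 + κ0)) := Real.log_nonneg (one_le_pow₀ (by norm_num))
    positivity
  intro bb hbb R P' hR j e ι τ _ _ S kap k d C0 P T Pf Qf CU CW ρ r Hr G al F A g1 d1 g2 d2 mb H0
    m0 Θ H L Z hF
  classical
  set B : ℝ := 2 ^ (12 + κ0) with hBd
  have hB1 : 1 ≤ B := one_le_pow₀ (by norm_num)
  have hB0 : 0 < B := by linarith
  have hΘ0 : 0 < Θ := by linarith [Z.Θ1]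
  have hr' : 0 < r / B := div_pos H.r0 hB0
  have e4 : 2 ^ (10 + κ0) * r⁻¹ = 1 / (4 * (r / B)) := by
    have h0 := H.r0.ne'
    have h5 : B = 2 ^ (10 + κ0) * 4 := by
      rw [hBd, show (12 + κ0) = (10 + κ0) + 2 by ring, pow_add]
      norm_num
    have h6 : (0 : ℝ) < 2 ^ (10 + κ0) := by positivity
    rw [h5]
    generalize (2 : ℝ) ^ (10 + κ0) = D at *
    field_simp
  obtain ⟨u1, u2, u3⟩ := H.rowsFr.num H.r0 H.ρ0 H.Hr0 H.hC H.hP H.hna H.hR H.hRd H.kap0 H.G0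
    (H.enR _) (U := fun w z u l => lU j e k P P' T Pf w z u l) (fun n z x c l => rfl)
  obtain ⟨w1, w2, w3⟩ := H.colsFr.num H.r0 H.ρ0 H.Hr0 H.hC H.hP H.hna H.hR H.hRd H.kap0 H.G0
    (H.enC _) (U := fun w z v l => lW j e k P P' T Qf w v z l) (fun n z x c l => rfl)
  rw [e4] at u1 u2 u3 w1 w2 w3
  have hmb : 0 ≤ mb := (Finset.sum_nonneg fun w hw => mul_nonneg (H.kap0 w hw)
    (Finset.sum_nonneg fun _ _ => Finset.sum_nonneg fun _ _ => sq_nonneg _)).trans L.gm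
  have hΘB : Θ ≤ B * Θ := by nlinarith
  have hΘ1' : 1 ≤ B * Θ := Z.Θ1.trans hΘB
  have hri : (r / B)⁻¹ ≤ B * Θ := by
    rw [inv_div, div_eq_mul_inv]
    exact mul_le_mul_of_nonneg_left Z.r hB0.le
  have hN := sn_of (m0 := m0) hr' H.Hr0 hΘ1' L.A0 L.g10 L.d10 L.g20 L.d20 H.ρ0 H.G0 hmb L.H00
    (Z.A.trans hΘB) (Z.g1.trans hΘB) (Z.d1.trans hΘB) (Z.g2.trans hΘB) (Z.d2.trans hΘB)
    (Z.ρ.trans hΘB) hri (Z.Hr.trans hΘB) (Z.G.trans hΘB) (Z.mb.trans hΘB) (Z.H0.trans hΘB)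
  have hSW : SW e R κ0 j S kap T (lU j e k P P' T Pf) (lW j e k P P' T Qf)
      (fun w u v => conj (al w u v)) F A g1 d1 g2 d2 (hS (r / B) Hr) (hS (r / B) Hr)
      (1 / (4 * (r / B)) * G) (1 / (4 * (r / B)) * G) (eS ρ (r / B) * G) (eS ρ (r / B) * G)
      mb H0 m0 := by
    refine ⟨H.kap0, L.A0, L.g10, L.d10, L.g20, L.d20, hS_nonneg hr' H.Hr0,
      hS_nonneg hr' H.Hr0, L.flo, L.l2, L.nc1, L.nc2, u2, w2, u1, w1, u3, w3, ?_, ?_⟩
    · simpa only [RCLike.norm_conj] using L.gm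
    · simpa only [RCLike.norm_conj] using L.gh
  have h1 := hL bb hbb R P' hR j e S kap T (lU j e k P P' T Pf) (lW j e k P P' T Qf)
    (fun w u v => conj (al w u v)) F A g1 d1 g2 d2 (hS (r / B) Hr) (hS (r / B) Hr)
    (1 / (4 * (r / B)) * G) (1 / (4 * (r / B)) * G) (eS ρ (r / B) * G) (eS ρ (r / B) * G)
    mb H0 m0 _ _ _ _ _ hSW hN (by
      intro y hy
      rw [hF y hy]
      refine Finset.sum_congr rfl fun w _ => ?_
      congr 1
      unfold kerG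
      refine Finset.sum_congr rfl fun z hz => Finset.sum_congr rfl fun u hu =>
        Finset.sum_congr rfl fun v hv => ?_
      by_cases hyz : Yl j e z u v = y
      · rw [if_pos hyz, if_pos hyz]
        have hyi : Yl j e z u v ∈ iv P' := by rw [hyz]; exact hy
        have e1 := lab_eqQ (Pf := Pf) (Qf := Qf) (k := k) H.hP w hz hu hv hyi
        exact congrArg (fun x => x * conj (al w u v)) e1.symm
      · rw [if_neg hyz, if_neg hyz])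
  refine h1.trans ?_
  set L0 := Real.log Θ with hL0
  have hL00 : 0 ≤ L0 := Real.log_nonneg Z.Θ1
  set LB := Real.log B with hLB
  have hLB0 : 0 ≤ LB := Real.log_nonneg hB1
  have hlog : 1 + 4 * Real.log (2 ^ 20 * (B * Θ) ^ 9) ≤ 57 * ((1 + LB) * (1 + L0)) := by
    rw [Real.log_mul (by positivity) (by positivity), Real.log_pow, Real.log_pow,
      Real.log_mul hB0.ne' hΘ0.ne']
    have h2 := Real.log_two_lt_d9
    have h3 := mul_nonneg hLB0 hL00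
    push_cast
    linarith
  set X1 := XS A g1 d1 ρ r Hr m0 Θ⁻¹ with hX1
  set X2 := XS A g2 d2 ρ r Hr m0 Θ⁻¹ with hX2
  have x1 : XS A g1 d1 ρ (r / B) Hr m0 (B * Θ)⁻¹ ≤ B ^ 2 * X1 :=
    XS_scale H.r0 hΘ0 hB1
  have x2 : XS A g2 d2 ρ (r / B) Hr m0 (B * Θ)⁻¹ ≤ B ^ 2 * X2 :=
    XS_scale H.r0 hΘ0 hB1
  have hi0 : 0 ≤ (B * Θ)⁻¹ := by positivity
  have y1 : 0 ≤ XS A g1 d1 ρ (r / B) Hr m0 (B * Θ)⁻¹ := XS_nonneg hr' H.Hr0 L.d10 hi0
  have y2 : 0 ≤ XS A g2 d2 ρ (r / B) Hr m0 (B * Θ)⁻¹ := XS_nonneg hr' H.Hr0 L.d20 hi0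
  have z1 : 0 ≤ X1 := XS_nonneg H.r0 H.Hr0 L.d10 (inv_pos.2 hΘ0).le
  have z2 : 0 ≤ X2 := XS_nonneg H.r0 H.Hr0 L.d20 (inv_pos.2 hΘ0).le
  set Y1 := XS A g1 d1 ρ (r / B) Hr m0 (B * Θ)⁻¹ with hY1
  set Y2 := XS A g2 d2 ρ (r / B) Hr m0 (B * Θ)⁻¹ with hY2
  have hii : (B * Θ)⁻¹ ≤ Θ⁻¹ := inv_anti₀ hΘ0 hΘB
  have hG := H.G0
  have hA := L.A0
  have hgg : G + (B * Θ)⁻¹ ≤ G + Θ⁻¹ := by linarith
  have hgg0 : 0 ≤ G + (B * Θ)⁻¹ := by linarith
  have haa : A * mb + (B * Θ)⁻¹ ≤ A * mb + Θ⁻¹ := by linarith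
  have haa0 : 0 ≤ A * mb + (B * Θ)⁻¹ := by positivity
  have e3 : Real.sqrt (Y1 * (G + (B * Θ)⁻¹) * (Y2 * (G + (B * Θ)⁻¹))) =
      Real.sqrt (Y1 * Y2) * (G + (B * Θ)⁻¹) := by
    have h4 : Y1 * (G + (B * Θ)⁻¹) * (Y2 * (G + (B * Θ)⁻¹)) =
      Y1 * Y2 * (G + (B * Θ)⁻¹) ^ 2 := by ring
    rw [h4, Real.sqrt_mul' _ (sq_nonneg _), Real.sqrt_sq hgg0]
  rw [e3]
  have e5 : Real.sqrt (Y1 * Y2) ≤ B ^ 2 * Real.sqrt (X1 * X2) := by
    have h4 : Y1 * Y2 ≤ (B ^ 2) ^ 2 * (X1 * X2) := by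
      calc Y1 * Y2 ≤ (B ^ 2 * X1) * (B ^ 2 * X2) := mul_le_mul x1 x2 y2 (by positivity)
        _ = _ := by ring
    calc Real.sqrt (Y1 * Y2) ≤ Real.sqrt ((B ^ 2) ^ 2 * (X1 * X2)) := Real.sqrt_le_sqrt h4
      _ = B ^ 2 * Real.sqrt (X1 * X2) := by
        rw [Real.sqrt_mul (sq_nonneg _), Real.sqrt_sq (by positivity)]
  have e6 : Real.sqrt (Real.sqrt (Y1 * Y2) * (G + (B * Θ)⁻¹) * (A * mb + (B * Θ)⁻¹)) ≤
      B * Real.sqrt (Real.sqrt (X1 * X2) * (G + Θ⁻¹) * (A * mb + Θ⁻¹)) := by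
    have h4 : Real.sqrt (Y1 * Y2) * (G + (B * Θ)⁻¹) * (A * mb + (B * Θ)⁻¹) ≤
        B ^ 2 * (Real.sqrt (X1 * X2) * (G + Θ⁻¹) * (A * mb + Θ⁻¹)) := by
      calc Real.sqrt (Y1 * Y2) * (G + (B * Θ)⁻¹) * (A * mb + (B * Θ)⁻¹) ≤
          (B ^ 2 * Real.sqrt (X1 * X2)) * (G + Θ⁻¹) * (A * mb + Θ⁻¹) := by gcongr
        _ = _ := by ring
    calc _ ≤ Real.sqrt (B ^ 2 * (Real.sqrt (X1 * X2) * (G + Θ⁻¹) * (A * mb + Θ⁻¹))) :=
          Real.sqrt_le_sqrt h4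
      _ = _ := by rw [Real.sqrt_mul (sq_nonneg _), Real.sqrt_sq hB0.le]
  set Sq := Real.sqrt (Real.sqrt (X1 * X2) * (G + Θ⁻¹) * (A * mb + Θ⁻¹)) with hSq
  have hSq0 : 0 ≤ Sq := Real.sqrt_nonneg _
  calc K * (Real.sqrt (Real.sqrt (Y1 * Y2) * (G + (B * Θ)⁻¹) * (A * mb + (B * Θ)⁻¹)) *
        (1 + 4 * Real.log (2 ^ 20 * (B * Θ) ^ 9)) * 2 ^ (P'.1 + 7))
      ≤ K * ((B * Sq) * (57 * ((1 + LB) * (1 + L0))) * 2 ^ (P'.1 + 7)) := by
        have h7 : 0 ≤ 1 + 4 * Real.log (2 ^ 20 * (B * Θ) ^ 9) := by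
          have h8 : 0 ≤ Real.log (2 ^ 20 * (B * Θ) ^ 9) := by
            refine Real.log_nonneg ?_
            have h9 : 1 ≤ (B * Θ) ^ 9 := one_le_pow₀ hΘ1'
            nlinarith
          linarith
        gcongr
    _ = 57 * K * B * (1 + LB) * (Sq * (1 + L0) * 2 ^ (P'.1 + 7)) := by ring

end Crest.Agent.R079.FrQx717
end

-- ▼ part R079/FrZb_360
section

/-! R079 (helper360), T5b of note 1820: **the (S) word of one window for a family of op-atoms** from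
the frame data `FC` of the ladder steps on the grid nodes (`win_one`). -/

set_option autoImplicit false
set_option linter.unusedSectionVars false

namespace Crest.Agent.R079.FrZx360

open Finset Crest.Agent.R079.Grid Crest.Agent.R079.Growth Crest.Agent.R079.QRed
  Crest.Agent.R079.Qh249 Crest.Agent.R079.QVar181
  Crest.Agent.R079.TWin Crest.Agent.R079.Glue Crest.Agent.R079.SWc360 Crest.Agent.R079.Cel159
  Crest.Agent.R079.SplSx69 Crest.Agent.R079.ThA159 Crest.Agent.R079.SKx261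
open Crest.Agent.R079.NC237 (NC2 NCol nc2_of_ncol)
open Crest.Agent.R079.F2
open Crest.Agent.R079.GaFx371 (Ye W0 SE BdE poE mem_W0)
open Crest.Agent.R079.YeYlx263 (xs)
open Crest.Agent.R079.ElS440 (Ln LnF)
open Crest.Agent.R079.FrWx360 (tcY FC Nc win_tot fc_word1)
open Crest.Agent.R079.PFx263 (Fam)
open Crest.Agent.R079.GaDx571 (sd sd_pos)
open Crest.Agent.R079.NodeWx254 (node_g0)

open scoped ComplexConjugate

/-- frame data of the letter `s` on the node `P'`, one label set -/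
def FCe {n : ℕ} (κ : Fin n → ℝ) (i : Fin 4) (e : Fin 3) (n1 k κ0 d : ℕ) (P P' J0 : Nd)
    (T : Fin n → Fin 3 → Finset ℤ) (R : Finset Nd) (g : Fin n → Fin 3 → ℤ → ℤ → ℂ)
    (ρ r Hr G : ℝ) (s : Fn) : Prop :=
  ∃ (C0 : ℕ) (τ : Type) (_ : Fintype τ) (_ : DecidableEq τ)
    (Pf Qf : Fin n → ℤ → ℕ × ℤ × ℤ → ℤ → τ → ℂ) (CU CW : Fin n → ℤ → ℕ × ℤ × ℤ → ℤ → ℤ → ℂ)
    (B : Fin n → ℤ × ℤ × ℤ → ℂ), FC κ i e n1 k κ0 d C0 P P' J0 T R Pf Qf CU CW B ρ r Hr G ∧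
    ∀ y ∈ iv P', s y = LnF (fun l => BdE i e (T l) J0) (fun _ => poE i e)
      (fun _ => 1 / (n1 : ℝ) ^ 2) (fun l ω => g l e ω.2.1 ω.2.2) κ P (FrWx360.ZF i e k P Pf Qf) y

open Classical in
/-- nodes of a window below a grid node, not bottom -/
noncomputable def RQ (W : Finset Nd) (n0 : ℕ) (q : Nd) : Finset Nd :=
  W.filter (fun p => Le p q ∧ n0 ≤ p.1)

open Classical in
lemma mem_RQ {W : Finset Nd} {n0 : ℕ} {q p : Nd} : p ∈ RQ W n0 q ↔ p ∈ W ∧ Le p q ∧ n0 ≤ p.1 := by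
  unfold RQ
  rw [Finset.mem_filter]

lemma RQ_region {W : Finset Nd} {K : Nd} (hW : Full W K) {n0 : ℕ} {q : Nd} (hq : Le q K) :
    IsRegion (RQ W n0 q) q := by
  refine ⟨fun p hp => (mem_RQ.1 hp).2.1, fun p hp s h1 h2 => ?_⟩
  obtain ⟨a1, a2, a3⟩ := mem_RQ.1 hp
  have h4 : p.1 ≤ s.1 := (le_iff.1 (show Le p s from h1)).1
  exact mem_RQ.2 ⟨hW.reg.2 p a1 s h1 (h2.trans hq), h2, a3.trans h4⟩

/-- gain of one ladder step -/
noncomputable def gX (A gk dk Sb mb ρ r Hr : ℝ) (m0 : ℕ) (Θ : ℝ) : ℝ :=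
  (1 + Real.log Θ) * Real.sqrt (Real.sqrt (XS A gk dk ρ r Hr m0 Θ⁻¹ *
    XS A (Sb ^ 2) 0 ρ r Hr m0 Θ⁻¹) * (A * mb + Θ⁻¹))

lemma f3x : ∀ e : Fin 3, e = e + 2 + 1 := by decide

/-- slots: the killer and the partner -/
lemma slot_cases (i : Fin 4) (v e : Fin 3) (he : e ≠ v + 1) :
    (i.succAbove e = i.succAbove v ∧ i.succAbove (e + 1) ≠ i ∧
      i.succAbove (e + 1) ≠ i.succAbove v ∧ i.succAbove (e + 1) ≠ xs i e) ∨
    (i.succAbove (e + 1) = i.succAbove v ∧ i.succAbove e ≠ i ∧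
      i.succAbove e ≠ i.succAbove v ∧ i.succAbove e ≠ xs i e) := by
  unfold xs
  decide +revert

/-- a slot which is neither frozen nor the line slot is the killer or the partner -/
lemma dst_slots (i : Fin 4) (v e : Fin 3) (he : e ≠ v + 1) :
    ∃ y : Fin 4, Dst i (i.succAbove v) (xs i e) y ∧ y ≠ i ∧ y ≠ i.succAbove v ∧ y ≠ xs i e := by
  unfold xs Dst
  decide +revert

section

variable {i m : Fin 4} {v : Fin 3} {n : ℕ} {I : Nd} {Ht Hf La : ℝ} {f : Fn}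
  {T : Fin n → Fin 3 → Finset ℤ} {g : Fin n → Fin 3 → ℤ → ℤ → ℂ} {θ : Fin n → ℤ → ℝ}
  {μ : Fin n → ℝ}

/-- the gauge of an edge which is not the killed one is bounded -/
lemma gauge_le (h : Fam i m v I Ht Hf La n f T g θ μ) (hHf : 0 ≤ Hf) {e : Fin 3} (he : e ≠ v + 1)
    (l : Fin n) (z z' : ℤ) : ‖g l e z z'‖ ≤ Real.sqrt (Hf * Ht) := by
  have hO := h.opD l
  apply Real.le_sqrt_of_sq_le
  rcases GaFx371.f3b v e with h1 | h1 | h1
  · rw [h1]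
    exact (hO.UH z z').trans (mul_le_mul_of_nonneg_left (hO.αH z) hHf)
  · exact absurd h1 he
  · rw [h1]
    exact (hO.VH z' z).trans (mul_le_mul_of_nonneg_left (hO.αH z') hHf)

/-- mass of the gauges -/
lemma gauge_mass (h : Fam i m v I Ht Hf La n f T g θ μ) {kap : ℝ} (hkap : 0 ≤ kap) (hLa : 0 < La)
    (e : Fin 3) : ∑ l, kap * μ l / La * (1 / ((sd I : ℕ) : ℝ) ^ 2 *
      ∑ z ∈ T l e, ∑ z' ∈ T l (e + 1), ‖g l e z z'‖ ^ 2) ≤ kap := by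
  have hs : (0 : ℝ) < ((sd I : ℕ) : ℝ) := by exact_mod_cast sd_pos I
  have h1 : ∀ l, kap * μ l / La * (1 / ((sd I : ℕ) : ℝ) ^ 2 *
      ∑ z ∈ T l e, ∑ z' ∈ T l (e + 1), ‖g l e z z'‖ ^ 2) ≤ kap * μ l / La := by
    intro l
    have h2 := (h.opD l).mass_v e
    have h3 : 1 / ((sd I : ℕ) : ℝ) ^ 2 * ∑ z ∈ T l e, ∑ z' ∈ T l (e + 1), ‖g l e z z'‖ ^ 2 ≤ 1 := by
      rw [div_mul_eq_mul_div, one_mul, div_le_one (by positivity), sq]
      exact h2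
    have h4 : 0 ≤ kap * μ l / La := div_nonneg (mul_nonneg hkap (h.μ0 l)) hLa.le
    exact mul_le_of_le_one_right h4 h3
  refine (Finset.sum_le_sum fun l _ => h1 l).trans ?_
  rw [← Finset.sum_div, ← Finset.mul_sum, div_le_iff₀ hLa]
  exact mul_le_mul_of_nonneg_left h.μ1 hkap

/-- **data of the letters of a far word** -/
theorem skd_of (h : Fam i m v I Ht Hf La n f T g θ μ) (hHf : 0 ≤ Hf) (hLa : 0 < La)
    {kap : ℝ} (hkap : 0 ≤ kap) {e : Fin 3} {R : Finset Nd}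
    {F : Fin 4 → Fn} {A g1 d1 g2 d2 Hs : ℝ} (he : e ≠ v + 1) (hA : 0 ≤ A)
    (hl2 : ∀ p ∈ R, ∀ s, s ≠ xs i e → ∑ y ∈ iv p, ‖F s y‖ ^ 2 ≤ A * len p)
    (hg1 : 0 ≤ g1) (hd1 : 0 ≤ d1) (hg2 : 0 ≤ g2) (hd2 : 0 ≤ d2)
    (hn1 : ∀ p ∈ R, NCs p g1 d1 (F (i.succAbove e)))
    (hn2 : ∀ p ∈ R, NCs p g2 d2 (F (i.succAbove (e + 1))))
    (hHs0 : 0 ≤ Hs) (hHs : ∀ y, ‖F i y‖ ≤ Hs) :
    SKD (fun l => kap * μ l / La) i e (sd I) T R g F A g1 d1 g2 d2 kap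
      (Real.sqrt (Hf * Ht) * Hs) where
  A0 := hA
  g10 := hg1
  d10 := hd1
  g20 := hg2
  d20 := hd2
  H00 := mul_nonneg (Real.sqrt_nonneg _) hHs0
  l2 := hl2
  nc1 := hn1
  nc2 := hn2
  gm := gauge_mass h hkap hLa e
  gh := fun l z _ z' _ y => mul_le_mul (gauge_le h hHf he l z z') (hHs y) (norm_nonneg _)
    (Real.sqrt_nonneg _)

end

/-- **THE (S) WORD OF ONE WINDOW** -/
theorem win_one : ∃ K0 : ℝ, 0 ≤ K0 ∧ ∃ κ0 : ℕ, ∀ {i m : Fin 4} {v : Fin 3} {n : ℕ} {I : Nd}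
    {Ht Hf La : ℝ} {f : Fn} {T : Fin n → Fin 3 → Finset ℤ} {g : Fin n → Fin 3 → ℤ → ℤ → ℂ}
    {θ : Fin n → ℤ → ℝ} {μ : Fin n → ℝ}, Fam i m v I Ht Hf La n f T g θ μ → 0 ≤ Hf → 0 < La →
    ∀ (bb : ℤ), bb = -1 ∨ bb = -7 → ∀ (e : Fin 3), e ≠ v + 1 → ∀ (W : Finset Nd) (K : Nd),
    Full W K → iv K ⊆ iv I → ∀ (kap : ℝ), 0 ≤ kap → ∀ (kc j0 n0 Kl : ℕ) (Q : Finset Nd)
    (dd : Nd → ℕ) (G : Fin 4 → Fn) (Sf : ℕ → Nd → Fn) (A Ai Hs Bm gk dk Sa Sb Θ E X : ℝ)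
    (ρ r Hr : ℕ → ℝ) (En : ℕ → Nd → ℝ),
    (∀ q ∈ Q, Le q K ∧ q.1 = K.1 - j0) →
    (∀ p ∈ W, ¬ Nc j0 n0 K p → ∃ q ∈ Q, Le p q) →
    0 ≤ gk → 0 ≤ dk → 0 ≤ Hs → 0 ≤ Sa → 0 ≤ Sb → 0 ≤ X → 0 ≤ A → Ai ^ 2 ≤ A → Bm ^ 2 ≤ A →
    Sb ^ 2 ≤ A →
    (∀ p ∈ W, av p (G i) ≤ Ai) → (∀ y ∈ iv I, ‖G i y‖ ≤ Hs) → (∀ p ∈ W, av p (G m) ≤ Bm) →
    NCol W (G m) gk dk → (∀ p ∈ W, av p (G (xs i e)) ≤ Sa) →
    (∀ p ∈ W, ∀ s, s ≠ i → s ≠ m → s ≠ xs i e → av p (G s) ≤ Sb) →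
    (∀ q ∈ Q, ∀ y ∈ iv q, G (xs i e) y = ∑ a : Fin Kl, ((a : ℕ) + 1 : ℂ) * Sf a q y) →
    (∀ q ∈ Q, ∀ a < Kl, FCe (fun l => kap * μ l / La) i e (sd I) kc κ0 (dd q) K q I T
      (RQ W n0 q) g (ρ a) (r a) (Hr a) (En a q) (Sf a q)) →
    (∀ a < Kl, ∑ q ∈ Q, En a q * (2 : ℝ) ^ (q.1 + 7) ≤ E * 2 ^ (K.1 + 7)) →
    (∀ a < Kl, SKZ Θ A gk dk (Sb ^ 2) 0 (ρ a) (r a) (Hr a) 0 kap (Real.sqrt (Hf * Ht) * Hs)) →
    (∀ a < Kl, gX A gk dk Sb kap (ρ a) (r a) (Hr a) n0 Θ ≤ X) →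
    ∑ p ∈ W, ∑ x ∈ adm p.1 p.2, ‖Lbox (2 ^ p.1) bb G x‖ ≤
      ((j0 + 1 + n0) * (2 ^ 12 * Real.sqrt (3 * gk * Ai ^ 2 + dk * (Hs ^ 2 * Bm ^ 2)) * Sa * Sb) +
        (Kl : ℝ) ^ 2 * (K0 * X) * (1 + E)) * 2 ^ (K.1 + 7) := by
  classical
  obtain ⟨K0, hK0, κ0, hfc⟩ := fc_word1 FrQx717.fq_word
  refine ⟨K0, hK0, κ0, ?_⟩
  intro i m v n I Ht Hf La f T g θ μ h hHf hLa bb hbb e he W K hW hKI kap hkap kc j0 n0 Kl Q dd
    G Sf A Ai Hs Bm gk dk Sa Sb Θ E X ρ r Hr En hQm hQ hgk hdk hHs hSa hSb hX hA hAi hBm hSbA hGi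
    hGH hGm hnc hGx hGy hrep hFC hEn hZ hgX
  have hvm := h.vm
  subst hvm
  -- the frozen letter is cut outside `iv I`
  set f' : Fn := fun y => if y ∈ iv I then G i y else 0 with hf'
  set H : Fin 4 → Fn := Function.update G i f' with hH
  have hxi : xs i e ≠ i := Fin.succAbove_ne _ _
  have hHx : H (xs i e) = G (xs i e) := Function.update_of_ne hxi _ _
  have hHi : H i = f' := Function.update_self _ _ _
  have hWI : ∀ p ∈ W, iv p ⊆ iv I := fun p hp => (hW.reg.1 p hp).trans hKI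
  have hHeq : ∀ p ∈ W, ∀ s, ∀ y ∈ iv p, G s y = H s y := by
    intro p hp s y hy
    by_cases hs : s = i
    · subst hs
      rw [hHi, hf']
      simp only [hWI p hp hy, if_true]
    · rw [hH, Function.update_of_ne hs]
  have hcong : ∑ p ∈ W, ∑ x ∈ adm p.1 p.2, ‖Lbox (2 ^ p.1) bb G x‖ =
      ∑ p ∈ W, ∑ x ∈ adm p.1 p.2, ‖Lbox (2 ^ p.1) bb H x‖ := by
    refine Finset.sum_congr rfl fun p hp => Finset.sum_congr rfl fun x hx => ?_
    rw [Qb247.Lbox_congr p.1 p.2 bb x hbb hx G H (fun s y hy => hHeq p hp s y hy)]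
  rw [hcong]
  have havH : ∀ p ∈ W, ∀ s, av p (H s) = av p (G s) := fun p hp s => by
    unfold av av2
    congr 2
    exact Finset.sum_congr rfl fun y hy => by rw [hHeq p hp s y hy]
  obtain ⟨y0, hDst, hy1, hy2, hy3⟩ := dst_slots i v e he
  have hHm : H (i.succAbove v) = G (i.succAbove v) :=
    Function.update_of_ne (Fin.succAbove_ne _ _) _ _
  -- the near nodes
  have hnear : ∀ p ∈ W, ∑ x ∈ adm p.1 p.2, ‖Lbox (2 ^ p.1) bb H x‖ ≤
      (2 ^ 12 * Real.sqrt (3 * gk * Ai ^ 2 + dk * (Hs ^ 2 * Bm ^ 2)) * Sa * Sb) *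
        2 ^ (p.1 + 7) := by
    intro p hp
    refine node_g0 (a := xs i e) (b := y0) hDst hbb hp H hgk hdk hHs hSa ?_ ?_ ?_ ?_ ?_ ?_
    · rw [havH p hp]; exact hGi p hp
    · intro z hz
      rw [← hHeq p hp i z hz]
      exact hGH z (hWI p hp hz)
    · rw [havH p hp]; exact hGm p hp
    · rw [hHm]; exact hnc
    · rw [havH p hp]; exact hGx p hp
    · rw [havH p hp]; exact hGy p hp y0 hy1 hy2 hy3
  have key := win_tot (σ := Fin Kl) hbb (W := W) (P := K) (fun p hp => hW.reg.1 p hp) j0 n0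
    (xs i e) H (g0 := 2 ^ 12 * Real.sqrt (3 * gk * Ai ^ 2 + dk * (Hs ^ 2 * Bm ^ 2)) * Sa * Sb)
    (by positivity) (fun p hp _ => hnear p hp) Q hQ (m := K.1 - j0) hQm
    (fun a => ((a : ℕ) + 1 : ℂ)) (fun a q => Sf a q)
    (fun q hq y hy => by rw [hHx]; exact hrep q hq y hy)
    (fun a q => En a q) (X := K0 * X) (E := E) (by positivity) ?_ (fun a => hEn a a.2)
  · refine key.trans ?_
    have h1 : ∑ a : Fin Kl, ‖((a : ℕ) + 1 : ℂ)‖ ≤ (Kl : ℝ) ^ 2 := by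
      have h2 : ∀ a : Fin Kl, ‖((a : ℕ) + 1 : ℂ)‖ ≤ (Kl : ℝ) := by
        intro a
        have h3 : ((a : ℕ) + 1 : ℂ) = (((a : ℕ) + 1 : ℕ) : ℂ) := by push_cast; ring
        rw [h3, Complex.norm_natCast]
        exact_mod_cast a.2
      refine (Finset.sum_le_sum fun a _ => h2 a).trans (le_of_eq ?_)
      rw [Finset.sum_const, Finset.card_univ, Fintype.card_fin, nsmul_eq_mul, sq]
    by_cases hKl : Kl = 0
    · subst hKl
      simp
    · have hE : 0 ≤ 1 + E := by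
        have h4 := hEn 0 (Nat.pos_of_ne_zero hKl)
        have h5 : 0 ≤ ∑ q ∈ Q, En 0 q * (2 : ℝ) ^ (q.1 + 7) := by
          refine Finset.sum_nonneg fun q hq => ?_
          obtain ⟨C0, τ, _, _, Pf, Qf, CU, CW, B, hFCq, _⟩ := hFC q hq 0 (Nat.pos_of_ne_zero hKl)
          exact mul_nonneg hFCq.G0 (by positivity)
        have h6 : (0 : ℝ) < 2 ^ (K.1 + 7) := by positivity
        have h7 : 0 ≤ E := by
          by_contra hneg
          push Not at hneg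
          have : E * 2 ^ (K.1 + 7) < 0 := mul_neg_of_neg_of_pos hneg h6
          linarith
        linarith
      have h8 : (∑ a : Fin Kl, ‖((a : ℕ) + 1 : ℂ)‖) * (K0 * X) * (1 + E) ≤
          (Kl : ℝ) ^ 2 * (K0 * X) * (1 + E) :=
        mul_le_mul_of_nonneg_right (mul_le_mul_of_nonneg_right h1 (by positivity)) hE
      exact mul_le_mul_of_nonneg_right (add_le_add le_rfl h8) (by positivity)
  · -- the far words
    intro q hq a
    obtain ⟨C0, τ, i1, i2, Pf, Qf, CU, CW, B, hFCq, hs⟩ := hFC q hq a a.2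
    set R := RQ W n0 q with hR
    have hRW : ∀ p ∈ R, p ∈ W := fun p hp => (mem_RQ.1 hp).1
    have hReg : IsRegion R q := RQ_region hW (hQm q hq).1
    set F' : Fin 4 → Fn := Function.update H (xs i e) (Sf a q) with hF'
    have hFs : ∀ s, s ≠ xs i e → F' s = H s := fun s hs => Function.update_of_ne hs _ _
    have hFx : F' (xs i e) = Sf a q := Function.update_self _ _ _
    have hl2 : ∀ p ∈ R, ∀ s, s ≠ xs i e → ∑ y ∈ iv p, ‖F' s y‖ ^ 2 ≤ A * len p := by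
      intro p hp s hs
      rw [hFs s hs]
      have hlp := (Growth.len_pos p).le
      have h1 : ∀ C : ℝ, av p (H s) ≤ C → C ^ 2 ≤ A → ∑ y ∈ iv p, ‖H s y‖ ^ 2 ≤ A * len p :=
        fun C hC hCA => (Leaf259.sum2_of_av hC).trans (mul_le_mul_of_nonneg_right hCA hlp)
      by_cases hsi : s = i
      · subst hsi
        exact h1 Ai (by rw [havH p (hRW p hp)]; exact hGi p (hRW p hp)) hAi
      · by_cases hsm : s = i.succAbove v
        · subst hsm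
          exact h1 Bm (by rw [havH p (hRW p hp)]; exact hGm p (hRW p hp)) hBm
        · exact h1 Sb (by rw [havH p (hRW p hp)]; exact hGy p (hRW p hp) s hsi hsm hs) hSbA
    have hkil : ∀ p ∈ R, NCs p gk dk (F' (i.succAbove v)) := by
      intro p hp
      have hne : i.succAbove v ≠ xs i e := by
        rintro hcon
        have : v = e + 2 := Fin.succAbove_right_injective hcon
        exact he (by rw [this]; exact f3x e)
      rw [hFs _ hne, hHm]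
      exact POx263.ncs_of_ncol hnc (hRW p hp)
    have hpar : ∀ s, s ≠ i → s ≠ i.succAbove v → s ≠ xs i e → ∀ p ∈ R,
        NCs p (Sb ^ 2) 0 (F' s) := by
      intro s hsi hsm hsx p hp
      rw [hFs s hsx]
      refine ncs_of_l2 ?_
      exact Leaf259.sum2_of_av (by rw [havH p (hRW p hp)]; exact hGy p (hRW p hp) s hsi hsm hsx)
    have hFi : ∀ y, ‖F' i y‖ ≤ Hs := by
      intro y
      rw [hFs i (Ne.symm hxi), hHi, hf']
      by_cases hy : y ∈ iv I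
      · simp only [hy, if_true]
        exact hGH y hy
      · simp only [hy, if_false, norm_zero]
        exact hHs
    have hrepF : ∀ y ∈ iv q, F' (xs i e) y = LnF (fun l => BdE i e (T l) I) (fun _ => poE i e)
        (fun _ => 1 / ((sd I : ℕ) : ℝ) ^ 2) (fun l ω => g l e ω.2.1 ω.2.2)
        (fun l => kap * μ l / La) K (FrWx360.ZF i e kc K Pf Qf) y := fun y hy => by
      rw [hFx]; exact hs y hy
    have hm0 : ∀ p ∈ R, n0 ≤ p.1 := fun p hp => (mem_RQ.1 hp).2.2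
    have hG0 := hFCq.G0
    have Zq := hZ a a.2
    have hgXa := hgX a a.2
    have hfin : ∀ Y : ℝ, Y ≤ K0 * gX A gk dk Sb kap (ρ a) (r a) (Hr a) n0 Θ * (1 + En a q) *
        2 ^ (q.1 + 7) → Y ≤ K0 * X * (1 + En a q) * 2 ^ (q.1 + 7) := by
      intro Y hY
      refine hY.trans ?_
      gcongr
    show ∑ p ∈ R, ∑ x ∈ adm p.1 p.2, ‖Lbox (2 ^ p.1) bb F' x‖ ≤ _
    apply hfin
    rcases slot_cases i v e he with ⟨c1, c2, c3, c4⟩ | ⟨c1, c2, c3, c4⟩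
    · have hD := skd_of h hHf hLa hkap (R := R) (F := F') (g1 := gk) (d1 := dk) (g2 := Sb ^ 2)
        (d2 := 0) he hA hl2 hgk hdk (sq_nonneg _) le_rfl (by rw [c1]; exact hkil)
        (hpar _ c2 c3 c4) hHs hFi
      have h1 := hfc bb hbb R q hReg i e (fun l => kap * μ l / La) (sd I) kc (dd q) C0 K I T Pf Qf
        CU CW B (ρ a) (r a) (Hr a) (En a q) g F' A gk dk (Sb ^ 2) 0 kap
        (Real.sqrt (Hf * Ht) * Hs) n0 Θ hFCq hD hm0 Zq hrepF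
      refine h1.trans (le_of_eq ?_)
      unfold gX
      ring
    · have hD := skd_of h hHf hLa hkap (R := R) (F := F') (g1 := Sb ^ 2) (d1 := 0) (g2 := gk)
        (d2 := dk) he hA hl2 (sq_nonneg _) le_rfl hgk hdk (hpar _ c2 c3 c4)
        (by rw [c1]; exact hkil) hHs hFi
      have h1 := hfc bb hbb R q hReg i e (fun l => kap * μ l / La) (sd I) kc (dd q) C0 K I T Pf Qf
        CU CW B (ρ a) (r a) (Hr a) (En a q) g F' A (Sb ^ 2) 0 gk dk kap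
        (Real.sqrt (Hf * Ht) * Hs) n0 Θ hFCq hD hm0
        ⟨Zq.Θ1, Zq.A, Zq.g2, Zq.d2, Zq.g1, Zq.d1, Zq.ρ, Zq.r, Zq.Hr, Zq.G, Zq.mb, Zq.H0⟩ hrepF
      refine h1.trans (le_of_eq ?_)
      unfold gX
      rw [mul_comm (XS A (Sb ^ 2) 0 _ _ _ _ _)]
      ring

end Crest.Agent.R079.FrZx360
end

-- ▼ part R079/GaV_253
section

/-! R079, Step I, (G) words (helper253): UNTRUNCATION of the three (G) totals for the setup `Su` of
`GnU_263`: all three letters (glued letter, partner, killer letter of the slot `m`) are truncated at the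
same height `H * 3`.

* `av_gl3`  : averages `≤ 3` of the glued letters inside the windows;
* `v4_swap` : the two free slots exchanged;
* **`untr3`** : the three totals against the truncated totals, in the slots of 571's `g_static` /
  `g_moving`. -/

set_option autoImplicit false

namespace Crest.Agent.R079.GaVx253

open Finset Crest.Agent.R079.Grid Crest.Agent.R079.Growth Crest.Agent.R079.QRed
  Crest.Agent.R079.TWin
open Crest.Agent.R079.RelW653 (NMP)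
open Crest.Agent.R079.RelV653 (PenC)
open Crest.Agent.R079.TRec Crest.Agent.R079.T6bx252 Crest.Agent.R079.AsmA844
  Crest.Agent.R079.OpS276 Crest.Agent.R079.POx263 Crest.Agent.R079.GnMx45
  Crest.Agent.R079.WS112 Crest.Agent.R079.WS0112 Crest.Agent.R079.PFx263
  Crest.Agent.R079.GaDx571 Crest.Agent.R079.GaTx571 Crest.Agent.R079.TKx248
  Crest.Agent.R079.TauWx253 Crest.Agent.R079.TauMx253 Crest.Agent.R079.GnUx263
  Crest.Agent.R079.ThA159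


/-- averages of the glued near-minimisers, `av ≤ 1` data -/
lemma av_gl3 {c : Fin 2 → ℝ} {Φ : Fin 2 → Nd → Fn → ℝ} {Z : Fin 2 → Fn} {η : ℝ}
    {f : Fin 2 → Nd → Fn} {Kw : Fin 2 → Nd → Fn → Prop}
    (hP : ∀ c', PenC (c c') (Kw c') (Φ c')) (hc : ∀ c', c c' ≤ 1)
    (hf : ∀ c', NMP (Kw c') (Φ c') (Z c') η (f c')) (hη : η ≤ 1)
    {R W : Finset Nd} {K : Nd} (hZ : ∀ c', ∀ p ∈ R, av p (Z c') ≤ 1) (hW : Full W K) (hWR : W ⊆ R)
    (c' : Fin 2) {p : Nd} (hp : p ∈ W) : av p (gl W (f c')) ≤ 3 := by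
  have h1 := FLDx263.av_gl_le (hP c') (hf c') hW hp
  have h2 : av p (Z c') ^ 2 ≤ 1 := by
    have := pow_le_pow_left₀ (Growth.av_nonneg _ _) (hZ c' p (hWR hp)) 2
    linarith
  have h3 := hc c'
  have h4 : av p (gl W (f c')) ^ 2 ≤ 3 ^ 2 := by linarith
  exact (sq_le_sq₀ (Growth.av_nonneg _ _) (by norm_num)).1 h4


end Crest.Agent.R079.GaVx253
end

-- ▼ part R079/FrZc_360

/-! R079 (helper360), T5b of note 1820: **THE FIVE (S) WORDS OF ONE WINDOW** for the data `Su` of one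
generation, frame letters `PsiS` of 255 with the frame kernels of 228.

* `FCX` : frame data of one ladder step on one grid node, concrete frames (T5c);
* `zS` : the frame kernels; `PsiZ` : the frame letters;
* `av_psi` : averages of the frame letters;
* **`swd_su`** : `SWd` of `NJ_112` from `FCX`. -/

set_option autoImplicit false
set_option linter.unusedSectionVars false

namespace Crest.Agent.R079.FrZx360

open Finset Crest.Agent.R079.Grid Crest.Agent.R079.Growth Crest.Agent.R079.QRed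
  Crest.Agent.R079.Qh249 Crest.Agent.R079.QVar181
  Crest.Agent.R079.TWin Crest.Agent.R079.Glue Crest.Agent.R079.SWc360 Crest.Agent.R079.Cel159
  Crest.Agent.R079.SplSx69 Crest.Agent.R079.ThA159 Crest.Agent.R079.SKx261
open Crest.Agent.R079.NC237 (NC2 NCol nc2_of_ncol)
open Crest.Agent.R079.F2
open Crest.Agent.R079.GaFx371 (Ye W0 SE BdE poE mem_W0)
open Crest.Agent.R079.YeYlx263 (xs)
open Crest.Agent.R079.ElS440 (Ln LnF)
open Crest.Agent.R079.FrWx360 (tcY FC Nc win_tot fc_word1)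
open Crest.Agent.R079.PFx263 (Fam)
open Crest.Agent.R079.GaDx571 (sd sd_pos penPhi)
open Crest.Agent.R079.NodeWx254 (node_g0)
open Crest.Agent.R079.RelW653 (NMP)
open Crest.Agent.R079.RelV653 (PenC)
open Crest.Agent.R079.TRec Crest.Agent.R079.AsmA844 Crest.Agent.R079.WS112
  Crest.Agent.R079.WS0112 Crest.Agent.R079.POx263 Crest.Agent.R079.GnUx263
  Crest.Agent.R079.SbWx795 Crest.Agent.R079.ErMx255 Crest.Agent.R079.ErLx255
open Crest.Agent.R079.GnSx263 (ek)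
open Crest.Agent.R079.NJ112 (SWd)
open Crest.Agent.R079.Qe292 (Wd mem_Wd)
open Crest.Agent.R079.OpS276 (Dst4)

open scoped ComplexConjugate

/-- **T5c**: frame data of the step `a` on the grid node `q0` of the sub-top `K` (range `V`, window
`W'`), concrete frames -/
def FCX {n : ℕ} (i : Fin 4) (e : Fin 3) (kc j0 n0 Kl κ0 : ℕ) (V W' : Finset Nd) (K I : Nd)
    (T : Fin n → Fin 3 → Finset ℤ) (g : Fin n → Fin 3 → ℤ → ℤ → ℂ) (r : ℕ → ℝ) (gg : Fn)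
    (κ : Fin n → ℝ) (ρ rr Hr G : ℝ) (a : ℕ) (q0 : Nd) : Prop :=
  ∃ (C0 : ℕ) (CU CW : Fin n → ℤ → ℕ × ℤ × ℤ → ℤ → ℤ → ℂ) (B : Fin n → ℤ × ℤ × ℤ → ℂ),
    FC κ i e (sd I) kc κ0 (dq V n0 q0) C0 K q0 I T (RQ W' n0 q0)
      (PfX i e kc j0 n0 Kl V K I T g r gg a q0) (QfX i e kc j0 n0 Kl V K I T g r gg a q0) CU CW B
      ρ rr Hr G

lemma FCX.fce {n : ℕ} {i : Fin 4} {e : Fin 3} {kc j0 n0 Kl κ0 : ℕ} {V W' : Finset Nd} {K I : Nd}
    {T : Fin n → Fin 3 → Finset ℤ} {g : Fin n → Fin 3 → ℤ → ℤ → ℂ} {r : ℕ → ℝ} {gg : Fn}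
    {κ : Fin n → ℝ} {ρ rr Hr G : ℝ} {a : ℕ} {q0 : Nd}
    (h : FCX i e kc j0 n0 Kl κ0 V W' K I T g r gg κ ρ rr Hr G a q0) :
    FCe κ i e (sd I) kc κ0 (dq V n0 q0) K q0 I T (RQ W' n0 q0) g ρ rr Hr G
      (stX i e kc j0 n0 Kl V K I T g r gg κ (sd I) a q0) := by
  obtain ⟨C0, CU, CW, B, h⟩ := h
  exact ⟨C0, LbX T e, inferInstance, inferInstance, _, _, CU, CW, B, h, fun _ _ => rfl⟩

/-- the frame kernels of the two letters -/
noncomputable def zS (i : Fin 4) (kc j0 n0 Kl k0 : ℕ) {n : ℕ} (T : Fin n → Fin 3 → Finset ℤ)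
    (g : Fin n → Fin 3 → ℤ → ℤ → ℂ) (I : Nd) (r : ℕ → ℝ) (es : Fin 2 → Fin 3)
    (f : Fin 2 → Nd → Fn) (V : Nd → Finset Nd) (c : Fin 2) (K : Nd) (l : Fin n) (a : ℕ) :
    ℤ × ℤ × ℤ → ℂ :=
  zfX i (es c) kc j0 n0 Kl (V K) K I T g r (gl (V K) (f c)) (QQ (V K) k0 j0 n0 K) l a

/-- **the frame letters** -/
noncomputable def PsiZ (i : Fin 4) {n : ℕ} (T : Fin n → Fin 3 → Finset ℤ)
    (g : Fin n → Fin 3 → ℤ → ℤ → ℂ) (mu : Fin n → ℝ) (I : Nd) (La kap : ℝ) (kc Kl : ℕ) (r : ℕ → ℝ)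
    (es : Fin 2 → Fin 3) (f : Fin 2 → Nd → Fn) (V : Nd → Finset Nd) (k0 j0 n0 : ℕ) :
    Fin 2 → Nd → Fn :=
  PsiS i T g mu I La kap kc Kl r es f V k0 j0 n0 (zS i kc j0 n0 Kl k0 T g I r es f V)

/-- the two forms of the frame letter -/
lemma psiZ_eq (i : Fin 4) {n : ℕ} (T : Fin n → Fin 3 → Finset ℤ)
    (g : Fin n → Fin 3 → ℤ → ℤ → ℂ) (mu : Fin n → ℝ) (I : Nd) (La kap : ℝ) (kc Kl : ℕ) (r : ℕ → ℝ)
    (es : Fin 2 → Fin 3) (f : Fin 2 → Nd → Fn) (V : Nd → Finset Nd) (k0 j0 n0 : ℕ) (c : Fin 2)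
    (K : Nd) : PsiZ i T g mu I La kap kc Kl r es f V k0 j0 n0 c K =
      psX i (es c) kc j0 n0 Kl (V K) K I T g r (gl (V K) (f c)) (fun l => kap * mu l / La) (sd I)
        (LayK (V K) k0 j0 n0 K) (QQ (V K) k0 j0 n0 K) := rfl

/-- letters on the grid nodes -/
lemma psiZ_rep (i : Fin 4) {n : ℕ} (T : Fin n → Fin 3 → Finset ℤ)
    (g : Fin n → Fin 3 → ℤ → ℤ → ℂ) (mu : Fin n → ℝ) (I : Nd) (La kap : ℝ) (kc Kl : ℕ) (r : ℕ → ℝ)
    (es : Fin 2 → Fin 3) (f : Fin 2 → Nd → Fn) (V : Nd → Finset Nd) (k0 j0 n0 : ℕ) (c : Fin 2)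
    (K : Nd) {q0 : Nd} (hq : q0 ∈ QQ (V K) k0 j0 n0 K) {y : ℤ} (hy : y ∈ iv q0) :
    PsiZ i T g mu I La kap kc Kl r es f V k0 j0 n0 c K y = ∑ a : Fin Kl, ((a : ℕ) + 1 : ℂ) *
      stX i (es c) kc j0 n0 Kl (V K) K I T g r (gl (V K) (f c)) (fun l => kap * mu l / La) (sd I)
        a q0 y := by
  classical
  rw [psiZ_eq]
  refine psX_rep (fun q hq q' hq' hne => QQ_disj hq hq' hne) hq (fun z hz => ?_) hy
  unfold LayK
  rw [Finset.mem_sdiff, not_and, not_not]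
  intro _
  exact Finset.mem_biUnion.2 ⟨q0, hq, hz⟩

lemma av_neg' (p : Nd) (X : Fn) : av p (fun y => - X y) = av p X := by
  unfold av av2
  simp only [norm_neg]

lemma av_sub' (p : Nd) (X Y : Fn) : av p (fun y => X y - Y y) ≤ av p X + av p Y := by
  have h := TWin.av_add_le p X (fun y => - Y y)
  rw [av_neg'] at h
  simpa only [sub_eq_add_neg] using h

section

variable {P : Prm} {d ε k q3 : ℝ} {i m e e' : Fin 4} {N : ℕ} {B t : ℝ} {W : Finset Nd} {I : Nd}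
  {F : Fin 4 → Fn} {xy : Fin 2 → Fin 4} {bb : ℤ} {E : ℕ → ℤ → ℂ} {R : Finset Nd} {J : Nd}
  {Z : Fin 2 → Fn} {v : Fin 3} {n : ℕ} {T : Fin n → Fin 3 → Finset ℤ}
  {g : Fin n → Fin 3 → ℤ → ℤ → ℂ} {al : Fin n → ℤ → ℝ} {mu : Fin n → ℝ} {es : Fin 2 → Fin 3}

/-- averages of the glued letters -/
lemma av_glV (h : Su P d ε k q3 i m e e' N B t W I F xy bb E R J Z v n T g al mu es) (hk : 0 ≤ k)
    {kap η : ℝ} (hkap : 0 ≤ kap) {kc Kl : ℕ} {r : ℕ → ℝ} (hr : ∀ q, 0 ≤ r q) (hη1 : η ≤ 1)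
    {f : Fin 2 → Nd → Fn}
    (hf : ∀ c', NMP (fun _ _ => True) (PhiC P ε i T g mu I t kap kc Kl r es c') (Z c') η (f c'))
    {U : Finset Nd} {w : Nd} (hU : Full U w) (hUR : U ⊆ R) (c : Fin 2) {p : Nd} (hp : p ∈ U) :
    av p (gl U (f c)) ≤ 3 := by
  have hP : ∀ c', PenC 0 (fun _ _ => True) (PhiC P ε i T g mu I t kap kc Kl r es c') := fun c' =>
    penPhi h.fam (es c') hkap (LaC_pos P ε i h.t0) kc Kl hr
  exact GaVx253.av_gl3 (c := fun _ => 0) hP (fun _ => zero_le_one) hf hη1 (fun c' => h.avZ hk c') hU hUR c hp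

/-- **averages of the frame letters** -/
lemma av_psi (h : Su P d ε k q3 i m e e' N B t W I F xy bb E R J Z v n T g al mu es) (hk : 0 ≤ k)
    {kap m0 η ω : ℝ} (hkap : 0 ≤ kap) {kc Kl : ℕ} {r : ℕ → ℝ} (hr : ∀ q, 0 ≤ r q) (hη1 : η ≤ 1)
    {f : Fin 2 → Nd → Fn}
    (hf : ∀ c', NMP (fun _ _ => True) (PhiC P ε i T g mu I t kap kc Kl r es c') (Z c') η (f c'))
    (hω : ω * m0 ≤ 1) {k0 j0 n0 : ℕ} (hk0 : 1 ≤ k0) (hkj : k0 ≤ j0) {Psi : Fin 2 → Nd → Fn} {w : Nd}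
    (hw : w ∈ R) (hE : ErG R (PhiC P ε i T g mu I t kap kc Kl r es) Z η f m0 Psi w w ≤ 1)
    (c : Fin 2) {p : Nd}
    (hp : p ∈ WG R (PhiC P ε i T g mu I t kap kc Kl r es) Z η f m0 k0 j0 n0 Psi ω w) :
    av p (Psi c w) ≤ 5 := by
  classical
  set Φ := PhiC P ε i T g mu I t kap kc Kl r es with hΦ
  set V := VG R Φ Z η f m0 with hV
  have hpV : p ∈ V w := RK_sub (WW_sub hp)
  have hpR : p ∈ R := VK_sub hpV
  have hVf : Full (V w) w := VK_full h.full hw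
  have hEr : ErG R Φ Z η f m0 Psi w p ≤ 1 := by
    by_cases hpw : p = w
    · rw [hpw]; exact hE
    · have h1 := mem_Wd.1 hp
      exact ((h1.2.2 p h1.1 subset_rfl h1.2.1 hpw).1).trans hω
  have h1 : av p (ek Z f V Psi c w) ^ 2 ≤ 1 := by
    refine le_trans ?_ hEr
    unfold ErG
    exact Finset.single_le_sum (f := fun c' => av p (ek Z f V Psi c' w) ^ 2)
      (fun _ _ => sq_nonneg _) (Finset.mem_univ c)
  have h2 : av p (ek Z f V Psi c w) ≤ 1 := by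
    have := Growth.av_nonneg p (ek Z f V Psi c w)
    nlinarith
  have h3 : av p (gl (V w) (f c)) ≤ 3 :=
    av_glV h hk hkap hr hη1 hf hVf VK_sub c hpV
  have h4 : av p (Z c) ≤ 1 := h.avZ hk c p hpR
  have h5 : Psi c w = fun y => (fun y => Z c y - gl (V w) (f c) y) y - ek Z f V Psi c w y := by
    funext y
    unfold ek
    ring
  rw [h5]
  have h6 := av_sub' p (fun y => Z c y - gl (V w) (f c) y) (ek Z f V Psi c w)
  have h7 := av_sub' p (Z c) (gl (V w) (f c))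
  linarith

end

/-- non-collision numbers of the killer -/
noncomputable def gkS (P : Prm) (m : Fin 4) (t : ℝ) : ℝ := 3 * t ^ (P.θ * P.gc m)

/-- density of the bad shifts -/
noncomputable def dkS (P : Prm) (m : Fin 4) (t : ℝ) : ℝ := 2 * t ^ (P.θ * (P.Cc m - P.gc m))

/-- averages of the frozen letter -/
noncomputable def aiS (P : Prm) (d : ℝ) (i : Fin 4) (t : ℝ) : ℝ := 4 * t ^ (-(clx P d i))

/-- sup of gauge times frozen letter -/
noncomputable def hoS (P : Prm) (ε : ℝ) (i : Fin 4) (t : ℝ) : ℝ :=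
  Real.sqrt (HfC P i t * HtC P i t) * LaC P ε i t

/-- the number of the (S) words -/
noncomputable def kaS (P : Prm) (d ε : ℝ) (i m : Fin 4) (t kap : ℝ) (Kl j0 n0 : ℕ) (K0 X : ℝ) : ℝ :=
  (j0 + 1 + n0) * (2 ^ 12 * Real.sqrt (3 * gkS P m t * aiS P d i t ^ 2 +
    dkS P m t * (LaC P ε i t ^ 2 * 1 ^ 2)) * 5 * 5) +
    (Kl : ℝ) ^ 2 * (K0 * X) * (1 + kap * 2 ^ 7 * 9)

lemma other_slot : ∀ i m a b s : Fin 4, m ≠ i → a ≠ i → a ≠ m → b ≠ i → b ≠ m → a ≠ b → s ≠ i →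
    s ≠ m → s ≠ a → s = b := by
  intro i m a b s h1 h2 h3 h4 h5 h6 h7 h8 h9
  simp only [ne_eq, Fin.ext_iff] at *
  omega

/-- **ONE WORD OF ONE WINDOW** -/
theorem word_su : ∃ K0 : ℝ, 0 ≤ K0 ∧ ∃ κ0 : ℕ, ∀ {P : Prm} {d ε k q3 : ℝ} {i m e e' : Fin 4} {N : ℕ}
    {B t : ℝ} {W : Finset Nd} {I : Nd} {F : Fin 4 → Fn} {xy : Fin 2 → Fin 4} {bb : ℤ}
    {E : ℕ → ℤ → ℂ} {R : Finset Nd} {J : Nd} {Z : Fin 2 → Fn} {v : Fin 3} {n : ℕ}
    {T : Fin n → Fin 3 → Finset ℤ} {g : Fin n → Fin 3 → ℤ → ℤ → ℂ} {al : Fin n → ℤ → ℝ}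
    {mu : Fin n → ℝ} {es : Fin 2 → Fin 3},
    Su P d ε k q3 i m e e' N B t W I F xy bb E R J Z v n T g al mu es → Ok0 P → 0 ≤ k → m ≠ 3 →
    P.gc m ≤ P.Cc m → t ≤ 1 → ∀ {kap m0 η ω : ℝ}, 0 ≤ kap → 0 < m0 → η ≤ 1 → ω * m0 ≤ 1 →
    ∀ {kc Kl k0 j0 n0 : ℕ} {r : ℕ → ℝ}, (∀ q, 0 ≤ r q) → 1 ≤ k0 → k0 ≤ j0 →
    ∀ {f : Fin 2 → Nd → Fn},
    (∀ c', NMP (fun _ _ => True) (PhiC P ε i T g mu I t kap kc Kl r es c') (Z c') η (f c')) →
    ∀ {V : Nd → Finset Nd} {Psi : Fin 2 → Nd → Fn} {W' : Nd → Finset Nd},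
    V = VG R (PhiC P ε i T g mu I t kap kc Kl r es) Z η f m0 →
    Psi = PsiZ i T g mu I (LaC P ε i t) kap kc Kl r es f V k0 j0 n0 →
    W' = WG R (PhiC P ε i T g mu I t kap kc Kl r es) Z η f m0 k0 j0 n0 Psi ω →
    ∀ {w : Nd}, w ∈ R → ErG R (PhiC P ε i T g mu I t kap kc Kl r es) Z η f m0 Psi w w ≤ 1 →
    ∀ {Θ X : ℝ} {ρ rr Hr : ℕ → ℝ} {A : ℝ}, 0 ≤ X → 0 ≤ A → aiS P d i t ^ 2 ≤ A → 25 ≤ A →
    ∀ (c : Fin 2),
    (∀ q ∈ QQ (V w) k0 j0 n0 w, ∀ a < Kl, FCX i (es c) kc j0 n0 Kl κ0 (V w) (W' w) w I T g r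
      (gl (V w) (f c)) (fun l => kap * mu l / LaC P ε i t) (ρ a) (rr a) (Hr a)
      (kap * (2 ^ 7 * av q (gl (V w) (f c)) ^ 2)) a q) →
    (∀ a < Kl, SKZ Θ A (gkS P m t) (dkS P m t) (5 ^ 2) 0 (ρ a) (rr a) (Hr a) 0 kap (hoS P ε i t)) →
    (∀ a < Kl, gX A (gkS P m t) (dkS P m t) 5 kap (ρ a) (rr a) (Hr a) n0 Θ ≤ X) →
    ∀ G : Fin 4 → Fn, G i = F i → G m = F m → G (xy c) = Psi c w →
    (∀ p ∈ W' w, av p (G (xy (c + 1))) ≤ 5) →
    ∑ p ∈ W' w, ∑ x ∈ adm p.1 p.2, ‖Lbox (2 ^ p.1) bb G x‖ ≤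
      kaS P d ε i m t kap Kl j0 n0 K0 X * len w := by
  classical
  obtain ⟨K0, hK0, κ0, hwin⟩ := win_one
  refine ⟨K0, hK0, κ0, ?_⟩
  intro P d ε k q3 i m e e' N B t W I F xy bb E R J Z v n T g al mu es h hP hk hm3 hgC ht1 kap m0 η ω
    hkap hm0 hη1 hω kc Kl k0 j0 n0 r hr hk0 hkj f hf V Psi W' hV hPsi hW' w hw hEr Θ X ρ rr Hr A hX
    hA hAi hA25 c hFC hZ hgX G hGi hGm hGx hGy
  have ht := h.t0
  have hLa := LaC_pos P ε i ht
  have hVf : Full (V w) w := by rw [hV]; exact VK_full h.full hw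
  have hVR : V w ⊆ R := by rw [hV]; exact VK_sub
  have hWf : Full (W' w) w := by rw [hW']; exact WW_full h.full hw hk0 hkj
  have hWV : W' w ⊆ V w := by rw [hW', hV]; exact WW_sub.trans RK_sub
  have hWW : ∀ p ∈ W' w, p ∈ W := fun p hp => h.sub (hVR (hWV hp))
  have hwI : iv w ⊆ iv I := h.W_full.reg.1 w (h.sub hw)
  have hxs : xs i (es c) = xy c := h.slot c
  -- the killer
  have hncW : NCol W (F m) (gkS P m t) (dkS P m t) := by
    have h1 := PRc.ncol hP h.dst hk hm3 zero_le_one hgC ht ht1 h.prc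
    rw [one_mul, one_mul] at h1
    exact h1
  have hnc : NCol (W' w) (G m) (gkS P m t) (dkS P m t) := by
    rw [hGm]
    exact fun p hp p' hp' hpp => hncW p (hWW p hp) p' (hWW p' hp') hpp
  have hgk : 0 ≤ gkS P m t := mul_nonneg (by norm_num) (Real.rpow_nonneg ht.le _)
  have hdk : 0 ≤ dkS P m t := mul_nonneg (by norm_num) (Real.rpow_nonneg ht.le _)
  -- the averages
  have hGi' : ∀ p ∈ W' w, av p (G i) ≤ aiS P d i t := fun p hp => by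
    rw [hGi]; exact h.avi p (hWW p hp)
  have hGm' : ∀ p ∈ W' w, av p (G m) ≤ 1 := fun p hp => by
    rw [hGm]; exact h.avm hk p (hWW p hp)
  have hGx' : ∀ p ∈ W' w, av p (G (xs i (es c))) ≤ 5 := fun p hp => by
    rw [hxs, hGx]
    refine av_psi (n0 := n0) h hk hkap hr hη1 hf hω hk0 hkj hw hEr c ?_
    rw [← hW']
    exact hp
  have hGs' : ∀ p ∈ W' w, ∀ s, s ≠ i → s ≠ m → s ≠ xs i (es c) → av p (G s) ≤ 5 := by
    intro p hp s hsi hsm hsx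
    rw [hxs] at hsx
    have hmi : m ≠ i := h.dst.jk
    have hs : s = xy (c + 1) := by
      fin_cases c
      · exact other_slot i m (xy 0) (xy 1) s hmi h.oth.ai h.oth.am h.oth.bi h.oth.bm h.oth.ab hsi
          hsm hsx
      · exact other_slot i m (xy 1) (xy 0) s hmi h.oth.bi h.oth.bm h.oth.ai h.oth.am
          (Ne.symm h.oth.ab) hsi hsm hsx
    rw [hs]
    exact hGy p hp
  have hGH : ∀ y ∈ iv I, ‖G i y‖ ≤ LaC P ε i t := fun y hy => by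
    rw [hGi]; exact Rc.sup h.dst h.prc.mix hy
  -- the frame data
  set Q := QQ (V w) k0 j0 n0 w with hQd
  have hQm : ∀ q ∈ Q, Le q w ∧ q.1 = w.1 - j0 := fun q hq => by
    have := mem_QQ.1 hq
    exact ⟨this.2.2.2.1, this.2.2.1⟩
  have hQ : ∀ p ∈ W' w, ¬ Nc j0 n0 w p → ∃ q ∈ Q, Le p q := by
    intro p hp hnc
    unfold Nc at hnc
    push Not at hnc
    have hp' : p ∈ WW R (FLDx263.DF (PhiC P ε i T g mu I t kap kc Kl r es) Z f η) (FLDx263.dvF f) m0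
        k0 j0 n0 (ErG R (PhiC P ε i T g mu I t kap kc Kl r es) Z η f m0 Psi) (ω * m0) w := by
      rw [hW'] at hp
      exact hp
    obtain ⟨q, hq, hpq, -⟩ := WW_fine hk0 hkj hp' (by omega) (by omega)
    refine ⟨q, ?_, hpq⟩
    rw [hQd, hV]
    exact hq
  have hen : ∀ a < Kl, ∑ q ∈ Q, kap * (2 ^ 7 * av q (gl (V w) (f c)) ^ 2) * (2 : ℝ) ^ (q.1 + 7) ≤
      kap * 2 ^ 7 * 9 * 2 ^ (w.1 + 7) := by
    intro a _
    have h1 : ∀ q ∈ Q, kap * (2 ^ 7 * av q (gl (V w) (f c)) ^ 2) * (2 : ℝ) ^ (q.1 + 7) =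
        kap * 2 ^ 7 * ∑ y ∈ iv q, ‖gl (V w) (f c) y‖ ^ 2 := by
      intro q _
      rw [Growth.sum_av]
      have : (2 : ℝ) ^ (q.1 + 7) = len q := rfl
      rw [this]
      ring
    rw [Finset.sum_congr rfl h1, ← Finset.mul_sum, mul_assoc (kap * 2 ^ 7)]
    refine mul_le_mul_of_nonneg_left ?_ (by positivity)
    rw [← Finset.sum_biUnion (fun q hq q' hq' hne => QQ_disj hq hq' hne)]
    have h2 : ∑ y ∈ Q.biUnion iv, ‖gl (V w) (f c) y‖ ^ 2 ≤ ∑ y ∈ iv w, ‖gl (V w) (f c) y‖ ^ 2 :=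
      Finset.sum_le_sum_of_subset_of_nonneg
        (Finset.biUnion_subset.2 fun q hq => (hQm q hq).1) fun _ _ _ => sq_nonneg _
    refine h2.trans ?_
    rw [Growth.sum_av]
    have h3 := av_glV h hk hkap hr hη1 hf hVf hVR c hVf.top
    have h4 := Growth.av_nonneg w (gl (V w) (f c))
    have h5 : (2 : ℝ) ^ (w.1 + 7) = len w := rfl
    rw [h5]
    have h6 := (Growth.len_pos w).le
    nlinarith [mul_le_mul_of_nonneg_left (show av w (gl (V w) (f c)) ^ 2 ≤ 9 by nlinarith) h6]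
  have key := hwin h.fam (HfC_pos P i ht).le hLa bb h.adm.1 (es c) (h.es_ne c) (W' w) w hWf hwI kap
    hkap kc j0 n0 Kl Q (dq (V w) n0) G (fun a q => stX i (es c) kc j0 n0 Kl (V w) w I T g r
      (gl (V w) (f c)) (fun l => kap * mu l / LaC P ε i t) (sd I) a q) A (aiS P d i t)
    (LaC P ε i t) 1 (gkS P m t) (dkS P m t) 5 5 Θ (kap * 2 ^ 7 * 9) X ρ rr Hr
    (fun a q => kap * (2 ^ 7 * av q (gl (V w) (f c)) ^ 2)) hQm hQ hgk hdk hLa.le (by norm_num)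
    (by norm_num) hX hA hAi (by linarith) (by linarith) hGi' hGH hGm' hnc hGx' hGs'
    (fun q hq y hy => by
      rw [hxs, hGx, hPsi]
      exact psiZ_rep i T g mu I (LaC P ε i t) kap kc Kl r es f V k0 j0 n0 c w hq hy)
    (fun q hq a ha => (hFC q hq a ha).fce) hen hZ hgX
  exact key

open Classical in
/-- **THE FIVE WORDS OF ONE WINDOW** -/
theorem swd_su : ∃ K0 : ℝ, 0 ≤ K0 ∧ ∃ κ0 : ℕ, ∀ {P : Prm} {d ε k q3 : ℝ} {i m e e' : Fin 4} {N : ℕ}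
    {B t : ℝ} {W : Finset Nd} {I : Nd} {F : Fin 4 → Fn} {xy : Fin 2 → Fin 4} {bb : ℤ}
    {E : ℕ → ℤ → ℂ} {R : Finset Nd} {J : Nd} {Z : Fin 2 → Fn} {v : Fin 3} {n : ℕ}
    {T : Fin n → Fin 3 → Finset ℤ} {g : Fin n → Fin 3 → ℤ → ℤ → ℂ} {al : Fin n → ℤ → ℝ}
    {mu : Fin n → ℝ} {es : Fin 2 → Fin 3},
    Su P d ε k q3 i m e e' N B t W I F xy bb E R J Z v n T g al mu es → Ok0 P → 0 ≤ k → m ≠ 3 →
    P.gc m ≤ P.Cc m → t ≤ 1 → ∀ {kap m0 η ω : ℝ}, 0 ≤ kap → 0 < m0 → η ≤ 1 → ω * m0 ≤ 1 →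
    ∀ {kc Kl k0 j0 n0 : ℕ} {r : ℕ → ℝ}, (∀ q, 0 ≤ r q) → 1 ≤ k0 → k0 ≤ j0 →
    ∀ {f : Fin 2 → Nd → Fn},
    (∀ c', NMP (fun _ _ => True) (PhiC P ε i T g mu I t kap kc Kl r es c') (Z c') η (f c')) →
    ∀ {V : Nd → Finset Nd} {Psi : Fin 2 → Nd → Fn} {W' : Nd → Finset Nd},
    V = VG R (PhiC P ε i T g mu I t kap kc Kl r es) Z η f m0 →
    Psi = PsiZ i T g mu I (LaC P ε i t) kap kc Kl r es f V k0 j0 n0 →
    W' = WG R (PhiC P ε i T g mu I t kap kc Kl r es) Z η f m0 k0 j0 n0 Psi ω →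
    ∀ {w : Nd}, w ∈ R → ErG R (PhiC P ε i T g mu I t kap kc Kl r es) Z η f m0 Psi w w ≤ 1 →
    ∀ {Θ X : ℝ} {ρ rr Hr : ℕ → ℝ} {A : ℝ}, 0 ≤ X → 0 ≤ A → aiS P d i t ^ 2 ≤ A → 25 ≤ A →
    (∀ (c : Fin 2), ∀ q ∈ QQ (V w) k0 j0 n0 w, ∀ a < Kl, FCX i (es c) kc j0 n0 Kl κ0 (V w) (W' w) w
      I T g r (gl (V w) (f c)) (fun l => kap * mu l / LaC P ε i t) (ρ a) (rr a) (Hr a)
      (kap * (2 ^ 7 * av q (gl (V w) (f c)) ^ 2)) a q) →
    (∀ a < Kl, SKZ Θ A (gkS P m t) (dkS P m t) (5 ^ 2) 0 (ρ a) (rr a) (Hr a) 0 kap (hoS P ε i t)) →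
    (∀ a < Kl, gX A (gkS P m t) (dkS P m t) 5 kap (ρ a) (rr a) (Hr a) n0 Θ ≤ X) →
    SWd bb E F xy Z f Psi W' (kaS P d ε i m t kap Kl j0 n0 K0 X) w := by
  obtain ⟨K0, hK0, κ0, hwd⟩ := word_su
  refine ⟨K0, hK0, κ0, ?_⟩
  intro P d ε k q3 i m e e' N B t W I F xy bb E R J Z v n T g al mu es h hP hk hm3 hgC ht1 kap m0 η ω
    hkap hm0 hη1 hω kc Kl k0 j0 n0 r hr hk0 hkj f hf V Psi W' hV hPsi hW' w hw hEr Θ X ρ rr Hr A hX
    hA hAi hA25 hFC hZ hgX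
  have hxi : xy 0 ≠ i := h.oth.ai
  have hyi : xy 1 ≠ i := h.oth.bi
  have hxm : xy 0 ≠ m := h.oth.am
  have hym : xy 1 ≠ m := h.oth.bm
  have hxy : xy 0 ≠ xy 1 := h.oth.ab
  have hVf : Full (V w) w := by rw [hV]; exact VK_full h.full hw
  have hVR : V w ⊆ R := by rw [hV]; exact VK_sub
  have hWf : Full (W' w) w := by rw [hW']; exact WW_full h.full hw hk0 hkj
  have hWV : W' w ⊆ V w := by rw [hW', hV]; exact WW_sub.trans RK_sub
  have aZ : ∀ c, ∀ p ∈ W' w, av p (Z c) ≤ 5 := fun c p hp =>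
    (h.avZ hk c p (hVR (hWV hp))).trans (by norm_num)
  have aG : ∀ c, ∀ p ∈ W' w, av p (gl (W' w) (f c)) ≤ 5 := fun c p hp =>
    (av_glV h hk hkap hr hη1 hf hWf (hWV.trans hVR) c hp).trans (by norm_num)
  have aP : ∀ c, ∀ p ∈ W' w, av p (Psi c w) ≤ 5 := fun c p hp => by
    refine av_psi (n0 := n0) h hk hkap hr hη1 hf hω hk0 hkj hw hEr c ?_
    rw [← hW']
    exact hp
  -- one word
  have one : ∀ (c : Fin 2) (X0 Y0 : Fn),
      (Function.update (Function.update F (xy 0) X0) (xy 1) Y0) (xy c) = Psi c w →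
      (∀ p ∈ W' w, av p ((Function.update (Function.update F (xy 0) X0) (xy 1) Y0) (xy (c + 1))) ≤
        5) →
      ‖∑ q ∈ W' w, v4 bb E F (xy 0) (xy 1) X0 Y0 q‖ ≤
        kaS P d ε i m t kap Kl j0 n0 K0 X * len w := by
    intro c X0 Y0 h1 h2
    set G := Function.update (Function.update F (xy 0) X0) (xy 1) Y0 with hG
    have hGi : G i = F i := by
      rw [hG, Function.update_of_ne (Ne.symm hyi), Function.update_of_ne (Ne.symm hxi)]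
    have hGm : G m = F m := by
      rw [hG, Function.update_of_ne (Ne.symm hym), Function.update_of_ne (Ne.symm hxm)]
    have h3 := hwd h hP hk hm3 hgC ht1 hkap hm0 hη1 hω hr hk0 hkj hf hV hPsi hW' hw hEr hX hA hAi
      hA25 c (hFC c) hZ hgX G hGi hGm h1 h2
    refine le_trans ?_ h3
    have h4 := Qb247.norm_TR_le (bb := bb) h.adm.2 (W' w) G
    exact h4
  have u0 : ∀ X0 Y0 : Fn, (Function.update (Function.update F (xy 0) X0) (xy 1) Y0) (xy 0) = X0 :=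
    fun X0 Y0 => by rw [Function.update_of_ne hxy, Function.update_self]
  have u1 : ∀ X0 Y0 : Fn, (Function.update (Function.update F (xy 0) X0) (xy 1) Y0) (xy 1) = Y0 :=
    fun X0 Y0 => Function.update_self _ _ _
  refine ⟨?_, ?_, ?_, ?_, ?_⟩
  · refine one 0 (Psi 0 w) (Z 1) (u0 _ _) fun p hp => ?_
    show av p ((Function.update (Function.update F (xy 0) (Psi 0 w)) (xy 1) (Z 1)) (xy 1)) ≤ 5
    rw [u1]; exact aZ 1 p hp
  · refine one 1 (Z 0) (Psi 1 w) (u1 _ _) fun p hp => ?_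
    show av p ((Function.update (Function.update F (xy 0) (Z 0)) (xy 1) (Psi 1 w)) (xy 0)) ≤ 5
    rw [u0]; exact aZ 0 p hp
  · refine one 0 (Psi 0 w) _ (u0 _ _) fun p hp => ?_
    show av p ((Function.update (Function.update F (xy 0) (Psi 0 w)) (xy 1)
      (gl (W' w) (f 1))) (xy 1)) ≤ 5
    rw [u1]; exact aG 1 p hp
  · refine one 1 _ (Psi 1 w) (u1 _ _) fun p hp => ?_
    show av p ((Function.update (Function.update F (xy 0) (gl (W' w) (f 0))) (xy 1)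
      (Psi 1 w)) (xy 0)) ≤ 5
    rw [u0]; exact aG 0 p hp
  · refine one 0 (Psi 0 w) (Psi 1 w) (u0 _ _) fun p hp => ?_
    show av p ((Function.update (Function.update F (xy 0) (Psi 0 w)) (xy 1)
      (Psi 1 w)) (xy 1)) ≤ 5
    rw [u1]; exact aP 1 p hp

end Crest.Agent.R079.FrZx360
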