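import Crest.Agent.R079.MovD_242
import Crest.Agent.R079.ThB_159
import Crest.Agent.R079.MovE_242

-- ▼ part R079/GaM_571
section

/-! R079, Step I, MOVE with heights (helper571).

The kill lemma (ragged corner) holds for letters with SUP BOUNDS and has an additive slack, so the
homogeneous `MovC.StatF` (all letters of `ℓ²`) is not available.  Here: the static bound
`‖∑ ε_k T_k u v‖ ≤ N (|u| + δ) (|v| + δ')` for `|u| ≤ H`, `|v| ≤ H'` pointwise gives the MOVE bound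
`N (a √Q + |x_end| + (a+1) δ) (..)` for letters `x_k`, `y_k` with `2^(a+1) ‖x_k‖_∞ ≤ H`.
The norms are weighted `ℓ²` norms on finite sets (weights: joint norm of a family of atoms). -/

set_option autoImplicit false

namespace Crest.Agent.R079.GaMx571

open Finset Crest.Agent.R079.Move59 Crest.Agent.R079.MovC

section fn

variable {Ω Ω' : Type*}

/-- squared weighted norm on `A` -/
noncomputable def qW (A : Finset Ω) (ρ : Ω → ℝ) (x : Ω → ℂ) : ℝ := ∑ ω ∈ A, ρ ω * ‖x ω‖ ^ 2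

/-- weighted norm on `A` -/
noncomputable def nW (A : Finset Ω) (ρ : Ω → ℝ) (x : Ω → ℂ) : ℝ := √(qW A ρ x)

lemma qW_nonneg {A : Finset Ω} {ρ : Ω → ℝ} (hρ : ∀ ω, 0 ≤ ρ ω) (x : Ω → ℂ) : 0 ≤ qW A ρ x :=
  Finset.sum_nonneg fun ω _ => mul_nonneg (hρ ω) (sq_nonneg _)

lemma nW_nonneg (A : Finset Ω) (ρ : Ω → ℝ) (x : Ω → ℂ) : 0 ≤ nW A ρ x := Real.sqrt_nonneg _

lemma nW_sq {A : Finset Ω} {ρ : Ω → ℝ} (hρ : ∀ ω, 0 ≤ ρ ω) (x : Ω → ℂ) :
    nW A ρ x ^ 2 = qW A ρ x := Real.sq_sqrt (qW_nonneg hρ x)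

lemma qW_zero (A : Finset Ω) (ρ : Ω → ℝ) : qW A ρ 0 = 0 := by
  unfold qW
  exact Finset.sum_eq_zero fun ω _ => by simp


/-- static signed bound for letters of bounded height, with additive slack -/
def StatI (A : Finset Ω) (ρ : Ω → ℝ) (H δ : ℝ) (A' : Finset Ω') (ρ' : Ω' → ℝ) (H' δ' : ℝ) (n : ℕ)
    (T : ℕ → (Ω → ℂ) →ₗ[ℝ] (Ω' → ℂ) →ₗ[ℝ] ℂ) (N : ℝ) : Prop :=
  ∀ ε : ℕ → ℝ, (∀ k, |ε k| = 1) → ∀ (u : Ω → ℂ) (v : Ω' → ℂ), (∀ ω ∈ A, ‖u ω‖ ≤ H) →
    (∀ ω ∈ A', ‖v ω‖ ≤ H') →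
    ‖∑ k ∈ range n, ((ε k : ℝ) : ℂ) * T k u v‖ ≤ N * (nW A ρ u + δ) * (nW A' ρ' v + δ')

/-- average over signs -/
lemma qW_signs {ι : Type*} [Fintype ι] [DecidableEq ι] (A : Finset Ω) (ρ : Ω → ℝ)
    (d : ι → Ω → ℂ) :
    ∑ s : ι → Bool, qW A ρ (∑ i, sg (s i) • d i) = 2 ^ Fintype.card ι * ∑ i, qW A ρ (d i) := by
  unfold qW
  rw [Finset.sum_comm, Finset.sum_comm (s := (Finset.univ : Finset ι)), Finset.mul_sum]
  refine Finset.sum_congr rfl fun ω _ => ?_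
  have h := sum_norm_sq (fun i => d i ω)
  rw [← Finset.mul_sum, ← Finset.mul_sum, mul_left_comm, ← h]
  congr 1
  refine Finset.sum_congr rfl fun s _ => ?_
  rw [Finset.sum_apply]
  rfl

lemma vecF {ι : Type*} [Fintype ι] [DecidableEq ι] (a : ι) (d : ι → Ω → ℂ) :
    ∑ s : ι → Bool, sg (s a) • ∑ i, sg (s i) • d i = (2 : ℝ) ^ Fintype.card ι • d a := by
  have h1 : ∀ s : ι → Bool, sg (s a) • ∑ i, sg (s i) • d i =
      ∑ i, (sg (s a) * sg (s i)) • d i := by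
    intro s
    rw [Finset.smul_sum]
    exact Finset.sum_congr rfl fun i _ => smul_smul _ _ _
  simp_rw [h1]
  rw [Finset.sum_comm]
  simp_rw [← Finset.sum_smul, sum_sg]
  rw [Finset.sum_eq_single a]
  · simp
  · intro i _ hi
    rw [if_neg (Ne.symm hi), zero_smul]
  · intro h
    exact absurd (Finset.mem_univ a) h

/-- **two independent families of signs**, letters with heights -/
theorem sign2I {ν ι κ : Type*} [Fintype ι] [DecidableEq ι] [Fintype κ] [DecidableEq κ]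
    (S : Finset ν) (T : ν → (Ω → ℂ) →ₗ[ℝ] (Ω' → ℂ) →ₗ[ℝ] ℂ) {A : Finset Ω} {A' : Finset Ω'}
    {ρ : Ω → ℝ} {ρ' : Ω' → ℝ} (hρ : ∀ ω, 0 ≤ ρ ω) (hρ' : ∀ ω, 0 ≤ ρ' ω)
    {N δ δ' H H' : ℝ} (hN : 0 ≤ N) (hδ : 0 ≤ δ) (hδ' : 0 ≤ δ')
    (h : ∀ ε : ν → ℝ, (∀ k, |ε k| = 1) → ∀ (u : Ω → ℂ) (v : Ω' → ℂ), (∀ ω ∈ A, ‖u ω‖ ≤ H) →
      (∀ ω ∈ A', ‖v ω‖ ≤ H') →
      ‖∑ k ∈ S, ((ε k : ℝ) : ℂ) * T k u v‖ ≤ N * (nW A ρ u + δ) * (nW A' ρ' v + δ'))
    (α : ν → ι) (β : ν → κ) (d : ι → Ω → ℂ) (d' : κ → Ω' → ℂ) {V V' : ℝ} (hV : 0 ≤ V) (hV' : 0 ≤ V')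
    (h2 : ∑ i, qW A ρ (d i) ≤ V ^ 2) (h2' : ∑ j, qW A' ρ' (d' j) ≤ V' ^ 2)
    (hd : ∀ ω ∈ A, ∑ i, ‖d i ω‖ ≤ H) (hd' : ∀ ω ∈ A', ∑ i, ‖d' i ω‖ ≤ H') :
    ‖∑ k ∈ S, T k (d (α k)) (d' (β k))‖ ≤ N * (V + δ) * (V' + δ') := by
  set CA : ℝ := 2 ^ Fintype.card ι with hA
  set CB : ℝ := 2 ^ Fintype.card κ with hB
  have hA0 : 0 < CA := by positivity
  have hB0 : 0 < CB := by positivity
  set U : (ι → Bool) → Ω → ℂ := fun s => ∑ i, sg (s i) • d i with hU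
  set W : (κ → Bool) → Ω' → ℂ := fun s => ∑ j, sg (s j) • d' j with hW
  have key : ∀ k, ∑ s : ι → Bool, ∑ s' : κ → Bool,
      ((sg (s (α k)) * sg (s' (β k)) : ℝ) : ℂ) * T k (U s) (W s') =
      ((CA * CB : ℝ) : ℂ) * T k (d (α k)) (d' (β k)) := by
    intro k
    have e1 : T k (∑ s : ι → Bool, sg (s (α k)) • U s) (∑ s' : κ → Bool, sg (s' (β k)) • W s') =
        ∑ s : ι → Bool, ∑ s' : κ → Bool,
          ((sg (s (α k)) * sg (s' (β k)) : ℝ) : ℂ) * T k (U s) (W s') := by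
      rw [map_sum (T k) (fun s : ι → Bool => sg (s (α k)) • U s) univ, LinearMap.sum_apply]
      refine Finset.sum_congr rfl fun s _ => ?_
      rw [map_sum]
      refine Finset.sum_congr rfl fun s' _ => ?_
      rw [map_smul, map_smul, LinearMap.smul_apply, Complex.real_smul, Complex.real_smul]
      push_cast
      ring
    rw [← e1, vecF (α k) d, vecF (β k) d', ← hA, ← hB, map_smul, map_smul, LinearMap.smul_apply,
      Complex.real_smul, Complex.real_smul]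
    push_cast
    ring
  have e2 : ((CA * CB : ℝ) : ℂ) * ∑ k ∈ S, T k (d (α k)) (d' (β k)) =
      ∑ s : ι → Bool, ∑ s' : κ → Bool, ∑ k ∈ S,
        ((sg (s (α k)) * sg (s' (β k)) : ℝ) : ℂ) * T k (U s) (W s') := by
    rw [Finset.mul_sum]
    calc ∑ k ∈ S, ((CA * CB : ℝ) : ℂ) * T k (d (α k)) (d' (β k))
        = ∑ k ∈ S, ∑ s : ι → Bool, ∑ s' : κ → Bool,
          ((sg (s (α k)) * sg (s' (β k)) : ℝ) : ℂ) * T k (U s) (W s') :=
          Finset.sum_congr rfl fun k _ => (key k).symm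
      _ = ∑ s : ι → Bool, ∑ k ∈ S, ∑ s' : κ → Bool,
          ((sg (s (α k)) * sg (s' (β k)) : ℝ) : ℂ) * T k (U s) (W s') := Finset.sum_comm
      _ = _ := Finset.sum_congr rfl fun s _ => Finset.sum_comm
  have hUh : ∀ s, ∀ ω ∈ A, ‖U s ω‖ ≤ H := by
    intro s ω hω
    refine le_trans ?_ (hd ω hω)
    simp only [hU, Finset.sum_apply]
    refine (norm_sum_le _ _).trans (Finset.sum_le_sum fun i _ => ?_)
    rw [Pi.smul_apply, norm_smul, Real.norm_eq_abs, abs_sg, one_mul]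
  have hWh : ∀ s, ∀ ω ∈ A', ‖W s ω‖ ≤ H' := by
    intro s ω hω
    refine le_trans ?_ (hd' ω hω)
    simp only [hW, Finset.sum_apply]
    refine (norm_sum_le _ _).trans (Finset.sum_le_sum fun i _ => ?_)
    rw [Pi.smul_apply, norm_smul, Real.norm_eq_abs, abs_sg, one_mul]
  have hU2 : ∑ s, (nW A ρ (U s) + δ) ≤ CA * (V + δ) := by
    have h1 : ∑ s, nW A ρ (U s) ≤ CA * V := by
      refine sum_le (n := fun s => nW A ρ (U s)) hV ?_
      simp only [nW_sq hρ]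
      rw [qW_signs]
      exact mul_le_mul_of_nonneg_left h2 hA0.le
    rw [Finset.sum_add_distrib, Finset.sum_const, Finset.card_univ, Fintype.card_fun,
      Fintype.card_bool, nsmul_eq_mul]
    push_cast
    rw [← hA]
    linarith
  have hW2 : ∑ s, (nW A' ρ' (W s) + δ') ≤ CB * (V' + δ') := by
    have h1 : ∑ s, nW A' ρ' (W s) ≤ CB * V' := by
      refine sum_le (n := fun s => nW A' ρ' (W s)) hV' ?_
      simp only [nW_sq hρ']
      rw [qW_signs]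
      exact mul_le_mul_of_nonneg_left h2' hB0.le
    rw [Finset.sum_add_distrib, Finset.sum_const, Finset.card_univ, Fintype.card_fun,
      Fintype.card_bool, nsmul_eq_mul]
    push_cast
    rw [← hB]
    linarith
  have h3 : CA * CB * ‖∑ k ∈ S, T k (d (α k)) (d' (β k))‖ ≤
      N * (CA * (V + δ)) * (CB * (V' + δ')) := by
    have e : ‖((CA * CB : ℝ) : ℂ) * ∑ k ∈ S, T k (d (α k)) (d' (β k))‖ =
        CA * CB * ‖∑ k ∈ S, T k (d (α k)) (d' (β k))‖ := by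
      rw [norm_mul, Complex.norm_real, Real.norm_of_nonneg (by positivity)]
    rw [← e, e2]
    calc ‖∑ s : ι → Bool, ∑ s' : κ → Bool, ∑ k ∈ S,
          ((sg (s (α k)) * sg (s' (β k)) : ℝ) : ℂ) * T k (U s) (W s')‖
        ≤ ∑ s : ι → Bool, ∑ s' : κ → Bool, N * (nW A ρ (U s) + δ) * (nW A' ρ' (W s') + δ') := by
          refine (norm_sum_le _ _).trans (Finset.sum_le_sum fun s _ => ?_)
          refine (norm_sum_le _ _).trans (Finset.sum_le_sum fun s' _ => ?_)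
          exact h (fun k => sg (s (α k)) * sg (s' (β k)))
            (fun k => by rw [abs_mul, abs_sg, abs_sg, one_mul]) (U s) (W s') (hUh s) (hWh s')
      _ = N * (∑ s, (nW A ρ (U s) + δ)) * (∑ s', (nW A' ρ' (W s') + δ')) := by
          rw [mul_assoc, Finset.sum_mul_sum, Finset.mul_sum]
          refine Finset.sum_congr rfl fun s _ => ?_
          rw [Finset.mul_sum]
          refine Finset.sum_congr rfl fun s' _ => ?_
          ring
      _ ≤ N * (CA * (V + δ)) * (CB * (V' + δ')) := by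
          have h7 : N * (∑ s, (nW A ρ (U s) + δ)) ≤ N * (CA * (V + δ)) :=
            mul_le_mul_of_nonneg_left hU2 hN
          exact mul_le_mul h7 hW2 (Finset.sum_nonneg fun s _ =>
            add_nonneg (nW_nonneg _ _ _) hδ') (by positivity)
  have h8 : CA * CB * ‖∑ k ∈ S, T k (d (α k)) (d' (β k))‖ ≤
      CA * CB * (N * (V + δ) * (V' + δ')) := h3.trans (le_of_eq (by ring))
  exact le_of_mul_le_mul_left h8 (by positivity)

/-! ### dyadic expansion along the chain, functions -/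

/-- the increment of level `b` on the block `g` -/
def incF (x : ℕ → Ω → ℂ) (b g : ℕ) : Ω → ℂ := x (cc b g) - x (cc (b + 1) (g / 2))

lemma incF_sq {A : Finset Ω} {ρ : Ω → ℝ} (hρ : ∀ ω, 0 ≤ ρ ω) (x : ℕ → Ω → ℂ) (D : ℕ → ℝ)
    (hx : ∀ k l, k ≤ l → qW A ρ (x k - x l) ≤ D l - D k) (b g : ℕ) :
    qW A ρ (incF x b g) ≤ D (cc b (g + 1)) - D (cc b g) := by
  have hD : ∀ k l, k ≤ l → D k ≤ D l := fun k l h => by
    have := hx k l h
    have h0 := qW_nonneg (A := A) hρ (x k - x l)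
    linarith
  unfold incF
  rw [cc_even]
  rcases Nat.even_or_odd' g with ⟨h, rfl | rfl⟩
  · have e : 2 * h / 2 = h := by omega
    rw [e]
    exact hx _ _ (cc_mono b (by omega))
  · have e : (2 * h + 1) / 2 = h := by omega
    rw [e, sub_self, qW_zero]
    have := hD _ _ (cc_mono b (show 2 * h + 1 ≤ 2 * h + 1 + 1 by omega))
    linarith

/-- **square sum of one dyadic level** -/
theorem level_sumF {A : Finset Ω} {ρ : Ω → ℝ} (hρ : ∀ ω, 0 ≤ ρ ω) (x : ℕ → Ω → ℂ) (D : ℕ → ℝ) {Q : ℝ}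
    (hx : ∀ k l, k ≤ l → qW A ρ (x k - x l) ≤ D l - D k) (hQ : ∀ k, D k - D 0 ≤ Q) (b m : ℕ) :
    ∑ g ∈ range m, qW A ρ (incF x b g) ≤ Q := by
  refine (Finset.sum_le_sum fun g _ => incF_sq hρ x D hx b g).trans ?_
  rw [Finset.sum_range_sub (fun g => D (cc b g)) m]
  have h1 := hx 0 (cc b 0) (Nat.zero_le _)
  have h0 := qW_nonneg (A := A) hρ (x 0 - x (cc b 0))
  have h2 := hQ (cc b m)
  linarith

/-- the dyadic expansion along the chain -/
lemma expandF (x : ℕ → Ω → ℂ) (a k : ℕ) (hk : k < 2 ^ a) :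
    x k = ∑ b ∈ range a, incF x b (k / 2 ^ b) + x (2 ^ a - 1) := by
  have h1 : ∀ b, incF x b (k / 2 ^ b) = x (cc b (k / 2 ^ b)) - x (cc (b + 1) (k / 2 ^ (b + 1))) := by
    intro b
    unfold incF
    rw [Nat.div_div_eq_div_mul, pow_succ]
  simp_rw [h1]
  rw [Finset.sum_range_sub' (fun b => x (cc b (k / 2 ^ b))) a]
  have h0 : cc 0 (k / 2 ^ 0) = k := by
    unfold cc
    simp
  have ha : cc a (k / 2 ^ a) = 2 ^ a - 1 := by
    unfold cc
    rw [Nat.div_eq_of_lt hk]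
    simp
  rw [h0, ha]
  abel

/-- the letter of level `b` (`b = a`: the static end letter) -/
def pcF (x : ℕ → Ω → ℂ) (a b g : ℕ) : Ω → ℂ :=
  if b < a then incF x b g else x (2 ^ a - 1)

/-- its price -/
noncomputable def vvF (A : Finset Ω) (ρ : Ω → ℝ) (x : ℕ → Ω → ℂ) (a : ℕ) (Q : ℝ) (b : ℕ) : ℝ :=
  if b < a then √Q else nW A ρ (x (2 ^ a - 1))

lemma vvF_nonneg (A : Finset Ω) (ρ : Ω → ℝ) (x : ℕ → Ω → ℂ) (a : ℕ) (Q : ℝ) (b : ℕ) :
    0 ≤ vvF A ρ x a Q b := by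
  unfold vvF
  split_ifs
  · exact Real.sqrt_nonneg _
  · exact nW_nonneg _ _ _

lemma vvF_sum (A : Finset Ω) (ρ : Ω → ℝ) (x : ℕ → Ω → ℂ) (a : ℕ) (Q δ : ℝ) :
    ∑ b ∈ range (a + 1), (vvF A ρ x a Q b + δ) =
      a * √Q + nW A ρ (x (2 ^ a - 1)) + (a + 1) * δ := by
  rw [Finset.sum_add_distrib, Finset.sum_const, Finset.card_range, nsmul_eq_mul,
    Finset.sum_range_succ]
  have h1 : ∑ b ∈ range a, vvF A ρ x a Q b = ∑ _b ∈ range a, √Q := by
    refine Finset.sum_congr rfl fun b hb => ?_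
    unfold vvF
    rw [if_pos (Finset.mem_range.1 hb)]
  rw [h1, Finset.sum_const, Finset.card_range, nsmul_eq_mul]
  unfold vvF
  rw [if_neg (lt_irrefl a)]
  push_cast
  ring

lemma pcF_sq {A : Finset Ω} {ρ : Ω → ℝ} (hρ : ∀ ω, 0 ≤ ρ ω) (x : ℕ → Ω → ℂ) (D : ℕ → ℝ) {Q : ℝ}
    (hx : ∀ k l, k ≤ l → qW A ρ (x k - x l) ≤ D l - D k) (hQ : ∀ k, D k - D 0 ≤ Q) (a b : ℕ)
    (hb : b ∈ range (a + 1)) :
    ∑ g : Fin (2 ^ (a - b)), qW A ρ (pcF x a b g) ≤ vvF A ρ x a Q b ^ 2 := by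
  have hQ0 : 0 ≤ Q := by
    have := hQ 0
    linarith
  by_cases h : b < a
  · unfold pcF vvF
    simp only [if_pos h]
    rw [Real.sq_sqrt hQ0, Fin.sum_univ_eq_sum_range (fun g => qW A ρ (incF x b g)) (2 ^ (a - b))]
    exact level_sumF hρ x D hx hQ b _
  · have hba : b = a := by
      have := Finset.mem_range.1 hb
      omega
    subst hba
    unfold pcF vvF
    simp [nW_sq hρ]

lemma pcF_expand (x : ℕ → Ω → ℂ) (a k : ℕ) (hk : k < 2 ^ a) :
    x k = ∑ b ∈ range (a + 1), pcF x a b (k / 2 ^ b) := by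
  rw [Finset.sum_range_succ]
  have h1 : ∑ b ∈ range a, pcF x a b (k / 2 ^ b) = ∑ b ∈ range a, incF x b (k / 2 ^ b) := by
    refine Finset.sum_congr rfl fun b hb => ?_
    unfold pcF
    rw [if_pos (Finset.mem_range.1 hb)]
  rw [h1]
  unfold pcF
  rw [if_neg (lt_irrefl a)]
  exact expandF x a k hk

/-- heights of the signed sums of one level -/
lemma pcF_h {A : Finset Ω} (x : ℕ → Ω → ℂ) {h : ℝ} (hh : ∀ k, ∀ ω ∈ A, ‖x k ω‖ ≤ h)
    (a b : ℕ) {ω : Ω} (hω : ω ∈ A) :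
    ∑ g : Fin (2 ^ (a - b)), ‖pcF x a b g ω‖ ≤ 2 ^ (a + 1) * h := by
  have h0 : 0 ≤ h := (norm_nonneg _).trans (hh 0 ω hω)
  have h1 : ∀ g : Fin (2 ^ (a - b)), ‖pcF x a b g ω‖ ≤ 2 * h := by
    intro g
    unfold pcF
    split_ifs
    · unfold incF
      rw [Pi.sub_apply]
      refine (norm_sub_le _ _).trans ?_
      have h2 := hh (cc b g) ω hω
      have h3 := hh (cc (b + 1) (g / 2)) ω hω
      linarith
    · have := hh (2 ^ a - 1) ω hω
      linarith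
  refine (Finset.sum_le_sum fun g _ => h1 g).trans ?_
  rw [Finset.sum_const, Finset.card_univ, Fintype.card_fin, nsmul_eq_mul]
  push_cast
  have h4 : (2 : ℝ) ^ (a - b) ≤ 2 ^ a := pow_le_pow_right₀ (by norm_num) (Nat.sub_le _ _)
  calc (2 : ℝ) ^ (a - b) * (2 * h) ≤ 2 ^ a * (2 * h) :=
        mul_le_mul_of_nonneg_right h4 (by positivity)
    _ = _ := by rw [pow_succ]; ring

/-- **MOVE for letters with heights, additive slack.** -/
theorem move_I {A : Finset Ω} {A' : Finset Ω'} {ρ : Ω → ℝ} {ρ' : Ω' → ℝ} (hρ : ∀ ω, 0 ≤ ρ ω)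
    (hρ' : ∀ ω, 0 ≤ ρ' ω) {n a : ℕ} (hn : n ≤ 2 ^ a)
    {T : ℕ → (Ω → ℂ) →ₗ[ℝ] (Ω' → ℂ) →ₗ[ℝ] ℂ} {N δ δ' H H' h h' : ℝ} (hN : 0 ≤ N) (hδ : 0 ≤ δ)
    (hδ' : 0 ≤ δ') (hT : StatI A ρ H δ A' ρ' H' δ' n T N)
    (x : ℕ → Ω → ℂ) (y : ℕ → Ω' → ℂ) (D D' : ℕ → ℝ) {Q Q' : ℝ}
    (hx : ∀ k l, k ≤ l → qW A ρ (x k - x l) ≤ D l - D k) (hQ : ∀ k, D k - D 0 ≤ Q)
    (hy : ∀ k l, k ≤ l → qW A' ρ' (y k - y l) ≤ D' l - D' k) (hQ' : ∀ k, D' k - D' 0 ≤ Q')
    (hh : ∀ k, ∀ ω ∈ A, ‖x k ω‖ ≤ h) (hh' : ∀ k, ∀ ω ∈ A', ‖y k ω‖ ≤ h')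
    (hH : 2 ^ (a + 1) * h ≤ H) (hH' : 2 ^ (a + 1) * h' ≤ H') :
    ‖∑ k ∈ range n, T k (x k) (y k)‖ ≤
      N * (a * √Q + nW A ρ (x (2 ^ a - 1)) + (a + 1) * δ) *
        (a * √Q' + nW A' ρ' (y (2 ^ a - 1)) + (a + 1) * δ') := by
  have h1 : ∀ k ∈ range n, T k (x k) (y k) = ∑ b ∈ range (a + 1), ∑ c ∈ range (a + 1),
      T k (pcF x a b (k / 2 ^ b)) (pcF y a c (k / 2 ^ c)) := by
    intro k hk
    have hk' : k < 2 ^ a := lt_of_lt_of_le (Finset.mem_range.1 hk) hn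
    conv_lhs => rw [pcF_expand x a k hk', pcF_expand y a k hk']
    rw [map_sum (T k) (fun b => pcF x a b (k / 2 ^ b)) (range (a + 1)), LinearMap.sum_apply]
    refine Finset.sum_congr rfl fun b _ => ?_
    rw [map_sum]
  rw [Finset.sum_congr rfl h1, Finset.sum_comm]
  have h2 : ∀ b ∈ range (a + 1), ∀ c ∈ range (a + 1),
      ‖∑ k ∈ range n, T k (pcF x a b (k / 2 ^ b)) (pcF y a c (k / 2 ^ c))‖ ≤
        N * (vvF A ρ x a Q b + δ) * (vvF A' ρ' y a Q' c + δ') := by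
    intro b hb c hc
    have hb' : b ≤ a := Nat.lt_succ_iff.1 (Finset.mem_range.1 hb)
    have hc' : c ≤ a := Nat.lt_succ_iff.1 (Finset.mem_range.1 hc)
    have hlt : ∀ {k d : ℕ}, k < 2 ^ a → d ≤ a → k / 2 ^ d < 2 ^ (a - d) := by
      intro k d hk hd
      rw [Nat.div_lt_iff_lt_mul (by positivity), pow_sub_mul_pow 2 hd]
      exact hk
    have h3 := sign2I (range n) T hρ hρ' hN hδ hδ' hT
      (fun k => if h : k < 2 ^ a then (⟨k / 2 ^ b, hlt h hb'⟩ : Fin (2 ^ (a - b))) else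
        ⟨0, by positivity⟩)
      (fun k => if h : k < 2 ^ a then (⟨k / 2 ^ c, hlt h hc'⟩ : Fin (2 ^ (a - c))) else
        ⟨0, by positivity⟩)
      (fun g => pcF x a b g) (fun g => pcF y a c g) (vvF_nonneg A ρ x a Q b)
      (vvF_nonneg A' ρ' y a Q' c)
      (pcF_sq hρ x D hx hQ a b hb) (pcF_sq hρ' y D' hy hQ' a c hc)
      (fun ω hω => (pcF_h x hh a b hω).trans hH) (fun ω hω => (pcF_h y hh' a c hω).trans hH')
    refine le_trans (le_of_eq ?_) h3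
    congr 1
    refine Finset.sum_congr rfl fun k hk => ?_
    have hk' : k < 2 ^ a := lt_of_lt_of_le (Finset.mem_range.1 hk) hn
    simp only [dif_pos hk']
  calc ‖∑ b ∈ range (a + 1), ∑ k ∈ range n, ∑ c ∈ range (a + 1),
        T k (pcF x a b (k / 2 ^ b)) (pcF y a c (k / 2 ^ c))‖
      ≤ ∑ b ∈ range (a + 1), ∑ c ∈ range (a + 1),
          N * (vvF A ρ x a Q b + δ) * (vvF A' ρ' y a Q' c + δ') := by
        refine (norm_sum_le _ _).trans (Finset.sum_le_sum fun b hb => ?_)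
        rw [Finset.sum_comm]
        exact (norm_sum_le _ _).trans (Finset.sum_le_sum fun c hc => h2 b hb c hc)
    _ = N * (∑ b ∈ range (a + 1), (vvF A ρ x a Q b + δ)) *
          (∑ c ∈ range (a + 1), (vvF A' ρ' y a Q' c + δ')) := by
        rw [mul_assoc, Finset.sum_mul_sum, Finset.mul_sum]
        refine Finset.sum_congr rfl fun b _ => ?_
        rw [Finset.mul_sum]
        refine Finset.sum_congr rfl fun c _ => ?_
        ring
    _ = _ := by rw [vvF_sum, vvF_sum]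

/-- one letter moves, the other one is static -/
theorem move_I_one {A : Finset Ω} {A' : Finset Ω'} {ρ : Ω → ℝ} {ρ' : Ω' → ℝ} (hρ : ∀ ω, 0 ≤ ρ ω)
    (hρ' : ∀ ω, 0 ≤ ρ' ω) {n a : ℕ} (hn : n ≤ 2 ^ a)
    {T : ℕ → (Ω → ℂ) →ₗ[ℝ] (Ω' → ℂ) →ₗ[ℝ] ℂ} {N δ δ' H H' h h' : ℝ} (hN : 0 ≤ N) (hδ : 0 ≤ δ)
    (hδ' : 0 ≤ δ') (hT : StatI A ρ H δ A' ρ' H' δ' n T N)
    (x : ℕ → Ω → ℂ) (y : Ω' → ℂ) (D : ℕ → ℝ) {Q : ℝ}
    (hx : ∀ k l, k ≤ l → qW A ρ (x k - x l) ≤ D l - D k) (hQ : ∀ k, D k - D 0 ≤ Q)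
    (hh : ∀ k, ∀ ω ∈ A, ‖x k ω‖ ≤ h) (hh' : ∀ ω ∈ A', ‖y ω‖ ≤ h')
    (hH : 2 ^ (a + 1) * h ≤ H) (hH' : 2 ^ (a + 1) * h' ≤ H') :
    ‖∑ k ∈ range n, T k (x k) y‖ ≤
      N * (a * √Q + nW A ρ (x (2 ^ a - 1)) + (a + 1) * δ) *
        (nW A' ρ' y + (a + 1) * δ') := by
  have h := move_I hρ hρ' hn hN hδ hδ' hT x (fun _ => y) D (fun _ => 0) (Q := Q) (Q' := 0) hx hQ
    (fun k l _ => by rw [sub_self, qW_zero]; simp) (fun k => by simp) hh (fun _ => hh') hH hH'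
  simpa using h

end fn

end Crest.Agent.R079.GaMx571
end

-- ▼ part R079/GaS_571

/-! R079, Step I, MOVE on the stacks over NODE-DEPENDENT band systems (helper571): port of 242's
`StkM` / `MovE` to `ThA_159` (Whitney cells), in JOINT form over the family of gauges: all kernel
letters above the thresholds together, weights `κ i ν i`, one budget.

* `Zs`, `Zs_leaf`, `Zs_node` : global kernel letter above the threshold on a full region;
* `var_g`, `var_ZJ` : quadratic variation between nested full regions (joint);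
* `size_ZJ`  : `∑_i κ_i ν_i ‖Z_i‖² ≤ len J (av J X ² + η)`;
* `stackZJ`, `stackG` : hypotheses of `GaMx571.move_I`. -/

set_option autoImplicit false

namespace Crest.Agent.R079.GaSx571

open Finset Crest.Agent.R079.Grid Crest.Agent.R079.Growth Crest.Agent.R079.QRed
  Crest.Agent.R079.Qh249 Crest.Agent.R079.TWin
open Crest.Agent.R079.RelW653 (vl NMP Jv Dv av_par sum_av' lf_sum_eq')
open Crest.Agent.R079.RelV653 Crest.Agent.R079.ThA159 Crest.Agent.R079.ThB159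
open Crest.Agent.R079.Stk (SL_nest sq_tri hh SL_hh len_hh Rk Rk_mono full_Rk)
open Crest.Agent.R079.MovC (chain_fix)
open Crest.Agent.R079.GaMx571

section one

variable {Ω : Type*} {Bd : Nd → Finset Ω} {pos : Ω → ℤ} {N : Nd → (Ω → ℂ) → ℝ} {ν : ℝ}

lemma dst_SL (hB : Bnd Bd pos N ν) {W : Finset Nd} {I : Nd} (hW : Full W I) (A B : Ω → ℂ) :
    ∀ p ∈ W, SL W p (fun q => dst Bd q A B / len q) = dst Bd p A B := by
  refine full_ind hW (fun p hp => ?_) fun m l hp hnl h0 h1 e0 e1 => ?_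
  · rw [SL_leaf hp]
    have := Growth.len_pos p
    field_simp
  · rw [SL_node hW hnl h0 h1, dst_ch hB, e0, e1]

lemma Bd_up (hB : Bnd Bd pos N ν) {ω : Ω} (m : ℕ) (l : ℤ) (h : ω ∈ Bd (m, l)) :
    ∀ k : ℕ, ω ∈ Bd (m + k, l / 2 ^ k) := by
  intro k
  induction k with
  | zero => simpa using h
  | succ k ih =>
    have e : l / 2 ^ (k + 1) = l / 2 ^ k / 2 := by
      have := L0e.ediv_pow_pow l k 1
      rw [pow_one] at this
      rw [← this]
    rw [e, ← add_assoc]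
    rcases Int.even_or_odd' (l / 2 ^ k) with ⟨c, hc | hc⟩
    · rw [hc, show 2 * c / 2 = c by omega]
      exact (hB.sub _ _ _).2 (Or.inl (hc ▸ ih))
    · rw [hc, show (2 * c + 1) / 2 = c by omega]
      exact (hB.sub _ _ _).2 (Or.inr (hc ▸ ih))

lemma Bd_mono (hB : Bnd Bd pos N ν) {p q : Nd} (h : iv p ⊆ iv q) {ω : Ω} (hω : ω ∈ Bd p) :
    ω ∈ Bd q := by
  obtain ⟨k, hk⟩ := Qe292.iv_sub_iff.1 h
  rw [hk]
  exact Bd_up hB p.1 p.2 hω k

lemma Bgl_loc (hB : Bnd Bd pos N ν) (a : Ω → ℂ) {r : ℝ} (hr : 0 ≤ r) {W : Finset Nd} {I : Nd}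
    (hW : Full W I) {p : Nd} (hp : p ∈ W) (g : Fn) {ω : Ω} (hω : ω ∈ Bd p) :
    Bgl Bd pos N a r W I g ω = Bgl Bd pos N a r W p g ω := by
  classical
  unfold Bgl
  symm
  refine Finset.sum_subset ?_ ?_
  · intro L hL
    rw [Finset.mem_filter] at hL ⊢
    exact ⟨hL.1, hL.2.trans (hW.reg.1 p hp)⟩
  · intro L hL hL'
    rw [Finset.mem_filter] at hL
    have hno : ω ∉ Bd L := by
      intro h
      exact hL' (Finset.mem_filter.2 ⟨hL.1, leaf_below hW hL.1 hp (hB.mem L ω h) (hB.mem p ω hω)⟩)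
    exact (Pj_spec hB hr L _).1.1 ω hno

/-- the global kernel letter above the threshold: `a g` minus the glued own exit projections -/
noncomputable def Zs (Bd : Nd → Finset Ω) (pos : Ω → ℤ) (N : Nd → (Ω → ℂ) → ℝ) (a : Ω → ℂ) (r : ℝ)
    (W : Finset Nd) (J : Nd) (f : Nd → Fn) : Ω → ℂ :=
  fun ω => ag Bd pos a J (gl W f) ω - Bgl Bd pos N a r W J (gl W f) ω

/-- on an exit it is the own part above the threshold -/
lemma Zs_leaf (hB : Bnd Bd pos N ν) (a : Ω → ℂ) {r : ℝ} (hr : 0 ≤ r) {W : Finset Nd} {J : Nd}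
    (hW : Full W J) (f : Nd → Fn) {p : Nd} (hp : p ∈ lf W) {ω : Ω} (hω : ω ∈ Bd p) :
    Zs Bd pos N a r W J f ω = Rs Bd pos N a r p (f p) ω := by
  have hpW := (mem_lf.1 hp).1
  have hωJ := Bd_mono hB (hW.reg.1 p hpW) hω
  have e1 : ag Bd pos a p (gl W f) = ag Bd pos a p (f p) :=
    ag_congr hB fun y hy => gl_eq hW f hp hy
  unfold Zs Rs
  rw [Bgl_loc hB a hr hW hpW _ hω, Bgl_leaf hp, e1, ag_eq hω, ag_eq hωJ,
    gl_eq hW f hp (hB.mem p ω hω)]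

/-- on an inner node it is the part above the threshold of that node, corrected by the difference
of the own projection and the glued exit projections -/
lemma Zs_node (hB : Bnd Bd pos N ν) (a : Ω → ℂ) {r : ℝ} (hr : 0 ≤ r) {W : Finset Nd} {J : Nd}
    (hW : Full W J) (f : Nd → Fn) {p : Nd} (hp : p ∈ W) {ω : Ω} (hω : ω ∈ Bd p) :
    Zs Bd pos N a r W J f ω = Rs Bd pos N a r p (gl W f) ω +
      (Pj Bd N r p (ag Bd pos a p (gl W f)) ω - Bgl Bd pos N a r W p (gl W f) ω) := by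
  have hωJ := Bd_mono hB (hW.reg.1 p hp) hω
  unfold Zs Rs
  rw [Bgl_loc hB a hr hW hp _ hω, ag_eq hω, ag_eq hωJ]
  ring

/-- outside the band of the top the letter vanishes -/
lemma Zs_zero (hB : Bnd Bd pos N ν) (a : Ω → ℂ) {r : ℝ} (hr : 0 ≤ r) {W : Finset Nd} {J : Nd}
    (hW : Full W J) (f : Nd → Fn) {ω : Ω} (hω : ω ∉ Bd J) : Zs Bd pos N a r W J f ω = 0 := by
  classical
  unfold Zs
  rw [(Bgl_adm hB a hr hW (gl W f) J hW.top).1 ω hω]
  unfold ag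
  rw [if_neg hω, sub_zero]

end one

section family

variable {ι : Type*} [Fintype ι] {Ω : ι → Type*} {Bd : ∀ i, Nd → Finset (Ω i)}
  {pos : ∀ i, Ω i → ℤ} {N : ∀ i, Nd → (Ω i → ℂ) → ℝ} {ν : ι → ℝ} {a : ∀ i, Ω i → ℂ} {r : ι → ℝ}
  {κ : ι → ℝ} {X : Fn} {η : ℝ} {f : Nd → Fn}

/-- joint band -/
def BJ (Bd : ∀ i, Nd → Finset (Ω i)) (J : Nd) : Finset (Σ i, Ω i) :=
  Finset.univ.sigma fun i => Bd i J

/-- joint weight -/
def rJ (κ ν : ι → ℝ) : (Σ i, Ω i) → ℝ := fun s => κ s.1 * ν s.1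

/-- joint kernel letter above the thresholds -/
noncomputable def ZJ (Bd : ∀ i, Nd → Finset (Ω i)) (pos : ∀ i, Ω i → ℤ)
    (N : ∀ i, Nd → (Ω i → ℂ) → ℝ) (a : ∀ i, Ω i → ℂ) (r : ι → ℝ) (W : Finset Nd) (J : Nd)
    (f : Nd → Fn) : (Σ i, Ω i) → ℂ :=
  fun s => Zs (Bd s.1) (pos s.1) (N s.1) (a s.1) (r s.1) W J f s.2

lemma qW_BJ (Bd : ∀ i, Nd → Finset (Ω i)) (κ ν : ι → ℝ) (J : Nd) (u : (Σ i, Ω i) → ℂ) :
    qW (BJ Bd J) (rJ κ ν) u = ∑ i, κ i * ν i * ∑ ω ∈ Bd i J, ‖u ⟨i, ω⟩‖ ^ 2 := by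
  unfold qW BJ rJ
  rw [Finset.sum_sigma]
  refine Finset.sum_congr rfl fun i _ => ?_
  rw [Finset.mul_sum]

variable (hB : ∀ i, Bnd (Bd i) (pos i) (N i) (ν i)) (hr : ∀ i, 0 ≤ r i) (hκ : ∀ i, 0 ≤ κ i)
  (h : NMP (fun _ _ => True) (ThF Bd pos N ν a r κ) X η f)

include hB hr hκ h

/-- the glued letters of two nested full regions -/
theorem var_g {W W' : Finset Nd} {J : Nd} (hW : Full W J) (hW' : Full W' J) (hs : W ⊆ W') :
    ∑ y ∈ iv J, ‖gl W f y - gl W' f y‖ ^ 2 ≤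
      2 * (SL W' J (Jv (ThF Bd pos N ν a r κ) X f) - SL W J (Jv (ThF Bd pos N ν a r κ) X f) +
        2 * η * len J) := by
  rw [← SL_hh _ hW hW' hs, ← SL_smul,
    sum_SL hW (fun y => ‖gl W f y - gl W' f y‖ ^ 2)
      (fun p => av p (fun y => f p y - gl W' f y) ^ 2) (fun L hL => ?_) J hW.top]
  · refine SL_mono fun L hL _ => ?_
    have h1 := strong_win hB hr hκ h hW' (hs (mem_lf.1 hL).1)
    have h2 : 0 ≤ (1 / 2 : ℝ) * ∑ i, κ i * (ν i * dst (Bd i) L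
        (Rs (Bd i) (pos i) (N i) (a i) (r i) L (f L))
        (Rs (Bd i) (pos i) (N i) (a i) (r i) L (gl W' f))) :=
      mul_nonneg (by norm_num) (Finset.sum_nonneg fun i _ =>
        mul_nonneg (hκ i) (mul_nonneg (hB i).nu.le (dst_nonneg _ _ _)))
    have h3 : 0 ≤ ∑ i, κ i * (ν i / 2 * dst (Bd i) L
        (Pj (Bd i) (N i) (r i) L (ag (Bd i) (pos i) (a i) L (gl W' f)))
        (Bgl (Bd i) (pos i) (N i) (a i) (r i) W' L (gl W' f))) :=
      Finset.sum_nonneg fun i _ =>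
        mul_nonneg (hκ i) (mul_nonneg (by have := (hB i).nu; positivity) (dst_nonneg _ _ _))
    rw [← len_hh] at h1
    have hL0 := Growth.len_pos L
    have h4 : len L * av L (fun y => f L y - gl W' f y) ^ 2 ≤
        len L * (2 * hh (ThF Bd pos N ν a r κ) X f η W' L) := by linarith
    exact le_of_mul_le_mul_left h4 hL0
  · rw [← sum_av']
    exact Finset.sum_congr rfl fun y hy => by rw [gl_eq hW f hL hy]

/-- the kernel letters above the thresholds of two nested full regions, JOINT form -/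
theorem var_ZJ {W W' : Finset Nd} {J : Nd} (hW : Full W J) (hW' : Full W' J) (hs : W ⊆ W') :
    qW (BJ Bd J) (rJ κ ν) (ZJ Bd pos N a r W J f - ZJ Bd pos N a r W' J f) ≤
      4 * (SL W' J (Jv (ThF Bd pos N ν a r κ) X f) - SL W J (Jv (ThF Bd pos N ν a r κ) X f) +
        2 * η * len J) := by
  rw [qW_BJ]
  have e0 : ∑ i, κ i * ν i * ∑ ω ∈ Bd i J,
      ‖(ZJ Bd pos N a r W J f - ZJ Bd pos N a r W' J f) ⟨i, ω⟩‖ ^ 2 =
      SL W J (fun L => ∑ i, κ i * ν i * (dst (Bd i) L (Zs (Bd i) (pos i) (N i) (a i) (r i) W J f)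
        (Zs (Bd i) (pos i) (N i) (a i) (r i) W' J f) / len L)) := by
    have e1 : ∀ i, κ i * ν i * ∑ ω ∈ Bd i J,
        ‖(ZJ Bd pos N a r W J f - ZJ Bd pos N a r W' J f) ⟨i, ω⟩‖ ^ 2 =
        SL W J (fun L => κ i * ν i * (dst (Bd i) L (Zs (Bd i) (pos i) (N i) (a i) (r i) W J f)
          (Zs (Bd i) (pos i) (N i) (a i) (r i) W' J f) / len L)) := by
      intro i
      rw [SL_smul, dst_SL (hB i) hW _ _ J hW.top]
      rfl
    rw [Finset.sum_congr rfl fun i _ => e1 i]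
    unfold SL
    rw [Finset.sum_comm]
    refine Finset.sum_congr rfl fun L _ => ?_
    rw [Finset.mul_sum]
  rw [e0, ← SL_hh _ hW hW' hs, ← SL_smul]
  refine SL_mono fun L hL _ => ?_
  have hL0 := Growth.len_pos L
  have h1 := strong_win hB hr hκ h hW' (hs (mem_lf.1 hL).1)
  have h0 : 0 ≤ len L * ((1 / 2) * av L (fun y => f L y - gl W' f y) ^ 2) := by positivity
  set A : ι → ℝ := fun i => dst (Bd i) L (Rs (Bd i) (pos i) (N i) (a i) (r i) L (f L))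
    (Rs (Bd i) (pos i) (N i) (a i) (r i) L (gl W' f)) with hA
  set B : ι → ℝ := fun i => dst (Bd i) L
    (Pj (Bd i) (N i) (r i) L (ag (Bd i) (pos i) (a i) L (gl W' f)))
    (Bgl (Bd i) (pos i) (N i) (a i) (r i) W' L (gl W' f)) with hBd
  have h4 : ∀ i, κ i * ν i * dst (Bd i) L (Zs (Bd i) (pos i) (N i) (a i) (r i) W J f)
      (Zs (Bd i) (pos i) (N i) (a i) (r i) W' J f) ≤
        2 * (κ i * (ν i * A i)) + 4 * (κ i * (ν i / 2 * B i)) := by
    intro i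
    have h5 : dst (Bd i) L (Zs (Bd i) (pos i) (N i) (a i) (r i) W J f)
        (Zs (Bd i) (pos i) (N i) (a i) (r i) W' J f) ≤ 2 * A i + 2 * B i := by
      simp only [hA, hBd]
      unfold dst
      rw [Finset.mul_sum, Finset.mul_sum, ← Finset.sum_add_distrib]
      refine Finset.sum_le_sum fun ω hω => ?_
      rw [Zs_leaf (hB i) (a i) (hr i) hW f hL hω,
        Zs_node (hB i) (a i) (hr i) hW' f (hs (mem_lf.1 hL).1) hω]
      exact sq_tri _ _ _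
    have h6 : 0 ≤ κ i * ν i := mul_nonneg (hκ i) (hB i).nu.le
    have h7 := mul_le_mul_of_nonneg_left h5 h6
    linarith
  rw [← len_hh] at h1
  have h8 : ∑ i, κ i * ν i * dst (Bd i) L (Zs (Bd i) (pos i) (N i) (a i) (r i) W J f)
      (Zs (Bd i) (pos i) (N i) (a i) (r i) W' J f) ≤
      len L * (4 * hh (ThF Bd pos N ν a r κ) X f η W' L) := by
    refine (Finset.sum_le_sum fun i _ => h4 i).trans ?_
    rw [Finset.sum_add_distrib, ← Finset.mul_sum, ← Finset.mul_sum]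
    nlinarith [h1, h0]
  have h9 : len L * (∑ i, κ i * ν i * (dst (Bd i) L (Zs (Bd i) (pos i) (N i) (a i) (r i) W J f)
      (Zs (Bd i) (pos i) (N i) (a i) (r i) W' J f) / len L)) ≤
      len L * (4 * hh (ThF Bd pos N ν a r κ) X f η W' L) := by
    refine le_trans (le_of_eq ?_) h8
    rw [Finset.mul_sum]
    refine Finset.sum_congr rfl fun i _ => ?_
    field_simp
  exact le_of_mul_le_mul_left h9 hL0

/-- total value on the exits of a full region -/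
lemma SL_Jv_le {W : Finset Nd} {J : Nd} (hW : Full W J) :
    SL W J (Jv (ThF Bd pos N ν a r κ) X f) ≤ len J * (av J X ^ 2 + η) := by
  have hP := pen_ThF (a := a) (κ := κ) hB hr hκ
  calc SL W J (Jv (ThF Bd pos N ν a r κ) X f) ≤ SL W J (fun L => av L X ^ 2 + η) := by
        refine SL_mono fun L _ _ => ?_
        have := Jv_le hP h L
        linarith
    _ = len J * (av J X ^ 2 + η) := by
        rw [SL_add, SL_av hW X J hW.top, SL_const hW η J hW.top]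
        ring

lemma SL_Jv_nonneg {W : Finset Nd} {J : Nd} :
    0 ≤ SL W J (Jv (ThF Bd pos N ν a r κ) X f) := by
  have hP := pen_ThF (a := a) (κ := κ) hB hr hκ
  unfold SL
  exact Finset.sum_nonneg fun L _ => mul_nonneg (Growth.len_pos L).le (Jv_nonneg hP L)

/-- size of the kernel letters above the thresholds, JOINT form -/
theorem size_ZJ {W : Finset Nd} {J : Nd} (hW : Full W J) :
    qW (BJ Bd J) (rJ κ ν) (ZJ Bd pos N a r W J f) ≤ len J * (av J X ^ 2 + η) := by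
  refine le_trans ?_ (SL_Jv_le hB hr hκ h hW)
  rw [qW_BJ]
  have e1 : ∀ i, κ i * ν i * ∑ ω ∈ Bd i J, ‖ZJ Bd pos N a r W J f ⟨i, ω⟩‖ ^ 2 =
      SL W J (fun L => κ i * Th (Bd i) (pos i) (N i) (ν i) (a i) (r i) L (gl W f)) := by
    intro i
    have e2 : ∑ ω ∈ Bd i J, ‖ZJ Bd pos N a r W J f ⟨i, ω⟩‖ ^ 2 =
        dst (Bd i) J (ag (Bd i) (pos i) (a i) J (gl W f))
          (Bgl (Bd i) (pos i) (N i) (a i) (r i) W J (gl W f)) := rfl
    rw [e2, mul_assoc, Bgl_dst (hB i) (a i) (hr i) hW (gl W f) J hW.top, ← SL_smul]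
  rw [Finset.sum_congr rfl fun i _ => e1 i]
  have e3 : ∑ i, SL W J (fun L => κ i * Th (Bd i) (pos i) (N i) (ν i) (a i) (r i) L (gl W f)) =
      SL W J (fun L => ThF Bd pos N ν a r κ L (gl W f)) := by
    unfold SL ThF Sg
    rw [Finset.sum_comm]
    refine Finset.sum_congr rfl fun L _ => ?_
    rw [Finset.mul_sum]
  rw [e3]
  refine SL_mono fun L hL _ => ?_
  have e4 : ThF Bd pos N ν a r κ L (gl W f) = ThF Bd pos N ν a r κ L (f L) := by
    have hP := pen_ThF (a := a) (κ := κ) hB hr hκ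
    exact hP.loc L _ _ fun y hy => gl_eq hW f hL hy
  rw [e4]
  unfold Jv vl
  have h2 : 0 ≤ av L (fun y => X y - f L y) ^ 2 := sq_nonneg _
  linarith

variable {R S : Finset Nd} {J : Nd} {W : Nd → Finset Nd} {C : ℝ} (hR : Full R J)
  (hP : TWin.Part R S W C)

include hR hP

/-- **the moving kernel letters satisfy the hypotheses of `move_I`** -/
theorem stackZJ (m : ℕ) :
    ∃ D : ℕ → ℝ, (∀ k l, k ≤ l → qW (BJ Bd J) (rJ κ ν)
      (ZJ Bd pos N a r (Rk R S (min k m + 1)) J f -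
        ZJ Bd pos N a r (Rk R S (min l m + 1)) J f) ≤ D l - D k) ∧
      ∀ k, D k - D 0 ≤ 4 * (len J * (av J X ^ 2 + η) + 2 * η * len J * m) := by
  have hJ := Growth.len_pos J
  have he : 0 ≤ 2 * η * len J := by
    have := h.eta
    positivity
  have hfix := chain_fix
    (fun k l => qW (BJ Bd J) (rJ κ ν) (ZJ Bd pos N a r (Rk R S k) J f -
      ZJ Bd pos N a r (Rk R S l) J f))
    (fun k => SL (Rk R S k) J (Jv (ThF Bd pos N ν a r κ) X f))
    (c := 4) (e := 2 * η * len J) (B := len J * (av J X ^ 2 + η))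
    (by norm_num) he m ?_ ?_ ?_
  · exact ⟨_, hfix.1, hfix.2⟩
  · intro k l hk hkl
    exact var_ZJ hB hr hκ h (full_Rk hR hP hk) (full_Rk hR hP (hk.trans hkl)) (Rk_mono hkl)
  · intro k
    rw [sub_self, qW_zero]
  · intro k hk
    have h1 := SL_Jv_le hB hr hκ h (full_Rk hR hP hk)
    have h2 := SL_Jv_nonneg (W := Rk R S 1) (J := J) hB hr hκ h
    linarith

/-- the moving glued letters satisfy the hypotheses of `move_I` -/
theorem stackG (m : ℕ) :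
    ∃ D : ℕ → ℝ, (∀ k l, k ≤ l → ∑ y ∈ iv J,
      ‖gl (Rk R S (min k m + 1)) f y - gl (Rk R S (min l m + 1)) f y‖ ^ 2 ≤ D l - D k) ∧
      ∀ k, D k - D 0 ≤ 2 * (len J * (av J X ^ 2 + η) + 2 * η * len J * m) := by
  have hJ := Growth.len_pos J
  have he : 0 ≤ 2 * η * len J := by
    have := h.eta
    positivity
  have hfix := chain_fix
    (fun k l => ∑ y ∈ iv J, ‖gl (Rk R S k) f y - gl (Rk R S l) f y‖ ^ 2)
    (fun k => SL (Rk R S k) J (Jv (ThF Bd pos N ν a r κ) X f))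
    (c := 2) (e := 2 * η * len J) (B := len J * (av J X ^ 2 + η))
    (by norm_num) he m ?_ ?_ ?_
  · exact ⟨_, hfix.1, hfix.2⟩
  · intro k l hk hkl
    exact var_g hB hr hκ h (full_Rk hR hP hk) (full_Rk hR hP (hk.trans hkl)) (Rk_mono hkl)
  · intro k
    simp
  · intro k hk
    have h1 := SL_Jv_le hB hr hκ h (full_Rk hR hP hk)
    have h2 := SL_Jv_nonneg (W := Rk R S 1) (J := J) hB hr hκ h
    linarith

/-- norm of the last kernel letters -/
lemma nW_ZJ {k : ℕ} (hk : 1 ≤ k) :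
    nW (BJ Bd J) (rJ κ ν) (ZJ Bd pos N a r (Rk R S k) J f) ≤ √(len J * (av J X ^ 2 + η)) :=
  Real.sqrt_le_sqrt (size_ZJ hB hr hκ h (full_Rk hR hP hk))

end family

end Crest.Agent.R079.GaSx571
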