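import Crest.Agent.R079.GlueK_914
import Crest.Agent.R079.Frozen_569
import Crest.Agent.R079.PLPhi_931

/-! R079, [AL3] part 2 (helper914): region sums of box forms with an ARBITRARY kernel in slot `j`, and the
LABELLED transfer `ℤ, ℂ → ZMod Q, ℝ` (complex labels = real labels `κ × Bool`), to 931's `LboxL` / `bl`. -/

set_option autoImplicit false

namespace Crest.Agent.R079.GlueK

open Finset Crest.Agent.R079.Grid Crest.Agent.R079.Pot Crest.Agent.R079.Glue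
open Matrix (trace)

/-! ### region sum, general kernel -/

lemma hone_aux (m : ℕ) (L1 W0 : ℕ) (J : ℕ × ℤ) (hpow : 2 ^ m ≤ 2 ^ (J.1 + 1))
    (hW0 : W0 = 3 * L1 + 8 * 2 ^ (J.1 + 1)) (G : ℤ → ℤ → ℤ → ℤ → ℝ) (hG0 : ∀ w x y z, 0 ≤ G w x y z)
    (l : ℤ) (hl : |l| ≤ 7) :
    (1 / (2 : ℝ) ^ m) * ∑ p ∈ Icc (-(L1 : ℤ)) L1 ×ˢ (Icc (-(L1 : ℤ)) L1 ×ˢ Icc (-(L1 : ℤ)) L1),
        ∑ i ∈ range (2 ^ m),
          G ((i : ℤ) + l * ((2 ^ m : ℕ) : ℤ) - p.1 - p.2.1 - p.2.2) p.1 p.2.1 p.2.2 ≤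
      ∑ w ∈ Icc (-(W0 : ℤ)) W0, (1 / (2 : ℝ) ^ m) * ∑ i ∈ range (2 ^ m),
        ∑ p0 ∈ Icc (-(L1 : ℤ)) L1, ∑ p1 ∈ Icc (-(L1 : ℤ)) L1,
          G w p0 p1 (l * 2 ^ m + (i : ℤ) - w - p0 - p1) := by
  rw [← Finset.mul_sum]
  refine mul_le_mul_of_nonneg_left ?_ (by positivity)
  rw [Finset.sum_comm, Finset.sum_comm (s := Icc (-(W0 : ℤ)) W0)]
  refine Finset.sum_le_sum fun i hi => ?_
  rw [Finset.mem_range] at hi
  refine (sum_cube_le L1 (2 ^ m) l i hi hl W0 (by rw [hW0]; omega) G hG0).trans (le_of_eq ?_)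
  refine Finset.sum_congr rfl fun w _ => Finset.sum_congr rfl fun p0 _ =>
    Finset.sum_congr rfl fun p1 _ => ?_
  congr 1



/-! ### complex labels = real labels -/

/-- entry of the real `2 × 2` matrix of `z` -/
noncomputable def rp (a b : Bool) (z : ℂ) : ℝ := if a = b then z.re else if a then -z.im else z.im



variable {κ0 κ1 κ2 : Type*}

/-- real representation of a complex matrix (labels doubled by `Bool`) -/
noncomputable def cL (A : Matrix κ0 κ1 ℂ) : Matrix (κ0 × Bool) (κ1 × Bool) ℝ :=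
  fun x y => rp x.2 y.2 (A x.1 y.1)





/-! ### transfer to `ZMod Q` -/

section transfer

variable [Fintype κ0] [DecidableEq κ0] [Fintype κ1] [DecidableEq κ1] [Fintype κ2] [DecidableEq κ2]











end transfer

end Crest.Agent.R079.GlueK
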