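import Crest.Agent.R079.SWc_360
import Crest.Agent.R079.NC2_37
import Crest.Agent.R079.ExC_999

/-! R079, Step I, (S) words (helper360), second file to `SWc_360`:

* `s4K_frK`, `s4K_frK_swap`, `s2K_frK`, `s2K_frK_swap`: the two costs in the literal of
  `labelled24_0/_1/_2` (labels at the first / second variable of `frK`);
* `ncs_of_nc2`: `NC2 p p g d F` (254's literal, landed by 37) gives `NCs p g d F`;
* `s4_symm`, `hs_majorant`: box Hilbert-Schmidt norm of a frame dominated by `c C C*`;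
* `opS_up`: the operator bound of the exit cells at all larger scales;
* `hsk_of_cells`: `HSk` of frames dominated by `(c/L) C C*`, `C` with `OpS` bound `r 2^n` on the
  aligned cells of the scale of the node: `η = 8 c r²` times the trace of `(c/L) C C*`. -/

set_option autoImplicit false
set_option linter.unusedSectionVars false

namespace Crest.Agent.R079.SWc360

open Finset Crest.Agent.R079.Grid Crest.Agent.R079.Glue Crest.Agent.R079.R244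
  Crest.Agent.R079.Growth Crest.Agent.R079.Cell37 Crest.Agent.R079.CellH237
  Crest.Agent.R079.Hank37 Crest.Agent.R079.Sgn Crest.Agent.R079.NC237 Crest.Agent.R079.ExA999
  Crest.Agent.R079.ClW59

open scoped ComplexConjugate

variable {κ : Type} [Fintype κ] [DecidableEq κ] {ι : Type}

/-! ### the literals of `labelled24` -/


theorem s2K_frK (S : Finset ι) (lam : ι → ℝ) (hlam : ∀ n ∈ S, 0 ≤ lam n) (R : Finset (ℕ × ℤ))
    (κ0 : ℕ) (V V' : ℝ) (T T' : Finset ℤ) {j k e f : Fin 4} (hj : j ≠ k)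
    (U : ι → ℤ → ℤ → κ → ℂ) (F : Fn) {A : ℝ} (hA0 : 0 ≤ A)
    (hA : ∀ p ∈ R, ∑ y ∈ iv p, ‖F y‖ ^ 2 ≤ A * len p)
    (hV : ∑ n ∈ S, lam n * ∑ z ∈ T, ∑ x ∈ T', kD T T' (U n) z x ≤ V) (hVV : A * V ≤ V') :
    S2K S lam R κ0 V' (fun n G w => frK j k e f T T' (U n) G w) F :=
  s2K_of S lam hlam R κ0 V V' T T' (γ := sl e - sl k) (δ := sl f - sl k) (Sgn.sl_ne hj) U F hA0 hA hV hVV


theorem s2K_frK_swap (S : Finset ι) (lam : ι → ℝ) (hlam : ∀ n ∈ S, 0 ≤ lam n)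
    (R : Finset (ℕ × ℤ)) (κ0 : ℕ) (V V' : ℝ) (T T' : Finset ℤ) {j k e f : Fin 4} (hj : j ≠ k)
    (W : ι → ℤ → ℤ → κ → ℂ) (F : Fn) {A : ℝ} (hA0 : 0 ≤ A)
    (hA : ∀ p ∈ R, ∑ y ∈ iv p, ‖F y‖ ^ 2 ≤ A * len p)
    (hV : ∑ n ∈ S, lam n * ∑ z ∈ T', ∑ x ∈ T, kD T' T (fun x y l => W n y x l) z x ≤ V)
    (hVV : A * V ≤ V') :
    S2K S lam R κ0 V' (fun n G w x y l => frK j k e f T T' (W n) G w y x l) F := by
  have h := s2K_of S lam hlam R κ0 V V' T' T (α := sl j - sl k) (γ := sl f - sl k)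
    (δ := sl e - sl k) (Sgn.sl_ne hj) (fun n x y l => W n y x l) F hA0 hA hV hVV
  intro p hp k' hk Λ
  have h1 := h p hp k' hk Λ
  simpa only [frK_swap] using h1

/-! ### non-collision in 254's form -/


/-! ### symmetry of the box norm, majorants -/

/-- `|u u*|_HS = |u* u|_HS` -/
theorem s4_symm {X Y : Type*} (s : Finset X) (t : Finset Y) (u : X → Y → ℂ) :
    ∑ x ∈ s, ∑ x' ∈ s, ‖∑ y ∈ t, u x y * conj (u x' y)‖ ^ 2 =
      ∑ y ∈ t, ∑ y' ∈ t, ‖∑ x ∈ s, u x y * conj (u x y')‖ ^ 2 := by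
  have key : ∀ (X Y : Type _) (s : Finset X) (t : Finset Y) (u : X → Y → ℂ),
      ((∑ x ∈ s, ∑ x' ∈ s, ‖∑ y ∈ t, u x y * conj (u x' y)‖ ^ 2 : ℝ) : ℂ) =
      ∑ x ∈ s, ∑ x' ∈ s, ∑ y ∈ t, ∑ y' ∈ t,
        u x y * conj (u x' y) * (conj (u x y') * u x' y') := by
    intro X Y s t u
    push_cast
    refine Finset.sum_congr rfl fun x _ => Finset.sum_congr rfl fun x' _ => ?_
    rw [← Complex.mul_conj', map_sum, Finset.sum_mul_sum]
    refine Finset.sum_congr rfl fun y _ => Finset.sum_congr rfl fun y' _ => ?_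
    rw [map_mul, Complex.conj_conj]
  have h1 := key X Y s t u
  have h2 : ((∑ y ∈ t, ∑ y' ∈ t, ‖∑ x ∈ s, u x y * conj (u x y')‖ ^ 2 : ℝ) : ℂ) =
      ∑ y ∈ t, ∑ y' ∈ t, ∑ x ∈ s, ∑ x' ∈ s,
        u x y * conj (u x y') * (conj (u x' y) * u x' y') := by
    push_cast
    refine Finset.sum_congr rfl fun x _ => Finset.sum_congr rfl fun x' _ => ?_
    rw [← Complex.mul_conj', map_sum, Finset.sum_mul_sum]
    refine Finset.sum_congr rfl fun y _ => Finset.sum_congr rfl fun y' _ => ?_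
    rw [map_mul, Complex.conj_conj]
  have h3 : ∑ x ∈ s, ∑ x' ∈ s, ∑ y ∈ t, ∑ y' ∈ t,
        u x y * conj (u x' y) * (conj (u x y') * u x' y') =
      ∑ y ∈ t, ∑ y' ∈ t, ∑ x ∈ s, ∑ x' ∈ s,
        u x y * conj (u x y') * (conj (u x' y) * u x' y') := by
    have e1 : ∀ x ∈ s, ∑ x' ∈ s, ∑ y ∈ t, ∑ y' ∈ t,
        u x y * conj (u x' y) * (conj (u x y') * u x' y') =
        ∑ y ∈ t, ∑ y' ∈ t, ∑ x' ∈ s,
          u x y * conj (u x y') * (conj (u x' y) * u x' y') := by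
      intro x _
      rw [Finset.sum_comm]
      refine Finset.sum_congr rfl fun y _ => ?_
      rw [Finset.sum_comm]
      refine Finset.sum_congr rfl fun y' _ => Finset.sum_congr rfl fun x' _ => ?_
      ring
    rw [Finset.sum_congr rfl e1, Finset.sum_comm]
    refine Finset.sum_congr rfl fun y _ => ?_
    rw [Finset.sum_comm]
  have h4 : ((∑ x ∈ s, ∑ x' ∈ s, ‖∑ y ∈ t, u x y * conj (u x' y)‖ ^ 2 : ℝ) : ℂ) =
      ((∑ y ∈ t, ∑ y' ∈ t, ‖∑ x ∈ s, u x y * conj (u x y')‖ ^ 2 : ℝ) : ℂ) := by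
    rw [h1, h2, h3]
  exact_mod_cast h4

/-- **majorant**: if `u u* ≤ c v v*` (as quadratic forms on the box) then
`|u u*|_HS ≤ c |v v*|_HS` -/
theorem hs_majorant {X Y Z : Type*} (s : Finset X) (t : Finset Y) (t' : Finset Z) (u : X → Y → ℂ)
    (v : X → Z → ℂ) {c : ℝ} (hc : 0 ≤ c)
    (h : ∀ f : X → ℂ, ∑ y ∈ t, ‖∑ x ∈ s, f x * u x y‖ ^ 2 ≤
      c * ∑ z ∈ t', ‖∑ x ∈ s, f x * v x z‖ ^ 2) :
    ∑ x ∈ s, ∑ x' ∈ s, ‖∑ y ∈ t, u x y * conj (u x' y)‖ ^ 2 ≤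
      c ^ 2 * ∑ x ∈ s, ∑ x' ∈ s, ‖∑ z ∈ t', v x z * conj (v x' z)‖ ^ 2 := by
  rw [s4_symm s t u, s4_symm s t' v]
  have hsw : ∀ a b : ℂ, ‖conj a * b‖ = ‖a * conj b‖ := by
    intro a b
    rw [norm_mul, norm_mul, RCLike.norm_conj, RCLike.norm_conj]
  -- first step: fix y'
  have h1 : ∀ y' ∈ t, ∑ y ∈ t, ‖∑ x ∈ s, u x y * conj (u x y')‖ ^ 2 ≤
      c * ∑ z ∈ t', ‖∑ x ∈ s, v x z * conj (u x y')‖ ^ 2 := by
    intro y' _
    have := h (fun x => conj (u x y'))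
    simpa only [mul_comm] using this
  have h2 : ∀ z ∈ t', ∑ y' ∈ t, ‖∑ x ∈ s, v x z * conj (u x y')‖ ^ 2 ≤
      c * ∑ z' ∈ t', ‖∑ x ∈ s, v x z * conj (v x z')‖ ^ 2 := by
    intro z _
    have h3 := h (fun x => conj (v x z))
    have h4 : ∀ y', ‖∑ x ∈ s, v x z * conj (u x y')‖ = ‖∑ x ∈ s, conj (v x z) * u x y'‖ := by
      intro y'
      rw [← RCLike.norm_conj (∑ x ∈ s, v x z * conj (u x y')), map_sum]
      congr 1
      refine Finset.sum_congr rfl fun x _ => ?_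
      rw [map_mul, Complex.conj_conj]
    have h5 : ∀ z', ‖∑ x ∈ s, v x z * conj (v x z')‖ = ‖∑ x ∈ s, conj (v x z) * v x z'‖ := by
      intro z'
      rw [← RCLike.norm_conj (∑ x ∈ s, v x z * conj (v x z')), map_sum]
      congr 1
      refine Finset.sum_congr rfl fun x _ => ?_
      rw [map_mul, Complex.conj_conj]
    simp only [h4, h5]
    exact h3
  calc ∑ y ∈ t, ∑ y' ∈ t, ‖∑ x ∈ s, u x y * conj (u x y')‖ ^ 2
      = ∑ y' ∈ t, ∑ y ∈ t, ‖∑ x ∈ s, u x y * conj (u x y')‖ ^ 2 := Finset.sum_comm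
    _ ≤ ∑ y' ∈ t, c * ∑ z ∈ t', ‖∑ x ∈ s, v x z * conj (u x y')‖ ^ 2 := Finset.sum_le_sum h1
    _ = c * ∑ z ∈ t', ∑ y' ∈ t, ‖∑ x ∈ s, v x z * conj (u x y')‖ ^ 2 := by
        rw [← Finset.mul_sum, Finset.sum_comm]
    _ ≤ c * ∑ z ∈ t', c * ∑ z' ∈ t', ‖∑ x ∈ s, v x z * conj (v x z')‖ ^ 2 :=
        mul_le_mul_of_nonneg_left (Finset.sum_le_sum h2) hc
    _ = _ := by rw [← Finset.mul_sum]; ring

/-! ### the operator bound of the exit cells at larger scales -/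




/-! ### `HSk` from the cells -/

/-- one kernel, one vertex value, one box -/
theorem hs_box_cells (B : ℤ → ℤ → ℂ) (n : ℕ) (r c : ℝ) (hc : 0 ≤ c)
    (h : ∀ a b, OpS (dI n a) (dI n b) B (r * 2 ^ n)) (a : ℤ) (L : ℕ) (hNL : 2 ^ n ≤ L) (q : ℤ)
    (hB : ∀ y, ¬ (a ≤ y ∧ y < a + L) → ∀ x, B x y = 0) (u : ℤ → κ → ℂ)
    (hu : ∀ f : ℕ → ℂ, ∑ l, ‖∑ j ∈ range (2 ^ n), f j * u (q + (j : ℤ)) l‖ ^ 2 ≤
      (c / L) * ∑ y ∈ Ico a (a + L), ‖∑ j ∈ range (2 ^ n), f j * B (q + (j : ℤ)) y‖ ^ 2) :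
    (1 / ((2 ^ n : ℕ) : ℝ) ^ 2) * ∑ j ∈ range (2 ^ n), ∑ j' ∈ range (2 ^ n),
        ‖∑ l, u (q + (j : ℤ)) l * conj (u (q + (j' : ℤ)) l)‖ ^ 2 ≤
      8 * (c * r) ^ 2 * ((1 / ((L : ℝ) * 2 ^ n)) *
        ∑ y ∈ Ico a (a + L), ∑ j ∈ range (2 ^ n), ‖B (q + (j : ℤ)) y‖ ^ 2) := by
  have h0 := exit_cost_cells B n r c h a L hNL q hB
  refine le_trans ?_ h0
  have h1 := hs_majorant (range (2 ^ n)) (univ : Finset κ) (Ico a (a + (L : ℤ)))
    (fun j l => u (q + (j : ℤ)) l) (fun j y => B (q + (j : ℤ)) y) (c := c / L) (by positivity) hu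
  have e1 : (((2 ^ n : ℕ) : ℝ)) = 2 ^ n := by push_cast; rfl
  rw [e1]
  refine mul_le_mul_of_nonneg_left (h1.trans (le_of_eq ?_)) (by positivity)
  rw [Finset.mul_sum]
  refine Finset.sum_congr rfl fun j _ => ?_
  rw [Finset.mul_sum]
  refine Finset.sum_congr rfl fun j' _ => ?_
  rw [norm_smul, mul_pow, Real.norm_eq_abs, sq_abs]
  ring


end Crest.Agent.R079.SWc360
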