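import Crest.Agent.R079.SKj_261
import Crest.Agent.R079.SWd_360
import Crest.Agent.R079.OpLev_977
import Crest.Agent.R079.SKb_261
import Crest.Agent.R079.Qb_247

-- ▼ part R079/SKk_261
section

/-! R079, item (c) of 973 / note 1201 (helper261): numbers of the two families of frames.

`GE_U`, `GE_W`: energies `≤ GP`; `lev_C`: levels of the cells; `op_U`, `op_W`: operator bounds on the
boxes of the nodes; `SKH`: the collected hypotheses; `numU`, `numW`: trace, diagonal, `HSk`. -/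

set_option autoImplicit false
set_option linter.unusedSectionVars false

namespace Crest.Agent.R079.SKx261

open Finset Crest.Agent.R079.Grid Crest.Agent.R079.Growth Crest.Agent.R079.QRed
  Crest.Agent.R079.TWin Crest.Agent.R079.Glue Crest.Agent.R079.SWc360 Crest.Agent.R079.Cel159
  Crest.Agent.R079.SplSx69
open Crest.Agent.R079.ClW59 (OpS cl)
open Crest.Agent.R079.Whit (Ins)

variable {ι : Type} {j : Fin 4} {e : Fin 3} {k : ℕ} {P P' : Nd} {T : Fin 3 → Finset ℤ}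


variable {S : Finset ι} {kap : ι → ℝ} {C : ι → ℤ × ℤ × ℤ → ℂ}





variable {d : ℕ} {ρ : ℝ}

/-- box form of the operator bound -/
def Hbox (S : Finset ι) (j : Fin 4) (e : Fin 3) (d : ℕ) (P : Nd) (T : Fin 3 → Finset ℤ)
    (C : ι → ℤ × ℤ × ℤ → ℂ) (ρ : ℝ) : Prop :=
  ∀ w ∈ S, ∀ z ∈ T e, ∀ n a b, d ≤ n → Ins (Yl j e z) (iv P) n a b →
    OpC (Cel159.msk (S3 T e) (C w) z) n a b ρ




/-- hypotheses of the word of a Whitney top `P'` of `P` -/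
structure SKH (S : Finset ι) (kap : ι → ℝ) (j : Fin 4) (e : Fin 3) (k κ0 d C0 : ℕ) (P P' : Nd)
    (T : Fin 3 → Finset ℤ) (R : Finset Nd) (C : ι → ℤ × ℤ × ℤ → ℂ) (ρ r Hr : ℝ) : Prop where
  kap0 : ∀ w ∈ S, 0 ≤ kap w
  hC : 2 ^ κ0 ≤ C0
  hP : iv P' ⊆ iv P
  hna : ¬ Adj C0 P P'
  hR : ∀ p ∈ R, p.1 ≤ P'.1
  hRd : ∀ p ∈ R, d ≤ p.1
  ρ0 : 0 ≤ ρ
  r0 : 0 < r
  Hr0 : 0 ≤ Hr
  hex : Hbox S j e d P T C ρ
  hrow : ∀ w ∈ S, ∀ z ∈ T e, ∀ m a b, Mx (Yl j e z) k P m a b → P'.1 ≤ m →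
    ∀ u ∈ dI m a ∩ T (e + 1), ∑ v ∈ dI m b ∩ T (e + 2), ‖C w (z, u, v)‖ ^ 2 ≤ Hr * 2 ^ m
  hcol : ∀ w ∈ S, ∀ z ∈ T e, ∀ m a b, Mx (Yl j e z) k P m a b → P'.1 ≤ m →
    ∀ v ∈ dI m b ∩ T (e + 2), ∑ u ∈ dI m a ∩ T (e + 1), ‖C w (z, u, v)‖ ^ 2 ≤ Hr * 2 ^ m

variable {κ0 C0 : ℕ} {R : Finset Nd} {r Hr : ℝ}

/-- level of the cells, `P'` itself -/
lemma SKH.lev (H : SKH S kap j e k κ0 d C0 P P' T R C ρ r Hr) {z : ℤ} {c : ℕ × ℤ × ℤ}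
    (hc : (z, c) ∈ Clx j e k P P' T) : P'.1 ≤ c.1 := by
  obtain ⟨_, hM, u, hu, v, hv, hy⟩ := Clx_spec H.hP hc
  have h1 := cell_size (lin_Yl j e z) H.hP H.hna hM (Finset.mem_inter.1 hu).1
    (Finset.mem_inter.1 hv).1 hy
  exact level_le_of_size (le_trans (Nat.one_le_two_pow) H.hC) h1





end Crest.Agent.R079.SKx261
end

-- ▼ part R079/SWe_360
section

/-! R079, Step I, (S) words (helper360), third file: **the kill of one structured letter**.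

`sword_0`, `sword_1`, `sword_2` (labels at the vertex `v`, `U` on the edge `(z_v, z_{v+1})` next to the
slot `j.succAbove (v+2)`, `W` on the edge `(z_{v+2}, z_v)` next to the slot `j.succAbove (v+1)`, gauge
`G` on the edge `(z_{v+1}, z_{v+2})` next to the slot `j.succAbove v`):

  `Σ_p Σ_x |Lbox| ≤ K √(√(Q1 Q2) V3) (1 + 4 log Θ) 2^(J.1+7)`,

`Q1, Q2` = total `S₄` costs of the two labelled edges (`SWc360.s4K_tot`), `V3` = `S₂` mass of the gauge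
edge: the plain Hölder inequality `(4,2,4)`, no loss from the scaling of the three edges. -/

set_option autoImplicit false
set_option linter.unusedSectionVars false
set_option linter.unusedVariables false

namespace Crest.Agent.R079.SWc360

open Finset Crest.Agent.R079.Grid Crest.Agent.R079.Glue Crest.Agent.R079.GlueK
  Crest.Agent.R079.Growth Crest.Agent.R079.Cell37 Crest.Agent.R079.CellH237
  Crest.Agent.R079.Hank37 Crest.Agent.R079.Sgn Crest.Agent.R079.F24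
open Crest.Agent.R079.R244 (res frAk frBk frCk e2 e4)

variable {κ : Type} [Fintype κ] [DecidableEq κ] {ι : Type}

/-! ### total `S₄` cost -/

/-- `S4K` with trace `TR` and leaf cost `E` separately -/
theorem s4K_tot (S : Finset ι) (lam : ι → ℝ) (hlam : ∀ n ∈ S, 0 ≤ lam n) (R : Finset (ℕ × ℤ))
    (κ0 : ℕ) (V : ℝ) (T T' : Finset ℤ) {α γ δ : ℤ} (hα : α ≠ 0) (hγ : γ ≠ 0) (hδ : δ ≠ 0)
    (U : ι → ℤ → ℤ → κ → ℂ) (F : Fn) {A g d Hk TR E σ : ℝ} {m0 : ℕ} (hg : 0 ≤ g) (hd : 0 ≤ d)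
    (hm0 : ∀ p ∈ R, m0 ≤ p.1)
    (hA : ∀ p ∈ R, ∑ y ∈ iv p, ‖F y‖ ^ 2 ≤ A * len p) (hNC : ∀ p ∈ R, NCs p g d F)
    (hHk : ∀ n ∈ S, ∀ z x, kD T T' (U n) z x ≤ Hk) (hHk0 : 0 ≤ Hk)
    (hTR : ∑ n ∈ S, lam n * ∑ z ∈ T, ∑ x ∈ T', kD T T' (U n) z x ≤ TR)
    (hE : HSk S lam R κ0 E T T' U)
    (hσ : 2 ^ 7 * g ^ 2 * E + (2 ^ 14 * A ^ 2 * d * Hk + 2 ^ 8 * A ^ 2 * Hk / 2 ^ m0) * TR ≤
      σ * V) :
    S4K S lam R κ0 V σ (fun n G w => XU T T' α γ δ (U n) G w) F := by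
  intro p hp k hk Λ
  have hTR0 : 0 ≤ TR := (Finset.sum_nonneg fun n hn => mul_nonneg (hlam n hn)
    (Finset.sum_nonneg fun _ _ => Finset.sum_nonneg fun _ _ => kD_nonneg _ _ _ _ _)).trans hTR
  set c : ℝ := 2 ^ 14 * A ^ 2 * d * Hk + 2 ^ 8 * A ^ 2 * Hk / 2 ^ m0 with hc
  have hc0 : 0 ≤ c := by positivity
  set X : ℝ := (2 : ℝ) ^ (p.1 + 7) with hX
  have hX0 : 0 < X := by positivity
  refine le_of_forall_pos_le_add fun ε hε => ?_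
  set ε' : ℝ := ε / (X * c + 1) with hε'
  have hXc : 0 < X * c + 1 := by positivity
  have hε0 : 0 < ε' := by positivity
  have h1 := s4K_of S lam hlam R κ0 (TR + ε') T T' hα hγ hδ U F (A := A) (g := g) (d := d)
    (Hk := Hk) (η := E / (TR + ε')) (σ := 2 ^ 7 * g ^ 2 * (E / (TR + ε')) +
      2 ^ 14 * A ^ 2 * d * Hk + 2 ^ 8 * A ^ 2 * Hk / 2 ^ m0) (m0 := m0) hg hd hm0 hA hNC hHk hHk0
    (by linarith) (by
      have : E / (TR + ε') * (TR + ε') = E := by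
        field_simp
      rw [this]; exact hE) le_rfl p hp k hk Λ
  refine h1.trans ?_
  have e1 : (2 ^ 7 * g ^ 2 * (E / (TR + ε')) + 2 ^ 14 * A ^ 2 * d * Hk +
      2 ^ 8 * A ^ 2 * Hk / 2 ^ m0) * (X * (TR + ε')) =
      X * (2 ^ 7 * g ^ 2 * E + c * TR) + X * c * ε' := by
    have h2 : (E / (TR + ε')) * (TR + ε') = E := by field_simp
    calc _ = X * (2 ^ 7 * g ^ 2 * ((E / (TR + ε')) * (TR + ε')) + c * (TR + ε')) := by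
          rw [hc]; ring
      _ = _ := by rw [h2]; ring
  rw [e1]
  have h3 : X * c * ε' ≤ ε := by
    rw [hε', mul_div_assoc', div_le_iff₀ hXc]
    nlinarith
  have h4 : X * (2 ^ 7 * g ^ 2 * E + c * TR) ≤ X * (σ * V) := mul_le_mul_of_nonneg_left hσ hX0.le
  calc _ ≤ X * (σ * V) + ε := add_le_add h4 h3
    _ = _ := by ring

/-! ### scaling -/

theorem mU_smul (T T' : Finset ℤ) (U : ℤ → ℤ → κ → ℂ) (a : ℝ) (z x : ℤ) (l : κ) :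
    mU T T' (fun z x l => (a : ℂ) * U z x l) z x l = (a : ℂ) * mU T T' U z x l := by
  unfold mU
  split_ifs <;> simp

theorem kD_smul (T T' : Finset ℤ) (U : ℤ → ℤ → κ → ℂ) (a : ℝ) (z x : ℤ) :
    kD T T' (fun z x l => (a : ℂ) * U z x l) z x = a ^ 2 * kD T T' U z x := by
  unfold kD
  rw [Finset.mul_sum]
  refine Finset.sum_congr rfl fun l _ => ?_
  rw [mU_smul, norm_mul, mul_pow, Complex.norm_real, Real.norm_eq_abs, sq_abs]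

theorem kK_smul (T T' : Finset ℤ) (U : ℤ → ℤ → κ → ℂ) (a : ℝ) (z x x' : ℤ) :
    kK T T' (fun z x l => (a : ℂ) * U z x l) z x x' = ((a ^ 2 : ℝ) : ℂ) * kK T T' U z x x' := by
  unfold kK
  rw [Finset.mul_sum]
  refine Finset.sum_congr rfl fun l _ => ?_
  rw [mU_smul, mU_smul, map_mul, Complex.conj_ofReal]
  push_cast
  ring

theorem HSk_smul {S : Finset ι} {lam : ι → ℝ} {R : Finset (ℕ × ℤ)} {κ0 : ℕ} {E : ℝ}
    {T T' : Finset ℤ} {U : ι → ℤ → ℤ → κ → ℂ} (h : HSk S lam R κ0 E T T' U) (a : ℝ) :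
    HSk S lam R κ0 (a ^ 4 * E) T T' (fun n z x l => (a : ℂ) * U n z x l) := by
  intro p hp k hk Λ
  have h1 := mul_le_mul_of_nonneg_left (h p hp k hk Λ) (by positivity : (0 : ℝ) ≤ a ^ 4)
  refine le_trans (le_of_eq ?_) h1
  rw [Finset.mul_sum]
  refine Finset.sum_congr rfl fun n _ => ?_
  have e : ∀ z x x', ‖kK T T' (fun z x l => (a : ℂ) * U n z x l) z x x'‖ ^ 2 =
      a ^ 4 * ‖kK T T' (U n) z x x'‖ ^ 2 := by
    intro z x x'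
    rw [kK_smul, norm_mul, mul_pow, Complex.norm_real, Real.norm_eq_abs, sq_abs]
    ring
  simp only [e, ← Finset.mul_sum]
  ring

/-! ### the gauge edge -/

/-- `S₂` mass of the gauge edge -/
theorem s2Mix_frz (S : Finset ι) (lam : ι → ℝ) (hlam : ∀ n ∈ S, 0 ≤ lam n) (R : Finset (ℕ × ℤ))
    (κ0 : ℕ) (T T' : Finset ℤ) {j k e f : Fin 4} (hj : j ≠ k) (G : ι → ℤ → ℤ → ℂ) (F : Fn)
    {A mb V : ℝ} (hA0 : 0 ≤ A) (hA : ∀ p ∈ R, ∑ y ∈ iv p, ‖F y‖ ^ 2 ≤ A * len p)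
    (hmb : ∑ n ∈ S, lam n * ∑ z ∈ T, ∑ z' ∈ T', ‖G n z z'‖ ^ 2 ≤ mb) (hV : A * mb ≤ V) :
    S2Mix S lam R κ0 V (fun n => frz j k e f T T' (G n)) F := by
  intro p hp k' hk'
  have h := s2K_frK (κ := Unit) S lam hlam R κ0 mb V T T' (e := e) (f := f) hj
    (fun n z z' _ => G n z z') F hA0 hA (by
      refine le_trans (le_of_eq ?_) hmb
      refine Finset.sum_congr rfl fun n _ => ?_
      congr 1
      refine Finset.sum_congr rfl fun z hz => Finset.sum_congr rfl fun z' hz' => ?_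
      unfold kD mU
      simp [hz, hz']) hV p hp k' hk'
  refine mix_finsum S lam (fun n (t : ℤ × ℤ × ℤ) => e2 (frz j k e f T T' (G n) (res p F) t.1)
    (2 ^ (p.1 + k')) t.2.1 t.2.2) ?_ _ ?_
  · intro n _
    exact supp_frz (Sgn.sl_ne hj) T T' (G n) p F (2 ^ (p.1 + k')) (fun X N q p => e2 X N q p)
      (by
        intro X Y N q p h
        unfold e2
        congr 1
        refine Finset.sum_congr rfl fun i hi => Finset.sum_congr rfl fun j' hj' => ?_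
        rw [h i j' (Finset.mem_range.1 hi) (Finset.mem_range.1 hj')])
      (by intro N q p; unfold e2; simp)
  · intro Λ
    refine le_trans (le_of_eq ?_) (h Λ)
    refine Finset.sum_congr rfl fun n _ => ?_
    congr 1
    refine Finset.sum_congr rfl fun t _ => ?_
    unfold e2 e2K
    congr 1
    refine Finset.sum_congr rfl fun i _ => Finset.sum_congr rfl fun j' _ => ?_
    simp only [Finset.univ_unique, Finset.sum_singleton]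
    congr 2

/-! ### the data of one structured letter -/

/-- data of an (S) word: labels at the vertex `v`; `U` on the edge `(z_v, z_{v+1})` (slot
`j.succAbove (v+2)`), `W` on the edge `(z_{v+2}, z_v)` (slot `j.succAbove (v+1)`), gauge `G` on the
edge `(z_{v+1}, z_{v+2})` (slot `j.succAbove v`) -/
structure SW (v : Fin 3) (R : Finset (ℕ × ℤ)) (κ0 : ℕ) (j : Fin 4) (S : Finset ι) (lam : ι → ℝ)
    (T : Fin 3 → Finset ℤ) (U W : ι → ℤ → ℤ → κ → ℂ) (G : ι → ℤ → ℤ → ℂ) (F : Fin 4 → ℤ → ℂ)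
    (A g1 d1 g2 d2 h1 h2 TR1 TR2 E1 E2 mb H0 : ℝ) (m0 : ℕ) : Prop where
  lam0 : ∀ n ∈ S, 0 ≤ lam n
  A0 : 0 ≤ A
  g10 : 0 ≤ g1
  d10 : 0 ≤ d1
  g20 : 0 ≤ g2
  d20 : 0 ≤ d2
  h10 : 0 ≤ h1
  h20 : 0 ≤ h2
  flo : ∀ p ∈ R, m0 ≤ p.1
  l2 : ∀ p ∈ R, ∀ i : Fin 3, ∑ y ∈ iv p, ‖F (j.succAbove i) y‖ ^ 2 ≤ A * len p
  nc1 : ∀ p ∈ R, NCs p g1 d1 (F (j.succAbove (v + 2)))
  nc2 : ∀ p ∈ R, NCs p g2 d2 (F (j.succAbove (v + 1)))
  diag1 : ∀ n ∈ S, ∀ z x, kD (T v) (T (v + 1)) (U n) z x ≤ h1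
  diag2 : ∀ n ∈ S, ∀ z x, kD (T v) (T (v + 2)) (fun x y l => W n y x l) z x ≤ h2
  tr1 : ∑ n ∈ S, lam n * ∑ z ∈ T v, ∑ x ∈ T (v + 1), kD (T v) (T (v + 1)) (U n) z x ≤ TR1
  tr2 : ∑ n ∈ S, lam n * ∑ z ∈ T v, ∑ x ∈ T (v + 2),
    kD (T v) (T (v + 2)) (fun x y l => W n y x l) z x ≤ TR2
  hs1 : HSk S lam R κ0 E1 (T v) (T (v + 1)) U
  hs2 : HSk S lam R κ0 E2 (T v) (T (v + 2)) (fun n x y l => W n y x l)
  gm : ∑ n ∈ S, lam n * ∑ z ∈ T (v + 1), ∑ z' ∈ T (v + 2), ‖G n z z'‖ ^ 2 ≤ mb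
  gh : ∀ n ∈ S, ∀ z z' y, ‖G n z z'‖ * ‖F (j.succAbove v) y‖ ≤ H0

theorem v_ne (v : Fin 3) : v ≠ v + 1 ∧ v ≠ v + 2 ∧ v + 1 ≠ v + 2 := by
  fin_cases v <;> decide

theorem sA_ne {j : Fin 4} {a b : Fin 3} (h : a ≠ b) : j.succAbove a ≠ j.succAbove b :=
  fun hh => h (Fin.succAbove_right_injective hh)

/-- scaled data: the six hypotheses of `labelled24` -/
theorem SW.scaled {v : Fin 3} {R : Finset (ℕ × ℤ)} {κ0 : ℕ} {j : Fin 4} {S : Finset ι} {lam : ι → ℝ}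
    {T : Fin 3 → Finset ℤ} {U W : ι → ℤ → ℤ → κ → ℂ} {G : ι → ℤ → ℤ → ℂ} {F : Fin 4 → ℤ → ℂ}
    {A g1 d1 g2 d2 h1 h2 TR1 TR2 E1 E2 mb H0 : ℝ} {m0 : ℕ}
    (D : SW v R κ0 j S lam T U W G F A g1 d1 g2 d2 h1 h2 TR1 TR2 E1 E2 mb H0 m0)
    {a1 a2 a3 V s H : ℝ} (ha3 : 0 ≤ a3)
    (hV1 : a1 ^ 2 * (A * TR1) ≤ V) (hV2 : a2 ^ 2 * (A * TR2) ≤ V) (hV3 : a3 ^ 2 * (A * mb) ≤ V)
    (hQ1 : a1 ^ 4 * (2 ^ 7 * g1 ^ 2 * E1 + (2 ^ 14 * A ^ 2 * d1 * h1 +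
      2 ^ 8 * A ^ 2 * h1 / 2 ^ m0) * TR1) ≤ s ^ 2 * V)
    (hQ2 : a2 ^ 4 * (2 ^ 7 * g2 ^ 2 * E2 + (2 ^ 14 * A ^ 2 * d2 * h2 +
      2 ^ 8 * A ^ 2 * h2 / 2 ^ m0) * TR2) ≤ s ^ 2 * V)
    (hH : a3 * H0 ≤ H) :
    S2K S lam R κ0 V (fun n F' w => frK j (j.succAbove (v + 2)) (j.succAbove v)
        (j.succAbove (v + 1)) (T v) (T (v + 1)) (fun x y l => (a1 : ℂ) * U n x y l) F' w)
        (F (j.succAbove (v + 2))) ∧
    S4K S lam R κ0 V (s ^ 2) (fun n F' w => frK j (j.succAbove (v + 2)) (j.succAbove v)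
        (j.succAbove (v + 1)) (T v) (T (v + 1)) (fun x y l => (a1 : ℂ) * U n x y l) F' w)
        (F (j.succAbove (v + 2))) ∧
    S2Mix S lam R κ0 V (fun n => frz j (j.succAbove v) (j.succAbove (v + 1)) (j.succAbove (v + 2))
        (T (v + 1)) (T (v + 2)) (fun x y => (a3 : ℂ) * G n x y)) (F (j.succAbove v)) ∧
    (∀ n ∈ S, ∀ w z z', ‖frz j (j.succAbove v) (j.succAbove (v + 1)) (j.succAbove (v + 2))
        (T (v + 1)) (T (v + 2)) (fun x y => (a3 : ℂ) * G n x y) (F (j.succAbove v)) w z z'‖ ≤ H) ∧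
    S2K S lam R κ0 V (fun n F' w x y l => frK j (j.succAbove (v + 1)) (j.succAbove (v + 2))
        (j.succAbove v) (T (v + 2)) (T v) (fun x y l => (a2 : ℂ) * W n x y l) F' w y x l)
        (F (j.succAbove (v + 1))) ∧
    S4K S lam R κ0 V (s ^ 2) (fun n F' w x y l => frK j (j.succAbove (v + 1))
        (j.succAbove (v + 2)) (j.succAbove v) (T (v + 2)) (T v)
        (fun x y l => (a2 : ℂ) * W n x y l) F' w y x l) (F (j.succAbove (v + 1))) := by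
  obtain ⟨hv1, hv2, hv3⟩ := v_ne v
  have hj : ∀ i : Fin 3, j ≠ j.succAbove i := fun i => (Fin.succAbove_ne j i).symm
  have tr1' : ∑ n ∈ S, lam n * ∑ z ∈ T v, ∑ x ∈ T (v + 1), kD (T v) (T (v + 1))
      (fun x y l => (a1 : ℂ) * U n x y l) z x ≤ a1 ^ 2 * TR1 := by
    simp only [kD_smul, ← Finset.mul_sum]
    calc _ = a1 ^ 2 * ∑ n ∈ S, lam n * ∑ z ∈ T v, ∑ x ∈ T (v + 1),
          kD (T v) (T (v + 1)) (U n) z x := by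
          rw [Finset.mul_sum]
          exact Finset.sum_congr rfl fun n _ => by ring
      _ ≤ _ := mul_le_mul_of_nonneg_left D.tr1 (sq_nonneg _)
  have tr2' : ∑ n ∈ S, lam n * ∑ z ∈ T v, ∑ x ∈ T (v + 2), kD (T v) (T (v + 2))
      (fun x y l => (a2 : ℂ) * W n y x l) z x ≤ a2 ^ 2 * TR2 := by
    have e : ∀ (n : ι) (z x : ℤ), kD (T v) (T (v + 2)) (fun x y l => (a2 : ℂ) * W n y x l) z x =
        a2 ^ 2 * kD (T v) (T (v + 2)) (fun x y l => W n y x l) z x :=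
      fun n z x => kD_smul (T v) (T (v + 2)) (fun x y l => W n y x l) a2 z x
    simp only [e, ← Finset.mul_sum]
    calc _ = a2 ^ 2 * ∑ n ∈ S, lam n * ∑ z ∈ T v, ∑ x ∈ T (v + 2),
          kD (T v) (T (v + 2)) (fun x y l => W n y x l) z x := by
          rw [Finset.mul_sum]
          exact Finset.sum_congr rfl fun n _ => by ring
      _ ≤ _ := mul_le_mul_of_nonneg_left D.tr2 (sq_nonneg _)
  refine ⟨?_, ?_, ?_, ?_, ?_, ?_⟩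
  · exact s2K_frK S lam D.lam0 R κ0 (a1 ^ 2 * TR1) V (T v) (T (v + 1)) (hj _)
      (fun n x y l => (a1 : ℂ) * U n x y l) _ D.A0 (fun p hp => D.l2 p hp _) tr1'
      (by linarith)
  · refine s4K_tot S lam D.lam0 R κ0 V (T v) (T (v + 1)) (Sgn.sl_ne (hj _))
      (Sgn.sl_ne (sA_ne hv2)) (Sgn.sl_ne (sA_ne hv3))
      (fun n x y l => (a1 : ℂ) * U n x y l) _ (A := A) (g := g1) (d := d1) (Hk := a1 ^ 2 * h1)
      (TR := a1 ^ 2 * TR1) (E := a1 ^ 4 * E1) (m0 := m0) D.g10 D.d10 D.flo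
      (fun p hp => D.l2 p hp _) D.nc1 ?_ ?_ tr1' (HSk_smul D.hs1 a1) ?_
    · intro n hn z x
      rw [kD_smul]
      exact mul_le_mul_of_nonneg_left (D.diag1 n hn z x) (sq_nonneg _)
    · exact mul_nonneg (sq_nonneg _) D.h10
    · refine le_trans (le_of_eq ?_) hQ1
      ring
  · refine s2Mix_frz S lam D.lam0 R κ0 (T (v + 1)) (T (v + 2)) (hj _)
      (fun n x y => (a3 : ℂ) * G n x y) _ (mb := a3 ^ 2 * mb) D.A0 (fun p hp => D.l2 p hp _) ?_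
      (by linarith)
    calc ∑ n ∈ S, lam n * ∑ z ∈ T (v + 1), ∑ z' ∈ T (v + 2), ‖(a3 : ℂ) * G n z z'‖ ^ 2
        = a3 ^ 2 * ∑ n ∈ S, lam n * ∑ z ∈ T (v + 1), ∑ z' ∈ T (v + 2), ‖G n z z'‖ ^ 2 := by
          have e : ∀ n z z', ‖(a3 : ℂ) * G n z z'‖ ^ 2 = a3 ^ 2 * ‖G n z z'‖ ^ 2 := by
            intro n z z'
            rw [norm_mul, mul_pow, Complex.norm_real, Real.norm_eq_abs, sq_abs]
          simp only [e, ← Finset.mul_sum]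
          rw [Finset.mul_sum]
          exact Finset.sum_congr rfl fun n _ => by ring
      _ ≤ _ := mul_le_mul_of_nonneg_left D.gm (sq_nonneg _)
  · intro n hn w z z'
    unfold frz
    have hH00 : 0 ≤ H := by
      have h0 := D.gh n hn 0 0 0
      have : 0 ≤ H0 := le_trans (by positivity) h0
      exact le_trans (mul_nonneg ha3 this) hH
    split_ifs
    · rw [norm_mul, norm_mul, Complex.norm_real, Real.norm_of_nonneg ha3, mul_assoc]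
      exact (mul_le_mul_of_nonneg_left (D.gh n hn z z' _) ha3).trans hH
    · rw [norm_zero]; exact hH00
  · exact s2K_frK_swap S lam D.lam0 R κ0 (a2 ^ 2 * TR2) V (T (v + 2)) (T v) (hj _)
      (fun n x y l => (a2 : ℂ) * W n x y l) _ D.A0 (fun p hp => D.l2 p hp _) tr2'
      (by linarith)
  · have h := s4K_tot S lam D.lam0 R κ0 V (T v) (T (v + 2)) (Sgn.sl_ne (hj (v + 1)))
      (Sgn.sl_ne (sA_ne (j := j) hv1)) (Sgn.sl_ne (sA_ne (j := j) hv3.symm))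
      (fun n x y l => (a2 : ℂ) * W n y x l) (F (j.succAbove (v + 1))) (A := A) (g := g2) (d := d2)
      (Hk := a2 ^ 2 * h2) (TR := a2 ^ 2 * TR2) (E := a2 ^ 4 * E2) (σ := s ^ 2) (m0 := m0)
      D.g20 D.d20 D.flo (fun p hp => D.l2 p hp _) D.nc2 (by
        intro n hn z x
        rw [kD_smul (T v) (T (v + 2)) (fun x y l => W n y x l) a2 z x]
        exact mul_le_mul_of_nonneg_left (D.diag2 n hn z x) (sq_nonneg _))
      (mul_nonneg (sq_nonneg _) D.h20) tr2' (HSk_smul D.hs2 a2) (by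
        refine le_trans (le_of_eq ?_) hQ2
        ring)
    intro p hp k' hk Λ
    have h1 := h p hp k' hk Λ
    simpa only [frK_swap] using h1

/-! ### the scaling -/

/-- the choice of the three scaling factors -/
theorem scal {Q1 Q2 V3 M Θ : ℝ} (hΘ : 1 ≤ Θ) (hQ1 : Θ⁻¹ ≤ Q1) (hQ1' : Q1 ≤ Θ) (hQ2 : Θ⁻¹ ≤ Q2)
    (hQ2' : Q2 ≤ Θ) (hV3 : Θ⁻¹ ≤ V3) (hM : 0 < M) (hMΘ : M ≤ Θ)
    (hn : Real.sqrt (Q1 * Q2) * V3 ≤ M ^ 4) :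
    ∃ a1 a2 a3 V s : ℝ, 0 < a1 ∧ 0 < a2 ∧ 0 < a3 ∧ 0 < V ∧ 0 < s ∧ s ≤ 1 ∧ a1 * a2 * a3 = 1 ∧
      (∀ x, x ≤ M * Real.sqrt Q1 → a1 ^ 2 * x ≤ V) ∧ (∀ x, x ≤ M * Real.sqrt Q2 → a2 ^ 2 * x ≤ V) ∧
      (∀ x, x ≤ V3 → a3 ^ 2 * x ≤ V) ∧ a1 ^ 4 * Q1 ≤ s ^ 2 * V ∧ a2 ^ 4 * Q2 ≤ s ^ 2 * V ∧
      a3 ≤ Θ ^ 2 ∧ s * V = Real.sqrt (Real.sqrt (Q1 * Q2) * V3) ∧ Θ⁻¹ ≤ s := by
  have hΘ0 : 0 < Θ := by linarith
  have hΘi : 0 < Θ⁻¹ := inv_pos.2 hΘ0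
  have q1 : 0 < Q1 := lt_of_lt_of_le hΘi hQ1
  have q2 : 0 < Q2 := lt_of_lt_of_le hΘi hQ2
  have v3 : 0 < V3 := lt_of_lt_of_le hΘi hV3
  set n : ℝ := Real.sqrt (Q1 * Q2) * V3 with hnd
  have hq12 : 0 < Real.sqrt (Q1 * Q2) := Real.sqrt_pos.2 (by positivity)
  have hn0 : 0 < n := by positivity
  -- r^3 = n / M
  obtain ⟨r, hr0, hr⟩ : ∃ r : ℝ, 0 < r ∧ r ^ 3 = n / M := by
    refine ⟨(n / M) ^ ((1 : ℝ) / 3), Real.rpow_pos_of_pos (by positivity) _, ?_⟩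
    rw [← Real.rpow_natCast, ← Real.rpow_mul (by positivity)]
    norm_num
  have hs1 : 0 < Real.sqrt Q1 := Real.sqrt_pos.2 q1
  have hs2 : 0 < Real.sqrt Q2 := Real.sqrt_pos.2 q2
  have e1 : Real.sqrt Q1 ^ 2 = Q1 := Real.sq_sqrt q1.le
  have e2 : Real.sqrt Q2 ^ 2 = Q2 := Real.sq_sqrt q2.le
  have e12 : Real.sqrt (Q1 * Q2) = Real.sqrt Q1 * Real.sqrt Q2 := Real.sqrt_mul q1.le _
  have hrM3 : r ^ 3 * M = n := by rw [hr]; field_simp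
  have hrM : r ≤ M := by
    by_contra hcon
    rw [not_le] at hcon
    have h1 : M ^ 3 < r ^ 3 := pow_lt_pow_left₀ hcon hM.le (by norm_num)
    have h2 : M ^ 3 * M < r ^ 3 * M := mul_lt_mul_of_pos_right h1 hM
    rw [hrM3] at h2
    have h3 : M ^ 3 * M = M ^ 4 := by ring
    linarith
  refine ⟨Real.sqrt (r / Real.sqrt Q1), Real.sqrt (r / Real.sqrt Q2),
    (Real.sqrt (r / Real.sqrt Q1) * Real.sqrt (r / Real.sqrt Q2))⁻¹, r * M, Real.sqrt (r / M),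
    by positivity, by positivity, by positivity, by positivity, by positivity, ?_, ?_, ?_, ?_, ?_,
    ?_, ?_, ?_, ?_, ?_⟩
  · rw [Real.sqrt_le_left zero_le_one, one_pow, div_le_one hM]
    exact hrM
  · exact mul_inv_cancel₀ (by positivity)
  · intro x hx
    rw [Real.sq_sqrt (by positivity)]
    calc r / Real.sqrt Q1 * x ≤ r / Real.sqrt Q1 * (M * Real.sqrt Q1) :=
          mul_le_mul_of_nonneg_left hx (by positivity)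
      _ = r * M := by field_simp
  · intro x hx
    rw [Real.sq_sqrt (by positivity)]
    calc r / Real.sqrt Q2 * x ≤ r / Real.sqrt Q2 * (M * Real.sqrt Q2) :=
          mul_le_mul_of_nonneg_left hx (by positivity)
      _ = r * M := by field_simp
  · intro x hx
    have e3 : ((Real.sqrt (r / Real.sqrt Q1) * Real.sqrt (r / Real.sqrt Q2))⁻¹) ^ 2 =
        Real.sqrt Q1 * Real.sqrt Q2 / r ^ 2 := by
      rw [inv_pow, mul_pow, Real.sq_sqrt (by positivity), Real.sq_sqrt (by positivity)]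
      field_simp
    rw [e3]
    calc Real.sqrt Q1 * Real.sqrt Q2 / r ^ 2 * x ≤ Real.sqrt Q1 * Real.sqrt Q2 / r ^ 2 * V3 :=
          mul_le_mul_of_nonneg_left hx (by positivity)
      _ = n / r ^ 2 := by rw [hnd, e12]; ring
      _ = r * M := by rw [← hrM3]; field_simp
  · have h4 : Real.sqrt (r / Real.sqrt Q1) ^ 4 = (r / Real.sqrt Q1) ^ 2 := by
      rw [show (4 : ℕ) = 2 * 2 from rfl, pow_mul, Real.sq_sqrt (by positivity)]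
    rw [h4, Real.sq_sqrt (by positivity), div_pow, e1]
    apply le_of_eq
    field_simp
  · have h4 : Real.sqrt (r / Real.sqrt Q2) ^ 4 = (r / Real.sqrt Q2) ^ 2 := by
      rw [show (4 : ℕ) = 2 * 2 from rfl, pow_mul, Real.sq_sqrt (by positivity)]
    rw [h4, Real.sq_sqrt (by positivity), div_pow, e2]
    apply le_of_eq
    field_simp
  · -- a3 ≤ Θ^2
    have hn2 : Θ⁻¹ ^ 2 ≤ n := by
      have h5 : Θ⁻¹ ≤ Real.sqrt (Q1 * Q2) := by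
        rw [show Θ⁻¹ = Real.sqrt (Θ⁻¹ * Θ⁻¹) from (Real.sqrt_mul_self hΘi.le).symm]
        exact Real.sqrt_le_sqrt (mul_le_mul hQ1 hQ2 hΘi.le q1.le)
      calc Θ⁻¹ ^ 2 = Θ⁻¹ * Θ⁻¹ := sq _
        _ ≤ n := mul_le_mul h5 hV3 hΘi.le hq12.le
    have hr1 : Θ⁻¹ ≤ r := by
      by_contra hcon
      rw [not_le] at hcon
      have h1 : r ^ 3 < Θ⁻¹ ^ 3 := pow_lt_pow_left₀ hcon hr0.le (by norm_num)
      have h2 : n = r ^ 3 * M := hrM3.symm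
      have h6 : r ^ 3 * M < Θ⁻¹ ^ 3 * M := mul_lt_mul_of_pos_right h1 hM
      have h7 : Θ⁻¹ ^ 3 * M ≤ Θ⁻¹ ^ 3 * Θ := mul_le_mul_of_nonneg_left hMΘ (by positivity)
      have h4 : Θ⁻¹ ^ 3 * Θ = Θ⁻¹ ^ 2 := by field_simp
      linarith
    have h5 : 0 < Real.sqrt (r / Real.sqrt Q1) * Real.sqrt (r / Real.sqrt Q2) := by positivity
    have h6 : Θ⁻¹ ^ 2 ≤ Real.sqrt (r / Real.sqrt Q1) * Real.sqrt (r / Real.sqrt Q2) := by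
      rw [← Real.sqrt_mul (by positivity)]
      apply Real.le_sqrt_of_sq_le
      have h7 : Real.sqrt Q1 ≤ Θ := by
        rw [Real.sqrt_le_left hΘ0.le]
        nlinarith
      have h8 : Real.sqrt Q2 ≤ Θ := by
        rw [Real.sqrt_le_left hΘ0.le]
        nlinarith
      have h9 : Θ⁻¹ ^ 2 ≤ r / Real.sqrt Q1 := by
        rw [le_div_iff₀ hs1]
        calc Θ⁻¹ ^ 2 * Real.sqrt Q1 ≤ Θ⁻¹ ^ 2 * Θ := mul_le_mul_of_nonneg_left h7 (by positivity)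
          _ = Θ⁻¹ := by field_simp
          _ ≤ r := hr1
      have h10 : Θ⁻¹ ^ 2 ≤ r / Real.sqrt Q2 := by
        rw [le_div_iff₀ hs2]
        calc Θ⁻¹ ^ 2 * Real.sqrt Q2 ≤ Θ⁻¹ ^ 2 * Θ := mul_le_mul_of_nonneg_left h8 (by positivity)
          _ = Θ⁻¹ := by field_simp
          _ ≤ r := hr1
      calc (Θ⁻¹ ^ 2) ^ 2 = Θ⁻¹ ^ 2 * Θ⁻¹ ^ 2 := by ring
        _ ≤ _ := mul_le_mul h9 h10 (by positivity) (by positivity)
    rw [inv_le_comm₀ h5 (by positivity)]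
    rw [inv_pow] at h6
    exact h6
  · -- s V = sqrt n
    symm
    rw [Real.sqrt_eq_iff_mul_self_eq (by positivity) (by positivity)]
    symm
    have h5 : Real.sqrt (r / M) * Real.sqrt (r / M) = r / M := Real.mul_self_sqrt (by positivity)
    calc Real.sqrt (r / M) * (r * M) * (Real.sqrt (r / M) * (r * M)) =
        (Real.sqrt (r / M) * Real.sqrt (r / M)) * (r * M) ^ 2 := by ring
      _ = r ^ 3 * M := by rw [h5]; field_simp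
      _ = n := hrM3
  · -- Θ⁻¹ ≤ s
    have hn2 : Θ⁻¹ ^ 2 ≤ n := by
      have h5 : Θ⁻¹ ≤ Real.sqrt (Q1 * Q2) := by
        rw [show Θ⁻¹ = Real.sqrt (Θ⁻¹ * Θ⁻¹) from (Real.sqrt_mul_self hΘi.le).symm]
        exact Real.sqrt_le_sqrt (mul_le_mul hQ1 hQ2 hΘi.le q1.le)
      calc Θ⁻¹ ^ 2 = Θ⁻¹ * Θ⁻¹ := sq _
        _ ≤ n := mul_le_mul h5 hV3 hΘi.le hq12.le
    have hr1 : Θ⁻¹ ≤ r := by
      by_contra hcon
      rw [not_le] at hcon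
      have h1 : r ^ 3 < Θ⁻¹ ^ 3 := pow_lt_pow_left₀ hcon hr0.le (by norm_num)
      have h6 : r ^ 3 * M < Θ⁻¹ ^ 3 * M := mul_lt_mul_of_pos_right h1 hM
      have h7 : Θ⁻¹ ^ 3 * M ≤ Θ⁻¹ ^ 3 * Θ := mul_le_mul_of_nonneg_left hMΘ (by positivity)
      have h4 : Θ⁻¹ ^ 3 * Θ = Θ⁻¹ ^ 2 := by field_simp
      linarith
    apply Real.le_sqrt_of_sq_le
    rw [le_div_iff₀ hM]
    calc Θ⁻¹ ^ 2 * M ≤ Θ⁻¹ ^ 2 * Θ := mul_le_mul_of_nonneg_left hMΘ (by positivity)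
      _ = Θ⁻¹ := by field_simp
      _ ≤ r := hr1

/-! ### the words -/

/-- total `S₄` cost of one labelled edge -/
noncomputable def q4 (A g d h TR E : ℝ) (m0 : ℕ) : ℝ :=
  2 ^ 7 * g ^ 2 * E + (2 ^ 14 * A ^ 2 * d * h + 2 ^ 8 * A ^ 2 * h / 2 ^ m0) * TR

/-- numerical data of an (S) word -/
structure SN (A g1 d1 g2 d2 h1 h2 TR1 TR2 E1 E2 mb H0 : ℝ) (m0 : ℕ) (Q1 Q2 V3 M Θ : ℝ) : Prop where
  q1 : q4 A g1 d1 h1 TR1 E1 m0 ≤ Q1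
  q2 : q4 A g2 d2 h2 TR2 E2 m0 ≤ Q2
  v3 : A * mb ≤ V3
  t1 : A * TR1 ≤ M * Real.sqrt Q1
  t2 : A * TR2 ≤ M * Real.sqrt Q2
  n4 : Real.sqrt (Q1 * Q2) * V3 ≤ M ^ 4
  Θ1 : 1 ≤ Θ
  Q1l : Θ⁻¹ ≤ Q1
  Q1u : Q1 ≤ Θ
  Q2l : Θ⁻¹ ≤ Q2
  Q2u : Q2 ≤ Θ
  V3l : Θ⁻¹ ≤ V3
  M0 : 0 < M
  MΘ : M ≤ Θ
  H0Θ : H0 ≤ Θ
  H00 : 0 ≤ H0

/-- the bound of the words -/
theorem fin_bound {K s V Θ n J : ℝ} (hK : 0 ≤ K) (hs : 0 < s) (hΘ : 1 ≤ Θ) (hV : 0 < V)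
    (hJ : 0 ≤ J) (hsΘ : Θ⁻¹ ≤ s) (hn : s * V = n) :
    K * (s * (1 + Real.log (Θ ^ 3 / s)) * J * V) ≤ K * (n * (1 + 4 * Real.log Θ) * J) := by
  have hΘ0 : 0 < Θ := by linarith
  have h1 : Real.log (Θ ^ 3 / s) ≤ 4 * Real.log Θ := by
    have h2 : Θ ^ 3 / s ≤ Θ ^ 4 := by
      rw [div_le_iff₀ hs]
      calc Θ ^ 3 = Θ ^ 4 * Θ⁻¹ := by field_simp
        _ ≤ Θ ^ 4 * s := mul_le_mul_of_nonneg_left hsΘ (by positivity)
    calc Real.log (Θ ^ 3 / s) ≤ Real.log (Θ ^ 4) := Real.log_le_log (by positivity) h2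
      _ = 4 * Real.log Θ := by rw [Real.log_pow]; norm_num
  refine mul_le_mul_of_nonneg_left ?_ hK
  have h3 : 0 ≤ s * J * V := by positivity
  calc s * (1 + Real.log (Θ ^ 3 / s)) * J * V = (s * J * V) * (1 + Real.log (Θ ^ 3 / s)) := by ring
    _ ≤ (s * J * V) * (1 + 4 * Real.log Θ) := mul_le_mul_of_nonneg_left (by linarith) h3
    _ = (s * V) * (1 + 4 * Real.log Θ) * J := by ring
    _ = n * (1 + 4 * Real.log Θ) * J := by rw [hn]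

/-- **(S) word, labels at the vertex `0`** -/
theorem sword_0 : ∃ K : ℝ, 0 ≤ K ∧ ∃ κ0 : ℕ, ∀ (bb : ℤ), bb = -1 ∨ bb = -7 →
    ∀ (R : Finset (ℕ × ℤ)) (J : ℕ × ℤ), IsRegion R J → ∀ (j : Fin 4)
    {κ : Type} [Fintype κ] [DecidableEq κ] {ι : Type} (S : Finset ι) (lam : ι → ℝ)
    (T : Fin 3 → Finset ℤ) (U W : ι → ℤ → ℤ → κ → ℂ) (G : ι → ℤ → ℤ → ℂ) (F : Fin 4 → ℤ → ℂ)
    (A g1 d1 g2 d2 h1 h2 TR1 TR2 E1 E2 mb H0 : ℝ) (m0 : ℕ) (Q1 Q2 V3 M Θ : ℝ),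
    SW 0 R κ0 j S lam T U W G F A g1 d1 g2 d2 h1 h2 TR1 TR2 E1 E2 mb H0 m0 →
    SN A g1 d1 g2 d2 h1 h2 TR1 TR2 E1 E2 mb H0 m0 Q1 Q2 V3 M Θ →
    (∀ y, F j y = ∑ n ∈ S, (lam n : ℂ) *
      kerF j 1 T (fun z0 z1 z2 => (∑ l, U n z0 z1 l * W n z2 z0 l) * G n z1 z2) y) →
    ∑ p ∈ R, ∑ x ∈ adm p.1 p.2, ‖Lbox (2 ^ p.1) bb F x‖ ≤
      K * (Real.sqrt (Real.sqrt (Q1 * Q2) * V3) * (1 + 4 * Real.log Θ) * 2 ^ (J.1 + 7)) := by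
  obtain ⟨K, hK, κ0, hL⟩ := labelled24_0
  refine ⟨K, hK, κ0, ?_⟩
  intro bb hbb R J hR j κ _ _ ι S lam T U W G F A g1 d1 g2 d2 h1 h2 TR1 TR2 E1 E2 mb H0 m0
    Q1 Q2 V3 M Θ D N hF
  obtain ⟨a1, a2, a3, V, s, ha1, ha2, ha3, hV, hs, hs1, h123, hx1, hx2, hx3, hy1, hy2, ha3Θ, hsV,
    hsΘ⟩ := scal N.Θ1 N.Q1l N.Q1u N.Q2l N.Q2u N.V3l N.M0 N.MΘ N.n4
  have hΘ0 : 0 ≤ Θ := by linarith [N.Θ1]
  have h0 := D.scaled (a1 := a1) (a2 := a2) (a3 := a3) (V := V) (s := s) (H := Θ ^ 3) ha3.le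
    (hx1 _ N.t1) (hx2 _ N.t2) (hx3 _ N.v3)
    (le_trans (mul_le_mul_of_nonneg_left N.q1 (by positivity)) hy1)
    (le_trans (mul_le_mul_of_nonneg_left N.q2 (by positivity)) hy2)
    (le_trans (mul_le_mul ha3Θ N.H0Θ N.H00 (by positivity)) (le_of_eq (by ring)))
  obtain ⟨c1, c2, c3, c4, c5, c6⟩ := h0
  have hfin := hL bb hbb R J hR j s (Θ ^ 3) hs hs1 (one_le_pow₀ N.Θ1) V hV.le S lam D.lam0 T
    (fun n x y l => (a1 : ℂ) * U n x y l) (fun n x y l => (a2 : ℂ) * W n x y l)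
    (fun n x y => (a3 : ℂ) * G n x y) F c1 c2 c3 c4 c5 c6 (by
      intro y
      rw [hF y]
      refine Finset.sum_congr rfl fun n _ => ?_
      congr 1
      unfold kerF
      congr 1
      refine Finset.sum_congr rfl fun z0 _ => Finset.sum_congr rfl fun z1 _ =>
        Finset.sum_congr rfl fun z2 _ => ?_
      split_ifs
      · have e : ∑ l, (a1 : ℂ) * U n z0 z1 l * ((a2 : ℂ) * W n z2 z0 l) =
            ((a1 * a2 : ℝ) : ℂ) * ∑ l, U n z0 z1 l * W n z2 z0 l := by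
          rw [Finset.mul_sum]
          refine Finset.sum_congr rfl fun l _ => ?_
          push_cast; ring
        beta_reduce
        rw [e]
        have h5 : ((a1 * a2 : ℝ) : ℂ) * (a3 : ℂ) = 1 := by
          rw [← Complex.ofReal_mul, h123, Complex.ofReal_one]
        linear_combination (-(∑ l, U n z0 z1 l * W n z2 z0 l) * G n z1 z2) * h5
      · rfl)
  refine hfin.trans ?_
  exact fin_bound hK hs N.Θ1 hV (by positivity) hsΘ hsV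

/-- **(S) word, labels at the vertex `1`** -/
theorem sword_1 : ∃ K : ℝ, 0 ≤ K ∧ ∃ κ0 : ℕ, ∀ (bb : ℤ), bb = -1 ∨ bb = -7 →
    ∀ (R : Finset (ℕ × ℤ)) (J : ℕ × ℤ), IsRegion R J → ∀ (j : Fin 4)
    {κ : Type} [Fintype κ] [DecidableEq κ] {ι : Type} (S : Finset ι) (lam : ι → ℝ)
    (T : Fin 3 → Finset ℤ) (U W : ι → ℤ → ℤ → κ → ℂ) (G : ι → ℤ → ℤ → ℂ) (F : Fin 4 → ℤ → ℂ)
    (A g1 d1 g2 d2 h1 h2 TR1 TR2 E1 E2 mb H0 : ℝ) (m0 : ℕ) (Q1 Q2 V3 M Θ : ℝ),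
    SW 1 R κ0 j S lam T U W G F A g1 d1 g2 d2 h1 h2 TR1 TR2 E1 E2 mb H0 m0 →
    SN A g1 d1 g2 d2 h1 h2 TR1 TR2 E1 E2 mb H0 m0 Q1 Q2 V3 M Θ →
    (∀ y, F j y = ∑ n ∈ S, (lam n : ℂ) *
      kerF j 1 T (fun z0 z1 z2 => (∑ l, U n z1 z2 l * W n z0 z1 l) * G n z2 z0) y) →
    ∑ p ∈ R, ∑ x ∈ adm p.1 p.2, ‖Lbox (2 ^ p.1) bb F x‖ ≤
      K * (Real.sqrt (Real.sqrt (Q1 * Q2) * V3) * (1 + 4 * Real.log Θ) * 2 ^ (J.1 + 7)) := by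
  obtain ⟨K, hK, κ0, hL⟩ := labelled24_1
  refine ⟨K, hK, κ0, ?_⟩
  intro bb hbb R J hR j κ _ _ ι S lam T U W G F A g1 d1 g2 d2 h1 h2 TR1 TR2 E1 E2 mb H0 m0
    Q1 Q2 V3 M Θ D N hF
  obtain ⟨a1, a2, a3, V, s, ha1, ha2, ha3, hV, hs, hs1, h123, hx1, hx2, hx3, hy1, hy2, ha3Θ, hsV,
    hsΘ⟩ := scal N.Θ1 N.Q1l N.Q1u N.Q2l N.Q2u N.V3l N.M0 N.MΘ N.n4
  have hΘ0 : 0 ≤ Θ := by linarith [N.Θ1]
  have h0 := D.scaled (a1 := a1) (a2 := a2) (a3 := a3) (V := V) (s := s) (H := Θ ^ 3) ha3.le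
    (hx1 _ N.t1) (hx2 _ N.t2) (hx3 _ N.v3)
    (le_trans (mul_le_mul_of_nonneg_left N.q1 (by positivity)) hy1)
    (le_trans (mul_le_mul_of_nonneg_left N.q2 (by positivity)) hy2)
    (le_trans (mul_le_mul ha3Θ N.H0Θ N.H00 (by positivity)) (le_of_eq (by ring)))
  obtain ⟨c1, c2, c3, c4, c5, c6⟩ := h0
  have hfin := hL bb hbb R J hR j s (Θ ^ 3) hs hs1 (one_le_pow₀ N.Θ1) V hV.le S lam D.lam0 T
    (fun n x y l => (a1 : ℂ) * U n x y l) (fun n x y l => (a2 : ℂ) * W n x y l)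
    (fun n x y => (a3 : ℂ) * G n x y) F c1 c2 c3 c4 c5 c6 (by
      intro y
      rw [hF y]
      refine Finset.sum_congr rfl fun n _ => ?_
      congr 1
      unfold kerF
      congr 1
      refine Finset.sum_congr rfl fun z0 _ => Finset.sum_congr rfl fun z1 _ =>
        Finset.sum_congr rfl fun z2 _ => ?_
      split_ifs
      · have e : ∑ l, (a1 : ℂ) * U n z1 z2 l * ((a2 : ℂ) * W n z0 z1 l) =
            ((a1 * a2 : ℝ) : ℂ) * ∑ l, U n z1 z2 l * W n z0 z1 l := by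
          rw [Finset.mul_sum]
          refine Finset.sum_congr rfl fun l _ => ?_
          push_cast; ring
        beta_reduce
        rw [e]
        have h5 : ((a1 * a2 : ℝ) : ℂ) * (a3 : ℂ) = 1 := by
          rw [← Complex.ofReal_mul, h123, Complex.ofReal_one]
        linear_combination (-(∑ l, U n z1 z2 l * W n z0 z1 l) * G n z2 z0) * h5
      · rfl)
  refine hfin.trans ?_
  exact fin_bound hK hs N.Θ1 hV (by positivity) hsΘ hsV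

/-- **(S) word, labels at the vertex `2`** -/
theorem sword_2 : ∃ K : ℝ, 0 ≤ K ∧ ∃ κ0 : ℕ, ∀ (bb : ℤ), bb = -1 ∨ bb = -7 →
    ∀ (R : Finset (ℕ × ℤ)) (J : ℕ × ℤ), IsRegion R J → ∀ (j : Fin 4)
    {κ : Type} [Fintype κ] [DecidableEq κ] {ι : Type} (S : Finset ι) (lam : ι → ℝ)
    (T : Fin 3 → Finset ℤ) (U W : ι → ℤ → ℤ → κ → ℂ) (G : ι → ℤ → ℤ → ℂ) (F : Fin 4 → ℤ → ℂ)
    (A g1 d1 g2 d2 h1 h2 TR1 TR2 E1 E2 mb H0 : ℝ) (m0 : ℕ) (Q1 Q2 V3 M Θ : ℝ),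
    SW 2 R κ0 j S lam T U W G F A g1 d1 g2 d2 h1 h2 TR1 TR2 E1 E2 mb H0 m0 →
    SN A g1 d1 g2 d2 h1 h2 TR1 TR2 E1 E2 mb H0 m0 Q1 Q2 V3 M Θ →
    (∀ y, F j y = ∑ n ∈ S, (lam n : ℂ) *
      kerF j 1 T (fun z0 z1 z2 => (∑ l, U n z2 z0 l * W n z1 z2 l) * G n z0 z1) y) →
    ∑ p ∈ R, ∑ x ∈ adm p.1 p.2, ‖Lbox (2 ^ p.1) bb F x‖ ≤
      K * (Real.sqrt (Real.sqrt (Q1 * Q2) * V3) * (1 + 4 * Real.log Θ) * 2 ^ (J.1 + 7)) := by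
  obtain ⟨K, hK, κ0, hL⟩ := labelled24_2
  refine ⟨K, hK, κ0, ?_⟩
  intro bb hbb R J hR j κ _ _ ι S lam T U W G F A g1 d1 g2 d2 h1 h2 TR1 TR2 E1 E2 mb H0 m0
    Q1 Q2 V3 M Θ D N hF
  obtain ⟨a1, a2, a3, V, s, ha1, ha2, ha3, hV, hs, hs1, h123, hx1, hx2, hx3, hy1, hy2, ha3Θ, hsV,
    hsΘ⟩ := scal N.Θ1 N.Q1l N.Q1u N.Q2l N.Q2u N.V3l N.M0 N.MΘ N.n4
  have hΘ0 : 0 ≤ Θ := by linarith [N.Θ1]
  have h0 := D.scaled (a1 := a1) (a2 := a2) (a3 := a3) (V := V) (s := s) (H := Θ ^ 3) ha3.le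
    (hx1 _ N.t1) (hx2 _ N.t2) (hx3 _ N.v3)
    (le_trans (mul_le_mul_of_nonneg_left N.q1 (by positivity)) hy1)
    (le_trans (mul_le_mul_of_nonneg_left N.q2 (by positivity)) hy2)
    (le_trans (mul_le_mul ha3Θ N.H0Θ N.H00 (by positivity)) (le_of_eq (by ring)))
  obtain ⟨c1, c2, c3, c4, c5, c6⟩ := h0
  have hfin := hL bb hbb R J hR j s (Θ ^ 3) hs hs1 (one_le_pow₀ N.Θ1) V hV.le S lam D.lam0 T
    (fun n x y l => (a1 : ℂ) * U n x y l) (fun n x y l => (a2 : ℂ) * W n x y l)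
    (fun n x y => (a3 : ℂ) * G n x y) F c1 c2 c3 c4 c5 c6 (by
      intro y
      rw [hF y]
      refine Finset.sum_congr rfl fun n _ => ?_
      congr 1
      unfold kerF
      congr 1
      refine Finset.sum_congr rfl fun z0 _ => Finset.sum_congr rfl fun z1 _ =>
        Finset.sum_congr rfl fun z2 _ => ?_
      split_ifs
      · have e : ∑ l, (a1 : ℂ) * U n z2 z0 l * ((a2 : ℂ) * W n z1 z2 l) =
            ((a1 * a2 : ℝ) : ℂ) * ∑ l, U n z2 z0 l * W n z1 z2 l := by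
          rw [Finset.mul_sum]
          refine Finset.sum_congr rfl fun l _ => ?_
          push_cast; ring
        beta_reduce
        rw [e]
        have h5 : ((a1 * a2 : ℝ) : ℂ) * (a3 : ℂ) = 1 := by
          rw [← Complex.ofReal_mul, h123, Complex.ofReal_one]
        linear_combination (-(∑ l, U n z2 z0 l * W n z1 z2 l) * G n z0 z1) * h5
      · rfl)
  refine hfin.trans ?_
  exact fin_bound hK hs N.Θ1 hV (by positivity) hsΘ hsV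

end Crest.Agent.R079.SWc360
end

-- ▼ part R079/SKs_261
section

/-! R079, item (c) of 973 / note 1201 (helper261): 360's `sword_0/1/2` at a general label vertex,
representation needed on the top only. -/

set_option autoImplicit false
set_option linter.unusedSectionVars false

namespace Crest.Agent.R079.SKx261

open Finset Crest.Agent.R079.Grid Crest.Agent.R079.Glue Crest.Agent.R079.GlueK
  Crest.Agent.R079.Growth Crest.Agent.R079.Sgn Crest.Agent.R079.F24 Crest.Agent.R079.SWc360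

/-- fewer shifts -/
lemma SW.mono {κ : Type} [Fintype κ] [DecidableEq κ] {ι : Type} {v : Fin 3} {R : Finset (ℕ × ℤ)}
    {κ0 κ1 : ℕ} (hκ : κ0 ≤ κ1) {j : Fin 4} {S : Finset ι} {lam : ι → ℝ} {T : Fin 3 → Finset ℤ}
    {U W : ι → ℤ → ℤ → κ → ℂ} {G : ι → ℤ → ℤ → ℂ} {F : Fin 4 → ℤ → ℂ}
    {A g1 d1 g2 d2 h1 h2 TR1 TR2 E1 E2 mb H0 : ℝ} {m0 : ℕ}
    (D : SW v R κ1 j S lam T U W G F A g1 d1 g2 d2 h1 h2 TR1 TR2 E1 E2 mb H0 m0) :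
    SW v R κ0 j S lam T U W G F A g1 d1 g2 d2 h1 h2 TR1 TR2 E1 E2 mb H0 m0 :=
  { D with
    hs1 := fun p hp k hk Λ => D.hs1 p hp k (hk.trans hκ) Λ
    hs2 := fun p hp k hk Λ => D.hs2 p hp k (hk.trans hκ) Λ }

/-- **(S) word, labels at a general vertex** -/
theorem sword_g : ∃ K : ℝ, 0 ≤ K ∧ ∃ κ0 : ℕ, ∀ (bb : ℤ), bb = -1 ∨ bb = -7 →
    ∀ (R : Finset (ℕ × ℤ)) (J : ℕ × ℤ), IsRegion R J → ∀ (j : Fin 4) (e : Fin 3)
    {κ : Type} [Fintype κ] [DecidableEq κ] {ι : Type} (S : Finset ι) (lam : ι → ℝ)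
    (T : Fin 3 → Finset ℤ) (U W : ι → ℤ → ℤ → κ → ℂ) (G : ι → ℤ → ℤ → ℂ) (F : Fin 4 → ℤ → ℂ)
    (A g1 d1 g2 d2 h1 h2 TR1 TR2 E1 E2 mb H0 : ℝ) (m0 : ℕ) (Q1 Q2 V3 M Θ : ℝ),
    SW e R κ0 j S lam T U W G F A g1 d1 g2 d2 h1 h2 TR1 TR2 E1 E2 mb H0 m0 →
    SN A g1 d1 g2 d2 h1 h2 TR1 TR2 E1 E2 mb H0 m0 Q1 Q2 V3 M Θ →
    (∀ y ∈ iv J, F j y = ∑ n ∈ S, (lam n : ℂ) *
      kerG j e T (fun z u v => (∑ l, U n z u l * W n v z l) * G n u v) y) →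
    ∑ p ∈ R, ∑ x ∈ adm p.1 p.2, ‖Lbox (2 ^ p.1) bb F x‖ ≤
      K * (Real.sqrt (Real.sqrt (Q1 * Q2) * V3) * (1 + 4 * Real.log Θ) * 2 ^ (J.1 + 7)) := by
  obtain ⟨K0, hK0, κ0, h0⟩ := sword_0
  obtain ⟨K1, hK1, κ1, h1⟩ := sword_1
  obtain ⟨K2, hK2, κ2, h2⟩ := sword_2
  refine ⟨max K0 (max K1 K2), le_max_of_le_left hK0, max κ0 (max κ1 κ2), ?_⟩
  intro bb hbb R J hR j e κ _ _ ι S lam T U W G F A g1 d1 g2 d2 h1' h2' TR1 TR2 E1 E2 mb H0 m0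
    Q1 Q2 V3 M Θ D N hF
  have hmono : ∀ (K' : ℝ), K' ≤ max K0 (max K1 K2) → ∀ X : ℝ, X ≤ K' *
      (Real.sqrt (Real.sqrt (Q1 * Q2) * V3) * (1 + 4 * Real.log Θ) * 2 ^ (J.1 + 7)) →
      X ≤ max K0 (max K1 K2) *
      (Real.sqrt (Real.sqrt (Q1 * Q2) * V3) * (1 + 4 * Real.log Θ) * 2 ^ (J.1 + 7)) := by
    intro K' hK' X hX
    refine hX.trans (mul_le_mul_of_nonneg_right hK' ?_)
    have : 0 ≤ Real.log Θ := Real.log_nonneg N.Θ1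
    positivity
  -- replace the letter of the slot `j`
  set Ψ : ℤ → ℂ := fun y => ∑ n ∈ S, (lam n : ℂ) *
      kerG j e T (fun z u v => (∑ l, U n z u l * W n v z l) * G n u v) y with hΨ
  set F' : Fin 4 → ℤ → ℂ := Function.update F j Ψ with hF'
  have eF : ∀ i : Fin 3, F' (j.succAbove i) = F (j.succAbove i) := fun i => by
    rw [hF', Function.update_of_ne (Fin.succAbove_ne j i)]
  have hLb : ∑ p ∈ R, ∑ x ∈ adm p.1 p.2, ‖Lbox (2 ^ p.1) bb F x‖ =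
      ∑ p ∈ R, ∑ x ∈ adm p.1 p.2, ‖Lbox (2 ^ p.1) bb F' x‖ := by
    refine Finset.sum_congr rfl fun p hp => Finset.sum_congr rfl fun x hx => ?_
    rw [QRed.Qb247.Lbox_congr p.1 p.2 bb x hbb hx F F' ?_]
    intro i y hy
    by_cases hi : i = j
    · subst hi
      rw [hF', Function.update_self]
      exact hF y (hR.1 p hp hy)
    · rw [hF', Function.update_of_ne hi]
  rw [hLb]
  have D' : ∀ κ', κ' ≤ max κ0 (max κ1 κ2) →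
      SW e R κ' j S lam T U W G F' A g1 d1 g2 d2 h1' h2' TR1 TR2 E1 E2 mb H0 m0 := by
    intro κ' hκ'
    have D1 := SW.mono hκ' D
    exact
      { D1 with
        l2 := fun p hp i => by rw [eF]; exact D1.l2 p hp i
        nc1 := fun p hp => by rw [eF]; exact D1.nc1 p hp
        nc2 := fun p hp => by rw [eF]; exact D1.nc2 p hp
        gh := fun n hn z z' y => by rw [eF]; exact D1.gh n hn z z' y }
  have hrep : ∀ y, F' j y = ∑ n ∈ S, (lam n : ℂ) *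
      kerG j e T (fun z u v => (∑ l, U n z u l * W n v z l) * G n u v) y := by
    intro y
    rw [hF', Function.update_self]
  clear_value F'
  clear hLb hF eF hF' hΨ Ψ D
  fin_cases e
  · refine hmono K0 (le_max_left _ _) _ ?_
    exact h0 bb hbb R J hR j S lam T U W G F' A g1 d1 g2 d2 h1' h2' TR1 TR2 E1 E2 mb H0 m0
      Q1 Q2 V3 M Θ (D' _ (le_max_left _ _)) N (fun y => (hrep y).trans
        (Finset.sum_congr rfl fun n _ => congrArg (fun x => (lam n : ℂ) * x) (kerG_0 j T _ y)))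
  · refine hmono K1 ((le_max_left _ _).trans (le_max_right _ _)) _ ?_
    exact h1 bb hbb R J hR j S lam T U W G F' A g1 d1 g2 d2 h1' h2' TR1 TR2 E1 E2 mb H0 m0
      Q1 Q2 V3 M Θ (D' _ ((le_max_left _ _).trans (le_max_right _ _))) N (fun y => (hrep y).trans
        (Finset.sum_congr rfl fun n _ => congrArg (fun x => (lam n : ℂ) * x) (kerG_1 j T _ y)))
  · refine hmono K2 ((le_max_right _ _).trans (le_max_right _ _)) _ ?_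
    exact h2 bb hbb R J hR j S lam T U W G F' A g1 d1 g2 d2 h1' h2' TR1 TR2 E1 E2 mb H0 m0
      Q1 Q2 V3 M Θ (D' _ ((le_max_right _ _).trans (le_max_right _ _))) N (fun y => (hrep y).trans
        (Finset.sum_congr rfl fun n _ => congrArg (fun x => (lam n : ℂ) * x) (kerG_2 j T _ y)))

end Crest.Agent.R079.SKx261
end

-- ▼ part R079/SKw_261

/-! R079, item (c) of 973 / note 1201 (helper261): **the (S) word of a Whitney top**.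

`SKword`: the split slot is, on the Whitney top `P'` of `P`, the gauge `al` times `C w - Pj r P (C w)`:
the word total over any region below `P'` costs
`(X1 X2)^(1/4) √((G + 1/Θ) (A mb + 1/Θ)) (1 + log Θ) len P'`,
`G = GS … ` the normalised energy of the cells of `P` near `P'`, `X = XS` the gain. -/

set_option autoImplicit false
set_option linter.unusedSectionVars false

namespace Crest.Agent.R079.SKx261

open Finset Crest.Agent.R079.Grid Crest.Agent.R079.Growth Crest.Agent.R079.QRed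
  Crest.Agent.R079.Qh249 Crest.Agent.R079.QVar181
  Crest.Agent.R079.TWin Crest.Agent.R079.Glue Crest.Agent.R079.SWc360 Crest.Agent.R079.Cel159
  Crest.Agent.R079.SplSx69 Crest.Agent.R079.ThA159
open Crest.Agent.R079.ClW59 (OpS cl)
open Crest.Agent.R079.Whit (Ins)

open scoped ComplexConjugate

/-- diagonal of the frames -/
noncomputable def hS (r Hr : ℝ) : ℝ := (2 ^ 7 + 2) * (1 / (4 * r) * Hr)

/-- leaf cost of the frames, per unit of energy -/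
noncomputable def eS (ρ r : ℝ) : ℝ := (2 ^ 7 + 2) * (8 * (1 / (4 * r) * ρ) ^ 2)

/-- **gain of one labelled edge** -/
noncomputable def XS (A g d ρ r Hr : ℝ) (m0 : ℕ) (θ : ℝ) : ℝ :=
  2 ^ 7 * g ^ 2 * eS ρ r + (2 ^ 14 * A ^ 2 * d * hS r Hr + 2 ^ 8 * A ^ 2 * hS r Hr / 2 ^ m0) *
    (1 / (4 * r)) + θ

lemma hS_nonneg {r Hr : ℝ} (hr : 0 < r) (h : 0 ≤ Hr) : 0 ≤ hS r Hr := by
  unfold hS; positivity

lemma eS_nonneg (ρ r : ℝ) : 0 ≤ eS ρ r := by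
  unfold eS; positivity

/-- the `S₄` cost -/
lemma q4_le {A g d r Hr G ρ θ : ℝ} {m0 : ℕ} (hr : 0 < r) (hHr : 0 ≤ Hr)
    (hd : 0 ≤ d) (hG : 0 ≤ G) (hθ : 0 ≤ θ) :
    q4 A g d (hS r Hr) (1 / (4 * r) * G) (eS ρ r * G) m0 ≤ XS A g d ρ r Hr m0 θ * (G + θ) := by
  have h1 := hS_nonneg hr hHr
  have h2 := eS_nonneg ρ r
  unfold q4 XS
  have h3 : 0 ≤ 2 ^ 7 * g ^ 2 * eS ρ r + (2 ^ 14 * A ^ 2 * d * hS r Hr +
    2 ^ 8 * A ^ 2 * hS r Hr / 2 ^ m0) * (1 / (4 * r)) := by positivity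
  nlinarith [mul_nonneg h3 hθ, mul_nonneg hθ hG, mul_nonneg hθ hθ]

/-- size of the gain -/
lemma XS_le {A g d r Hr ρ Θ : ℝ} {m0 : ℕ} (hr : 0 < r) (hHr : 0 ≤ Hr) (hΘ : 1 ≤ Θ)
    (hA : 0 ≤ A) (hg : 0 ≤ g) (hd : 0 ≤ d) (hρ : 0 ≤ ρ) (hA' : A ≤ Θ) (hg' : g ≤ Θ) (hd' : d ≤ Θ)
    (hρ' : ρ ≤ Θ) (hri : r⁻¹ ≤ Θ) (hH' : Hr ≤ Θ) :
    XS A g d ρ r Hr m0 Θ⁻¹ ≤ 2 ^ 19 * Θ ^ 8 := by
  have hri0 : 0 < r⁻¹ := inv_pos.2 hr
  have e1 : 1 / (4 * r) = r⁻¹ / 4 := by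
    field_simp
  have p8 : ∀ n : ℕ, n ≤ 8 → Θ ^ n ≤ Θ ^ 8 := fun n hn => pow_le_pow_right₀ hΘ hn
  have h1 : eS ρ r ≤ 65 * Θ ^ 6 := by
    unfold eS
    rw [e1]
    have h2 : r⁻¹ / 4 * ρ ≤ Θ / 4 * Θ := by gcongr
    calc (2 ^ 7 + 2) * (8 * (r⁻¹ / 4 * ρ) ^ 2) ≤
        (2 ^ 7 + 2) * (8 * (Θ / 4 * Θ) ^ 2) := by gcongr
      _ = 65 * Θ ^ 4 := by ring
      _ ≤ 65 * Θ ^ 6 := by
        have : Θ ^ 4 ≤ Θ ^ 6 := pow_le_pow_right₀ hΘ (by norm_num)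
        linarith
  have h3 : hS r Hr ≤ 33 * Θ ^ 2 := by
    unfold hS
    rw [e1]
    calc (2 ^ 7 + 2) * (r⁻¹ / 4 * Hr) ≤ (2 ^ 7 + 2) * (Θ / 4 * Θ) := by gcongr
      _ ≤ 33 * Θ ^ 2 := by nlinarith [sq_nonneg Θ]
  have h30 := hS_nonneg hr hHr
  have h4 : (1 : ℝ) ≤ 2 ^ m0 := one_le_pow₀ (by norm_num)
  unfold XS
  rw [e1]
  have a1 : 2 ^ 7 * g ^ 2 * eS ρ r ≤ 2 ^ 7 * Θ ^ 2 * (65 * Θ ^ 6) := by
    have := eS_nonneg ρ r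
    gcongr
  have a2 : 2 ^ 14 * A ^ 2 * d * hS r Hr ≤ 2 ^ 14 * Θ ^ 2 * Θ * (33 * Θ ^ 2) := by gcongr
  have a3 : 2 ^ 8 * A ^ 2 * hS r Hr / 2 ^ m0 ≤ 2 ^ 8 * Θ ^ 2 * (33 * Θ ^ 2) := by
    refine (div_le_self (by positivity) h4).trans ?_
    gcongr
  have a4 : (2 ^ 14 * A ^ 2 * d * hS r Hr + 2 ^ 8 * A ^ 2 * hS r Hr / 2 ^ m0) * (r⁻¹ / 4) ≤
      (2 ^ 14 * Θ ^ 2 * Θ * (33 * Θ ^ 2) + 2 ^ 8 * Θ ^ 2 * (33 * Θ ^ 2)) * (Θ / 4) := by gcongr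
  have a5 : Θ⁻¹ ≤ 1 := inv_le_one_of_one_le₀ hΘ
  have b6 := p8 6 (by norm_num)
  have b5 := p8 5 (by norm_num)
  have b0 := p8 0 (by norm_num)
  calc _ ≤ 2 ^ 7 * Θ ^ 2 * (65 * Θ ^ 6) + (2 ^ 14 * Θ ^ 2 * Θ * (33 * Θ ^ 2) +
        2 ^ 8 * Θ ^ 2 * (33 * Θ ^ 2)) * (Θ / 4) + 1 := by linarith
    _ = 2 ^ 7 * 65 * Θ ^ 8 + 2 ^ 12 * 33 * Θ ^ 6 + 2 ^ 6 * 33 * Θ ^ 5 + Θ ^ 0 := by ring
    _ ≤ 2 ^ 7 * 65 * Θ ^ 8 + 2 ^ 12 * 33 * Θ ^ 8 + 2 ^ 6 * 33 * Θ ^ 8 + Θ ^ 8 := by linarith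
    _ ≤ 2 ^ 19 * Θ ^ 8 := by nlinarith [pow_nonneg (by linarith : (0:ℝ) ≤ Θ) 8]

/-- **all numbers of the word** -/
theorem sn_of {A g1 d1 g2 d2 r Hr ρ Θ G mb H0 : ℝ} {m0 : ℕ} (hr : 0 < r) (hHr : 0 ≤ Hr)
    (hΘ : 1 ≤ Θ) (hA : 0 ≤ A) (hg1 : 0 ≤ g1) (hd1 : 0 ≤ d1) (hg2 : 0 ≤ g2) (hd2 : 0 ≤ d2)
    (hρ : 0 ≤ ρ) (hG : 0 ≤ G) (hmb : 0 ≤ mb) (hH0 : 0 ≤ H0) (hA' : A ≤ Θ) (hg1' : g1 ≤ Θ)
    (hd1' : d1 ≤ Θ) (hg2' : g2 ≤ Θ) (hd2' : d2 ≤ Θ) (hρ' : ρ ≤ Θ)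
    (hri : r⁻¹ ≤ Θ) (hH' : Hr ≤ Θ) (hG' : G ≤ Θ) (hmb' : mb ≤ Θ) (hH0' : H0 ≤ Θ) :
    SN A g1 d1 g2 d2 (hS r Hr) (hS r Hr) (1 / (4 * r) * G) (1 / (4 * r) * G) (eS ρ r * G)
      (eS ρ r * G) mb H0 m0 (XS A g1 d1 ρ r Hr m0 Θ⁻¹ * (G + Θ⁻¹))
      (XS A g2 d2 ρ r Hr m0 Θ⁻¹ * (G + Θ⁻¹)) (A * mb + Θ⁻¹) (2 ^ 6 * Θ ^ 4)
      (2 ^ 20 * Θ ^ 9) := by
  have hΘ0 : 0 < Θ := by linarith
  have hθ0 : 0 < Θ⁻¹ := inv_pos.2 hΘ0
  have hθ1 : Θ⁻¹ ≤ 1 := inv_le_one_of_one_le₀ hΘ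
  have x1 := XS_le (m0 := m0) hr hHr hΘ hA hg1 hd1 hρ hA' hg1' hd1' hρ' hri hH'
  have x2 := XS_le (m0 := m0) hr hHr hΘ hA hg2 hd2 hρ hA' hg2' hd2' hρ' hri hH'
  have hh := hS_nonneg hr hHr
  have he := eS_nonneg ρ r
  have y1 : Θ⁻¹ ≤ XS A g1 d1 ρ r Hr m0 Θ⁻¹ := by
    unfold XS
    have : 0 ≤ 2 ^ 7 * g1 ^ 2 * eS ρ r + (2 ^ 14 * A ^ 2 * d1 * hS r Hr +
      2 ^ 8 * A ^ 2 * hS r Hr / 2 ^ m0) * (1 / (4 * r)) := by positivity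
    linarith
  have y2 : Θ⁻¹ ≤ XS A g2 d2 ρ r Hr m0 Θ⁻¹ := by
    unfold XS
    have : 0 ≤ 2 ^ 7 * g2 ^ 2 * eS ρ r + (2 ^ 14 * A ^ 2 * d2 * hS r Hr +
      2 ^ 8 * A ^ 2 * hS r Hr / 2 ^ m0) * (1 / (4 * r)) := by positivity
    linarith
  set X1 := XS A g1 d1 ρ r Hr m0 Θ⁻¹ with hX1
  set X2 := XS A g2 d2 ρ r Hr m0 Θ⁻¹ with hX2
  have x10 : 0 < X1 := lt_of_lt_of_le hθ0 y1
  have x20 : 0 < X2 := lt_of_lt_of_le hθ0 y2
  have hGθ : G + Θ⁻¹ ≤ 2 * Θ := by linarith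
  have hGθ0 : Θ⁻¹ ≤ G + Θ⁻¹ := by linarith
  have hGp : 0 < G + Θ⁻¹ := by linarith
  have bigΘ : Θ ^ 2 ≤ 2 ^ 20 * Θ ^ 9 := by
    have : Θ ^ 2 ≤ Θ ^ 9 := pow_le_pow_right₀ hΘ (by norm_num)
    nlinarith [pow_pos hΘ0 9]
  have bigΘ1 : Θ ≤ 2 ^ 20 * Θ ^ 9 := by
    have : Θ ^ 1 ≤ Θ ^ 9 := pow_le_pow_right₀ hΘ (by norm_num)
    rw [pow_one] at this
    nlinarith [pow_pos hΘ0 9]
  have lowθ2 : (2 ^ 20 * Θ ^ 9)⁻¹ ≤ Θ⁻¹ * Θ⁻¹ := by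
    rw [← mul_inv]
    refine inv_anti₀ (by positivity) ?_
    calc Θ * Θ = Θ ^ 2 := by ring
      _ ≤ _ := bigΘ
  have lowθ1 : (2 ^ 20 * Θ ^ 9)⁻¹ ≤ Θ⁻¹ := inv_anti₀ (by positivity) bigΘ1
  have ql : ∀ X : ℝ, Θ⁻¹ ≤ X → (2 ^ 20 * Θ ^ 9)⁻¹ ≤ X * (G + Θ⁻¹) := by
    intro X hX
    refine lowθ2.trans ?_
    exact mul_le_mul hX hGθ0 hθ0.le (hθ0.le.trans hX)
  have qu : ∀ X : ℝ, 0 ≤ X → X ≤ 2 ^ 19 * Θ ^ 8 → X * (G + Θ⁻¹) ≤ 2 ^ 20 * Θ ^ 9 := by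
    intro X hX0 hX
    calc X * (G + Θ⁻¹) ≤ 2 ^ 19 * Θ ^ 8 * (2 * Θ) := mul_le_mul hX hGθ hGp.le (by positivity)
      _ = _ := by ring
  have sq1 : ∀ X : ℝ, Θ⁻¹ ≤ X → Θ⁻¹ ≤ Real.sqrt (X * (G + Θ⁻¹)) := by
    intro X hX
    refine Real.le_sqrt_of_sq_le ?_
    rw [sq]
    exact mul_le_mul hX hGθ0 hθ0.le (hθ0.le.trans hX)
  have tt : ∀ X : ℝ, Θ⁻¹ ≤ X → A * (1 / (4 * r) * G) ≤ 2 ^ 6 * Θ ^ 4 *
      Real.sqrt (X * (G + Θ⁻¹)) := by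
    intro X hX
    have e1 : 1 / (4 * r) = r⁻¹ / 4 := by field_simp
    rw [e1]
    have h1 : A * (r⁻¹ / 4 * G) ≤ Θ * (Θ / 4 * Θ) := by
      have : 0 < r⁻¹ := inv_pos.2 hr
      gcongr
    have h2 : 2 ^ 6 * Θ ^ 4 * Θ⁻¹ ≤ 2 ^ 6 * Θ ^ 4 * Real.sqrt (X * (G + Θ⁻¹)) :=
      mul_le_mul_of_nonneg_left (sq1 X hX) (by positivity)
    have h3 : 2 ^ 6 * Θ ^ 4 * Θ⁻¹ = 2 ^ 6 * Θ ^ 3 := by field_simp
    have h4 : Θ * (Θ / 4 * Θ) ≤ 2 ^ 6 * Θ ^ 3 := by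
      have : 0 < Θ ^ 3 := by positivity
      nlinarith
    linarith
  have hV : A * mb + Θ⁻¹ ≤ 2 * Θ ^ 2 := by
    have h1 : A * mb ≤ Θ * Θ := mul_le_mul hA' hmb' hmb hΘ0.le
    have h2 : 1 ≤ Θ ^ 2 := one_le_pow₀ hΘ
    nlinarith
  have hV0 : 0 < A * mb + Θ⁻¹ := by positivity
  refine ⟨q4_le hr hHr hd1 hG hθ0.le, q4_le hr hHr hd2 hG hθ0.le, by linarith, tt X1 y1, tt X2 y2,
    ?_, ?_, ql X1 y1, qu X1 x10.le x1, ql X2 y2, qu X2 x20.le x2, ?_, by positivity, ?_, ?_, hH0⟩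
  · -- n4
    have h1 : Real.sqrt (X1 * (G + Θ⁻¹) * (X2 * (G + Θ⁻¹))) ≤ 2 ^ 20 * Θ ^ 9 := by
      rw [Real.sqrt_le_left (by positivity), sq]
      exact mul_le_mul (qu X1 x10.le x1) (qu X2 x20.le x2) (by positivity) (by positivity)
    calc _ ≤ 2 ^ 20 * Θ ^ 9 * (2 * Θ ^ 2) := mul_le_mul h1 hV hV0.le (by positivity)
      _ = 2 ^ 21 * Θ ^ 11 := by ring
      _ ≤ 2 ^ 24 * Θ ^ 16 := by
        have : Θ ^ 11 ≤ Θ ^ 16 := pow_le_pow_right₀ hΘ (by norm_num)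
        nlinarith [pow_pos hΘ0 16]
      _ = _ := by ring
  · have : 1 ≤ Θ ^ 9 := one_le_pow₀ hΘ
    nlinarith
  · exact lowθ1.trans (by nlinarith [mul_nonneg hA hmb])
  · have : Θ ^ 4 ≤ Θ ^ 9 := pow_le_pow_right₀ hΘ (by norm_num)
    nlinarith [pow_pos hΘ0 9]
  · exact hH0'.trans bigΘ1

end Crest.Agent.R079.SKx261
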