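import Crest.Agent.R079.GaD_571
import Crest.Agent.R079.TauW_253
import Crest.Agent.R079.WdT_276
import Crest.Agent.R079.GaX_571
import Crest.Agent.R079.KLe_446
import Crest.Agent.R079.KLo_446
import Crest.Agent.R079.GaI_256
import Crest.Agent.R079.PQ_263
import Crest.Agent.R079.TK_248
import Crest.Agent.R079.GaT_571
import Crest.Agent.R079.GaZ_260
import Crest.Agent.R079.GaQ_571
import Crest.Agent.R079.TauM_253_Mg
import Crest.Agent.R079.GnN_263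
import Crest.Agent.R079.PW_263
import Crest.Agent.R079.NP_112
import Crest.Agent.R079.NJ_112
import Crest.Agent.R079.SKw_261

-- ▼ part R079/GaO_571
section

/-! R079, Step I, (G) words (helper571): ONE (G) WORD, form `κ (μ + en) len J`.

* `budZ_le`, `budG_le`, `nW_le` : the budgets for `fa = len J m0 / kap`, `fb = len J m0`;
* `g_static`, `g_moving` : `gword_static`, `gword_moving` with these budgets. -/

set_option autoImplicit false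

namespace Crest.Agent.R079.GaOx571

open Finset Crest.Agent.R079.Grid Crest.Agent.R079.Glue Crest.Agent.R079.Growth
  Crest.Agent.R079.QRed Crest.Agent.R079.TWin
open Crest.Agent.R079.RelW653 (vl NMP Jv Dv)
open Crest.Agent.R079.GaAx571 Crest.Agent.R079.GaBx571 Crest.Agent.R079.GaWx571
  Crest.Agent.R079.GaXx571 Crest.Agent.R079.GaMx571 Crest.Agent.R079.GaSx571
  Crest.Agent.R079.GaTx571 Crest.Agent.R079.GaVx571 Crest.Agent.R079.GaZx260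
  Crest.Agent.R079.GaFx371 Crest.Agent.R079.GaUx571 Crest.Agent.R079.GaRx571
open Crest.Agent.R079.ThA159 Crest.Agent.R079.Stk
open Crest.Agent.R079.AsmA844 (v4)
open Crest.Agent.R079.GnMx45 (en en_nonneg)

section bud

variable {J : Nd} {X Y : Fn} {η m0 : ℝ} {n b : ℕ}

lemma bud_s (hη : 0 ≤ η) (hηm : η * (2 * n + 1) ≤ m0) :
    √(len J * (av J X ^ 2 + η)) ≤ √(len J * (av J X ^ 2 + m0)) := by
  have hl := (Growth.len_pos J).le
  refine Real.sqrt_le_sqrt (mul_le_mul_of_nonneg_left ?_ hl)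
  have : 0 ≤ η * (2 * n) := by positivity
  linarith

lemma two_sqrt (x : ℝ) : (2 : ℝ) * √x = √(4 * x) := by
  rw [Real.sqrt_mul (by norm_num : (0 : ℝ) ≤ 4) x, show (4 : ℝ) = 2 ^ 2 by norm_num,
    Real.sqrt_sq (by norm_num : (0 : ℝ) ≤ 2)]

lemma m0_nonneg (hη : 0 ≤ η) (hηm : η * (2 * n + 1) ≤ m0) : 0 ≤ m0 :=
  le_trans (mul_nonneg hη (by positivity)) hηm

lemma bud_m (X : Fn) : √(len J * m0) ≤ √(len J * (av J X ^ 2 + m0)) := by
  have hl := (Growth.len_pos J).le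
  exact Real.sqrt_le_sqrt (mul_le_mul_of_nonneg_left (by nlinarith [sq_nonneg (av J X)]) hl)

lemma bud_c (hη : 0 ≤ η) (hηm : η * (2 * n + 1) ≤ m0) {c : ℝ} (hc : c ≤ 4) :
    √(c * (len J * (av J X ^ 2 + η) + 2 * η * len J * (n - 1 : ℕ))) ≤
      2 * √(len J * (av J X ^ 2 + m0)) := by
  have hl := (Growth.len_pos J).le
  have hn : ((n - 1 : ℕ) : ℝ) ≤ n := by exact_mod_cast Nat.sub_le n 1
  have hm := m0_nonneg hη hηm
  rw [two_sqrt]
  refine Real.sqrt_le_sqrt ?_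
  have h3 : 2 * η * len J * (n - 1 : ℕ) ≤ 2 * η * len J * n :=
    mul_le_mul_of_nonneg_left hn (by positivity)
  have h4 : len J * (av J X ^ 2 + η) + 2 * η * len J * (n - 1 : ℕ) ≤
      len J * (av J X ^ 2 + m0) := by
    have h5 : len J * (η * (2 * n + 1)) ≤ len J * m0 := mul_le_mul_of_nonneg_left hηm hl
    nlinarith
  have h6 : 0 ≤ len J * (av J X ^ 2 + m0) := by positivity
  have h7 : 0 ≤ len J * (av J X ^ 2 + η) + 2 * η * len J * (n - 1 : ℕ) := by positivity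
  calc c * (len J * (av J X ^ 2 + η) + 2 * η * len J * (n - 1 : ℕ)) ≤
      4 * (len J * (av J X ^ 2 + η) + 2 * η * len J * (n - 1 : ℕ)) :=
        mul_le_mul_of_nonneg_right hc h7
    _ ≤ _ := mul_le_mul_of_nonneg_left h4 (by norm_num)

theorem budZ_le (hη : 0 ≤ η) (hηm : η * (2 * n + 1) ≤ m0) :
    budZ J X η √(len J * m0) n b ≤ 3 * (b + 1) * √(len J * (av J X ^ 2 + m0)) := by
  unfold budZ
  have h1 := bud_c (J := J) (X := X) hη hηm (c := 4) le_rfl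
  have h2 := bud_s (J := J) (X := X) hη hηm
  have h3 := bud_m (J := J) (m0 := m0) X
  have hb : (0 : ℝ) ≤ b := Nat.cast_nonneg b
  have h4 := mul_le_mul_of_nonneg_left h1 hb
  have h5 := mul_le_mul_of_nonneg_left h3 (show (0 : ℝ) ≤ b + 1 by linarith)
  have h6 := Real.sqrt_nonneg (len J * (av J X ^ 2 + m0))
  nlinarith

theorem budG_le (hη : 0 ≤ η) (hηm : η * (2 * n + 1) ≤ m0) :
    budG J X η √(len J * m0) n b ≤ 3 * (b + 1) * √(len J * (av J X ^ 2 + m0)) := by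
  unfold budG
  have h1 := bud_c (J := J) (X := X) hη hηm (c := 2) (by norm_num)
  have h3 := bud_m (J := J) (m0 := m0) X
  have hl := (Growth.len_pos J).le
  have hm := m0_nonneg hη hηm
  have h2 : √(2 * len J * av J X ^ 2 + 2 * (len J * (av J X ^ 2 + η))) ≤
      2 * √(len J * (av J X ^ 2 + m0)) := by
    rw [two_sqrt]
    refine Real.sqrt_le_sqrt ?_
    have h5 : len J * η ≤ len J * m0 := mul_le_mul_of_nonneg_left
      (by have : 0 ≤ η * (2 * n) := by positivity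
          linarith) hl
    have h6 : 0 ≤ len J * m0 := mul_nonneg hl hm
    nlinarith
  have hb : (0 : ℝ) ≤ b := Nat.cast_nonneg b
  have h4 := mul_le_mul_of_nonneg_left h1 hb
  have h5 := mul_le_mul_of_nonneg_left h3 (show (0 : ℝ) ≤ b + 1 by linarith)
  have h6 := Real.sqrt_nonneg (len J * (av J X ^ 2 + m0))
  nlinarith

theorem nW_le (hm : 0 ≤ m0) :
    nW (iv J) (fun _ => 1) Y + (b + 1) * √(len J * m0) ≤
      2 * (b + 1) * √(len J * (av J Y ^ 2 + m0)) := by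
  have hl := (Growth.len_pos J).le
  have h1 : nW (iv J) (fun _ => 1) Y ≤ √(len J * (av J Y ^ 2 + m0)) := by
    unfold nW qW
    refine Real.sqrt_le_sqrt ?_
    simp only [one_mul]
    rw [Growth.sum_av J Y]
    exact mul_le_mul_of_nonneg_left (by linarith) hl
  have h3 := bud_m (J := J) (m0 := m0) Y
  have hb : (0 : ℝ) ≤ b := Nat.cast_nonneg b
  have h5 := mul_le_mul_of_nonneg_left h3 (show (0 : ℝ) ≤ b + 1 by linarith)
  have h6 := Real.sqrt_nonneg (len J * (av J Y ^ 2 + m0))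
  nlinarith

/-- the product of the two sizes -/
theorem prod_le (hm : 0 ≤ m0) :
    √(len J * (av J X ^ 2 + m0)) * √(len J * (av J Y ^ 2 + m0)) ≤
      (m0 + en J X Y) * len J := by
  have hl := (Growth.len_pos J).le
  have hX : 0 ≤ len J * (av J X ^ 2 + m0) := by positivity
  have hY : 0 ≤ len J * (av J Y ^ 2 + m0) := by positivity
  have h1 := Real.sq_sqrt hX
  have h2 := Real.sq_sqrt hY
  unfold en
  nlinarith [sq_nonneg (√(len J * (av J X ^ 2 + m0)) - √(len J * (av J Y ^ 2 + m0))),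
    mul_nonneg hl hm, mul_nonneg hl (sq_nonneg (av J X)), mul_nonneg hl (sq_nonneg (av J Y))]

end bud

variable {ι I' : Type*} [Fintype ι] [Fintype I']
  {j : Fin 4} {bb : ℤ} {e e' : Fin 3} {T : ι → Fin 3 → Finset ℤ}
  {g : ι → Fin 3 → ℤ → ℤ → ℂ} {c0 : ι → I'} {J : Nd} {Bd : I' → Nd → Finset (ℤ × ℤ × ℤ)}
  {pos : I' → ℤ × ℤ × ℤ → ℤ} {N : I' → Nd → (ℤ × ℤ × ℤ → ℂ) → ℝ} {ν : I' → ℝ}
  {a : I' → ℤ × ℤ × ℤ → ℂ} {r : I' → ℝ} {κ : I' → ℝ} {X : Fn} {η : ℝ} {f : Nd → Fn}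
  {R S : Finset Nd} {W : Nd → Finset Nd} {C : ℝ}
  {μ : ι → ℝ} {cn La kap : ℝ} {F : Fin 4 → ℤ → ℂ} {P : Finset (ℤ × ℤ × ℤ)} {M : ℕ}
  {ε : ℕ → ℤ → ℂ} {Gd : ι → ℕ → ℤ × ℤ × ℤ → ℕ → Prop}

/-- **STATIC PARTNER** -/
theorem g_static (hW : GW j bb e e' T g c0 J Bd pos N ν a r κ μ cn La kap F P M ε R)
    (h : NMP (fun _ _ => True) (ThF Bd pos N ν a r κ) X η f) (hR : Full R J)
    (hP : TWin.Part R S W C) {n b : ℕ} (hn : n ≤ 2 ^ b) {m0 Q N1 H H' H1 h0 h0' eB eR : ℝ}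
    (hm0 : 0 ≤ m0) (hηm : η * (2 * n + 1) ≤ m0) (hN1 : 0 ≤ N1) (hQ : N1 * (La / √kap) ≤ Q)
    (heB : 0 ≤ eB) (heR : 0 ≤ eR)
    (hG : HG j bb e e' T g c0 J Bd cn F P M R Gd N1 H H' (len J * m0 / kap) (len J * m0)) (Y : Fn)
    (hY : ∀ y ∈ iv J, ‖Y y‖ ≤ h0') (hh0 : 0 ≤ h0) (hH : 2 ^ (b + 1) * h0 ≤ H)
    (hH' : 2 ^ (b + 1) * h0' ≤ H')
    (hB : HB j bb e e' T g c0 Bd pos N a r cn F P M S W n H1 h0 f (fun _ => Y) eB)
    (hRs : HRst j bb e e' T g J cn F P M R S n Gd H1 f (fun _ => Y) eR) :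
    ‖∑ K ∈ S.filter (fun K => idx S K ≤ n), ∑ q ∈ W K,
      v4 bb ε F (j.succAbove (e + 2)) (j.succAbove (e' + 2)) (fun y => tau H1 (gl (W K) f y))
        Y q‖ ≤
      6 * Q * (b + 1) ^ 2 * ((m0 + en J X Y) * len J) +
      (La * eB * ∑ K ∈ S.filter (fun K => idx S K ≤ n), len K + n * (La * eR * len J)) := by
  have hl := (Growth.len_pos J).le
  have hk := hW.kap0
  have h1 := gword_static hW h hR hP hn hN1 (div_nonneg (mul_nonneg hl hm0) hk.le)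
    (mul_nonneg hl hm0) heB heR hG Y hY hh0 hH hH' hB hRs
  have e1 : kap * (len J * m0 / kap) = len J * m0 := by field_simp
  rw [e1] at h1
  refine h1.trans (add_le_add ?_ le_rfl)
  have h2 := budZ_le (J := J) (X := X) (b := b) h.eta hηm
  have h3 := nW_le (J := J) (Y := Y) (b := b) hm0
  have h4 := prod_le (J := J) (X := X) (Y := Y) hm0
  have hsX := Real.sqrt_nonneg (len J * (av J X ^ 2 + m0))
  have hsY := Real.sqrt_nonneg (len J * (av J Y ^ 2 + m0))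
  have hb : (0 : ℝ) ≤ b := Nat.cast_nonneg b
  have hQ0 : 0 ≤ N1 * (La / √kap) := mul_nonneg hN1 (div_nonneg hW.La0.le (Real.sqrt_nonneg _))
  have hz : 0 ≤ nW (iv J) (fun _ => 1) Y + (b + 1) * √(len J * m0) :=
    add_nonneg (nW_nonneg _ _ _) (by positivity)
  have hbz : 0 ≤ budZ J X η √(len J * m0) n b := by
    unfold budZ
    positivity
  calc N1 * (La / √kap) * budZ J X η √(len J * m0) n b *
        (nW (iv J) (fun _ => 1) Y + (b + 1) * √(len J * m0)) ≤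
      Q * (3 * (b + 1) * √(len J * (av J X ^ 2 + m0))) *
        (2 * (b + 1) * √(len J * (av J Y ^ 2 + m0))) := by
        refine mul_le_mul (mul_le_mul hQ h2 hbz (hQ0.trans hQ)) h3 hz ?_
        have := hQ0.trans hQ
        positivity
    _ = 6 * Q * (b + 1) ^ 2 *
        (√(len J * (av J X ^ 2 + m0)) * √(len J * (av J Y ^ 2 + m0))) := by ring
    _ ≤ _ := by
        refine mul_le_mul_of_nonneg_left h4 ?_
        have := hQ0.trans hQ
        positivity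

section moving

variable {ι' : Type*} [Fintype ι'] {Ω' : ι' → Type*} {Bd' : ∀ i, Nd → Finset (Ω' i)}
  {pos' : ∀ i, Ω' i → ℤ} {N' : ∀ i, Nd → (Ω' i → ℂ) → ℝ} {ν' : ι' → ℝ} {a' : ∀ i, Ω' i → ℂ}
  {r' : ι' → ℝ} {κ' : ι' → ℝ} {X' : Fn} {η' : ℝ} {f' : Nd → Fn}

/-- **MOVING PARTNER** -/
theorem g_moving (hW : GW j bb e e' T g c0 J Bd pos N ν a r κ μ cn La kap F P M ε R)
    (h : NMP (fun _ _ => True) (ThF Bd pos N ν a r κ) X η f)
    (hB' : ∀ i, Bnd (Bd' i) (pos' i) (N' i) (ν' i)) (hr' : ∀ i, 0 ≤ r' i) (hκ' : ∀ i, 0 ≤ κ' i)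
    (h' : NMP (fun _ _ => True) (ThF Bd' pos' N' ν' a' r' κ') X' η' f') (hR : Full R J)
    (hP : TWin.Part R S W C) {n b : ℕ} (hn : n ≤ 2 ^ b) {m0 Q N1 H H' H1 h0 h0' eB eR : ℝ}
    (hm0 : 0 ≤ m0) (hηm : η * (2 * n + 1) ≤ m0) (hηm' : η' * (2 * n + 1) ≤ m0)
    (hN1 : 0 ≤ N1) (hQ : N1 * (La / √kap) ≤ Q) (heB : 0 ≤ eB) (heR : 0 ≤ eR)
    (hG : HG j bb e e' T g c0 J Bd cn F P M R Gd N1 H H' (len J * m0 / kap) (len J * m0))
    (hh0 : 0 ≤ h0) (hh0' : 0 ≤ h0') (hH : 2 ^ (b + 1) * h0 ≤ H) (hH' : 2 ^ (b + 1) * h0' ≤ H')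
    (hB : HB j bb e e' T g c0 Bd pos N a r cn F P M S W n H1 h0 f
      (fun K y => tau h0' (gl (W K) f' y)) eB)
    (hRs : HRst j bb e e' T g J cn F P M R S n Gd H1 f
      (fun k y => tau h0' (gl (Rk R S k) f' y)) eR) :
    ‖∑ K ∈ S.filter (fun K => idx S K ≤ n), ∑ q ∈ W K,
      v4 bb ε F (j.succAbove (e + 2)) (j.succAbove (e' + 2)) (fun y => tau H1 (gl (W K) f y))
        (fun y => tau h0' (gl (W K) f' y)) q‖ ≤
      9 * Q * (b + 1) ^ 2 * ((m0 + en J X X') * len J) +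
      (La * eB * ∑ K ∈ S.filter (fun K => idx S K ≤ n), len K + n * (La * eR * len J)) := by
  have hl := (Growth.len_pos J).le
  have hk := hW.kap0
  have h1 := gword_moving hW h hB' hr' hκ' h' hR hP hn hN1
    (div_nonneg (mul_nonneg hl hm0) hk.le)
    (mul_nonneg hl hm0) heB heR hG hh0 hh0' hH hH' hB hRs
  have e1 : kap * (len J * m0 / kap) = len J * m0 := by field_simp
  rw [e1] at h1
  refine h1.trans (add_le_add ?_ le_rfl)
  have h2 := budZ_le (J := J) (X := X) (b := b) h.eta hηm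
  have h3 := budG_le (J := J) (X := X') (b := b) h'.eta hηm'
  have h4 := prod_le (J := J) (X := X) (Y := X') hm0
  have hsX := Real.sqrt_nonneg (len J * (av J X ^ 2 + m0))
  have hsY := Real.sqrt_nonneg (len J * (av J X' ^ 2 + m0))
  have hb : (0 : ℝ) ≤ b := Nat.cast_nonneg b
  have hQ0 : 0 ≤ N1 * (La / √kap) := mul_nonneg hN1 (div_nonneg hW.La0.le (Real.sqrt_nonneg _))
  have hz : 0 ≤ budG J X' η' √(len J * m0) n b := by
    unfold budG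
    positivity
  have hbz : 0 ≤ budZ J X η √(len J * m0) n b := by
    unfold budZ
    positivity
  calc N1 * (La / √kap) * budZ J X η √(len J * m0) n b * budG J X' η' √(len J * m0) n b ≤
      Q * (3 * (b + 1) * √(len J * (av J X ^ 2 + m0))) *
        (3 * (b + 1) * √(len J * (av J X' ^ 2 + m0))) := by
        refine mul_le_mul (mul_le_mul hQ h2 hbz (hQ0.trans hQ)) h3 hz ?_
        have := hQ0.trans hQ
        positivity
    _ = 9 * Q * (b + 1) ^ 2 *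
        (√(len J * (av J X ^ 2 + m0)) * √(len J * (av J X' ^ 2 + m0))) := by ring
    _ ≤ _ := by
        refine mul_le_mul_of_nonneg_left h4 ?_
        have := hQ0.trans hQ
        positivity

end moving

end Crest.Agent.R079.GaOx571
end

-- ▼ part R079/GaP_571
section

/-! R079, Step I, (G) words (helper571): the GOOD boxes in `TA` form.

* `cgK` : masked gauge of the killer edge `d`; `lk_kw` : the line kernel of the killer is 446's `kw`;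
* `GdE` : good boxes (446's `GoodB`) of the killer edge `d`;
* `gdE_words` : hypothesis of `TA_words`. -/

set_option autoImplicit false

namespace Crest.Agent.R079.GaPx571

open Finset Crest.Agent.R079.Grid Crest.Agent.R079.Glue Crest.Agent.R079.Growth
open Crest.Agent.R079.GaAx571 Crest.Agent.R079.GaBx571 Crest.Agent.R079.GaWx571
  Crest.Agent.R079.GaXx571 Crest.Agent.R079.KLx446 Crest.Agent.R079.GaFx371

open Classical in
/-- masked gauge of the killer edge `d` -/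
noncomputable def cgK (T : Fin 3 → Finset ℤ) (g : Fin 3 → ℤ → ℤ → ℂ) (d : Fin 3) : ℤ → ℤ → ℂ :=
  fun x y => if x ∈ T d ∧ y ∈ T (d + 1) then g d x y else 0


/-- the good boxes of the killer edge `d` -/
def GdE (j : Fin 4) (bb : ℤ) (T : Fin 3 → Finset ℤ) (g : Fin 3 → ℤ → ℤ → ℂ) (d : Fin 3)
    (R : Finset Nd) (J : Nd) (K : Fn) (s ε : ℝ) (n : ℕ) (p : ℤ × ℤ × ℤ) (v : ℕ) : Prop :=
  GoodB R J (cgK T g d) K (sl j - sl (j.succAbove (d + 2)))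
    (sl (j.succAbove d) - sl (j.succAbove (d + 2)))
    (sl (j.succAbove (d + 1)) - sl (j.succAbove (d + 2))) s ε (wv bb n p v) n (pc p (d + 1)) (pc p d)



end Crest.Agent.R079.GaPx571
end

-- ▼ part R079/GaK_256
section

/-! R079, Step I, (G) words (helper256): GOOD WORDS of the common instance.

* `n1G` : the bound `N1`;  `n1G_nonneg`;
* `hg_fam` : 571's `HG` for the family `Fam` (263), edges `e, e' ≠ v + 1`, killer = slot `m`. -/

set_option autoImplicit false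

namespace Crest.Agent.R079.GaKx256

open Finset Crest.Agent.R079.Grid Crest.Agent.R079.Glue Crest.Agent.R079.Growth
  Crest.Agent.R079.QRed Crest.Agent.R079.TWin
open Crest.Agent.R079.GaAx571 Crest.Agent.R079.GaBx571 Crest.Agent.R079.GaWx571
  Crest.Agent.R079.GaXx571 Crest.Agent.R079.GaMx571 Crest.Agent.R079.GaSx571
  Crest.Agent.R079.GaTx571 Crest.Agent.R079.GaVx571 Crest.Agent.R079.GaZx260
  Crest.Agent.R079.GaFx371 Crest.Agent.R079.GaUx571 Crest.Agent.R079.GaRx571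
open Crest.Agent.R079.Cel159 Crest.Agent.R079.ThA159 Crest.Agent.R079.ElU440
  Crest.Agent.R079.PFx263 Crest.Agent.R079.GaDx571

/-- the bound of the good words -/
noncomputable def n1G (K0 : ℝ) (J : Nd) (HC Av s ε Hf Ht H H' fa fb : ℝ) : ℝ :=
  K0 * (1 + Real.log (1 + HC ^ 2 * len J * (H ^ 2 / fa + Hf * Ht * H' ^ 2 / fb) /
    (81 * s + 170 * Av * √ε) ^ 2)) * (81 * s + 170 * Av * √ε)

lemma n1G_nonneg {K0 : ℝ} (hK0 : 0 ≤ K0) (J : Nd) {HC Av s ε Hf Ht H H' fa fb : ℝ} (hAv : 0 ≤ Av)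
    (hs : 0 ≤ s) (hHf : 0 ≤ Hf) (hHt : 0 ≤ Ht) (hfa : 0 ≤ fa) (hfb : 0 ≤ fb) :
    0 ≤ n1G K0 J HC Av s ε Hf Ht H H' fa fb := by
  unfold n1G
  have hl := (Growth.len_pos J).le
  have h1 : 0 ≤ HC ^ 2 * len J * (H ^ 2 / fa + Hf * Ht * H' ^ 2 / fb) /
      (81 * s + 170 * Av * √ε) ^ 2 := by positivity
  have h2 : 0 ≤ Real.log (1 + HC ^ 2 * len J * (H ^ 2 / fa + Hf * Ht * H' ^ 2 / fb) /
      (81 * s + 170 * Av * √ε) ^ 2) := Real.log_nonneg (by linarith)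
  positivity

/-- **571's `HG` for the family** : edges `e ≠ e'`, both different from the killer edge `v + 1`;
the killer letter is the letter of the slot `m = i.succAbove v`. -/
theorem hg_fam : ∃ K0 : ℝ, 0 ≤ K0 ∧ ∀ {n : ℕ} {i m : Fin 4} {v : Fin 3} {I : Nd} {Ht Hf La : ℝ}
    {f : Fn} {T : Fin n → Fin 3 → Finset ℤ} {g : Fin n → Fin 3 → ℤ → ℤ → ℂ} {θ : Fin n → ℤ → ℝ}
    {μ : Fin n → ℝ}, Fam i m v I Ht Hf La n f T g θ μ → 0 ≤ Hf → ∀ {bb : ℤ}, bb = -1 ∨ bb = -7 →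
    ∀ {e e' : Fin 3}, e ≠ e' → e ≠ v + 1 → e' ≠ v + 1 → ∀ {J : Nd}, iv J ⊆ iv I →
    ∀ {R : Finset Nd}, Full R J → ∀ {Kl : ℕ} (hKl : 0 < Kl) {F : Fin 4 → Fn} {s ε Av HC : ℝ},
    0 ≤ s → 0 ≤ ε → 0 ≤ Av → 0 < 81 * s + 170 * Av * √ε → (∀ p ∈ R, av p (F m) ≤ Av) →
    (∀ y ∈ iv J, ‖F m y‖ ≤ HC) → ∀ {H H' fa fb : ℝ}, 0 < fa → 0 < fb → ∀ (L1 : ℕ),
    HG i bb e e' T g (fun l => ((l, ⟨0, hKl⟩) : Fin n × Fin Kl)) J (BdF i e T I Kl)
      ((sd I : ℝ) ^ 2) F (cube L1) (J.1 + 1) R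
      (fun l k p w => GaPx571.GdE i bb (T l) (g l) (v + 1) R J (F m) s ε k p w)
      (n1G K0 J HC Av s ε Hf Ht H H' fa fb) H H' fa fb := by
  obtain ⟨K0, hK0, hmain⟩ := GaIx256.goodG
  refine ⟨K0, hK0, ?_⟩
  intro n i m v I Ht Hf La f T g θ μ h hHf bb hbb e e' hee he he' J hJ R hR Kl hKl F s ε Av HC hs hε
    hAv hτ hF hHC H H' fa fb hfa hfb L1 l u y hu hy
  obtain ⟨hvm⟩ : Nonempty (i.succAbove v = m) := ⟨h.vm⟩
  subst hvm
  have hJI : J.1 ≤ I.1 := Growth.iv_level hJ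
  have hn : 2 ^ J.1 ≤ 2 ^ I.1 := Nat.pow_le_pow_right (by norm_num) hJI
  have hB : BdF i e T I Kl ((l, ⟨0, hKl⟩) : Fin n × Fin Kl) J = BdE i e (T l) J J := bdF_eq e _ hJ
  rw [hB] at hu ⊢
  have hTI : ∀ e' : Fin 3, ∃ t : ℤ, T l e' ⊆ Ico t (t + ((2 ^ I.1 : ℕ) : ℤ)) := by
    intro e'
    obtain ⟨a, ha⟩ := h.ico l
    exact ⟨a e', (ha e').le⟩
  have h1 := hmain bb hbb i v R J hR (2 ^ I.1) hn Ht Hf (T l) (g l) (θ l) hHf (h.opD l) hTI
    (fun s => KLX279.cutJ J (F s)) s ε Av HC hs hε hAv hτ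
    (fun p hp => (le_of_eq (GaIx256.av_cut (hR.reg.1 p hp) (F (i.succAbove v)))).trans (hF p hp))
    (fun z hz => by
      show ‖KLX279.cutJ J (F (i.succAbove v)) z‖ ≤ HC
      unfold KLX279.cutJ
      rw [if_pos hz]
      exact hHC z hz) e e' hee he he' H H' fa fb hfa hfb u y hu hy L1
  have h2 : (fun (k : ℕ) (p : ℤ × ℤ × ℤ) (w : ℕ) =>
      GaIx256.GdE i (v + 1) R J (T l) (g l) (KLX279.cutJ J (F (i.succAbove v))) s ε bb k p w ∧
        AdX R k (xv i bb k p)) = fun (k : ℕ) (p : ℤ × ℤ × ℤ) (w : ℕ) =>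
      GaPx571.GdE i bb (T l) (g l) (v + 1) R J (F (i.succAbove v)) s ε k p w ∧
        AdX R k (xv i bb k p) := by
    funext k p w
    exact propext (and_congr_left' (GaIx256.gdE_cut hR).symm)
  rw [h2] at h1
  refine h1.trans (le_of_eq ?_)
  unfold n1G sd
  push_cast
  ring

end Crest.Agent.R079.GaKx256
end

-- ▼ part R079/GaM_446
section

/-! R079, Step I, (G) words (helper446): EXCEPTIONAL DENSITY OF THE TRUNCATED KILLER LETTER.

* `exD_add` : the classes `ExD` add; `exD_tau` : `ExD` of `tau H X` from `ExD` of `X` and `av p X ≤ A`;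
* `exE_prc` : 256's `ExE` of `tau H (F m)` for the core data `PRc` (263). -/

set_option autoImplicit false

namespace Crest.Agent.R079.GaMx446

open Finset Crest.Agent.R079.Grid Crest.Agent.R079.Glue Crest.Agent.R079.Growth
  Crest.Agent.R079.QRed Crest.Agent.R079.KLx446 Crest.Agent.R079.BadTx138
open Crest.Agent.R079.GaTx571 (tau tau_le tau_le')
open Crest.Agent.R079.GaZx260 (tau_rest)
open Crest.Agent.R079.GaIx256 (ExE cM norm_cM)
open Crest.Agent.R079.GaFx371 (OpD)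

/-- operator bounds add -/
lemma opB_add {K1 K2 K : ℤ → ℤ → ℂ} {I J : Finset ℤ} {t1 t2 : ℝ} (h1 : OpB K1 I J t1)
    (h2 : OpB K2 I J t2) (ht1 : 0 ≤ t1) (ht2 : 0 ≤ t2) (h : ∀ x y, K x y = K1 x y + K2 x y) :
    OpB K I J (t1 + t2) := by
  intro u v
  set U := ∑ x ∈ I, ‖u x‖ ^ 2 with hU
  set V := ∑ y ∈ J, ‖v y‖ ^ 2 with hV
  have hU0 : 0 ≤ U := Finset.sum_nonneg fun _ _ => sq_nonneg _
  have hV0 : 0 ≤ V := Finset.sum_nonneg fun _ _ => sq_nonneg _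
  have e : ∑ x ∈ I, ∑ y ∈ J, u x * K x y * v y =
      ∑ x ∈ I, ∑ y ∈ J, u x * K1 x y * v y + ∑ x ∈ I, ∑ y ∈ J, u x * K2 x y * v y := by
    rw [← Finset.sum_add_distrib]
    refine Finset.sum_congr rfl fun x _ => ?_
    rw [← Finset.sum_add_distrib]
    refine Finset.sum_congr rfl fun y _ => ?_
    rw [h]; ring
  have n1 : ‖∑ x ∈ I, ∑ y ∈ J, u x * K1 x y * v y‖ ≤ t1 * √(U * V) := by
    refine abs_le_of_sq_le_sq' ?_ (by positivity) |>.2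
    rw [mul_pow, Real.sq_sqrt (mul_nonneg hU0 hV0)]
    exact h1 u v
  have n2 : ‖∑ x ∈ I, ∑ y ∈ J, u x * K2 x y * v y‖ ≤ t2 * √(U * V) := by
    refine abs_le_of_sq_le_sq' ?_ (by positivity) |>.2
    rw [mul_pow, Real.sq_sqrt (mul_nonneg hU0 hV0)]
    exact h2 u v
  have n3 : ‖∑ x ∈ I, ∑ y ∈ J, u x * K x y * v y‖ ≤ (t1 + t2) * √(U * V) := by
    rw [e, add_mul]
    exact (norm_add_le _ _).trans (add_le_add n1 n2)
  refine (pow_le_pow_left₀ (norm_nonneg _) n3 2).trans (le_of_eq ?_)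
  rw [mul_pow, Real.sq_sqrt (mul_nonneg hU0 hV0)]

/-- exceptional densities add -/
theorem exD_add {R : Finset Nd} {c : ℤ → ℤ → ℂ} {K K1 K2 : Fn} {α β γ : ℤ} {s1 s2 D1 D2 : ℝ}
    (hs1 : 0 ≤ s1) (hs2 : 0 ≤ s2) (h1 : ExD R c K1 α β γ s1 D1) (h2 : ExD R c K2 α β γ s2 D2)
    (h : ∀ p ∈ R, ∀ y ∈ iv p, K y = K1 y + K2 y) : ExD R c K α β γ (s1 + s2) (D1 + D2) := by
  classical
  intro p hp w a b
  have hsub : (Ico w (w + 2 ^ p.1)).filter (fun w' => ¬ OpP c K α β γ (s1 + s2) p w' a b) ⊆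
      (Ico w (w + 2 ^ p.1)).filter (fun w' => ¬ OpP c K1 α β γ s1 p w' a b) ∪
      (Ico w (w + 2 ^ p.1)).filter (fun w' => ¬ OpP c K2 α β γ s2 p w' a b) := by
    intro w' hw'
    rw [Finset.mem_filter] at hw'
    rw [Finset.mem_union, Finset.mem_filter, Finset.mem_filter]
    by_cases ha : OpP c K1 α β γ s1 p w' a b
    · refine Or.inr ⟨hw'.1, fun hb => hw'.2 ?_⟩
      unfold OpP at ha hb ⊢
      rw [show (s1 + s2) * (2 : ℝ) ^ p.1 = s1 * 2 ^ p.1 + s2 * 2 ^ p.1 by ring]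
      refine opB_add ha hb (by positivity) (by positivity) fun x y => ?_
      unfold kp
      by_cases hy : α * w' + β * x + γ * y ∈ iv p
      · rw [if_pos hy, if_pos hy, if_pos hy, h p hp _ hy, mul_add]
      · rw [if_neg hy, if_neg hy, if_neg hy, mul_zero, add_zero]
    · exact Or.inl ⟨hw'.1, ha⟩
  have hc : (((Ico w (w + 2 ^ p.1)).filter
      (fun w' => ¬ OpP c K α β γ (s1 + s2) p w' a b)).card : ℝ) ≤
      (((Ico w (w + 2 ^ p.1)).filter (fun w' => ¬ OpP c K1 α β γ s1 p w' a b)).card : ℝ) +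
      (((Ico w (w + 2 ^ p.1)).filter (fun w' => ¬ OpP c K2 α β γ s2 p w' a b)).card : ℝ) := by
    exact_mod_cast (Finset.card_le_card hsub).trans (Finset.card_union_le _ _)
  have a1 := h1 p hp w a b
  have a2 := h2 p hp w a b
  have e1 : (D1 + D2) * 2 ^ p.1 = D1 * 2 ^ p.1 + D2 * 2 ^ p.1 := by ring
  rw [e1]
  refine hc.trans (add_le_add ?_ ?_)
  · refine le_trans (le_of_eq ?_) a1
    congr!
  · refine le_trans (le_of_eq ?_) a2
    congr!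

/-- **truncation** -/
theorem exD_tau {R : Finset Nd} {c : ℤ → ℤ → ℂ} (hc : ∀ z z', ‖c z z'‖ ≤ 1) {X : Fn} {α β γ : ℤ}
    (hβ : β ≠ 0) (hγ : γ ≠ 0) {s D A H : ℝ} (hs : 0 ≤ s) (hH : 0 < H)
    (h : ExD R c X α β γ s D) (hA : ∀ p ∈ R, av p X ≤ A) :
    ExD R c (fun y => tau H (X y)) α β γ (s + 128 * (A ^ 2 / H)) D := by
  have h1 : ∀ p ∈ R, ∑ y ∈ iv p, ‖-(X y - tau H (X y))‖ ≤ A ^ 2 / H * len p := by
    intro p hp
    have h2 : ∑ y ∈ iv p, ‖-(X y - tau H (X y))‖ ≤ ∑ y ∈ iv p, ‖X y‖ ^ 2 / H :=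
      Finset.sum_le_sum fun y _ => by rw [norm_neg]; exact tau_rest hH _
    have h3 : ∑ y ∈ iv p, ‖X y‖ ^ 2 / H = (len p * av p X ^ 2) / H := by
      rw [← Finset.sum_div, Growth.sum_av]
    rw [h3] at h2
    refine h2.trans ?_
    have h4 : av p X ^ 2 ≤ A ^ 2 := pow_le_pow_left₀ (Growth.av_nonneg _ _) (hA p hp) 2
    have h5 : len p * av p X ^ 2 ≤ len p * A ^ 2 := mul_le_mul_of_nonneg_left h4 (Growth.len_pos p).le
    calc len p * av p X ^ 2 / H ≤ len p * A ^ 2 / H := div_le_div_of_nonneg_right h5 hH.le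
      _ = _ := by ring
  have h2 := TKx248.exD_of_l1 (K := fun y => -(X y - tau H (X y))) (by positivity) h1 hc (α := α)
    hβ hγ
  have h3 := exD_add (K := fun y => tau H (X y)) hs (by positivity) h h2
    (fun p _ y _ => by ring)
  rwa [add_zero] at h3

lemma exD_sub {R R' : Finset Nd} (hs : R' ⊆ R) {c : ℤ → ℤ → ℂ} {K : Fn} {α β γ : ℤ} {s D : ℝ}
    (h : ExD R c K α β γ s D) : ExD R' c K α β γ s D := fun p hp => h p (hs hp)

section core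

open Crest.Agent.R079.POx263 Crest.Agent.R079.OpS276 Crest.Agent.R079.WS112
  Crest.Agent.R079.WS0112

variable {P : Prm} {k b cl t La Ht Hf : ℝ} {W : Finset Nd} {I : Nd}
  {i m e e' : Fin 4} {F : Fin 4 → Fn}

lemma dst_slots (i : Fin 4) (v : Fin 3) :
    Dst4 (i.succAbove v) i (i.succAbove (v + 1)) (i.succAbove (v + 2)) := by
  have h : ∀ a b : Fin 3, a ≠ b → i.succAbove a ≠ i.succAbove b := fun a b hab h' =>
    hab (Fin.succAbove_right_injective h')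
  exact ⟨(Fin.succAbove_ne i v).symm, (Fin.succAbove_ne i _).symm, (Fin.succAbove_ne i _).symm,
    h _ _ (by revert v; decide), h _ _ (by revert v; decide), h _ _ (by revert v; decide)⟩

/-- **`ExE` of the truncated killer letter** for the core data -/
theorem exE_prc (h : Ok0 P) (hd : Dst4 i m e e') (hk : 0 ≤ k) (hm3 : m ≠ 3) (hb : 0 ≤ b)
    (ht : 0 < t) (ht1 : t ≤ 1) (hPR : PRc (DF0 P) k b cl t La Ht Hf W I i m e e' F)
    {R : Finset Nd} (hRW : R ⊆ W) {v : Fin 3} (hv : i.succAbove v = m) {n : ℕ} {Ht' Hf' : ℝ}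
    {T : Fin 3 → Finset ℤ} {g : Fin 3 → ℤ → ℤ → ℂ} {θ : ℤ → ℝ} (hO : OpD v n Ht' Hf' T g θ)
    {H : ℝ} (hH : 0 < H) :
    ExE i (v + 1) R T g (fun y => tau H (F m y))
      (128 * t ^ (b * (P.θ * P.g m)) + 24 * t ^ (b * (P.θ * P.f m)) + 128 * (1 / H))
      (t ^ (b * (P.θ * P.x m))) := by
  subst hv
  have e1 : v + 1 + 2 = v := GaIx256.f3e v
  have e2 : v + 1 + 1 = v + 2 := GaIx256.f3f v
  have hD := dst_slots i v
  have h1 := hPR.exD h hd hk hm3 hb ht ht1 (c := cM T g (v + 1)) (norm_cM hO.b1) hD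
  have h2 := exD_sub hRW h1
  have hnn : 0 ≤ 128 * t ^ (b * (P.θ * P.g (i.succAbove v))) +
      24 * t ^ (b * (P.θ * P.f (i.succAbove v))) := by
    have a1 := Real.rpow_nonneg ht.le (b * (P.θ * P.g (i.succAbove v)))
    have a2 := Real.rpow_nonneg ht.le (b * (P.θ * P.f (i.succAbove v)))
    positivity
  have h3 := exD_tau (norm_cM hO.b1) ((sl_facts _ _).1 hD.ke.symm) ((sl_facts _ _).1 hD.ke'.symm)
    hnn hH h2 (fun p hp => hPR.avR hk p (hRW hp))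
  unfold ExE
  rw [e1, e2]
  rw [one_pow] at h3
  exact h3

end core

end Crest.Agent.R079.GaMx446
end

-- ▼ part R079/GaN_571
section

/-! R079, Step I, (G) words (helper571): THE TWO TYPES OF (G) TOTALS for the common instance
`Fam` / `PhiE` (GaD_571), letters truncated, killer letter bounded.

* `slots` : the edges `e, e'` of the two moving slots;
* `core_static`, `core_moving` : `g_static`, `g_moving` (GaO_571) with `HG` (256), `HB` (253),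
  `HRst` (446) inserted. -/

set_option autoImplicit false

namespace Crest.Agent.R079.GaNx571

open Finset Crest.Agent.R079.Grid Crest.Agent.R079.Glue Crest.Agent.R079.Growth
  Crest.Agent.R079.QRed Crest.Agent.R079.TWin
open Crest.Agent.R079.RelW653 (vl NMP Jv Dv)
open Crest.Agent.R079.GaAx571 Crest.Agent.R079.GaBx571 Crest.Agent.R079.GaWx571
  Crest.Agent.R079.GaXx571 Crest.Agent.R079.GaMx571 Crest.Agent.R079.GaSx571
  Crest.Agent.R079.GaTx571 Crest.Agent.R079.GaVx571 Crest.Agent.R079.GaZx260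
  Crest.Agent.R079.GaFx371 Crest.Agent.R079.GaUx571 Crest.Agent.R079.GaRx571
open Crest.Agent.R079.Cel159 Crest.Agent.R079.ThA159 Crest.Agent.R079.Stk
  Crest.Agent.R079.PFx263 Crest.Agent.R079.GaDx571 Crest.Agent.R079.GaOx571
  Crest.Agent.R079.GaKx256 Crest.Agent.R079.GaQx571
open Crest.Agent.R079.AsmA844 (v4 Oth)
open Crest.Agent.R079.GnMx45 (en en_nonneg)



lemma sqrt_A {A0 η : ℝ} (hA0 : 2 ≤ A0) (hη : η ≤ 1 / 2) : √(2 * (1 : ℝ) ^ 2 + 4 * η) ≤ A0 :=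
  Real.sqrt_le_iff.2 ⟨by linarith, by nlinarith⟩

/-- **STATIC TOTAL**, truncated letters -/
theorem core_static : ∃ K1 K2 K4 : ℝ, 0 ≤ K1 ∧ 0 ≤ K2 ∧ 0 ≤ K4 ∧
    ∀ {bb : ℤ}, bb = -1 ∨ bb = -7 → ∀ {i m : Fin 4} {v : Fin 3} {I : Nd} {Ht Hf La : ℝ} {N : ℕ}
    {f0 : Fn} {T : Fin N → Fin 3 → Finset ℤ} {g : Fin N → Fin 3 → ℤ → ℤ → ℂ}
    {θ : Fin N → ℤ → ℝ} {μ : Fin N → ℝ}, Fam i m v I Ht Hf La N f0 T g θ μ →
    1 ≤ Ht → 0 ≤ Hf → 0 < La → ∀ {R : Finset Nd} {J : Nd}, Full R J → iv J ⊆ iv I →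
    ∀ {S : Finset Nd} {W : Nd → Finset Nd} {C : ℝ}, TWin.Part R S W C →
    ∀ {F : Fin 4 → Fn} {s ε D Hh dd τ A0 : ℝ}, F i = f0 → 0 ≤ s → 0 < ε → 0 ≤ D → 0 < Hh →
    0 < dd → 2 ≤ A0 → (∀ p ∈ R, av p (F m) ≤ 1) → (∀ y, ‖F m y‖ ≤ Hh) →
    (∀ l, GaIx256.ExE i (v + 1) R (T l) (g l) (F m) s D) →
    ∀ {e e' : Fin 3}, e ≠ e' → e ≠ v + 1 → e' ≠ v + 1 →
    ∀ {kap : ℝ} {kc Kl : ℕ}, 0 < kap → 0 < Kl → ∀ {r : ℕ → ℝ}, (∀ q, 0 ≤ r q) →
    ∀ {X : Fn} {η : ℝ} {f : Nd → Fn},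
    NMP (fun _ _ => True) (PhiE i e T g μ I La kap kc Kl r) X η f →
    (∀ p ∈ R, av p X ≤ 1) → η ≤ 1 / 2 → GaBtx251.tauB kc (r 0) Ht Hf A0 Hh Hh ≤ τ → 0 < τ →
    ∀ {n : ℕ} {m0 : ℝ}, 0 < m0 → η * (2 * n + 1) ≤ m0 →
    ∀ {epsi : ℕ → ℤ → ℂ}, (∀ m x, ‖epsi m x‖ ≤ 1) →
    ∀ {Y : Fn}, (∀ y, ‖Y y‖ ≤ Hh) → (∀ p ∈ R, av p Y ≤ A0) →
    ‖∑ K ∈ S.filter (fun K => idx S K ≤ n), ∑ q ∈ W K,
      v4 bb epsi F (i.succAbove (e + 2)) (i.succAbove (e' + 2)) (fun y => tau Hh (gl (W K) f y))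
        Y q‖ ≤
      9 * (n1G K1 J Hh 1 s ε Hf Ht (2 ^ (bn n + 1) * Hh) (2 ^ (bn n + 1) * Hh)
        (len J * m0 / kap) (len J * m0) * (La / √kap)) * ((bn n : ℕ) + 1) ^ 2 *
          ((m0 + en J X Y) * len J) +
      (La * B0Nx253.eKB K4 Ht Hf Hh Hh Hh τ 1 A0 1 *
        ∑ K ∈ S.filter (fun K => idx S K ≤ n), len K +
        n * (La * GaLx446.eRst K2 Ht Hf D ε 1 Hh Hh Hh A0 A0 dd dd * len J)) := by
  obtain ⟨K1, hK1, hg⟩ := hg_fam
  obtain ⟨K2, hK2, hr0⟩ := GaLx446.hrst_static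
  obtain ⟨K4, hK4, hb⟩ := B0Nx253.hb_static
  refine ⟨K1, K2, K4, hK1, hK2, hK4, ?_⟩
  intro bb hbb i m v I Ht Hf La N f0 T g θ μ hFam hHt hHf hLa R J hR hJI S W C hPt F s ε D Hh dd τ
    A0 hFi hs hε hD hHh hdd hA0 hFm hFmH hEx e e' hee he he' kap kc Kl hkap hKl r hr X η f hN hX hη
    hτB hτ n m0 hm0 hηm epsi hepsi Y hYH hY
  obtain ⟨L1, -, hcov⟩ := exists_cube T (J.1 + 1) 0
  have hW := gw_fam hFam hbb hee hJI hLa hkap kc hKl hr hFi hcov hR hepsi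
  have hτ2 : 0 < 81 * s + 170 * (1 : ℝ) * √ε := by
    have := Real.sqrt_pos.2 hε
    linarith
  have hl := Growth.len_pos J
  have hfa : 0 < len J * m0 / kap := div_pos (mul_pos hl hm0) hkap
  have hfb : 0 < len J * m0 := mul_pos hl hm0
  have hAX := sqrt_A (η := η) hA0 hη
  have hG := hg hFam hHf hbb hee he he' hJI hR hKl (F := F) (s := s) (ε := ε) (Av := 1) (HC := Hh)
    hs hε.le zero_le_one hτ2 hFm (fun y _ => hFmH y) (H := 2 ^ (bn n + 1) * Hh)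
    (H' := 2 ^ (bn n + 1) * Hh) hfa hfb L1
  have hB := hb bb hbb i m v I Ht Hf La N f0 T g θ μ hFam hHf hLa R J hR hJI S W C hPt F (F m) 1 Hh
    Hh Hh τ 1 A0 A0 (fun y _ => rfl) hFm (fun y _ => hFmH y) hHh.le e e' hee he he' n kap kc Kl hKl
    r X η 1 f hkap.le hr hN hX hAX hHh hHh hτB hτ one_pos Y (fun y _ => hYH y) hY L1 (J.1 + 1)
  have hRs := hr0 bb hbb i m v I Ht Hf La N f0 T g θ μ hFam hHt hHf hLa R J hR hJI S W C hPt F (F m)
    s ε D 1 Hh Hh Hh A0 A0 dd dd (fun y _ => rfl) hε hD one_pos hFm (fun y _ => hFmH y) hEx e e' hee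
    he he' n kap kc Kl r X η 1 f hkap.le hr hN hX hAX hHh.le Y (fun y _ => hYH y) hY hdd hdd L1
  have hN' := hN
  rw [phi_eq] at hN'
  have hN1 : 0 ≤ n1G K1 J Hh 1 s ε Hf Ht (2 ^ (bn n + 1) * Hh) (2 ^ (bn n + 1) * Hh)
      (len J * m0 / kap) (len J * m0) :=
    n1G_nonneg hK1 J zero_le_one hs hHf (by linarith) hfa.le hfb.le
  have heB := B0Nx253.eKB_nonneg (Ht := Ht) (Hf := Hf) (H1 := Hh) (h0 := Hh) (H := Hh) hK4 hτ.le
    (zero_le_one : (0 : ℝ) ≤ 1) (show 0 ≤ A0 by linarith) (zero_le_one : (0 : ℝ) ≤ 1)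
  have heR := GaLx446.eRst_nonneg (D := D) (ε := ε) (HC := Hh) (HX := Hh) (HY := Hh) (AX := A0)
    (AY := A0) hK2 hHt hHf (zero_le_one : (0 : ℝ) ≤ 1) hdd.le hdd.le
  have main := g_static hW hN' hR hPt (n_le_bn n) hm0.le hηm hN1 le_rfl heB heR hG Y
    (fun y _ => hYH y) hHh.le le_rfl le_rfl hB hRs
  refine main.trans (add_le_add ?_ le_rfl)
  have hQ0 : 0 ≤ n1G K1 J Hh 1 s ε Hf Ht (2 ^ (bn n + 1) * Hh) (2 ^ (bn n + 1) * Hh)
      (len J * m0 / kap) (len J * m0) * (La / √kap) :=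
    mul_nonneg hN1 (div_nonneg hLa.le (Real.sqrt_nonneg _))
  have hen := en_nonneg J X Y
  have h1 : 0 ≤ (m0 + en J X Y) * len J := mul_nonneg (by linarith) hl.le
  have hb0 : (0 : ℝ) ≤ (bn n : ℕ) := Nat.cast_nonneg _
  refine mul_le_mul_of_nonneg_right (mul_le_mul_of_nonneg_right ?_ (by positivity)) h1
  linarith

/-- **MOVING TOTAL**, truncated letters -/
theorem core_moving : ∃ K1 K2 K4 : ℝ, 0 ≤ K1 ∧ 0 ≤ K2 ∧ 0 ≤ K4 ∧
    ∀ {bb : ℤ}, bb = -1 ∨ bb = -7 → ∀ {i m : Fin 4} {v : Fin 3} {I : Nd} {Ht Hf La : ℝ} {N : ℕ}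
    {f0 : Fn} {T : Fin N → Fin 3 → Finset ℤ} {g : Fin N → Fin 3 → ℤ → ℤ → ℂ}
    {θ : Fin N → ℤ → ℝ} {μ : Fin N → ℝ}, Fam i m v I Ht Hf La N f0 T g θ μ →
    1 ≤ Ht → 0 ≤ Hf → 0 < La → ∀ {R : Finset Nd} {J : Nd}, Full R J → iv J ⊆ iv I →
    ∀ {S : Finset Nd} {W : Nd → Finset Nd} {C : ℝ}, TWin.Part R S W C →
    ∀ {F : Fin 4 → Fn} {s ε D Hh dd τ A0 : ℝ}, F i = f0 → 0 ≤ s → 0 < ε → 0 ≤ D → 0 < Hh →
    0 < dd → 2 ≤ A0 → (∀ p ∈ R, av p (F m) ≤ 1) → (∀ y, ‖F m y‖ ≤ Hh) →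
    (∀ l, GaIx256.ExE i (v + 1) R (T l) (g l) (F m) s D) →
    ∀ {e e' : Fin 3}, e ≠ e' → e ≠ v + 1 → e' ≠ v + 1 →
    ∀ {kap : ℝ} {kc Kl : ℕ}, 0 < kap → 0 < Kl → ∀ {r : ℕ → ℝ}, (∀ q, 0 ≤ r q) →
    ∀ {X : Fn} {η : ℝ} {f : Nd → Fn},
    NMP (fun _ _ => True) (PhiE i e T g μ I La kap kc Kl r) X η f →
    (∀ p ∈ R, av p X ≤ 1) → η ≤ 1 / 2 → GaBtx251.tauB kc (r 0) Ht Hf A0 Hh Hh ≤ τ → 0 < τ →
    ∀ {n : ℕ} {m0 : ℝ}, 0 < m0 → η * (2 * n + 1) ≤ m0 →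
    ∀ {epsi : ℕ → ℤ → ℂ}, (∀ m x, ‖epsi m x‖ ≤ 1) →
    ∀ {Y : Fn} {f' : Nd → Fn},
    NMP (fun _ _ => True) (PhiE i e' T g μ I La kap kc Kl r) Y η f' → (∀ p ∈ R, av p Y ≤ 1) →
    ‖∑ K ∈ S.filter (fun K => idx S K ≤ n), ∑ q ∈ W K,
      v4 bb epsi F (i.succAbove (e + 2)) (i.succAbove (e' + 2)) (fun y => tau Hh (gl (W K) f y))
        (fun y => tau Hh (gl (W K) f' y)) q‖ ≤
      9 * (n1G K1 J Hh 1 s ε Hf Ht (2 ^ (bn n + 1) * Hh) (2 ^ (bn n + 1) * Hh)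
        (len J * m0 / kap) (len J * m0) * (La / √kap)) * ((bn n : ℕ) + 1) ^ 2 *
          ((m0 + en J X Y) * len J) +
      (La * B0Nx253.eKB K4 Ht Hf Hh Hh Hh τ 1 A0 1 *
        ∑ K ∈ S.filter (fun K => idx S K ≤ n), len K +
        n * (La * GaLx446.eRst K2 Ht Hf D ε 1 Hh Hh Hh A0 A0 dd dd * len J)) := by
  obtain ⟨K1, hK1, hg⟩ := hg_fam
  obtain ⟨K2, hK2, hr0⟩ := GaLx446.hrst_moving
  obtain ⟨K4, hK4, hb⟩ := B0Nx253.hb_moving
  refine ⟨K1, K2, K4, hK1, hK2, hK4, ?_⟩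
  intro bb hbb i m v I Ht Hf La N f0 T g θ μ hFam hHt hHf hLa R J hR hJI S W C hPt F s ε D Hh dd τ
    A0 hFi hs hε hD hHh hdd hA0 hFm hFmH hEx e e' hee he he' kap kc Kl hkap hKl r hr X η f hN hX hη
    hτB hτ n m0 hm0 hηm epsi hepsi Y f' hNY hY
  obtain ⟨L1, -, hcov⟩ := exists_cube T (J.1 + 1) 0
  have hW := gw_fam hFam hbb hee hJI hLa hkap kc hKl hr hFi hcov hR hepsi
  have hτ2 : 0 < 81 * s + 170 * (1 : ℝ) * √ε := by
    have := Real.sqrt_pos.2 hε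
    linarith
  have hl := Growth.len_pos J
  have hfa : 0 < len J * m0 / kap := div_pos (mul_pos hl hm0) hkap
  have hfb : 0 < len J * m0 := mul_pos hl hm0
  have hAX := sqrt_A (η := η) hA0 hη
  have hG := hg hFam hHf hbb hee he he' hJI hR hKl (F := F) (s := s) (ε := ε) (Av := 1) (HC := Hh)
    hs hε.le zero_le_one hτ2 hFm (fun y _ => hFmH y) (H := 2 ^ (bn n + 1) * Hh)
    (H' := 2 ^ (bn n + 1) * Hh) hfa hfb L1
  have hB := hb bb hbb i m v I Ht Hf La N f0 T g θ μ hFam hHf hLa R J hR hJI S W C hPt F (F m) 1 Hh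
    Hh Hh τ 1 A0 A0 (fun y _ => rfl) hFm (fun y _ => hFmH y) hHh.le e e' hee he he' n kap kc Kl hKl
    r X η 1 f hkap.le hr hN hX hAX hHh hHh hτB hτ one_pos kap kc Kl r Y η 1 Hh f' hkap.le hr hNY hY
    hAX hHh.le le_rfl L1 (J.1 + 1)
  have hRs := hr0 bb hbb i m v I Ht Hf La N f0 T g θ μ hFam hHt hHf hLa R J hR hJI S W C hPt F (F m)
    s ε D 1 Hh Hh Hh A0 A0 dd dd (fun y _ => rfl) hε hD one_pos hFm (fun y _ => hFmH y) hEx e e' hee
    he he' n kap kc Kl r X η 1 f hkap.le hr hN hX hAX hHh.le kap kc Kl r Y η 1 f' hkap.le hr hNY hY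
    hAX hHh.le hdd hdd L1
  have hN' := hN
  rw [phi_eq] at hN'
  have hNY' := hNY
  rw [phi_eq] at hNY'
  have hN1 : 0 ≤ n1G K1 J Hh 1 s ε Hf Ht (2 ^ (bn n + 1) * Hh) (2 ^ (bn n + 1) * Hh)
      (len J * m0 / kap) (len J * m0) :=
    n1G_nonneg hK1 J zero_le_one hs hHf (by linarith) hfa.le hfb.le
  have heB := B0Nx253.eKB_nonneg (Ht := Ht) (Hf := Hf) (H1 := Hh) (h0 := Hh) (H := Hh) hK4 hτ.le
    (zero_le_one : (0 : ℝ) ≤ 1) (show 0 ≤ A0 by linarith) (zero_le_one : (0 : ℝ) ≤ 1)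
  have heR := GaLx446.eRst_nonneg (D := D) (ε := ε) (HC := Hh) (HX := Hh) (HY := Hh) (AX := A0)
    (AY := A0) hK2 hHt hHf (zero_le_one : (0 : ℝ) ≤ 1) hdd.le hdd.le
  exact g_moving hW hN' (bndF hFam e' kc Kl) (fun c => hr c.2)
    (fun c => div_nonneg (mul_nonneg hkap.le (hFam.μ0 c.1)) hLa.le) hNY' hR hPt (n_le_bn n) hm0.le
    hηm hηm hN1 le_rfl heB heR hG hHh.le hHh.le le_rfl le_rfl hB hRs

end Crest.Agent.R079.GaNx571
end

-- ▼ part R079/GwN_571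
section

/-! R079, Step I, (G) words (helper571): numbers of the (G) totals in powers of `t`.

All heights are `Hh t h = 4 t ^ (-h)`; `AA = 700000`.
* `numG` : good words;  `numT`, `numB` : killer words;  `numR` : rest words;  `numH` : tall parts. -/

set_option autoImplicit false

namespace Crest.Agent.R079.GwNx571

open Finset Crest.Agent.R079.Grid Crest.Agent.R079.Glue Crest.Agent.R079.Growth
  Crest.Agent.R079.QRed Crest.Agent.R079.TWin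
open Crest.Agent.R079.GaKx256 Crest.Agent.R079.GaQx571 Crest.Agent.R079.B0Nx253
  Crest.Agent.R079.GaLx446 Crest.Agent.R079.GaBtx251 Crest.Agent.R079.GnNx263

/-- the heights -/
noncomputable def Hh (t h : ℝ) : ℝ := 4 * t ^ (-h)

/-- the large constant -/
noncomputable def AA : ℝ := 700000

section

variable {t : ℝ}

lemma Hh_pos (ht : 0 < t) (h : ℝ) : 0 < Hh t h := mul_pos (by norm_num) (pw_pos ht _)

lemma Hh_le (ht : 0 < t) (ht1 : t ≤ 1) {h h' : ℝ} (hh : h ≤ h') : Hh t h ≤ AA * t ^ (-h') := by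
  unfold Hh AA
  have := pw_le ht ht1 (neg_le_neg hh)
  have h2 := pw_pos ht (-h')
  nlinarith

lemma nn_ne (ht : 0 < t) (nE : ℝ) : nn t nE ≠ 0 := by
  unfold nn
  have := Nat.ceil_pos.2 (pw_pos ht (-nE))
  omega

lemma HP_le (ht : 0 < t) {h nE : ℝ} {n : ℕ} (hn : n ≠ 0) (hn2 : (n : ℝ) ≤ 2 * t ^ (-nE)) :
    (2 : ℝ) ^ (bn n + 1) * Hh t h ≤ AA * t ^ (-(h + nE)) := by
  have h1 := pow_bn hn
  have h2 := Hh_pos ht h
  have h3 : (2 : ℝ) ^ (bn n + 1) * Hh t h ≤ 8 * t ^ (-nE) * Hh t h :=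
    mul_le_mul_of_nonneg_right (h1.trans (by linarith)) h2.le
  refine h3.trans ?_
  unfold Hh AA
  have h4 : t ^ (-nE) * t ^ (-h) = t ^ (-(h + nE)) := by
    rw [pw_add ht]
    congr 1
    ring
  have h5 := pw_pos ht (-(h + nE))
  calc 8 * t ^ (-nE) * (4 * t ^ (-h)) = 32 * (t ^ (-nE) * t ^ (-h)) := by ring
    _ = 32 * t ^ (-(h + nE)) := by rw [h4]
    _ ≤ _ := by nlinarith

/-- **GOOD WORDS** -/
theorem numG {K1 σ la xx ff c1 kx h nE gy w g1 f1 : ℝ} (hK1 : 0 ≤ K1) (hσ : 0 ≤ σ) (hg1 : σ ≤ g1)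
    (hf1 : σ ≤ f1) (hσh : σ ≤ h)
    (hxx : 0 ≤ xx) (hff : 0 ≤ ff) (hc1 : 0 ≤ c1) (hkx : 0 ≤ kx) (hnE : 0 ≤ nE)
    (hw : 0 < w) (hgy : gy + la + 3 * w ≤ σ + kx / 2) :
    ∃ K : ℝ, 0 ≤ K ∧ ∀ t, 0 < t → t ≤ 1 → ∀ J : Nd,
      9 * (n1G K1 J (Hh t h) 1 (128 * t ^ g1 + 24 * t ^ f1 + 128 * (1 / Hh t h)) (t ^ (2 * σ))
        (t ^ (-ff)) (3 * t ^ (-xx)) (2 ^ (bn (nn t nE) + 1) * Hh t h)
        (2 ^ (bn (nn t nE) + 1) * Hh t h) (len J * t ^ c1 / t ^ (-kx)) (len J * t ^ c1) *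
        (621432 * t ^ (-la) / √(t ^ (-kx)))) * ((bn (nn t nE) : ℕ) + 1) ^ 2 ≤ K * t ^ gy := by
  obtain ⟨K, hK, hm⟩ := num_good (K0 := K1) (A := AA) (σ := σ) (la := la) (xx := xx) (ff := ff)
    (c1 := c1) (kx := kx) (hh := h + nE) (nE := nE) (gy := gy) (w := w) hK1 (by unfold AA; norm_num)
    hσ hxx hff hc1 hkx (by linarith) hnE hw hgy
  refine ⟨K, hK, fun t ht ht1 J => ?_⟩
  have P : ∀ s : ℝ, 0 < t ^ s := fun s => pw_pos ht s
  have hn := nn_ne ht nE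
  have hn2 := nn_le ht ht1 hnE
  have hsq : √(t ^ (2 * σ)) = t ^ σ := by
    rw [show (2 : ℝ) * σ = σ + σ by ring, Real.rpow_add ht, Real.sqrt_mul_self (P σ).le]
  have hH1 : 1 / Hh t h ≤ t ^ σ := by
    unfold Hh
    have h1 : 1 / (4 * t ^ (-h)) = 1 / 4 * t ^ h := by
      rw [Real.rpow_neg ht.le]
      have := (P h).ne'
      field_simp
    rw [h1]
    have := pw_le ht ht1 hσh
    have := P σ
    nlinarith
  have hH0 : 0 < 1 / Hh t h := one_div_pos.2 (Hh_pos ht h)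
  have a1 := pw_le ht ht1 hg1
  have a2 := pw_le ht ht1 hf1
  have a3 := P g1
  have a4 := P f1
  have a5 := P σ
  have hlo : t ^ σ ≤ 81 * (128 * t ^ g1 + 24 * t ^ f1 + 128 * (1 / Hh t h)) +
      170 * 1 * √(t ^ (2 * σ)) := by
    rw [hsq]
    nlinarith
  have hup : 81 * (128 * t ^ g1 + 24 * t ^ f1 + 128 * (1 / Hh t h)) +
      170 * 1 * √(t ^ (2 * σ)) ≤ AA * t ^ σ := by
    rw [hsq]
    unfold AA
    nlinarith
  have e0 : t ^ (-ff) ≤ AA * t ^ (-ff) := by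
    unfold AA
    have := P (-ff)
    nlinarith
  have hX := hm t ht ht1 (nn t nE) hn hn2
    (81 * (128 * t ^ g1 + 24 * t ^ f1 + 128 * (1 / Hh t h)) + 170 * 1 * √(t ^ (2 * σ)))
    (621432 * t ^ (-la)) (3 * t ^ (-xx)) (t ^ (-ff)) (Hh t h) (2 ^ (bn (nn t nE) + 1) * Hh t h)
    (2 ^ (bn (nn t nE) + 1) * Hh t h) (len J) hlo hup (by have := P (-la); positivity)
    (mul_le_mul_of_nonneg_right (by unfold AA; norm_num) (P _).le) (by have := P (-xx); positivity)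
    (mul_le_mul_of_nonneg_right (by unfold AA; norm_num) (P _).le) (P _).le e0 (Hh_pos ht h).le
    (Hh_le ht ht1 (by linarith)) (mul_pos (by positivity) (Hh_pos ht h)).le (HP_le ht hn hn2)
    (mul_pos (by positivity) (Hh_pos ht h)).le (HP_le ht hn hn2) (Growth.len_pos J)
  refine le_trans (le_of_eq ?_) hX
  unfold n1G
  ring

lemma hfht_eq (ht : 0 < t) (xx ff : ℝ) : t ^ (-ff) * (3 * t ^ (-xx)) = 3 * t ^ (-(ff + xx)) := by
  have : t ^ (-(ff + xx)) = t ^ (-ff) * t ^ (-xx) := by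
    rw [pw_add ht]
    congr 1
    ring
  rw [this]
  ring

/-- the threshold of the killer words -/
noncomputable def At (kc : ℕ) : ℝ := 6 * 2 ^ kc + 384 * AA ^ 2 + 384 * AA ^ 3

lemma At_ge (kc : ℕ) : 1 ≤ At kc := by
  unfold At AA
  have : (0 : ℝ) < 2 ^ kc := by positivity
  nlinarith

theorem numT {xx ff h r0x : ℝ} (hxx : 0 ≤ xx) (hff : 0 ≤ ff) (hh : xx + ff + r0x ≤ h)
    (ht : 0 < t) (ht1 : t ≤ 1) (kc : ℕ) {r0 : ℝ} (hr0 : r0 ≤ t ^ r0x) :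
    tauB kc r0 (3 * t ^ (-xx)) (t ^ (-ff)) AA (Hh t h) (Hh t h) ≤ At kc * t ^ r0x := by
  have P : ∀ s : ℝ, 0 < t ^ s := fun s => pw_pos ht s
  unfold tauB At
  rw [add_mul, add_mul]
  have hdiv : ∀ z : ℝ, z / Hh t h = z / 4 * t ^ h := by
    intro z
    unfold Hh
    rw [Real.rpow_neg ht.le]
    have := (P h).ne'
    field_simp
  have hkey : t ^ (-(ff + xx)) * t ^ h ≤ t ^ r0x := by
    rw [pw_add ht]
    exact pw_le ht ht1 (by linarith)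
  have h1 : 6 * 2 ^ kc * r0 ≤ 6 * 2 ^ kc * t ^ r0x := mul_le_mul_of_nonneg_left hr0 (by positivity)
  have h2 : 384 * (t ^ (-ff) * (3 * t ^ (-xx))) * AA ^ 2 / Hh t h ≤ 384 * AA ^ 2 * t ^ r0x := by
    rw [hfht_eq ht, hdiv]
    have h3 : 384 * (3 * t ^ (-(ff + xx))) * AA ^ 2 / 4 * t ^ h =
        288 * AA ^ 2 * (t ^ (-(ff + xx)) * t ^ h) := by ring
    rw [h3]
    refine (mul_le_mul_of_nonneg_left hkey (by unfold AA; positivity)).trans ?_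
    exact mul_le_mul_of_nonneg_right (by unfold AA; norm_num) (P _).le
  have hg : √(t ^ (-ff) * (3 * t ^ (-xx))) ≤ AA * t ^ (-(ff + xx)) := by
    refine le_trans (le_max_right 1 _) (gau_A ht ht1 (A := AA) (by unfold AA; norm_num) hxx hff
      (by have := P (-xx); positivity) (mul_le_mul_of_nonneg_right (by unfold AA; norm_num) (P _).le)
      ?_)
    have := P (-ff)
    unfold AA
    nlinarith
  have h4 : 384 * √(t ^ (-ff) * (3 * t ^ (-xx))) * AA ^ 2 / Hh t h ≤ 384 * AA ^ 3 * t ^ r0x := by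
    rw [hdiv]
    have h5 : 384 * √(t ^ (-ff) * (3 * t ^ (-xx))) * AA ^ 2 / 4 * t ^ h ≤
        384 * (AA * t ^ (-(ff + xx))) * AA ^ 2 / 4 * t ^ h := by
      refine mul_le_mul_of_nonneg_right ?_ (P _).le
      refine div_le_div_of_nonneg_right ?_ (by norm_num)
      refine mul_le_mul_of_nonneg_right ?_ (sq_nonneg _)
      exact mul_le_mul_of_nonneg_left hg (by norm_num)
    refine h5.trans ?_
    have h6 : 384 * (AA * t ^ (-(ff + xx))) * AA ^ 2 / 4 * t ^ h =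
        96 * AA ^ 3 * (t ^ (-(ff + xx)) * t ^ h) := by ring
    rw [h6]
    refine (mul_le_mul_of_nonneg_left hkey (by unfold AA; positivity)).trans ?_
    exact mul_le_mul_of_nonneg_right (by unfold AA; norm_num) (P _).le
  linarith

/-- **KILLER WORDS** -/
theorem numB {K4 la xx ff h r0x gE w : ℝ} (hK4 : 0 ≤ K4) (hxx : 0 ≤ xx) (hff : 0 ≤ ff)
    (hh : 0 ≤ h) (hr0 : 0 ≤ r0x) (hw : 0 < w) (hgE : gE + la + w ≤ r0x) (kc : ℕ) :
    ∃ K : ℝ, 0 ≤ K ∧ ∀ t, 0 < t → t ≤ 1 →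
      621432 * t ^ (-la) * eKB K4 (3 * t ^ (-xx)) (t ^ (-ff)) (Hh t h) (Hh t h) (Hh t h)
        (At kc * t ^ r0x) 1 AA 1 ≤ K * t ^ gE := by
  obtain ⟨K, hK, hm⟩ := num_Blog (A := AA) (xx := xx) (ff := ff) (hh := h) (tb := r0x) (w := w)
    (by unfold AA; norm_num) hxx hff hh hr0 hw
  refine ⟨621432 * (K4 * K * (At kc * ((AA + 1) * (1 + 1)))), ?_, fun t ht ht1 => ?_⟩
  · have := At_ge kc
    unfold AA
    positivity
  have P : ∀ s : ℝ, 0 < t ^ s := fun s => pw_pos ht s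
  have hA := At_ge kc
  have e0 : t ^ (-ff) ≤ AA * t ^ (-ff) := by
    unfold AA
    have := P (-ff)
    nlinarith
  have hX := hm t ht ht1 (At kc * t ^ r0x) (3 * t ^ (-xx)) (t ^ (-ff)) (Hh t h) (Hh t h) (Hh t h)
    (by have := P r0x; nlinarith) (by have := P (-xx); positivity)
    (mul_le_mul_of_nonneg_right (by unfold AA; norm_num) (P _).le) (P _).le e0 (Hh_pos ht h).le
    (Hh_le ht ht1 le_rfl) (Hh_pos ht h).le (Hh_le ht ht1 le_rfl) (Hh_pos ht h).le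
    (Hh_le ht ht1 le_rfl)
  unfold eKB
  rw [Real.sqrt_one]
  have hAA : (0 : ℝ) ≤ (AA + 1) * (1 + 1) := by unfold AA; norm_num
  have h1 := mul_le_mul_of_nonneg_left hX hK4
  have h2 : 0 ≤ At kc * t ^ r0x * ((AA + 1) * (1 + 1)) :=
    mul_nonneg (mul_nonneg (by linarith) (P _).le) hAA
  have h3 := mul_le_mul_of_nonneg_right h1 h2
  have h4 := mul_le_mul_of_nonneg_left h3 (show 0 ≤ 621432 * t ^ (-la) by
    have := P (-la); positivity)
  refine h4.trans ?_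
  have h5 : t ^ (-la) * (t ^ (-w) * t ^ r0x) ≤ t ^ gE := by
    rw [pw_add ht, pw_add ht]
    exact pw_le ht ht1 (by linarith)
  have h6 : 0 ≤ 621432 * (K4 * K * (At kc * ((AA + 1) * (1 + 1)))) := by
    unfold AA
    positivity
  calc 621432 * t ^ (-la) * (K4 * (K * t ^ (-w)) * (At kc * t ^ r0x * ((AA + 1) * (1 + 1)))) =
      621432 * (K4 * K * (At kc * ((AA + 1) * (1 + 1)))) * (t ^ (-la) * (t ^ (-w) * t ^ r0x)) := by
        ring
    _ ≤ _ := mul_le_mul_of_nonneg_left h5 h6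

/-- **REST WORDS** -/
theorem numR {K2 δ σ la xx ff c1 h nE gy w : ℝ} (hK2 : 0 ≤ K2) (hxx : 0 ≤ xx) (hff : 0 ≤ ff)
    (hh : 0 ≤ h) (hnE : 0 ≤ nE) (hw : 0 < w) (hδ : 2 * σ + ff ≤ δ)
    (hgy : gy + nE + la + c1 + 2 * w ≤ δ - 2 * σ - ff) :
    ∃ K : ℝ, 0 ≤ K ∧ ∀ t, 0 < t → t ≤ 1 →
      (nn t nE : ℕ) * (621432 * t ^ (-la) * eRst K2 (3 * t ^ (-xx)) (t ^ (-ff)) (t ^ δ)
        (t ^ (2 * σ)) 1 (Hh t h) (Hh t h) (Hh t h) AA AA (t ^ (δ - 2 * σ - ff))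
        (t ^ (δ - 2 * σ - ff))) ≤ K * t ^ (gy + c1) := by
  obtain ⟨K, hK, hm⟩ := num_R (K0 := K2) (A := AA) (δ := δ) (σ := σ) (la := la) (xx := xx)
    (ff := ff) (c1 := c1) (hh := h) (nE := nE) (gy := gy) (w := w) hK2 (by unfold AA; norm_num) hxx
    hff hh hw hδ hgy
  refine ⟨K, hK, fun t ht ht1 => ?_⟩
  have P : ∀ s : ℝ, 0 < t ^ s := fun s => pw_pos ht s
  have e0 : t ^ (-ff) ≤ AA * t ^ (-ff) := by
    unfold AA
    have := P (-ff)
    nlinarith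
  have e1 : 1 ≤ 3 * t ^ (-xx) := by
    have := one_le_pw ht ht1 hxx
    linarith
  have hX := hm t ht ht1 (nn t nE) (nn_le ht ht1 hnE) (621432 * t ^ (-la)) (3 * t ^ (-xx))
    (t ^ (-ff)) (Hh t h) (Hh t h) (Hh t h) (by have := P (-la); positivity)
    (mul_le_mul_of_nonneg_right (by unfold AA; norm_num) (P _).le) e1
    (mul_le_mul_of_nonneg_right (by unfold AA; norm_num) (P _).le) (P _).le e0 (Hh_pos ht h).le
    (Hh_le ht ht1 le_rfl) (Hh_pos ht h).le (Hh_le ht ht1 le_rfl) (Hh_pos ht h).le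
    (Hh_le ht ht1 le_rfl)
  refine le_trans (le_of_eq ?_) hX
  unfold eRst
  ring

end

end Crest.Agent.R079.GwNx571
end

-- ▼ part R079/GwP_571
section

/-! R079, Step I, (G) words (helper571): **THE THREE (G) TOTALS, POWERS OF `t`**.

* `untr` : a total with arbitrary letters against the total with all letters truncated;
* **`gwords_pow`** : the hypotheses `hG1`, `hG2`, `hG3` of `WdT_276.words_genD`. -/

set_option autoImplicit false

namespace Crest.Agent.R079.GwPx571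

open Finset Crest.Agent.R079.Grid Crest.Agent.R079.Glue Crest.Agent.R079.Growth
  Crest.Agent.R079.QRed Crest.Agent.R079.TWin
open Crest.Agent.R079.RelW653 (vl NMP Jv Dv)
open Crest.Agent.R079.GaTx571 (tau tau_le tau_le')
open Crest.Agent.R079.Stk Crest.Agent.R079.PFx263 Crest.Agent.R079.GaDx571
  Crest.Agent.R079.GaNx571 Crest.Agent.R079.GwNx571 Crest.Agent.R079.GaQx571
  Crest.Agent.R079.POx263 Crest.Agent.R079.T6bx252 Crest.Agent.R079.GnNx263 Crest.Agent.R079.OpS276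
open Crest.Agent.R079.AsmA844 (v4 Oth Sm)
open Crest.Agent.R079.GnMx45 (en en_nonneg)

/-- logarithms of the heights -/
lemma log_c {t h c : ℝ} (ht : 0 < t) (hc : 1 ≤ c) :
    Real.log (c * t ^ (-h)) ≤ c + Real.log (t ^ (-h)) := by
  rw [Real.log_mul (by linarith) (pw_pos ht _).ne']
  have := Real.log_le_sub_one_of_pos (show 0 < c by linarith)
  linarith

/-- **TALL PARTS**, all numbers -/
theorem numH {K6 K7 la xx ff h gE : ℝ} (hK6 : 0 ≤ K6) (hK7 : 0 ≤ K7) (hxx : 0 ≤ xx)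
    (hff : 0 ≤ ff) (hh : 0 ≤ h) (hgE : gE + la + 1 ≤ h) :
    ∃ K : ℝ, 0 ≤ K ∧ ∀ t, 0 < t → t ≤ 1 →
      2 * (K7 * (1 + (Real.log (1 + t ^ (-ff) * (3 * t ^ (-xx))) + Real.log (2 * t ^ (-h)))) *
          (621432 * t ^ (-la) / (2 * t ^ (-h))) +
        K7 * (1 + (Real.log (1 + t ^ (-ff) * (3 * t ^ (-xx))) + Real.log (2 * t ^ (-h) / 2))) *
          (621432 * t ^ (-la) / (2 * t ^ (-h) / 2))) * 2 ^ 2 +
      K6 * (1 + (Real.log (1 + t ^ (-ff) * (3 * t ^ (-xx))) + Real.log (Hh t h))) *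
        (621432 * t ^ (-la) / Hh t h) * (2 * 2 * 1) ≤ K * t ^ gE := by
  refine ⟨(24 * K7 + 4 * K6) * ((4 + (4 + (ff + xx) + h)) * 621432), by positivity,
    fun t ht ht1 => ?_⟩
  have P : ∀ s : ℝ, 0 < t ^ s := fun s => pw_pos ht s
  have hti : 1 ≤ t ^ (-1 : ℝ) := one_le_pw ht ht1 zero_le_one
  have hL0 : 0 ≤ Real.log (t ^ (-h)) := Real.log_nonneg (one_le_pw ht ht1 hh)
  have hP0 : 0 < t ^ (-ff) * (3 * t ^ (-xx)) := mul_pos (P _) (mul_pos (by norm_num) (P _))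
  have hLP : 0 ≤ Real.log (1 + t ^ (-ff) * (3 * t ^ (-xx))) := Real.log_nonneg (by linarith)
  have h1 := TKx248.log_pow (c := ff + xx) (P := t ^ (-ff) * (3 * t ^ (-xx))) ht ht1 (by linarith)
    hh hP0.le (hfht_eq ht xx ff).le
  set Lg := 1 + (Real.log (1 + t ^ (-ff) * (3 * t ^ (-xx))) + Real.log (t ^ (-h))) with hLg
  have hB : 4 + Lg ≤ (4 + (4 + (ff + xx) + h)) * t ^ (-1 : ℝ) := by nlinarith
  have hpow : t ^ (-1 : ℝ) * (t ^ (-la) * t ^ h) ≤ t ^ gE := by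
    rw [pw_add ht, pw_add ht]
    exact pw_le ht ht1 (by linarith)
  have hdiv : ∀ c : ℝ, 0 < c → 621432 * t ^ (-la) / (c * t ^ (-h)) =
      621432 / c * (t ^ (-la) * t ^ h) := by
    intro c hc
    rw [Real.rpow_neg ht.le h]
    have := (P h).ne'
    field_simp
  have hq : 0 < t ^ (-la) * t ^ h := mul_pos (P _) (P _)
  -- one term
  have term : ∀ (K c Lc : ℝ), 0 ≤ K → 1 ≤ c → Lc ≤ 4 + Lg → 0 ≤ Lc →
      K * Lc * (621432 / c * (t ^ (-la) * t ^ h)) ≤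
        K * ((4 + (4 + (ff + xx) + h)) * 621432) * t ^ gE := by
    intro K c Lc hK hc hLc hLc0
    have e1 : 621432 / c * (t ^ (-la) * t ^ h) ≤ 621432 * (t ^ (-la) * t ^ h) :=
      mul_le_mul_of_nonneg_right (div_le_self (by norm_num) hc) hq.le
    calc K * Lc * (621432 / c * (t ^ (-la) * t ^ h)) ≤
        K * ((4 + (4 + (ff + xx) + h)) * t ^ (-1 : ℝ)) * (621432 * (t ^ (-la) * t ^ h)) := by
          refine mul_le_mul (mul_le_mul_of_nonneg_left (hLc.trans hB) hK) e1 (by positivity) ?_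
          exact mul_nonneg hK (le_trans (by linarith) hB)
      _ = K * ((4 + (4 + (ff + xx) + h)) * 621432) * (t ^ (-1 : ℝ) * (t ^ (-la) * t ^ h)) := by ring
      _ ≤ _ := mul_le_mul_of_nonneg_left hpow (by positivity)
  have l1 := log_c (h := h) ht (c := 2) (by norm_num)
  have l3 := log_c (h := h) ht (c := 4) (by norm_num)
  have p1 : 0 ≤ Real.log (2 * t ^ (-h)) := Real.log_nonneg (by
    have := one_le_pw ht ht1 hh
    linarith)
  have p3 : 0 ≤ Real.log (4 * t ^ (-h)) := Real.log_nonneg (by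
    have := one_le_pw ht ht1 hh
    linarith)
  have e2 : 2 * t ^ (-h) / 2 = 1 * t ^ (-h) := by ring
  rw [e2]
  unfold Hh
  rw [hdiv 2 (by norm_num), hdiv 1 one_pos, hdiv 4 (by norm_num), one_mul]
  have t1 := term K7 2 (1 + (Real.log (1 + t ^ (-ff) * (3 * t ^ (-xx))) +
    Real.log (2 * t ^ (-h)))) hK7 (by norm_num) (by linarith) (by linarith)
  have t2 := term K7 1 (1 + (Real.log (1 + t ^ (-ff) * (3 * t ^ (-xx))) +
    Real.log (t ^ (-h)))) hK7 le_rfl (by linarith) (by linarith)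
  have t3 := term K6 4 (1 + (Real.log (1 + t ^ (-ff) * (3 * t ^ (-xx))) +
    Real.log (4 * t ^ (-h)))) hK6 (by norm_num) (by linarith) (by linarith)
  have hK7' : 0 ≤ K7 * ((4 + (4 + (ff + xx) + h)) * 621432) * t ^ gE := by
    have := P gE
    positivity
  nlinarith

/-- **untruncation** -/
theorem untr : ∃ K6 K7 : ℝ, 0 ≤ K6 ∧ 0 ≤ K7 ∧ ∀ (i m e1 e2 : Fin 4), Dst4 i m e1 e2 →
    ∀ {bb : ℤ} {ε : ℕ → ℤ → ℂ}, Adm bb ε → ∀ (R0 : Finset Nd) (I0 : Nd), Full R0 I0 →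
    ∀ (F : Fin 4 → Fn) (Ht Hf La H : ℝ), 0 < Ht → 0 < Hf → 0 ≤ La → 2 ≤ H →
    Rc i m e1 e2 I0 Ht Hf La (F i) → (∀ p ∈ R0, av p (F m) ≤ 1) → ∀ x y : Fin 4, Oth i m x y →
    ∀ (S : Finset Nd) (W : Nd → Finset Nd), (∀ K ∈ S, Full (W K) K ∧ W K ⊆ R0) →
    ∀ X Y : Nd → Fn,
    (∀ K ∈ S, ∀ p ∈ W K, av p (X K) ≤ 2) → (∀ K ∈ S, ∀ p ∈ W K, av p (Y K) ≤ 2) →
    ‖∑ K ∈ S, ∑ p ∈ W K, v4 bb ε F x y (X K) (Y K) p‖ ≤
      ‖∑ K ∈ S, ∑ p ∈ W K, v4 bb ε (Function.update F m (fun z => tau (H * 2) (F m z))) x y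
        (fun z => tau (H * 2) (X K z)) (fun z => tau (H * 2) (Y K z)) p‖ +
      (2 * (K7 * (1 + (Real.log (1 + Hf * Ht) + Real.log H)) * (La / H) +
        K7 * (1 + (Real.log (1 + Hf * Ht) + Real.log (H / 2))) * (La / (H / 2))) * 2 ^ 2 +
      K6 * (1 + (Real.log (1 + Hf * Ht) + Real.log (H * 2))) * (La / (H * 2)) * (2 * 2 * 1)) *
        ∑ K ∈ S, len K := by
  obtain ⟨K6, hK6, hM⟩ := TauMx253.word_tauM
  obtain ⟨K7, hK7, hT⟩ := TKx248.tallW_of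
  refine ⟨K6, K7, hK6, hK7, ?_⟩
  intro i m e1 e2 hd bb ε hA R0 I0 hR0 F Ht Hf La H hHt hHf hLa hH hF hFm x y hO S W hS X Y hX hY
  have hH0 : 0 < H := by linarith
  have hT1 := hT i m e1 e2 hd hA R0 I0 hR0 F Ht Hf La H hHt hHf (by linarith) hF hFm x y hO
  have hT2 := hT i m e1 e2 hd hA R0 I0 hR0 F Ht Hf La (H / 2) hHt hHf (by linarith) hF hFm x y hO
  have a1 := TauWx253.word_tau (GenT934.bil_v4 bb ε F hO.ab) hH0 hT1 hT2 (a := 2) (by norm_num) S W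
    hS X Y hX hY
  have hH2 : 0 ≤ H * 2 := by linarith
  have a2 := hM i m e1 e2 hd hA R0 I0 I0 hR0 (Finset.Subset.refl _) F Ht Hf La (H * 2) hHt hHf hLa
    (by linarith) hF x y hO 1 one_pos hFm S W hS 2 2 (by norm_num) (by norm_num)
    (fun K z => tau (H * 2) (X K z)) (fun K z => tau (H * 2) (Y K z))
    (fun K hK p hp => (TauWx253.av_tau hH2 (X K)).trans (hX K hK p hp))
    (fun K hK p hp => (TauWx253.av_tau hH2 (Y K)).trans (hY K hK p hp))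
  rw [mul_one] at a2
  refine a1.trans ((add_le_add a2 le_rfl).trans (le_of_eq ?_))
  ring

/-- sum of the four parts -/
theorem fin4 {t gy eC c1 A SL L KG KB KR KH Kc a b c d : ℝ} {n : ℕ} (ht : 0 < t)
    (hKG : 0 ≤ KG) (hKB : 0 ≤ KB) (hKR : 0 ≤ KR) (hKH : 0 ≤ KH) {A' : ℝ}
    (hA'0 : 0 ≤ A') (hA' : A' ≤ A) (hL : 0 ≤ L) (hLA : t ^ c1 * L ≤ A) (hSL0 : 0 ≤ SL)
    (hSL : SL ≤ Kc * t ^ (-eC) * A) (ha : a ≤ KG * t ^ gy) (hb : b ≤ KB * t ^ (gy + eC))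
    (hc : n * c ≤ KR * t ^ (gy + c1)) (hd : d ≤ KH * t ^ (gy + eC)) :
    a * A' + (b * SL + n * (c * L)) + d * SL ≤ (KG + KB * Kc + KR + KH * Kc) * t ^ gy * A := by
  have P : ∀ s : ℝ, 0 < t ^ s := fun s => pw_pos ht s
  have e1 : t ^ (gy + eC) * t ^ (-eC) = t ^ gy := by
    rw [pw_add ht]
    congr 1
    ring
  have e2 : t ^ (gy + c1) = t ^ gy * t ^ c1 := (pw_add ht _ _).symm
  have h1 : a * A' ≤ KG * t ^ gy * A :=
    mul_le_mul ha hA' hA'0 (mul_nonneg hKG (P _).le)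
  have h2 : ∀ {K z : ℝ}, 0 ≤ K → z ≤ K * t ^ (gy + eC) → z * SL ≤ K * Kc * t ^ gy * A := by
    intro K z hK hz
    calc z * SL ≤ K * t ^ (gy + eC) * SL := mul_le_mul_of_nonneg_right hz hSL0
      _ ≤ K * t ^ (gy + eC) * (Kc * t ^ (-eC) * A) :=
        mul_le_mul_of_nonneg_left hSL (mul_nonneg hK (P _).le)
      _ = K * Kc * (t ^ (gy + eC) * t ^ (-eC)) * A := by ring
      _ = _ := by rw [e1]
  have h3 : n * (c * L) ≤ KR * t ^ gy * A := by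
    calc n * (c * L) = n * c * L := by ring
      _ ≤ KR * t ^ (gy + c1) * L := mul_le_mul_of_nonneg_right hc hL
      _ = KR * t ^ gy * (t ^ c1 * L) := by rw [e2]; ring
      _ ≤ _ := mul_le_mul_of_nonneg_left hLA (mul_nonneg hKR (P _).le)
  have h4 := h2 hKB hb
  have h5 := h2 hKH hd
  calc _ ≤ KG * t ^ gy * A + (KB * Kc * t ^ gy * A + KR * t ^ gy * A) + KH * Kc * t ^ gy * A :=
        add_le_add (add_le_add h1 (add_le_add h4 h3)) h5
    _ = _ := by ring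

section main

variable {P : WS112.Prm} {i m e1 e2 : Fin 4} {k cl la xx ff σ c1 kx nE eC gy r0x w : ℝ}

/-- the inequalities between the exponents -/
structure Nm (P : WS112.Prm) (m : Fin 4) (k la xx ff σ c1 kx nE eC gy r0x w : ℝ) : Prop where
  k0 : 0 < k
  la0 : 0 ≤ la
  xx0 : 0 ≤ xx
  ff0 : 0 ≤ ff
  σ0 : 0 ≤ σ
  c10 : 0 ≤ c1
  kx0 : 0 ≤ kx
  nE0 : 0 ≤ nE
  eC0 : 0 ≤ eC
  r00 : 0 ≤ r0x
  w0 : 0 < w
  gy0 : 0 ≤ gy
  σg : σ ≤ P.θ * P.g m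
  σf : σ ≤ P.θ * P.f m
  good : gy + la + 3 * w ≤ σ + kx / 2
  kill : gy + eC + la + w ≤ r0x
  rest : gy + nE + la + c1 + 2 * w ≤ P.θ * P.x m - 2 * σ - ff

lemma av_one (hk : 0 < k) {R : Finset Nd} {X Y : Fn} (h : Sm k 1 R X Y) :
    (∀ p ∈ R, av p X ≤ 1) ∧ ∀ p ∈ R, av p Y ≤ 1 :=
  ⟨fun p hp => (TRec.TAsm398.av_le_aq (by linarith) p X).trans (h p hp).1,
    fun p hp => (TRec.TAsm398.av_le_aq (by linarith) p Y).trans (h p hp).2⟩

/-- **STATIC TOTAL** -/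
theorem pow_static (hP : WS0112.Ok0 P) (hd : Dst4 i m e1 e2) (hm3 : m ≠ 3)
    (hn : Nm P m k la xx ff σ c1 kx nE eC gy r0x w) (kc : ℕ) {Kc : ℝ} (hKc : 0 ≤ Kc) :
    ∃ K : ℝ, 0 ≤ K ∧ ∀ t, 0 < t → t ≤ 1 → ∀ (W : Finset Nd) (I : Nd) (F : Fin 4 → Fn),
      PRc (WS0112.DF0 P) k 1 cl t (621432 * t ^ (-la)) (3 * t ^ (-xx)) (t ^ (-ff)) W I i m e1 e2 F →
      ∀ x y : Fin 4, Oth i m x y → ∀ bb ε, Adm bb ε → ∀ R J, Full R J → R ⊆ W → ∀ X Y,
      Sm k 1 R X Y → ∀ (v : Fin 3) (N : ℕ) (T : Fin N → Fin 3 → Finset ℤ)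
      (g : Fin N → Fin 3 → ℤ → ℤ → ℂ) (θ : Fin N → ℤ → ℝ) (μ : Fin N → ℝ),
      Fam i m v I (3 * t ^ (-xx)) (t ^ (-ff)) (621432 * t ^ (-la)) N (F i) T g θ μ →
      ∀ e e' : Fin 3, e ≠ e' → e ≠ v + 1 → e' ≠ v + 1 → x = i.succAbove (e + 2) →
      y = i.succAbove (e' + 2) → ∀ Kl : ℕ, 0 < Kl → ∀ r : ℕ → ℝ, (∀ q, 0 ≤ r q) →
      r 0 ≤ t ^ r0x → ∀ (η : ℝ) (f : Nd → Fn),
      NMP (fun _ _ => True) (PhiE i e T g μ I (621432 * t ^ (-la)) (t ^ (-kx)) kc Kl r) X η f →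
      η ≤ 1 / 2 → η * (2 * (nn t nE : ℕ) + 1) ≤ t ^ c1 →
      ∀ (S : Finset Nd) (W' : Nd → Finset Nd) (C : ℝ), TWin.Part R S W' C →
      ∑ K ∈ S, len K ≤ Kc * t ^ (-eC) * ((t ^ c1 + en J X Y) * len J) →
      ‖∑ K ∈ S.filter (fun K => idx S K ≤ nn t nE), ∑ p ∈ W' K, v4 bb ε F x y (gl (W' K) f) Y p‖ ≤
        K * t ^ gy * ((t ^ c1 + en J X Y) * len J) := by
  obtain ⟨K1, K2, K4, hK1, hK2, hK4, hcore⟩ := core_static
  obtain ⟨K6, K7, hK6, hK7, hun⟩ := untr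
  set h : ℝ := xx + ff + r0x + la + 1 + eC + gy + σ with hh
  have hk := hn.k0
  have hla := hn.la0
  have hxx := hn.xx0
  have hff := hn.ff0
  have hσ := hn.σ0
  have hc1 := hn.c10
  have hkx := hn.kx0
  have hnE := hn.nE0
  have heC := hn.eC0
  have hr00 := hn.r00
  have hw := hn.w0
  have hgy := hn.gy0
  have hσg := hn.σg
  have hσf := hn.σf
  have hngood := hn.good
  have hnkill := hn.kill
  have hnrest := hn.rest
  obtain ⟨KG, hKG, hG⟩ := numG (K1 := K1) (σ := σ) (la := la) (xx := xx) (ff := ff) (c1 := c1)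
    (kx := kx) (h := h) (nE := nE) (gy := gy) (w := w) (g1 := 1 * (P.θ * P.g m))
    (f1 := 1 * (P.θ * P.f m)) hK1 hσ (by linarith) (by linarith) (by linarith) hxx hff hc1 hkx hnE
    hw hngood
  obtain ⟨KB, hKB, hB⟩ := numB (K4 := K4) (la := la) (xx := xx) (ff := ff) (h := h) (r0x := r0x)
    (gE := gy + eC) (w := w) hK4 hxx hff (by linarith) hr00 hw (by linarith) kc
  obtain ⟨KR, hKR, hR⟩ := numR (K2 := K2) (δ := 1 * (P.θ * P.x m)) (σ := σ) (la := la) (xx := xx)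
    (ff := ff) (c1 := c1) (h := h) (nE := nE) (gy := gy) (w := w) hK2 hxx hff (by linarith) hnE hw
    (by linarith) (by linarith)
  obtain ⟨KH, hKH, hH⟩ := numH (K6 := K6) (K7 := K7) (la := la) (xx := xx) (ff := ff) (h := h)
    (gE := gy + eC) hK6 hK7 hxx hff (by linarith) (by linarith)
  refine ⟨KG + KB * Kc + KR + KH * Kc, by positivity, ?_⟩
  intro t ht ht1 W I F hPR x y hO bb ε hA R J hRF hRW X Y hXY v N T g θ μ hFam e e' hee he he' hx hy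
    Kl hKl r hr hr0 η f hN hη hηn S W' C hPt hcnt
  have Pw : ∀ s : ℝ, 0 < t ^ s := fun s => pw_pos ht s
  obtain ⟨hX, hY⟩ := av_one hk hXY
  have hF1 := hPR.avR hk.le
  have hJI : iv J ⊆ iv I := hPR.full.reg.1 J (hRW hRF.top)
  have hLa : 0 < 621432 * t ^ (-la) := mul_pos (by norm_num) (Pw _)
  have hHt : 1 ≤ 3 * t ^ (-xx) := by
    have := one_le_pw ht ht1 hxx
    linarith
  have hHf : 0 < t ^ (-ff) := Pw _
  have hkap : 0 < t ^ (-kx) := Pw _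
  have hth : 1 ≤ t ^ (-h) := one_le_pw ht ht1 (by linarith)
  have hHh : 0 < Hh t h := Hh_pos ht h
  have hpen := penPhi hFam e hkap.le hLa kc Kl hr
  have hpen' := hpen
  rw [phi_eq] at hpen'
  have hN' := hN
  rw [phi_eq] at hN'
  have hsub : ∀ K ∈ S.filter (fun K => idx S K ≤ nn t nE), Full (W' K) K ∧ W' K ⊆ R := by
    intro K hK
    have hKS := (Finset.mem_filter.1 hK).1
    exact ⟨hPt.full K hKS, hPt.wsub K hKS⟩
  have hmi : m ≠ i := hd.jk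
  have e0 : (2 * t ^ (-h)) * 2 = Hh t h := by
    unfold Hh
    ring
  -- untruncation
  have u1 := hun i m e1 e2 hd hA W I hPR.full F (3 * t ^ (-xx)) (t ^ (-ff)) (621432 * t ^ (-la))
    (2 * t ^ (-h)) (by linarith) hHf hLa.le (by linarith) hPR.mix hF1 x y hO
    (S.filter (fun K => idx S K ≤ nn t nE)) W'
    (fun K hK => ⟨(hsub K hK).1, (hsub K hK).2.trans hRW⟩) (fun K => gl (W' K) f) (fun _ => Y)
    (fun K hK p hp => B0Nx253.av_gl_win hpen' hN' (hsub K hK).1 (hsub K hK).2 hX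
      (sqrt_A le_rfl hη) hp)
    (fun K hK p hp => (hY p ((hsub K hK).2 hp)).trans (by norm_num))
  rw [e0] at u1
  -- the core
  set F' : Fin 4 → Fn := Function.update F m (fun z => tau (Hh t h) (F m z)) with hF'
  have hF'i : F' i = F i := by rw [hF', Function.update_of_ne hmi.symm]
  have hF'm : F' m = fun z => tau (Hh t h) (F m z) := by rw [hF', Function.update_self]
  have hEx : ∀ l, GaIx256.ExE i (v + 1) R (T l) (g l) (F' m)
      (128 * t ^ (1 * (P.θ * P.g m)) + 24 * t ^ (1 * (P.θ * P.f m)) + 128 * (1 / Hh t h))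
      (t ^ (1 * (P.θ * P.x m))) := by
    intro l
    rw [hF'm]
    exact GaMx446.exE_prc hP hd hk.le hm3 zero_le_one ht ht1 hPR hRW hFam.vm (hFam.opD l) hHh
  have hs0 : 0 ≤ 128 * t ^ (1 * (P.θ * P.g m)) + 24 * t ^ (1 * (P.θ * P.f m)) +
      128 * (1 / Hh t h) := by
    have a1 := Pw (1 * (P.θ * P.g m))
    have a2 := Pw (1 * (P.θ * P.f m))
    have a3 := one_div_pos.2 hHh
    positivity
  have hAA : (2 : ℝ) ≤ AA := by unfold AA; norm_num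
  have u2 := hcore hA.1 hFam hHt hHf.le hLa hRF hJI hPt (F := F')
    (s := 128 * t ^ (1 * (P.θ * P.g m)) + 24 * t ^ (1 * (P.θ * P.f m)) + 128 * (1 / Hh t h))
    (ε := t ^ (2 * σ)) (D := t ^ (1 * (P.θ * P.x m))) (Hh := Hh t h)
    (dd := t ^ (1 * (P.θ * P.x m) - 2 * σ - ff)) (τ := At kc * t ^ r0x) (A0 := AA) hF'i hs0 (Pw _)
    (Pw _).le hHh (Pw _) hAA
    (fun p hp => by
      rw [hF'm]
      exact (TauWx253.av_tau hHh.le (F m)).trans (hF1 p (hRW hp)))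
    (fun z => by
      rw [hF'm]
      exact tau_le hHh.le (F m z)) hEx hee he he' hkap hKl hr hN hX hη
    (numT hxx hff (by linarith) ht ht1 kc hr0)
    (mul_pos (by have := At_ge kc; linarith) (Pw _)) (m0 := t ^ c1) (Pw _) hηn hA.2
    (Y := fun z => tau (Hh t h) (Y z)) (fun z => tau_le hHh.le (Y z))
    (fun p hp => ((TauWx253.av_tau hHh.le Y).trans (hY p hp)).trans (by linarith))
  rw [← hx, ← hy] at u2
  -- numbers
  have hl := Growth.len_pos J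
  have hen' : en J X (fun z => tau (Hh t h) (Y z)) ≤ en J X Y := by
    unfold en
    have := pow_le_pow_left₀ (Growth.av_nonneg J _) (TauWx253.av_tau (p := J) hHh.le Y) 2
    linarith
  have hen := en_nonneg J X Y
  have hen0 := en_nonneg J X (fun z => tau (Hh t h) (Y z))
  have hT0 := Pw c1
  have hSL0 : 0 ≤ ∑ K ∈ S.filter (fun K => idx S K ≤ nn t nE), len K :=
    Finset.sum_nonneg fun q _ => (Growth.len_pos q).le
  have hSL : ∑ K ∈ S.filter (fun K => idx S K ≤ nn t nE), len K ≤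
      Kc * t ^ (-eC) * ((t ^ c1 + en J X Y) * len J) :=
    (Finset.sum_le_sum_of_subset_of_nonneg (Finset.filter_subset _ _)
      fun q _ _ => (Growth.len_pos q).le).trans hcnt
  have fin := fin4 (n := nn t nE) (gy := gy) (eC := eC) (c1 := c1) ht hKG hKB hKR hKH
    (A' := (t ^ c1 + en J X (fun z => tau (Hh t h) (Y z))) * len J)
    (mul_nonneg (by linarith) hl.le) (mul_le_mul_of_nonneg_right (by linarith) hl.le) hl.le
    (mul_le_mul_of_nonneg_right (by linarith) hl.le) hSL0 hSL (hG t ht ht1 J) (hB t ht ht1)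
    (hR t ht ht1) (hH t ht ht1)
  exact (u1.trans (add_le_add u2 le_rfl)).trans fin

end main

end Crest.Agent.R079.GwPx571
end

-- ▼ part R079/GwQ_571
section

/-! R079, Step I, (G) words (helper571): **THE THREE (G) TOTALS, POWERS OF `t`** (end).

* `pow_moving`; **`gwords_pow`** : the hypotheses `hG1`, `hG2`, `hG3` of `WdT_276.words_genD`;
* `gwords_PF` : the final parameters of `NP_112`. -/

set_option autoImplicit false

namespace Crest.Agent.R079.GwQx571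

open Finset Crest.Agent.R079.Grid Crest.Agent.R079.Glue Crest.Agent.R079.Growth
  Crest.Agent.R079.QRed Crest.Agent.R079.TWin
open Crest.Agent.R079.RelW653 (vl NMP Jv Dv)
open Crest.Agent.R079.GaTx571 (tau tau_le tau_le')
open Crest.Agent.R079.Stk Crest.Agent.R079.PFx263 Crest.Agent.R079.GaDx571
  Crest.Agent.R079.GaNx571 Crest.Agent.R079.GwNx571 Crest.Agent.R079.GaQx571
  Crest.Agent.R079.POx263 Crest.Agent.R079.T6bx252 Crest.Agent.R079.GnNx263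
  Crest.Agent.R079.OpS276 Crest.Agent.R079.GwPx571
open Crest.Agent.R079.AsmA844 (v4 Oth Sm)
open Crest.Agent.R079.GnMx45 (en en_nonneg)

section main

variable {P : WS112.Prm} {i m e1 e2 : Fin 4} {k cl la xx ff σ c1 kx nE eC gy r0x w : ℝ}

/-- **MOVING TOTAL** -/
theorem pow_moving (hP : WS0112.Ok0 P) (hd : Dst4 i m e1 e2) (hm3 : m ≠ 3)
    (hn : Nm P m k la xx ff σ c1 kx nE eC gy r0x w) (kc : ℕ) {Kc : ℝ} (hKc : 0 ≤ Kc) :
    ∃ K : ℝ, 0 ≤ K ∧ ∀ t, 0 < t → t ≤ 1 → ∀ (W : Finset Nd) (I : Nd) (F : Fin 4 → Fn),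
      PRc (WS0112.DF0 P) k 1 cl t (621432 * t ^ (-la)) (3 * t ^ (-xx)) (t ^ (-ff)) W I i m e1 e2 F →
      ∀ x y : Fin 4, Oth i m x y → ∀ bb ε, Adm bb ε → ∀ R J, Full R J → R ⊆ W → ∀ X Y,
      Sm k 1 R X Y → ∀ (v : Fin 3) (N : ℕ) (T : Fin N → Fin 3 → Finset ℤ)
      (g : Fin N → Fin 3 → ℤ → ℤ → ℂ) (θ : Fin N → ℤ → ℝ) (μ : Fin N → ℝ),
      Fam i m v I (3 * t ^ (-xx)) (t ^ (-ff)) (621432 * t ^ (-la)) N (F i) T g θ μ →
      ∀ e e' : Fin 3, e ≠ e' → e ≠ v + 1 → e' ≠ v + 1 → x = i.succAbove (e + 2) →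
      y = i.succAbove (e' + 2) → ∀ Kl : ℕ, 0 < Kl → ∀ r : ℕ → ℝ, (∀ q, 0 ≤ r q) →
      r 0 ≤ t ^ r0x → ∀ (η : ℝ) (f : Nd → Fn),
      NMP (fun _ _ => True) (PhiE i e T g μ I (621432 * t ^ (-la)) (t ^ (-kx)) kc Kl r) X η f →
      η ≤ 1 / 2 → η * (2 * (nn t nE : ℕ) + 1) ≤ t ^ c1 → ∀ f' : Nd → Fn,
      NMP (fun _ _ => True) (PhiE i e' T g μ I (621432 * t ^ (-la)) (t ^ (-kx)) kc Kl r) Y η f' →
      ∀ (S : Finset Nd) (W' : Nd → Finset Nd) (C : ℝ), TWin.Part R S W' C →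
      ∑ K ∈ S, len K ≤ Kc * t ^ (-eC) * ((t ^ c1 + en J X Y) * len J) →
      ‖∑ K ∈ S.filter (fun K => idx S K ≤ nn t nE), ∑ p ∈ W' K, v4 bb ε F x y (gl (W' K) f)
        (gl (W' K) f') p‖ ≤
        K * t ^ gy * ((t ^ c1 + en J X Y) * len J) := by
  obtain ⟨K1, K2, K4, hK1, hK2, hK4, hcore⟩ := core_moving
  obtain ⟨K6, K7, hK6, hK7, hun⟩ := untr
  set h : ℝ := xx + ff + r0x + la + 1 + eC + gy + σ with hh
  have hk := hn.k0
  have hla := hn.la0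
  have hxx := hn.xx0
  have hff := hn.ff0
  have hσ := hn.σ0
  have hc1 := hn.c10
  have hkx := hn.kx0
  have hnE := hn.nE0
  have heC := hn.eC0
  have hr00 := hn.r00
  have hw := hn.w0
  have hgy := hn.gy0
  have hσg := hn.σg
  have hσf := hn.σf
  have hngood := hn.good
  have hnkill := hn.kill
  have hnrest := hn.rest
  obtain ⟨KG, hKG, hG⟩ := numG (K1 := K1) (σ := σ) (la := la) (xx := xx) (ff := ff) (c1 := c1)
    (kx := kx) (h := h) (nE := nE) (gy := gy) (w := w) (g1 := 1 * (P.θ * P.g m))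
    (f1 := 1 * (P.θ * P.f m)) hK1 hσ (by linarith) (by linarith) (by linarith) hxx hff hc1 hkx hnE
    hw hngood
  obtain ⟨KB, hKB, hB⟩ := numB (K4 := K4) (la := la) (xx := xx) (ff := ff) (h := h) (r0x := r0x)
    (gE := gy + eC) (w := w) hK4 hxx hff (by linarith) hr00 hw (by linarith) kc
  obtain ⟨KR, hKR, hR⟩ := numR (K2 := K2) (δ := 1 * (P.θ * P.x m)) (σ := σ) (la := la) (xx := xx)
    (ff := ff) (c1 := c1) (h := h) (nE := nE) (gy := gy) (w := w) hK2 hxx hff (by linarith) hnE hw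
    (by linarith) (by linarith)
  obtain ⟨KH, hKH, hH⟩ := numH (K6 := K6) (K7 := K7) (la := la) (xx := xx) (ff := ff) (h := h)
    (gE := gy + eC) hK6 hK7 hxx hff (by linarith) (by linarith)
  refine ⟨KG + KB * Kc + KR + KH * Kc, by positivity, ?_⟩
  intro t ht ht1 W I F hPR x y hO bb ε hA R J hRF hRW X Y hXY v N T g θ μ hFam e e' hee he he' hx hy
    Kl hKl r hr hr0 η f hN hη hηn f' hNY S W' C hPt hcnt
  have Pw : ∀ s : ℝ, 0 < t ^ s := fun s => pw_pos ht s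
  obtain ⟨hX, hY⟩ := av_one hk hXY
  have hF1 := hPR.avR hk.le
  have hJI : iv J ⊆ iv I := hPR.full.reg.1 J (hRW hRF.top)
  have hLa : 0 < 621432 * t ^ (-la) := mul_pos (by norm_num) (Pw _)
  have hHt : 1 ≤ 3 * t ^ (-xx) := by
    have := one_le_pw ht ht1 hxx
    linarith
  have hHf : 0 < t ^ (-ff) := Pw _
  have hkap : 0 < t ^ (-kx) := Pw _
  have hth : 1 ≤ t ^ (-h) := one_le_pw ht ht1 (by linarith)
  have hHh : 0 < Hh t h := Hh_pos ht h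
  have hpen := penPhi hFam e hkap.le hLa kc Kl hr
  have hpen' := hpen
  rw [phi_eq] at hpen'
  have hN' := hN
  rw [phi_eq] at hN'
  have hpenY := penPhi hFam e' hkap.le hLa kc Kl hr
  rw [phi_eq] at hpenY
  have hNY' := hNY
  rw [phi_eq] at hNY'
  have hsub : ∀ K ∈ S.filter (fun K => idx S K ≤ nn t nE), Full (W' K) K ∧ W' K ⊆ R := by
    intro K hK
    have hKS := (Finset.mem_filter.1 hK).1
    exact ⟨hPt.full K hKS, hPt.wsub K hKS⟩
  have hmi : m ≠ i := hd.jk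
  have e0 : (2 * t ^ (-h)) * 2 = Hh t h := by
    unfold Hh
    ring
  -- untruncation
  have u1 := hun i m e1 e2 hd hA W I hPR.full F (3 * t ^ (-xx)) (t ^ (-ff)) (621432 * t ^ (-la))
    (2 * t ^ (-h)) (by linarith) hHf hLa.le (by linarith) hPR.mix hF1 x y hO
    (S.filter (fun K => idx S K ≤ nn t nE)) W'
    (fun K hK => ⟨(hsub K hK).1, (hsub K hK).2.trans hRW⟩) (fun K => gl (W' K) f) (fun K => gl (W' K) f')
    (fun K hK p hp => B0Nx253.av_gl_win hpen' hN' (hsub K hK).1 (hsub K hK).2 hX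
      (sqrt_A le_rfl hη) hp)
    (fun K hK p hp => B0Nx253.av_gl_win hpenY hNY' (hsub K hK).1 (hsub K hK).2 hY
      (sqrt_A le_rfl hη) hp)
  rw [e0] at u1
  -- the core
  set F' : Fin 4 → Fn := Function.update F m (fun z => tau (Hh t h) (F m z)) with hF'
  have hF'i : F' i = F i := by rw [hF', Function.update_of_ne hmi.symm]
  have hF'm : F' m = fun z => tau (Hh t h) (F m z) := by rw [hF', Function.update_self]
  have hEx : ∀ l, GaIx256.ExE i (v + 1) R (T l) (g l) (F' m)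
      (128 * t ^ (1 * (P.θ * P.g m)) + 24 * t ^ (1 * (P.θ * P.f m)) + 128 * (1 / Hh t h))
      (t ^ (1 * (P.θ * P.x m))) := by
    intro l
    rw [hF'm]
    exact GaMx446.exE_prc hP hd hk.le hm3 zero_le_one ht ht1 hPR hRW hFam.vm (hFam.opD l) hHh
  have hs0 : 0 ≤ 128 * t ^ (1 * (P.θ * P.g m)) + 24 * t ^ (1 * (P.θ * P.f m)) +
      128 * (1 / Hh t h) := by
    have a1 := Pw (1 * (P.θ * P.g m))
    have a2 := Pw (1 * (P.θ * P.f m))
    have a3 := one_div_pos.2 hHh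
    positivity
  have hAA : (2 : ℝ) ≤ AA := by unfold AA; norm_num
  have u2 := hcore hA.1 hFam hHt hHf.le hLa hRF hJI hPt (F := F')
    (s := 128 * t ^ (1 * (P.θ * P.g m)) + 24 * t ^ (1 * (P.θ * P.f m)) + 128 * (1 / Hh t h))
    (ε := t ^ (2 * σ)) (D := t ^ (1 * (P.θ * P.x m))) (Hh := Hh t h)
    (dd := t ^ (1 * (P.θ * P.x m) - 2 * σ - ff)) (τ := At kc * t ^ r0x) (A0 := AA) hF'i hs0 (Pw _)
    (Pw _).le hHh (Pw _) hAA
    (fun p hp => by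
      rw [hF'm]
      exact (TauWx253.av_tau hHh.le (F m)).trans (hF1 p (hRW hp)))
    (fun z => by
      rw [hF'm]
      exact tau_le hHh.le (F m z)) hEx hee he he' hkap hKl hr hN hX hη
    (numT hxx hff (by linarith) ht ht1 kc hr0)
    (mul_pos (by have := At_ge kc; linarith) (Pw _)) (m0 := t ^ c1) (Pw _) hηn hA.2 hNY hY
  rw [← hx, ← hy] at u2
  -- numbers
  have hl := Growth.len_pos J
  have hen := en_nonneg J X Y
  have hT0 := Pw c1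
  have hSL0 : 0 ≤ ∑ K ∈ S.filter (fun K => idx S K ≤ nn t nE), len K :=
    Finset.sum_nonneg fun q _ => (Growth.len_pos q).le
  have hSL : ∑ K ∈ S.filter (fun K => idx S K ≤ nn t nE), len K ≤
      Kc * t ^ (-eC) * ((t ^ c1 + en J X Y) * len J) :=
    (Finset.sum_le_sum_of_subset_of_nonneg (Finset.filter_subset _ _)
      fun q _ _ => (Growth.len_pos q).le).trans hcnt
  have fin := fin4 (n := nn t nE) (gy := gy) (eC := eC) (c1 := c1) ht hKG hKB hKR hKH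
    (A' := (t ^ c1 + en J X Y) * len J) (mul_nonneg (by linarith) hl.le) le_rfl hl.le
    (mul_le_mul_of_nonneg_right (by linarith) hl.le) hSL0 hSL (hG t ht ht1 J) (hB t ht ht1)
    (hR t ht ht1) (hH t ht ht1)
  exact (u1.trans (add_le_add u2 le_rfl)).trans fin


/-- exchange of the two moving slots -/
lemma v4_comm (bb : ℤ) (ε : ℕ → ℤ → ℂ) (F : Fin 4 → Fn) {x y : Fin 4} (h : x ≠ y) (X Y : Fn) :
    v4 bb ε F x y X Y = v4 bb ε F y x Y X := by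
  funext p
  unfold AsmA844.v4
  rw [Function.update_comm h]

lemma en_comm (J : Nd) (X Y : Fn) : en J X Y = en J Y X := by
  unfold GnMx45.en
  ring

/-- **THE THREE (G) TOTALS** = `hG1`, `hG2`, `hG3` of `WdT_276.words_genD` -/
theorem gwords_pow (hP : WS0112.Ok0 P) (hd : Dst4 i m e1 e2) (hm3 : m ≠ 3)
    (hn : Nm P m k la xx ff σ c1 kx nE eC gy r0x w) (kc : ℕ) {Kc : ℝ} (hKc : 0 ≤ Kc) :
    ∃ K : ℝ, 0 ≤ K ∧ ∀ t, 0 < t → t ≤ 1 → ∀ (W : Finset Nd) (I : Nd) (F : Fin 4 → Fn),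
      PRc (WS0112.DF0 P) k 1 cl t (621432 * t ^ (-la)) (3 * t ^ (-xx)) (t ^ (-ff)) W I i m e1 e2 F →
      ∀ x y : Fin 4, Oth i m x y → ∀ bb ε, Adm bb ε → ∀ R J, Full R J → R ⊆ W → ∀ X Y,
      Sm k 1 R X Y → ∀ (v : Fin 3) (N : ℕ) (T : Fin N → Fin 3 → Finset ℤ)
      (g : Fin N → Fin 3 → ℤ → ℤ → ℂ) (θ : Fin N → ℤ → ℝ) (μ : Fin N → ℝ),
      Fam i m v I (3 * t ^ (-xx)) (t ^ (-ff)) (621432 * t ^ (-la)) N (F i) T g θ μ →
      ∀ e e' : Fin 3, e ≠ e' → e ≠ v + 1 → e' ≠ v + 1 → x = i.succAbove (e + 2) →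
      y = i.succAbove (e' + 2) → ∀ Kl : ℕ, 0 < Kl → ∀ r : ℕ → ℝ, (∀ q, 0 ≤ r q) →
      r 0 ≤ t ^ r0x → ∀ (η : ℝ) (f f' : Nd → Fn),
      NMP (fun _ _ => True) (PhiE i e T g μ I (621432 * t ^ (-la)) (t ^ (-kx)) kc Kl r) X η f →
      NMP (fun _ _ => True) (PhiE i e' T g μ I (621432 * t ^ (-la)) (t ^ (-kx)) kc Kl r) Y η f' →
      η ≤ 1 / 2 → η * (2 * (nn t nE : ℕ) + 1) ≤ t ^ c1 →
      ∀ (S : Finset Nd) (W' : Nd → Finset Nd) (C : ℝ), TWin.Part R S W' C →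
      ∑ K ∈ S, len K ≤ Kc * t ^ (-eC) * ((t ^ c1 + en J X Y) * len J) →
      ‖∑ K ∈ S.filter (fun K => idx S K ≤ nn t nE), ∑ p ∈ W' K, v4 bb ε F x y (gl (W' K) f) Y p‖ ≤
          K * t ^ gy * ((t ^ c1 + en J X Y) * len J) ∧
        ‖∑ K ∈ S.filter (fun K => idx S K ≤ nn t nE), ∑ p ∈ W' K,
          v4 bb ε F x y X (gl (W' K) f') p‖ ≤ K * t ^ gy * ((t ^ c1 + en J X Y) * len J) ∧
        ‖∑ K ∈ S.filter (fun K => idx S K ≤ nn t nE), ∑ p ∈ W' K,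
          v4 bb ε F x y (gl (W' K) f) (gl (W' K) f') p‖ ≤
          K * t ^ gy * ((t ^ c1 + en J X Y) * len J) := by
  obtain ⟨Ka, hKa, ha⟩ := pow_static (cl := cl) hP hd hm3 hn kc hKc
  obtain ⟨Kb, hKb, hb⟩ := pow_moving (cl := cl) hP hd hm3 hn kc hKc
  refine ⟨Ka + Kb, add_nonneg hKa hKb, ?_⟩
  intro t ht ht1 W I F hPR x y hO bb ε hA R J hRF hRW X Y hXY v N T g θ μ hFam e e' hee he he' hx hy
    Kl hKl r hr hr0 η f f' hN hN' hη hηn S W' C hPt hcnt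
  have hg : 0 ≤ t ^ gy * ((t ^ c1 + en J X Y) * len J) := by
    have h1 := pw_pos ht gy
    have h2 := pw_pos ht c1
    have h3 := en_nonneg J X Y
    have h4 := Growth.len_pos J
    positivity
  have g1 := ha t ht ht1 W I F hPR x y hO bb ε hA R J hRF hRW X Y hXY v N T g θ μ hFam e e' hee he
    he' hx hy Kl hKl r hr hr0 η f hN hη hηn S W' C hPt hcnt
  have hO' : Oth i m y x := ⟨hO.bi, hO.bm, hO.ai, hO.am, hO.ab.symm⟩
  have hYX : Sm k 1 R Y X := fun p hp => ⟨(hXY p hp).2, (hXY p hp).1⟩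
  have g2 := ha t ht ht1 W I F hPR y x hO' bb ε hA R J hRF hRW Y X hYX v N T g θ μ hFam e' e
    hee.symm he' he hy hx Kl hKl r hr hr0 η f' hN' hη hηn S W' C hPt (by rw [en_comm J Y X]; exact hcnt)
  rw [en_comm J Y X] at g2
  have g3 := hb t ht ht1 W I F hPR x y hO bb ε hA R J hRF hRW X Y hXY v N T g θ μ hFam e e' hee he
    he' hx hy Kl hKl r hr hr0 η f hN hη hηn f' hN' S W' C hPt hcnt
  refine ⟨g1.trans (by nlinarith), ?_, g3.trans (by nlinarith)⟩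
  have e3 : ∑ K ∈ S.filter (fun K => idx S K ≤ nn t nE), ∑ p ∈ W' K,
      v4 bb ε F x y X (gl (W' K) f') p = ∑ K ∈ S.filter (fun K => idx S K ≤ nn t nE), ∑ p ∈ W' K,
      v4 bb ε F y x (gl (W' K) f') X p := by
    refine Finset.sum_congr rfl fun K _ => Finset.sum_congr rfl fun p _ => ?_
    rw [v4_comm bb ε F hO.ab]
  rw [e3]
  exact g2.trans (by nlinarith)

end main

/-- **THE EXPONENTS for the final parameters** (`σ = θ`): three inequalities -/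
theorem nm_PF {x C ρ c : ℝ} (h : NP112.Adm4 x C ρ c) (i m : Fin 4)
    {k ε c1 kx nE eC gy r0x w : ℝ} (hk : 0 < k) (hε : 0 ≤ ε) (hc1 : 0 ≤ c1) (hkx : 0 ≤ kx)
    (hnE : 0 ≤ nE) (heC : 0 ≤ eC) (hr0 : 0 ≤ r0x) (hw : 0 < w) (hgy : 0 ≤ gy)
    (hG : gy + ε * (NP112.PF x C ρ c).θ + 3 * w ≤ kx / 2)
    (hB : gy + eC + (1 + ε) * (NP112.PF x C ρ c).θ + w ≤ r0x)
    (hR : gy + nE + (1 + ε) * (NP112.PF x C ρ c).θ + c1 + 2 * w ≤
      (NP112.PF x C ρ c).θ * (x - 30)) :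
    Nm (NP112.PF x C ρ c) m k ((1 + ε) * ((NP112.PF x C ρ c).θ * (NP112.PF x C ρ c).g i))
      (xxC (NP112.PF x C ρ c) i) (ffC (NP112.PF x C ρ c) i) (NP112.PF x C ρ c).θ c1 kx nE eC gy
      r0x w := by
  have hθ := NP112.θ_pos h
  have hx := h.x0
  have e1 : (NP112.PF x C ρ c).g i = 1 := rfl
  have e2 : (NP112.PF x C ρ c).g m = 1 := rfl
  have e3 : (NP112.PF x C ρ c).f m = 1 := rfl
  have e4 : (NP112.PF x C ρ c).x m = x := rfl
  have e5 : ffC (NP112.PF x C ρ c) i = 28 * (NP112.PF x C ρ c).θ := by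
    show 2 * ((NP112.PF x C ρ c).θ * (2 * 1 + 12 * 1)) = _
    ring
  have e6 : xxC (NP112.PF x C ρ c) i = 2 * ((NP112.PF x C ρ c).θ * (x + 14)) := by
    show 2 * ((NP112.PF x C ρ c).θ * (x + 2 * 1 + 12 * 1)) = _
    ring
  set θ := (NP112.PF x C ρ c).θ with hθd
  have hεθ : 0 ≤ ε * θ := mul_nonneg hε hθ.le
  refine ⟨hk, ?_, ?_, ?_, hθ.le, hc1, hkx, hnE, heC, hr0, hw, hgy, ?_, ?_, ?_, ?_, ?_⟩
  · rw [e1]; nlinarith
  · rw [e6]; positivity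
  · rw [e5]; positivity
  · rw [e2]; linarith
  · rw [e3]; linarith
  · rw [e1]; nlinarith
  · rw [e1]; nlinarith
  · rw [e1, e4, e5]; nlinarith

end Crest.Agent.R079.GwQx571
end

-- ▼ part R079/GnY_263
section

/-! R079, T7 (helper263): **the (G) input `InG` of `NJ_112`** from 571's `gwords_pow`.

`inG` : exponents `Nm` with `eC = 2 c1`, weight `kap t = t ^ (-kx)`, constant cell parameter, lowest
threshold `r t 0 ≤ t ^ r0x`. -/

set_option autoImplicit false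

namespace Crest.Agent.R079.GnYx263

open Finset Crest.Agent.R079.Grid Crest.Agent.R079.Growth Crest.Agent.R079.QRed
  Crest.Agent.R079.TWin
open Crest.Agent.R079.RelW653 (vl NMP Jv Dv)
open Crest.Agent.R079.RelV653 Crest.Agent.R079.HWx323 Crest.Agent.R079.Chn110
open Crest.Agent.R079.TRec Crest.Agent.R079.T6bx252 Crest.Agent.R079.Tailx726 Crest.Agent.R079.Stk
  Crest.Agent.R079.AsmA844
open Crest.Agent.R079.GnMx45 (en en_nonneg)
open Crest.Agent.R079.FLDx263 Crest.Agent.R079.GnSx263 Crest.Agent.R079.GnNx263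
  Crest.Agent.R079.PFx263 Crest.Agent.R079.GaDx571 Crest.Agent.R079.GaFx371
  Crest.Agent.R079.WS112 Crest.Agent.R079.WS0112 Crest.Agent.R079.POx263
  Crest.Agent.R079.OpS276 Crest.Agent.R079.GnUx263 Crest.Agent.R079.NJ112
  Crest.Agent.R079.GwPx571 Crest.Agent.R079.GwQx571

/-- **(G) INPUT** -/
theorem inG {P : Prm} {d ε k q3 : ℝ} {i m e e' : Fin 4} {c1 nE σ kx gy r0x w : ℝ} (hP : Ok0 P)
    (hdd : Dst4 i m e e') (hm3 : m ≠ 3)
    (hn : Nm P m k ((1 + ε) * (P.θ * P.g i)) (xxC P i) (ffC P i) σ c1 kx nE (2 * c1) gy r0x w)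
    (p : Par) {t0 : ℝ} (ht01 : t0 ≤ 1) (kc : ℕ) (hkc : ∀ t, p.kc t = kc)
    (hkap : ∀ t, 0 < t → t ≤ t0 → p.kap t = t ^ (-kx)) (hKl : ∀ t, 0 < t → t ≤ t0 → 0 < p.Kl t)
    (hr : ∀ t, 0 < t → t ≤ t0 → ∀ q, 0 ≤ p.r t q) (hr0 : ∀ t, 0 < t → t ≤ t0 → p.r t 0 ≤ t ^ r0x) :
    ∃ K : ℝ, 1 ≤ K ∧ InG P d ε k q3 i m e e' c1 gy t0 K nE p := by
  obtain ⟨K, hK, hg⟩ := gwords_pow (cl := clx P d i) hP hdd hm3 hn kc
    (Kc := 2 * 2 ^ (p.k0 + 5)) (by positivity)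
  refine ⟨K + 1, by linarith, ?_⟩
  intro N B t W I F xy bb E R J Z v n T g al mu es hS htt
  have ht := hS.t0
  have ht1 : t ≤ 1 := htt.trans ht01
  have Pw : ∀ s : ℝ, 0 < t ^ s := fun s => Real.rpow_pos_of_pos ht s
  have hm0 := Pw c1
  have hn0 : (0 : ℝ) ≤ (nn t nE : ℕ) := Nat.cast_nonneg _
  refine ⟨min (1 / 2) (t ^ c1 / (2 * (nn t nE : ℕ) + 1)), lt_min (by norm_num) (by positivity), ?_⟩
  intro η hη hηη f hf S W' Rg Er hT hdr
  have hη2 : η ≤ 1 / 2 := hηη.trans (min_le_left _ _)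
  have hηn : η * (2 * (nn t nE : ℕ) + 1) ≤ t ^ c1 := by
    have h1 := hηη.trans (min_le_right (1 / 2) (t ^ c1 / (2 * (nn t nE : ℕ) + 1)))
    rwa [le_div_iff₀ (by positivity)] at h1
  obtain ⟨C, hPt⟩ := hT.part
  have hcnt : ∑ w ∈ S, len w ≤ 2 * 2 ^ (p.k0 + 5) * t ^ (-(2 * c1)) *
      ((t ^ c1 + en J (Z 0) (Z 1)) * len J) := by
    have h1 := WdTx276.cnt_of hT hm0 (by positivity) hdr (Finset.Subset.refl S)
    refine h1.trans (le_of_eq ?_)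
    have h2 : (t ^ c1) ^ 2 = (t ^ (-(2 * c1)))⁻¹ := by
      rw [Real.rpow_neg ht.le, inv_inv, sq, ← Real.rpow_add ht]
      congr 1
      ring
    rw [h2, div_inv_eq_mul]
  have hf' : ∀ c', NMP (fun _ _ => True)
      (PhiE i (es c') T g mu I (621432 * t ^ (-((1 + ε) * (P.θ * P.g i)))) (t ^ (-kx)) kc (p.Kl t)
        (p.r t)) (Z c') η (f c') := by
    intro c'
    have h1 := hf c'
    unfold PhiC at h1
    rw [hkc t, hkap t ht htt] at h1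
    exact h1
  have key := hg t ht ht1 W I F hS.prc (xy 0) (xy 1) hS.oth bb E hS.adm R J hS.full hS.sub
    (Z 0) (Z 1) hS.sm v n T g al mu hS.fam (es 0) (es 1) hS.es01 (hS.es_ne 0) (hS.es_ne 1)
    (hS.slot 0).symm (hS.slot 1).symm (p.Kl t) (hKl t ht htt) (p.r t) (hr t ht htt) (hr0 t ht htt) η
    (f 0) (f 1) (hf' 0) (hf' 1) hη2 hηn S W' C hPt hcnt
  have hB := hS.B0
  have hmono : K * t ^ gy * ((t ^ c1 + en J (Z 0) (Z 1)) * len J) ≤
      (K + 1) * (1 + B) * t ^ gy * ((t ^ c1 + en J (Z 0) (Z 1)) * len J) := by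
    have h1 := en_nonneg J (Z 0) (Z 1)
    have h2 := (Growth.len_pos J).le
    have h3 := (Pw gy).le
    refine mul_le_mul_of_nonneg_right (mul_le_mul_of_nonneg_right ?_ h3) (by positivity)
    nlinarith
  exact ⟨key.1.trans hmono, key.2.1.trans hmono, key.2.2.trans hmono⟩

end Crest.Agent.R079.GnYx263
end

-- ▼ part R079/NK_112
section

/-! R079, T7 (helper112): **THE ONE REMAINING INPUT `ESF`** (frame letters with small errors and per-window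
(S) bounds for the core data) and the target from it.

* `inG_mono`, `inES_mono`;
* `ESF` : frames of one generation, all exponents in the order of the choices;
* `gdf_of_ESF` : `ESF` => `GDF` for the final parameters (`x ≥ 40`);
* **`target_of_ESF`**. -/

set_option autoImplicit false
set_option linter.unusedVariables false

namespace Crest.Agent.R079.NP112

open Finset Crest.Agent.R079.Grid Crest.Agent.R079.Growth Crest.Agent.R079.QRed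
  Crest.Agent.R079.TWin
open Crest.Agent.R079.RelW653 (vl NMP Jv Dv)
open Crest.Agent.R079.RelV653 Crest.Agent.R079.HWx323 Crest.Agent.R079.Chn110
open Crest.Agent.R079.TRec Crest.Agent.R079.T6bx252 Crest.Agent.R079.Tailx726 Crest.Agent.R079.Stk
  Crest.Agent.R079.AsmA844
open Crest.Agent.R079.GnMx45 (en en_nonneg)
open Crest.Agent.R079.FLDx263 Crest.Agent.R079.GnSx263 Crest.Agent.R079.GnNx263
  Crest.Agent.R079.PFx263 Crest.Agent.R079.GaDx571 Crest.Agent.R079.GaFx371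
  Crest.Agent.R079.WS112 Crest.Agent.R079.WS0112 Crest.Agent.R079.POx263
  Crest.Agent.R079.OpS276 Crest.Agent.R079.GnUx263 Crest.Agent.R079.SbWx795
  Crest.Agent.R079.NJ112

theorem inG_mono {P : Prm} {d ε k q3 : ℝ} {i m e e' : Fin 4} {c1 gG t0 K K' nE : ℝ} {p : Par}
    (hK : K ≤ K') (h : InG P d ε k q3 i m e e' c1 gG t0 K nE p) :
    InG P d ε k q3 i m e e' c1 gG t0 K' nE p := by
  intro N B t W I F xy bb E R J Z v n T g al mu es hS htt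
  obtain ⟨η0, hη0, h1⟩ := h hS htt
  refine ⟨η0, hη0, fun η hη hηη f hf S W' Rg Er hT hdr => ?_⟩
  have h2 := h1 η hη hηη f hf S W' Rg Er hT hdr
  have hB := hS.B0
  have ht := hS.t0
  have hen := en_nonneg J (Z 0) (Z 1)
  have hl := (Growth.len_pos J).le
  have hm : K * (1 + B) * t ^ gG * ((t ^ c1 + en J (Z 0) (Z 1)) * len J) ≤
      K' * (1 + B) * t ^ gG * ((t ^ c1 + en J (Z 0) (Z 1)) * len J) := by
    have a1 : 0 ≤ t ^ gG := Real.rpow_nonneg ht.le _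
    have a2 : 0 ≤ t ^ c1 := Real.rpow_nonneg ht.le _
    exact mul_le_mul_of_nonneg_right (mul_le_mul_of_nonneg_right
      (mul_le_mul_of_nonneg_right hK (by linarith)) a1) (by positivity)
  exact ⟨h2.1.trans hm, h2.2.1.trans hm, h2.2.2.trans hm⟩

theorem inES_mono {P : Prm} {d ε k q3 : ℝ} {i m e e' : Fin 4} {c1 gS t0 K K' : ℝ} {p : Par}
    (hK : K ≤ K') (h : InES P d ε k q3 i m e e' c1 gS t0 K p) :
    InES P d ε k q3 i m e e' c1 gS t0 K' p := by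
  intro N B t W I F xy bb E R J Z v n T g al mu es hS htt
  obtain ⟨η0, hη0, h1⟩ := h hS htt
  refine ⟨η0, hη0, fun η hη hηη f hf => ?_⟩
  obtain ⟨Psi, h2, h3⟩ := h1 η hη hηη f hf
  refine ⟨Psi, h2, fun w hw => ?_⟩
  have ht := hS.t0
  have hm : K * t ^ gS * len w ≤ K' * t ^ gS * len w :=
    mul_le_mul_of_nonneg_right (mul_le_mul_of_nonneg_right hK (Real.rpow_nonneg ht.le _))
      (Growth.len_pos w).le
  obtain ⟨a1, a2, a3, a4, a5⟩ := h3 w hw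
  exact ⟨a1.trans hm, a2.trans hm, a3.trans hm, a4.trans hm, a5.trans hm⟩

/-- **FRAMES for the core data**: errors and (S) words, exponents in the order of the choices.
`kap = t ^ (-4 y)`, lowest threshold `≤ t ^ (2 θ)`, `ω ≤ K t ^ (-C y)`, (S) gain `t ^ (2 c1 + y)`. -/
def ESF (P : Prm) (q3 d : ℝ) : Prop :=
  ∀ i m e e' : Fin 4, Dst4 i m e e' → m < i → i ≠ 3 → ∃ cm : ℝ, 0 < cm ∧ ∀ c1, 0 < c1 → c1 ≤ cm →
    ∃ C ys : ℝ, 0 < C ∧ 0 < ys ∧ ∀ y, 0 < y → y ≤ ys → ∃ e1 : ℝ, 0 < e1 ∧ ∀ ε, 0 < ε → ε ≤ e1 →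
      ∃ k1 : ℝ, 0 < k1 ∧ ∀ k, 0 < k → k ≤ k1 → ∃ (t0 K : ℝ) (p : Par) (kc : ℕ), 0 < t0 ∧ t0 ≤ 1 ∧
        1 ≤ K ∧ p.Ok t0 ∧ (∀ t, p.kc t = kc) ∧
        (∀ t, 0 < t → t ≤ t0 → p.kap t = t ^ (-(4 * y))) ∧
        (∀ t, 0 < t → t ≤ t0 → 0 < p.Kl t) ∧
        (∀ t, 0 < t → t ≤ t0 → p.r t 0 ≤ t ^ (2 * P.θ)) ∧
        (∀ t, 0 < t → t ≤ t0 → p.om t ≤ K * t ^ (-(C * y))) ∧
        InES P d ε k q3 i m e e' c1 (2 * c1 + y) t0 K p

/-- **`GDF` from the frames**, final parameters -/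
theorem gdf_of_ESF {x C ρ c q3 : ℝ} (h : Adm4 x C ρ c) (hx : 40 ≤ x)
    (hE : ESF (PF x C ρ c) q3 (dF C ρ c)) : GDF (PF x C ρ c) q3 (dF C ρ c) := by
  intro i m e e' hdd hmi hi3
  have hθ : 0 < (PF x C ρ c).θ := θ_pos h
  have hm3 : m ≠ 3 := by
    intro hm
    subst hm
    have : (3 : Fin 4) < i := hmi
    revert this
    fin_cases i <;> decide
  obtain ⟨cm, hcm, hE⟩ := hE i m e e' hdd hmi hi3
  set θ := (PF x C ρ c).θ with hθd
  refine ⟨min cm (θ / 10), lt_min hcm (by positivity), fun c1 hc1 hc1m => ?_⟩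
  obtain ⟨D, ys, hD, hys, hE⟩ := hE c1 hc1 (hc1m.trans (min_le_left _ _))
  have hc1θ : c1 ≤ θ / 10 := hc1m.trans (min_le_right _ _)
  have hD3 : 0 < 10 * (D + 3) := by linarith
  refine ⟨D, 1, min ys (θ / (10 * (D + 3))), hD, one_pos, lt_min hys (by positivity),
    fun y hy hyy => ?_⟩
  obtain ⟨e1, he1, hE⟩ := hE y hy (hyy.trans (min_le_left _ _))
  have hyθ : y ≤ θ / (10 * (D + 3)) := hyy.trans (min_le_right _ _)
  have hyθ' : (D + 3) * y ≤ θ / 10 := by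
    rw [le_div_iff₀ hD3] at hyθ
    linarith
  have hDy : 0 < D * y := mul_pos hD hy
  refine ⟨min e1 (y / (4 * θ)), lt_min he1 (by positivity), fun ε hε hεε => ?_⟩
  obtain ⟨k1, hk1, hE⟩ := hE ε hε (hεε.trans (min_le_left _ _))
  have hεθ : ε * θ ≤ y / 4 := by
    have h1 := hεε.trans (min_le_right e1 (y / (4 * θ)))
    rw [le_div_iff₀ (by positivity)] at h1
    linarith
  have hεθ0 : 0 < ε * θ := mul_pos hε hθ
  refine ⟨k1, hk1, fun k hk hkk => ?_⟩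
  obtain ⟨t0, K, p, kc, ht0, ht01, hK, hOk, hkc, hkap, hKl, hr0, hom, hES⟩ := hE k hk hkk
  have hnm := Crest.Agent.R079.GwQx571.nm_PF h i m (k := k) (ε := ε) (c1 := c1) (kx := 4 * y)
    (nE := 2 * θ) (eC := 2 * c1) (gy := y) (r0x := 2 * θ) (w := y / 12) hk hε.le hc1.le
    (by linarith) (by linarith) (by linarith) (by linarith) (by linarith) hy.le
    (by rw [← hθd]; linarith) (by rw [← hθd]; nlinarith)
    (by
      rw [← hθd]
      have : θ * 10 ≤ θ * (x - 30) := mul_le_mul_of_nonneg_left (by linarith) hθ.le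
      nlinarith)
  obtain ⟨K1, hK1, hG⟩ := Crest.Agent.R079.GnYx263.inG (d := dF C ρ c) (q3 := q3) (e := e)
    (e' := e') (ok_PF h) hdd hm3 hnm p ht01 kc hkc hkap hKl (fun t h0 h1 => hOk.r0 t h0 h1)
    (fun t h0 h1 => hr0 t h0 h1)
  have eg : (PF x C ρ c).θ * (PF x C ρ c).g i = θ := by
    show (PF x C ρ c).θ * 1 = θ
    rw [mul_one]
  have hgen := genP_of_in (ok_PF h) (d := dF C ρ c) (q3 := q3) (K := max K K1) (a := D * y)
    (gE := 1 * y) (gG := y) (gS := 2 * c1 + y) (CM := (1 + ε) * θ + y) (nE := 2 * θ) hdd ht01 hk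
    (le_max_of_le_left hK) hc1.le hDy.le (by rw [eg]; linarith) (by linarith) (by linarith) p hOk
    (fun t h0 h1 => (hom t h0 h1).trans (mul_le_mul_of_nonneg_right (le_max_left _ _)
      (Real.rpow_nonneg h0.le _)))
    (inG_mono (le_max_right _ _) hG) (inES_mono (le_max_left _ _) hES)
  obtain ⟨K2, hK2, hgen⟩ := hgen
  exact ⟨t0, K2, (1 + ε) * θ + y, 2 * θ, ht0, ht01, hK2, by nlinarith, hgen⟩

/-- **`S0106` from the frames of one generation** -/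
theorem target_of_ESF
    (hs : ∃ x0 : ℝ, ∀ x, x0 ≤ x → ∃ ρ0 : ℝ, 0 < ρ0 ∧ ∀ ρ, 0 < ρ → ρ ≤ ρ0 → ∃ c0 : ℝ, 0 < c0 ∧
      ∀ c, 0 < c → c ≤ c0 → ∃ C0 : ℝ, ∀ C, C0 ≤ C → ∀ q3, 2 < q3 → Adm4 x C ρ c →
        ESF (PF x C ρ c) q3 (dF C ρ c)) : L0.Target := by
  refine target_of_genP ?_
  obtain ⟨x0, hs⟩ := hs
  refine ⟨max x0 40, fun x hx => ?_⟩
  obtain ⟨ρ0, hρ0, hs⟩ := hs x ((le_max_left _ _).trans hx)
  refine ⟨ρ0, hρ0, fun ρ hρ hρρ => ?_⟩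
  obtain ⟨c0, hc0, hs⟩ := hs ρ hρ hρρ
  refine ⟨c0, hc0, fun c hc hcc => ?_⟩
  obtain ⟨C0, hs⟩ := hs c hc hcc
  exact ⟨C0, fun C hC q3 hq hA => gdf_of_ESF hA ((le_max_right _ _).trans hx) (hs C hC q3 hq hA)⟩

end Crest.Agent.R079.NP112
end

-- ▼ part R079/NumS_112
section

/-! R079, (S) words (helper112): POWERS OF `t` (item W6).

* `XG A g d e h c m0 θ` : the gain of one labelled edge with free leaf cost `e`, diagonal `h`,
  trace cost `c`; `XS_eq_XG`;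
* `num_XG` : `XG ≤ K t ^ x`; `num_far` : the far word; `num_near` : the near word; `num_win`. -/

set_option autoImplicit false

namespace Crest.Agent.R079.NumS112

open Crest.Agent.R079.GaQx571 Crest.Agent.R079.SKx261

/-- gain of one labelled edge, free constants -/
noncomputable def XG (A g d e h c : ℝ) (m0 : ℕ) (θ : ℝ) : ℝ :=
  2 ^ 7 * g ^ 2 * e + (2 ^ 14 * A ^ 2 * d * h + 2 ^ 8 * A ^ 2 * h / 2 ^ m0) * c + θ

lemma XS_eq_XG (A g d ρ r Hr : ℝ) (m0 : ℕ) (θ : ℝ) :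
    XS A g d ρ r Hr m0 θ = XG A g d (eS ρ r) (hS r Hr) (1 / (4 * r)) m0 θ := rfl

lemma XG_nonneg {A g d e h c θ : ℝ} {m0 : ℕ} (hd : 0 ≤ d) (he : 0 ≤ e) (hh : 0 ≤ h)
    (hc : 0 ≤ c) (hθ : 0 ≤ θ) : 0 ≤ XG A g d e h c m0 θ := by
  unfold XG; positivity

/-- **one edge** -/
theorem num_XG {t : ℝ} (ht : 0 < t) (ht1 : t ≤ 1) {K a γ D ee hh cc M M' x : ℝ} (hK : 1 ≤ K)
    (h1 : x ≤ 2 * γ - ee) (h2 : x ≤ D - 2 * a - hh - cc) (h3 : x ≤ M - 2 * a - hh - cc)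
    (h4 : x ≤ M') {A g d e h c θ : ℝ} {m0 : ℕ} (hA0 : 0 ≤ A) (hA : A ≤ K * t ^ (-a))
    (hg0 : 0 ≤ g) (hg : g ≤ K * t ^ γ) (hd0 : 0 ≤ d) (hd : d ≤ K * t ^ D) (he0 : 0 ≤ e)
    (he : e ≤ K * t ^ (-ee)) (hh0 : 0 ≤ h) (hh' : h ≤ K * t ^ (-hh)) (hc0 : 0 ≤ c)
    (hc : c ≤ K * t ^ (-cc)) (hm : (1 : ℝ) / 2 ^ m0 ≤ K * t ^ M) (hθ : θ ≤ K * t ^ M') :
    XG A g d e h c m0 θ ≤ 2 ^ 15 * K ^ 5 * t ^ x := by
  have P := pw_pos ht
  have hK0 : 0 ≤ K := by linarith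
  have p : ∀ s : ℝ, 0 ≤ t ^ s := fun s => (P s).le
  have A2 : A ^ 2 ≤ K ^ 2 * t ^ (-(2 * a)) := by
    have := sq_A ht hA0 hA
    rwa [show 2 * -a = -(2 * a) by ring] at this
  have e1 : 2 ^ 7 * g ^ 2 * e ≤ 2 ^ 7 * K ^ 3 * t ^ x := by
    have := mul_A ht he0 (sq_nonneg K) (sq_A ht hg0 hg) he
    calc 2 ^ 7 * g ^ 2 * e = 2 ^ 7 * (g ^ 2 * e) := by ring
      _ ≤ 2 ^ 7 * (K ^ 2 * K * t ^ (2 * γ + -ee)) := by gcongr
      _ ≤ 2 ^ 7 * (K ^ 2 * K * t ^ x) := by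
          have := pw_le ht ht1 (s := 2 * γ + -ee) (s' := x) (by linarith)
          gcongr
      _ = _ := by ring
  have hAh : A ^ 2 * h ≤ K ^ 2 * K * t ^ (-(2 * a) + -hh) := mul_A ht hh0 (sq_nonneg K) A2 hh'
  have hAhc : A ^ 2 * h * c ≤ K ^ 2 * K * K * t ^ (-(2 * a) + -hh + -cc) :=
    mul_A ht hc0 (by positivity) hAh hc
  have e2 : 2 ^ 14 * (A ^ 2 * h * c * d) ≤ 2 ^ 14 * K ^ 5 * t ^ x := by
    have := mul_A ht hd0 (by positivity) hAhc hd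
    calc _ ≤ 2 ^ 14 * (K ^ 2 * K * K * K * t ^ (-(2 * a) + -hh + -cc + D)) := by gcongr
      _ ≤ 2 ^ 14 * (K ^ 2 * K * K * K * t ^ x) := by
          have := pw_le ht ht1 (s := -(2 * a) + -hh + -cc + D) (s' := x) (by linarith)
          gcongr
      _ = _ := by ring
  have e3 : 2 ^ 8 * (A ^ 2 * h * c * (1 / 2 ^ m0)) ≤ 2 ^ 8 * K ^ 5 * t ^ x := by
    have := mul_A ht (by positivity) (by positivity) hAhc hm
    calc _ ≤ 2 ^ 8 * (K ^ 2 * K * K * K * t ^ (-(2 * a) + -hh + -cc + M)) := by gcongr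
      _ ≤ 2 ^ 8 * (K ^ 2 * K * K * K * t ^ x) := by
          have := pw_le ht ht1 (s := -(2 * a) + -hh + -cc + M) (s' := x) (by linarith)
          gcongr
      _ = _ := by ring
  have e4 : θ ≤ K * t ^ x := hθ.trans (mul_le_mul_of_nonneg_left (pw_le ht ht1 h4) hK0)
  have k3 : K ^ 3 ≤ K ^ 5 := pow_le_pow_right₀ hK (by norm_num)
  have k1 : K ≤ K ^ 5 := le_self_pow₀ hK (by norm_num)
  have q1 : K ^ 3 * t ^ x ≤ K ^ 5 * t ^ x := mul_le_mul_of_nonneg_right k3 (p x)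
  have q2 : K * t ^ x ≤ K ^ 5 * t ^ x := mul_le_mul_of_nonneg_right k1 (p x)
  have q3 : 0 ≤ K ^ 5 * t ^ x := mul_nonneg (by positivity) (p x)
  have : XG A g d e h c m0 θ = 2 ^ 7 * g ^ 2 * e + 2 ^ 14 * (A ^ 2 * h * c * d) +
      2 ^ 8 * (A ^ 2 * h * c * (1 / 2 ^ m0)) + θ := by
    unfold XG; ring
  rw [this]
  nlinarith

/-- **the far word**: two edges, one gauge -/
theorem num_far {t : ℝ} (ht : 0 < t) (ht1 : t ≤ 1) {K x1 x2 a b M' s y : ℝ} (hK : 1 ≤ K)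
    (hy : 4 * y ≤ x1 + x2 - 2 * a - 2 * b - 4 * s) (hM : 4 * y ≤ x1 + x2 + 2 * M' - 4 * s)
    {X1 X2 A mb θ L : ℝ} (h1 : X1 ≤ K * t ^ x1) (h20 : 0 ≤ X2)
    (h2 : X2 ≤ K * t ^ x2) (hA0 : 0 ≤ A) (hA : A ≤ K * t ^ (-a)) (hmb0 : 0 ≤ mb)
    (hmb : mb ≤ K * t ^ (-b)) (hθ0 : 0 ≤ θ) (hθ : θ ≤ K * t ^ M')
    (hL : L ≤ K * t ^ (-s)) :
    L * √(√(X1 * X2) * (A * mb + θ)) ≤ 2 * K ^ 3 * t ^ y := by
  have P := pw_pos ht
  have p : ∀ s : ℝ, 0 ≤ t ^ s := fun s => (P s).le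
  have hK0 : 0 ≤ K := by linarith
  have e1 : √(X1 * X2) ≤ K * t ^ ((x1 + x2) / 2) := by
    refine Real.sqrt_le_iff.2 ⟨mul_nonneg hK0 (p _), ?_⟩
    have := mul_A ht h20 hK0 h1 h2
    calc X1 * X2 ≤ K * K * t ^ (x1 + x2) := this
      _ = (K * t ^ ((x1 + x2) / 2)) ^ 2 := by
          rw [mul_pow, sq (t ^ _), pw_add ht]
          ring_nf
  have e2 : A * mb ≤ K * K * t ^ (-a + -b) := mul_A ht hmb0 hK0 hA hmb
  have e3 : √(X1 * X2) * (A * mb + θ) ≤ 2 * K ^ 3 * t ^ (2 * (y + s)) := by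
    have hz : 0 ≤ A * mb + θ := by positivity
    calc √(X1 * X2) * (A * mb + θ) ≤ (K * t ^ ((x1 + x2) / 2)) *
          (K * K * t ^ (-a + -b) + K * t ^ M') := by
          exact mul_le_mul e1 (add_le_add e2 hθ) hz (mul_nonneg hK0 (p _))
      _ = K * K * K * (t ^ ((x1 + x2) / 2) * t ^ (-a + -b)) +
          K * K * (t ^ ((x1 + x2) / 2) * t ^ M') := by ring
      _ ≤ K * K * K * t ^ (2 * (y + s)) + K * K * t ^ (2 * (y + s)) := by
          rw [pw_add ht, pw_add ht]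
          refine add_le_add (mul_le_mul_of_nonneg_left (pw_le ht ht1 (by linarith)) (by positivity))
            (mul_le_mul_of_nonneg_left (pw_le ht ht1 (by linarith)) (by positivity))
      _ ≤ _ := by
          have q : 0 ≤ t ^ (2 * (y + s)) := p _
          have : K * K ≤ K * K * K := by nlinarith
          nlinarith [mul_le_mul_of_nonneg_right this q]
  have e4 : √(√(X1 * X2) * (A * mb + θ)) ≤ 2 * K ^ 2 * t ^ (y + s) := by
    refine Real.sqrt_le_iff.2 ⟨mul_nonneg (by positivity) (p _), e3.trans ?_⟩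
    have : (2 * K ^ 2 * t ^ (y + s)) ^ 2 = 4 * K ^ 4 * t ^ (2 * (y + s)) := by
      rw [mul_pow, sq (t ^ _), pw_add ht]
      ring_nf
    rw [this]
    have k : K ^ 3 ≤ K ^ 4 := pow_le_pow_right₀ hK (by norm_num)
    have q : 0 ≤ t ^ (2 * (y + s)) := p _
    nlinarith [mul_le_mul_of_nonneg_right k q, mul_nonneg (pow_nonneg hK0 4) q]
  have := mul_A ht (Real.sqrt_nonneg _) hK0 hL e4
  refine this.trans (le_of_eq ?_)
  rw [show -s + (y + s) = y by ring]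
  ring



end Crest.Agent.R079.NumS112
end

-- ▼ part R079/NumE_112

/-! R079, frame errors (helper112): POWERS OF `t` for the energy of the error letter (`ErL_255.err_fam`). -/

set_option autoImplicit false

namespace Crest.Agent.R079.NumS112

open Crest.Agent.R079.GaQx571

/-- **energy of the error letter**: `kap = t ^ (-kx)`, `C1 ≤ A t ^ (-e')`, `C2 ≤ A t ^ c1` -/
theorem num_err {A : ℝ} (hA : 1 ≤ A) (Kl k3 : ℕ) {kx e' c1 a : ℝ} (hkx : 0 ≤ kx) (he : 0 ≤ e')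
    (ha : 2 * kx + e' ≤ a) :
    ∃ K : ℝ, 1 ≤ K ∧ ∀ t, 0 < t → t ≤ 1 → ∀ C1 C2 δ η s : ℝ, 0 ≤ C1 → C1 ≤ A * t ^ (-e') →
      0 ≤ C2 → C2 ≤ A * t ^ c1 → 0 ≤ δ → δ ≤ t ^ c1 → 0 ≤ η → η ≤ t ^ c1 → 0 ≤ s → s ≤ A →
      2 ^ k3 * (2 * ((2 * (1 + Kl * t ^ (-kx)) + 2 * t ^ (-kx) * (Kl : ℝ) ^ 3 * C1) * (δ + η) +
        2 * (t ^ (-kx)) ^ 2 * (Kl : ℝ) ^ 4 * C2 * s ^ 2)) ≤ K * t ^ (-a) * t ^ c1 := by
  refine ⟨2 ^ k3 * (2 * ((2 * (1 + Kl) + 2 * (Kl : ℝ) ^ 3 * A) * 2 +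
    2 * (Kl : ℝ) ^ 4 * A * A ^ 2)), ?_, ?_⟩
  · have h1 : (1 : ℝ) ≤ 2 ^ k3 := one_le_pow₀ (by norm_num)
    have h2 : (1 : ℝ) ≤ 2 * ((2 * (1 + Kl) + 2 * (Kl : ℝ) ^ 3 * A) * 2 +
        2 * (Kl : ℝ) ^ 4 * A * A ^ 2) := by
      have h3 : (0 : ℝ) ≤ Kl := Nat.cast_nonneg _
      have h4 : (0 : ℝ) ≤ 2 * (Kl : ℝ) ^ 3 * A := by positivity
      have h5 : (0 : ℝ) ≤ 2 * (Kl : ℝ) ^ 4 * A * A ^ 2 := by positivity
      linarith
    nlinarith
  intro t ht ht1 C1 C2 δ η s hC10 hC1 hC20 hC2 hδ0 hδ hη0 hη hs0 hs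
  have P := pw_pos ht
  have p : ∀ s : ℝ, 0 ≤ t ^ s := fun s => (P s).le
  have hA0 : 0 ≤ A := by linarith
  have hK0 : (0 : ℝ) ≤ Kl := Nat.cast_nonneg _
  have q1 : 1 ≤ t ^ (-a) := one_le_pw ht ht1 (by linarith)
  have q2 : t ^ (-kx) ≤ t ^ (-a) := pw_le ht ht1 (by linarith)
  have q3 : t ^ (-kx) * t ^ (-e') ≤ t ^ (-a) := by
    rw [pw_add ht]
    exact pw_le ht ht1 (by linarith)
  have q4 : (t ^ (-kx)) ^ 2 ≤ t ^ (-a) := by
    rw [sq, pw_add ht]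
    exact pw_le ht ht1 (by linarith)
  have e1 : 2 * (1 + Kl * t ^ (-kx)) ≤ 2 * (1 + Kl) * t ^ (-a) := by nlinarith
  have e2 : 2 * t ^ (-kx) * (Kl : ℝ) ^ 3 * C1 ≤ 2 * (Kl : ℝ) ^ 3 * A * t ^ (-a) := by
    calc 2 * t ^ (-kx) * (Kl : ℝ) ^ 3 * C1 ≤ 2 * t ^ (-kx) * (Kl : ℝ) ^ 3 * (A * t ^ (-e')) :=
          mul_le_mul_of_nonneg_left hC1 (by have := p (-kx); positivity)
      _ = 2 * (Kl : ℝ) ^ 3 * A * (t ^ (-kx) * t ^ (-e')) := by ring
      _ ≤ _ := mul_le_mul_of_nonneg_left q3 (by positivity)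
  have e3 : (2 * (1 + Kl * t ^ (-kx)) + 2 * t ^ (-kx) * (Kl : ℝ) ^ 3 * C1) * (δ + η) ≤
      ((2 * (1 + Kl) + 2 * (Kl : ℝ) ^ 3 * A) * 2) * (t ^ (-a) * t ^ c1) := by
    calc _ ≤ ((2 * (1 + Kl) + 2 * (Kl : ℝ) ^ 3 * A) * t ^ (-a)) * (2 * t ^ c1) := by
          refine mul_le_mul (by linarith) (by linarith) (by linarith) ?_
          have := p (-a)
          positivity
      _ = _ := by ring
  have e4 : 2 * (t ^ (-kx)) ^ 2 * (Kl : ℝ) ^ 4 * C2 * s ^ 2 ≤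
      2 * (Kl : ℝ) ^ 4 * A * A ^ 2 * (t ^ (-a) * t ^ c1) := by
    have a1 : s ^ 2 ≤ A ^ 2 := pow_le_pow_left₀ hs0 hs 2
    calc 2 * (t ^ (-kx)) ^ 2 * (Kl : ℝ) ^ 4 * C2 * s ^ 2 ≤
        2 * t ^ (-a) * (Kl : ℝ) ^ 4 * (A * t ^ c1) * A ^ 2 := by
          have := p (-a)
          have := p c1
          gcongr
      _ = _ := by ring
  have h2 : (0 : ℝ) < 2 ^ k3 := by positivity
  calc _ ≤ 2 ^ k3 * (2 * (((2 * (1 + Kl) + 2 * (Kl : ℝ) ^ 3 * A) * 2) * (t ^ (-a) * t ^ c1) +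
        2 * (Kl : ℝ) ^ 4 * A * A ^ 2 * (t ^ (-a) * t ^ c1))) := by
        refine mul_le_mul_of_nonneg_left ?_ h2.le
        linarith
    _ = _ := by ring

end Crest.Agent.R079.NumS112
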