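import Crest.Agent.R079.ErO_255_Mg
import Crest.Agent.R079.NL_112
import Crest.Agent.R079.NumE_112_Mg

-- ▼ part R079/NrF_228
section

/-! # R079 (S0106) (helper228): the per-cell input in the form of `ErN_255` / `ErO_255` (`CellLt`,
`CellsX`), and the error half of `InES` of `NJ_112` with explicit number (`hE_fin`). -/

set_option autoImplicit false

namespace Crest.Agent.R079.NrFx228

open Finset Crest.Agent.R079.Grid Crest.Agent.R079.Growth Crest.Agent.R079.QRed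
  Crest.Agent.R079.Qh249 Crest.Agent.R079.QVar181 Crest.Agent.R079.TWin
open Crest.Agent.R079.ThA159
open Crest.Agent.R079.Cel159 (NmP cf okc mcell split_cell Mx Mx_mcell Mx_eq sc)
open Crest.Agent.R079.ClW59 (OpS cl)
open Crest.Agent.R079.GaFx371 Crest.Agent.R079.GaDx571 Crest.Agent.R079.PFx263
open Crest.Agent.R079.NrDx276 Crest.Agent.R079.SbWx795 Crest.Agent.R079.ErLx255
open Crest.Agent.R079.NrTx259 Crest.Agent.R079.NrUx259 Crest.Agent.R079.NrWx259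
  Crest.Agent.R079.NrTx276 Crest.Agent.R079.NrAx228 Crest.Agent.R079.NrBx228
  Crest.Agent.R079.NrCx228 Crest.Agent.R079.NrDx228 Crest.Agent.R079.NrEx228

open scoped ComplexConjugate

section

variable {n : ℕ} {i : Fin 4} {e : Fin 3} {T : Fin n → Fin 3 → Finset ℤ}
  {g : Fin n → Fin 3 → ℤ → ℤ → ℂ} {I : Nd} {kc Kl : ℕ} {r : ℕ → ℝ} {V : Finset Nd} {K : Nd} {G : Fn}
  {k0 j0 n0 : ℕ}

/-- **THE PER-CELL INPUT, framed steps** -/
theorem cell_lt {kg : ℕ} {ν θ C1 C2 R : ℝ} (hC1 : 0 ≤ C1) (hC2 : 0 ≤ C2) (hR : 1 ≤ R)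
    (hCT : CellT kg θ C1 C2)
    (hB : ∀ l, Bnd (BdE i e (T l) I) (poE i e) (NmP (SE i e (T l) I) cf (okc (Ye i e) kc)) ν)
    (hr : ∀ q, 0 < r q) (hmono : ∀ q, r q ≤ r (q + 1)) (hRr : ∀ q, r (q + 1) ≤ R * r q)
    (hV : Full V K)
    (hG : GeoF i e T I kc V K k0 j0 n0 kg θ) :
    ErNx255.CellLt i e T g I kc Kl r V K G (LayK V k0 j0 n0 K) (Zff i e T g I kc Kl r V K G k0 j0 n0)
      (C1 * R / 2) (C2 * (2 * (1 / 2) ^ j0)) := by
  classical
  intro l q hq1 t ht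
  obtain ⟨hz, hM⟩ := cel_spec ht
  obtain ⟨z, m, a, b⟩ := t
  simp only at hz hM ⊢
  set S := dI m a ∩ T l e with hS
  set T' := dI m b ∩ T l (e + 1) with hT'
  have hSs : S ⊆ dI m a := Finset.inter_subset_left
  have hTs : T' ⊆ dI m b := Finset.inter_subset_left
  have hr0 : ∀ q, 0 ≤ r q := fun q => (hr q).le
  set A : ℤ → ℤ → ℂ := Ak (BdE i e (T l) I) (poE i e) (fun ω => g l e ω.2.1 ω.2.2) K G z with hA
  set B : ℤ → ℤ → ℂ := Bk (BdE i e (T l) I) (poE i e) (NmP (SE i e (T l) I) cf (okc (Ye i e) kc))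
    (fun ω => g l e ω.2.1 ω.2.2) (r q) V K G z with hBd
  have hlab : ∀ u ∈ S, ∀ v ∈ T', Ye i e z u v ∈ iv K := fun u hu v hv =>
    hM.2.1 u (hSs hu) v (hTs hv)
  -- the cell of the competitor
  have hBop : OpS S T' B (r q * 2 ^ m) := b_cell (hB l) (hr0 q) hV ht
  have hgp0 : 0 ≤ gpS A B S T' (r q * 2 ^ m) := gpS_nonneg A (mul_nonneg (hr0 q) (by positivity)) hBop
  have hE0 : 0 ≤ ∑ u ∈ S, ∑ v ∈ T', ‖A u v‖ ^ 2 :=
    Finset.sum_nonneg fun _ _ => Finset.sum_nonneg fun _ _ => sq_nonneg _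
  have hrhs : 0 ≤ C1 * R / 2 * gpS A B S T' (r q * 2 ^ m) +
      C2 * (2 * (1 / 2) ^ j0) * ∑ u ∈ S, ∑ v ∈ T', ‖A u v‖ ^ 2 := by positivity
  -- the left side by grid nodes
  have hL : ∑ u ∈ S, ∑ v ∈ T', (if poE i e (z, u, v) ∈ LayK V k0 j0 n0 K then 0 else
        ‖stK i e T g I kc Kl r K G l q (z, u, v) -
          Zff i e T g I kc Kl r V K G k0 j0 n0 l q (z, u, v)‖ ^ 2) =
      ∑ q0 ∈ QQ V k0 j0 n0 K, ∑ u ∈ S, ∑ v ∈ T', (if Ye i e z u v ∈ iv q0 then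
        ‖stK i e T g I kc Kl r K G l q (z, u, v) -
          Zff i e T g I kc Kl r V K G k0 j0 n0 l q (z, u, v)‖ ^ 2 else 0) := by
    rw [Finset.sum_congr rfl fun u hu => Finset.sum_congr rfl fun v hv =>
      lay_sum (V := V) (K := K) (k0 := k0) (j0 := j0) (n0 := n0) (y := poE i e (z, u, v))
        (hlab u hu v hv) _]
    rw [Finset.sum_congr rfl fun u _ => Finset.sum_comm, Finset.sum_comm]
    rfl
  by_cases hne : ∃ q0 ∈ QQ V k0 j0 n0 K, ∃ u ∈ dI m a, ∃ v ∈ dI m b, Ye i e z u v ∈ iv q0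
  swap
  · -- no grid node meets the cell
    push Not at hne
    rw [show (∑ u ∈ S, ∑ v ∈ T', (if poE i e (z, u, v) ∈ LayK V k0 j0 n0 K then 0 else
        ‖stK i e T g I kc Kl r K G l q (z, u, v) -
          Zff i e T g I kc Kl r V K G k0 j0 n0 l q (z, u, v)‖ ^ 2)) = 0 from by
      rw [hL]
      refine Finset.sum_eq_zero fun q0 hq0 => Finset.sum_eq_zero fun u hu =>
        Finset.sum_eq_zero fun v hv => ?_
      rw [if_neg (hne q0 hq0 u (hSs hu) v (hTs hv))]]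
    exact hrhs
  obtain ⟨hCG, hbig⟩ := hG l (z, m, a, b) ht hne
  simp only at hCG hbig
  · -- a framed step
    have hst : ∀ u ∈ S, ∀ v ∈ T', stK i e T g I kc Kl r K G l q (z, u, v) =
        cl A S T' (r (q + 1) * 2 ^ m) u v - cl A S T' (r q * 2 ^ m) u v :=
      fun u hu v hv => st_cell (hB l) hr0 ht hq1 hu hv
    have hSV := sv A S T'
    have hstep := hSV.step_eq (ρ := r q * 2 ^ m) (ρ' := r (q + 1) * 2 ^ m)
      (mul_nonneg (hr0 q) (by positivity)) (mul_nonneg (hr0 _) (by positivity))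
    have hop : ∀ c ∈ Til (Ye i e) kc V z m a b, OpS (Rw c) (Cl c) B (r q * 2 ^ c.1) :=
      fun c hc => til_op (hB l) (fun ω => g l e ω.2.1 ω.2.2) (hr0 q) hV G hV.top hM hc
    have h1 := hCT m a b _ _ _ _ _ _ A B S T' (sS A S T') (sY A S T') (sX A S T') (r q) (r (q + 1))
      hCG (hr q) (hmono q) hop hSV hSs hTs
    have h2 : ∑ q0 ∈ QQ V k0 j0 n0 K, ∑ u ∈ S, ∑ v ∈ T', (if Ye i e z u v ∈ iv q0 then
        ‖stK i e T g I kc Kl r K G l q (z, u, v) -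
          Zff i e T g I kc Kl r V K G k0 j0 n0 l q (z, u, v)‖ ^ 2 else 0) =
      ∑ q0 ∈ QQ V k0 j0 n0 K, ∑ u ∈ S, ∑ v ∈ T', (if Ye i e z u v ∈ iv q0 then
        ‖∑ k ∈ T', (dk (sS A S T') (r q * 2 ^ m) (r (q + 1) * 2 ^ m) k : ℂ) * sY A S T' k u *
            conj (sX A S T' k v) -
          ∑ k ∈ T', Pu m a b (E1 (Ye i e) kc V j0 K z m a b) (E2 (Ye i e) kc V n0 q0 z m a b) B
            (r q) (2 ^ (K.1 - j0)) (sY A S T')
            (dk (sS A S T') (r q * 2 ^ m) (r (q + 1) * 2 ^ m)) u k *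
          Qv m a b (E1 (Ye i e) kc V j0 K z m a b) (E2 (Ye i e) kc V n0 q0 z m a b) B
            (r q) (2 ^ (K.1 - j0)) (sX A S T')
            (dk (sS A S T') (r q * 2 ^ m) (r (q + 1) * 2 ^ m)) v k‖ ^ 2 else 0) := by
      refine Finset.sum_congr rfl fun q0 hq0 => Finset.sum_congr rfl fun u hu =>
        Finset.sum_congr rfl fun v hv => ?_
      by_cases hy : Ye i e z u v ∈ iv q0
      · rw [if_pos hy, if_pos hy, hst u hu v hv, hstep u hu v hv]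
        congr 3
        exact ZF_cell hr0 hM (hSs hu) (hTs hv) hq1 hq0 hy
      · rw [if_neg hy, if_neg hy]
    rw [hL, h2]
    refine h1.trans (?_ : _ ≤ C1 * R / 2 * gpS A B S T' (r q * 2 ^ m) +
      C2 * (2 * (1 / 2) ^ j0) * ∑ u ∈ S, ∑ v ∈ T', ‖A u v‖ ^ 2)
    have h3 := hSV.gap_le (ρ := r q * 2 ^ m) (mul_nonneg (hr0 q) (by positivity)) B
    have h4 : Gd B S T' (sY A S T') (sX A S T') (sS A S T') (r q * 2 ^ m) ≤
        gpS A B S T' (r q * 2 ^ m) / 2 := by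
      unfold NrWx259.Gd gpS
      linarith
    have h5 : 0 ≤ Gd B S T' (sY A S T') (sX A S T') (sS A S T') (r q * 2 ^ m) :=
      Finset.sum_nonneg fun k _ => mul_nonneg (le_max_right _ _)
        (dfc_nonneg (mul_nonneg (hr0 q) (by positivity)) hSV hBop k)
    have h6 : (r (q + 1) - r q) / r q ≤ R := by
      rw [div_le_iff₀ (hr q)]
      have := hRr q
      have := (hr q).le
      linarith
    have h7 : ∑ k ∈ T', dk (sS A S T') (r q * 2 ^ m) (r (q + 1) * 2 ^ m) k ^ 2 ≤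
        ∑ u ∈ S, ∑ v ∈ T', ‖A u v‖ ^ 2 := by
      rw [← hSV.hsA]
      refine Finset.sum_le_sum fun k _ => ?_
      have hm : r q * 2 ^ m ≤ r (q + 1) * 2 ^ m :=
        mul_le_mul_of_nonneg_right (hmono q) (by positivity)
      have a1 := dk_nonneg (s := sS A S T') hm k
      have a2 := dk_le_max (s := sS A S T') (ρ := r q * 2 ^ m) (ρ' := r (q + 1) * 2 ^ m) k
      have a3 : max (sS A S T' k - r q * 2 ^ m) 0 ≤ sS A S T' k := by
        refine max_le ?_ (hSV.nn k)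
        have : 0 ≤ r q * 2 ^ m := mul_nonneg (hr0 q) (by positivity)
        linarith
      exact pow_le_pow_left₀ a1 (a2.trans a3) 2
    have h8 : (2 : ℝ) ^ (K.1 - j0) / 2 ^ m ≤ 2 * (1 / 2) ^ j0 := by
      obtain ⟨q0, hq0, _⟩ := hne
      have hj : q0.1 + j0 = K.1 := (QQ_spec hV hq0).2.1
      rw [div_le_iff₀ (by positivity)]
      have e1 : K.1 - j0 + j0 = K.1 := by omega
      have e2 : (2 : ℝ) ^ K.1 ≤ 2 ^ (m + 1) := pow_le_pow_right₀ (by norm_num) hbig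
      have e3 : (2 : ℝ) ^ (K.1 - j0) = 2 ^ K.1 * (1 / 2) ^ j0 := by
        conv_rhs => rw [← e1, pow_add, mul_assoc, ← mul_pow]
        norm_num
      rw [e3]
      have e4 : (0 : ℝ) < (1 / 2) ^ j0 := by positivity
      calc (2 : ℝ) ^ K.1 * (1 / 2) ^ j0 ≤ 2 ^ (m + 1) * (1 / 2) ^ j0 :=
            mul_le_mul_of_nonneg_right e2 e4.le
        _ = _ := by rw [pow_succ]; ring
    have h9 : 0 ≤ ∑ k ∈ T', dk (sS A S T') (r q * 2 ^ m) (r (q + 1) * 2 ^ m) k ^ 2 :=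
      Finset.sum_nonneg fun _ _ => sq_nonneg _
    refine add_le_add ?_ ?_
    · calc C1 * ((r (q + 1) - r q) / r q) *
          Gd B S T' (sY A S T') (sX A S T') (sS A S T') (r q * 2 ^ m)
          ≤ C1 * R * (gpS A B S T' (r q * 2 ^ m) / 2) :=
            mul_le_mul (mul_le_mul_of_nonneg_left h6 hC1) h4 h5 (by positivity)
        _ = _ := by ring
    · exact mul_le_mul (mul_le_mul_of_nonneg_left h8 hC2) h7 h9 (by positivity)

/-- the per-cell input with 360's kernels -/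
theorem cellLt_zfX {ν R : ℝ} (hR : 1 ≤ R)
    (hB : ∀ l, Bnd (BdE i e (T l) I) (poE i e) (NmP (SE i e (T l) I) cf (okc (Ye i e) kc)) ν)
    (hr : ∀ q, 0 < r q) (hmono : ∀ q, r q ≤ r (q + 1)) (hRr : ∀ q, r (q + 1) ≤ R * r q)
    (hV : Full V K) (hk0 : 9 ≤ k0) (hkj : k0 ≤ j0) :
    ErNx255.CellLt i e T g I kc Kl r V K G (LayK V k0 j0 n0 K)
      (FrZx360.zfX i e kc j0 n0 Kl V K I T g r G (QQ V k0 j0 n0 K))
      (K1c 7 (1 / 2 ^ (k0 + 3)) * R / 2) (K2c 7 (1 / 2 ^ (k0 + 3)) * (2 * (1 / 2) ^ j0)) :=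
  cell_lt (K1c_nonneg 7 (by positivity)) (K2c_nonneg 7 _) hR (cellT 7 (by positivity)) hB hr hmono
    hRr hV (geoF hV hk0 hkj)

end

end Crest.Agent.R079.NrFx228
end

-- ▼ part R079/GnE_263

/-! R079, T7 (helper263): THE ERROR HALF OF `NJ_112.InES` WITH NUMBERS, at the parameters `NL_112.parF`.

* `PsF`      : the frame letters of one generation at the parameters of `parF`;
* **`errF`** : `2 ^ (k0 + 3) * ∑_c len Q * av Q (ek ..)² ≤ ω t ^ c1 len Q` for every `Q ∈ R`. -/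

set_option autoImplicit false

namespace Crest.Agent.R079.GnEx263

open Finset Crest.Agent.R079.Grid Crest.Agent.R079.Growth Crest.Agent.R079.QRed
  Crest.Agent.R079.TWin
open Crest.Agent.R079.RelW653 (vl NMP Jv Dv)
open Crest.Agent.R079.RelV653 Crest.Agent.R079.HWx323 Crest.Agent.R079.Chn110
open Crest.Agent.R079.TRec Crest.Agent.R079.T6bx252 Crest.Agent.R079.Tailx726 Crest.Agent.R079.Stk
  Crest.Agent.R079.AsmA844
open Crest.Agent.R079.FLDx263 Crest.Agent.R079.GnSx263 Crest.Agent.R079.GnNx263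
  Crest.Agent.R079.PFx263 Crest.Agent.R079.GaDx571 Crest.Agent.R079.GaFx371
  Crest.Agent.R079.WS112 Crest.Agent.R079.WS0112 Crest.Agent.R079.POx263
  Crest.Agent.R079.OpS276 Crest.Agent.R079.GnUx263 Crest.Agent.R079.SbWx795
open Crest.Agent.R079.NJ112 Crest.Agent.R079.NL112 Crest.Agent.R079.GaQx571
open Crest.Agent.R079.ErMx255 Crest.Agent.R079.ErOx255 Crest.Agent.R079.NrEx228

/-- exponent of the top threshold -/
noncomputable def topx (P : Prm) (i : Fin 4) : ℝ := (xxC P i + ffC P i) / 2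

/-- **top threshold**: `2 ^ 7 √(Hf Ht) * 3` is below the last step of the ladder -/
theorem top_le {P : Prm} {i : Fin 4} {c1 y : ℝ} {k0 Kl : ℕ} {M Ko t : ℝ} (ht : 0 < t)
    (ht0 : t ≤ 1 / 700) (hKl : 2 * P.θ + topx P i + 1 ≤ ((Kl : ℝ) - 1) * y) {q : ℕ}
    (hq : q + 1 = Kl) :
    2 ^ 7 * Real.sqrt (HfC P i t * HtC P i t) * 3 ≤ (parF P c1 y k0 Kl M Ko).r t q := by
  have ht1 : t ≤ 1 := ht0.trans (by norm_num)
  have hq' : ((Kl : ℝ) - 1) = q := by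
    rw [← hq]
    push_cast
    ring
  rw [hq'] at hKl
  have e1 : HfC P i t * HtC P i t = 3 * (t ^ (-topx P i)) ^ 2 := by
    unfold HfC HtC topx
    rw [sq, pw_add ht, mul_comm (t ^ (-ffC P i)), mul_assoc, pw_add ht]
    congr 2
    ring
  have e2 : Real.sqrt (HfC P i t * HtC P i t) ≤ 1.74 * t ^ (-topx P i) := by
    rw [e1]
    refine Real.sqrt_le_iff.2 ⟨by have := pw_pos ht (-topx P i); positivity, ?_⟩
    have := sq_nonneg (t ^ (-topx P i))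
    nlinarith
  have e3 : t ^ (-topx P i) * 700 ≤ t ^ (-topx P i) * t ^ (-(1 : ℝ)) := by
    refine mul_le_mul_of_nonneg_left ?_ (pw_pos ht _).le
    rw [Real.rpow_neg_one, le_inv_comm₀ (by norm_num) ht]
    linarith
  have e4 : t ^ (-topx P i) * t ^ (-(1 : ℝ)) ≤ (parF P c1 y k0 Kl M Ko).r t q := by
    rw [pw_add ht]
    show _ ≤ t ^ (2 * P.θ - y * (q : ℝ))
    exact pw_le ht ht1 (by linarith)
  have e5 := pw_pos ht (-topx P i)
  calc 2 ^ 7 * Real.sqrt (HfC P i t * HtC P i t) * 3 ≤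
        2 ^ 7 * (1.74 * t ^ (-topx P i)) * 3 := by linarith
    _ ≤ t ^ (-topx P i) * 700 := by nlinarith
    _ ≤ _ := e3.trans e4

/-- ladder of `parF`: positive -/
lemma parF_rpos {P : Prm} {c1 y : ℝ} {k0 Kl : ℕ} {M Ko t : ℝ} (ht : 0 < t) (q : ℕ) :
    0 < (parF P c1 y k0 Kl M Ko).r t q := Real.rpow_pos_of_pos ht _

/-- ladder of `parF`: increasing -/
lemma parF_mono {P : Prm} {c1 y : ℝ} {k0 Kl : ℕ} {M Ko t : ℝ} (ht : 0 < t) (ht1 : t ≤ 1)
    (hy : 0 ≤ y) (q : ℕ) :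
    (parF P c1 y k0 Kl M Ko).r t q ≤ (parF P c1 y k0 Kl M Ko).r t (q + 1) := by
  rw [parF_step ht]
  have h1 := one_le_pw ht ht1 hy
  have h2 := (parF_rpos (P := P) (c1 := c1) (y := y) (k0 := k0) (Kl := Kl) (M := M) (Ko := Ko)
    ht q).le
  nlinarith

/-- **THE ERROR HALF OF `InES`** at the parameters `parF` -/
theorem errF (P : Prm) (d ε : ℝ) {k : ℝ} (hk : 0 ≤ k) (q3 : ℝ) (i m e e' : Fin 4) {c1 y : ℝ}
    (hc1 : 0 ≤ c1) (hy : 0 ≤ y) {k0 : ℕ} (hk0 : 9 ≤ k0) (Kl : ℕ)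
    (hKl : 2 * P.θ + topx P i + 1 ≤ ((Kl : ℝ) - 1) * y) :
    ∃ Ko0 : ℝ, 1 ≤ Ko0 ∧ ∀ Ko, Ko0 ≤ Ko → ∀ M : ℝ,
      ∀ {N : ℕ} {B t : ℝ} {W : Finset Nd} {I : Nd} {F : Fin 4 → Fn} {xy : Fin 2 → Fin 4}
        {bb : ℤ} {E : ℕ → ℤ → ℂ} {R : Finset Nd} {J : Nd} {Z : Fin 2 → Fn} {v : Fin 3} {n : ℕ}
        {T : Fin n → Fin 3 → Finset ℤ} {g : Fin n → Fin 3 → ℤ → ℤ → ℂ} {al : Fin n → ℤ → ℝ}
        {mu : Fin n → ℝ} {es : Fin 2 → Fin 3},
      Su P d ε k q3 i m e e' N B t W I F xy bb E R J Z v n T g al mu es → t ≤ 1 / 700 →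
      ∀ η : ℝ, η ≤ t ^ c1 → ∀ f : Fin 2 → Nd → Fn,
        (∀ c', NMP (fun _ _ => True)
          (PhiC P ε i T g mu I t ((parF P c1 y k0 Kl M Ko).kap t) ((parF P c1 y k0 Kl M Ko).kc t)
            ((parF P c1 y k0 Kl M Ko).Kl t) ((parF P c1 y k0 Kl M Ko).r t) es c') (Z c') η (f c')) →
        ∀ Q ∈ R, 2 ^ ((parF P c1 y k0 Kl M Ko).k0 + 3) * ∑ c', len Q * av Q (ek Z f (VG R
          (PhiC P ε i T g mu I t ((parF P c1 y k0 Kl M Ko).kap t) ((parF P c1 y k0 Kl M Ko).kc t)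
            ((parF P c1 y k0 Kl M Ko).Kl t) ((parF P c1 y k0 Kl M Ko).r t) es) Z η f (t ^ c1))
          (PsX i T g mu I (LaC P ε i t) ((parF P c1 y k0 Kl M Ko).kap t)
            ((parF P c1 y k0 Kl M Ko).kc t) ((parF P c1 y k0 Kl M Ko).Kl t)
            ((parF P c1 y k0 Kl M Ko).r t) es f
            (VG R (PhiC P ε i T g mu I t ((parF P c1 y k0 Kl M Ko).kap t)
              ((parF P c1 y k0 Kl M Ko).kc t) ((parF P c1 y k0 Kl M Ko).Kl t)
              ((parF P c1 y k0 Kl M Ko).r t) es) Z η f (t ^ c1)) (parF P c1 y k0 Kl M Ko).k0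
              ((parF P c1 y k0 Kl M Ko).j0 t) ((parF P c1 y k0 Kl M Ko).n0 t)) c' Q) ^ 2 ≤
          (parF P c1 y k0 Kl M Ko).om t * t ^ c1 * len Q := by
  set A1 : ℝ := K1c 7 (1 / 2 ^ (k0 + 3)) with hA1
  set A2 : ℝ := K2c 7 (1 / 2 ^ (k0 + 3)) with hA2
  have hA10 : 0 ≤ A1 := K1c_nonneg 7 (by positivity)
  have hA20 : 0 ≤ A2 := K2c_nonneg 7 _
  obtain ⟨K, hK1, hK⟩ := NumS112.num_err (A := 3 + A1 + 2 * A2) (by linarith) Kl (k0 + 3)
    (kx := 4 * y) (e' := y) (c1 := c1) (a := 9 * y) (by linarith) hy (by linarith)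
  refine ⟨K, hK1, ?_⟩
  intro Ko hKo M N B t W I F xy bb E R J Z v n T g al mu es hS ht0 η hη f hf Q hQ
  have ht := hS.t0
  have ht1 : t ≤ 1 := ht0.trans (by norm_num)
  set p := parF P c1 y k0 Kl M Ko with hp
  have hc0 := pw_pos ht c1
  have hη1 : η ≤ 1 := hη.trans (Real.rpow_le_one ht.le ht1 hc1)
  have hkap : 0 ≤ p.kap t := (Real.rpow_pos_of_pos ht _).le
  have hR : 1 ≤ t ^ (-y) := one_le_pw ht ht1 hy
  have hj : (1 : ℝ) / 2 ^ lev c1 t ≤ t ^ c1 := lev_le hc1 ht ht1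
  have hjk : k0 ≤ k0 + lev c1 t := Nat.le_add_right _ _
  set C1 : ℝ := A1 * t ^ (-y) / 2 with hC1
  set C2 : ℝ := A2 * (2 * (1 / 2) ^ (k0 + lev c1 t)) with hC2
  have hC10 : 0 ≤ C1 := by positivity
  have hC20 : 0 ≤ C2 := by positivity
  have hfull : Full R J := hS.full
  have hcell : CellsX i T g I (p.kc t) (p.Kl t) (p.r t) es f
      (VG R (PhiC P ε i T g mu I t (p.kap t) (p.kc t) (p.Kl t) (p.r t) es) Z η f (t ^ c1)) k0
      (k0 + lev c1 t) (lev M t) C1 C2 Q := by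
    intro c
    refine NrFx228.cellLt_zfX (ν := 1 / (sd I : ℝ) ^ 2) hR
      (fun l => bnd_E i (es c) I (sd_pos I) (hS.fam.opD l).card _)
      (fun q => parF_rpos ht q) (fun q => parF_mono ht ht1 hy q) (fun q => ?_)
      (VK_full hfull hQ) hk0 hjk
    exact (parF_step ht q).le
  have h1 := hE_psX hS hk hkap (p.kc t) (p.Kl t) (r := p.r t) (fun q => (parF_rpos ht q).le)
    (fun q hq => top_le ht ht0 hKl hq) hc0.le hη hη1 hf (k0 := k0) (j0 := k0 + lev c1 t)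
    (n0 := lev M t) (by omega) hC10 hC20 hQ hcell
  have h2 := hK t ht ht1 C1 C2 (t ^ c1) (t ^ c1) (Real.sqrt 6) hC10 (by
      have := pw_pos ht (-y)
      rw [hC1]
      nlinarith) hC20 (by
      have e1 : (1 / 2 : ℝ) ^ (k0 + lev c1 t) ≤ t ^ c1 := by
        have e2 : (1 / 2 : ℝ) ^ (k0 + lev c1 t) ≤ (1 / 2) ^ lev c1 t :=
          pow_le_pow_of_le_one (by norm_num) (by norm_num) (Nat.le_add_left _ _)
        rw [one_div_pow] at e2 ⊢
        rw [one_div_pow] at e2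
        exact e2.trans hj
      have e3 := mul_le_mul_of_nonneg_left e1 hA20
      rw [hC2]
      nlinarith) hc0.le le_rfl hc0.le le_rfl (Real.sqrt_nonneg _) (by
      have : Real.sqrt 6 ≤ 3 := Real.sqrt_le_iff.2 ⟨by norm_num, by norm_num⟩
      linarith)
  rw [Real.sq_sqrt (by norm_num), ← two_mul] at h2
  have hlQ := (Growth.len_pos Q).le
  calc (2 : ℝ) ^ (p.k0 + 3) * ∑ c', len Q * av Q (ek Z f (VG R
          (PhiC P ε i T g mu I t (p.kap t) (p.kc t) (p.Kl t) (p.r t) es) Z η f (t ^ c1))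
          (PsX i T g mu I (LaC P ε i t) (p.kap t) (p.kc t) (p.Kl t) (p.r t) es f
            (VG R (PhiC P ε i T g mu I t (p.kap t) (p.kc t) (p.Kl t) (p.r t) es) Z η f (t ^ c1))
            p.k0 (p.j0 t) (p.n0 t)) c' Q) ^ 2
      ≤ 2 ^ (k0 + 3) * (lnum (p.kap t) (p.Kl t) C1 C2 (t ^ c1) * len Q) :=
        mul_le_mul_of_nonneg_left h1 (by positivity)
    _ = (2 ^ (k0 + 3) * lnum (t ^ (-(4 * y))) Kl C1 C2 (t ^ c1)) * len Q := by
        rw [← mul_assoc]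
        rfl
    _ ≤ (K * t ^ (-(9 * y)) * t ^ c1) * len Q := mul_le_mul_of_nonneg_right h2 hlQ
    _ ≤ (Ko * t ^ (-(9 * y)) * t ^ c1) * len Q := by
        have := pw_pos ht (-(9 * y))
        gcongr
    _ = _ := rfl

end Crest.Agent.R079.GnEx263
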