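import Crest.Agent.R079.WinA_222
import Crest.Agent.R079.PIter_110

-- ▼ part R079/Chn_110
section

/-! R079, doc 2541 (673), (4): LEVEL SETS AND BUDGETS OF AN OWN-NODE FIELD (helper110).

`dev I p` = squared distance at the node `p` of the own-node field of `I` and of `p`; `D q` = one step
drift at the node `q`.  Nested windows `V_0, V_1, ..`: level `l` has fineness `dl * 4^-l`, number
`<= K * 4^l`, so that `sum_{tops of level l+1} |v| dev (top of its level l window, v) <= 4 K dl`,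
for EVERY level: the budget of 2541 (4), which feeds `Move59.move`. -/

set_option autoImplicit false

namespace Crest.Agent.R079.Chn110

open Finset Crest.Agent.R079.Grid Crest.Agent.R079.Growth Crest.Agent.R079.QRed
  Crest.Agent.R079.TWin Crest.Agent.R079.Qe292 Crest.Agent.R079.Qh249

open Classical in
/-- own drift of the region `R` below `p` -/
noncomputable def dr (R : Finset Nd) (D : Nd → ℝ) (p : Nd) : ℝ :=
  ∑ q ∈ (R \ lf R).filter (fun q => iv q ⊆ iv p), len q * D q

lemma nl_sub {W R : Finset Nd} (h : W ⊆ R) {q : Nd} (hq : q ∈ W) (hl : q ∉ lf W) :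
    q ∈ R ∧ q ∉ lf R := by
  refine ⟨h hq, fun hc => hl (mem_lf.2 ⟨hq, fun q' hq' hs => (mem_lf.1 hc).2 q' (h hq') hs⟩)⟩

lemma dr_nonneg {R : Finset Nd} {D : Nd → ℝ} (hD : ∀ q, 0 ≤ D q) (p : Nd) : 0 ≤ dr R D p :=
  Finset.sum_nonneg fun q _ => mul_nonneg (Growth.len_pos q).le (hD q)

lemma dr_mono {W R : Finset Nd} (h : W ⊆ R) {D : Nd → ℝ} (hD : ∀ q, 0 ≤ D q) (p : Nd) :
    dr W D p ≤ dr R D p := by
  classical
  unfold dr
  refine Finset.sum_le_sum_of_subset_of_nonneg ?_
    fun q _ _ => mul_nonneg (Growth.len_pos q).le (hD q)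
  intro q hq
  rw [Finset.mem_filter, Finset.mem_sdiff] at hq ⊢
  exact ⟨nl_sub h hq.1.1 hq.1.2, hq.2⟩



/-- drift axioms of an own-node field on the region `R` -/
structure Fld (R : Finset Nd) (D : Nd → ℝ) (dev : Nd → Nd → ℝ) (P₀ : ℝ) : Prop where
  D0 : ∀ q, 0 ≤ D q
  dev0 : ∀ I p, 0 ≤ dev I p
  self : ∀ I, dev I I = 0
  le : ∀ I ∈ R, ∀ W : Finset Nd, Full W I → W ⊆ R →
    ∑ p ∈ lf W, len p * dev I p ≤ ∑ q ∈ W \ lf W, len q * D q
  bd : ∀ p ∈ R, dr R D p ≤ len p * P₀

variable {R : Finset Nd} {J : Nd} {D : Nd → ℝ} {dev : Nd → Nd → ℝ} {P₀ : ℝ}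

lemma Fld.sub (h : Fld R D dev P₀) {W : Finset Nd} (hW : W ⊆ R) : Fld W D dev P₀ :=
  ⟨h.D0, h.dev0, h.self, fun I hI V hV hVW => h.le I (hW hI) V hV (hVW.trans hW),
    fun p hp => (dr_mono hW h.D0 p).trans (h.bd p (hW hp))⟩






end Crest.Agent.R079.Chn110
end

-- ▼ part R079/GLA_110
section

/-! R079, doc 2541 (673), (5): GRADED LOOK-AHEAD WINDOWS (helper110).

Uniform exit level `dp K` for the frames of every window, local smallness of `dev` at EVERY node of
the window, weighted number of windows `∑ len K * θ (lv K)` bounded, independently of the depth. -/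

set_option autoImplicit false

namespace Crest.Agent.R079.GLA110

open Finset Crest.Agent.R079.Grid Crest.Agent.R079.Growth Crest.Agent.R079.QRed
  Crest.Agent.R079.TWin Crest.Agent.R079.Qe292

open Classical in
/-- nodes of `R` below `P` of level `≥ d` -/
noncomputable def Wf (R : Finset Nd) (P : Nd) (d : ℕ) : Finset Nd :=
  R.filter (fun p => iv p ⊆ iv P ∧ d ≤ p.1)

open Classical in
/-- own drift below `P` strictly above level `d` (`D = 0` on the leaves of `R`) -/
noncomputable def la (R : Finset Nd) (D : Nd → ℝ) (P : Nd) (d : ℕ) : ℝ :=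
  ∑ q ∈ R.filter (fun q => iv q ⊆ iv P ∧ d < q.1), len q * D q

lemma mem_Wf {R : Finset Nd} {P p : Nd} {d : ℕ} :
    p ∈ Wf R P d ↔ p ∈ R ∧ iv p ⊆ iv P ∧ d ≤ p.1 := by
  unfold Wf
  rw [Finset.mem_filter]

lemma Wf_sub {R : Finset Nd} {P : Nd} {d : ℕ} : Wf R P d ⊆ R := fun _ hp => (mem_Wf.1 hp).1

lemma Wf_full {R : Finset Nd} {J : Nd} (hR : Full R J) {P : Nd} (hP : P ∈ R) {d : ℕ}
    (hd : d ≤ P.1) : Full (Wf R P d) P := by
  refine ⟨⟨fun p hp => (mem_Wf.1 hp).2.1, fun p hp q h1 h2 => ?_⟩, mem_Wf.2 ⟨hP, subset_rfl, hd⟩,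
    fun m l hq => ?_⟩
  · have h := mem_Wf.1 hp
    exact mem_Wf.2 ⟨hR.reg.2 p h.1 q h1 (h2.trans (hR.reg.1 P hP)), h2, h.2.2.trans (Qe292.iv_level h1)⟩
  · have h := mem_Wf.1 hq
    have hb := hR.bin m l h.1
    constructor
    · intro hc
      have h' := mem_Wf.1 hc
      exact mem_Wf.2 ⟨hb.1 h'.1, (sub_ch1 m l).trans h.2.1, h'.2.2⟩
    · intro hc
      have h' := mem_Wf.1 hc
      exact mem_Wf.2 ⟨hb.2 h'.1, (sub_ch0 m l).trans h.2.1, h'.2.2⟩





/-- a system of windows of the region `R'` (labels `lv`, `dp`; property `G`) -/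
structure Sys (R' S : Finset Nd) (V : Nd → Finset Nd) (lv dp : Nd → ℕ)
    (G : Nd → Finset Nd → ℕ → ℕ → Prop) : Prop where
  sub : S ⊆ R'
  full : ∀ K ∈ S, Full (V K) K
  wsub : ∀ K ∈ S, V K ⊆ R'
  disj : ∀ K ∈ S, ∀ K' ∈ S, K ≠ K' → Disjoint (V K) (V K')
  cover : ∀ p ∈ R', ∃ K ∈ S, p ∈ V K
  good : ∀ K ∈ S, G K (V K) (lv K) (dp K)


/-- the property of a graded window: top `K`, node set `W`, grade `j`, exit level `d` -/
def Gd (R : Finset Nd) (D : Nd → ℝ) (dev : Nd → ℕ → Nd → ℝ) (θ : ℕ → ℝ) (n : ℕ) (K : Nd)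
    (W : Finset Nd) (j d : ℕ) : Prop :=
  d ≤ K.1 ∧ W ⊆ Wf R K d ∧ la R D K d ≤ θ j * len K ∧ (∀ p ∈ W, dev K d p ≤ θ (j + 1)) ∧ j ≤ n

/-- ancestor of level `m` -/
lemma anc {p I : Nd} (h : iv p ⊆ iv I) {m : ℕ} (h1 : p.1 ≤ m) (h2 : m ≤ I.1) :
    ∃ q : Nd, q.1 = m ∧ iv p ⊆ iv q ∧ iv q ⊆ iv I := by
  obtain ⟨j, hj⟩ := iv_sub_iff.1 h
  obtain ⟨i, rfl⟩ := Nat.exists_eq_add_of_le h1
  have e1 : I.1 = p.1 + j := by rw [hj]
  obtain ⟨k, hk⟩ : ∃ k, j = i + k := ⟨j - i, by omega⟩
  refine ⟨(p.1 + i, p.2 / 2 ^ i), rfl, iv_sub_iff.2 ⟨i, rfl⟩, iv_sub_iff.2 ⟨k, ?_⟩⟩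
  rw [hj, hk]
  refine Prod.ext ?_ ?_
  · simp only; omega
  · simp only
    rw [L0e.ediv_pow_pow]

lemma eq_of_sub_level {x x' : Nd} (h : iv x ⊆ iv x') (hl : x.1 = x'.1) : x = x' := by
  obtain ⟨j, hj⟩ := iv_sub_iff.1 h
  have e : j = 0 := by
    have := congrArg Prod.fst hj
    simp only at this
    omega
  subst e
  rw [hj]
  simp






/-- a system is a `Part` (crude count constant) -/
lemma Sys.part {R' S : Finset Nd} {V : Nd → Finset Nd} {lv dp : Nd → ℕ}
    {G : Nd → Finset Nd → ℕ → ℕ → Prop} (h : Sys R' S V lv dp G) :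
    Part R' S V (∑ K ∈ S, len K) := by
  refine ⟨h.sub, h.full, h.wsub, h.disj, h.cover, fun p _ => ?_⟩
  have h1 : ∑ K ∈ S.filter (fun K => iv K ⊆ iv p), len K ≤ ∑ K ∈ S, len K :=
    Finset.sum_le_sum_of_subset_of_nonneg (Finset.filter_subset _ _)
      fun K _ _ => (Growth.len_pos K).le
  have h2 : (1 : ℝ) ≤ len p := by
    unfold len
    exact_mod_cast Nat.one_le_two_pow
  have h3 : 0 ≤ ∑ K ∈ S, len K := Finset.sum_nonneg fun K _ => (Growth.len_pos K).le
  nlinarith



end Crest.Agent.R079.GLA110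
end

-- ▼ part R079/AU_110
section

/-! R079, Step I: ALMOST UNIFORM WINDOWS (helper110).

Stop rule `dev K p ≤ δ` of the OWN top, cut at one depth `dp K` such that the stops above the cut
(spots) have total length `≤ μ * len K`.  Number of windows `≤ 2 + 2 P₀ / (μ δ)` per unit length:
the drift inside a spot is never charged. -/

set_option autoImplicit false

namespace Crest.Agent.R079.AU110

open Finset Crest.Agent.R079.Grid Crest.Agent.R079.Growth Crest.Agent.R079.QRed
  Crest.Agent.R079.TWin Crest.Agent.R079.Qe292 Crest.Agent.R079.Qh249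
  Crest.Agent.R079.GLA110 Crest.Agent.R079.Chn110

/-- total length of the spots of level `≥ d` -/
noncomputable def sp (R : Finset Nd) (dev : Nd → Nd → ℝ) (δ : ℝ) (K : Nd) (d : ℕ) : ℝ :=
  ∑ c ∈ Tp (Wf R K d) dev δ K, len c


variable {R : Finset Nd} {J : Nd} {D : Nd → ℝ} {dev : Nd → Nd → ℝ} {P₀ δ μ : ℝ}




end Crest.Agent.R079.AU110
end

-- ▼ part R079/HWa_323
section

/-! R079, notes 1119 (helper55) + 1128 (helper323): tools for the TREE LEMMA of the windows with holes
(helper323): exits of a window, adding sibling pairs, accumulated drift = drift of the inner nodes. -/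

set_option autoImplicit false

namespace Crest.Agent.R079.HWx323

open Finset Crest.Agent.R079.Grid Crest.Agent.R079.Growth Crest.Agent.R079.QRed
  Crest.Agent.R079.TWin Crest.Agent.R079.Qe292 Crest.Agent.R079.Qh249
  Crest.Agent.R079.GLA110 Crest.Agent.R079.Chn110

/-! ### exits of a window -/

open Classical in
/-- exits of the window `W` inside `R` -/
noncomputable def ex (R W : Finset Nd) : Finset Nd := R.filter (fun c => c ∉ W ∧ par c ∈ W)

lemma mem_ex {R W : Finset Nd} {c : Nd} : c ∈ ex R W ↔ c ∈ R ∧ c ∉ W ∧ par c ∈ W := by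
  unfold ex
  rw [Finset.mem_filter]

variable {R W : Finset Nd} {J I : Nd}

lemma ex_sub (hW : Full W I) {c : Nd} (hc : c ∈ ex R W) : iv c ⊆ iv I :=
  (iv_par c).trans (hW.reg.1 _ (mem_ex.1 hc).2.2)

lemma ex_level (hW : Full W I) {c : Nd} (hc : c ∈ ex R W) : c.1 < I.1 := by
  have h := Qe292.iv_level (hW.reg.1 _ (mem_ex.1 hc).2.2)
  simp only [par] at h
  omega

lemma up_mem (hW : Full W I) {p q : Nd} (hp : p ∈ W) (h1 : iv p ⊆ iv q) (h2 : iv q ⊆ iv I) :
    q ∈ W := hW.reg.2 p hp q h1 h2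

/-- nothing of the window is below an exit -/
lemma ex_notMem (hW : Full W I) {c p : Nd} (hc : c ∈ ex R W) (hp : iv p ⊆ iv c) : p ∉ W :=
  fun h => (mem_ex.1 hc).2.1 (up_mem hW h hp (ex_sub hW hc))

lemma ex_disj (hW : Full W I) {c c' : Nd} (hc : c ∈ ex R W) (hc' : c' ∈ ex R W) {p : Nd}
    (h : iv p ⊆ iv c) (h' : iv p ⊆ iv c') : c = c' := by
  have key : ∀ {a b : Nd}, a ∈ ex R W → b ∈ ex R W → iv a ⊆ iv b → a = b := by
    intro a b ha hb hab
    by_contra hne
    exact ex_notMem hW hb (par_sub hab hne) (mem_ex.1 ha).2.2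
  rcases sub_total h h' with h1 | h1
  · exact key hc hc' h1
  · exact (key hc' hc h1).symm

lemma ex_disj_iv (hW : Full W I) {c c' : Nd} (hc : c ∈ ex R W) (hc' : c' ∈ ex R W)
    (hne : c ≠ c') : Disjoint (iv c) (iv c') := by
  rw [Finset.disjoint_left]
  intro y hy hy'
  rcases iv_nest hy hy' with h1 | h1
  · exact hne (ex_disj hW hc hc' subset_rfl h1)
  · exact hne (ex_disj hW hc hc' h1 subset_rfl)

lemma ex_sib (hR : Full R J) (hW : Full W I) (hWR : W ⊆ R) {c : Nd} (hc : c ∈ ex R W) :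
    sib c ∈ ex R W := by
  have h := mem_ex.1 hc
  refine mem_ex.2 ⟨sib_mem hR h.1 (hWR h.2.2), fun hs => ?_, by rw [par_sib]; exact h.2.2⟩
  have := sib_mem hW hs (by rw [par_sib]; exact h.2.2)
  rw [sib_sib] at this
  exact h.2.1 this

/-- a node of `R` below `I` is in the window or below an exit -/
lemma ex_cover (hR : Full R J) (hW : Full W I) (hWR : W ⊆ R) :
    ∀ (n : ℕ) (p : Nd), I.1 = p.1 + n → p ∈ R → iv p ⊆ iv I → p ∉ W →
      ∃ c ∈ ex R W, iv p ⊆ iv c := by
  intro n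
  induction n with
  | zero =>
    intro p hn _ hpI hpW
    exact absurd (eq_of_sub_level hpI (by omega) ▸ hW.top) hpW
  | succ n ih =>
    intro p hn hp hpI hpW
    have hne : p ≠ I := by rintro rfl; omega
    have h1 := par_sub hpI hne
    have hpar : par p ∈ R :=
      hR.reg.2 p hp _ (iv_par p) (h1.trans (hR.reg.1 I (hWR hW.top)))
    by_cases hw : par p ∈ W
    · exact ⟨p, mem_ex.2 ⟨hp, hpW, hw⟩, subset_rfl⟩
    · obtain ⟨c, hc, hc'⟩ := ih (par p) (by simp only [par]; omega) hpar h1 hw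
      exact ⟨c, hc, (iv_par p).trans hc'⟩

lemma ex_cover' (hR : Full R J) (hW : Full W I) (hWR : W ⊆ R) {p : Nd} (hp : p ∈ R)
    (hpI : iv p ⊆ iv I) (hpW : p ∉ W) : ∃ c ∈ ex R W, iv p ⊆ iv c := by
  have hl := Qe292.iv_level hpI
  exact ex_cover hR hW hWR (I.1 - p.1) p (by omega) hp hpI hpW




/-! ### adding sibling pairs -/

open Classical in
/-- adding a sibling closed set of nodes whose parents are in the window -/
lemma full_add (hW : Full W I) {A : Finset Nd} (hp : ∀ c ∈ A, par c ∈ W)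
    (hs : ∀ c ∈ A, sib c ∈ A) : Full (W ∪ A) I := by
  refine ⟨⟨fun p hp' => ?_, fun p hp' q h1 h2 => ?_⟩, Finset.mem_union_left _ hW.top,
    bin_of fun c hc hpc => ?_⟩
  · rcases Finset.mem_union.1 hp' with h | h
    · exact hW.reg.1 p h
    · exact (iv_par p).trans (hW.reg.1 _ (hp p h))
  · rcases Finset.mem_union.1 hp' with h | h
    · exact Finset.mem_union_left _ (up_mem hW h h1 h2)
    · by_cases hqp : p = q
      · rw [← hqp]; exact hp'
      · exact Finset.mem_union_left _ (up_mem hW (hp p h) (par_sub h1 hqp) h2)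
  · rcases Finset.mem_union.1 hc with h | h
    · refine Finset.mem_union_left _ (sib_mem hW h ?_)
      refine up_mem hW h (iv_par c) ?_
      rcases Finset.mem_union.1 hpc with h' | h'
      · exact hW.reg.1 _ h'
      · exact (iv_par _).trans (hW.reg.1 _ (hp _ h'))
    · exact Finset.mem_union_right _ (hs c h)

open Classical in
lemma add_sub_lf (hW : Full W I) {A : Finset Nd} (hp : ∀ c ∈ A, par c ∈ W)
    (hn : ∀ c ∈ A, c ∉ W) : A ⊆ lf (W ∪ A) := by
  intro c hc
  refine mem_lf.2 ⟨Finset.mem_union_right _ hc, fun q hq hqc => ?_⟩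
  have hcI : iv c ⊆ iv I := (iv_par c).trans (hW.reg.1 _ (hp c hc))
  rcases Finset.mem_union.1 hq with h' | h'
  · exact absurd (up_mem hW h' hqc hcI) (hn c hc)
  · by_contra hne
    exact hn c hc (up_mem hW (hp q h') (par_sub hqc hne) hcI)

/-! ### accumulated drift -/

/-- **the accumulated drift at the leaves is the drift of the inner nodes** -/
lemma SL_acc_eq (hW : Full W I) (D : Nd → ℝ) :
    ∀ p ∈ W, SL W p (fun L => acc D p L) =
      ∑ q ∈ (W \ lf W).filter (fun q => iv q ⊆ iv p), len q * D q := by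
  classical
  refine full_ind hW (fun p hp => ?_) fun m l hp hnl h0 h1 e0 e1 => ?_
  · rw [SL_leaf hp, acc_self, mul_zero]
    symm
    refine Finset.sum_eq_zero fun q hq => ?_
    rw [Finset.mem_filter, Finset.mem_sdiff] at hq
    have := (mem_lf.1 hp).2 q hq.1.1 hq.2
    exact absurd (this ▸ hp) hq.1.2
  · have a0 := SL_acc_ch hW D (m := m) (l := l) (l' := 2 * l) (by omega) (sub_ch0 m l) h0
      (fun _ => 0)
    have a1 := SL_acc_ch hW D (m := m) (l := l) (l' := 2 * l + 1) (by omega) (sub_ch1 m l) h1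
      (fun _ => 0)
    simp only [zero_add] at a0 a1
    rw [SL_node hW hnl h0 h1, a0, a1, e0, e1]
    have hl0 : len (m + 1, l) = 2 * len (m, 2 * l) := len_ch m l _
    have hl1 : len (m, 2 * l + 1) = len (m, 2 * l) := rfl
    have hset : (W \ lf W).filter (fun q => iv q ⊆ iv (m + 1, l)) =
        insert (m + 1, l) ((W \ lf W).filter (fun q => iv q ⊆ iv (m, 2 * l)) ∪
          (W \ lf W).filter (fun q => iv q ⊆ iv (m, 2 * l + 1))) := by
      ext q
      simp only [Finset.mem_insert, Finset.mem_union, Finset.mem_filter]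
      constructor
      · rintro ⟨hq, hs⟩
        by_cases he : q = (m + 1, l)
        · exact Or.inl he
        right
        have hlev := Qe292.iv_level hs
        have hlt : q.1 < m + 1 := by
          rcases hlev.lt_or_eq with h | h
          · exact h
          · exact absurd (eq_of_sub_level hs h) he
        obtain ⟨y, hy⟩ := iv_nonempty q
        have hyp := hs hy
        rw [iv_ch, Finset.mem_union] at hyp
        rcases hyp with h | h
        · exact Or.inl ⟨hq, sub_of_level hy h (by simp only; omega)⟩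
        · exact Or.inr ⟨hq, sub_of_level hy h (by simp only; omega)⟩
      · rintro (rfl | ⟨hq, hs⟩ | ⟨hq, hs⟩)
        · exact ⟨Finset.mem_sdiff.2 ⟨hp, hnl⟩, subset_rfl⟩
        · exact ⟨hq, hs.trans (sub_ch0 m l)⟩
        · exact ⟨hq, hs.trans (sub_ch1 m l)⟩
    rw [hset, Finset.sum_insert, Finset.sum_union]
    · rw [hl0, hl1]
      ring
    · rw [Finset.disjoint_left]
      intro q hq hq'
      rw [Finset.mem_filter] at hq hq'
      obtain ⟨y, hy⟩ := iv_nonempty q
      exact Finset.disjoint_left.1 (disj_ch m l) (hq.2 hy) (hq'.2 hy)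
    · intro hmem
      rcases Finset.mem_union.1 hmem with h | h <;>
      · rw [Finset.mem_filter] at h
        have := Qe292.iv_level h.2
        simp only at this
        omega

lemma acc_lf_eq (hW : Full W I) (D : Nd → ℝ) :
    ∑ L ∈ lf W, len L * acc D I L = ∑ q ∈ W \ lf W, len q * D q := by
  classical
  have e : ∑ L ∈ lf W, len L * acc D I L = SL W I (fun L => acc D I L) := by
    unfold SL
    refine Finset.sum_congr ?_ fun _ _ => rfl
    exact (Finset.filter_eq_self.2 fun L hL => hW.reg.1 L (mem_lf.1 hL).1).symm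
  rw [e, SL_acc_eq hW D I hW.top]
  refine Finset.sum_congr ?_ fun _ _ => rfl
  rw [Finset.filter_eq_self]
  exact fun q hq => hW.reg.1 q (Finset.mem_sdiff.1 hq).1

/-- drift of the inner nodes below `x`: bounded by the bound of the accumulated drift -/
lemma drift_below_le (hW : Full W I) {D : Nd → ℝ} (hD : ∀ q, 0 ≤ D q) {τ : ℝ}
    (hg : ∀ L ∈ W, acc D I L ≤ τ) {x : Nd} (hx : x ∈ W) :
    ∑ q ∈ (W \ lf W).filter (fun q => iv q ⊆ iv x), len q * D q ≤ τ * len x := by
  rw [← SL_acc_eq hW D x hx, mul_comm, ← SL_const hW τ x hx]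
  refine SL_mono fun L hL hLx => ?_
  have h1 := acc_trans D hLx (hW.reg.1 x hx)
  have h2 := acc_nonneg hD I x
  have h3 := hg L (mem_lf.1 hL).1
  linarith

end Crest.Agent.R079.HWx323
end

-- ▼ part R079/HWb_323

/-! R079, notes 1119 (helper55) + 1128 (helper323): TREE LEMMA of the windows with holes, definitions
and PAYMENTS of one window (helper323). -/

set_option autoImplicit false

namespace Crest.Agent.R079.HWx323

open Finset Crest.Agent.R079.Grid Crest.Agent.R079.Growth Crest.Agent.R079.QRed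
  Crest.Agent.R079.TWin Crest.Agent.R079.Qe292 Crest.Agent.R079.Qh249
  Crest.Agent.R079.GLA110 Crest.Agent.R079.Chn110

/-- field (letters are ADDED: `D = ∑ i, D i`, `dev = ∑ i, dev i`) -/
structure FldH (R : Finset Nd) (D : Nd → ℝ) (dev : Nd → Nd → ℝ) : Prop where
  D0 : ∀ q, 0 ≤ D q
  dev0 : ∀ I p, 0 ≤ dev I p
  self : ∀ I, dev I I = 0
  le : ∀ I ∈ R, ∀ W : Finset Nd, Full W I → W ⊆ R →
    ∑ p ∈ lf W, len p * dev I p ≤ ∑ q ∈ W \ lf W, len q * D q

/-- stop function: deviation + accumulated drift -/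
noncomputable def gs (D : Nd → ℝ) (dev : Nd → Nd → ℝ) (I p : Nd) : ℝ := dev I p + acc D I p

/-- RANGE of the top `K` at the depth `d`: nodes of level `≥ d` of the adapted region `V K`
which are not below a stop (`V K` = `R` below `K` minus the end layer of `K`) -/
noncomputable def rg (V : Nd → Finset Nd) (D : Nd → ℝ) (dev : Nd → Nd → ℝ) (τ : ℝ) (K : Nd)
    (d : ℕ) : Finset Nd :=
  Wd (Wf (V K) K d) (gs D dev) τ K

open Classical in
/-- tops of the end layer of `K` -/
noncomputable def lay (R : Finset Nd) (V : Nd → Finset Nd) (K : Nd) : Finset Nd :=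
  R.filter (fun c => c ∉ V K ∧ par c ∈ V K)

open Classical in
/-- DEAD exits: leaves of the range above the exit level, except the exits to the end layer
(= leaves of `R`, or a child has stopped) -/
noncomputable def dead (R : Finset Nd) (V : Nd → Finset Nd) (D : Nd → ℝ) (dev : Nd → Nd → ℝ)
    (τ : ℝ) (K : Nd) (d : ℕ) : Finset Nd :=
  (lf (rg V D dev τ K d)).filter (fun z => d < z.1 ∧ ∀ c ∈ lay R V K, par c ≠ z)

/-- drift of the range -/
noncomputable def rd (V : Nd → Finset Nd) (D : Nd → ℝ) (dev : Nd → Nd → ℝ) (τ : ℝ) (K : Nd)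
    (d : ℕ) : ℝ :=
  ∑ q ∈ rg V D dev τ K d \ lf (rg V D dev τ K d), len q * D q

/-- total length of the dead exits -/
noncomputable def dl (R : Finset Nd) (V : Nd → Finset Nd) (D : Nd → ℝ) (dev : Nd → Nd → ℝ)
    (τ : ℝ) (K : Nd) (d : ℕ) : ℝ :=
  ∑ z ∈ dead R V D dev τ K d, len z

open Classical in
/-- drift of the own nodes of a window -/
noncomputable def own (R : Finset Nd) (D : Nd → ℝ) (W : Finset Nd) : ℝ :=
  ∑ q ∈ W.filter (fun q => q ∉ lf R), len q * D q


section pay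

variable {R : Finset Nd} {J I : Nd} {D : Nd → ℝ} {dev : Nd → Nd → ℝ} {V : Nd → Finset Nd} {τ : ℝ}



lemma gs_nonneg (h : FldH R D dev) (I p : Nd) : 0 ≤ gs D dev I p :=
  add_nonneg (h.dev0 I p) (acc_nonneg h.D0 I p)

lemma gs_self (h : FldH R D dev) (I : Nd) : gs D dev I I = 0 := by
  unfold gs
  rw [h.self, acc_self, add_zero]

lemma rg_full (hV : Full (V I) I) {d : ℕ} (hd : d ≤ I.1) : Full (rg V D dev τ I d) I :=
  Wd_full (Wf_full hV hV.top hd) (Wf_full hV hV.top hd).top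

lemma rg_subV {d : ℕ} : rg V D dev τ I d ⊆ V I := Wd_sub.trans Wf_sub



lemma rg_good (h : FldH R D dev) (hτ : 0 ≤ τ) {d : ℕ} {p : Nd} (hp : p ∈ rg V D dev τ I d) :
    gs D dev I p ≤ τ :=
  Wd_good (fun I => by rw [gs_self h]; exact hτ) hp

/-- an inner node has a node strictly below it -/
lemma inner_lt {W : Finset Nd} {q : Nd} (hq : q ∈ W) (hl : q ∉ lf W) :
    ∃ r ∈ W, iv r ⊆ iv q ∧ r.1 < q.1 := by
  have h2 : ∃ r ∈ W, iv r ⊆ iv q ∧ r ≠ q := by
    by_contra hcon
    push Not at hcon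
    exact hl (mem_lf.2 ⟨hq, hcon⟩)
  obtain ⟨r, hr, hrq, hne⟩ := h2
  refine ⟨r, hr, hrq, ?_⟩
  rcases (Qe292.iv_level hrq).lt_or_eq with h | h
  · exact h
  · exact absurd (eq_of_sub_level hrq h) hne






/-- sibling closed sets: half of the threshold is paid -/
lemma half_sum {A : Finset Nd} {g : Nd → ℝ} (hg : ∀ c, 0 ≤ g c) (hs : ∀ c ∈ A, sib c ∈ A)
    (hb : ∀ c ∈ A, τ < g c ∨ τ < g (sib c)) :
    τ / 2 * ∑ c ∈ A, len c ≤ ∑ c ∈ A, len c * g c := by
  have e1 : ∑ c ∈ A, len (sib c) * g (sib c) = ∑ c ∈ A, len c * g c :=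
    Finset.sum_nbij' sib sib hs hs (fun c _ => sib_sib c) (fun c _ => sib_sib c) fun c _ => rfl
  simp only [len_sib] at e1
  have e : ∑ c ∈ A, len c * g c = 1 / 2 * ∑ c ∈ A, len c * (g c + g (sib c)) := by
    simp only [mul_add, Finset.sum_add_distrib]
    rw [e1]
    ring
  rw [e, Finset.mul_sum, Finset.mul_sum]
  refine Finset.sum_le_sum fun c hc => ?_
  have hsum : τ ≤ g c + g (sib c) := by
    rcases hb c hc with h | h
    · linarith [hg (sib c)]
    · linarith [hg c]
  have := mul_le_mul_of_nonneg_left hsum (Growth.len_pos c).le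
  linarith


end pay

end Crest.Agent.R079.HWx323
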