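import Crest.Agent.R079.TWin3_903

-- ▼ part R079/TWin4_903
section

/-! R079, doc 2489 (911), section (0), part 4 (helper903): existence of admissible windows for a finite
family of near-minimiser systems, and refinement of a given partition. -/

set_option autoImplicit false

namespace Crest.Agent.R079.TWin

open Finset Crest.Agent.R079.Grid Crest.Agent.R079.Growth Crest.Agent.R079.QRed
  Crest.Agent.R079.Qh249 Crest.Agent.R079.QVar181

lemma lf_sum_eq {W : Finset Nd} {I : Nd} (hW : Full W I) (F : Nd → ℝ) :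
    ∑ p ∈ lf W, len p * F p = SL W I F := by
  unfold SL
  have : (lf W).filter (fun L => iv L ⊆ iv I) = lf W := by
    rw [Finset.filter_eq_self]
    exact fun L hL => hW.reg.1 L (mem_lf.1 hL).1
  rw [this]

/-- **existence of admissible windows** for a finite family of near-minimiser systems -/
theorem exists_windows {ι : Type*} [Fintype ι] {R : Finset Nd} {J : Nd} (hR : Full R J)
    (At : ι → Nd → Fn → Prop) (hA : ∀ i, Dic (At i)) (σ : ι → ℝ) (η : ℝ) (G : ι → Fn)
    (f : ι → Nd → Fn) (t : ι → Nd → ℝ) (h : ∀ i, NM (At i) (σ i) η (G i) (f i) (t i))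
    (hG : ∀ i, ∀ p ∈ R, av p (G i) ≤ 1) (hη1 : η ≤ 1 / 2) {δ : ℝ} (hδ : 0 < δ)
    (hη : Fintype.card ι * (2 * η * (1 + J.1)) ≤ δ / 4) :
    ∃ (S : Finset Nd) (W : Nd → Finset Nd), Part R S W (2 + 16 * Fintype.card ι / δ) ∧
      ∀ K ∈ S, ∀ i, Gd (σ i) η (G i) (f i) (t i) δ (W K) K := by
  classical
  by_cases hι : Nonempty ι
  swap
  · -- empty family
    rw [not_nonempty_iff] at hι
    obtain ⟨S, W, hP, _⟩ := exists_part hR (g := fun _ _ => 0) (P := fun _ => 0) (P₀ := 0) hδ
      (fun _ _ => le_refl _) (fun _ _ => le_refl _) (fun _ _ => le_refl _) (fun _ => hδ.le)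
      (fun I _ W _ _ => by
        have := Growth.len_pos I
        simp only [add_zero, mul_zero, Finset.sum_const_zero, zero_add]
        positivity)
    refine ⟨S, W, ?_, fun K _ i => hι.elim i⟩
    simpa using hP
  have heta : 0 < η := (h hι.some).eta
  let V : ι → Nd → ℝ := fun i => val (σ i) (G i) (f i) (t i)
  let D : ι → Nd → ℝ := fun i => Drf (V i) (2 * η)
  let g : Nd → Nd → ℝ := fun I p =>
    ∑ i, ((1 / 2) * av p (fun y => f i I y - f i p y) ^ 2 + acc (D i) I p)
  have hterm : ∀ i I p, 0 ≤ (1 / 2) * av p (fun y => f i I y - f i p y) ^ 2 + acc (D i) I p :=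
    fun i I p => add_nonneg (by positivity) (acc_nonneg (Drf_nonneg (hA i) (h i)) I p)
  have hV0 : ∀ i p, 0 ≤ V i p := fun i p => val_nonneg (h i) p
  have hV2 : ∀ i, ∀ p ∈ R, V i p ≤ 2 := by
    intro i p hp
    have h1 := val_le (h i) p
    have h2 : av p (G i) ^ 2 ≤ 1 := pow_le_one₀ (Growth.av_nonneg p _) (hG i p hp)
    show val (σ i) (G i) (f i) (t i) p ≤ 2
    linarith
  obtain ⟨S, W, hP, hg⟩ := exists_part hR (g := g) (P := fun p => ∑ i, 2 * V i p)
    (P₀ := 4 * Fintype.card ι) hδ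
    (fun p _ => Finset.sum_nonneg fun i _ => mul_nonneg (by norm_num) (hV0 i p))
    (fun p hp => by
      calc ∑ i, 2 * V i p ≤ ∑ _i : ι, (4 : ℝ) :=
            Finset.sum_le_sum fun i _ => by linarith [hV2 i p hp]
        _ = 4 * Fintype.card ι := by
            rw [Finset.sum_const, nsmul_eq_mul, Finset.card_univ]; ring)
    (fun I p => Finset.sum_nonneg fun i _ => hterm i I p)
    (fun I => by
      have : g I I = 0 := by
        refine Finset.sum_eq_zero fun i _ => ?_
        rw [acc_self, add_zero]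
        have : av I (fun y => f i I y - f i I y) = 0 := by
          unfold av av2
          simp
        rw [this]
        ring
      rw [this]
      exact hδ.le)
    (fun I hI W hW hWR => by
      rw [lf_sum_eq hW]
      have hlen := Growth.len_pos I
      have e1 : SL W I (fun p => g I p + ∑ i, 2 * V i p) =
          ∑ i, (SL W I (fun L => V i L + (1 / 2) * av L (fun y => f i I y - f i L y) ^ 2) +
            SL W I (fun L => V i L + acc (D i) I L)) := by
        rw [← Finset.sum_congr rfl fun i _ => SL_add W I _ _, ← SL_sum]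
        refine SL_congr fun L _ _ => ?_
        simp only [g]
        rw [← Finset.sum_add_distrib]
        exact Finset.sum_congr rfl fun i _ => by ring
      rw [e1]
      have h1 : ∀ i, SL W I (fun L => V i L + (1 / 2) * av L (fun y => f i I y - f i L y) ^ 2) +
            SL W I (fun L => V i L + acc (D i) I L) ≤
          len I * (2 * V i I + 2 * η * (1 + J.1)) := by
        intro i
        have a1 := dev_le (hA i) (h i) hW hW.top
        have a2 := SL_acc_le hW (D i) (V i) (2 * η) (by positivity)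
          (fun m l => le_refl _) I hW.top
        have hlev : (I.1 : ℝ) ≤ J.1 := by
          exact_mod_cast Growth.iv_level (hR.reg.1 I hI)
        have a3 : len I * (2 * η * I.1) ≤ len I * (2 * η * J.1) :=
          mul_le_mul_of_nonneg_left (mul_le_mul_of_nonneg_left hlev (by positivity)) hlen.le
        have a1' : SL W I (fun L => V i L + (1 / 2) * av L (fun y => f i I y - f i L y) ^ 2)
            ≤ len I * (V i I + 2 * η) := a1
        nlinarith [a1', a2, a3]
      refine (Finset.sum_le_sum fun i _ => h1 i).trans ?_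
      rw [← Finset.mul_sum, Finset.sum_add_distrib, Finset.sum_const, nsmul_eq_mul,
        Finset.card_univ]
      refine mul_le_mul_of_nonneg_left ?_ hlen.le
      linarith)
  refine ⟨S, W, ?_, fun K hK i p hp => ?_⟩
  · have e : 4 * (4 * (Fintype.card ι : ℝ)) / δ = 16 * Fintype.card ι / δ := by ring
    rw [← e]
    exact hP
  · have h1 := hg K hK p hp
    have h2 : (1 / 2) * av p (fun y => f i K y - f i p y) ^ 2 + acc (D i) K p ≤ g K p :=
      Finset.single_le_sum (f := fun i => (1 / 2) * av p (fun y => f i K y - f i p y) ^ 2 +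
        acc (D i) K p) (fun i _ => hterm i K p) (Finset.mem_univ i)
    exact h2.trans h1



end Crest.Agent.R079.TWin
end

-- ▼ part R079/LiftW_429

/-! R079, doc 2531 (II.1) in the LINE model (helper429): static windows of a VECTOR-valued letter
`C : ℤ → ℕ → ℂ` (coordinates `k < 2 ^ r`) by the scalar LASSO windows of `TWin4_903` on the finer line
`Y = y * 2 ^ r + k`. -/

set_option autoImplicit false

namespace Crest.Agent.R079.LiftW

open Finset Crest.Agent.R079.Grid Crest.Agent.R079.Growth Crest.Agent.R079.QRed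
  Crest.Agent.R079.TWin

/-- the node on the finer line -/
def up (r : ℕ) (p : Nd) : Nd := (p.1 + r, p.2)

/-- the scalar function on the finer line -/
noncomputable def sc (r : ℕ) (C : ℤ → ℕ → ℂ) : Fn := fun Y => C (Y / 2 ^ r) (Y % 2 ^ r).toNat

/-- coordinates of a scalar function on the finer line -/
def un (r : ℕ) (F : Fn) : ℤ → ℕ → ℂ := fun y k => F (y * 2 ^ r + k)

lemma mem_iv {p : Nd} {y : ℤ} : y ∈ iv p ↔ p.2 * 2 ^ (p.1 + 7) ≤ y ∧ y < (p.2 + 1) * 2 ^ (p.1 + 7) := by
  unfold iv dI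
  exact Finset.mem_Ico

lemma mem_iv_up {r : ℕ} {p : Nd} {Y : ℤ} : Y ∈ iv (up r p) ↔ Y / 2 ^ r ∈ iv p := by
  have h2 : (0 : ℤ) < 2 ^ r := by positivity
  rw [mem_iv, mem_iv, Int.le_ediv_iff_mul_le h2, Int.ediv_lt_iff_lt_mul h2]
  have e : (2 : ℤ) ^ (p.1 + r + 7) = 2 ^ (p.1 + 7) * 2 ^ r := by rw [← pow_add]; congr 1; omega
  simp only [up]
  rw [e, mul_assoc, mul_assoc]

lemma div_add (r : ℕ) (y : ℤ) {k : ℕ} (hk : k < 2 ^ r) : (y * 2 ^ r + k) / 2 ^ r = y := by
  have h2 : (0 : ℤ) < 2 ^ r := by positivity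
  have hk' : ((k : ℕ) : ℤ) < 2 ^ r := by exact_mod_cast hk
  rw [add_comm, Int.add_mul_ediv_right _ _ h2.ne', Int.ediv_eq_zero_of_lt (by positivity) hk', zero_add]

lemma mod_add (r : ℕ) (y : ℤ) {k : ℕ} (hk : k < 2 ^ r) : (y * 2 ^ r + k) % 2 ^ r = k := by
  have h2 : (0 : ℤ) < 2 ^ r := by positivity
  have hk' : ((k : ℕ) : ℤ) < 2 ^ r := by exact_mod_cast hk
  rw [add_comm, Int.add_mul_emod_self_right, Int.emod_eq_of_lt (by positivity) hk']

lemma sc_add (r : ℕ) (C : ℤ → ℕ → ℂ) (y : ℤ) {k : ℕ} (hk : k < 2 ^ r) :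
    sc r C (y * 2 ^ r + k) = C y k := by
  unfold sc
  rw [div_add r y hk, mod_add r y hk, Int.toNat_natCast]

lemma mem_up_of {r : ℕ} {p : Nd} {y : ℤ} (hy : y ∈ iv p) {k : ℕ} (hk : k < 2 ^ r) :
    y * 2 ^ r + (k : ℤ) ∈ iv (up r p) := by
  rw [mem_iv_up, div_add r y hk]; exact hy

/-- sums over the finer line -/
lemma sum_up {M : Type*} [AddCommMonoid M] (r : ℕ) (p : Nd) (F : ℤ → M) :
    ∑ Y ∈ iv (up r p), F Y = ∑ y ∈ iv p, ∑ k ∈ range (2 ^ r), F (y * 2 ^ r + (k : ℤ)) := by
  rw [← Finset.sum_product']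
  symm
  refine Finset.sum_nbij' (fun x => x.1 * 2 ^ r + (x.2 : ℤ))
    (fun Y => (Y / 2 ^ r, (Y % 2 ^ r).toNat)) ?_ ?_ ?_ ?_ ?_
  · intro x hx
    rw [Finset.mem_product, Finset.mem_range] at hx
    exact mem_up_of hx.1 hx.2
  · intro Y hY
    have h2 : (0 : ℤ) < 2 ^ r := by positivity
    rw [Finset.mem_product, Finset.mem_range]
    refine ⟨mem_iv_up.1 hY, ?_⟩
    have h3 := Int.emod_lt_of_pos Y h2
    have h4 := Int.emod_nonneg Y h2.ne'
    simp only
    zify
    rw [Int.toNat_of_nonneg h4]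
    exact_mod_cast h3
  · intro x hx
    rw [Finset.mem_product, Finset.mem_range] at hx
    refine Prod.ext ?_ ?_
    · exact div_add r x.1 hx.2
    · simp only
      rw [mod_add r x.1 hx.2, Int.toNat_natCast]
  · intro Y hY
    have h2 : (0 : ℤ) < 2 ^ r := by positivity
    have h4 := Int.emod_nonneg Y h2.ne'
    simp only
    rw [Int.toNat_of_nonneg h4]
    exact Int.ediv_mul_add_emod Y (2 ^ r)
  · intro x _
    rfl

lemma len_up (r : ℕ) (p : Nd) : len (up r p) = 2 ^ r * len p := by
  unfold len up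
  rw [← pow_add]
  congr 1
  simp only
  omega

lemma up_inj {r : ℕ} {p q : Nd} (h : up r p = up r q) : p = q := by
  have h1 := congrArg Prod.fst h
  have h2 := congrArg Prod.snd h
  simp only [up] at h1 h2
  exact Prod.ext (by omega) h2

lemma iv_up_sub {r : ℕ} {p q : Nd} : iv (up r p) ⊆ iv (up r q) ↔ iv p ⊆ iv q := by
  constructor
  · intro h y hy
    have h1 := h (mem_up_of (r := r) (k := 0) hy (by positivity))
    rw [mem_iv_up, div_add r y (by positivity)] at h1
    exact h1
  · intro h Y hY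
    rw [mem_iv_up] at hY ⊢
    exact h hY

lemma dI_iv (p : Nd) : dI (p.1 + 7) p.2 = iv p := rfl

open Classical in
/-- the region on the finer line -/
noncomputable def upR (r : ℕ) (R : Finset Nd) : Finset Nd := R.image (up r)

lemma mem_upR {r : ℕ} {R : Finset Nd} {p : Nd} : up r p ∈ upR r R ↔ p ∈ R := by
  classical
  unfold upR
  rw [Finset.mem_image]
  constructor
  · rintro ⟨q, hq, e⟩
    rw [← up_inj e]; exact hq
  · intro h
    exact ⟨p, h, rfl⟩

lemma exists_of_mem {r : ℕ} {R : Finset Nd} {q : Nd} (h : q ∈ upR r R) : ∃ p ∈ R, up r p = q := by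
  classical
  unfold upR at h
  rw [Finset.mem_image] at h
  exact h

theorem full_up (r : ℕ) {R : Finset Nd} {J : Nd} (hR : Full R J) : Full (upR r R) (up r J) := by
  refine ⟨⟨fun q hq => ?_, fun q hq q' h1 h2 => ?_⟩, mem_upR.2 hR.top, fun m l hq => ?_⟩
  · obtain ⟨p, hp, rfl⟩ := exists_of_mem hq
    exact iv_up_sub.2 (hR.reg.1 p hp)
  · obtain ⟨p, hp, rfl⟩ := exists_of_mem hq
    -- `q'` is above `up r p`
    have h1' : iv (up r p) ⊆ iv q' := h1
    obtain ⟨j, hj⟩ := Qe292.iv_sub_iff.1 h1'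
    have e : q' = up r (p.1 + j, p.2 / 2 ^ j) := by
      rw [hj]
      refine Prod.ext ?_ ?_
      · simp only [up]; omega
      · simp only [up]
    rw [e] at h2 ⊢
    rw [mem_upR]
    refine hR.reg.2 p hp _ ?_ ?_
    · rw [dI_iv, dI_iv]
      rw [e] at h1'
      exact iv_up_sub.1 h1'
    · exact iv_up_sub.1 h2
  · obtain ⟨p, hp, e⟩ := exists_of_mem hq
    have e1 := congrArg Prod.fst e
    have e2 := congrArg Prod.snd e
    simp only [up] at e1 e2
    rcases Nat.eq_zero_or_pos p.1 with h0 | h0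
    · -- level `0`: no children
      have hm : m + 1 = r := by omega
      constructor
      · intro h
        obtain ⟨p', _, e'⟩ := exists_of_mem h
        have := congrArg Prod.fst e'
        simp only [up] at this
        omega
      · intro h
        obtain ⟨p', _, e'⟩ := exists_of_mem h
        have := congrArg Prod.fst e'
        simp only [up] at this
        omega
    · obtain ⟨m', hm'⟩ : ∃ m', p.1 = m' + 1 := ⟨p.1 - 1, by omega⟩
      have hp' : (m' + 1, l) ∈ R := by
        have : p = (m' + 1, l) := Prod.ext hm' e2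
        rw [← this]; exact hp
      have hm : m = m' + r := by omega
      subst hm
      have e3 : ((m' + r, 2 * l) : Nd) = up r (m', 2 * l) := rfl
      have e4 : ((m' + r, 2 * l + 1) : Nd) = up r (m', 2 * l + 1) := rfl
      rw [e3, e4, mem_upR, mem_upR]
      exact hR.bin m' l hp'

open Classical in
/-- back to the coarse line -/
noncomputable def dn (r : ℕ) (R V : Finset Nd) : Finset Nd := R.filter (fun p => up r p ∈ V)

lemma mem_dn {r : ℕ} {R V : Finset Nd} (hV : V ⊆ upR r R) {p : Nd} :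
    p ∈ dn r R V ↔ up r p ∈ V := by
  classical
  unfold dn
  rw [Finset.mem_filter]
  exact ⟨fun h => h.2, fun h => ⟨mem_upR.1 (hV h), h⟩⟩

theorem full_dn {r : ℕ} {R V : Finset Nd} {K : Nd} (hV : V ⊆ upR r R) (h : Full V (up r K)) :
    Full (dn r R V) K := by
  refine ⟨⟨fun p hp => ?_, fun p hp q h1 h2 => ?_⟩, (mem_dn hV).2 h.top, fun m l hp => ?_⟩
  · exact iv_up_sub.1 (h.reg.1 _ ((mem_dn hV).1 hp))
  · rw [mem_dn hV] at hp ⊢
    refine h.reg.2 _ hp _ ?_ ?_
    · exact iv_up_sub.2 h1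
    · exact iv_up_sub.2 h2
  · rw [mem_dn hV] at hp ⊢
    rw [mem_dn hV]
    have e0 : up r (m + 1, l) = (m + r + 1, l) := Prod.ext (by simp only [up]; omega) rfl
    rw [e0] at hp
    exact h.bin (m + r) l hp

theorem part_dn {r : ℕ} {R : Finset Nd} {S : Finset Nd} {W : Nd → Finset Nd} {c : ℝ}
    (h : Part (upR r R) S W c) :
    Part R (dn r R S) (fun K => dn r R (W (up r K))) c := by
  classical
  have hw : ∀ K ∈ dn r R S, W (up r K) ⊆ upR r R := fun K hK =>
    h.wsub _ ((mem_dn h.sub).1 hK)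
  refine ⟨fun p hp => mem_upR.1 (h.sub ((mem_dn h.sub).1 hp)), fun K hK => ?_, fun K hK p hp => ?_,
    fun K hK K' hK' hne => ?_, fun p hp => ?_, fun p hp => ?_⟩
  · exact full_dn (hw K hK) (h.full _ ((mem_dn h.sub).1 hK))
  · exact mem_upR.1 (hw K hK ((mem_dn (hw K hK)).1 hp))
  · rw [Finset.disjoint_left]
    intro p hp hp'
    rw [mem_dn (hw K hK)] at hp
    rw [mem_dn (hw K' hK')] at hp'
    exact Finset.disjoint_left.1 (h.disj _ ((mem_dn h.sub).1 hK) _ ((mem_dn h.sub).1 hK')
      (fun e => hne (up_inj e))) hp hp'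
  · obtain ⟨K', hK', hpK⟩ := h.cover _ (mem_upR.2 hp)
    obtain ⟨K, hK, rfl⟩ := exists_of_mem (h.sub hK')
    exact ⟨K, (mem_dn h.sub).2 hK', (mem_dn (h.wsub _ hK')).2 hpK⟩
  · have h1 := h.cnt _ (mem_upR.2 hp)
    have h2 : (0 : ℝ) < 2 ^ r := by positivity
    have e : ∑ K ∈ S.filter (fun K => iv K ⊆ iv (up r p)), len K
        = 2 ^ r * ∑ K ∈ (dn r R S).filter (fun K => iv K ⊆ iv p), len K := by
      rw [Finset.mul_sum]
      symm
      refine Finset.sum_bij (fun K _ => up r K) ?_ ?_ ?_ ?_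
      · intro K hK
        rw [Finset.mem_filter, mem_dn h.sub] at hK
        rw [Finset.mem_filter]
        exact ⟨hK.1, iv_up_sub.2 hK.2⟩
      · intro K _ K' _ e
        exact up_inj e
      · intro K' hK'
        rw [Finset.mem_filter] at hK'
        obtain ⟨K, hK, rfl⟩ := exists_of_mem (h.sub hK'.1)
        refine ⟨K, ?_, rfl⟩
        rw [Finset.mem_filter, mem_dn h.sub]
        exact ⟨hK'.1, iv_up_sub.1 hK'.2⟩
      · intro K _
        rw [len_up]
    rw [e, len_up] at h1
    have h3 : 2 ^ r * ∑ K ∈ (dn r R S).filter (fun K => iv K ⊆ iv p), len K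
        ≤ 2 ^ r * (c * len p) := by
      calc _ ≤ c * (2 ^ r * len p) := h1
        _ = 2 ^ r * (c * len p) := by ring
    exact le_of_mul_le_mul_left h3 h2

lemma sc_conj (r : ℕ) (ψ : ℤ → ℕ → ℂ) :
    (fun Y => (starRingEnd ℂ) (sc r ψ Y)) = sc r (fun y k => (starRingEnd ℂ) (ψ y k)) := rfl


end Crest.Agent.R079.LiftW
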