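import Mathlib
import Crest.Agent.R079.ThQ_653
import Crest.Agent.R079.StkA_242

-- ▼ part R079/Move_59
section

/-! R079, Step I, MOVE lemma (helper59): sign average over a finite family of windows.

`b i j k = T_i (Δ_j, Δ'_k)`: `T_i` = part of the word carried by the window `i`, `Δ_j` = increment of
the first (moving) letter attached to the window `j`, `Δ'_k` = increment of the second letter attached
to the coarser window `k`, `π i` = the coarser window containing `i`.  If every STATIC signed word is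
bounded by `N` times the product of the Hilbert norms of the signed letters, then the sum of the
words with MOVING letters is bounded by `N V V'`, `V² = Σ ‖Δ_j‖²`, `V'² = Σ ‖Δ'_k‖²`: no count. -/

set_option autoImplicit false

namespace Crest.Agent.R079.Move59

open Finset

/-- sign of a bit -/
def sg (b : Bool) : ℝ := if b then 1 else -1

lemma sg_sq (b : Bool) : sg b * sg b = 1 := by cases b <;> simp [sg]

lemma sg_not (b : Bool) : sg (!b) = - sg b := by cases b <;> simp [sg]

lemma abs_sg (b : Bool) : |sg b| = 1 := by cases b <;> simp [sg]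

variable {ι κ : Type*} [Fintype ι] [DecidableEq ι] [Fintype κ] [DecidableEq κ]

/-- orthogonality of the signs -/
lemma sum_sg (i j : ι) : ∑ s : ι → Bool, sg (s i) * sg (s j) =
    if i = j then (2 : ℝ) ^ Fintype.card ι else 0 := by
  by_cases h : i = j
  · subst h
    simp only [sg_sq, if_true]
    rw [Finset.sum_const, Finset.card_univ, Fintype.card_fun, Fintype.card_bool, nsmul_eq_mul]
    push_cast
    ring
  · rw [if_neg h]
    have hinv : ∀ s : ι → Bool, Function.update (Function.update s i (!(s i))) i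
        (!(Function.update s i (!(s i)) i)) = s := by
      intro s
      simp
    have := Finset.sum_involution (s := (Finset.univ : Finset (ι → Bool)))
      (f := fun s => sg (s i) * sg (s j)) (fun s _ => Function.update s i (!(s i)))
      (fun s _ => by
        have hj : Function.update s i (!(s i)) j = s j := by
          rw [Function.update_of_ne (Ne.symm h)]
        simp only [Function.update_self, hj, sg_not]
        ring)
      (fun s _ _ => by
        intro he
        have := congrFun he i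
        simp at this)
      (fun s _ => Finset.mem_univ _)
      (fun s _ => hinv s)
    exact this

/-- Hilbert norm of a signed sum, averaged -/
lemma sum_norm_sq {E : Type*} [NormedAddCommGroup E] [InnerProductSpace ℝ E] (D : ι → E) :
    ∑ s : ι → Bool, ‖∑ i, sg (s i) • D i‖ ^ 2 = 2 ^ Fintype.card ι * ∑ i, ‖D i‖ ^ 2 := by
  have h1 : ∀ s : ι → Bool, ‖∑ i, sg (s i) • D i‖ ^ 2 =
      ∑ i, ∑ j, (sg (s i) * sg (s j)) * inner ℝ (D i) (D j) := by
    intro s
    rw [← real_inner_self_eq_norm_sq, sum_inner]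
    refine Finset.sum_congr rfl fun i _ => ?_
    rw [inner_sum]
    refine Finset.sum_congr rfl fun j _ => ?_
    rw [real_inner_smul_left, real_inner_smul_right]
    ring
  calc ∑ s : ι → Bool, ‖∑ i, sg (s i) • D i‖ ^ 2
      = ∑ s : ι → Bool, ∑ i, ∑ j, (sg (s i) * sg (s j)) * inner ℝ (D i) (D j) :=
        Finset.sum_congr rfl fun s _ => h1 s
    _ = ∑ i, ∑ j, (∑ s : ι → Bool, sg (s i) * sg (s j)) * inner ℝ (D i) (D j) := by
        rw [Finset.sum_comm]
        refine Finset.sum_congr rfl fun i _ => ?_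
        rw [Finset.sum_comm]
        refine Finset.sum_congr rfl fun j _ => ?_
        rw [Finset.sum_mul]
    _ = ∑ i, 2 ^ Fintype.card ι * ‖D i‖ ^ 2 := by
        refine Finset.sum_congr rfl fun i _ => ?_
        rw [Finset.sum_eq_single i]
        · rw [sum_sg, if_pos rfl, real_inner_self_eq_norm_sq]
        · intro j _ hj
          rw [sum_sg, if_neg (Ne.symm hj), zero_mul]
        · intro h
          exact absurd (Finset.mem_univ i) h
    _ = _ := by rw [Finset.mul_sum]

/-- Cauchy-Schwarz on the sign cube -/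
lemma sum_le {n : (ι → Bool) → ℝ} {V : ℝ} (hV : 0 ≤ V)
    (h2 : ∑ s, n s ^ 2 ≤ 2 ^ Fintype.card ι * V ^ 2) : ∑ s, n s ≤ 2 ^ Fintype.card ι * V := by
  have h1 : (∑ s, n s) ^ 2 ≤ 2 ^ Fintype.card ι * ∑ s, n s ^ 2 := by
    have h := sq_sum_le_card_mul_sum_sq (s := (Finset.univ : Finset (ι → Bool))) (f := n)
    rw [Finset.card_univ, Fintype.card_fun, Fintype.card_bool] at h
    push_cast at h
    exact h
  have hc : (0 : ℝ) ≤ 2 ^ Fintype.card ι := by positivity
  have h3 : (∑ s, n s) ^ 2 ≤ (2 ^ Fintype.card ι * V) ^ 2 := by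
    calc (∑ s, n s) ^ 2 ≤ 2 ^ Fintype.card ι * ∑ s, n s ^ 2 := h1
      _ ≤ 2 ^ Fintype.card ι * (2 ^ Fintype.card ι * V ^ 2) :=
          mul_le_mul_of_nonneg_left h2 hc
      _ = _ := by ring
  exact le_of_sq_le_sq h3 (by positivity) 



end Crest.Agent.R079.Move59
end

-- ▼ part R079/MovC_242
section

/-! R079, Step I, MOVE lemma in CHAIN form (helper242).

`k = 0, .., n-1` = stack index of a window (any window system; windows of the same stack index are
disjoint), `T k` = the part of the word carried by the windows of stack index `k`, `x k`, `y k` = the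
GLOBAL fields of the two moving letters on that stack.  The only input on the letters is the
quadratic variation along the chain, `‖x k - x l‖² ≤ D l - D k`; the price of the motion is
`log₂ n`.  No nested windows, no node conditions, no count.

* `sign2`      : two independent families of signs (any two index maps, no nesting);
* `level_sum`  : square sum of the increments of one dyadic level;
* `move_chain` : `‖∑ T k (x k) (y k)‖ ≤ N (‖x_end‖ + a √Q) (‖y_end‖ + a √Q')`, `n ≤ 2 ^ a`. -/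

set_option autoImplicit false

namespace Crest.Agent.R079.MovC

open Finset Crest.Agent.R079.Move59

section sign2

variable {ν ι κ : Type*} [Fintype ι] [DecidableEq ι] [Fintype κ] [DecidableEq κ]
variable {E E' : Type*} [NormedAddCommGroup E] [InnerProductSpace ℝ E] [NormedAddCommGroup E']
  [InnerProductSpace ℝ E']

/-- the static signed bound of a family of bilinear words -/
def Stat (S : Finset ν) (T : ν → E →ₗ[ℝ] E' →ₗ[ℝ] ℂ) (N : ℝ) : Prop :=
  ∀ ε : ν → ℝ, (∀ k, |ε k| = 1) → ∀ u v, ‖∑ k ∈ S, ((ε k : ℝ) : ℂ) * T k u v‖ ≤ N * ‖u‖ * ‖v‖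

lemma vec (a : ι) (d : ι → E) :
    ∑ s : ι → Bool, sg (s a) • ∑ i, sg (s i) • d i = (2 : ℝ) ^ Fintype.card ι • d a := by
  have h1 : ∀ s : ι → Bool, sg (s a) • ∑ i, sg (s i) • d i =
      ∑ i, (sg (s a) * sg (s i)) • d i := by
    intro s
    rw [Finset.smul_sum]
    exact Finset.sum_congr rfl fun i _ => smul_smul _ _ _
  simp_rw [h1]
  rw [Finset.sum_comm]
  simp_rw [← Finset.sum_smul, sum_sg]
  rw [Finset.sum_eq_single a]
  · simp
  · intro i _ hi
    rw [if_neg (Ne.symm hi), zero_smul]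
  · intro h
    exact absurd (Finset.mem_univ a) h

/-- **two independent families of signs** -/
theorem sign2 (S : Finset ν) (T : ν → E →ₗ[ℝ] E' →ₗ[ℝ] ℂ) {N : ℝ} (hN : 0 ≤ N) (h : Stat S T N)
    (α : ν → ι) (β : ν → κ) (d : ι → E) (d' : κ → E') {V V' : ℝ} (hV : 0 ≤ V) (hV' : 0 ≤ V')
    (h2 : ∑ i, ‖d i‖ ^ 2 ≤ V ^ 2) (h2' : ∑ j, ‖d' j‖ ^ 2 ≤ V' ^ 2) :
    ‖∑ k ∈ S, T k (d (α k)) (d' (β k))‖ ≤ N * V * V' := by
  set A : ℝ := 2 ^ Fintype.card ι with hA
  set B : ℝ := 2 ^ Fintype.card κ with hB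
  have hA0 : 0 < A := by positivity
  have hB0 : 0 < B := by positivity
  set U : (ι → Bool) → E := fun s => ∑ i, sg (s i) • d i with hU
  set W : (κ → Bool) → E' := fun s => ∑ j, sg (s j) • d' j with hW
  have key : ∀ k, ∑ s : ι → Bool, ∑ s' : κ → Bool,
      ((sg (s (α k)) * sg (s' (β k)) : ℝ) : ℂ) * T k (U s) (W s') =
      ((A * B : ℝ) : ℂ) * T k (d (α k)) (d' (β k)) := by
    intro k
    have e1 : T k (∑ s : ι → Bool, sg (s (α k)) • U s) (∑ s' : κ → Bool, sg (s' (β k)) • W s') =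
        ∑ s : ι → Bool, ∑ s' : κ → Bool,
          ((sg (s (α k)) * sg (s' (β k)) : ℝ) : ℂ) * T k (U s) (W s') := by
      rw [map_sum (T k) (fun s : ι → Bool => sg (s (α k)) • U s) univ, LinearMap.sum_apply]
      refine Finset.sum_congr rfl fun s _ => ?_
      rw [map_sum]
      refine Finset.sum_congr rfl fun s' _ => ?_
      rw [map_smul, map_smul, LinearMap.smul_apply, Complex.real_smul, Complex.real_smul]
      push_cast
      ring
    rw [← e1, vec (α k) d, vec (β k) d', ← hA, ← hB, map_smul, map_smul, LinearMap.smul_apply,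
      Complex.real_smul, Complex.real_smul]
    push_cast
    ring
  have e2 : ((A * B : ℝ) : ℂ) * ∑ k ∈ S, T k (d (α k)) (d' (β k)) =
      ∑ s : ι → Bool, ∑ s' : κ → Bool, ∑ k ∈ S,
        ((sg (s (α k)) * sg (s' (β k)) : ℝ) : ℂ) * T k (U s) (W s') := by
    rw [Finset.mul_sum]
    calc ∑ k ∈ S, ((A * B : ℝ) : ℂ) * T k (d (α k)) (d' (β k))
        = ∑ k ∈ S, ∑ s : ι → Bool, ∑ s' : κ → Bool,
          ((sg (s (α k)) * sg (s' (β k)) : ℝ) : ℂ) * T k (U s) (W s') :=
          Finset.sum_congr rfl fun k _ => (key k).symm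
      _ = ∑ s : ι → Bool, ∑ k ∈ S, ∑ s' : κ → Bool,
          ((sg (s (α k)) * sg (s' (β k)) : ℝ) : ℂ) * T k (U s) (W s') := Finset.sum_comm
      _ = _ := Finset.sum_congr rfl fun s _ => Finset.sum_comm
  have hU2 : ∑ s, ‖U s‖ ≤ A * V := by
    refine sum_le (n := fun s => ‖U s‖) hV ?_
    rw [sum_norm_sq d]
    exact mul_le_mul_of_nonneg_left h2 hA0.le
  have hW2 : ∑ s, ‖W s‖ ≤ B * V' := by
    refine sum_le (n := fun s => ‖W s‖) hV' ?_
    rw [sum_norm_sq d']
    exact mul_le_mul_of_nonneg_left h2' hB0.le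
  have h3 : A * B * ‖∑ k ∈ S, T k (d (α k)) (d' (β k))‖ ≤ N * (A * V) * (B * V') := by
    have e : ‖((A * B : ℝ) : ℂ) * ∑ k ∈ S, T k (d (α k)) (d' (β k))‖ =
        A * B * ‖∑ k ∈ S, T k (d (α k)) (d' (β k))‖ := by
      rw [norm_mul, Complex.norm_real, Real.norm_of_nonneg (by positivity)]
    rw [← e, e2]
    calc ‖∑ s : ι → Bool, ∑ s' : κ → Bool, ∑ k ∈ S,
          ((sg (s (α k)) * sg (s' (β k)) : ℝ) : ℂ) * T k (U s) (W s')‖
        ≤ ∑ s : ι → Bool, ∑ s' : κ → Bool, N * ‖U s‖ * ‖W s'‖ := by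
          refine (norm_sum_le _ _).trans (Finset.sum_le_sum fun s _ => ?_)
          refine (norm_sum_le _ _).trans (Finset.sum_le_sum fun s' _ => ?_)
          exact h (fun k => sg (s (α k)) * sg (s' (β k)))
            (fun k => by rw [abs_mul, abs_sg, abs_sg, one_mul]) (U s) (W s')
      _ = N * (∑ s, ‖U s‖) * (∑ s', ‖W s'‖) := by
          rw [mul_assoc, Finset.sum_mul_sum, Finset.mul_sum]
          refine Finset.sum_congr rfl fun s _ => ?_
          rw [Finset.mul_sum]
          refine Finset.sum_congr rfl fun s' _ => ?_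
          ring
      _ ≤ N * (A * V) * (B * V') := by
          have h7 : N * (∑ s, ‖U s‖) ≤ N * (A * V) := mul_le_mul_of_nonneg_left hU2 hN
          exact mul_le_mul h7 hW2 (Finset.sum_nonneg fun s _ => norm_nonneg _) (by positivity)
  have h8 : A * B * ‖∑ k ∈ S, T k (d (α k)) (d' (β k))‖ ≤ A * B * (N * V * V') :=
    h3.trans (le_of_eq (by ring))
  exact le_of_mul_le_mul_left h8 (by positivity)

end sign2

section dyadic

variable {E : Type*} [NormedAddCommGroup E]

/-- last index of the block number `g` of length `2 ^ b` -/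
def cc (b g : ℕ) : ℕ := (g + 1) * 2 ^ b - 1

lemma cc_mono (b : ℕ) {g g' : ℕ} (h : g ≤ g') : cc b g ≤ cc b g' := by
  unfold cc
  have : (g + 1) * 2 ^ b ≤ (g' + 1) * 2 ^ b := Nat.mul_le_mul_right _ (by omega)
  omega

/-- the increment of level `b` on the block `g` -/
def inc (x : ℕ → E) (b g : ℕ) : E := x (cc b g) - x (cc (b + 1) (g / 2))

lemma cc_even (b h : ℕ) : cc (b + 1) h = cc b (2 * h + 1) := by
  unfold cc
  have : (h + 1) * 2 ^ (b + 1) = (2 * h + 1 + 1) * 2 ^ b := by ring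
  rw [this]




end dyadic

section chain

variable {E E' : Type*} [NormedAddCommGroup E] [InnerProductSpace ℝ E] [NormedAddCommGroup E']
  [InnerProductSpace ℝ E']

/-- the letter of level `b` (`b = a`: the static end letter) -/
def pc {F : Type*} [NormedAddCommGroup F] (x : ℕ → F) (a b g : ℕ) : F :=
  if b < a then inc x b g else x (2 ^ a - 1)

/-- its price -/
noncomputable def vv {F : Type*} [NormedAddCommGroup F] (x : ℕ → F) (a : ℕ) (Q : ℝ) (b : ℕ) : ℝ :=
  if b < a then √Q else ‖x (2 ^ a - 1)‖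







end chain

end Crest.Agent.R079.MovC
end

-- ▼ part R079/StkM_242
section

/-! R079, Step I, MOVE, stack version (helper242): the quadratic variation along the stacks.

`Vk k` = total value of the threshold functional on the exits of the first `k` stacks.
* `chain_g` : `∑_J |g_k - g_l|² ≤ 2 (Vk l - Vk k + 2 η len J)` for the glued letters;
* `chain_Z` : the same for the GLOBAL kernel letters above the threshold,
  `Z_k = a g_k - (glued own projections at the exits of stack k)`.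
These are the hypotheses of `MovC.move_chain`. -/

set_option autoImplicit false

namespace Crest.Agent.R079.Stk

open Finset Crest.Agent.R079.Grid Crest.Agent.R079.Growth Crest.Agent.R079.QRed
  Crest.Agent.R079.Qh249 Crest.Agent.R079.TWin
open Crest.Agent.R079.RelW653 (vl NMP Jv Dv av_par sum_av' lf_sum_eq')
open Crest.Agent.R079.RelV653 Crest.Agent.R079.ThP653 Crest.Agent.R079.ThQ653

lemma SL_nest {W W' : Finset Nd} {I : Nd} (hW : Full W I) (hW' : Full W' I) (hs : W ⊆ W')
    (F : Nd → ℝ) : ∀ p ∈ W, SL W p (fun q => SL W' q F / len q) = SL W' p F := by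
  refine full_ind hW (fun p hp => ?_) fun m l hp hnl h0 h1 e0 e1 => ?_
  · rw [SL_leaf hp]
    have := Growth.len_pos p
    field_simp
  · have hnl' : (m + 1, l) ∉ lf W' := by
      intro h
      have h2 := (mem_lf.1 h).2 _ (hs h0) (sub_ch0 m l)
      have h3 := congrArg Prod.fst h2
      simp at h3
    rw [SL_node hW hnl h0 h1, SL_node hW' hnl' (hs h0) (hs h1), e0, e1]

section one

variable {Ω : Type*} {Bd : Nd → Finset Ω} {pos : Ω → ℤ} {N : (Ω → ℂ) → ℝ} {ν : ℝ}

lemma dst_SL (hB : Bnd Bd pos N ν) {W : Finset Nd} {I : Nd} (hW : Full W I) (A B : Ω → ℂ) :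
    ∀ p ∈ W, SL W p (fun q => dst Bd q A B / len q) = dst Bd p A B := by
  refine full_ind hW (fun p hp => ?_) fun m l hp hnl h0 h1 e0 e1 => ?_
  · rw [SL_leaf hp]
    have := Growth.len_pos p
    field_simp
  · rw [SL_node hW hnl h0 h1, dst_ch hB, e0, e1]

lemma Bd_up (hB : Bnd Bd pos N ν) {ω : Ω} (m : ℕ) (l : ℤ) (h : ω ∈ Bd (m, l)) :
    ∀ k : ℕ, ω ∈ Bd (m + k, l / 2 ^ k) := by
  intro k
  induction k with
  | zero => simpa using h
  | succ k ih =>
    have e : l / 2 ^ (k + 1) = l / 2 ^ k / 2 := by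
      have := L0e.ediv_pow_pow l k 1
      rw [pow_one] at this
      rw [← this]
    rw [e, ← add_assoc]
    rcases Int.even_or_odd' (l / 2 ^ k) with ⟨c, hc | hc⟩
    · rw [hc, show 2 * c / 2 = c by omega]
      exact (hB.sub _ _ _).2 (Or.inl (hc ▸ ih))
    · rw [hc, show (2 * c + 1) / 2 = c by omega]
      exact (hB.sub _ _ _).2 (Or.inr (hc ▸ ih))

lemma Bd_mono (hB : Bnd Bd pos N ν) {p q : Nd} (h : iv p ⊆ iv q) {ω : Ω} (hω : ω ∈ Bd p) :
    ω ∈ Bd q := by
  obtain ⟨k, hk⟩ := Qe292.iv_sub_iff.1 h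
  rw [hk]
  exact Bd_up hB p.1 p.2 hω k

lemma Bgl_loc (hB : Bnd Bd pos N ν) (a : Ω → ℂ) {r : ℝ} (hr : 0 ≤ r) {W : Finset Nd} {I : Nd}
    (hW : Full W I) {p : Nd} (hp : p ∈ W) (g : Fn) {ω : Ω} (hω : ω ∈ Bd p) :
    Bgl Bd pos N a r W I g ω = Bgl Bd pos N a r W p g ω := by
  classical
  unfold Bgl
  symm
  refine Finset.sum_subset ?_ ?_
  · intro L hL
    rw [Finset.mem_filter] at hL ⊢
    exact ⟨hL.1, hL.2.trans (hW.reg.1 p hp)⟩
  · intro L hL hL'
    rw [Finset.mem_filter] at hL
    have hno : ω ∉ Bd L := by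
      intro h
      exact hL' (Finset.mem_filter.2 ⟨hL.1, leaf_below hW hL.1 hp (hB.mem L ω h) (hB.mem p ω hω)⟩)
    exact (Pj_spec hB hr L _).1.1 ω hno

/-- the global kernel letter above the threshold: `a g` minus the glued own exit projections -/
noncomputable def Zs (Bd : Nd → Finset Ω) (pos : Ω → ℤ) (N : (Ω → ℂ) → ℝ) (a : Ω → ℂ) (r : ℝ)
    (W : Finset Nd) (J : Nd) (f : Nd → Fn) : Ω → ℂ :=
  fun ω => ag Bd pos a J (gl W f) ω - Bgl Bd pos N a r W J (gl W f) ω

/-- on an exit it is the own part above the threshold -/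
lemma Zs_leaf (hB : Bnd Bd pos N ν) (a : Ω → ℂ) {r : ℝ} (hr : 0 ≤ r) {W : Finset Nd} {J : Nd}
    (hW : Full W J) (f : Nd → Fn) {p : Nd} (hp : p ∈ lf W) {ω : Ω} (hω : ω ∈ Bd p) :
    Zs Bd pos N a r W J f ω = Rs Bd pos N a r p (f p) ω := by
  have hpW := (mem_lf.1 hp).1
  have hωJ := Bd_mono hB (hW.reg.1 p hpW) hω
  have e1 : ag Bd pos a p (gl W f) = ag Bd pos a p (f p) :=
    ag_congr hB fun y hy => gl_eq hW f hp hy
  unfold Zs Rs
  rw [Bgl_loc hB a hr hW hpW _ hω, Bgl_leaf hp, e1, ag_eq hω, ag_eq hωJ,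
    gl_eq hW f hp (hB.mem p ω hω)]

/-- on an inner node it is the part above the threshold of that node, corrected by the difference
of the own projection and the glued exit projections -/
lemma Zs_node (hB : Bnd Bd pos N ν) (a : Ω → ℂ) {r : ℝ} (hr : 0 ≤ r) {W : Finset Nd} {J : Nd}
    (hW : Full W J) (f : Nd → Fn) {p : Nd} (hp : p ∈ W) {ω : Ω} (hω : ω ∈ Bd p) :
    Zs Bd pos N a r W J f ω = Rs Bd pos N a r p (gl W f) ω +
      (Pj Bd N r p (ag Bd pos a p (gl W f)) ω - Bgl Bd pos N a r W p (gl W f) ω) := by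
  have hωJ := Bd_mono hB (hW.reg.1 p hp) hω
  unfold Zs Rs
  rw [Bgl_loc hB a hr hW hp _ hω, ag_eq hω, ag_eq hωJ]
  ring

end one

lemma sq_tri (u v w : ℂ) : ‖u - (v + w)‖ ^ 2 ≤ 2 * ‖u - v‖ ^ 2 + 2 * ‖w‖ ^ 2 := by
  have h1 : ‖u - (v + w)‖ ≤ ‖u - v‖ + ‖w‖ := by
    have := norm_sub_le (u - v) w
    rwa [show u - v - w = u - (v + w) by ring] at this
  have h2 := norm_nonneg (u - (v + w))
  have h3 := norm_nonneg (u - v)
  have h4 := norm_nonneg w
  nlinarith [sq_nonneg (‖u - v‖ - ‖w‖)]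

section family

variable {ι : Type*} [Fintype ι] {Ω : ι → Type*} {Bd : ∀ i, Nd → Finset (Ω i)}
  {pos : ∀ i, Ω i → ℤ} {N : ∀ i, (Ω i → ℂ) → ℝ} {ν : ι → ℝ} {a : ∀ i, Ω i → ℂ} {r : ι → ℝ}
  {κ : ι → ℝ} {X : Fn} {η : ℝ} {f : Nd → Fn}

/-- drift of one exit of the coarse stack -/
noncomputable def hh (Φ : Nd → Fn → ℝ) (X : Fn) (f : Nd → Fn) (η : ℝ) (W' : Finset Nd) (p : Nd) :
    ℝ := SL W' p (Jv Φ X f) / len p + ((-1) * Jv Φ X f p + 2 * η)

lemma SL_hh (Φ : Nd → Fn → ℝ) {W W' : Finset Nd} {I : Nd} (hW : Full W I) (hW' : Full W' I)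
    (hs : W ⊆ W') :
    SL W I (hh Φ X f η W') = SL W' I (Jv Φ X f) - SL W I (Jv Φ X f) + 2 * η * len I := by
  unfold hh
  rw [SL_add, SL_nest hW hW' hs _ I hW.top, SL_add, SL_smul, SL_const hW _ I hW.top]
  ring

lemma len_hh (Φ : Nd → Fn → ℝ) (W' : Finset Nd) (p : Nd) :
    len p * hh Φ X f η W' p =
      SL W' p (Jv Φ X f) - len p * Jv Φ X f p + len p * (2 * η) := by
  have := Growth.len_pos p
  unfold hh
  field_simp
  ring

variable (hB : ∀ i, Bnd (Bd i) (pos i) (N i) (ν i)) (hr : ∀ i, 0 ≤ r i) (hκ : ∀ i, 0 ≤ κ i)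
  (h : NMP (fun _ _ => True) (ThF Bd pos N ν a r κ) X η f)

include hB hr hκ h

/-- the glued letters of two nested full regions -/
theorem var_g {W W' : Finset Nd} {J : Nd} (hW : Full W J) (hW' : Full W' J) (hs : W ⊆ W') :
    ∑ y ∈ iv J, ‖gl W f y - gl W' f y‖ ^ 2 ≤
      2 * (SL W' J (Jv (ThF Bd pos N ν a r κ) X f) - SL W J (Jv (ThF Bd pos N ν a r κ) X f) +
        2 * η * len J) := by
  rw [← SL_hh _ hW hW' hs, ← SL_smul,
    sum_SL hW (fun y => ‖gl W f y - gl W' f y‖ ^ 2)
      (fun p => av p (fun y => f p y - gl W' f y) ^ 2) (fun L hL => ?_) J hW.top]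
  · refine SL_mono fun L hL _ => ?_
    have h1 := strong_win hB hr hκ h hW' (hs (mem_lf.1 hL).1)
    have h2 : 0 ≤ (1 / 2 : ℝ) * ∑ i, κ i * (ν i * dst (Bd i) L
        (Rs (Bd i) (pos i) (N i) (a i) (r i) L (f L))
        (Rs (Bd i) (pos i) (N i) (a i) (r i) L (gl W' f))) :=
      mul_nonneg (by norm_num) (Finset.sum_nonneg fun i _ =>
        mul_nonneg (hκ i) (mul_nonneg (hB i).nu.le (dst_nonneg _ _ _)))
    have h3 : 0 ≤ ∑ i, κ i * (ν i / 2 * dst (Bd i) L
        (Pj (Bd i) (N i) (r i) L (ag (Bd i) (pos i) (a i) L (gl W' f)))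
        (Bgl (Bd i) (pos i) (N i) (a i) (r i) W' L (gl W' f))) :=
      Finset.sum_nonneg fun i _ =>
        mul_nonneg (hκ i) (mul_nonneg (by have := (hB i).nu; positivity) (dst_nonneg _ _ _))
    rw [← len_hh] at h1
    have hL0 := Growth.len_pos L
    have h4 : len L * av L (fun y => f L y - gl W' f y) ^ 2 ≤
        len L * (2 * hh (ThF Bd pos N ν a r κ) X f η W' L) := by linarith
    exact le_of_mul_le_mul_left h4 hL0
  · rw [← sum_av']
    exact Finset.sum_congr rfl fun y hy => by rw [gl_eq hW f hL hy]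


/-- **the chain inequality of the stacks, glued letters** -/
theorem chain_g {R S : Finset Nd} {J : Nd} {W : Nd → Finset Nd} {C : ℝ} (hR : Full R J)
    (hP : TWin.Part R S W C) {k l : ℕ} (hk : 1 ≤ k) (hkl : k ≤ l) :
    ∑ y ∈ iv J, ‖gl (Rk R S k) f y - gl (Rk R S l) f y‖ ^ 2 ≤
      2 * (SL (Rk R S l) J (Jv (ThF Bd pos N ν a r κ) X f) -
        SL (Rk R S k) J (Jv (ThF Bd pos N ν a r κ) X f) + 2 * η * len J) :=
  var_g hB hr hκ h (full_Rk hR hP hk) (full_Rk hR hP (hk.trans hkl)) (Rk_mono hkl)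


end family

end Crest.Agent.R079.Stk
end

-- ▼ part R079/MovD_242

/-! R079, Step I, MOVE for functions on finite sets (helper242): `move_chain` with the norms
`√(∑_A ‖x‖²)` (no Hilbert space to build), locality of the words is automatic; and the repair of the
chain inequality with an additive slack (`chain_fix`), which is the form given by the stacks. -/

set_option autoImplicit false

namespace Crest.Agent.R079.MovC

open Finset Crest.Agent.R079.Move59

section fn

variable {Ω Ω' : Type*}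











variable {A : Finset Ω} {A' : Finset Ω'} {n : ℕ} {T : ℕ → (Ω → ℂ) →ₗ[ℝ] (Ω' → ℂ) →ₗ[ℝ] ℂ} {N : ℝ}







end fn

/-- the chain inequality with slack `e` (stacks `1, 2, ..`) in the form needed by `move_chain` -/
theorem chain_fix (F : ℕ → ℕ → ℝ) (V : ℕ → ℝ) {c e B : ℝ} (hc : 0 ≤ c) (he : 0 ≤ e) (m : ℕ)
    (hF : ∀ k l, 1 ≤ k → k ≤ l → F k l ≤ c * (V l - V k + e)) (hF0 : ∀ k, F k k = 0)
    (hV : ∀ k, 1 ≤ k → V k - V 1 ≤ B) :
    (∀ k l, k ≤ l → F (min k m + 1) (min l m + 1) ≤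
      c * (V (min l m + 1) + e * (min l m : ℕ)) - c * (V (min k m + 1) + e * (min k m : ℕ))) ∧
    ∀ k, c * (V (min k m + 1) + e * (min k m : ℕ)) - c * (V (min 0 m + 1) + e * (min 0 m : ℕ)) ≤
      c * (B + e * m) := by
  constructor
  · intro k l hkl
    rcases (min_le_min_right m hkl).lt_or_eq with h | h
    · have h1 := hF (min k m + 1) (min l m + 1) (by omega) (by omega)
      have h2 : ((min k m : ℕ) : ℝ) + 1 ≤ ((min l m : ℕ) : ℝ) := by exact_mod_cast h
      have h3 : e * ((min k m : ℕ) : ℝ) + e ≤ e * ((min l m : ℕ) : ℝ) := by nlinarith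
      have h4 : c * (V (min l m + 1) - V (min k m + 1) + e) ≤
          c * (V (min l m + 1) - V (min k m + 1) +
            (e * ((min l m : ℕ) : ℝ) - e * ((min k m : ℕ) : ℝ))) :=
        mul_le_mul_of_nonneg_left (by linarith) hc
      nlinarith [h1, h4]
    · rw [h, hF0]
      linarith
  · intro k
    have h1 := hV (min k m + 1) (by omega)
    have h0 : min 0 m = 0 := by omega
    rw [h0]
    have h2 : ((min k m : ℕ) : ℝ) ≤ (m : ℝ) := by exact_mod_cast min_le_right k m
    have h3 : e * ((min k m : ℕ) : ℝ) ≤ e * m := mul_le_mul_of_nonneg_left h2 he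
    have h4 : c * ((V (min k m + 1) - V 1) + e * ((min k m : ℕ) : ℝ)) ≤ c * (B + e * m) :=
      mul_le_mul_of_nonneg_left (by linarith) hc
    push_cast at h4 ⊢
    simp only [mul_zero, add_zero] at h4 ⊢
    nlinarith [h4]

end Crest.Agent.R079.MovC
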