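import Crest.Agent.R079.ElU_440

-- ▼ part R079/NrD_276
section

/-! R079 (helper276), (T4) of note 1820: NEAR-NORMING.
`near_win` : for every node `p` of a window, the glued leaf projections `B` nearly norm `A = a gl`:
`∑ κ ν (dst A B - dst A (Pj A)) ≤ len p (δ + η)`.
`el_own` : `X - gl - (own ladder)` is small at every node; `el_repl` : the own ladder may be replaced by
any kernels `E w i` at the price of their distance to the steps of the ladder. -/

set_option autoImplicit false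

namespace Crest.Agent.R079.NrDx276

open Finset Crest.Agent.R079.Grid Crest.Agent.R079.Growth Crest.Agent.R079.QRed
  Crest.Agent.R079.Qh249 Crest.Agent.R079.QVar181 Crest.Agent.R079.TWin
open Crest.Agent.R079.RelW653 (vl NMP Jv Dv av_par sum_av' lf_sum_eq')
open Crest.Agent.R079.RelV653 Crest.Agent.R079.ThA159 Crest.Agent.R079.ThB159
open Crest.Agent.R079.ElS440 (Ln LnF Ln_sub)
open Crest.Agent.R079.ElW778 (Ln_congr Ln_sum tele)
open Crest.Agent.R079.ElT440 (lad lad_dst LnF_dst GrF_eq)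
open Crest.Agent.R079.ElU440 (upto lad_eq0 ThL0)

section one

variable {Ω : Type*} {Bd : Nd → Finset Ω} {pos : Ω → ℤ} {N : Nd → (Ω → ℂ) → ℝ} {ν : ℝ}

/-- the deficiency of an admissible kernel `B` against the projection -/
noncomputable def dfc (Bd : Nd → Finset Ω) (N : Nd → (Ω → ℂ) → ℝ) (r : ℝ) (p : Nd)
    (A B : Ω → ℂ) : ℝ := dst Bd p A B - dst Bd p A (Pj Bd N r p A)

lemma dfc_nonneg (hB : Bnd Bd pos N ν) {r : ℝ} (hr : 0 ≤ r) (p : Nd) (A : Ω → ℂ) {B : Ω → ℂ}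
    (hBa : Adm Bd N r p B) : 0 ≤ dfc Bd N r p A B :=
  sub_nonneg.2 ((Pj_spec hB hr p A).2 B hBa)

/-- the step `i` of the own ladder: `C_{i+1} - C_i`, `C_j = Pj (r j) A` for `j < K`, `C_K = A` -/
noncomputable def stp (Bd : Nd → Finset Ω) (N : Nd → (Ω → ℂ) → ℝ) (r : ℕ → ℝ) (K : ℕ) (p : Nd)
    (A : Ω → ℂ) (i : ℕ) : Ω → ℂ :=
  fun ω => upto K (fun j => Pj Bd N (r j) p A) A (i + 1) ω
    - upto K (fun j => Pj Bd N (r j) p A) A i ω

/-- sum of the parts above the thresholds as the weighted sum of the steps -/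
lemma stp_sum (r : ℕ → ℝ) (K : ℕ) (p : Nd) (A : Ω → ℂ) (ω : Ω) :
    ∑ j ∈ range K, (A ω - Pj Bd N (r j) p A ω)
      = ∑ i ∈ range K, ((i : ℂ) + 1) * stp Bd N r K p A i ω := by
  set u : ℕ → ℂ := fun i => upto K (fun j => Pj Bd N (r j) p A) A i ω with hu
  have h1 : ∑ i ∈ range K, ((i : ℂ) + 1) * stp Bd N r K p A i ω
      = ∑ i ∈ range K, ((i : ℂ) + 1) * (u (i + 1) - u i) := rfl
  rw [h1, tele u K, Finset.sum_sub_distrib, Finset.sum_const, Finset.card_range, nsmul_eq_mul]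
  have h2 : u K = A ω := by simp only [hu, upto, if_neg (lt_irrefl K)]
  have h3 : ∑ j ∈ range K, u j = ∑ j ∈ range K, Pj Bd N (r j) p A ω :=
    Finset.sum_congr rfl fun j hj => by simp only [hu, upto, if_pos (Finset.mem_range.1 hj)]
  rw [h2, h3]

/-- the deficiency of the glued leaf projections is the sum of the increments -/
theorem dfc_SN (hB : Bnd Bd pos N ν) (a : Ω → ℂ) {r : ℝ} (hr : 0 ≤ r) {W : Finset Nd}
    {I : Nd} (hW : Full W I) (g : Fn) {p : Nd} (hp : p ∈ W) :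
    ν * dfc Bd N r p (ag Bd pos a p g) (Bgl Bd pos N a r W p g)
      = SN W p (Inc fun q => Th Bd pos N ν a r q g) := by
  have h2 := Bgl_dst hB a hr hW g p hp
  rw [SN_Inc hW _ p hp, ← h2]
  have h4 : len p * Th Bd pos N ν a r p g
      = ν * dst Bd p (ag Bd pos a p g) (Pj Bd N r p (ag Bd pos a p g)) := by
    have hL := Growth.len_pos p
    unfold Th
    field_simp
  rw [h4]
  unfold dfc
  ring

end one

section family

variable {ι : Type*} [Fintype ι] {Ω : ι → Type*} {Bd : ∀ i, Nd → Finset (Ω i)}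
  {pos : ∀ i, Ω i → ℤ} {N : ∀ i, Nd → (Ω i → ℂ) → ℝ} {ν : ι → ℝ} {a : ∀ i, Ω i → ℂ}
  {κ : ι → ℝ} {X : Fn} {η : ℝ} {f : Nd → Fn}

/-- **near-norming, all gauges and thresholds, at every node of a window** -/
theorem near_win {r : ι → ℝ} (hB : ∀ i, Bnd (Bd i) (pos i) (N i) (ν i)) (hr : ∀ i, 0 ≤ r i)
    (hκ : ∀ i, 0 ≤ κ i) (h : NMP (fun _ _ => True) (ThF Bd pos N ν a r κ) X η f)
    {W : Finset Nd} {I : Nd} (hW : Full W I) {δ : ℝ}
    (hG : GdP (ThF Bd pos N ν a r κ) X η f δ W I) {p : Nd} (hp : p ∈ W) :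
    ∑ i, κ i * (ν i * dfc (Bd i) (N i) (r i) p (ag (Bd i) (pos i) (a i) p (gl W f))
      (Bgl (Bd i) (pos i) (N i) (a i) (r i) W p (gl W f))) ≤ len p * (δ + η) := by
  have hP := pen_ThF (a := a) (κ := κ) hB hr hκ
  have h1 := incr_le hP h hW hp
  have h2 := drift_P hP h hW hG hp
  have h3 : SN W p (Inc fun q => ThF Bd pos N ν a r κ q (gl W f)) ≤ len p * (δ + η) := by
    linarith
  unfold ThF at h3
  rw [SN_Sg hW κ _ _ hp] at h3
  refine le_trans (le_of_eq ?_) h3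
  refine Finset.sum_congr rfl fun i _ => ?_
  rw [dfc_SN (hB i) (a i) (hr i) hW (gl W f) hp]

variable {r : ι → ℕ → ℝ}

/-- near-norming for the ladder functional `ThL0` -/
theorem near_win0 {K : ℕ} (hB : ∀ i, Bnd (Bd i) (pos i) (N i) (ν i)) (hr : ∀ i j, 0 ≤ r i j)
    (hκ : ∀ i, 0 ≤ κ i) (h : NMP (fun _ _ => True) (ThL0 K Bd pos N ν a r κ) X η f)
    {W : Finset Nd} {I : Nd} (hW : Full W I) {δ : ℝ}
    (hG : GdP (ThL0 K Bd pos N ν a r κ) X η f δ W I) {p : Nd} (hp : p ∈ W) :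
    ∑ w, κ w * (ν w * ∑ j ∈ range K, dfc (Bd w) (N w) (r w j) p
      (ag (Bd w) (pos w) (a w) p (gl W f))
      (Bgl (Bd w) (pos w) (N w) (a w) (r w j) W p (gl W f))) ≤ len p * (δ + η) := by
  have h5 := near_win (ι := ι × Fin K) (fun i => hB i.1) (fun i => hr i.1 i.2)
      (fun i => hκ i.1) h hW hG hp
  rw [Fintype.sum_prod_type] at h5
  refine le_trans (le_of_eq ?_) h5
  refine Finset.sum_congr rfl fun w _ => ?_
  rw [← Fin.sum_univ_eq_sum_range (fun j => dfc (Bd w) (N w) (r w j) p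
      (ag (Bd w) (pos w) (a w) p (gl W f))
      (Bgl (Bd w) (pos w) (N w) (a w) (r w j) W p (gl W f))) K, Finset.mul_sum, Finset.mul_sum]


/-- distance of two weighted sums of steps -/
lemma wsum_dst {Ω : Type*} (Bd : Nd → Finset Ω) (K : ℕ) (p : Nd) (G E : ℕ → Ω → ℂ) :
    dst Bd p (fun ω => ∑ i ∈ range K, ((i : ℂ) + 1) * G i ω)
      (fun ω => ∑ i ∈ range K, ((i : ℂ) + 1) * E i ω)
      ≤ (K : ℝ) ^ 3 * ∑ i ∈ range K, dst Bd p (G i) (E i) := by
  unfold dst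
  rw [Finset.sum_comm, Finset.mul_sum]
  refine Finset.sum_le_sum fun ω _ => ?_
  rw [← Finset.sum_sub_distrib]
  have h2 : ‖∑ i ∈ range K, (((i : ℂ) + 1) * G i ω - ((i : ℂ) + 1) * E i ω)‖
      ≤ ∑ i ∈ range K, (K : ℝ) * ‖G i ω - E i ω‖ := by
    refine (norm_sum_le _ _).trans (Finset.sum_le_sum fun i hi => ?_)
    rw [← mul_sub, norm_mul]
    refine mul_le_mul_of_nonneg_right ?_ (norm_nonneg _)
    have e : ((i : ℂ) + 1) = ((i + 1 : ℕ) : ℂ) := by push_cast; ring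
    rw [e, Complex.norm_natCast]
    exact_mod_cast Finset.mem_range.1 hi
  refine (pow_le_pow_left₀ (norm_nonneg _) h2 2).trans ?_
  have h4 := sq_sum_le_card_mul_sum_sq (s := range K) (f := fun i => (K : ℝ) * ‖G i ω - E i ω‖)
  rw [Finset.card_range] at h4
  refine h4.trans (le_of_eq ?_)
  rw [Finset.mul_sum, Finset.mul_sum]
  refine Finset.sum_congr rfl fun i _ => ?_
  ring



end family

end Crest.Agent.R079.NrDx276
end

-- ▼ part R079/NrE_276

/-! R079 (helper276), (T4) of note 1820, part 2: the deficiency on 881's `Split` cells.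
`dst_cells`, `dfc_cells` : distance and deficiency are sums over the cells;
`stp_cell` : the steps of the own ladder on a cell; `near_cells` : near-norming summed over the cells. -/

set_option autoImplicit false

namespace Crest.Agent.R079.NrDx276

open Finset Crest.Agent.R079.Grid Crest.Agent.R079.Growth Crest.Agent.R079.QRed
  Crest.Agent.R079.Qh249 Crest.Agent.R079.QVar181 Crest.Agent.R079.TWin
open Crest.Agent.R079.RelW653 (vl NMP Jv Dv av_par sum_av' lf_sum_eq')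
open Crest.Agent.R079.RelV653 Crest.Agent.R079.ThA159 Crest.Agent.R079.ThB159
open Crest.Agent.R079.ElS440 (Ln LnF Ln_sub)
open Crest.Agent.R079.ElU440 (upto lad_eq0 ThL0)
open Crest.Agent.R079.PjC881 (Split Pj_cell)
open Crest.Agent.R079.ClW59 (OpS cl DQ cl_dist DQ_le cl_op)

section cells

variable {C : Type*} {Bd : Nd → Finset (ℤ × ℤ × ℤ)} {pos : ℤ × ℤ × ℤ → ℤ}
  {N : Nd → (ℤ × ℤ × ℤ → ℂ) → ℝ} {ν : ℝ} {p : Nd}
  {cells : Finset C} {z : C → ℤ} {S T : C → Finset ℤ} {w : C → ℝ}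

/-- sums over the band are sums over the cells -/
theorem sum_cells (hs : Split Bd N p cells z S T w) (F : ℤ × ℤ × ℤ → ℝ) :
    ∑ ω ∈ Bd p, F ω = ∑ c ∈ cells, ∑ u ∈ S c, ∑ v ∈ T c, F (z c, u, v) := by
  classical
  have h1 : Bd p = cells.biUnion (fun c => ({z c} : Finset ℤ) ×ˢ (S c ×ˢ T c)) := by
    ext ω
    rw [hs.mem, Finset.mem_biUnion]
  rw [h1, Finset.sum_biUnion]
  · refine Finset.sum_congr rfl fun c _ => ?_
    rw [Finset.sum_product, Finset.sum_singleton, Finset.sum_product]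
  · intro c hc c' hc' hne
    exact Finset.disjoint_left.2 fun ω hω => hs.dj c hc c' hc' hne ω hω

theorem dst_cells (hs : Split Bd N p cells z S T w) (A B : ℤ × ℤ × ℤ → ℂ) :
    dst Bd p A B = ∑ c ∈ cells, ∑ u ∈ S c, ∑ v ∈ T c, ‖A (z c, u, v) - B (z c, u, v)‖ ^ 2 :=
  sum_cells hs fun ω => ‖A ω - B ω‖ ^ 2

/-- the gap of a rectangle: squared distance of `B` minus squared distance of the clip -/
noncomputable def gpS (A B : ℤ → ℤ → ℂ) (S T : Finset ℤ) (th : ℝ) : ℝ :=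
  ∑ u ∈ S, ∑ v ∈ T, ‖A u v - B u v‖ ^ 2 - ∑ u ∈ S, ∑ v ∈ T, ‖A u v - cl A S T th u v‖ ^ 2

lemma gpS_nonneg (A : ℤ → ℤ → ℂ) {S T : Finset ℤ} {th : ℝ} (hth : 0 ≤ th) {B : ℤ → ℤ → ℂ}
    (hB : OpS S T B th) : 0 ≤ gpS A B S T th := by
  have h := DQ_le A hth hB
  unfold gpS
  rw [cl_dist]
  linarith

/-- **the deficiency is the sum of the gaps of the cells** -/
theorem dfc_cells (hB : Bnd Bd pos N ν) (hs : Split Bd N p cells z S T w) {r : ℝ} (hr : 0 ≤ r)
    (A B : ℤ × ℤ × ℤ → ℂ) :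
    dfc Bd N r p A B = ∑ c ∈ cells,
      gpS (fun u v => A (z c, u, v)) (fun u v => B (z c, u, v)) (S c) (T c) (r * w c) := by
  unfold dfc gpS
  rw [dst_cells hs, dst_cells hs, ← Finset.sum_sub_distrib]
  refine Finset.sum_congr rfl fun c hc => ?_
  congr 1
  refine Finset.sum_congr rfl fun u hu => Finset.sum_congr rfl fun v hv => ?_
  rw [Pj_cell hB hs hr A hc u hu v hv]

/-- the steps of the own ladder on a cell, below the last one -/
theorem stp_cell (hB : Bnd Bd pos N ν) (hs : Split Bd N p cells z S T w) {r : ℕ → ℝ}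
    (hr : ∀ j, 0 ≤ r j) {K i : ℕ} (hi : i + 1 < K) (A : ℤ × ℤ × ℤ → ℂ) {c : C} (hc : c ∈ cells) :
    ∀ u ∈ S c, ∀ v ∈ T c, stp Bd N r K p A i (z c, u, v)
      = cl (fun u v => A (z c, u, v)) (S c) (T c) (r (i + 1) * w c) u v
        - cl (fun u v => A (z c, u, v)) (S c) (T c) (r i * w c) u v := by
  intro u hu v hv
  unfold stp upto
  simp only [if_pos hi, if_pos (Nat.lt_of_succ_lt hi)]
  rw [Pj_cell hB hs (hr _) A hc u hu v hv, Pj_cell hB hs (hr _) A hc u hu v hv]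

/-- the last step of the own ladder on a cell -/
theorem stp_cell_last (hB : Bnd Bd pos N ν) (hs : Split Bd N p cells z S T w) {r : ℕ → ℝ}
    (hr : ∀ j, 0 ≤ r j) {K i : ℕ} (hi : i + 1 = K) (A : ℤ × ℤ × ℤ → ℂ) {c : C} (hc : c ∈ cells) :
    ∀ u ∈ S c, ∀ v ∈ T c, stp Bd N r K p A i (z c, u, v)
      = A (z c, u, v) - cl (fun u v => A (z c, u, v)) (S c) (T c) (r i * w c) u v := by
  intro u hu v hv
  unfold stp upto
  have h1 : ¬ (i + 1 < K) := by omega
  have h2 : i < K := by omega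
  simp only [if_neg h1, if_pos h2]
  rw [Pj_cell hB hs (hr _) A hc u hu v hv]

/-- an admissible kernel of the node is bounded on every cell -/
theorem adm_cell (hs : Split Bd N p cells z S T w) {r : ℝ} (hr : 0 ≤ r) {B : ℤ × ℤ × ℤ → ℂ}
    (h : Adm Bd N r p B) {c : C} (hc : c ∈ cells) :
    OpS (S c) (T c) (fun u v => B (z c, u, v)) (r * w c) :=
  (hs.adm r hr B h.1).1 h.2 c hc

/-- an admissible kernel: every gap is nonnegative -/
theorem gap_nonneg (hs : Split Bd N p cells z S T w) {r : ℝ} (hr : 0 ≤ r)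
    (A : ℤ × ℤ × ℤ → ℂ) {B : ℤ × ℤ × ℤ → ℂ} (h : Adm Bd N r p B) {c : C} (hc : c ∈ cells) :
    0 ≤ gpS (fun u v => A (z c, u, v)) (fun u v => B (z c, u, v)) (S c) (T c) (r * w c) :=
  gpS_nonneg _ (mul_nonneg hr (hs.w0 c hc)) (adm_cell hs hr h hc)

end cells

section family

variable {ι : Type*} [Fintype ι] {Bd : ι → Nd → Finset (ℤ × ℤ × ℤ)}
  {pos : ι → ℤ × ℤ × ℤ → ℤ} {N : ι → Nd → (ℤ × ℤ × ℤ → ℂ) → ℝ} {ν : ι → ℝ}
  {a : ι → ℤ × ℤ × ℤ → ℂ} {r : ι → ℕ → ℝ} {κ : ι → ℝ} {X : Fn} {η : ℝ} {f : Nd → Fn}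

/-- **near-norming on cells**: the gaps of the cells of `p`, all gauges and thresholds -/
theorem near_cells {K : ℕ} (hB : ∀ i, Bnd (Bd i) (pos i) (N i) (ν i)) (hr : ∀ i j, 0 ≤ r i j)
    (hκ : ∀ i, 0 ≤ κ i) (h : NMP (fun _ _ => True) (ThL0 K Bd pos N ν a r κ) X η f)
    {W : Finset Nd} {I : Nd} (hW : Full W I) {δ : ℝ}
    (hG : GdP (ThL0 K Bd pos N ν a r κ) X η f δ W I) {p : Nd} (hp : p ∈ W)
    {C : ι → Type*} {cells : ∀ i, Finset (C i)} {z : ∀ i, C i → ℤ} {S T : ∀ i, C i → Finset ℤ}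
    {wt : ∀ i, C i → ℝ}
    (hs : ∀ i, Split (Bd i) (N i) p (cells i) (z i) (S i) (T i) (wt i)) :
    ∑ w, κ w * (ν w * ∑ j ∈ range K, ∑ c ∈ cells w,
      gpS (fun u v => ag (Bd w) (pos w) (a w) p (gl W f) (z w c, u, v))
        (fun u v => Bgl (Bd w) (pos w) (N w) (a w) (r w j) W p (gl W f) (z w c, u, v))
        (S w c) (T w c) (r w j * wt w c)) ≤ len p * (δ + η) := by
  refine le_trans (le_of_eq ?_) (near_win0 hB hr hκ h hW hG hp)
  refine Finset.sum_congr rfl fun w _ => ?_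
  congr 2
  refine Finset.sum_congr rfl fun j _ => ?_
  rw [dfc_cells (hB w) (hs w) (hr w j)]

/-- near-norming for any lower bounds of the gaps -/
theorem near_lower {K : ℕ} (hB : ∀ i, Bnd (Bd i) (pos i) (N i) (ν i)) (hr : ∀ i j, 0 ≤ r i j)
    (hκ : ∀ i, 0 ≤ κ i) (h : NMP (fun _ _ => True) (ThL0 K Bd pos N ν a r κ) X η f)
    {W : Finset Nd} {I : Nd} (hW : Full W I) {δ : ℝ}
    (hG : GdP (ThL0 K Bd pos N ν a r κ) X η f δ W I) {p : Nd} (hp : p ∈ W)
    {C : ι → Type*} {cells : ∀ i, Finset (C i)} {z : ∀ i, C i → ℤ} {S T : ∀ i, C i → Finset ℤ}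
    {wt : ∀ i, C i → ℝ}
    (hs : ∀ i, Split (Bd i) (N i) p (cells i) (z i) (S i) (T i) (wt i))
    (G : ∀ w, ℕ → C w → ℝ)
    (hGp : ∀ w, ∀ j < K, ∀ c ∈ cells w, 2 * G w j c ≤
      gpS (fun u v => ag (Bd w) (pos w) (a w) p (gl W f) (z w c, u, v))
        (fun u v => Bgl (Bd w) (pos w) (N w) (a w) (r w j) W p (gl W f) (z w c, u, v))
        (S w c) (T w c) (r w j * wt w c)) :
    ∑ w, κ w * (ν w * ∑ j ∈ range K, ∑ c ∈ cells w, G w j c) ≤ len p * ((δ + η) / 2) := by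
  have h1 := near_cells hB hr hκ h hW hG hp hs
  have h2 : 2 * ∑ w, κ w * (ν w * ∑ j ∈ range K, ∑ c ∈ cells w, G w j c)
      ≤ ∑ w, κ w * (ν w * ∑ j ∈ range K, ∑ c ∈ cells w,
      gpS (fun u v => ag (Bd w) (pos w) (a w) p (gl W f) (z w c, u, v))
        (fun u v => Bgl (Bd w) (pos w) (N w) (a w) (r w j) W p (gl W f) (z w c, u, v))
        (S w c) (T w c) (r w j * wt w c)) := by
    rw [Finset.mul_sum]
    refine Finset.sum_le_sum fun w _ => ?_
    have hκν : 0 ≤ κ w * ν w := mul_nonneg (hκ w) (hB w).nu.le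
    have h3 : 2 * ∑ j ∈ range K, ∑ c ∈ cells w, G w j c ≤ ∑ j ∈ range K, ∑ c ∈ cells w,
      gpS (fun u v => ag (Bd w) (pos w) (a w) p (gl W f) (z w c, u, v))
        (fun u v => Bgl (Bd w) (pos w) (N w) (a w) (r w j) W p (gl W f) (z w c, u, v))
        (S w c) (T w c) (r w j * wt w c) := by
      rw [Finset.mul_sum]
      refine Finset.sum_le_sum fun j hj => ?_
      rw [Finset.mul_sum]
      exact Finset.sum_le_sum fun c hc => hGp w j (Finset.mem_range.1 hj) c hc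
    have h4 := mul_le_mul_of_nonneg_left h3 hκν
    refine le_trans (le_of_eq ?_) (h4.trans (le_of_eq ?_))
    · ring
    · ring
  have h5 := h2.trans h1
  linarith

end family

end Crest.Agent.R079.NrDx276
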