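import Crest.Agent.R079.SKw_261

/-! R079, item (c) of 973 / note 1201 (helper261): **the (S) word of a Whitney top** (theorem
`SKword`).  The split slot is, on the Whitney top `P'` of `P`, the gauge `al` times
`C w - Pj r P (C w)`. -/

set_option autoImplicit false
set_option linter.unusedSectionVars false

namespace Crest.Agent.R079.SKx261

open Finset Crest.Agent.R079.Grid Crest.Agent.R079.Growth Crest.Agent.R079.QRed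
  Crest.Agent.R079.Qh249 Crest.Agent.R079.QVar181
  Crest.Agent.R079.TWin Crest.Agent.R079.Glue Crest.Agent.R079.SWc360 Crest.Agent.R079.Cel159
  Crest.Agent.R079.SplSx69 Crest.Agent.R079.ThA159
open Crest.Agent.R079.ClW59 (OpS cl)
open Crest.Agent.R079.Whit (Ins)

open scoped ComplexConjugate


/-- the projection of a node, frozen slot `e` -/
noncomputable abbrev PjY (j : Fin 4) (e : Fin 3) (k : ℕ) (T : Fin 3 → Finset ℤ) (r : ℝ) (P : Nd)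
    (A : ℤ × ℤ × ℤ → ℂ) : ℤ × ℤ × ℤ → ℂ :=
  Pj (fun p => (T e ×ˢ (T (e + 1) ×ˢ T (e + 2))).filter (fun ω => Yl j e ω.1 ω.2.1 ω.2.2 ∈ iv p))
    (NmP (T e ×ˢ (T (e + 1) ×ˢ T (e + 2))) Cel159.cf (okc (Yl j e) k)) r P A

/-- letters of the word -/
structure SKL {ι : Type} (S : Finset ι) (kap : ι → ℝ) (j : Fin 4) (e : Fin 3)
    (T : Fin 3 → Finset ℤ) (R : Finset Nd) (al : ι → ℤ → ℤ → ℂ) (F : Fin 4 → ℤ → ℂ)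
    (A g1 d1 g2 d2 mb H0 : ℝ) (m0 : ℕ) : Prop where
  A0 : 0 ≤ A
  g10 : 0 ≤ g1
  d10 : 0 ≤ d1
  g20 : 0 ≤ g2
  d20 : 0 ≤ d2
  H00 : 0 ≤ H0
  flo : ∀ p ∈ R, m0 ≤ p.1
  l2 : ∀ p ∈ R, ∀ i : Fin 3, ∑ y ∈ iv p, ‖F (j.succAbove i) y‖ ^ 2 ≤ A * len p
  nc1 : ∀ p ∈ R, NCs p g1 d1 (F (j.succAbove (e + 2)))
  nc2 : ∀ p ∈ R, NCs p g2 d2 (F (j.succAbove (e + 1)))
  gm : ∑ w ∈ S, kap w * ∑ u ∈ T (e + 1), ∑ v ∈ T (e + 2), ‖al w u v‖ ^ 2 ≤ mb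
  gh : ∀ w ∈ S, ∀ u v y, ‖al w u v‖ * ‖F (j.succAbove e) y‖ ≤ H0

/-- sizes -/
structure SKZ (Θ A g1 d1 g2 d2 ρ r Hr G mb H0 : ℝ) : Prop where
  Θ1 : 1 ≤ Θ
  A : A ≤ Θ
  g1 : g1 ≤ Θ
  d1 : d1 ≤ Θ
  g2 : g2 ≤ Θ
  d2 : d2 ≤ Θ
  ρ : ρ ≤ Θ
  r : r⁻¹ ≤ Θ
  Hr : Hr ≤ Θ
  G : G ≤ Θ
  mb : mb ≤ Θ
  H0 : H0 ≤ Θ


end Crest.Agent.R079.SKx261
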