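import Crest.Agent.R079.GaT_251
import Crest.Agent.R079.ElG_69
import Crest.Agent.R079.FrY_360
import Crest.Agent.R079.NrB_228
import Crest.Agent.R079.NrE_276
import Crest.Agent.R079.CelD_159
import Crest.Agent.R079.FrZa_360
import Crest.Agent.R079.NrG_276
import Crest.Agent.R079.SKv_261
import Crest.Agent.R079.NrT_259
import Crest.Agent.R079.NrA_228
import Crest.Agent.R079.NrH_276
import Crest.Agent.R079.FrZc_360
import Crest.Agent.R079.ErO_255_Mg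
import Crest.Agent.R079.NM_112
import Crest.Agent.R079.GnE_263

-- ▼ part R079/FrJ_717
section

/-! R079, (T5c) of note 1820 (helper717): **rows, columns and energy of the glued leaf clips on a node
`q` of the window**, and of every kernel dominated by them (the fields `rowU, colW, enB` of `FC`). -/

set_option autoImplicit false
set_option linter.unusedSectionVars false

namespace Crest.Agent.R079.FrJx717

open Finset Crest.Agent.R079.Grid Crest.Agent.R079.Growth Crest.Agent.R079.QRed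
  Crest.Agent.R079.Qh249 Crest.Agent.R079.QVar181 Crest.Agent.R079.TWin
  Crest.Agent.R079.Cel159 Crest.Agent.R079.ThA159 Crest.Agent.R079.ElGx69
  Crest.Agent.R079.GaTx251 Crest.Agent.R079.GaSx571
open Crest.Agent.R079.PjC881 (Split)
open Crest.Agent.R079.RelW653 (sum_av')
open Crest.Agent.R079.GaFx371 (Ye W0 SE BdE poE mem_W0 mem_BdE)
open Crest.Agent.R079.ClW59 (cl)

open scoped ComplexConjugate

section split

variable {κ : Type*} {Bd : Nd → Finset (ℤ × ℤ × ℤ)} {pos : ℤ × ℤ × ℤ → ℤ}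
  {N : Nd → (ℤ × ℤ × ℤ → ℂ) → ℝ} {ν : ℝ} {p : Nd}
  {cells : Finset κ} {z : κ → ℤ} {S T : κ → Finset ℤ} {w : κ → ℝ}

/-- energy of the projection -/
theorem split_all (hB : Bnd Bd pos N ν) (hs : Split Bd N p cells z S T w) {r : ℝ} (hr : 0 ≤ r)
    (A : ℤ × ℤ × ℤ → ℂ) : ∑ ω ∈ Bd p, ‖Pj Bd N r p A ω‖ ^ 2 ≤ ∑ ω ∈ Bd p, ‖A ω‖ ^ 2 := by
  rw [NrDx276.sum_cells hs, NrDx276.sum_cells hs]
  refine Finset.sum_le_sum fun c hc => Finset.sum_le_sum fun u hu => ?_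
  refine le_trans (le_of_eq ?_) (cl_row (fun u v => A (z c, u, v)) (S := S c) (S' := T c)
      (mul_nonneg hr (hs.w0 c hc)) hu)
  exact Finset.sum_congr rfl fun v hv => by
    rw [PjC881.Pj_cell hB hs hr A hc u hu v hv]

end split

section glued

variable {Ω : Type*} {Bd : Nd → Finset Ω} {pos : Ω → ℤ} {N : Nd → (Ω → ℂ) → ℝ} {ν : ℝ}

/-- part of the glued clips of a node `K` on a node `q` below -/
theorem bgl_part (hB : Bnd Bd pos N ν) (a : Ω → ℂ) {r : ℝ} (hr : 0 ≤ r) {W : Finset Nd} {J : Nd}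
    (hW : Full W J) (g : Fn) {K q : Nd} (hK : K ∈ W) (hq : q ∈ W) (hqK : iv q ⊆ iv K)
    (Q : Ω → Prop) [DecidablePred Q]
    (hQ : ∀ p ∈ lf W, ∀ A : Ω → ℂ, ∑ ω ∈ (Bd p).filter Q, ‖Pj Bd N r p A ω‖ ^ 2 ≤
      ∑ ω ∈ (Bd p).filter Q, ‖A ω‖ ^ 2) :
    ∑ ω ∈ (Bd q).filter Q, ‖Bgl Bd pos N a r W K g ω‖ ^ 2 ≤
      ∑ ω ∈ (Bd q).filter Q, ‖a ω * g (pos ω)‖ ^ 2 := by
  refine le_trans (le_of_eq ?_) (Bgl_part hB a hr hW g Q hQ q hq)
  refine Finset.sum_congr rfl fun ω hω => ?_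
  have h1 := (Finset.mem_filter.1 hω).1
  rw [Bgl_loc hB a hr hW hK g (Bd_mono hB hqK h1)]

/-- energy of the glued clips of a node `K` on a node `q` below -/
theorem bgl_en (hB : Bnd Bd pos N ν) {a : Ω → ℂ} (ha : FibG Bd pos ν a) {r : ℝ} (hr : 0 ≤ r)
    {W : Finset Nd} {J : Nd} (hW : Full W J) (g : Fn) {K q : Nd} (hK : K ∈ W) (hq : q ∈ W)
    (hqK : iv q ⊆ iv K)
    (hQ : ∀ p ∈ lf W, ∀ A : Ω → ℂ, ∑ ω ∈ Bd p, ‖Pj Bd N r p A ω‖ ^ 2 ≤
      ∑ ω ∈ Bd p, ‖A ω‖ ^ 2) :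
    ν * ∑ ω ∈ Bd q, ‖Bgl Bd pos N a r W K g ω‖ ^ 2 ≤ len q * av q g ^ 2 := by
  have h1 := bgl_part hB a hr hW g hK hq hqK (fun _ => True) (fun p hp A => by
    rw [Finset.filter_true]
    exact hQ p hp A)
  rw [Finset.filter_true] at h1
  refine (mul_le_mul_of_nonneg_left h1 hB.nu.le).trans ?_
  rw [← sum_av']
  refine le_trans (le_of_eq ?_) (fib_sumG hB ha q (fun y => ‖g y‖ ^ 2) fun y => sq_nonneg _)
  congr 1
  exact Finset.sum_congr rfl fun ω _ => by rw [norm_mul, mul_pow]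

end glued

/-! ### the coordinates of an edge -/

lemma lin_Ye (i : Fin 4) (e : Fin 3) (w : ℤ) : SKx261.Lin (Ye i e w)
    ((sl i - sl (i.succAbove (e + 2))) * w) (sl (i.succAbove e) - sl (i.succAbove (e + 2)))
    (sl (i.succAbove (e + 1)) - sl (i.succAbove (e + 2))) := by
  refine ⟨fun _ _ => rfl, ?_, ?_, ?_, ?_⟩ <;> fin_cases i <;> fin_cases e <;> decide

lemma len_two (q : Nd) : len q = 2 ^ 7 * 2 ^ q.1 := by
  unfold len
  rw [pow_add, mul_comm]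

section edge

variable {i : Fin 4} {e : Fin 3} {T : Fin 3 → Finset ℤ} {J0 : Nd} {kc : ℕ} {ν : ℝ}
  {W : Finset Nd} {J K q : Nd}

/-- the glued leaf clips of an edge -/
noncomputable abbrev BE (i : Fin 4) (e : Fin 3) (T : Fin 3 → Finset ℤ) (J0 : Nd) (kc : ℕ)
    (a : ℤ × ℤ × ℤ → ℂ) (r : ℝ) (W : Finset Nd) (K : Nd) (g : Fn) : ℤ × ℤ × ℤ → ℂ :=
  Bgl (BdE i e T J0) (poE i e) (NmP (SE i e T J0) cf (okc (Ye i e) kc)) a r W K g

/-- rows of the glued clips of `K` on a node `q` below -/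
theorem row_part (hB : Bnd (BdE i e T J0) (poE i e) (NmP (SE i e T J0) cf (okc (Ye i e) kc)) ν)
    {a : ℤ × ℤ × ℤ → ℂ} {Ha : ℝ} (ha : ∀ ω, ‖a ω‖ ≤ Ha) {r : ℝ} (hr : 0 ≤ r) (hW : Full W J)
    (g : Fn) (hK : K ∈ W) (hq : q ∈ W) (hqK : iv q ⊆ iv K) (w u : ℤ) :
    ∑ ω ∈ (BdE i e T J0 q).filter (fun ω => ω.1 = w ∧ ω.2.1 = u),
      ‖BE i e T J0 kc a r W K g ω‖ ^ 2 ≤ Ha ^ 2 * (len q * av q g ^ 2) := by
  refine (bgl_part hB a hr hW g hK hq hqK _ (fun p _ A => split_row' hB (split_cell p) hr A w u)).trans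
    ?_
  rw [← sum_av']
  refine part_energy ?_ (fun ω hω => hB.mem q ω (Finset.mem_filter.1 hω).1) (fun ω _ => ha ω) g
  rintro ⟨x1, x2, x3⟩ hx ⟨y1, y2, y3⟩ hy hxy
  rw [Finset.mem_coe, Finset.mem_filter] at hx hy
  obtain ⟨-, h1, h2⟩ := hx
  obtain ⟨-, h3, h4⟩ := hy
  simp only at h1 h2 h3 h4
  have h5 : Ye i e x1 x2 x3 = Ye i e y1 y2 y3 := hxy
  rw [h1, h2, h3, h4] at h5
  have hl := lin_Ye i e w
  rw [hl.eq, hl.eq] at h5
  have h6 : x3 = y3 := mul_left_cancel₀ hl.g0 (by linarith)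
  rw [h6, h1, h2, h3, h4]

/-- columns of the glued clips of `K` on a node `q` below -/
theorem col_part (hB : Bnd (BdE i e T J0) (poE i e) (NmP (SE i e T J0) cf (okc (Ye i e) kc)) ν)
    {a : ℤ × ℤ × ℤ → ℂ} {Ha : ℝ} (ha : ∀ ω, ‖a ω‖ ≤ Ha) {r : ℝ} (hr : 0 ≤ r) (hW : Full W J)
    (g : Fn) (hK : K ∈ W) (hq : q ∈ W) (hqK : iv q ⊆ iv K) (w v : ℤ) :
    ∑ ω ∈ (BdE i e T J0 q).filter (fun ω => ω.1 = w ∧ ω.2.2 = v),
      ‖BE i e T J0 kc a r W K g ω‖ ^ 2 ≤ Ha ^ 2 * (len q * av q g ^ 2) := by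
  refine (bgl_part hB a hr hW g hK hq hqK _ (fun p _ A => split_col' hB (split_cell p) hr A w v)).trans
    ?_
  rw [← sum_av']
  refine part_energy ?_ (fun ω hω => hB.mem q ω (Finset.mem_filter.1 hω).1) (fun ω _ => ha ω) g
  rintro ⟨x1, x2, x3⟩ hx ⟨y1, y2, y3⟩ hy hxy
  rw [Finset.mem_coe, Finset.mem_filter] at hx hy
  obtain ⟨-, h1, h2⟩ := hx
  obtain ⟨-, h3, h4⟩ := hy
  simp only at h1 h2 h3 h4
  have h5 : Ye i e x1 x2 x3 = Ye i e y1 y2 y3 := hxy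
  rw [h1, h2, h3, h4] at h5
  have hl := lin_Ye i e w
  rw [hl.eq, hl.eq] at h5
  have h6 : x2 = y2 := mul_left_cancel₀ hl.b0 (by linarith)
  rw [h6, h1, h2, h3, h4]

/-- **`rowU`** : rows of a kernel dominated by the glued clips on the strip of `q` -/
theorem row_dom (hB : Bnd (BdE i e T J0) (poE i e) (NmP (SE i e T J0) cf (okc (Ye i e) kc)) ν)
    {a : ℤ × ℤ × ℤ → ℂ} {Ha : ℝ} (ha : ∀ ω, ‖a ω‖ ≤ Ha) {r : ℝ} (hr : 0 ≤ r) (hW : Full W J)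
    (g : Fn) (hK : K ∈ W) (hq : q ∈ W) (hqK : iv q ⊆ iv K) (hqJ : iv q ⊆ iv J0) {w : ℤ}
    {C : ℤ → ℤ → ℂ} {u : ℤ} {D : Finset ℤ}
    (hsup : ∀ v ∈ D, C u v ≠ 0 → u ∈ T e ∧ v ∈ T (e + 1) ∧ Ye i e w u v ∈ iv q)
    (hpt : ∀ v ∈ D, ‖C u v‖ ≤ ‖BE i e T J0 kc a r W K g (w, u, v)‖) :
    ∑ v ∈ D, ‖C u v‖ ^ 2 ≤ (2 ^ 7 * Ha ^ 2 * av q g ^ 2) * 2 ^ q.1 := by
  classical
  have h1 := row_part hB ha hr hW g hK hq hqK w u
  rw [len_two] at h1
  refine le_trans ?_ (h1.trans (le_of_eq (by ring)))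
  have h2 : ∑ v ∈ D, ‖C u v‖ ^ 2 = ∑ v ∈ D.filter (fun v => C u v ≠ 0), ‖C u v‖ ^ 2 := by
    symm
    refine Finset.sum_subset (Finset.filter_subset _ _) fun v hv hv' => ?_
    have h3 : C u v = 0 := by
      by_contra h
      exact hv' (Finset.mem_filter.2 ⟨hv, h⟩)
    rw [h3, norm_zero, zero_pow two_ne_zero]
  rw [h2]
  have h4 : ∑ v ∈ D.filter (fun v => C u v ≠ 0), ‖C u v‖ ^ 2 ≤
      ∑ v ∈ D.filter (fun v => C u v ≠ 0), ‖BE i e T J0 kc a r W K g (w, u, v)‖ ^ 2 :=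
    Finset.sum_le_sum fun v hv => pow_le_pow_left₀ (norm_nonneg _)
      (hpt v (Finset.mem_filter.1 hv).1) 2
  refine h4.trans ?_
  have h5 : ∑ v ∈ D.filter (fun v => C u v ≠ 0), ‖BE i e T J0 kc a r W K g (w, u, v)‖ ^ 2 =
      ∑ ω ∈ (D.filter (fun v => C u v ≠ 0)).image (fun v => (w, u, v)),
        ‖BE i e T J0 kc a r W K g ω‖ ^ 2 := by
    rw [Finset.sum_image]
    intro v _ v' _ h
    simpa using h
  rw [h5]
  refine Finset.sum_le_sum_of_subset_of_nonneg ?_ fun _ _ _ => sq_nonneg _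
  intro ω hω
  obtain ⟨v, hv, rfl⟩ := Finset.mem_image.1 hω
  obtain ⟨hv1, hv2⟩ := Finset.mem_filter.1 hv
  obtain ⟨a1, a2, a3⟩ := hsup v hv1 hv2
  exact Finset.mem_filter.2 ⟨(mem_BdE hqJ).2 ⟨a1, a2, a3⟩, rfl, rfl⟩

/-- **`colW`** : columns of a kernel dominated by the glued clips on the strip of `q` -/
theorem col_dom (hB : Bnd (BdE i e T J0) (poE i e) (NmP (SE i e T J0) cf (okc (Ye i e) kc)) ν)
    {a : ℤ × ℤ × ℤ → ℂ} {Ha : ℝ} (ha : ∀ ω, ‖a ω‖ ≤ Ha) {r : ℝ} (hr : 0 ≤ r) (hW : Full W J)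
    (g : Fn) (hK : K ∈ W) (hq : q ∈ W) (hqK : iv q ⊆ iv K) (hqJ : iv q ⊆ iv J0) {w : ℤ}
    {C : ℤ → ℤ → ℂ} {v : ℤ} {D : Finset ℤ}
    (hsup : ∀ u ∈ D, C u v ≠ 0 → u ∈ T e ∧ v ∈ T (e + 1) ∧ Ye i e w u v ∈ iv q)
    (hpt : ∀ u ∈ D, ‖C u v‖ ≤ ‖BE i e T J0 kc a r W K g (w, u, v)‖) :
    ∑ u ∈ D, ‖C u v‖ ^ 2 ≤ (2 ^ 7 * Ha ^ 2 * av q g ^ 2) * 2 ^ q.1 := by
  classical
  have h1 := col_part hB ha hr hW g hK hq hqK w v
  rw [len_two] at h1
  refine le_trans ?_ (h1.trans (le_of_eq (by ring)))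
  have h2 : ∑ u ∈ D, ‖C u v‖ ^ 2 = ∑ u ∈ D.filter (fun u => C u v ≠ 0), ‖C u v‖ ^ 2 := by
    symm
    refine Finset.sum_subset (Finset.filter_subset _ _) fun u hu hu' => ?_
    have h3 : C u v = 0 := by
      by_contra h
      exact hu' (Finset.mem_filter.2 ⟨hu, h⟩)
    rw [h3, norm_zero, zero_pow two_ne_zero]
  rw [h2]
  have h4 : ∑ u ∈ D.filter (fun u => C u v ≠ 0), ‖C u v‖ ^ 2 ≤
      ∑ u ∈ D.filter (fun u => C u v ≠ 0), ‖BE i e T J0 kc a r W K g (w, u, v)‖ ^ 2 :=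
    Finset.sum_le_sum fun u hu => pow_le_pow_left₀ (norm_nonneg _)
      (hpt u (Finset.mem_filter.1 hu).1) 2
  refine h4.trans ?_
  have h5 : ∑ u ∈ D.filter (fun u => C u v ≠ 0), ‖BE i e T J0 kc a r W K g (w, u, v)‖ ^ 2 =
      ∑ ω ∈ (D.filter (fun u => C u v ≠ 0)).image (fun u => (w, u, v)),
        ‖BE i e T J0 kc a r W K g ω‖ ^ 2 := by
    rw [Finset.sum_image]
    intro u _ u' _ h
    simpa using h
  rw [h5]
  refine Finset.sum_le_sum_of_subset_of_nonneg ?_ fun _ _ _ => sq_nonneg _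
  intro ω hω
  obtain ⟨u, hu, rfl⟩ := Finset.mem_image.1 hω
  obtain ⟨hu1, hu2⟩ := Finset.mem_filter.1 hu
  obtain ⟨a1, a2, a3⟩ := hsup u hu1 hu2
  exact Finset.mem_filter.2 ⟨(mem_BdE hqJ).2 ⟨a1, a2, a3⟩, rfl, rfl⟩

/-- energy of the glued clips of `K` on a node `q` below, one gauge -/
theorem en_part (hB : Bnd (BdE i e T J0) (poE i e) (NmP (SE i e T J0) cf (okc (Ye i e) kc)) ν)
    {a : ℤ × ℤ × ℤ → ℂ} (ha : FibG (BdE i e T J0) (poE i e) ν a) {r : ℝ} (hr : 0 ≤ r)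
    (hW : Full W J) (g : Fn) (hK : K ∈ W) (hq : q ∈ W) (hqK : iv q ⊆ iv K) :
    ν * ∑ ω ∈ BdE i e T J0 q, ‖BE i e T J0 kc a r W K g ω‖ ^ 2 ≤
      (2 ^ 7 * av q g ^ 2) * 2 ^ q.1 := by
  refine (bgl_en hB ha hr hW g hK hq hqK fun p _ A => split_all hB (split_cell p) hr A).trans
    (le_of_eq ?_)
  rw [len_two]
  ring

end edge

/-- **`enB`** : the energy, a family of gauges -/
theorem enB_of {ι : Type} [Fintype ι] {κ : ι → ℝ} (hκ : ∀ l, 0 ≤ κ l) {i : Fin 4} {e : Fin 3}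
    {T : ι → Fin 3 → Finset ℤ} {J0 : Nd} {kc n : ℕ} {a : ι → ℤ × ℤ × ℤ → ℂ}
    (hB : ∀ l, Bnd (BdE i e (T l) J0) (poE i e)
      (NmP (SE i e (T l) J0) cf (okc (Ye i e) kc)) (1 / (n : ℝ) ^ 2))
    (ha : ∀ l, FibG (BdE i e (T l) J0) (poE i e) (1 / (n : ℝ) ^ 2) (a l)) {r : ℝ} (hr : 0 ≤ r)
    {W : Finset Nd} {J K q : Nd} (hW : Full W J) (g : Fn) (hK : K ∈ W) (hq : q ∈ W)
    (hqK : iv q ⊆ iv K) :
    ∑ l, κ l * (1 / (n : ℝ) ^ 2 * ∑ ω ∈ BdE i e (T l) J0 q,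
      ‖BE i e (T l) J0 kc (a l) r W K g ω‖ ^ 2) ≤
      ((∑ l, κ l) * (2 ^ 7 * av q g ^ 2)) * 2 ^ q.1 := by
  rw [mul_assoc, Finset.sum_mul]
  exact Finset.sum_le_sum fun l _ => mul_le_mul_of_nonneg_left
    (en_part (hB l) (ha l) hr hW g hK hq hqK) (hκ l)

end Crest.Agent.R079.FrJx717
end

-- ▼ part R079/FrK_717
section

/-! R079, (T5c) of note 1820 (helper717): **the fields `supU, supW, ptU, ptW, rowU, colW, enB` of `FC`**
for the concrete frames of `FrZa_360` (228's `CUF, CWF`), and `fc_of` : `FC` from the four remaining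
fields (`opU, opW, majU, majW`) and the position of `q0`.

The dominating kernels are masked to the maximal cells of `K` : `CUm, CWm`. -/

set_option autoImplicit false
set_option linter.unusedSectionVars false

namespace Crest.Agent.R079.FrKx717

open Finset Crest.Agent.R079.Grid Crest.Agent.R079.Growth Crest.Agent.R079.QRed
  Crest.Agent.R079.Qh249 Crest.Agent.R079.QVar181 Crest.Agent.R079.TWin
  Crest.Agent.R079.Glue Crest.Agent.R079.SWc360 Crest.Agent.R079.Cel159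
  Crest.Agent.R079.SplSx69 Crest.Agent.R079.ThA159 Crest.Agent.R079.SKx261
  Crest.Agent.R079.ElGx69
open Crest.Agent.R079.GaFx371 (Ye W0 SE BdE poE mem_W0 mem_BdE)
open Crest.Agent.R079.FrWx360 (FC tcY)
open Crest.Agent.R079.FrZx360
open Crest.Agent.R079.NrTx259 (mB wt wtc Rw Cl)
open Crest.Agent.R079.NrBx228 (CU CW Bk E2)
open Crest.Agent.R079.FrJx717

open scoped ComplexConjugate

section cell

variable {A : Finset (ℕ × ℤ × ℤ)} {B : ℤ → ℤ → ℂ} {lq : ℝ} {u v : ℤ}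

lemma mB_norm : ‖mB A B u v‖ ≤ ‖B u v‖ := by
  unfold mB
  split_ifs
  · exact le_rfl
  · rw [norm_zero]; exact norm_nonneg _

lemma mB_ne (h : mB A B u v ≠ 0) : B u v ≠ 0 ∧ ∃ c ∈ A, u ∈ Rw c ∧ v ∈ Cl c := by
  unfold mB at h
  split_ifs at h with hc
  · exact ⟨h, hc⟩
  · exact absurd rfl h

lemma CU_norm (hlq : 0 < lq) : ‖CU A B lq u v‖ ≤ ‖B u v‖ := by
  unfold CU
  split_ifs with h
  · have h0 : 0 < wt A u := lt_of_lt_of_le hlq h
    rw [norm_mul, Complex.norm_real, Real.norm_eq_abs, abs_of_nonneg (by positivity)]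
    have h1 : lq / wt A u ≤ 1 := (div_le_one h0).2 h
    calc lq / wt A u * ‖mB A B u v‖ ≤ 1 * ‖B u v‖ :=
          mul_le_mul h1 mB_norm (norm_nonneg _) zero_le_one
      _ = _ := one_mul _
  · rw [norm_zero]; exact norm_nonneg _

lemma CW_norm (hlq : 0 < lq) : ‖CW A B lq u v‖ ≤ ‖B u v‖ := by
  unfold CW
  split_ifs with h
  · have h0 : 0 < wtc A v := lt_of_lt_of_le hlq h
    rw [norm_mul, Complex.norm_real, Real.norm_eq_abs, abs_of_nonneg (by positivity)]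
    have h1 : lq / wtc A v ≤ 1 := (div_le_one h0).2 h
    calc lq / wtc A v * ‖mB A B u v‖ ≤ 1 * ‖B u v‖ :=
          mul_le_mul h1 mB_norm (norm_nonneg _) zero_le_one
      _ = _ := one_mul _
  · rw [norm_zero]; exact norm_nonneg _

lemma CU_ne (h : CU A B lq u v ≠ 0) : B u v ≠ 0 ∧ ∃ c ∈ A, u ∈ Rw c ∧ v ∈ Cl c := by
  unfold CU at h
  split_ifs at h with hc
  · exact mB_ne fun h0 => h (by rw [h0, mul_zero])
  · exact absurd rfl h

lemma CW_ne (h : CW A B lq u v ≠ 0) : B u v ≠ 0 ∧ ∃ c ∈ A, u ∈ Rw c ∧ v ∈ Cl c := by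
  unfold CW at h
  split_ifs at h with hc
  · exact mB_ne fun h0 => h (by rw [h0, mul_zero])
  · exact absurd rfl h

end cell

section conc

variable {n : ℕ} (i : Fin 4) (e : Fin 3) (kc n0 : ℕ) (W : Finset Nd) (K I : Nd)
  (T : Fin n → Fin 3 → Finset ℤ) (g : Fin n → Fin 3 → ℤ → ℤ → ℂ) (r : ℕ → ℝ) (gg : Fn)

open Classical in
/-- dominating kernel of the rows, masked to the maximal cells -/
noncomputable def CUm (a : ℕ) (q0 : Nd) (l : Fin n) (z : ℤ) (t : ℕ × ℤ × ℤ) (u v : ℤ) : ℂ :=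
  if Mx (Ye i e z) kc K t.1 t.2.1 t.2.2 then CUX i e kc n0 W K I T g r gg a q0 l z t u v else 0

open Classical in
/-- dominating kernel of the columns, masked to the maximal cells -/
noncomputable def CWm (a : ℕ) (q0 : Nd) (l : Fin n) (z : ℤ) (t : ℕ × ℤ × ℤ) (u v : ℤ) : ℂ :=
  if Mx (Ye i e z) kc K t.1 t.2.1 t.2.2 then CWX i e kc n0 W K I T g r gg a q0 l z t u v else 0

variable {i e kc n0 W K I T g r gg}

lemma CUm_eq {a : ℕ} {q0 : Nd} {l : Fin n} {z : ℤ} {t : ℕ × ℤ × ℤ}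
    (h : Mx (Ye i e z) kc K t.1 t.2.1 t.2.2) :
    CUm i e kc n0 W K I T g r gg a q0 l z t = CUX i e kc n0 W K I T g r gg a q0 l z t := by
  funext u v
  unfold CUm
  rw [if_pos h]

lemma CWm_eq {a : ℕ} {q0 : Nd} {l : Fin n} {z : ℤ} {t : ℕ × ℤ × ℤ}
    (h : Mx (Ye i e z) kc K t.1 t.2.1 t.2.2) :
    CWm i e kc n0 W K I T g r gg a q0 l z t = CWX i e kc n0 W K I T g r gg a q0 l z t := by
  funext u v
  unfold CWm
  rw [if_pos h]

lemma ptU {a : ℕ} {q0 : Nd} {l : Fin n} {z : ℤ} {t : ℕ × ℤ × ℤ} {u v : ℤ} :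
    ‖CUm i e kc n0 W K I T g r gg a q0 l z t u v‖ ≤ ‖BX i e kc W K I T g r gg a l (z, u, v)‖ := by
  unfold CUm
  split_ifs
  · unfold CUX NrBx228.CUF
    exact CU_norm (by positivity)
  · rw [norm_zero]; exact norm_nonneg _

lemma ptW {a : ℕ} {q0 : Nd} {l : Fin n} {z : ℤ} {t : ℕ × ℤ × ℤ} {u v : ℤ} :
    ‖CWm i e kc n0 W K I T g r gg a q0 l z t u v‖ ≤ ‖BX i e kc W K I T g r gg a l (z, u, v)‖ := by
  unfold CWm
  split_ifs
  · unfold CWX NrBx228.CWF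
    exact CW_norm (by positivity)
  · rw [norm_zero]; exact norm_nonneg _

section sup

variable {ν : ℝ} {P : Nd}

/-- support of the glued clips -/
lemma bx_ne {l : Fin n} (hB : Bnd (BdE i e (T l) I) (poE i e) (NX i e kc I T l) ν) {a : ℕ}
    (hr : 0 ≤ r a) (hW : Full W P) (hK : K ∈ W) {z u v : ℤ}
    (h : BX i e kc W K I T g r gg a l (z, u, v) ≠ 0) : u ∈ T l e ∧ v ∈ T l (e + 1) := by
  classical
  have h1 : (z, u, v) ∈ BdE i e (T l) I K := by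
    by_contra hc
    exact h ((Bgl_adm hB (gaX e g l) hr hW gg K hK).1 _ hc)
  unfold BdE SE at h1
  rw [Finset.mem_filter, Finset.mem_product, Finset.mem_product] at h1
  exact h1.1.2

theorem supU {l : Fin n} (hB : Bnd (BdE i e (T l) I) (poE i e) (NX i e kc I T l) ν) {a : ℕ}
    (hr : 0 ≤ r a) (hW : Full W P) (hK : K ∈ W) {q0 : Nd} {z : ℤ} {t : ℕ × ℤ × ℤ} {u v : ℤ}
    (h : CUm i e kc n0 W K I T g r gg a q0 l z t u v ≠ 0) :
    u ∈ T l e ∧ v ∈ T l (e + 1) ∧ Ye i e z u v ∈ iv q0 := by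
  unfold CUm at h
  split_ifs at h with hM
  · unfold CUX NrBx228.CUF at h
    obtain ⟨h1, c, hc, h2, h3⟩ := CU_ne h
    obtain ⟨h4, h5⟩ := bx_ne hB hr hW hK h1
    exact ⟨h4, h5, NrGx276.E2_lab hW hK hM hc h2 h3⟩
  · exact absurd rfl h

theorem supW {l : Fin n} (hB : Bnd (BdE i e (T l) I) (poE i e) (NX i e kc I T l) ν) {a : ℕ}
    (hr : 0 ≤ r a) (hW : Full W P) (hK : K ∈ W) {q0 : Nd} {z : ℤ} {t : ℕ × ℤ × ℤ} {u v : ℤ}
    (h : CWm i e kc n0 W K I T g r gg a q0 l z t u v ≠ 0) :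
    u ∈ T l e ∧ v ∈ T l (e + 1) ∧ Ye i e z u v ∈ iv q0 := by
  unfold CWm at h
  split_ifs at h with hM
  · unfold CWX NrBx228.CWF at h
    obtain ⟨h1, c, hc, h2, h3⟩ := CW_ne h
    obtain ⟨h4, h5⟩ := bx_ne hB hr hW hK h1
    exact ⟨h4, h5, NrGx276.E2_lab hW hK hM hc h2 h3⟩
  · exact absurd rfl h

end sup

/-- **`FC` from the operator bounds and the domination of the frames** -/
theorem fc_of {j0 Kl n1 κ0 d C0 a : ℕ} {q0 P : Nd} {κ : Fin n → ℝ} {R : Finset Nd}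
    {ρ rr Hr G Ha : ℝ}
    (hB : ∀ l, Bnd (BdE i e (T l) I) (poE i e) (NX i e kc I T l) (1 / (n1 : ℝ) ^ 2))
    (hF : ∀ l, FibG (BdE i e (T l) I) (poE i e) (1 / (n1 : ℝ) ^ 2) (gaX e g l))
    (hHa : ∀ l ω, ‖gaX e g l ω‖ ≤ Ha) (hr : 0 ≤ r a) (hW : Full W P) (hK : K ∈ W) (hq : q0 ∈ W)
    (hqK : iv q0 ⊆ iv K) (hKI : iv K ⊆ iv I) (hκ : ∀ l, 0 ≤ κ l) (hC : 2 ^ κ0 ≤ C0)
    (hna : ¬ Adj C0 K q0) (hR : ∀ p ∈ R, p.1 ≤ q0.1) (hRd : ∀ p ∈ R, d ≤ p.1) (hρ : 0 ≤ ρ)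
    (hrr : 0 < rr) (hHr : 2 ^ 7 * Ha ^ 2 * av q0 gg ^ 2 ≤ Hr)
    (hG : (∑ l, κ l) * (2 ^ 7 * av q0 gg ^ 2) ≤ G)
    (opU : ∀ l, ∀ w ∈ W0 i e (T l) I, ∀ t : ℕ × ℤ × ℤ, Mx (Ye i e w) kc K t.1 t.2.1 t.2.2 →
      ∀ m, d ≤ m → m ≤ q0.1 + κ0 → ∀ a' b', dI m a' ⊆ dI t.1 t.2.1 → dI m b' ⊆ dI t.1 t.2.2 →
        OpC (CUX i e kc n0 W K I T g r gg a q0 l w t) m a' b' ρ)
    (opW : ∀ l, ∀ w ∈ W0 i e (T l) I, ∀ t : ℕ × ℤ × ℤ, Mx (Ye i e w) kc K t.1 t.2.1 t.2.2 →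
      ∀ m, d ≤ m → m ≤ q0.1 + κ0 → ∀ a' b', dI m a' ⊆ dI t.1 t.2.1 → dI m b' ⊆ dI t.1 t.2.2 →
        OpC (CWX i e kc n0 W K I T g r gg a q0 l w t) m a' b' ρ)
    (majU : ∀ l, ∀ w ∈ W0 i e (T l) I, ∀ t : ℕ × ℤ × ℤ, Mx (Ye i e w) kc K t.1 t.2.1 t.2.2 →
      ∀ (a' : ℤ) (f : ℤ → ℂ),
      ∑ x, ‖∑ u ∈ dI q0.1 a' ∩ dI t.1 t.2.1,
          f u * PfX i e kc j0 n0 Kl W K I T g r gg a q0 l w t u x‖ ^ 2 ≤
        (rr⁻¹ / 2 ^ q0.1) * ∑ v ∈ dI t.1 t.2.2, ‖∑ u ∈ dI q0.1 a' ∩ dI t.1 t.2.1,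
          f u * CUX i e kc n0 W K I T g r gg a q0 l w t u v‖ ^ 2)
    (majW : ∀ l, ∀ w ∈ W0 i e (T l) I, ∀ t : ℕ × ℤ × ℤ, Mx (Ye i e w) kc K t.1 t.2.1 t.2.2 →
      ∀ (b' : ℤ) (f : ℤ → ℂ),
      ∑ x, ‖∑ v ∈ dI q0.1 b' ∩ dI t.1 t.2.2,
          f v * QfX i e kc j0 n0 Kl W K I T g r gg a q0 l w t v x‖ ^ 2 ≤
        (rr⁻¹ / 2 ^ q0.1) * ∑ u ∈ dI t.1 t.2.1, ‖∑ v ∈ dI q0.1 b' ∩ dI t.1 t.2.2,
          f v * CWX i e kc n0 W K I T g r gg a q0 l w t u v‖ ^ 2) :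
    FC κ i e n1 kc κ0 d C0 K q0 I T R (PfX i e kc j0 n0 Kl W K I T g r gg a q0)
      (QfX i e kc j0 n0 Kl W K I T g r gg a q0) (CUm i e kc n0 W K I T g r gg a q0)
      (CWm i e kc n0 W K I T g r gg a q0) (BX i e kc W K I T g r gg a) ρ rr Hr G := by
  classical
  have hqI : iv q0 ⊆ iv I := hqK.trans hKI
  have hκ0 : 0 ≤ ∑ l, κ l := Finset.sum_nonneg fun l _ => hκ l
  refine ⟨hKI, hκ, hC, hqK, hna, hR, hRd, hρ, hrr, ?_, ?_, ?_, ?_, ?_, ?_, ?_, ?_, ?_, ?_, ?_, ?_, ?_⟩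
  · exact le_trans (by positivity) hHr
  · exact le_trans (by positivity) hG
  · intro l w t u v h
    exact supU (hB l) hr hW hK h
  · intro l w t u v h
    exact supW (hB l) hr hW hK h
  · intro l w hw t hM m h1 h2 a' b' h3 h4
    rw [CUm_eq hM]
    exact opU l w hw t hM m h1 h2 a' b' h3 h4
  · intro l w hw t hM m h1 h2 a' b' h3 h4
    rw [CWm_eq hM]
    exact opW l w hw t hM m h1 h2 a' b' h3 h4
  · intro l w hw t hM a' f
    rw [CUm_eq hM]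
    exact majU l w hw t hM a' f
  · intro l w hw t hM b' f
    rw [CWm_eq hM]
    exact majW l w hw t hM b' f
  · intro l w _ t _ u _
    refine (row_dom (kc := kc) (r := r a) (hB l) (hHa l) hr hW gg hK hq hqK hqI
      (C := CUm i e kc n0 W K I T g r gg a q0 l w t)
      (fun v _ h => supU (hB l) hr hW hK h) (fun v _ => ptU)).trans ?_
    exact mul_le_mul_of_nonneg_right hHr (by positivity)
  · intro l w _ t _ v _
    refine (col_dom (kc := kc) (r := r a) (hB l) (hHa l) hr hW gg hK hq hqK hqI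
      (C := CWm i e kc n0 W K I T g r gg a q0 l w t)
      (fun u _ h => supW (hB l) hr hW hK h) (fun u _ => ptW)).trans ?_
    exact mul_le_mul_of_nonneg_right hHr (by positivity)
  · intro l w _ t u _ v _
    exact ptU
  · intro l w _ t u _ v _
    exact ptW
  · refine (enB_of hκ hB hF hr hW gg hK hq hqK).trans ?_
    exact mul_le_mul_of_nonneg_right hG (by positivity)

end conc

end Crest.Agent.R079.FrKx717
end

-- ▼ part R079/FrSb_261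
section

/-! R079, T5 of 1820 / 1922 (helper261): **the far word on a grid node `P'` of the top `P`**.

The split slot is, on the strip of `P'`, `Σ_l Pf w z t u l * Qf w z t l v` (`t` = type of the cell of
`P` of the point `(z, u, v)`), where the rows `Pf` are dominated by a kernel `KU` and the columns `Qf`
by a kernel `KW` with operator bounds on all boxes of side `≥ 2^d`.  Labels = (type of cell, `l`).
`fs_word`: the word total over any region below `P'` of levels `≥ d`. -/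

set_option autoImplicit false
set_option linter.unusedSectionVars false

namespace Crest.Agent.R079.FrSx261

open Finset Crest.Agent.R079.Grid Crest.Agent.R079.Growth Crest.Agent.R079.QRed
  Crest.Agent.R079.Qh249 Crest.Agent.R079.QVar181
  Crest.Agent.R079.TWin Crest.Agent.R079.Glue Crest.Agent.R079.SWc360 Crest.Agent.R079.Cel159
  Crest.Agent.R079.SplSx69 Crest.Agent.R079.ThA159 Crest.Agent.R079.SKx261
open Crest.Agent.R079.ClW59 (OpS cl)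
open Crest.Agent.R079.Whit (Ins)

open scoped ComplexConjugate

/-- **data of the far word** of a grid node `P'` of the top `P` -/
structure FS {ι : Type} (S : Finset ι) (kap : ι → ℝ) (j : Fin 4) (e : Fin 3) (k κ0 d C0 : ℕ)
    (P P' : Nd) (T : Fin 3 → Finset ℤ) (R : Finset Nd)
    (Pf Qf : ι → ℤ → ℕ × ℤ × ℤ → ℤ → ℤ → ℂ) (KU KW : ι → ℤ → ℕ × ℤ × ℤ → ℤ → ℤ → ℂ)
    (ρ c0 Hr G : ℝ) : Prop where
  kap0 : ∀ w ∈ S, 0 ≤ kap w
  hC : 2 ^ κ0 ≤ C0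
  hP : iv P' ⊆ iv P
  hna : ¬ Adj C0 P P'
  hR : ∀ p ∈ R, p.1 ≤ P'.1
  hRd : ∀ p ∈ R, d ≤ p.1
  ρ0 : 0 ≤ ρ
  c00 : 0 < c0
  Hr0 : 0 ≤ Hr
  G0 : 0 ≤ G
  p0 : ∀ w z t u l, u ∉ dI t.1 t.2.1 ∩ T (e + 1) → Pf w z t u l = 0
  q0 : ∀ w z t l v, v ∉ dI t.1 t.2.2 ∩ T (e + 2) → Qf w z t l v = 0
  majU : ∀ w ∈ S, ∀ z ∈ T e, ∀ t, (z, t) ∈ Clx j e k P P' T → ∀ f : ℤ → ℂ,
    ∑ l ∈ T (e + 2), ‖∑ u ∈ dI t.1 t.2.1 ∩ T (e + 1), f u * Pf w z t u l‖ ^ 2 ≤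
      (c0 / 2 ^ t.1) * ∑ v ∈ dI t.1 t.2.2 ∩ T (e + 2),
        ‖∑ u ∈ dI t.1 t.2.1 ∩ T (e + 1), f u * KU w z t u v‖ ^ 2
  majW : ∀ w ∈ S, ∀ z ∈ T e, ∀ t, (z, t) ∈ Clx j e k P P' T → ∀ f : ℤ → ℂ,
    ∑ l ∈ T (e + 2), ‖∑ v ∈ dI t.1 t.2.2 ∩ T (e + 2), f v * Qf w z t l v‖ ^ 2 ≤
      (c0 / 2 ^ t.1) * ∑ u ∈ dI t.1 t.2.1 ∩ T (e + 1),
        ‖∑ v ∈ dI t.1 t.2.2 ∩ T (e + 2), f v * KW w z t u v‖ ^ 2
  opU : ∀ w ∈ S, ∀ z ∈ T e, ∀ t, (z, t) ∈ Clx j e k P P' T → ∀ n a b, d ≤ n → n ≤ P'.1 + κ0 →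
    dI n a ⊆ dI t.1 t.2.1 → dI n b ⊆ dI t.1 t.2.2 → OpC (KU w z t) n a b ρ
  opW : ∀ w ∈ S, ∀ z ∈ T e, ∀ t, (z, t) ∈ Clx j e k P P' T → ∀ n a b, d ≤ n → n ≤ P'.1 + κ0 →
    dI n a ⊆ dI t.1 t.2.1 → dI n b ⊆ dI t.1 t.2.2 → OpC (KW w z t) n a b ρ
  rowU : ∀ w ∈ S, ∀ z ∈ T e, ∀ t, (z, t) ∈ Clx j e k P P' T → ∀ u ∈ dI t.1 t.2.1 ∩ T (e + 1),
    ∑ v ∈ dI t.1 t.2.2 ∩ T (e + 2), ‖KU w z t u v‖ ^ 2 ≤ Hr * 2 ^ t.1
  rowW : ∀ w ∈ S, ∀ z ∈ T e, ∀ t, (z, t) ∈ Clx j e k P P' T → ∀ v ∈ dI t.1 t.2.2 ∩ T (e + 2),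
    ∑ u ∈ dI t.1 t.2.1 ∩ T (e + 1), ‖KW w z t u v‖ ^ 2 ≤ Hr * 2 ^ t.1
  enU : ∑ w ∈ S, kap w * ∑ c ∈ Clx j e k P P' T, (1 / (2 : ℝ) ^ c.2.1) *
    ∑ u ∈ dI c.2.1 c.2.2.1 ∩ T (e + 1), ∑ v ∈ dI c.2.1 c.2.2.2 ∩ T (e + 2),
      ‖KU w c.1 c.2 u v‖ ^ 2 ≤ G
  enW : ∑ w ∈ S, kap w * ∑ c ∈ Clx j e k P P' T, (1 / (2 : ℝ) ^ c.2.1) *
    ∑ u ∈ dI c.2.1 c.2.2.1 ∩ T (e + 1), ∑ v ∈ dI c.2.1 c.2.2.2 ∩ T (e + 2),
      ‖KW w c.1 c.2 u v‖ ^ 2 ≤ G

section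

variable {ι : Type} {S : Finset ι} {kap : ι → ℝ} {j : Fin 4} {e : Fin 3} {k κ0 d C0 : ℕ}
  {P P' : Nd} {T : Fin 3 → Finset ℤ} {R : Finset Nd}
  {Pf Qf : ι → ℤ → ℕ × ℤ × ℤ → ℤ → ℤ → ℂ} {KU KW : ι → ℤ → ℕ × ℤ × ℤ → ℤ → ℤ → ℂ}
  {ρ c0 Hr G : ℝ}












end





end Crest.Agent.R079.FrSx261
namespace Crest.Agent.R079.FrSx261.FS
end Crest.Agent.R079.FrSx261.FS
end

-- ▼ part R079/FrI_261
section

/-! R079, T5c of 1820 / 1922 (helper261): one cell.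

`op_box` : the kernel masked to alive tiles of side `≤ 2^n` has operator norm `≤ r 2^n` on every box of
side `2^n`; `opS_wtR`, `opS_wtC` : weights; `maj_one` : domination of the frames
`√(d k) (g u / r) Σ_v M u v x k v` by the weighted kernel `L g u M u v`. -/

set_option autoImplicit false

namespace Crest.Agent.R079.FrIx261

open Finset Crest.Agent.R079.Grid Crest.Agent.R079.NrMx259 Crest.Agent.R079.NrTx259
open Crest.Agent.R079.ClW59 (OpS)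

open scoped ComplexConjugate

section tl

variable {m : ℕ} {a b : ℤ} {Ti A : Finset (ℕ × ℤ × ℤ)} {B : ℤ → ℤ → ℂ} {r : ℝ}


end tl

/-- weights on the rows -/
theorem opS_wtR {S T : Finset ℤ} {K : ℤ → ℤ → ℂ} {s C : ℝ} (h : OpS S T K s) {w : ℤ → ℝ}
    (hw : ∀ u, |w u| ≤ C) : OpS S T (fun u v => (w u : ℂ) * K u v) (C * s) := by
  intro f
  have h1 : ∀ u ∈ S, ‖∑ v ∈ T, (w u : ℂ) * K u v * f v‖ ^ 2 ≤ C ^ 2 * ‖∑ v ∈ T, K u v * f v‖ ^ 2 := by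
    intro u _
    have e : ∑ v ∈ T, (w u : ℂ) * K u v * f v = (w u : ℂ) * ∑ v ∈ T, K u v * f v := by
      rw [Finset.mul_sum]
      exact Finset.sum_congr rfl fun v _ => by ring
    rw [e, norm_mul, mul_pow, Complex.norm_real, Real.norm_eq_abs]
    exact mul_le_mul_of_nonneg_right (pow_le_pow_left₀ (abs_nonneg _) (hw u) 2) (sq_nonneg _)
  refine (Finset.sum_le_sum h1).trans ?_
  rw [← Finset.mul_sum]
  calc C ^ 2 * ∑ u ∈ S, ‖∑ v ∈ T, K u v * f v‖ ^ 2 ≤ C ^ 2 * (s ^ 2 * ∑ v ∈ T, ‖f v‖ ^ 2) :=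
        mul_le_mul_of_nonneg_left (h f) (sq_nonneg _)
    _ = _ := by ring

/-- weights on the columns -/
theorem opS_wtC {S T : Finset ℤ} {K : ℤ → ℤ → ℂ} {s C : ℝ} (h : OpS S T K s) {w : ℤ → ℝ}
    (hw : ∀ v, |w v| ≤ C) : OpS S T (fun u v => (w v : ℂ) * K u v) (C * s) := by
  intro f
  have h1 := h (fun v => (w v : ℂ) * f v)
  have e : ∀ u, ∑ v ∈ T, (w v : ℂ) * K u v * f v = ∑ v ∈ T, K u v * ((w v : ℂ) * f v) := fun u =>
    Finset.sum_congr rfl fun v _ => by ring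
  simp only [e]
  refine h1.trans ?_
  have h2 : ∑ v ∈ T, ‖(w v : ℂ) * f v‖ ^ 2 ≤ C ^ 2 * ∑ v ∈ T, ‖f v‖ ^ 2 := by
    rw [Finset.mul_sum]
    refine Finset.sum_le_sum fun v _ => ?_
    rw [norm_mul, mul_pow, Complex.norm_real, Real.norm_eq_abs]
    exact mul_le_mul_of_nonneg_right (pow_le_pow_left₀ (abs_nonneg _) (hw v) 2) (sq_nonneg _)
  calc s ^ 2 * ∑ v ∈ T, ‖(w v : ℂ) * f v‖ ^ 2 ≤ s ^ 2 * (C ^ 2 * ∑ v ∈ T, ‖f v‖ ^ 2) :=
        mul_le_mul_of_nonneg_left h2 (sq_nonneg _)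
    _ = _ := by ring

/-- **domination** of the frames by the weighted kernel -/
theorem maj_one {S T K : Finset ℤ} {M : ℤ → ℤ → ℂ} {x : ℤ → ℤ → ℂ} {d g : ℤ → ℝ} {L r D Cs : ℝ}
    (hL : 0 < L) (hr : 0 < r) (hD : 0 ≤ D) (hd : ∀ k ∈ K, 0 ≤ d k ∧ d k ≤ D)
    (hb : ∀ f : ℤ → ℂ, ∑ k ∈ K, ‖∑ v ∈ T, f v * x k v‖ ^ 2 ≤ Cs * ∑ v ∈ T, ‖f v‖ ^ 2)
    (f : ℤ → ℂ) :
    ∑ k ∈ K, ‖∑ u ∈ S, f u * (((Real.sqrt (d k) * (g u / r) : ℝ) : ℂ) *
        ∑ v ∈ T, M u v * x k v)‖ ^ 2 ≤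
      D * Cs / (r * L) ^ 2 * ∑ v ∈ T, ‖∑ u ∈ S, f u * (((L * g u : ℝ) : ℂ) * M u v)‖ ^ 2 := by
  have hrL : 0 < r * L := mul_pos hr hL
  have e1 : ∀ k, ∑ u ∈ S, f u * (((Real.sqrt (d k) * (g u / r) : ℝ) : ℂ) *
        ∑ v ∈ T, M u v * x k v) = ((Real.sqrt (d k) / (r * L) : ℝ) : ℂ) *
        ∑ v ∈ T, (∑ u ∈ S, f u * (((L * g u : ℝ) : ℂ) * M u v)) * x k v := by
    intro k
    have e2 : ∑ v ∈ T, (∑ u ∈ S, f u * (((L * g u : ℝ) : ℂ) * M u v)) * x k v =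
        ∑ u ∈ S, f u * (((L * g u : ℝ) : ℂ) * ∑ v ∈ T, M u v * x k v) := by
      have e3 : ∀ v ∈ T, (∑ u ∈ S, f u * (((L * g u : ℝ) : ℂ) * M u v)) * x k v =
          ∑ u ∈ S, f u * (((L * g u : ℝ) : ℂ) * (M u v * x k v)) := by
        intro v _
        rw [Finset.sum_mul]
        exact Finset.sum_congr rfl fun u _ => by ring
      rw [Finset.sum_congr rfl e3, Finset.sum_comm]
      refine Finset.sum_congr rfl fun u _ => ?_
      rw [Finset.mul_sum, Finset.mul_sum]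
    rw [e2, Finset.mul_sum]
    refine Finset.sum_congr rfl fun u _ => ?_
    have hLc : (L : ℂ) ≠ 0 := by exact_mod_cast hL.ne'
    have hrc : (r : ℂ) ≠ 0 := by exact_mod_cast hr.ne'
    push_cast
    field_simp
  have e4 : ∀ k ∈ K, ‖∑ u ∈ S, f u * (((Real.sqrt (d k) * (g u / r) : ℝ) : ℂ) *
        ∑ v ∈ T, M u v * x k v)‖ ^ 2 ≤ D / (r * L) ^ 2 *
        ‖∑ v ∈ T, (∑ u ∈ S, f u * (((L * g u : ℝ) : ℂ) * M u v)) * x k v‖ ^ 2 := by
    intro k hk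
    rw [e1 k, norm_mul, mul_pow, Complex.norm_real, Real.norm_eq_abs, sq_abs, div_pow,
      Real.sq_sqrt (hd k hk).1]
    refine mul_le_mul_of_nonneg_right ?_ (sq_nonneg _)
    exact div_le_div_of_nonneg_right (hd k hk).2 (by positivity)
  refine (Finset.sum_le_sum e4).trans ?_
  rw [← Finset.mul_sum]
  calc D / (r * L) ^ 2 * ∑ k ∈ K, ‖∑ v ∈ T, (∑ u ∈ S, f u *
          (((L * g u : ℝ) : ℂ) * M u v)) * x k v‖ ^ 2 ≤
          D / (r * L) ^ 2 * (Cs * ∑ v ∈ T, ‖∑ u ∈ S, f u *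
            (((L * g u : ℝ) : ℂ) * M u v)‖ ^ 2) :=
        mul_le_mul_of_nonneg_left (hb _) (by positivity)
      _ = _ := by ring

end Crest.Agent.R079.FrIx261
end

-- ▼ part R079/FrL_717
section

/-! R079, (T5c) of note 1820 (helper717): position of the grid nodes `q0` of 795's `QQ` in the sub-top
(`qq_nadj`), operator bounds of the dominating kernels on boxes (`opU, opW`). -/

set_option autoImplicit false
set_option linter.unusedSectionVars false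

namespace Crest.Agent.R079.FrLx717

open Finset Crest.Agent.R079.Grid Crest.Agent.R079.Growth Crest.Agent.R079.QRed
  Crest.Agent.R079.TWin Crest.Agent.R079.SbWx795
open Crest.Agent.R079.SplSx69 (Adj)

lemma mem_iv2 {p : Nd} {y : ℤ} :
    y ∈ iv p ↔ p.2 * 2 ^ (p.1 + 7) ≤ y ∧ y < (p.2 + 1) * 2 ^ (p.1 + 7) := by
  unfold iv dI
  rw [Finset.mem_Ico]

/-- **a grid node is far from the ends of the sub-top** -/
theorem qq_nadj {V : Finset Nd} {P K q : Nd} {k0 j0 n0 C0 : ℕ} (hV : Full V P)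
    (hq : q ∈ QQ V k0 j0 n0 K) (hj : 4 ≤ j0) (hC : C0 ≤ 2 ^ (j0 - 4)) : ¬ Adj C0 K q := by
  obtain ⟨_, h1, h2, h3, _⟩ := QQ_spec hV hq
  have hp : (0 : ℤ) < 2 ^ (q.1 + 7) := by positivity
  have hp1 : (1 : ℤ) ≤ 2 ^ (q.1 + 7) := one_le_pow₀ (by norm_num)
  have hy0 : q.2 * 2 ^ (q.1 + 7) ∈ iv q := by
    rw [mem_iv2]
    constructor
    · exact le_rfl
    · nlinarith
  have hy1 : (q.2 + 1) * 2 ^ (q.1 + 7) - 1 ∈ iv q := by
    rw [mem_iv2]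
    constructor
    · nlinarith
    · linarith
  have a0 := (not_lay_pos (by omega) h2 h3 hy0).1
  have a1 := (not_lay_pos (by omega) h2 h3 hy1).2
  have e7 : (2 : ℤ) ^ (K.1 + 7) = 2 ^ j0 * 2 ^ (q.1 + 7) := by
    rw [← h1, ← pow_add]
    congr 1
    omega
  have e3 : (2 : ℤ) ^ (K.1 + 3) = 2 ^ (j0 - 4) * 2 ^ (q.1 + 7) := by
    rw [← h1, ← pow_add]
    congr 1
    omega
  rw [e7, e3] at a0 a1
  have b0 : K.2 * 2 ^ j0 + 2 ^ (j0 - 4) ≤ q.2 := by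
    have : (K.2 * 2 ^ j0 + 2 ^ (j0 - 4)) * 2 ^ (q.1 + 7) ≤ q.2 * 2 ^ (q.1 + 7) := by linarith
    exact le_of_mul_le_mul_right this hp
  have b1 : q.2 + 1 ≤ (K.2 + 1) * 2 ^ j0 - 2 ^ (j0 - 4) := by
    have : (q.2 + 1) * 2 ^ (q.1 + 7) ≤ ((K.2 + 1) * 2 ^ j0 - 2 ^ (j0 - 4)) * 2 ^ (q.1 + 7) := by
      linarith
    exact le_of_mul_le_mul_right this hp
  have hC' : (C0 : ℤ) ≤ 2 ^ (j0 - 4) := by exact_mod_cast hC
  have ej : K.1 - q.1 = j0 := by omega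
  unfold Adj
  rw [ej]
  push Not
  constructor
  · linarith
  · linarith

section op

open Crest.Agent.R079.Cel159 Crest.Agent.R079.ThA159
open Crest.Agent.R079.GaFx371 (Ye W0 SE BdE poE)
open Crest.Agent.R079.FrZx360
open Crest.Agent.R079.NrTx259 (mB wt wtc Rw Cl)
open Crest.Agent.R079.NrBx228 (CU CW Bk E2)
open Crest.Agent.R079.ClW59 (OpS)

variable {n : ℕ} {i : Fin 4} {e : Fin 3} {kc n0 : ℕ} {W : Finset Nd} {K I P q0 : Nd}
  {T : Fin n → Fin 3 → Finset ℤ} {g : Fin n → Fin 3 → ℤ → ℤ → ℂ} {r : ℕ → ℝ} {gg : Fn} {ν : ℝ}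

lemma opS_CU {A : Finset (ℕ × ℤ × ℤ)} {B : ℤ → ℤ → ℂ} {lq s : ℝ} {S S' : Finset ℤ} (hlq : 0 < lq)
    (h : OpS S S' (mB A B) s) : OpS S S' (CU A B lq) s := by
  classical
  have h1 := FrIx261.opS_wtR (C := 1) h (w := fun u => if lq ≤ wt A u then lq / wt A u else 0)
    (fun u => by
      show |if lq ≤ wt A u then lq / wt A u else 0| ≤ 1
      split_ifs with hu
      · have h0 : 0 < wt A u := lt_of_lt_of_le hlq hu
        rw [abs_of_nonneg (by positivity)]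
        exact (div_le_one h0).2 hu
      · rw [abs_zero]; exact zero_le_one)
  rw [one_mul] at h1
  refine PjC881.opS_congr h1 fun u _ v _ => ?_
  unfold CU
  split_ifs
  · rfl
  · simp

lemma opS_CW {A : Finset (ℕ × ℤ × ℤ)} {B : ℤ → ℤ → ℂ} {lq s : ℝ} {S S' : Finset ℤ} (hlq : 0 < lq)
    (h : OpS S S' (mB A B) s) : OpS S S' (CW A B lq) s := by
  classical
  have h1 := FrIx261.opS_wtC (C := 1) h (w := fun v => if lq ≤ wtc A v then lq / wtc A v else 0)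
    (fun v => by
      show |if lq ≤ wtc A v then lq / wtc A v else 0| ≤ 1
      split_ifs with hu
      · have h0 : 0 < wtc A v := lt_of_lt_of_le hlq hu
        rw [abs_of_nonneg (by positivity)]
        exact (div_le_one h0).2 hu
      · rw [abs_zero]; exact zero_le_one)
  rw [one_mul] at h1
  refine PjC881.opS_congr h1 fun u _ v _ => ?_
  unfold CW
  split_ifs
  · rfl
  · simp

/-- **`opU`** -/
theorem opU {l : Fin n} (hB : Bnd (BdE i e (T l) I) (poE i e) (NX i e kc I T l) ν) {a : ℕ}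
    (hr : 0 ≤ r a) (hW : Full W P) (hK : K ∈ W) (hq : q0 ∈ W) (hd : dq W n0 q0 ≤ q0.1) {w : ℤ}
    {t : ℕ × ℤ × ℤ} (hM : Mx (Ye i e w) kc K t.1 t.2.1 t.2.2) {m : ℕ} (hm : dq W n0 q0 ≤ m)
    {a' b' : ℤ} (hb : dI m b' ⊆ dI t.1 t.2.2) :
    OpC (CUX i e kc n0 W K I T g r gg a q0 l w t) m a' b' (2 ^ 7 * r a) := by
  refine opC_of_opS (by positivity) ?_
  unfold CUX NrBx228.CUF
  refine opS_CU (by positivity) ?_
  exact NrGx276.E2_box (NrUx276.st3_Ye i e) hW hK hM hq hd hr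
    (fun c hc => NrGx276.Bk_op hB (gaX e g l) hr hW gg hK hM hc) hm hb

/-- **`opW`** -/
theorem opW {l : Fin n} (hB : Bnd (BdE i e (T l) I) (poE i e) (NX i e kc I T l) ν) {a : ℕ}
    (hr : 0 ≤ r a) (hW : Full W P) (hK : K ∈ W) (hq : q0 ∈ W) (hd : dq W n0 q0 ≤ q0.1) {w : ℤ}
    {t : ℕ × ℤ × ℤ} (hM : Mx (Ye i e w) kc K t.1 t.2.1 t.2.2) {m : ℕ} (hm : dq W n0 q0 ≤ m)
    {a' b' : ℤ} (hb : dI m b' ⊆ dI t.1 t.2.2) :
    OpC (CWX i e kc n0 W K I T g r gg a q0 l w t) m a' b' (2 ^ 7 * r a) := by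
  refine opC_of_opS (by positivity) ?_
  unfold CWX NrBx228.CWF
  refine opS_CW (by positivity) ?_
  exact NrGx276.E2_box (NrUx276.st3_Ye i e) hW hK hM hq hd hr
    (fun c hc => NrGx276.Bk_op hB (gaX e g l) hr hW gg hK hM hc) hm hb

end op

end Crest.Agent.R079.FrLx717
end

-- ▼ part R079/FrM_717
section

/-! R079, (T5c) of note 1820 (helper717): **domination of the frames** (`majU, majW`), concrete frames. -/

set_option autoImplicit false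
set_option linter.unusedSectionVars false

namespace Crest.Agent.R079.FrMx717

open Finset Crest.Agent.R079.Grid Crest.Agent.R079.Growth Crest.Agent.R079.QRed
  Crest.Agent.R079.Qh249 Crest.Agent.R079.QVar181 Crest.Agent.R079.TWin
  Crest.Agent.R079.SbWx795 Crest.Agent.R079.Cel159 Crest.Agent.R079.ThA159
open Crest.Agent.R079.GaFx371 (Ye W0 SE BdE poE)
open Crest.Agent.R079.FrZx360
open Crest.Agent.R079.NrTx259 (mB wt wtc Rw Cl avg)
open Crest.Agent.R079.NrUx259 (BF avgc)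
open Crest.Agent.R079.NrAx228
open Crest.Agent.R079.NrBx228
open Crest.Agent.R079.NrCx228 (bf_x1 bf_y1 CG)
open Crest.Agent.R079.ClW59 (OpS)
open Crest.Agent.R079.FrJx717 (lin_Ye)

open scoped ComplexConjugate

section core

variable {m : ℕ} {a b : ℤ} {A : Finset (ℕ × ℤ × ℤ)} {B : ℤ → ℤ → ℂ} {r lq D Cs : ℝ}
  {T S0 : Finset ℤ} {x : ℤ → ℤ → ℂ} {d : ℤ → ℝ} {J : Finset ℤ}

open Classical in
/-- domination, rows -/
theorem maj_row (hJ : J ⊆ dI m b) (hJ0 : ∀ u ∈ S0, ∀ v ∈ dI m b, v ∉ J → mB A B u v = 0)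
    (hlq : 0 < lq) (hr : 0 < r) (hD : 0 ≤ D) (hd : ∀ k ∈ T, 0 ≤ d k ∧ d k ≤ D) (hCs : 0 ≤ Cs)
    (hb : BF T J x Cs) (f : ℤ → ℂ) :
    ∑ k ∈ T, ‖∑ u ∈ S0, f u * ((Real.sqrt (d k) : ℂ) *
        (if lq ≤ wt A u then avg m b A B r (x k) u else 0))‖ ^ 2 ≤
      D * Cs / (r * lq) ^ 2 * ∑ v ∈ dI m b, ‖∑ u ∈ S0, f u * CU A B lq u v‖ ^ 2 := by
  have h1 := FrIx261.maj_one (S := S0) (T := J) (K := T) (M := mB A B) (x := x) (d := d)
    (g := fun u => if lq ≤ wt A u then (wt A u)⁻¹ else 0) hlq hr hD hd (hb.dual hCs) f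
  have e1 : ∀ k, ∀ u ∈ S0, (Real.sqrt (d k) : ℂ) *
      (if lq ≤ wt A u then avg m b A B r (x k) u else 0) =
      ((Real.sqrt (d k) * ((if lq ≤ wt A u then (wt A u)⁻¹ else 0) / r) : ℝ) : ℂ) *
        ∑ v ∈ J, mB A B u v * x k v := by
    intro k u hu
    split_ifs with h
    · have h0 : 0 < wt A u := lt_of_lt_of_le hlq h
      unfold avg
      have e2 : ∑ v ∈ dI m b, mB A B u v * x k v = ∑ v ∈ J, mB A B u v * x k v := by
        symm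
        refine Finset.sum_subset hJ fun v hv hv' => ?_
        rw [hJ0 u hu v hv hv', zero_mul]
      rw [e2]
      have hrc : (r : ℂ) ≠ 0 := by exact_mod_cast hr.ne'
      have hwc : ((wt A u : ℝ) : ℂ) ≠ 0 := by exact_mod_cast h0.ne'
      push_cast
      field_simp
    · simp
  have e3 : ∀ u v, (((lq * (if lq ≤ wt A u then (wt A u)⁻¹ else 0) : ℝ) : ℂ)) * mB A B u v =
      CU A B lq u v := by
    intro u v
    unfold CU
    split_ifs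
    · rw [div_eq_mul_inv]
    · simp
  have e4 : ∀ k, ∑ u ∈ S0, f u * ((Real.sqrt (d k) : ℂ) *
        (if lq ≤ wt A u then avg m b A B r (x k) u else 0)) =
      ∑ u ∈ S0, f u * (((Real.sqrt (d k) * ((if lq ≤ wt A u then (wt A u)⁻¹ else 0) / r) : ℝ) : ℂ) *
        ∑ v ∈ J, mB A B u v * x k v) := fun k =>
    Finset.sum_congr rfl fun u hu => by rw [e1 k u hu]
  simp only [e4]
  refine h1.trans ?_
  refine mul_le_mul_of_nonneg_left ?_ (by positivity)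
  simp only [e3]
  exact Finset.sum_le_sum_of_subset_of_nonneg hJ fun _ _ _ => sq_nonneg _

open Classical in
/-- domination, columns -/
theorem maj_col (hJ : J ⊆ dI m a) (hJ0 : ∀ v ∈ S0, ∀ u ∈ dI m a, u ∉ J → mB A B u v = 0)
    (hlq : 0 < lq) (hr : 0 < r) (hD : 0 ≤ D) (hd : ∀ k ∈ T, 0 ≤ d k ∧ d k ≤ D) (hCs : 0 ≤ Cs)
    (hb : BF T J x Cs) (f : ℤ → ℂ) :
    ∑ k ∈ T, ‖∑ v ∈ S0, f v * ((Real.sqrt (d k) : ℂ) *
        conj (if lq ≤ wtc A v then avgc m a A B r (x k) v else 0))‖ ^ 2 ≤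
      D * Cs / (r * lq) ^ 2 * ∑ u ∈ dI m a, ‖∑ v ∈ S0, f v * CW A B lq u v‖ ^ 2 := by
  have h1 := FrIx261.maj_one (S := S0) (T := J) (K := T) (M := fun v u => mB A B u v)
    (x := fun k u => conj (x k u)) (d := d)
    (g := fun v => if lq ≤ wtc A v then (wtc A v)⁻¹ else 0) hlq hr hD hd (hb.star.dual hCs) f
  have e1 : ∀ k, ∀ v ∈ S0, (Real.sqrt (d k) : ℂ) *
      conj (if lq ≤ wtc A v then avgc m a A B r (x k) v else 0) =
      ((Real.sqrt (d k) * ((if lq ≤ wtc A v then (wtc A v)⁻¹ else 0) / r) : ℝ) : ℂ) *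
        ∑ u ∈ J, mB A B u v * conj (x k u) := by
    intro k v hv
    split_ifs with h
    · have h0 : 0 < wtc A v := lt_of_lt_of_le hlq h
      unfold avgc
      rw [map_div₀, Complex.conj_ofReal, map_sum]
      have e2 : ∑ u ∈ dI m a, conj (conj (mB A B u v) * x k u) =
          ∑ u ∈ J, mB A B u v * conj (x k u) := by
        symm
        rw [Finset.sum_congr rfl fun u _ => by
          rw [map_mul, Complex.conj_conj] (g := fun u => conj (conj (mB A B u v) * x k u))]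
        refine Finset.sum_subset hJ fun u hu hu' => ?_
        rw [map_mul, Complex.conj_conj, hJ0 v hv u hu hu', zero_mul]
      rw [e2]
      have hrc : (r : ℂ) ≠ 0 := by exact_mod_cast hr.ne'
      have hwc : ((wtc A v : ℝ) : ℂ) ≠ 0 := by exact_mod_cast h0.ne'
      push_cast
      field_simp
    · simp
  have e3 : ∀ u v, (((lq * (if lq ≤ wtc A v then (wtc A v)⁻¹ else 0) : ℝ) : ℂ)) * mB A B u v =
      CW A B lq u v := by
    intro u v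
    unfold CW
    split_ifs
    · rw [div_eq_mul_inv]
    · simp
  have e4 : ∀ k, ∑ v ∈ S0, f v * ((Real.sqrt (d k) : ℂ) *
        conj (if lq ≤ wtc A v then avgc m a A B r (x k) v else 0)) =
      ∑ v ∈ S0, f v * (((Real.sqrt (d k) * ((if lq ≤ wtc A v then (wtc A v)⁻¹ else 0) / r) : ℝ) : ℂ) *
        ∑ u ∈ J, mB A B u v * conj (x k u)) := fun k =>
    Finset.sum_congr rfl fun v hv => by rw [e1 k v hv]
  simp only [e4]
  refine h1.trans ?_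
  refine mul_le_mul_of_nonneg_left ?_ (by positivity)
  simp only [e3]
  exact Finset.sum_le_sum_of_subset_of_nonneg hJ fun _ _ _ => sq_nonneg _

end core

/-! ### distances in the strip of a node -/

section near

variable {i : Fin 4} {e : Fin 3} {w : ℤ} {q : Nd} {u u' v v' : ℤ}

lemma near_col (h : Ye i e w u v ∈ iv q) (h' : Ye i e w u' v' ∈ iv q) (hu : |u - u'| < 2 ^ q.1) :
    |v - v'| < 2 ^ (q.1 + 8) := by
  have hl := lin_Ye i e w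
  have h2 := SKx261.dI_diff h h'
  rw [hl.eq, hl.eq] at h2
  have hp : (0 : ℤ) < 2 ^ q.1 := by positivity
  have e7 : (2 : ℤ) ^ (q.1 + 7) = 128 * 2 ^ q.1 := by rw [pow_add]; ring
  have e8 : (2 : ℤ) ^ (q.1 + 8) = 256 * 2 ^ q.1 := by rw [pow_add]; ring
  rw [e7] at h2
  rw [e8]
  set β := sl (i.succAbove e) - sl (i.succAbove (e + 2)) with hβ
  set γ := sl (i.succAbove (e + 1)) - sl (i.succAbove (e + 2)) with hγ
  have e1 : γ * (v - v') = ((sl i - sl (i.succAbove (e + 2))) * w + β * u + γ * v -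
      ((sl i - sl (i.succAbove (e + 2))) * w + β * u' + γ * v')) - β * (u - u') := by ring
  have h3 : |γ * (v - v')| ≤ |(sl i - sl (i.succAbove (e + 2))) * w + β * u + γ * v -
      ((sl i - sl (i.succAbove (e + 2))) * w + β * u' + γ * v')| + |β * (u - u')| := by
    rw [e1]
    exact abs_sub _ _
  rw [abs_mul, abs_mul] at h3
  have h4 : 1 ≤ |γ| := Int.one_le_abs hl.g0
  have h5 : |β| ≤ 3 := hl.b3
  have h6 : |β| * |u - u'| ≤ 3 * 2 ^ q.1 :=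
    mul_le_mul h5 hu.le (abs_nonneg _) (by norm_num)
  have h7 : |v - v'| ≤ |γ| * |v - v'| := by nlinarith [abs_nonneg (v - v')]
  linarith

lemma near_row (h : Ye i e w u v ∈ iv q) (h' : Ye i e w u' v' ∈ iv q) (hv : |v - v'| < 2 ^ q.1) :
    |u - u'| < 2 ^ (q.1 + 8) := by
  have hl := lin_Ye i e w
  have h2 := SKx261.dI_diff h h'
  rw [hl.eq, hl.eq] at h2
  have hp : (0 : ℤ) < 2 ^ q.1 := by positivity
  have e7 : (2 : ℤ) ^ (q.1 + 7) = 128 * 2 ^ q.1 := by rw [pow_add]; ring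
  have e8 : (2 : ℤ) ^ (q.1 + 8) = 256 * 2 ^ q.1 := by rw [pow_add]; ring
  rw [e7] at h2
  rw [e8]
  set β := sl (i.succAbove e) - sl (i.succAbove (e + 2)) with hβ
  set γ := sl (i.succAbove (e + 1)) - sl (i.succAbove (e + 2)) with hγ
  have e1 : β * (u - u') = ((sl i - sl (i.succAbove (e + 2))) * w + β * u + γ * v -
      ((sl i - sl (i.succAbove (e + 2))) * w + β * u' + γ * v')) - γ * (v - v') := by ring
  have h3 : |β * (u - u')| ≤ |(sl i - sl (i.succAbove (e + 2))) * w + β * u + γ * v -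
      ((sl i - sl (i.succAbove (e + 2))) * w + β * u' + γ * v')| + |γ * (v - v')| := by
    rw [e1]
    exact abs_sub _ _
  rw [abs_mul, abs_mul] at h3
  have h4 : 1 ≤ |β| := Int.one_le_abs hl.b0
  have h5 : |γ| ≤ 3 := hl.g3
  have h6 : |γ| * |v - v'| ≤ 3 * 2 ^ q.1 :=
    mul_le_mul h5 hv.le (abs_nonneg _) (by norm_num)
  have h7 : |u - u'| ≤ |β| * |u - u'| := by nlinarith [abs_nonneg (u - u')]
  linarith

end near

/-! ### the frames -/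

/-- the constant of the domination -/
noncomputable def cM (k0 : ℕ) (ra ra' : ℝ) : ℝ :=
  (2 ^ 9 + 1) * 2 ^ 7 * (2 ^ (k0 + 3)) ^ 2 * ra' / ra ^ 2

lemma cM_nonneg {k0 : ℕ} {ra ra' : ℝ} (h : 0 ≤ ra') : 0 ≤ cM k0 ra ra' := by
  unfold cM; positivity

lemma cM_num {k0 m l : ℕ} {ra ra' c0 : ℝ} (hra : 0 < ra) (hc0 : cM k0 ra ra' ≤ c0) :
    ra' * 2 ^ m * (((2 ^ 9 : ℕ) + 1) * (2 ^ (l + 7) / 2 ^ m / (1 / 2 ^ (k0 + 3)) ^ 2)) /
      (ra * 2 ^ l) ^ 2 ≤ c0 / 2 ^ l := by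
  have h1 : ra' * 2 ^ m * (((2 ^ 9 : ℕ) + 1) * (2 ^ (l + 7) / 2 ^ m / (1 / 2 ^ (k0 + 3)) ^ 2)) /
      (ra * 2 ^ l) ^ 2 = cM k0 ra ra' / 2 ^ l := by
    unfold cM
    rw [pow_add (2 : ℝ) l 7]
    have h2 : (0 : ℝ) < 2 ^ l := by positivity
    have h3 : (0 : ℝ) < 2 ^ m := by positivity
    have h4 : (0 : ℝ) < 2 ^ (k0 + 3) := by positivity
    generalize (2 : ℝ) ^ l = x at *
    generalize (2 : ℝ) ^ m = y at *
    generalize (2 : ℝ) ^ (k0 + 3) = z at *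
    push_cast
    field_simp
    norm_num
  rw [h1]
  exact div_le_div_of_nonneg_right hc0 (by positivity)

section conc

variable {n : ℕ} {i : Fin 4} {e : Fin 3} {kc k0 j0 n0 Kl : ℕ} {W : Finset Nd} {K I P q0 : Nd}
  {T : Fin n → Fin 3 → Finset ℤ} {g : Fin n → Fin 3 → ℤ → ℤ → ℂ} {r : ℕ → ℝ} {gg : Fn} {ν : ℝ}

lemma dd_le {s : ℤ → ℝ} {q m : ℕ} (h0 : 0 ≤ r q) (hm : r q ≤ r (q + 1)) (k : ℤ) :
    0 ≤ dd s r Kl q m k ∧ dd s r Kl q m k ≤ r (q + 1) * 2 ^ m := by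
  have hp : (0 : ℝ) < 2 ^ m := by positivity
  have h1 : r q * 2 ^ m ≤ r (q + 1) * 2 ^ m := mul_le_mul_of_nonneg_right hm hp.le
  have h2 : 0 ≤ r q * 2 ^ m := mul_nonneg h0 hp.le
  unfold dd
  split_ifs
  · exact ⟨dk_nonneg h1 k, (dk_le h1 k).trans (by linarith)⟩
  · exact ⟨le_rfl, h2.trans h1⟩

open Classical in
/-- the labels -/
lemma sum_lab (l : Fin n) (F : ℤ → ℝ) :
    ∑ x : LbX T e, (if x.1 ∈ T l (e + 1) then F x.1 else 0) = ∑ k ∈ T l (e + 1), F k := by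
  rw [Finset.sum_coe_sort (U2 T e) (fun x => if x ∈ T l (e + 1) then F x else 0),
    ← Finset.sum_filter]
  refine Finset.sum_congr ?_ fun _ _ => rfl
  ext x
  rw [Finset.mem_filter]
  exact ⟨fun h => h.2, fun h => ⟨mem_U2 h, h⟩⟩

/-- a cell which does not meet the strip has no tiles in `E2` -/
lemma e2_empty (hV : Full W P) (hK : K ∈ W) {w : ℤ} {t : ℕ × ℤ × ℤ}
    (hM : Mx (Ye i e w) kc K t.1 t.2.1 t.2.2)
    (h : ¬ ∃ u ∈ dI t.1 t.2.1, ∃ v ∈ dI t.1 t.2.2, Ye i e w u v ∈ iv q0) :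
    E2 (Ye i e) kc W n0 q0 w t.1 t.2.1 t.2.2 = ∅ := by
  by_contra hne
  obtain ⟨c, hc⟩ := Finset.nonempty_iff_ne_empty.2 hne
  obtain ⟨h1, h2⟩ := NrTx276.til_sub hV hK hM (NrGx276.E2_sub hc)
  have hu : c.2.1 * 2 ^ c.1 ∈ dI c.1 c.2.1 := NrUx276.cor_mem _ _
  have hv : c.2.2 * 2 ^ c.1 ∈ dI c.1 c.2.2 := NrUx276.cor_mem _ _
  exact h ⟨_, h1 hu, _, h2 hv, NrGx276.E2_lab hV hK hM hc hu hv⟩

lemma x1_zero {m : ℕ} {a : ℤ} {E : Finset (ℕ × ℤ × ℤ)} {B : ℤ → ℤ → ℂ} {r : ℝ} {Y : ℤ → ℤ → ℂ}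
    {k v : ℤ} (h : ∀ u, Y k u = 0) : x1 m a E B r Y k v = 0 := by
  unfold x1 avgc
  simp only [h, mul_zero, Finset.sum_const_zero, zero_div]

lemma y1_zero {m : ℕ} {b : ℤ} {E : Finset (ℕ × ℤ × ℤ)} {B : ℤ → ℤ → ℂ} {r : ℝ} {X : ℤ → ℤ → ℂ}
    {k u : ℤ} (h : ∀ v, X k v = 0) : y1 m b E B r X k u = 0 := by
  unfold y1 avg
  simp only [h, mul_zero, Finset.sum_const_zero, zero_div]

/-- **`majU`** -/
theorem majU {l : Fin n} (hB : Bnd (BdE i e (T l) I) (poE i e) (NX i e kc I T l) ν) {a : ℕ}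
    (hr : 0 < r a) (hrm : r a ≤ r (a + 1)) (hV : Full W P) (hK : K ∈ W) (hk0 : 9 ≤ k0)
    (hkj : k0 ≤ j0) (hq : q0 ∈ QQ W k0 j0 n0 K) {w : ℤ} {t : ℕ × ℤ × ℤ}
    (hM : Mx (Ye i e w) kc K t.1 t.2.1 t.2.2) {c0 : ℝ} (hc0 : cM k0 (r a) (r (a + 1)) ≤ c0)
    (a' : ℤ) (f : ℤ → ℂ) :
    ∑ x, ‖∑ u ∈ dI q0.1 a' ∩ dI t.1 t.2.1,
        f u * PfX i e kc j0 n0 Kl W K I T g r gg a q0 l w t u x‖ ^ 2 ≤
      (c0 / 2 ^ q0.1) * ∑ v ∈ dI t.1 t.2.2, ‖∑ u ∈ dI q0.1 a' ∩ dI t.1 t.2.1,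
        f u * CUX i e kc n0 W K I T g r gg a q0 l w t u v‖ ^ 2 := by
  classical
  have hc00 : 0 ≤ c0 := (cM_nonneg (hr.le.trans hrm)).trans hc0
  set S0 := dI q0.1 a' ∩ dI t.1 t.2.1 with hS0
  set PP : ℤ → ℤ → ℂ := fun u k => PF (Ye i e) kc j0 n0 Kl W K (BdE i e (T l) I) (poE i e)
    (NX i e kc I T l) (gaX e g l) r gg (T l e) (T l (e + 1)) a q0 w t u k with hPP
  have e1 : ∀ x : LbX T e, ‖∑ u ∈ S0, f u * PfX i e kc j0 n0 Kl W K I T g r gg a q0 l w t u x‖ ^ 2 =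
      if x.1 ∈ T l (e + 1) then ‖∑ u ∈ S0, f u * PP u x.1‖ ^ 2 else 0 := by
    intro x
    unfold PfX
    split_ifs with h
    · rfl
    · simp
  rw [Finset.sum_congr rfl fun x _ => e1 x, sum_lab l (fun k => ‖∑ u ∈ S0, f u * PP u k‖ ^ 2)]
  by_cases hcell : ∃ u ∈ dI t.1 t.2.1, ∃ v ∈ dI t.1 t.2.2, Ye i e w u v ∈ iv q0
  · obtain ⟨u0, hu0, v0, hv0, hy0⟩ := hcell
    have G := NrHx276.cg (NrUx276.st3_Ye i e) hV hK hM hk0 hkj hq hu0 hv0 hy0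
    have hql : K.1 - j0 = q0.1 := (mem_QQ.1 hq).2.2.1.symm
    rw [hql] at G
    have H := sv (Ak (BdE i e (T l) I) (poE i e) (gaX e g l) K gg w)
      (dI t.1 t.2.1 ∩ T l e) (dI t.1 t.2.2 ∩ T l (e + 1))
    set sy := sY (Ak (BdE i e (T l) I) (poE i e) (gaX e g l) K gg w)
      (dI t.1 t.2.1 ∩ T l e) (dI t.1 t.2.2 ∩ T l (e + 1)) with hsy
    set ss := sS (Ak (BdE i e (T l) I) (poE i e) (gaX e g l) K gg w)
      (dI t.1 t.2.1 ∩ T l e) (dI t.1 t.2.2 ∩ T l (e + 1)) with hss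
    set T' := dI t.1 t.2.2 ∩ T l (e + 1) with hT'
    set B0 := Bk (BdE i e (T l) I) (poE i e) (NX i e kc I T l) (gaX e g l) (r a) W K gg w with hB0
    set E1' := E1 (Ye i e) kc W j0 K w t.1 t.2.1 t.2.2 with hE1'
    set E2' := E2 (Ye i e) kc W n0 q0 w t.1 t.2.1 t.2.2 with hE2'
    set X1 := x1 t.1 t.2.1 E1' B0 (r a) sy with hX1
    have hop : ∀ c ∈ NrTx276.Til (Ye i e) kc W w t.1 t.2.1 t.2.2,
        OpS (Rw c) (Cl c) B0 (r a * 2 ^ c.1) :=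
      fun c hc => NrGx276.Bk_op hB (gaX e g l) hr.le hV gg hK hM hc
    have hPPe : ∀ u k, PP u k = (Real.sqrt (dd ss r Kl a t.1 k) : ℂ) *
        (if (2 : ℝ) ^ q0.1 ≤ wt E2' u then avg t.1 t.2.2 E2' B0 (r a) (X1 k) u else 0) :=
      fun u k => rfl
    have hrest : ∑ k ∈ T l (e + 1), ‖∑ u ∈ S0, f u * PP u k‖ ^ 2 =
        ∑ k ∈ T', ‖∑ u ∈ S0, f u * PP u k‖ ^ 2 := by
      symm
      refine Finset.sum_subset Finset.inter_subset_right fun k hk hk' => ?_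
      have h1 : ∀ u, sy k u = 0 := fun u => H.y0 k u fun h => hk' h.1
      have h2 : ∀ v, X1 k v = 0 := fun v => x1_zero h1
      have h3 : ∀ u, PP u k = 0 := by
        intro u
        rw [hPPe]
        split_ifs
        · unfold avg
          simp [h2]
        · simp
      simp [h3]
    rw [hrest]
    set J := (dI t.1 t.2.2).filter (fun v => ∃ u ∈ S0, ∃ c ∈ E2', u ∈ Rw c ∧ v ∈ Cl c) with hJ
    have hJs : J ⊆ dI t.1 t.2.2 := Finset.filter_subset _ _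
    have hJ0 : ∀ u ∈ S0, ∀ v ∈ dI t.1 t.2.2, v ∉ J → mB E2' B0 u v = 0 := by
      intro u hu v hv hv'
      unfold mB
      rw [if_neg]
      rintro ⟨c, hc, h1, h2⟩
      exact hv' (Finset.mem_filter.2 ⟨hv, u, hu, c, hc, h1, h2⟩)
    have hbf : BF T' J X1 (((2 ^ 9 : ℕ) + 1) * (2 ^ (q0.1 + 7) / 2 ^ t.1 /
        (1 / 2 ^ (k0 + 3)) ^ 2)) := by
      rcases J.eq_empty_or_nonempty with hJe | ⟨v1, hv1⟩
      · rw [hJe]
        intro c
        rw [Finset.sum_empty]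
        positivity
      · obtain ⟨_, u1, hu1, c1, hc1, g1, g2⟩ := Finset.mem_filter.1 hv1
        refine bf_x1 G hr (by positivity) hop H Finset.inter_subset_left hJs
          (x := v1 - 2 ^ (q0.1 + 8)) (y := v1 + 2 ^ (q0.1 + 8)) ?_ ?_
        · push_cast
          rw [pow_add]
          ring_nf
          rfl
        · intro v hv
          obtain ⟨_, u, hu, c, hc, h1, h2⟩ := Finset.mem_filter.1 hv
          have h3 := SKx261.dI_diff (Finset.mem_inter.1 hu).1 (Finset.mem_inter.1 hu1).1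
          have h4 := near_col (NrGx276.E2_lab hV hK hM hc h1 h2)
            (NrGx276.E2_lab hV hK hM hc1 g1 g2) h3
          rw [abs_lt] at h4
          rw [Finset.mem_Ico]
          constructor
          · linarith [h4.1]
          · linarith [h4.2]
    have hmaj := maj_row (m := t.1) (b := t.2.2) (A := E2') (B := B0) (r := r a)
      (lq := 2 ^ q0.1) (D := r (a + 1) * 2 ^ t.1) (T := T') (S0 := S0) (x := X1)
      (d := dd ss r Kl a t.1) (J := J) hJs hJ0 (by positivity) hr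
      (mul_nonneg (hr.le.trans hrm) (by positivity)) (fun k _ => dd_le hr.le hrm k)
      (by positivity) hbf f
    refine hmaj.trans (mul_le_mul_of_nonneg_right (cM_num hr hc0)
      (Finset.sum_nonneg fun _ _ => sq_nonneg _))
  · have hE := e2_empty (q0 := q0) (n0 := n0) hV hK hM hcell
    have e2 : ∀ u k, PP u k = 0 := by
      intro u k
      rw [hPP]
      show PF _ _ _ _ _ _ _ _ _ _ _ _ _ _ _ _ _ _ _ _ _ = 0
      unfold PF Pu yt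
      rw [hE]
      have h0 : ¬ ((2 : ℝ) ^ q0.1 ≤ wt ∅ u) := by
        unfold wt
        simp
      rw [if_neg h0, mul_zero]
    have e3 : ∑ k ∈ T l (e + 1), ‖∑ u ∈ S0, f u * PP u k‖ ^ 2 = 0 := by
      refine Finset.sum_eq_zero fun k _ => ?_
      simp [e2]
    rw [e3]
    positivity

open Classical in
/-- **`majW`** -/
theorem majW {l : Fin n} (hB : Bnd (BdE i e (T l) I) (poE i e) (NX i e kc I T l) ν) {a : ℕ}
    (hr : 0 < r a) (hrm : r a ≤ r (a + 1)) (hV : Full W P) (hK : K ∈ W) (hk0 : 9 ≤ k0)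
    (hkj : k0 ≤ j0) (hq : q0 ∈ QQ W k0 j0 n0 K) {w : ℤ} {t : ℕ × ℤ × ℤ}
    (hM : Mx (Ye i e w) kc K t.1 t.2.1 t.2.2) {c0 : ℝ} (hc0 : cM k0 (r a) (r (a + 1)) ≤ c0)
    (b' : ℤ) (f : ℤ → ℂ) :
    ∑ x, ‖∑ v ∈ dI q0.1 b' ∩ dI t.1 t.2.2,
        f v * QfX i e kc j0 n0 Kl W K I T g r gg a q0 l w t v x‖ ^ 2 ≤
      (c0 / 2 ^ q0.1) * ∑ u ∈ dI t.1 t.2.1, ‖∑ v ∈ dI q0.1 b' ∩ dI t.1 t.2.2,
        f v * CWX i e kc n0 W K I T g r gg a q0 l w t u v‖ ^ 2 := by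
  classical
  have hc00 : 0 ≤ c0 := (cM_nonneg (hr.le.trans hrm)).trans hc0
  set S0 := dI q0.1 b' ∩ dI t.1 t.2.2 with hS0
  set PP : ℤ → ℤ → ℂ := fun v k => QF (Ye i e) kc j0 n0 Kl W K (BdE i e (T l) I) (poE i e)
    (NX i e kc I T l) (gaX e g l) r gg (T l e) (T l (e + 1)) a q0 w t v k with hPP
  have e1 : ∀ x : LbX T e, ‖∑ v ∈ S0, f v * QfX i e kc j0 n0 Kl W K I T g r gg a q0 l w t v x‖ ^ 2 =
      if x.1 ∈ T l (e + 1) then ‖∑ v ∈ S0, f v * PP v x.1‖ ^ 2 else 0 := by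
    intro x
    unfold QfX
    split_ifs with h
    · rfl
    · simp
  rw [Finset.sum_congr rfl fun x _ => e1 x, sum_lab l (fun k => ‖∑ v ∈ S0, f v * PP v k‖ ^ 2)]
  by_cases hcell : ∃ u ∈ dI t.1 t.2.1, ∃ v ∈ dI t.1 t.2.2, Ye i e w u v ∈ iv q0
  · obtain ⟨u0, hu0, v0, hv0, hy0⟩ := hcell
    have G := NrHx276.cg (NrUx276.st3_Ye i e) hV hK hM hk0 hkj hq hu0 hv0 hy0
    have hql : K.1 - j0 = q0.1 := (mem_QQ.1 hq).2.2.1.symm
    rw [hql] at G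
    have H := sv (Ak (BdE i e (T l) I) (poE i e) (gaX e g l) K gg w)
      (dI t.1 t.2.1 ∩ T l e) (dI t.1 t.2.2 ∩ T l (e + 1))
    set sx := sX (Ak (BdE i e (T l) I) (poE i e) (gaX e g l) K gg w)
      (dI t.1 t.2.1 ∩ T l e) (dI t.1 t.2.2 ∩ T l (e + 1)) with hsx
    set ss := sS (Ak (BdE i e (T l) I) (poE i e) (gaX e g l) K gg w)
      (dI t.1 t.2.1 ∩ T l e) (dI t.1 t.2.2 ∩ T l (e + 1)) with hss
    set T' := dI t.1 t.2.2 ∩ T l (e + 1) with hT'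
    set B0 := Bk (BdE i e (T l) I) (poE i e) (NX i e kc I T l) (gaX e g l) (r a) W K gg w with hB0
    set E1' := E1 (Ye i e) kc W j0 K w t.1 t.2.1 t.2.2 with hE1'
    set E2' := E2 (Ye i e) kc W n0 q0 w t.1 t.2.1 t.2.2 with hE2'
    set Y1 := y1 t.1 t.2.2 E1' B0 (r a) sx with hY1
    have hop : ∀ c ∈ NrTx276.Til (Ye i e) kc W w t.1 t.2.1 t.2.2,
        OpS (Rw c) (Cl c) B0 (r a * 2 ^ c.1) :=
      fun c hc => NrGx276.Bk_op hB (gaX e g l) hr.le hV gg hK hM hc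
    have hPPe : ∀ v k, PP v k = (Real.sqrt (dd ss r Kl a t.1 k) : ℂ) *
        conj (if (2 : ℝ) ^ q0.1 ≤ wtc E2' v then avgc t.1 t.2.1 E2' B0 (r a) (Y1 k) v else 0) :=
      fun v k => rfl
    have hrest : ∑ k ∈ T l (e + 1), ‖∑ v ∈ S0, f v * PP v k‖ ^ 2 =
        ∑ k ∈ T', ‖∑ v ∈ S0, f v * PP v k‖ ^ 2 := by
      symm
      refine Finset.sum_subset Finset.inter_subset_right fun k hk hk' => ?_
      have h1 : ∀ v, sx k v = 0 := fun v => H.x0 k v fun h => hk' h.1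
      have h2 : ∀ u, Y1 k u = 0 := fun u => y1_zero h1
      have h3 : ∀ v, PP v k = 0 := by
        intro v
        rw [hPPe]
        split_ifs
        · unfold avgc
          simp [h2]
        · simp
      simp [h3]
    rw [hrest]
    set J := (dI t.1 t.2.1).filter (fun u => ∃ v ∈ S0, ∃ c ∈ E2', u ∈ Rw c ∧ v ∈ Cl c) with hJ
    have hJs : J ⊆ dI t.1 t.2.1 := Finset.filter_subset _ _
    have hJ0 : ∀ v ∈ S0, ∀ u ∈ dI t.1 t.2.1, u ∉ J → mB E2' B0 u v = 0 := by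
      intro v hv u hu hu'
      unfold mB
      rw [if_neg]
      rintro ⟨c, hc, h1, h2⟩
      exact hu' (Finset.mem_filter.2 ⟨hu, v, hv, c, hc, h1, h2⟩)
    have hbf : BF T' J Y1 (((2 ^ 9 : ℕ) + 1) * (2 ^ (q0.1 + 7) / 2 ^ t.1 /
        (1 / 2 ^ (k0 + 3)) ^ 2)) := by
      rcases J.eq_empty_or_nonempty with hJe | ⟨u1, hu1⟩
      · rw [hJe]
        intro c
        rw [Finset.sum_empty]
        positivity
      · obtain ⟨_, v1, hv1, c1, hc1, g1, g2⟩ := Finset.mem_filter.1 hu1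
        refine bf_y1 G hr (by positivity) hop H Finset.inter_subset_left hJs
          (x := u1 - 2 ^ (q0.1 + 8)) (y := u1 + 2 ^ (q0.1 + 8)) ?_ ?_
        · push_cast
          rw [pow_add]
          ring_nf
          rfl
        · intro u hu
          obtain ⟨_, v, hv, c, hc, h1, h2⟩ := Finset.mem_filter.1 hu
          have h3 := SKx261.dI_diff (Finset.mem_inter.1 hv).1 (Finset.mem_inter.1 hv1).1
          have h4 := near_row (NrGx276.E2_lab hV hK hM hc h1 h2)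
            (NrGx276.E2_lab hV hK hM hc1 g1 g2) h3
          rw [abs_lt] at h4
          rw [Finset.mem_Ico]
          constructor
          · linarith [h4.1]
          · linarith [h4.2]
    have hmaj := maj_col (m := t.1) (a := t.2.1) (A := E2') (B := B0) (r := r a)
      (lq := 2 ^ q0.1) (D := r (a + 1) * 2 ^ t.1) (T := T') (S0 := S0) (x := Y1)
      (d := dd ss r Kl a t.1) (J := J) hJs hJ0 (by positivity) hr
      (mul_nonneg (hr.le.trans hrm) (by positivity)) (fun k _ => dd_le hr.le hrm k)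
      (by positivity) hbf f
    refine hmaj.trans (mul_le_mul_of_nonneg_right (cM_num hr hc0)
      (Finset.sum_nonneg fun _ _ => sq_nonneg _))
  · have hE := e2_empty (q0 := q0) (n0 := n0) hV hK hM hcell
    have e2 : ∀ v k, PP v k = 0 := by
      intro v k
      rw [hPP]
      show QF _ _ _ _ _ _ _ _ _ _ _ _ _ _ _ _ _ _ _ _ _ = 0
      unfold QF Qv xt
      rw [hE]
      have h0 : ¬ ((2 : ℝ) ^ q0.1 ≤ wtc ∅ v) := by
        unfold wtc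
        simp
      rw [if_neg h0, map_zero, mul_zero]
    have e3 : ∑ k ∈ T l (e + 1), ‖∑ v ∈ S0, f v * PP v k‖ ^ 2 = 0 := by
      refine Finset.sum_eq_zero fun k _ => ?_
      simp [e2]
    rw [e3]
    positivity

/-- **`FC` FOR THE CONCRETE FRAMES**: only the position of `q0` and numbers are left -/
theorem fc_full {Kl n1 κ0 C0 a k0 j0 : ℕ} {q0 P : Nd} {κ : Fin n → ℝ} {R : Finset Nd}
    {rr Hr G Ha : ℝ}
    (hB : ∀ l, Bnd (BdE i e (T l) I) (poE i e) (NX i e kc I T l) (1 / (n1 : ℝ) ^ 2))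
    (hF : ∀ l, ElGx69.FibG (BdE i e (T l) I) (poE i e) (1 / (n1 : ℝ) ^ 2) (gaX e g l))
    (hHa : ∀ l ω, ‖gaX e g l ω‖ ≤ Ha) (hr : 0 < r a) (hrm : r a ≤ r (a + 1)) (hV : Full W P)
    (hK : K ∈ W) (hq : q0 ∈ QQ W k0 j0 n0 K) (hk0 : 9 ≤ k0) (hkj : k0 ≤ j0) (hKI : iv K ⊆ iv I)
    (hκ : ∀ l, 0 ≤ κ l) (hC : 2 ^ κ0 ≤ C0) (hC' : C0 ≤ 2 ^ (j0 - 4))
    (hR : ∀ p ∈ R, p.1 ≤ q0.1) (hRd : ∀ p ∈ R, dq W n0 q0 ≤ p.1)
    (hrr : 0 < rr) (hcM : cM k0 (r a) (r (a + 1)) ≤ rr⁻¹) (hHr : 2 ^ 7 * Ha ^ 2 * av q0 gg ^ 2 ≤ Hr)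
    (hG : (∑ l, κ l) * (2 ^ 7 * av q0 gg ^ 2) ≤ G) :
    FrWx360.FC κ i e n1 kc κ0 (dq W n0 q0) C0 K q0 I T R (PfX i e kc j0 n0 Kl W K I T g r gg a q0)
      (QfX i e kc j0 n0 Kl W K I T g r gg a q0) (FrKx717.CUm i e kc n0 W K I T g r gg a q0)
      (FrKx717.CWm i e kc n0 W K I T g r gg a q0) (BX i e kc W K I T g r gg a) (2 ^ 7 * r a) rr Hr
      G := by
  obtain ⟨s1, s2, s3, s4, s5, s6, s7, s8⟩ := QQ_spec hV hq
  exact FrKx717.fc_of hB hF hHa hr.le hV hK s1 s3 hKI hκ hC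
    (FrLx717.qq_nadj hV hq (by omega) hC') hR hRd (by positivity) hrr hHr hG
    (fun l w _ t hM m hm _ a' b' _ hb => FrLx717.opU (hB l) hr.le hV hK s1 s6 hM hm hb)
    (fun l w _ t hM m hm _ a' b' _ hb => FrLx717.opW (hB l) hr.le hV hK s1 s6 hM hm hb)
    (fun l w _ t hM a' f => majU (hB l) hr hrm hV hK hk0 hkj hq hM hcM a' f)
    (fun l w _ t hM b' f => majW (hB l) hr hrm hV hK hk0 hkj hq hM hcM b' f)

end conc

end Crest.Agent.R079.FrMx717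
end

-- ▼ part R079/FrN_717
section

/-! R079, (T5c) of note 1820 (helper717): **`fcx_su`** : `FCX` of `FrZc_360` for the data `Su`. -/

set_option autoImplicit false
set_option linter.unusedSectionVars false

namespace Crest.Agent.R079.FrNx717

open Finset Crest.Agent.R079.Grid Crest.Agent.R079.Growth Crest.Agent.R079.QRed
  Crest.Agent.R079.Qh249 Crest.Agent.R079.QVar181
  Crest.Agent.R079.TWin Crest.Agent.R079.Glue Crest.Agent.R079.SWc360 Crest.Agent.R079.Cel159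
  Crest.Agent.R079.SplSx69 Crest.Agent.R079.ThA159 Crest.Agent.R079.SKx261
open Crest.Agent.R079.NC237 (NC2 NCol nc2_of_ncol)
open Crest.Agent.R079.F2
open Crest.Agent.R079.GaFx371 (Ye W0 SE BdE poE mem_W0)
open Crest.Agent.R079.YeYlx263 (xs)
open Crest.Agent.R079.ElS440 (Ln LnF)
open Crest.Agent.R079.FrWx360 (tcY FC Nc win_tot fc_word1)
open Crest.Agent.R079.PFx263 (Fam)
open Crest.Agent.R079.GaDx571 (sd sd_pos penPhi)
open Crest.Agent.R079.NodeWx254 (node_g0)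
open Crest.Agent.R079.RelW653 (NMP)
open Crest.Agent.R079.RelV653 (PenC)
open Crest.Agent.R079.TRec Crest.Agent.R079.AsmA844 Crest.Agent.R079.WS112
  Crest.Agent.R079.WS0112 Crest.Agent.R079.POx263 Crest.Agent.R079.GnUx263
  Crest.Agent.R079.SbWx795 Crest.Agent.R079.ErMx255 Crest.Agent.R079.ErLx255
open Crest.Agent.R079.GnSx263 (ek)
open Crest.Agent.R079.FrZx360
open Crest.Agent.R079.FrMx717 (cM fc_full)

open scoped ComplexConjugate

section pos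

variable {R : Finset Nd} {D : Nd → ℝ} {dev : Nd → Nd → ℝ} {μ τ : ℝ} {Er : Nd → Nd → ℝ}
  {k0 j0 n0 : ℕ} {K q : Nd}

/-- nodes of the window below a grid node are at alive levels -/
lemma rq_dq (hR : Full (VK R D dev μ K) K) (hk : 1 ≤ k0) (hkj : k0 ≤ j0)
    (hq : q ∈ QQ (VK R D dev μ K) k0 j0 n0 K) {p : Nd}
    (hp : p ∈ RQ (WW R D dev μ k0 j0 n0 Er τ K) n0 q) : dq (VK R D dev μ K) n0 q ≤ p.1 := by
  obtain ⟨s1, s2, s3, s4, s5, s6, s7, s8⟩ := QQ_spec hR hq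
  obtain ⟨a1, a2, a3⟩ := mem_RQ.1 hp
  have hlv : p.1 ≤ q.1 := (le_iff.1 a2).1
  by_cases hc : K.1 ≤ p.1 + j0
  · omega
  · obtain ⟨q', h1, h2, h3⟩ := WW_fine hk hkj a1 hc (by omega)
    have hqq : q' = q := by
      by_contra hne
      have h4 := QQ_disj h1 hq hne
      obtain ⟨y, hy⟩ := Growth.iv_nonempty p
      exact Finset.disjoint_left.1 h4 (h2 hy) (a2 hy)
    rw [← hqq]
    exact h3

end pos

section

variable {P : Prm} {d ε k q3 : ℝ} {i m e e' : Fin 4} {N : ℕ} {B t : ℝ} {W : Finset Nd} {I : Nd}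
  {F : Fin 4 → Fn} {xy : Fin 2 → Fin 4} {bb : ℤ} {E : ℕ → ℤ → ℂ} {R : Finset Nd} {J : Nd}
  {Z : Fin 2 → Fn} {v : Fin 3} {n : ℕ} {T : Fin n → Fin 3 → Finset ℤ}
  {g : Fin n → Fin 3 → ℤ → ℤ → ℂ} {al : Fin n → ℤ → ℝ} {mu : Fin n → ℝ} {es : Fin 2 → Fin 3}

/-- **`FCX` from the data of one generation** -/
theorem fcx_su (h : Su P d ε k q3 i m e e' N B t W I F xy bb E R J Z v n T g al mu es) (hk : 0 ≤ k)
    {kap m0 η ω : ℝ} (hkap : 0 ≤ kap) {kc Kl k0 j0 n0 κ0 : ℕ} {r : ℕ → ℝ} (hr : ∀ q, 0 < r q)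
    (hrm : ∀ q, r q ≤ r (q + 1)) (hη1 : η ≤ 1) (hk0 : 9 ≤ k0) (hkj : k0 ≤ j0) (hκj : κ0 + 4 ≤ j0)
    {f : Fin 2 → Nd → Fn}
    (hf : ∀ c', NMP (fun _ _ => True) (PhiC P ε i T g mu I t kap kc Kl r es c') (Z c') η (f c'))
    {V : Nd → Finset Nd} {Psi : Fin 2 → Nd → Fn} {W' : Nd → Finset Nd}
    (hV : V = VG R (PhiC P ε i T g mu I t kap kc Kl r es) Z η f m0)
    (hW' : W' = WG R (PhiC P ε i T g mu I t kap kc Kl r es) Z η f m0 k0 j0 n0 Psi ω)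
    {w : Nd} (hw : w ∈ R) (c : Fin 2) {q : Nd} (hq : q ∈ QQ (V w) k0 j0 n0 w) {a : ℕ}
    {rr Hr : ℝ} (hrr : 0 < rr) (hcM : cM k0 (r a) (r (a + 1)) ≤ rr⁻¹)
    (hHr : 2 ^ 7 * 9 * (HfC P i t * HtC P i t) ≤ Hr) :
    FCX i (es c) kc j0 n0 Kl κ0 (V w) (W' w) w I T g r (gl (V w) (f c))
      (fun l => kap * mu l / LaC P ε i t) (2 ^ 7 * r a) rr Hr
      (kap * (2 ^ 7 * av q (gl (V w) (f c)) ^ 2)) a q := by
  classical
  have ht := h.t0
  have hLa := LaC_pos P ε i ht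
  have hHf := (HfC_pos P i ht).le
  have hHt := (HtC_pos P i ht).le
  have hVf : Full (V w) w := by rw [hV]; exact VK_full h.full hw
  have hVR : V w ⊆ R := by rw [hV]; exact VK_sub
  have hwI : iv w ⊆ iv I := h.W_full.reg.1 w (h.sub hw)
  have hqV : q ∈ V w := (mem_QQ.1 hq).2.1
  have hav : av q (gl (V w) (f c)) ≤ 3 := av_glV h hk hkap (fun q => (hr q).le) hη1 hf hVf hVR c hqV
  have hav0 := Growth.av_nonneg q (gl (V w) (f c))
  have hkp := pow_le_pow_right₀ (show (1 : ℕ) ≤ 2 by norm_num) (show κ0 ≤ j0 - 4 by omega)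
  refine ⟨2 ^ κ0, _, _, _, fc_full (P := w) (Ha := Real.sqrt (HfC P i t * HtC P i t)) ?_ ?_ ?_
    (hr a) (hrm a) hVf hVf.top hq hk0 hkj hwI ?_ le_rfl hkp ?_ ?_ hrr hcM ?_ ?_⟩
  · intro l
    exact GaFx371.bnd_E i (es c) I (sd_pos I) (h.fam.opD l).card kc
  · intro l
    exact (h.fam.opD l).fib (sd_pos I) i (es c) I
  · intro l ω'
    exact gauge_le h.fam hHf (h.es_ne c) l _ _
  · intro l
    exact div_nonneg (mul_nonneg hkap (h.fam.μ0 l)) hLa.le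
  · intro p hp
    exact (le_iff.1 (mem_RQ.1 hp).2.1).1
  · intro p hp
    rw [hW'] at hp
    rw [hV] at hVf hq ⊢
    exact rq_dq hVf (by omega) hkj hq hp
  · refine le_trans ?_ hHr
    rw [Real.sq_sqrt (mul_nonneg hHf hHt)]
    have h1 : av q (gl (V w) (f c)) ^ 2 ≤ 9 := by nlinarith
    have h2 : 0 ≤ HfC P i t * HtC P i t := mul_nonneg hHf hHt
    nlinarith [mul_le_mul_of_nonneg_left h1 h2]
  · refine mul_le_mul_of_nonneg_right ?_ (by positivity)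
    rw [← Finset.sum_div, ← Finset.mul_sum, div_le_iff₀ hLa]
    exact mul_le_mul_of_nonneg_left h.fam.μ1 hkap

end

end Crest.Agent.R079.FrNx717
end

-- ▼ part R079/FrZd_360
section

/-! R079 (helper360), T5b of note 1820: **the five (S) words of one window, all sizes free**
(`swd_gen`), and the pieces of the composition with 255 / 228 / 112:

* `psi_zff`, `psi_psx` : the frame letters of 255 / 228 are the same;
* `Su.ncol`, `Su.supi` : the killer and the frozen letter;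
* `ek_top` : `ErG w w` from the energy of the error letters;
* `en_QQ` : the energies of the grid nodes. -/

set_option autoImplicit false
set_option linter.unusedSectionVars false

namespace Crest.Agent.R079.FrZx360

open Finset Crest.Agent.R079.Grid Crest.Agent.R079.Growth Crest.Agent.R079.QRed
  Crest.Agent.R079.Qh249 Crest.Agent.R079.QVar181
  Crest.Agent.R079.TWin Crest.Agent.R079.Glue Crest.Agent.R079.SWc360 Crest.Agent.R079.Cel159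
  Crest.Agent.R079.SplSx69 Crest.Agent.R079.ThA159 Crest.Agent.R079.SKx261
open Crest.Agent.R079.NC237 (NC2 NCol nc2_of_ncol)
open Crest.Agent.R079.F2
open Crest.Agent.R079.GaFx371 (Ye W0 SE BdE poE mem_W0)
open Crest.Agent.R079.YeYlx263 (xs)
open Crest.Agent.R079.ElS440 (Ln LnF)
open Crest.Agent.R079.FrWx360 (tcY FC Nc win_tot fc_word1)
open Crest.Agent.R079.PFx263 (Fam)
open Crest.Agent.R079.GaDx571 (sd sd_pos penPhi)
open Crest.Agent.R079.NodeWx254 (node_g0)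
open Crest.Agent.R079.RelW653 (NMP)
open Crest.Agent.R079.RelV653 (PenC)
open Crest.Agent.R079.TRec Crest.Agent.R079.AsmA844 Crest.Agent.R079.WS112
  Crest.Agent.R079.WS0112 Crest.Agent.R079.POx263 Crest.Agent.R079.GnUx263
  Crest.Agent.R079.SbWx795 Crest.Agent.R079.ErMx255 Crest.Agent.R079.ErLx255
open Crest.Agent.R079.GnSx263 (ek)
open Crest.Agent.R079.NJ112 (SWd)
open Crest.Agent.R079.Qe292 (Wd mem_Wd)
open Crest.Agent.R079.OpS276 (Dst4)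

open scoped ComplexConjugate



section

variable {P : Prm} {d ε k q3 : ℝ} {i m e e' : Fin 4} {N : ℕ} {B t : ℝ} {W : Finset Nd} {I : Nd}
  {F : Fin 4 → Fn} {xy : Fin 2 → Fin 4} {bb : ℤ} {E : ℕ → ℤ → ℂ} {R : Finset Nd} {J : Nd}
  {Z : Fin 2 → Fn} {v : Fin 3} {n : ℕ} {T : Fin n → Fin 3 → Finset ℤ}
  {g : Fin n → Fin 3 → ℤ → ℤ → ℂ} {al : Fin n → ℤ → ℝ} {mu : Fin n → ℝ} {es : Fin 2 → Fin 3}




/-- `ErG` at the top from the energy -/
lemma ek_top {Φ : Fin 2 → Nd → Fn → ℝ} {η m0 L : ℝ} {f : Fin 2 → Nd → Fn}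
    {Psi : Fin 2 → Nd → Fn} {w : Nd}
    (hE : ∑ c', len w * av w (ek Z f (VG R Φ Z η f m0) Psi c' w) ^ 2 ≤ L * len w) :
    ErG R Φ Z η f m0 Psi w w ≤ L := by
  unfold ErG
  rw [← Finset.mul_sum, mul_comm] at hE
  exact le_of_mul_le_mul_right hE (Growth.len_pos w)


end



end Crest.Agent.R079.FrZx360
namespace Crest.Agent.R079.FrZx360.Su
end Crest.Agent.R079.FrZx360.Su
end

-- ▼ part R079/NN_112
section

/-! R079, T7 (helper112): **`InES` AT THE PARAMETERS `parF`**.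

* `numZ` : the cap `ThS` of all sizes (`SKZ`);
* **`inES_parF`** : `InES` from 263's error half, 360's five words and 717's frame data. -/

set_option autoImplicit false
set_option linter.unusedVariables false

namespace Crest.Agent.R079.NN112

open Finset Crest.Agent.R079.Grid Crest.Agent.R079.Growth Crest.Agent.R079.QRed
  Crest.Agent.R079.TWin
open Crest.Agent.R079.RelW653 (vl NMP Jv Dv)
open Crest.Agent.R079.RelV653 Crest.Agent.R079.HWx323 Crest.Agent.R079.Chn110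
open Crest.Agent.R079.TRec Crest.Agent.R079.T6bx252 Crest.Agent.R079.Tailx726 Crest.Agent.R079.Stk
  Crest.Agent.R079.AsmA844
open Crest.Agent.R079.GnMx45 (en en_nonneg)
open Crest.Agent.R079.FLDx263 Crest.Agent.R079.GnSx263 Crest.Agent.R079.GnNx263
  Crest.Agent.R079.PFx263 Crest.Agent.R079.GaDx571 Crest.Agent.R079.GaFx371
  Crest.Agent.R079.WS112 Crest.Agent.R079.WS0112 Crest.Agent.R079.POx263
  Crest.Agent.R079.OpS276 Crest.Agent.R079.GnUx263 Crest.Agent.R079.SbWx795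
open Crest.Agent.R079.NJ112 Crest.Agent.R079.NL112 Crest.Agent.R079.GaQx571
  Crest.Agent.R079.NumS112 Crest.Agent.R079.SKx261 Crest.Agent.R079.FrZx360
open Crest.Agent.R079.ErOx255 (PsX)
open Crest.Agent.R079.GnEx263 (topx errF parF_rpos parF_mono)

/-- **the cap of all sizes** -/
theorem numZ {P : Prm} {ε : ℝ} {i m : Fin 4} {cl y Cm M' t : ℝ} {Kl : ℕ} (hθ : 0 ≤ P.θ)
    (hγ : 0 ≤ P.θ * P.gc m) (hD : 0 ≤ P.θ * (P.Cc m - P.gc m)) (hcl : 0 ≤ cl)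
    (hxf : 0 ≤ xxC P i + ffC P i) (hla : 0 ≤ (1 + ε) * (P.θ * P.g i)) (hy : 0 ≤ y) (hCm : 1 ≤ Cm)
    (hM' : 2 * cl + y * Kl + 2 * P.θ + 5 * y + (xxC P i + ffC P i) + (1 + ε) * (P.θ * P.g i) ≤ M')
    (ht : 0 < t) (ht1 : t ≤ 1) {a : ℕ} (ha : a < Kl) :
    SKZ (ThS Cm M' t) (AS cl t) (gkS P m t) (dkS P m t) (5 ^ 2) 0 (roS P.θ y t a)
      (rrS P.θ y Cm t a) (HrS P i t) 0 (t ^ (-(4 * y))) (hoS P ε i t) := by
  have p : ∀ s : ℝ, 0 ≤ t ^ s := fun s => (pw_pos ht s).le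
  have hCm0 : 0 < Cm := by linarith
  have hyK : 0 ≤ y * (Kl : ℝ) := mul_nonneg hy (Nat.cast_nonneg _)
  have hya : 0 ≤ y * (a : ℝ) := mul_nonneg hy (Nat.cast_nonneg _)
  have haK : y * (a : ℝ) ≤ y * Kl := mul_le_mul_of_nonneg_left (by exact_mod_cast ha.le) hy
  have hM0 : 0 ≤ M' := by linarith
  have h1 : 1 ≤ t ^ (-M') := one_le_pw ht ht1 hM0
  -- the comparison
  have cmp : ∀ (c s : ℝ), 0 ≤ c → c ≤ 1300000 + Cm → -M' ≤ s → c * t ^ s ≤ ThS Cm M' t := by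
    intro c s hc hc' hs
    unfold ThS
    exact mul_le_mul hc' (pw_le ht ht1 hs) (p _) (by linarith)
  have cst : ∀ c : ℝ, 0 ≤ c → c ≤ 1300000 + Cm → c ≤ ThS Cm M' t := by
    intro c hc hc'
    have := cmp c 0 hc hc' (by linarith)
    rwa [Real.rpow_zero, mul_one] at this
  refine ⟨cst 1 (by norm_num) (by linarith), cmp 25 _ (by norm_num) (by linarith) (by linarith),
    cmp 3 _ (by norm_num) (by linarith) (by linarith),
    cmp 2 _ (by norm_num) (by linarith) (by linarith), cst _ (by norm_num) (by linarith),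
    cst 0 le_rfl (by linarith), cmp _ _ (by norm_num) (by linarith) (by linarith), ?_, ?_,
    cst 0 le_rfl (by linarith), ?_, ?_⟩
  · exact (rr_inv (θ := P.θ) (y := y) hy hCm0 ht ht1 a).2.trans
      (cmp Cm _ hCm0.le (by linarith) (by linarith))
  · unfold HrS
    rw [HH_eq P i ht]
    have := cmp 3456 (-(xxC P i + ffC P i)) (by norm_num) (by linarith) (by linarith)
    linarith
  · have := cmp 1 (-(4 * y)) (by norm_num) (by linarith) (by linarith)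
    rwa [one_mul] at this
  · unfold hoS
    rw [HH_eq P i ht]
    have e1 : Real.sqrt (3 * t ^ (-(xxC P i + ffC P i))) ≤ 2 * t ^ (-(xxC P i + ffC P i)) := by
      refine Real.sqrt_le_iff.2 ⟨mul_nonneg (by norm_num) (p _), ?_⟩
      have a1 : 1 ≤ t ^ (-(xxC P i + ffC P i)) := one_le_pw ht ht1 hxf
      nlinarith
    have e2 : 0 ≤ LaC P ε i t := (LaC_pos P ε i ht).le
    calc _ ≤ 2 * t ^ (-(xxC P i + ffC P i)) * LaC P ε i t := mul_le_mul_of_nonneg_right e1 e2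
      _ = 1242864 * (t ^ (-(xxC P i + ffC P i)) * t ^ (-((1 + ε) * (P.θ * P.g i)))) := by
          unfold LaC; ring
      _ = 1242864 * t ^ (-(xxC P i + ffC P i) + -((1 + ε) * (P.θ * P.g i))) := by rw [pw_add ht]
      _ ≤ _ := cmp _ _ (by norm_num) (by linarith) (by linarith)

/-- the five words are monotone in the number -/
lemma swd_mono {bb : ℤ} {E : ℕ → ℤ → ℂ} {F : Fin 4 → Fn} {xy : Fin 2 → Fin 4} {Z : Fin 2 → Fn}
    {f : Fin 2 → Nd → Fn} {Psi : Fin 2 → Nd → Fn} {W' : Nd → Finset Nd} {κ κ' : ℝ} {w : Nd}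
    (h : κ ≤ κ') (hs : SWd bb E F xy Z f Psi W' κ w) : SWd bb E F xy Z f Psi W' κ' w := by
  have hm : κ * len w ≤ κ' * len w := mul_le_mul_of_nonneg_right h (Growth.len_pos w).le
  obtain ⟨a1, a2, a3, a4, a5⟩ := hs
  exact ⟨a1.trans hm, a2.trans hm, a3.trans hm, a4.trans hm, a5.trans hm⟩

set_option maxHeartbeats 1000000 in
/-- **`InES` AT `parF`** -/
theorem inES_parF : ∃ κ0 : ℕ, ∀ {P : Prm} {d ε k : ℝ} (q3 : ℝ) {i m : Fin 4} (e e' : Fin 4)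
    {c1 y gS : ℝ} {k0 Kl : ℕ}, Ok0 P → 0 ≤ k → m ≠ 3 → P.gc m ≤ P.Cc m → 0 ≤ P.θ →
    0 < P.θ * P.gc m → 0 ≤ clx P d i → 0 ≤ xxC P i + ffC P i → 0 ≤ (1 + ε) * (P.θ * P.g i) →
    0 < c1 → 0 < y → 9 * y < c1 → 9 ≤ k0 → κ0 + 4 ≤ k0 →
    2 * P.θ + topx P i + 1 ≤ ((Kl : ℝ) - 1) * y →
    4 * clx P d i + (xxC P i + ffC P i) + 4 * P.θ + 2 * (P.θ * P.gc m) ≤
      P.θ * (P.Cc m - P.gc m) →
    P.θ * P.gc m + 2 * ((1 + ε) * (P.θ * P.g i)) ≤ P.θ * (P.Cc m - P.gc m) + 2 * clx P d i →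
    gS ≤ P.θ * P.gc m / 2 - clx P d i - 8 * y →
    ∃ t0 K Ko : ℝ, 0 < t0 ∧ t0 ≤ 1 ∧ 1 ≤ K ∧ 1 ≤ Ko ∧
      InES P d ε k q3 i m e e' c1 gS t0 K
        (parF P c1 y k0 Kl (P.θ * (P.Cc m - P.gc m)) Ko) := by
  obtain ⟨K0, hK0, κ0, hswd⟩ := swd_su
  refine ⟨κ0, ?_⟩
  intro P d ε k q3 i m e e' c1 y gS k0 Kl hP hk hm3 hgC hθ hγ hcl hxf hla hc1 hy h9 hk0 hκ hKl hD1
    hD2 hgS
  set γ := P.θ * P.gc m with hγd
  set D := P.θ * (P.Cc m - P.gc m) with hDd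
  set cl := clx P d i with hcld
  set la := (1 + ε) * (P.θ * P.g i) with hlad
  have hD0 : 0 ≤ D := mul_nonneg hθ (by linarith)
  obtain ⟨Ko, hKo1, herr⟩ := errF P d ε hk q3 i m e e' hc1.le hy.le hk0 Kl hKl
  set p := parF P c1 y k0 Kl D Ko with hp
  set Cm : ℝ := (2 ^ 9 + 1) * 2 ^ 7 * (2 ^ (k0 + 3)) ^ 2 with hCm
  have hCm1 : 1 ≤ Cm := by
    have : (1 : ℝ) ≤ (2 ^ (k0 + 3)) ^ 2 := one_le_pow₀ (one_le_pow₀ (by norm_num))
    rw [hCm]; linarith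
  have hCm0 : 0 < Cm := by linarith
  have hyK : 0 ≤ y * (Kl : ℝ) := mul_nonneg hy.le (Nat.cast_nonneg _)
  set M' : ℝ := 2 * γ + 2 * cl + y * Kl + 2 * P.θ + 5 * y + (xxC P i + ffC P i) + la with hM'
  obtain ⟨KX, hKX1, hgX⟩ := num_gX (γ := γ) (D := D) (cl := cl) (xf := xxC P i + ffC P i)
    (θ := P.θ) (y := y) (Cm := Cm) (M' := M') hγ hcl hy hCm1 hD1 (by linarith)
  obtain ⟨K, hK1, hka⟩ := num_kaS (P := P) (d := d) (ε := ε) (y := y) (gS := gS) (K0 := K0)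
    (KX := KX) (i := i) (m := m) (c1 := c1) hy hK0 (by linarith) hc1.le hD0 hD2 hgS Kl k0
  -- small parameters
  have hc9 : 0 < c1 - 9 * y := by linarith
  have hKo0 : 0 < Ko := by linarith
  set tt : ℝ := (1 / Ko) ^ (1 / (c1 - 9 * y)) with htt
  have htt0 : 0 < tt := Real.rpow_pos_of_pos (by positivity) _
  refine ⟨min (1 / 700) tt, K, Ko, lt_min (by norm_num) htt0,
    (min_le_left _ _).trans (by norm_num), hK1, hKo1, ?_⟩
  intro N B t W I F xy bb E R J Z v n T g al mu es hS ht0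
  have ht := hS.t0
  have ht7 : t ≤ 1 / 700 := ht0.trans (min_le_left _ _)
  have ht1 : t ≤ 1 := ht7.trans (by norm_num)
  have hc0 : 0 < t ^ c1 := pw_pos ht c1
  have hom : p.om t * t ^ c1 ≤ 1 := by
    show Ko * t ^ (-(9 * y)) * t ^ c1 ≤ 1
    rw [mul_assoc, pw_add ht, show -(9 * y) + c1 = c1 - 9 * y by ring]
    have e1 : t ^ (c1 - 9 * y) ≤ tt ^ (c1 - 9 * y) :=
      Real.rpow_le_rpow ht.le (ht0.trans (min_le_right _ _)) hc9.le
    have e2 : tt ^ (c1 - 9 * y) = 1 / Ko := by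
      rw [htt, ← Real.rpow_mul (by positivity), one_div_mul_cancel hc9.ne', Real.rpow_one]
    calc Ko * t ^ (c1 - 9 * y) ≤ Ko * (1 / Ko) := by
          rw [← e2]; exact mul_le_mul_of_nonneg_left e1 hKo0.le
      _ = 1 := by field_simp
  refine ⟨t ^ c1, hc0, fun η hη hηη f hf => ?_⟩
  have hη1 : η ≤ 1 := hηη.trans (Real.rpow_le_one ht.le ht1 hc1.le)
  have hE := herr Ko le_rfl D hS ht7 η hηη f hf
  refine ⟨PsX i T g mu I (LaC P ε i t) (p.kap t) (p.kc t) (p.Kl t) (p.r t) es f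
    (VG R (PhiC P ε i T g mu I t (p.kap t) (p.kc t) (p.Kl t) (p.r t) es) Z η f (t ^ c1)) p.k0
    (p.j0 t) (p.n0 t), hE, fun w hw => ?_⟩
  have hkap : 0 ≤ p.kap t := (pw_pos ht _).le
  have hjk : k0 ≤ p.j0 t := Nat.le_add_right _ _
  have hErG : ErG R (PhiC P ε i T g mu I t (p.kap t) (p.kc t) (p.Kl t) (p.r t) es) Z η f (t ^ c1)
      (PsX i T g mu I (LaC P ε i t) (p.kap t) (p.kc t) (p.Kl t) (p.r t) es f
        (VG R (PhiC P ε i T g mu I t (p.kap t) (p.kc t) (p.Kl t) (p.r t) es) Z η f (t ^ c1)) p.k0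
        (p.j0 t) (p.n0 t)) w w ≤ 1 := by
    refine ek_top ?_
    have h1 := hE w hw
    have hl := (Growth.len_pos w).le
    have h2 : (1 : ℝ) ≤ 2 ^ (p.k0 + 3) := one_le_pow₀ (by norm_num)
    have h3 : 0 ≤ ∑ c', len w * av w (ek Z f (VG R
          (PhiC P ε i T g mu I t (p.kap t) (p.kc t) (p.Kl t) (p.r t) es) Z η f (t ^ c1))
          (PsX i T g mu I (LaC P ε i t) (p.kap t) (p.kc t) (p.Kl t) (p.r t) es f
            (VG R (PhiC P ε i T g mu I t (p.kap t) (p.kc t) (p.Kl t) (p.r t) es) Z η f (t ^ c1))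
            p.k0 (p.j0 t) (p.n0 t)) c' w) ^ 2 :=
      Finset.sum_nonneg fun c' _ => mul_nonneg hl (sq_nonneg _)
    have h4 : p.om t * t ^ c1 * len w ≤ 1 * len w := mul_le_mul_of_nonneg_right hom hl
    nlinarith
  -- the gain of all steps
  set X : ℝ := KX * t ^ (γ / 2 - cl - 4 * y) with hX
  have hX0 : 0 ≤ X := mul_nonneg (by linarith) (pw_pos ht _).le
  have hHrHH : HrS P i t = 2 ^ 7 * 9 * (HfC P i t * HtC P i t) := rfl
  have key := hswd hS hP hk hm3 hgC ht1 hkap hc0 hη1 hom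
    (kc := p.kc t) (Kl := p.Kl t) (k0 := p.k0) (j0 := p.j0 t) (n0 := p.n0 t) (r := p.r t)
    (fun q => (parF_rpos ht q).le) (by show 1 ≤ k0; omega) hjk hf rfl
    (Psi := PsX i T g mu I (LaC P ε i t) (p.kap t) (p.kc t) (p.Kl t) (p.r t) es f
      (VG R (PhiC P ε i T g mu I t (p.kap t) (p.kc t) (p.Kl t) (p.r t) es) Z η f (t ^ c1)) p.k0
      (p.j0 t) (p.n0 t)) rfl rfl hw hErG
    (Θ := ThS Cm M' t) (X := X) (ρ := fun a => roS P.θ y t a) (rr := fun a => rrS P.θ y Cm t a)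
    (Hr := fun _ => HrS P i t) (A := AS cl t) hX0 (mul_nonneg (by norm_num) (pw_pos ht _).le)
    ?_ ?_ ?_ ?_ ?_
  · refine swd_mono ?_ key
    exact hka t ht ht1 X hX0 le_rfl
  · -- `aiS ^ 2 ≤ A`
    unfold aiS AS
    rw [mul_pow, sq (t ^ _), pw_add ht, show -clx P d i + -clx P d i = -(2 * cl) by rw [hcld]; ring]
    have := (pw_pos ht (-(2 * cl))).le
    nlinarith
  · unfold AS
    have := one_le_pw ht ht1 (s := 2 * cl) (by linarith)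
    linarith
  · -- the frame data
    intro c q hq a ha
    refine FrNx717.fcx_su (Psi := PsX i T g mu I (LaC P ε i t) (p.kap t) (p.kc t) (p.Kl t) (p.r t)
      es f (VG R (PhiC P ε i T g mu I t (p.kap t) (p.kc t) (p.Kl t) (p.r t) es) Z η f (t ^ c1))
      p.k0 (p.j0 t) (p.n0 t)) hS hk hkap (fun q => parF_rpos ht q)
      (fun q => parF_mono ht ht1 hy.le q) hη1 hk0 hjk (by omega) hf rfl rfl hw c hq
      (rrS_pos hCm0 ht a) ?_ le_rfl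
    -- the domination constant
    unfold FrMx717.cM
    rw [← hCm, parF_step ht a]
    show Cm * (t ^ (-y) * t ^ (2 * P.θ - y * (a : ℝ))) / (t ^ (2 * P.θ - y * (a : ℝ))) ^ 2 ≤
      (rrS P.θ y Cm t a)⁻¹
    unfold rrS
    have p1 := pw_pos ht (2 * P.θ - y * (a : ℝ))
    have p2 := pw_pos ht y
    rw [Real.rpow_neg ht.le]
    refine le_of_eq ?_
    field_simp
  · intro a ha
    have hM2 : 2 * cl + y * Kl + 2 * P.θ + 5 * y + (xxC P i + ffC P i) +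
        (1 + ε) * (P.θ * P.g i) ≤ M' := by
      rw [hM', ← hlad]
      linarith
    exact numZ (m := m) (cl := cl) (y := y) (Cm := Cm) (M' := M') (Kl := Kl) hθ hγ.le hD0 hcl hxf hla
      hy.le hCm1 hM2 ht ht1 ha
  · intro a ha
    refine hgX t ht ht1 (p.n0 t) (gkS P m t) (dkS P m t) (p.kap t) (HrS P i t) (lev_le hD0 ht ht1)
      ?_ le_rfl ?_ le_rfl hkap le_rfl ?_ ?_ a
    · exact mul_nonneg (by norm_num) (pw_pos ht _).le
    · exact mul_nonneg (by norm_num) (pw_pos ht _).le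
    · unfold HrS
      have := HfC_pos P i ht
      have := HtC_pos P i ht
      positivity
    · unfold HrS
      rw [HH_eq P i ht]
      linarith

end Crest.Agent.R079.NN112
end

-- ▼ part R079/NO_112

/-! R079, T7 (helper112): **`ESF` FOR THE FINAL PARAMETERS AND `S0106`**.

`c1 ≤ θ gc_m / 24`, `9 y ≤ c1 / 2`, `C ≥ 2 x + 75`, `ρ ≤ 1 / 8`, `k0 = max 9 (κ0 + 4)`. -/

set_option autoImplicit false

namespace Crest.Agent.R079.NP112

open Finset Crest.Agent.R079.Grid Crest.Agent.R079.Growth Crest.Agent.R079.QRed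
  Crest.Agent.R079.TWin
open Crest.Agent.R079.TRec Crest.Agent.R079.T6bx252
open Crest.Agent.R079.WS112 Crest.Agent.R079.WS0112 Crest.Agent.R079.POx263
  Crest.Agent.R079.OpS276 Crest.Agent.R079.GnUx263
open Crest.Agent.R079.NJ112 Crest.Agent.R079.NL112 Crest.Agent.R079.NN112
open Crest.Agent.R079.GnEx263 (topx)

/-- **`ESF` for `PF`** -/
theorem esf_PF {x C ρ c : ℝ} (h : Adm4 x C ρ c) (hC : 2 * x + 75 ≤ C) (q3 : ℝ) :
    ESF (PF x C ρ c) q3 (dF C ρ c) := by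
  obtain ⟨κ0, hI⟩ := inES_parF
  intro i m e e' hdd hmi hi3
  have hθ := θ_pos h
  have hx := h.x0
  have hC6 := h.C0
  have hgm : 0 < (PF x C ρ c).gc m := gc_pos h m
  have hgm1 : (PF x C ρ c).gc m ≤ 1 := gc_le h m
  have hgi : 0 < (PF x C ρ c).gc i := gc_pos h i
  have hgi1 : (PF x C ρ c).gc i ≤ 1 := gc_le h i
  have hcl := clx_le h hmi hi3
  have hd0 := dF_pos h
  have hρ1 := h.ρ1
  set P := PF x C ρ c with hP
  set θ := P.θ with hθd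
  set γ := θ * P.gc m with hγ
  have hγ0 : 0 < γ := mul_pos hθ hgm
  have hγθ : γ ≤ θ := by
    rw [hγ]; nlinarith
  set cl := clx P (dF C ρ c) i with hcld
  have hcl0 : 0 ≤ cl := by
    have : 0 < θ * P.gc i := mul_pos hθ hgi
    show 0 ≤ 2 * (P.θ * P.gc i) + dF C ρ c
    linarith
  have hclγ : cl ≤ 3 / 8 * γ := hcl.trans (mul_le_mul_of_nonneg_right (by linarith) hγ0.le)
  have hm3 : m ≠ 3 := by
    intro hm
    subst hm
    have : (3 : Fin 4) < i := hmi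
    revert this
    fin_cases i <;> decide
  have hxf : xxC P i + ffC P i = θ * (2 * x + 56) := by
    show 2 * (P.θ * (x + 2 * 1 + 12 * 1)) + 2 * (P.θ * (2 * 1 + 12 * 1)) = _
    rw [← hθd]
    ring
  have hxf0 : 0 ≤ xxC P i + ffC P i := by
    rw [hxf]
    exact mul_nonneg hθ.le (by linarith)
  have hgP : P.g i = 1 := rfl
  have hCc : P.Cc m = C := rfl
  have hgC : P.gc m ≤ P.Cc m := by rw [hCc]; linarith
  have hDge : θ * (C - 1) ≤ θ * (P.Cc m - P.gc m) := by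
    rw [hCc]
    exact mul_le_mul_of_nonneg_left (by linarith) hθ.le
  have hC75 : θ * (2 * x + 74) ≤ θ * (C - 1) := mul_le_mul_of_nonneg_left (by linarith) hθ.le
  have hC5 : θ * 5 ≤ θ * (C - 1) := mul_le_mul_of_nonneg_left (by linarith) hθ.le
  refine ⟨γ / 24, by positivity, fun c1 hc1 hc1m => ⟨9, c1 / 18, by norm_num, by positivity,
    fun y hy hyy => ⟨1, one_pos, fun ε hε hεε => ⟨1, one_pos, fun k hk hkk => ?_⟩⟩⟩⟩
  set k0 : ℕ := max 9 (κ0 + 4) with hk0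
  set Kl : ℕ := ⌈(2 * P.θ + topx P i + 1) / y⌉₊ + 1 with hKl
  have hKly : 2 * P.θ + topx P i + 1 ≤ ((Kl : ℝ) - 1) * y := by
    have h1 := Nat.le_ceil ((2 * P.θ + topx P i + 1) / y)
    have h2 : ((Kl : ℝ) - 1) = (⌈(2 * P.θ + topx P i + 1) / y⌉₊ : ℝ) := by
      rw [hKl]; push_cast; ring
    rw [h2]
    rwa [div_le_iff₀ hy] at h1
  have hla : (1 + ε) * (P.θ * P.g i) = (1 + ε) * θ := by rw [hgP, mul_one]
  have hla0 : 0 ≤ (1 + ε) * (P.θ * P.g i) := by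
    rw [hla]; positivity
  have hla2 : (1 + ε) * (P.θ * P.g i) ≤ 2 * θ := by
    rw [hla]
    exact mul_le_mul_of_nonneg_right (by linarith) hθ.le
  obtain ⟨t0, K, Ko, ht0, ht01, hK, hKo, hES⟩ := hI (P := P) (d := dF C ρ c) (ε := ε) (k := k) q3
    (i := i) (m := m) e e' (c1 := c1) (y := y) (gS := 2 * c1 + y) (k0 := k0) (Kl := Kl)
    (ok_PF h) hk.le hm3 hgC hθ.le hγ0 hcl0 hxf0 hla0 hc1 hy (by linarith) (le_max_left _ _)
    (le_max_right _ _) hKly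
    (by
      rw [hxf]
      have : 4 * cl + θ * (2 * x + 56) + 4 * P.θ + 2 * (P.θ * P.gc m) ≤ θ * (2 * x + 74) := by
        rw [← hθd, ← hγ]
        nlinarith
      linarith)
    (by
      rw [← hθd, ← hγ] at *
      linarith)
    (by
      rw [← hθd, ← hγ]
      linarith)
  refine ⟨t0, max K Ko, parF P c1 y k0 Kl (P.θ * (P.Cc m - P.gc m)) Ko, 7, ht0, ht01,
    le_max_of_le_left hK, parF_ok (le_trans (by norm_num) (le_max_left _ _)) (by linarith),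
    fun t => rfl, fun t _ _ => rfl, fun t _ _ => Nat.succ_pos _, fun t _ _ => parF_r0,
    fun t ht _ => ?_, inES_mono (le_max_left _ _) hES⟩
  exact mul_le_mul_of_nonneg_right (le_max_right _ _) (Real.rpow_nonneg ht.le _)

/-- **THE TARGET** -/
theorem target_closed : L0.Target := by
  refine target_of_ESF ⟨1, fun x hx => ⟨1 / 8, by norm_num, fun ρ hρ hρρ => ⟨1, one_pos,
    fun c hc hcc => ⟨2 * x + 75, fun C hC q3 hq3 hA => esf_PF hA hC q3⟩⟩⟩⟩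

end Crest.Agent.R079.NP112
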