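import Crest.Agent.R079.NrU_259
import Crest.Agent.R079.NrA_228
import Crest.Agent.R079.NrB_228
import Crest.Agent.R079.NrS_248

-- ▼ part R079/NrW_259
section

/-! R079, notes 1820 / 1922 (T3), helper259: STAGE 1 in the singular value form of NrA_228.

`A` on `S × T` (`S ⊆ dI m a`, `T ⊆ dI m b`) with `SvC A S T s Y X`, `B` the glued leaf clip at threshold
`r`, `A1` the alive tiles, `y1 k = avg .. (X k)`, `x1 k = avgc .. (Y k)`, `Gd = ∑ max (s k - ρ) 0 * dfc`.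
* `bfX`, `bfY` : Bessel families; `dfc_ext` : the deficit as a sum over the cell;
* `row_err`, `col_err` : `∑ |Y k - y1 k|² ≤ 2 / (θ ρ) dfc k`;
* `E1`, `E2` : `∑ k, d k² ∑ |Y k - y1 k|² ≤ 2 (r' - r) / (θ r) Gd`;
* `E3r`, `E3c` : energy of the step on edge rows / columns. -/

set_option autoImplicit false

namespace Crest.Agent.R079.NrWx259

open Finset Crest.Agent.R079.Grid Crest.Agent.R079.NrMx259 Crest.Agent.R079.NrTx259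
  Crest.Agent.R079.NrUx259 Crest.Agent.R079.NrAx228
open Crest.Agent.R079.ClW59 (OpS)

open scoped ComplexConjugate

variable {m : ℕ} {a b : ℤ} {Ti A1 : Finset (ℕ × ℤ × ℤ)} {A B : ℤ → ℤ → ℂ} {S T : Finset ℤ}
  {s : ℤ → ℝ} {Y X : ℤ → ℤ → ℂ} {r r' θ : ℝ}

lemma X_off (H : SvC A S T s Y X) (k : ℤ) {v : ℤ} (hv : v ∉ T) : X k v = 0 :=
  H.x0 k v fun h => hv h.2

lemma Y_off (H : SvC A S T s Y X) (k : ℤ) {u : ℤ} (hu : u ∉ S) : Y k u = 0 :=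
  H.y0 k u fun h => hu h.2

/-- right singular vectors -/
theorem bfX (H : SvC A S T s Y X) (hT : T ⊆ dI m b) : BF T (dI m b) X 1 := by
  refine bf_of_ortho (z := fun _ => True) fun k hk l hl => ?_
  have h1 := H.ox k hk l hl
  rw [← Finset.sum_subset hT (f := fun v => conj (X k v) * X l v)
    (fun v _ hv => by rw [X_off H k hv]; simp), h1]
  simp

/-- left singular vectors -/
theorem bfY (H : SvC A S T s Y X) (hS : S ⊆ dI m a) : BF T (dI m a) Y 1 := by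
  classical
  refine bf_of_ortho (z := fun k => 0 < s k) fun k hk l hl => ?_
  have h1 := H.oy k l
  rw [← Finset.sum_subset hS (f := fun u => conj (Y k u) * Y l u)
    (fun u _ hu => by rw [Y_off H k hu]; simp), h1]

/-- the deficit as a sum over the cell -/
theorem dfc_ext (H : SvC A S T s Y X) (hS : S ⊆ dI m a) (hT : T ⊆ dI m b) (ρ : ℝ) (k : ℤ) :
    dfc B S T Y X ρ k =
      ρ - (∑ u ∈ dI m a, ∑ v ∈ dI m b, conj (Y k u) * (B u v * X k v)).re := by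
  have h1 : pr B S T (Y k) (X k) =
      ∑ u ∈ dI m a, ∑ v ∈ dI m b, conj (Y k u) * (B u v * X k v) := by
    unfold pr
    rw [← Finset.sum_subset hS (f := fun u => ∑ v ∈ dI m b, conj (Y k u) * (B u v * X k v))
      (fun u _ hu => by simp [Y_off H k hu])]
    refine Finset.sum_congr rfl fun u _ => ?_
    rw [← Finset.sum_subset hT (f := fun v => conj (Y k u) * (B u v * X k v))
      (fun v _ hv => by simp [X_off H k hv])]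
    exact Finset.sum_congr rfl fun v _ => by ring
  unfold pr at h1
  unfold dfc
  rw [h1]

lemma sum_Y_ext (H : SvC A S T s Y X) (hS : S ⊆ dI m a) (k : ℤ) :
    ∑ u ∈ dI m a, ‖Y k u‖ ^ 2 ≤ 1 := by
  rw [← Finset.sum_subset hS (f := fun u => ‖Y k u‖ ^ 2)
    (fun u _ hu => by rw [Y_off H k hu]; simp)]
  exact H.nY_le k

lemma sum_X_ext (H : SvC A S T s Y X) (hT : T ⊆ dI m b) (k : ℤ) :
    ∑ v ∈ dI m b, ‖X k v‖ ^ 2 ≤ 1 := by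
  rw [← Finset.sum_subset hT (f := fun v => ‖X k v‖ ^ 2)
    (fun v _ hv => by rw [X_off H k hv]; simp)]
  exact H.nX_le k

/-- Lemma A bound by the deficit -/
lemma two_le (H : SvC A S T s Y X) (hS : S ⊆ dI m a) (hT : T ⊆ dI m b) (hr : 0 < r) (k : ℤ) :
    ∑ u ∈ dI m a, ‖Y k u‖ ^ 2 + ∑ v ∈ dI m b, ‖X k v‖ ^ 2 -
        2 / (r * 2 ^ m) * (∑ u ∈ dI m a, ∑ v ∈ dI m b, conj (Y k u) * (B u v * X k v)).re ≤
      2 / (r * 2 ^ m) * dfc B S T Y X (r * 2 ^ m) k := by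
  rw [dfc_ext H hS hT]
  have h1 := sum_Y_ext H hS k
  have h2 := sum_X_ext H hT k
  have h3 : (0 : ℝ) < r * 2 ^ m := by positivity
  have e : 2 / (r * 2 ^ m) * (r * 2 ^ m - (∑ u ∈ dI m a, ∑ v ∈ dI m b,
      conj (Y k u) * (B u v * X k v)).re) = 2 - 2 / (r * 2 ^ m) *
      (∑ u ∈ dI m a, ∑ v ∈ dI m b, conj (Y k u) * (B u v * X k v)).re := by
    rw [mul_sub, div_mul_cancel₀ _ h3.ne']
  rw [e]
  linarith

/-- Lemma A, deficit form, rows -/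
theorem lemA_dfc (h : Tlg m a b Ti) (hr : 0 < r)
    (hop : ∀ c ∈ Ti, OpS (Rw c) (Cl c) B (r * 2 ^ c.1)) (H : SvC A S T s Y X) (hS : S ⊆ dI m a)
    (hT : T ⊆ dI m b) (k : ℤ) :
    ∑ u ∈ dI m a, ∑ c ∈ Ti.filter (fun c => u ∈ Rw c), (2 : ℝ) ^ c.1 / 2 ^ m *
        ‖Y k u - mc B r (X k) c u‖ ^ 2 ≤ 2 / (r * 2 ^ m) * dfc B S T Y X (r * 2 ^ m) k :=
  (lemA h hr hop (Y k) (X k)).trans (two_le H hS hT hr k)

/-- Lemma A, deficit form, columns -/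
theorem lemA_col_dfc (h : Tlg m a b Ti) (hr : 0 < r)
    (hop : ∀ c ∈ Ti, OpS (Rw c) (Cl c) B (r * 2 ^ c.1)) (H : SvC A S T s Y X) (hS : S ⊆ dI m a)
    (hT : T ⊆ dI m b) (k : ℤ) :
    ∑ v ∈ dI m b, ∑ c ∈ Ti.filter (fun c => v ∈ Cl c), (2 : ℝ) ^ c.1 / 2 ^ m *
        ‖X k v - mcc B r (Y k) c v‖ ^ 2 ≤ 2 / (r * 2 ^ m) * dfc B S T Y X (r * 2 ^ m) k :=
  (lemA_col h hr hop (Y k) (X k)).trans (two_le H hS hT hr k)

/-- the deficit is nonnegative -/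
theorem dfc_nn (h : Tlg m a b Ti) (hr : 0 < r)
    (hop : ∀ c ∈ Ti, OpS (Rw c) (Cl c) B (r * 2 ^ c.1)) (H : SvC A S T s Y X) (hS : S ⊆ dI m a)
    (hT : T ⊆ dI m b) (k : ℤ) : 0 ≤ dfc B S T Y X (r * 2 ^ m) k := by
  rw [dfc_ext H hS hT]
  exact defi_nn h hr hop (sum_Y_ext H hS k) (sum_X_ext H hT k)

/-- **stage 1, rows** -/
theorem row_err (h : Tlg m a b Ti) (hA : A1 ⊆ Ti) (hr : 0 < r) (hθ : 0 < θ)
    (hop : ∀ c ∈ Ti, OpS (Rw c) (Cl c) B (r * 2 ^ c.1)) (H : SvC A S T s Y X) (hS : S ⊆ dI m a)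
    (hT : T ⊆ dI m b) {I : Finset ℤ} (hI : I ⊆ dI m a) (hw : ∀ u ∈ I, θ * 2 ^ m ≤ wt A1 u) (k : ℤ) :
    ∑ u ∈ I, ‖Y k u - avg m b A1 B r (X k) u‖ ^ 2 ≤
      2 / (θ * (r * 2 ^ m)) * dfc B S T Y X (r * 2 ^ m) k := by
  refine (y1_err h hA hr hθ hop (Y k) (X k) hI hw).trans
    ((mul_le_mul_of_nonneg_left (two_le H hS hT hr k) (by positivity)).trans (le_of_eq ?_))
  rw [← mul_assoc]
  congr 1
  field_simp

/-- **stage 1, columns** -/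
theorem col_err (h : Tlg m a b Ti) (hA : A1 ⊆ Ti) (hr : 0 < r) (hθ : 0 < θ)
    (hop : ∀ c ∈ Ti, OpS (Rw c) (Cl c) B (r * 2 ^ c.1)) (H : SvC A S T s Y X) (hS : S ⊆ dI m a)
    (hT : T ⊆ dI m b) {J : Finset ℤ} (hJ : J ⊆ dI m b) (hw : ∀ v ∈ J, θ * 2 ^ m ≤ wtc A1 v)
    (k : ℤ) :
    ∑ v ∈ J, ‖X k v - avgc m a A1 B r (Y k) v‖ ^ 2 ≤
      2 / (θ * (r * 2 ^ m)) * dfc B S T Y X (r * 2 ^ m) k := by
  refine (x1_err h hA hr hθ hop (Y k) (X k) hJ hw).trans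
    ((mul_le_mul_of_nonneg_left (two_le H hS hT hr k) (by positivity)).trans (le_of_eq ?_))
  rw [← mul_assoc]
  congr 1
  field_simp

/-- total deficiency of a cell and a threshold -/
noncomputable def Gd (B : ℤ → ℤ → ℂ) (S T : Finset ℤ) (Y X : ℤ → ℤ → ℂ) (s : ℤ → ℝ) (ρ : ℝ) : ℝ :=
  ∑ k ∈ T, max (s k - ρ) 0 * dfc B S T Y X ρ k

/-- weights of the step against anything bounded by the deficit -/
theorem step_sum {ρ ρ' M : ℝ} (hρ : ρ ≤ ρ') (hM : 0 ≤ M) {E : ℤ → ℝ}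
    (hd : ∀ k ∈ T, 0 ≤ dfc B S T Y X ρ k)
    (hE : ∀ k ∈ T, E k ≤ M * dfc B S T Y X ρ k) :
    ∑ k ∈ T, dk s ρ ρ' k ^ 2 * E k ≤ M * (ρ' - ρ) * Gd B S T Y X s ρ := by
  unfold Gd
  rw [Finset.mul_sum]
  refine Finset.sum_le_sum fun k hk => ?_
  have h1 := dk_sq (s := s) hρ k
  have h2 := mul_le_mul_of_nonneg_left (hE k hk) (sq_nonneg (dk s ρ ρ' k))
  have h3 : 0 ≤ M * dfc B S T Y X ρ k := mul_nonneg hM (hd k hk)
  have h4 := mul_le_mul_of_nonneg_right h1 h3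
  calc dk s ρ ρ' k ^ 2 * E k ≤ dk s ρ ρ' k ^ 2 * (M * dfc B S T Y X ρ k) := h2
    _ ≤ (ρ' - ρ) * max (s k - ρ) 0 * (M * dfc B S T Y X ρ k) := h4
    _ = _ := by ring

/-- **E1** : weighted error of the rows -/
theorem E1 (h : Tlg m a b Ti) (hA : A1 ⊆ Ti) (hr : 0 < r) (hrr : r ≤ r') (hθ : 0 < θ)
    (hop : ∀ c ∈ Ti, OpS (Rw c) (Cl c) B (r * 2 ^ c.1)) (H : SvC A S T s Y X) (hS : S ⊆ dI m a)
    (hT : T ⊆ dI m b) {I : Finset ℤ} (hI : I ⊆ dI m a) (hw : ∀ u ∈ I, θ * 2 ^ m ≤ wt A1 u) :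
    ∑ k ∈ T, dk s (r * 2 ^ m) (r' * 2 ^ m) k ^ 2 *
        ∑ u ∈ I, ‖Y k u - avg m b A1 B r (X k) u‖ ^ 2 ≤
      2 * (r' - r) / (θ * r) * Gd B S T Y X s (r * 2 ^ m) := by
  have h1 := step_sum (s := s) (T := T) (B := B) (S := S) (Y := Y) (X := X)
    (ρ := r * 2 ^ m) (ρ' := r' * 2 ^ m) (M := 2 / (θ * (r * 2 ^ m)))
    (mul_le_mul_of_nonneg_right hrr (by positivity)) (by positivity)
    (fun k _ => dfc_nn h hr hop H hS hT k) (fun k _ => row_err h hA hr hθ hop H hS hT hI hw k)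
  refine h1.trans (le_of_eq ?_)
  congr 1
  field_simp

/-- **E2** : weighted error of the columns -/
theorem E2 (h : Tlg m a b Ti) (hA : A1 ⊆ Ti) (hr : 0 < r) (hrr : r ≤ r') (hθ : 0 < θ)
    (hop : ∀ c ∈ Ti, OpS (Rw c) (Cl c) B (r * 2 ^ c.1)) (H : SvC A S T s Y X) (hS : S ⊆ dI m a)
    (hT : T ⊆ dI m b) {J : Finset ℤ} (hJ : J ⊆ dI m b) (hw : ∀ v ∈ J, θ * 2 ^ m ≤ wtc A1 v) :
    ∑ k ∈ T, dk s (r * 2 ^ m) (r' * 2 ^ m) k ^ 2 *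
        ∑ v ∈ J, ‖X k v - avgc m a A1 B r (Y k) v‖ ^ 2 ≤
      2 * (r' - r) / (θ * r) * Gd B S T Y X s (r * 2 ^ m) := by
  have h1 := step_sum (s := s) (T := T) (B := B) (S := S) (Y := Y) (X := X)
    (ρ := r * 2 ^ m) (ρ' := r' * 2 ^ m) (M := 2 / (θ * (r * 2 ^ m)))
    (mul_le_mul_of_nonneg_right hrr (by positivity)) (by positivity)
    (fun k _ => dfc_nn h hr hop H hS hT k) (fun k _ => col_err h hA hr hθ hop H hS hT hJ hw k)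
  refine h1.trans (le_of_eq ?_)
  congr 1
  field_simp

/-- weighted Lemma A, rows: all tiles (for stage 2) -/
theorem EA (h : Tlg m a b Ti) (hr : 0 < r) (hrr : r ≤ r')
    (hop : ∀ c ∈ Ti, OpS (Rw c) (Cl c) B (r * 2 ^ c.1)) (H : SvC A S T s Y X) (hS : S ⊆ dI m a)
    (hT : T ⊆ dI m b) :
    ∑ k ∈ T, dk s (r * 2 ^ m) (r' * 2 ^ m) k ^ 2 * ∑ u ∈ dI m a,
        ∑ c ∈ Ti.filter (fun c => u ∈ Rw c), (2 : ℝ) ^ c.1 / 2 ^ m *
          ‖Y k u - mc B r (X k) c u‖ ^ 2 ≤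
      2 * (r' - r) / r * Gd B S T Y X s (r * 2 ^ m) := by
  have h1 := step_sum (s := s) (T := T) (B := B) (S := S) (Y := Y) (X := X)
    (ρ := r * 2 ^ m) (ρ' := r' * 2 ^ m) (M := 2 / (r * 2 ^ m))
    (mul_le_mul_of_nonneg_right hrr (by positivity)) (by positivity)
    (fun k _ => dfc_nn h hr hop H hS hT k) (fun k _ => lemA_dfc h hr hop H hS hT k)
  refine h1.trans (le_of_eq ?_)
  congr 1
  field_simp

/-- weighted Lemma A, columns -/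
theorem EAc (h : Tlg m a b Ti) (hr : 0 < r) (hrr : r ≤ r')
    (hop : ∀ c ∈ Ti, OpS (Rw c) (Cl c) B (r * 2 ^ c.1)) (H : SvC A S T s Y X) (hS : S ⊆ dI m a)
    (hT : T ⊆ dI m b) :
    ∑ k ∈ T, dk s (r * 2 ^ m) (r' * 2 ^ m) k ^ 2 * ∑ v ∈ dI m b,
        ∑ c ∈ Ti.filter (fun c => v ∈ Cl c), (2 : ℝ) ^ c.1 / 2 ^ m *
          ‖X k v - mcc B r (Y k) c v‖ ^ 2 ≤
      2 * (r' - r) / r * Gd B S T Y X s (r * 2 ^ m) := by
  have h1 := step_sum (s := s) (T := T) (B := B) (S := S) (Y := Y) (X := X)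
    (ρ := r * 2 ^ m) (ρ' := r' * 2 ^ m) (M := 2 / (r * 2 ^ m))
    (mul_le_mul_of_nonneg_right hrr (by positivity)) (by positivity)
    (fun k _ => dfc_nn h hr hop H hS hT k) (fun k _ => lemA_col_dfc h hr hop H hS hT k)
  refine h1.trans (le_of_eq ?_)
  congr 1
  field_simp



lemma two_sq (x y : ℂ) : ‖x‖ ^ 2 ≤ 2 * ‖x - y‖ ^ 2 + 2 * ‖y‖ ^ 2 := by
  have h1 : ‖x‖ ≤ ‖x - y‖ + ‖y‖ := by
    have := norm_add_le (x - y) y
    rwa [sub_add_cancel] at this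
  nlinarith [norm_nonneg x, norm_nonneg (x - y), norm_nonneg y, sq_nonneg (‖x - y‖ - ‖y‖)]

/-- **edge rows** : energy of the step on the rows `I` -/
theorem E3r (H : SvC A S T s Y X) {I : Finset ℤ} (d : ℤ → ℝ) {y1 : ℤ → ℤ → ℂ} {b1 : ℝ}
    (hy : BF T I y1 b1) :
    ∑ u ∈ I, ∑ v ∈ T, ‖∑ k ∈ T, (d k : ℂ) * Y k u * conj (X k v)‖ ^ 2 ≤
      2 * ∑ k ∈ T, d k ^ 2 * ∑ u ∈ I, ‖Y k u - y1 k u‖ ^ 2 + 2 * (b1 * ∑ k ∈ T, d k ^ 2) := by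
  have h1 := H.hsX I fun k u => (d k : ℂ) * Y k u
  rw [h1]
  have h2 := hy.trace d
  rw [Finset.sum_comm] at h2
  refine le_trans ?_ (add_le_add_right (mul_le_mul_of_nonneg_left h2 (by norm_num)) _)
  rw [Finset.mul_sum, Finset.mul_sum, ← Finset.sum_add_distrib]
  refine Finset.sum_le_sum fun k _ => ?_
  rw [Finset.mul_sum, Finset.mul_sum, Finset.mul_sum, ← Finset.sum_add_distrib]
  refine Finset.sum_le_sum fun u _ => ?_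
  rw [norm_mul, Complex.norm_real, mul_pow, Real.norm_eq_abs, sq_abs]
  have h3 := mul_le_mul_of_nonneg_left (two_sq (Y k u) (y1 k u)) (sq_nonneg (d k))
  linarith

/-- **edge columns** -/
theorem E3c (H : SvC A S T s Y X) {J : Finset ℤ} (d : ℤ → ℝ) {x1 : ℤ → ℤ → ℂ} {b1 : ℝ}
    (hx : BF T J x1 b1) :
    ∑ u ∈ S, ∑ v ∈ J, ‖∑ k ∈ T, (d k : ℂ) * Y k u * conj (X k v)‖ ^ 2 ≤
      2 * ∑ k ∈ T, d k ^ 2 * ∑ v ∈ J, ‖X k v - x1 k v‖ ^ 2 + 2 * (b1 * ∑ k ∈ T, d k ^ 2) := by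
  have h1 := H.hsY J fun k v => (d k : ℂ) * conj (X k v)
  have e1 : ∑ u ∈ S, ∑ v ∈ J, ‖∑ k ∈ T, (d k : ℂ) * Y k u * conj (X k v)‖ ^ 2 =
      ∑ u ∈ S, ∑ v ∈ J, ‖∑ k ∈ T, Y k u * ((d k : ℂ) * conj (X k v))‖ ^ 2 := by
    refine Finset.sum_congr rfl fun u _ => Finset.sum_congr rfl fun v _ => ?_
    congr 2
    exact Finset.sum_congr rfl fun k _ => by ring
  rw [e1]
  refine h1.trans ?_
  have h2 := hx.trace d
  rw [Finset.sum_comm] at h2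
  refine le_trans ?_ (add_le_add_right (mul_le_mul_of_nonneg_left h2 (by norm_num)) _)
  rw [Finset.mul_sum, Finset.mul_sum, ← Finset.sum_add_distrib]
  refine Finset.sum_le_sum fun k _ => ?_
  rw [Finset.mul_sum, Finset.mul_sum, Finset.mul_sum, ← Finset.sum_add_distrib]
  refine Finset.sum_le_sum fun u _ => ?_
  rw [norm_mul, Complex.norm_real, mul_pow, Real.norm_eq_abs, sq_abs, RCLike.norm_conj]
  have h3 := mul_le_mul_of_nonneg_left (two_sq (X k u) (x1 k u)) (sq_nonneg (d k))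
  linarith

end Crest.Agent.R079.NrWx259
end

-- ▼ part R079/NrC_228

/-! # R079 (S0106), T3 (helper228): geometry of one cell (`CG`) and the edge strips. -/

set_option autoImplicit false

namespace Crest.Agent.R079.NrCx228

open Finset Crest.Agent.R079.Grid Crest.Agent.R079.Growth Crest.Agent.R079.QRed
  Crest.Agent.R079.Qh249 Crest.Agent.R079.QVar181 Crest.Agent.R079.TWin
open Crest.Agent.R079.ClW59 (OpS cl)
open Crest.Agent.R079.NrTx259 Crest.Agent.R079.NrUx259 Crest.Agent.R079.NrWx259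
  Crest.Agent.R079.NrAx228 Crest.Agent.R079.NrBx228

open scoped ComplexConjugate

/-- geometry of one cell: tiles, alive tiles `E1`, grid nodes `Q` with strips `P q` and alive tiles
`E2 q`; `2^l` = level of the grid -/
structure CG {β : Type} (m : ℕ) (a b : ℤ) (Ti E1 : Finset (ℕ × ℤ × ℤ)) (Q : Finset β)
    (E2 : β → Finset (ℕ × ℤ × ℤ)) (P : β → ℤ → ℤ → Prop) (l kc : ℕ) (θ : ℝ) : Prop where
  tl : Tlg m a b Ti
  E1s : E1 ⊆ Ti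
  E1l : ∀ c ∈ E1, c.1 ≤ l + kc
  E1r : ∀ u ∈ dI m a, θ * 2 ^ m ≤ wt E1 u
  E1c : ∀ v ∈ dI m b, θ * 2 ^ m ≤ wtc E1 v
  E2s : ∀ q ∈ Q, E2 q ⊆ Ti
  E2d : ∀ q ∈ Q, ∀ q' ∈ Q, ∀ c, c ∈ E2 q → c ∈ E2 q' → q = q'
  E2P : ∀ q ∈ Q, ∀ c ∈ E2 q, ∀ u ∈ Rw c, ∀ v ∈ Cl c, P q u v
  Pd : ∀ q ∈ Q, ∀ q' ∈ Q, ∀ u v, P q u v → P q' u v → q = q'
  Pr : ∀ q ∈ Q, ∀ u v v', P q u v → P q u v' → |v - v'| ≤ 2 ^ (l + 7)
  Pc : ∀ q ∈ Q, ∀ u u' v, P q u v → P q u' v → |u - u'| ≤ 2 ^ (l + 7)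
  inR : ∀ q ∈ Q, ∀ u ∈ dI m a, ∀ v ∈ dI m b, P q u v → b * 2 ^ m + 2 ^ (l + 7) ≤ v →
    v + 2 ^ (l + 7) < (b + 1) * 2 ^ m → (2 : ℝ) ^ l ≤ wt (E2 q) u
  inC : ∀ q ∈ Q, ∀ u ∈ dI m a, ∀ v ∈ dI m b, P q u v → a * 2 ^ m + 2 ^ (l + 7) ≤ u →
    u + 2 ^ (l + 7) < (a + 1) * 2 ^ m → (2 : ℝ) ^ l ≤ wtc (E2 q) v
  cd : (Q.card : ℝ) * 2 ^ l ≤ 2 * 2 ^ m

/-- the two edge strips of `dI m a` -/
noncomputable def edg (m : ℕ) (a : ℤ) (L : ℕ) : Finset ℤ :=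
  (dI m a).filter (fun u => u < a * 2 ^ m + 2 ^ L ∨ (a + 1) * 2 ^ m ≤ u + 2 ^ L)

lemma edg_split (m : ℕ) (a : ℤ) (L : ℕ) : edg m a L =
    (dI m a ∩ Finset.Ico (a * 2 ^ m) (a * 2 ^ m + 2 ^ L)) ∪
      (dI m a ∩ Finset.Ico ((a + 1) * 2 ^ m - 2 ^ L) ((a + 1) * 2 ^ m)) := by
  ext u
  unfold edg dI
  simp only [Finset.mem_filter, Finset.mem_union, Finset.mem_inter, Finset.mem_Ico]
  constructor
  · rintro ⟨⟨h1, h2⟩, h3 | h3⟩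
    · exact Or.inl ⟨⟨h1, h2⟩, h1, h3⟩
    · exact Or.inr ⟨⟨h1, h2⟩, by linarith, h2⟩
  · rintro (⟨⟨h1, h2⟩, h3, h4⟩ | ⟨⟨h1, h2⟩, h3, h4⟩)
    · exact ⟨⟨h1, h2⟩, Or.inl h4⟩
    · exact ⟨⟨h1, h2⟩, Or.inr (by linarith)⟩

section edges

variable {β : Type} {m : ℕ} {a b : ℤ} {Ti E1 : Finset (ℕ × ℤ × ℤ)} {Q : Finset β}
  {E2 : β → Finset (ℕ × ℤ × ℤ)} {P : β → ℤ → ℤ → Prop} {l kc : ℕ} {θ : ℝ}
  {A B : ℤ → ℤ → ℂ} {S T : Finset ℤ} {s : ℤ → ℝ} {Y X : ℤ → ℤ → ℂ} {r r' : ℝ}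

/-- spread on an interval, rows -/
theorem bf_y1 (G : CG m a b Ti E1 Q E2 P l kc θ) (hr : 0 < r) (hθ : 0 < θ)
    (hop : ∀ c ∈ Ti, OpS (Rw c) (Cl c) B (r * 2 ^ c.1)) (H : SvC A S T s Y X) (hT : T ⊆ dI m b)
    {I : Finset ℤ} (hI : I ⊆ dI m a) {x y : ℤ} {N : ℕ} (hN : y - x ≤ N * 2 ^ l)
    (hIxy : I ⊆ Finset.Ico x y) :
    BF T I (y1 m b E1 B r X) ((N + 1) * (2 ^ (l + kc) / 2 ^ m / θ ^ 2)) := by
  have h1 := y1_BF_iv (κ := ℤ) (T := T) (X := X) (l := l + kc) (s1 := 1) (N := N) G.tl G.E1s hr hθ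
    (fun c hc => hop c (G.E1s hc)) G.E1l zero_le_one (bfX H hT)
    (hN.trans (mul_le_mul_of_nonneg_left (pow_le_pow_right₀ (by norm_num) (by omega))
      (by positivity))) hIxy (fun u hu => G.E1r u (hI hu))
  rw [one_mul] at h1
  exact h1

/-- spread on an interval, columns -/
theorem bf_x1 (G : CG m a b Ti E1 Q E2 P l kc θ) (hr : 0 < r) (hθ : 0 < θ)
    (hop : ∀ c ∈ Ti, OpS (Rw c) (Cl c) B (r * 2 ^ c.1)) (H : SvC A S T s Y X) (hS : S ⊆ dI m a)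
    {J : Finset ℤ} (hJ : J ⊆ dI m b) {x y : ℤ} {N : ℕ} (hN : y - x ≤ N * 2 ^ l)
    (hJxy : J ⊆ Finset.Ico x y) :
    BF T J (x1 m a E1 B r Y) ((N + 1) * (2 ^ (l + kc) / 2 ^ m / θ ^ 2)) := by
  have h1 := x1_BF_iv (κ := ℤ) (T := T) (Y := Y) (l := l + kc) (s1 := 1) (N := N) G.tl G.E1s hr hθ
    (fun c hc => hop c (G.E1s hc)) G.E1l zero_le_one (bfY H hS)
    (hN.trans (mul_le_mul_of_nonneg_left (pow_le_pow_right₀ (by norm_num) (by omega))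
      (by positivity))) hJxy (fun u hu => G.E1c u (hJ hu))
  rw [one_mul] at h1
  exact h1

/-- the constant of the spread on the edges -/
noncomputable def be (m l kc : ℕ) (θ : ℝ) : ℝ := 2 * ((2 ^ 7 + 1) * (2 ^ (l + kc) / 2 ^ m / θ ^ 2))

lemma BF.union {κ : Type*} {T : Finset κ} {I J : Finset ℤ} {V : κ → ℤ → ℂ} {b1 b2 : ℝ}
    (h1 : BF T I V b1) (h2 : BF T J V b2) : BF T (I ∪ J) V (b1 + b2) := by
  classical
  intro c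
  have h3 := Finset.sum_union_inter (s₁ := I) (s₂ := J) (f := fun v => ‖∑ k ∈ T, c k * V k v‖ ^ 2)
  have h4 : 0 ≤ ∑ v ∈ I ∩ J, ‖∑ k ∈ T, c k * V k v‖ ^ 2 := Finset.sum_nonneg fun _ _ => sq_nonneg _
  have h5 := h1 c
  have h6 := h2 c
  rw [add_mul]
  linarith

theorem bf_edgR (G : CG m a b Ti E1 Q E2 P l kc θ) (hr : 0 < r) (hθ : 0 < θ)
    (hop : ∀ c ∈ Ti, OpS (Rw c) (Cl c) B (r * 2 ^ c.1)) (H : SvC A S T s Y X) (hT : T ⊆ dI m b) :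
    BF T (edg m a (l + 7)) (y1 m b E1 B r X) (be m l kc θ) := by
  classical
  rw [edg_split]
  have e : be m l kc θ = (((2 ^ 7 : ℕ) : ℝ) + 1) * (2 ^ (l + kc) / 2 ^ m / θ ^ 2) +
      (((2 ^ 7 : ℕ) : ℝ) + 1) * (2 ^ (l + kc) / 2 ^ m / θ ^ 2) := by
    unfold be; push_cast; ring
  rw [e]
  refine BF.union (bf_y1 G hr hθ hop H hT Finset.inter_subset_left (x := a * 2 ^ m)
    (y := a * 2 ^ m + 2 ^ (l + 7)) ?_ Finset.inter_subset_right)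
    (bf_y1 G hr hθ hop H hT Finset.inter_subset_left (x := (a + 1) * 2 ^ m - 2 ^ (l + 7))
    (y := (a + 1) * 2 ^ m) ?_ Finset.inter_subset_right)
  · push_cast; rw [pow_add]; ring_nf; rfl
  · push_cast; rw [pow_add]; ring_nf; rfl

theorem bf_edgC (G : CG m a b Ti E1 Q E2 P l kc θ) (hr : 0 < r) (hθ : 0 < θ)
    (hop : ∀ c ∈ Ti, OpS (Rw c) (Cl c) B (r * 2 ^ c.1)) (H : SvC A S T s Y X) (hS : S ⊆ dI m a) :
    BF T (edg m b (l + 7)) (x1 m a E1 B r Y) (be m l kc θ) := by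
  classical
  rw [edg_split]
  have e : be m l kc θ = (((2 ^ 7 : ℕ) : ℝ) + 1) * (2 ^ (l + kc) / 2 ^ m / θ ^ 2) +
      (((2 ^ 7 : ℕ) : ℝ) + 1) * (2 ^ (l + kc) / 2 ^ m / θ ^ 2) := by
    unfold be; push_cast; ring
  rw [e]
  refine BF.union (bf_x1 G hr hθ hop H hS Finset.inter_subset_left (x := b * 2 ^ m)
    (y := b * 2 ^ m + 2 ^ (l + 7)) ?_ Finset.inter_subset_right)
    (bf_x1 G hr hθ hop H hS Finset.inter_subset_left (x := (b + 1) * 2 ^ m - 2 ^ (l + 7))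
    (y := (b + 1) * 2 ^ m) ?_ Finset.inter_subset_right)
  · push_cast; rw [pow_add]; ring_nf; rfl
  · push_cast; rw [pow_add]; ring_nf; rfl

/-- **the edges**: energy of the step on the edge rows and the edge columns -/
theorem edges (G : CG m a b Ti E1 Q E2 P l kc θ) (hr : 0 < r) (hrr : r ≤ r') (hθ : 0 < θ)
    (hop : ∀ c ∈ Ti, OpS (Rw c) (Cl c) B (r * 2 ^ c.1)) (H : SvC A S T s Y X) (hS : S ⊆ dI m a)
    (hT : T ⊆ dI m b) :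
    ∑ u ∈ edg m a (l + 7), ∑ v ∈ T, ‖∑ k ∈ T, (dk s (r * 2 ^ m) (r' * 2 ^ m) k : ℂ) * Y k u *
        conj (X k v)‖ ^ 2 +
      ∑ u ∈ S, ∑ v ∈ edg m b (l + 7), ‖∑ k ∈ T, (dk s (r * 2 ^ m) (r' * 2 ^ m) k : ℂ) * Y k u *
        conj (X k v)‖ ^ 2 ≤
      4 * (2 * (r' - r) / (θ * r) * Gd B S T Y X s (r * 2 ^ m)) +
        4 * (be m l kc θ * ∑ k ∈ T, dk s (r * 2 ^ m) (r' * 2 ^ m) k ^ 2) := by
  have hs1 : edg m a (l + 7) ⊆ dI m a := Finset.filter_subset _ _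
  have hs2 : edg m b (l + 7) ⊆ dI m b := Finset.filter_subset _ _
  have h1 := E3r H (dk s (r * 2 ^ m) (r' * 2 ^ m)) (bf_edgR G hr hθ hop H hT)
  have h2 := E3c H (dk s (r * 2 ^ m) (r' * 2 ^ m)) (bf_edgC G hr hθ hop H hS)
  have h3 := NrWx259.E1 G.tl G.E1s hr hrr hθ hop H hS hT hs1 (fun u hu => G.E1r u (hs1 hu))
  have h4 := NrWx259.E2 G.tl G.E1s hr hrr hθ hop H hS hT hs2 (fun u hu => G.E1c u (hs2 hu))
  unfold y1 at h1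
  unfold x1 at h2
  linarith

end edges

end Crest.Agent.R079.NrCx228
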