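import Crest.Agent.R079.OpS_276

-- ▼ part R079/OpSw_276
section

/-! R079 (helper276): **SWAP OF THE SPECIAL VERTEX for op-atoms with `L¹` weight** (copy of
`OLevSw_127.isOp_swap` for the class `SD` of `OpS_276`): the projected atoms of the three types coincide up
to `≤ 324` unit atoms of the same side, with the SAME theta cap and the SAME fibre cap. -/

set_option autoImplicit false

namespace Crest.Agent.R079.OpS276

open Finset Crest.Agent.R079.Grid Crest.Agent.R079.Glue Crest.Agent.R079.Growth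
  Crest.Agent.R079.QRed Crest.Agent.R079.R244 Crest.Agent.R079.TFrz679 Crest.Agent.R079.Dic679
  Crest.Agent.R079.OpLev Crest.Agent.R079.DicOp679 Crest.Agent.R079.OLevSw

theorem ext_cap {n : ℕ} {w q : ℤ} {U : Fin n → Fin n → ℂ} {α : Fin n → ℝ} {Hf : ℝ} (hHf : 0 ≤ Hf)
    (hα : ∀ c, 0 ≤ α c) (h : ∀ c i, ‖U c i‖ ^ 2 ≤ Hf * α c) (x z : ℤ) :
    ‖OLevSw.ext n w q U x z‖ ^ 2 ≤ Hf * exa n w α x := by
  by_cases hx : (0 ≤ x - w ∧ x - w < n) ∧ (0 ≤ z - q ∧ z - q < n)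
  · have h1 : OLevSw.ext n w q U x z = U ⟨(x - w).toNat, by omega⟩ ⟨(z - q).toNat, by omega⟩ := by
      unfold OLevSw.ext
      rw [dif_pos hx]
    have h2 : exa n w α x = α ⟨(x - w).toNat, by omega⟩ := by
      unfold exa
      rw [dif_pos hx.1]
    rw [h1, h2]
    exact h _ _
  · have h1 : OLevSw.ext n w q U x z = 0 := by
      unfold OLevSw.ext
      rw [dif_neg hx]
    rw [h1]
    have := exa_nonneg (w := w) hα x
    rw [norm_zero, zero_pow two_ne_zero]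
    exact mul_nonneg hHf this

theorem exa_le {n : ℕ} {w : ℤ} {α : Fin n → ℝ} {H : ℝ} (hH : 0 ≤ H) (h : ∀ c, α c ≤ H) (x : ℤ) :
    exa n w α x ≤ H := by
  unfold exa
  split_ifs
  · exact h _
  · exact hH

theorem sum_exa_le1 {n : ℕ} {w : ℤ} {α : Fin n → ℝ} {C : ℝ} (hα : ∀ c, 0 ≤ α c)
    (hs : ∑ c, α c ≤ C) (S : Finset ℤ) : ∑ z ∈ S, exa n w α z ≤ C := by
  classical
  have h1 : ∑ z ∈ S, exa n w α z ≤ ∑ z ∈ Ico w (w + n), exa n w α z := by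
    rw [← Finset.sum_filter_add_sum_filter_not S (fun z => z ∈ Ico w (w + n))]
    have h2 : ∑ z ∈ S.filter (fun z => ¬ z ∈ Ico w (w + n)), exa n w α z = 0 := by
      refine Finset.sum_eq_zero fun z hz => ?_
      have h3 := (Finset.mem_filter.1 hz).2
      rw [Finset.mem_Ico] at h3
      unfold exa
      rw [dif_neg]
      rintro h5
      exact h3 (by omega)
    rw [h2, add_zero]
    refine Finset.sum_le_sum_of_subset_of_nonneg ?_ fun z _ _ => exa_nonneg hα z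
    intro z hz
    exact (Finset.mem_filter.1 hz).2
  refine h1.trans ?_
  rw [OLevSw.sum_Ico_fin]
  simp only [exa_val]
  exact hs

/-- the two ends of the gauge edge -/
theorem isOpS_sym {k j e e' : Fin 4} {n : ℕ} {Ht Hf : ℝ} {φ : ℤ → ℂ}
    (h : IsOpS k j e e' n Ht Hf φ) : IsOpS k j e' e n Ht Hf φ := by
  obtain ⟨w, q, u, m, U, V, α, hD, rfl⟩ := h
  refine ⟨w, u, q, fun z z' => m z' z, V, U, α, ⟨fun z z' => hD.m1 z' z, hD.α0, hD.V2, hD.U2,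
    hD.α1, hD.αH, hD.VH, hD.UH⟩, ?_⟩
  funext y
  unfold opA
  refine Finset.sum_congr rfl fun c _ => ?_
  rw [Finset.sum_comm]
  refine Finset.sum_congr rfl fun i' _ => Finset.sum_congr rfl fun i _ => ?_
  have e1 : (sl j - sl k) * (w + ((c : ℕ) : ℤ)) + (sl e - sl k) * (q + ((i : ℕ) : ℤ)) +
      (sl e' - sl k) * (u + ((i' : ℕ) : ℤ)) = (sl j - sl k) * (w + ((c : ℕ) : ℤ)) +
      (sl e' - sl k) * (u + ((i' : ℕ) : ℤ)) + (sl e - sl k) * (q + ((i : ℕ) : ℤ)) := by ring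
  rw [e1]
  refine if_congr Iff.rfl ?_ rfl
  ring

/-- **`swap`: special vertex `j` ↔ special vertex `e`** -/
theorem isOpS_swap {k j e e' : Fin 4} (hjk : j ≠ k) (hek : e ≠ k) {n : ℕ} (hn : 0 < n)
    {Ht Hf : ℝ} (hHf : 0 ≤ Hf) {φ : ℤ → ℂ} (h : IsOpS k j e e' n Ht Hf φ) :
    ∃ ψ : (Fin 3 × Fin 3) × (Fin 6 × Fin 6) → ℤ → ℂ,
      (∀ t, IsOpS k e j e' n Ht Hf (ψ t)) ∧ φ = fun y => ∑ t, ψ t y := by
  classical
  obtain ⟨w, q, u, m, U, V, α, hD, rfl⟩ := h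
  have hHt : 0 ≤ Ht := hD.Ht0 hn
  obtain ⟨hm, hα, hU, hV, hs, hαH, hUH, hVH⟩ := hD
  have ha := OLevSw.sl_ne hjk
  have hb := OLevSw.sl_ne hek
  have ha3 := OLevSw.sl_bd j k
  have hb3 := OLevSw.sl_bd e k
  set a := sl j - sl k with hadef
  set b := sl e - sl k with hbdef
  set d := sl e' - sl k with hddef
  obtain ⟨w', hw'⟩ := img_mem a b ha hb hb3 q n hn
  obtain ⟨q', hq'⟩ := img_mem b a hb ha ha3 w n hn
  set UZ := OLevSw.ext n w q U with hUZ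
  set VZ := OLevSw.ext n w u V with hVZ
  set αZ := exa n w α with hαZ
  -- conditions
  let cd : (Fin 3 × Fin 3) → ℤ → ℤ → Prop := fun t x z =>
    (x % b = ((t.1 : ℕ) : ℤ) ∧ z % a = ((t.2 : ℕ) : ℤ)) ∧
      (fe b a ((t.2 : ℕ) : ℤ) ((t.1 : ℕ) : ℤ) z ∈ Ico w (w + n) ∧
        fe a b ((t.1 : ℕ) : ℤ) ((t.2 : ℕ) : ℤ) x ∈ Ico q (q + n))
  let ex : (Fin 3 × Fin 3) → ℤ → ℤ := fun t z => fe b a ((t.2 : ℕ) : ℤ) ((t.1 : ℕ) : ℤ) z
  let ez : (Fin 3 × Fin 3) → ℤ → ℤ := fun t x => fe a b ((t.1 : ℕ) : ℤ) ((t.2 : ℕ) : ℤ) x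
  let X0 : (Fin 3 × Fin 3) × (Fin 6 × Fin 6) → ℤ := fun t => w' + ((t.2.1 : ℕ) : ℤ) * n
  let Z0 : (Fin 3 × Fin 3) × (Fin 6 × Fin 6) → ℤ := fun t => q' + ((t.2.2 : ℕ) : ℤ) * n
  let m' : (Fin 3 × Fin 3) × (Fin 6 × Fin 6) → ℤ → ℤ → ℂ := fun t x v => m (ez t.1 x) v
  let U' : (Fin 3 × Fin 3) × (Fin 6 × Fin 6) → Fin n → Fin n → ℂ := fun t c i =>
    if cd t.1 (X0 t + ((i : ℕ) : ℤ)) (Z0 t + ((c : ℕ) : ℤ)) then
      UZ (ex t.1 (Z0 t + ((c : ℕ) : ℤ))) (ez t.1 (X0 t + ((i : ℕ) : ℤ))) else 0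
  let V' : (Fin 3 × Fin 3) × (Fin 6 × Fin 6) → Fin n → Fin n → ℂ := fun t c i =>
    if (Z0 t + ((c : ℕ) : ℤ)) % a = ((t.1.2 : ℕ) : ℤ) then
      VZ (ex t.1 (Z0 t + ((c : ℕ) : ℤ))) (u + ((i : ℕ) : ℤ)) else 0
  let α' : (Fin 3 × Fin 3) × (Fin 6 × Fin 6) → Fin n → ℝ := fun t c =>
    if (Z0 t + ((c : ℕ) : ℤ)) % a = ((t.1.2 : ℕ) : ℤ) then
      αZ (ex t.1 (Z0 t + ((c : ℕ) : ℤ))) else 0
  refine ⟨fun t => opA k e j e' n (Z0 t) (X0 t) u (m' t) (U' t) (V' t), ?_, ?_⟩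
  · intro t
    refine ⟨Z0 t, X0 t, u, m' t, U' t, V' t, α' t,
      ⟨fun z z' => hm _ _, ?_, ?_, ?_, ?_, ?_, ?_, ?_⟩, rfl⟩
    · intro c
      show 0 ≤ ite _ _ _
      split_ifs
      · exact exa_nonneg hα _
      · exact le_rfl
    · intro c
      by_cases hc : (Z0 t + ((c : ℕ) : ℤ)) % a = ((t.1.2 : ℕ) : ℤ)
      · have h1 : α' t c = αZ (ex t.1 (Z0 t + ((c : ℕ) : ℤ))) := if_pos hc
        rw [h1]
        have h2 : ∀ i, ‖U' t c i‖ ^ 2 ≤ if (X0 t + ((i : ℕ) : ℤ)) % b = ((t.1.1 : ℕ) : ℤ) then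
            ‖UZ (ex t.1 (Z0 t + ((c : ℕ) : ℤ))) (ez t.1 (X0 t + ((i : ℕ) : ℤ)))‖ ^ 2 else 0 := by
          intro i
          show ‖ite _ _ _‖ ^ 2 ≤ _
          split_ifs with h3 h4 h4
          · exact le_rfl
          · exact absurd h3.1.1 h4
          · rw [norm_zero, zero_pow two_ne_zero]; positivity
          · simp
        refine (Finset.sum_le_sum fun i _ => h2 i).trans ?_
        refine sum_if_le (fun i : Fin n => (X0 t + ((i : ℕ) : ℤ)) % b = ((t.1.1 : ℕ) : ℤ))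
          (fun i => ez t.1 (X0 t + ((i : ℕ) : ℤ))) ?_
          (fun z => ‖UZ (ex t.1 (Z0 t + ((c : ℕ) : ℤ))) z‖ ^ 2) _ ?_
        · intro i i' h3 h4 h5
          have h6 := fe_inj ha hb h3 h4 h5
          have h7 : ((i : ℕ) : ℤ) = ((i' : ℕ) : ℤ) := by linarith
          exact Fin.ext (by exact_mod_cast h7)
        · intro S
          exact sum_ext_le hα hU _ S
      · have h1 : α' t c = 0 := if_neg hc
        rw [h1]
        have h2 : ∀ i, U' t c i = 0 := by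
          intro i
          refine if_neg ?_
          rintro ⟨⟨-, h3⟩, -⟩
          exact hc h3
        simp [h2]
    · intro c
      by_cases hc : (Z0 t + ((c : ℕ) : ℤ)) % a = ((t.1.2 : ℕ) : ℤ)
      · have h1 : α' t c = αZ (ex t.1 (Z0 t + ((c : ℕ) : ℤ))) := if_pos hc
        rw [h1]
        have h2 : ∀ i, ‖V' t c i‖ ^ 2 =
            ‖VZ (ex t.1 (Z0 t + ((c : ℕ) : ℤ))) (u + ((i : ℕ) : ℤ))‖ ^ 2 := by
          intro i
          have : V' t c i = VZ (ex t.1 (Z0 t + ((c : ℕ) : ℤ))) (u + ((i : ℕ) : ℤ)) := if_pos hc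
          rw [this]
        rw [Finset.sum_congr rfl fun i _ => h2 i]
        have h3 := sum_ext_le (w := w) (q := u) hα hV (ex t.1 (Z0 t + ((c : ℕ) : ℤ)))
          (Ico u (u + n))
        rw [OLevSw.sum_Ico_fin] at h3
        exact h3
      · have h1 : α' t c = 0 := if_neg hc
        rw [h1]
        have h2 : ∀ i, V' t c i = 0 := fun i => if_neg hc
        simp [h2]
    · refine sum_if_le (fun c : Fin n => (Z0 t + ((c : ℕ) : ℤ)) % a = ((t.1.2 : ℕ) : ℤ))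
        (fun c => ex t.1 (Z0 t + ((c : ℕ) : ℤ))) ?_ (fun z => αZ z) _ ?_
      · intro i i' h3 h4 h5
        have h6 := fe_inj hb ha h3 h4 h5
        have h7 : ((i : ℕ) : ℤ) = ((i' : ℕ) : ℤ) := by linarith
        exact Fin.ext (by exact_mod_cast h7)
      · intro S
        exact sum_exa_le1 hα hs S
    · intro c
      show ite _ _ _ ≤ Ht
      split_ifs
      · exact exa_le hHt hαH _
      · exact hHt
    · intro c i
      by_cases hc : (Z0 t + ((c : ℕ) : ℤ)) % a = ((t.1.2 : ℕ) : ℤ)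
      · have h1 : α' t c = αZ (ex t.1 (Z0 t + ((c : ℕ) : ℤ))) := if_pos hc
        rw [h1]
        show ‖ite _ _ _‖ ^ 2 ≤ _
        split_ifs
        · exact ext_cap hHf hα hUH _ _
        · have := exa_nonneg (w := w) hα (ex t.1 (Z0 t + ((c : ℕ) : ℤ)))
          rw [norm_zero, zero_pow two_ne_zero]
          exact mul_nonneg hHf this
      · have h1 : α' t c = 0 := if_neg hc
        have h2 : U' t c i = 0 := by
          refine if_neg ?_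
          rintro ⟨⟨-, h3⟩, -⟩
          exact hc h3
        rw [h1, h2]; simp
    · intro c i
      by_cases hc : (Z0 t + ((c : ℕ) : ℤ)) % a = ((t.1.2 : ℕ) : ℤ)
      · have h1 : α' t c = αZ (ex t.1 (Z0 t + ((c : ℕ) : ℤ))) := if_pos hc
        have h2 : V' t c i = VZ (ex t.1 (Z0 t + ((c : ℕ) : ℤ))) (u + ((i : ℕ) : ℤ)) := if_pos hc
        rw [h1, h2]
        exact ext_cap hHf hα hVH _ _
      · have h1 : α' t c = 0 := if_neg hc
        have h2 : V' t c i = 0 := if_neg hc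
        rw [h1, h2]; simp
  · funext y
    -- left side over integer boxes
    let G : ℤ → ℤ → ℤ → ℂ := fun T x z => ∑ v ∈ Ico u (u + n),
      if T + d * v = y then m z v * UZ x z * VZ x v else 0
    have hL : opA k j e e' n w q u m U V y =
        ∑ x ∈ Ico w (w + n), ∑ z ∈ Ico q (q + n), G (a * x + b * z) x z := by
      unfold opA
      rw [OLevSw.sum_Ico_fin]
      refine Finset.sum_congr rfl fun c _ => ?_
      rw [OLevSw.sum_Ico_fin]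
      refine Finset.sum_congr rfl fun i _ => ?_
      show _ = ∑ v ∈ Ico u (u + n), _
      rw [OLevSw.sum_Ico_fin]
      refine Finset.sum_congr rfl fun i' _ => ?_
      rw [hUZ, hVZ, OLevSw.ext_val, OLevSw.ext_val]
    rw [hL, swap_sum a b ha hb ha3 hb3 (Ico w (w + n)) (Ico q (q + n))
      (Ico w' (w' + (6 : ℕ) * n)) (Ico q' (q' + (6 : ℕ) * n))
      (fun x _ z hz => hw' x z hz) (fun x hx z _ => hq' z x hx) G]
    rw [Fintype.sum_prod_type, Fintype.sum_prod_type]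
    refine Finset.sum_congr rfl fun r _ => Finset.sum_congr rfl fun s _ => ?_
    rw [sum_Ico_blocks, Fintype.sum_prod_type]
    refine Finset.sum_congr rfl fun s1 _ => ?_
    have e1 : ∀ x : ℤ, (∑ z ∈ Ico q' (q' + (6 : ℕ) * n),
        if (x % b = ((r : ℕ) : ℤ) ∧ z % a = ((s : ℕ) : ℤ)) ∧
            (fe b a ((s : ℕ) : ℤ) ((r : ℕ) : ℤ) z ∈ Ico w (w + n) ∧
              fe a b ((r : ℕ) : ℤ) ((s : ℕ) : ℤ) x ∈ Ico q (q + n)) then
          G (a * x + b * z) (fe b a ((s : ℕ) : ℤ) ((r : ℕ) : ℤ) z)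
            (fe a b ((r : ℕ) : ℤ) ((s : ℕ) : ℤ) x) else 0) =
        ∑ s2 : Fin 6, ∑ z ∈ Ico (q' + ((s2 : ℕ) : ℤ) * n) (q' + ((s2 : ℕ) : ℤ) * n + n),
        if (x % b = ((r : ℕ) : ℤ) ∧ z % a = ((s : ℕ) : ℤ)) ∧
            (fe b a ((s : ℕ) : ℤ) ((r : ℕ) : ℤ) z ∈ Ico w (w + n) ∧
              fe a b ((r : ℕ) : ℤ) ((s : ℕ) : ℤ) x ∈ Ico q (q + n)) then
          G (a * x + b * z) (fe b a ((s : ℕ) : ℤ) ((r : ℕ) : ℤ) z)
            (fe a b ((r : ℕ) : ℤ) ((s : ℕ) : ℤ) x) else 0 := fun x => sum_Ico_blocks _ _ _ _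
    rw [Finset.sum_congr rfl fun x _ => e1 x, Finset.sum_comm]
    refine Finset.sum_congr rfl fun s2 _ => ?_
    rw [Finset.sum_comm, OLevSw.sum_Ico_fin]
    unfold opA
    refine Finset.sum_congr rfl fun c _ => ?_
    rw [OLevSw.sum_Ico_fin]
    refine Finset.sum_congr rfl fun i _ => ?_
    by_cases hcd : cd (r, s) (X0 ((r, s), (s1, s2)) + ((i : ℕ) : ℤ))
        (Z0 ((r, s), (s1, s2)) + ((c : ℕ) : ℤ))
    · have hU1 : U' ((r, s), (s1, s2)) c i =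
          UZ (ex (r, s) (Z0 ((r, s), (s1, s2)) + ((c : ℕ) : ℤ)))
            (ez (r, s) (X0 ((r, s), (s1, s2)) + ((i : ℕ) : ℤ))) := if_pos hcd
      rw [if_pos hcd]
      show (∑ v ∈ Ico u (u + n), _) = _
      rw [OLevSw.sum_Ico_fin]
      refine Finset.sum_congr rfl fun i' _ => ?_
      have hV1 : V' ((r, s), (s1, s2)) c i' =
          VZ (ex (r, s) (Z0 ((r, s), (s1, s2)) + ((c : ℕ) : ℤ))) (u + ((i' : ℕ) : ℤ)) :=
        if_pos hcd.1.2
      rw [hU1, hV1]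
      refine if_congr ?_ rfl rfl
      rw [← hadef, ← hbdef, ← hddef]
      constructor <;> intro h9 <;> rw [← h9] <;> ring
    · have hU1 : U' ((r, s), (s1, s2)) c i = 0 := if_neg hcd
      rw [if_neg hcd]
      symm
      refine Finset.sum_eq_zero fun i' _ => ?_
      rw [hU1]
      simp

/-- any vertex may be made special; the mass is multiplied by at most `324` -/
theorem isOpS_any {k j e e' : Fin 4} (hjk : j ≠ k) (hek : e ≠ k) (hek' : e' ≠ k) (hje : j ≠ e)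
    (hje' : j ≠ e') (hee : e ≠ e') {n : ℕ} (hn : 0 < n) {Ht Hf : ℝ} (hH0 : 0 ≤ Hf) {φ : ℤ → ℂ}
    (h : IsOpS k j e e' n Ht Hf φ) (j1 e1 e2 : Fin 4) (h1 : j1 ≠ k) (h2 : e1 ≠ k) (h3 : e2 ≠ k)
    (h12 : j1 ≠ e1) (h13 : j1 ≠ e2) (h23 : e1 ≠ e2) :
    ∃ (N : ℕ) (ψ : Fin N → ℤ → ℂ), N ≤ 324 ∧ (∀ t, IsOpS k j1 e1 e2 n Ht Hf (ψ t)) ∧
      φ = fun y => ∑ t, ψ t y := by
  classical
  -- the order of the last two indices is irrelevant
  have hsym : ∀ φ' : ℤ → ℂ, ∀ x y : Fin 4, x ≠ k → y ≠ k → x ≠ j1 → y ≠ j1 → x ≠ y →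
      IsOpS k j1 x y n Ht Hf φ' → IsOpS k j1 e1 e2 n Ht Hf φ' := by
    intro φ' x y hx hy hx1 hy1 hxy h'
    have hc : (x = e1 ∧ y = e2) ∨ (x = e2 ∧ y = e1) := by
      revert hx hy hx1 hy1 hxy h1 h2 h3 h12 h13 h23
      clear h' h hjk hek hek' hje hje' hee hn hH0
      revert x y j1 e1 e2 k
      decide
    rcases hc with ⟨rfl, rfl⟩ | ⟨rfl, rfl⟩
    · exact h'
    · exact isOpS_sym h'
  have hj : j1 = j ∨ j1 = e ∨ j1 = e' := by
    revert hjk hek hek' hje hje' hee h1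
    clear h h2 h3 h12 h13 h23 hsym
    revert k j e e' j1
    decide
  have fin : ∀ ψ : (Fin 3 × Fin 3) × (Fin 6 × Fin 6) → ℤ → ℂ,
      (∀ t, IsOpS k j1 e1 e2 n Ht Hf (ψ t)) → (φ = fun y => ∑ t, ψ t y) →
      ∃ (N : ℕ) (ψ : Fin N → ℤ → ℂ), N ≤ 324 ∧ (∀ t, IsOpS k j1 e1 e2 n Ht Hf (ψ t)) ∧
        φ = fun y => ∑ t, ψ t y := by
    intro ψ hψ hφ
    let eq := Fintype.equivFin ((Fin 3 × Fin 3) × (Fin 6 × Fin 6))
    refine ⟨Fintype.card ((Fin 3 × Fin 3) × (Fin 6 × Fin 6)), fun i => ψ (eq.symm i), ?_,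
      fun t => hψ _, ?_⟩
    · simp
    · rw [hφ]
      funext y
      exact (Equiv.sum_comp eq.symm (fun t => ψ t y)).symm
  rcases hj with rfl | rfl | rfl
  · refine ⟨1, fun _ => φ, by norm_num, fun _ => ?_, by simp⟩
    exact hsym φ e e' hek hek' (Ne.symm hje) (Ne.symm hje') hee h
  · obtain ⟨ψ, hψ, hφ⟩ := isOpS_swap hjk hek hn hH0 h
    exact fin ψ (fun t => hsym _ j e' hjk hek' hje (Ne.symm hee) hje' (hψ t)) hφ
  · obtain ⟨ψ, hψ, hφ⟩ := isOpS_swap hjk hek' hn hH0 (isOpS_sym h)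
    exact fin ψ (fun t => hsym _ j e hjk hek hje' hee hje (hψ t)) hφ

end Crest.Agent.R079.OpS276
end

-- ▼ part R079/OpSr_276

/-! R079 (helper276): **RESTRICTION OF OP-ATOMS WITH `L¹` WEIGHT TO BOXES OF SMALLER SIDE** (882 (1)).

`restr_opS`: a unit atom of side `n` divided by `n²` is, on a node `J` with `len J ≤ 128 N`, `N ≤ n`, a
combination `Σ μ_l ψ_l / N²` of unit atoms of side `N` with `Σ μ_l ≤ 959`; ALL CAPS ARE HEREDITARY:
`Ht' = (Hf + 1) Ht + 1`, `Hf' = Hf`.  (New weight `((a + α + 1)(b + α + 1))^(1/2)`, `a, b` = box averages of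
the sections, balanced sections; `+ α` keeps the fibre cap, `+ 1` keeps the theta cap relative to the mass
of the box.)
`emb_opS`: a unit atom of side `n ≤ N` divided by `n²` is a unit atom of side `N` divided by `N²` with both
caps multiplied by `N / n`. -/

set_option autoImplicit false

namespace Crest.Agent.R079.OpS276

open Finset Crest.Agent.R079.Grid Crest.Agent.R079.Glue Crest.Agent.R079.Growth
  Crest.Agent.R079.QRed Crest.Agent.R079.R244 Crest.Agent.R079.TFrz679 Crest.Agent.R079.Dic679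
  Crest.Agent.R079.OpLev Crest.Agent.R079.DicOp679 Crest.Agent.R079.OLevSw

/-! ### extension by zero outside -/

theorem ext_out1 {n : ℕ} {w q : ℤ} {U : Fin n → Fin n → ℂ} {x z : ℤ}
    (h : ¬ (0 ≤ x - w ∧ x - w < n)) : OLevSw.ext n w q U x z = 0 := by
  unfold OLevSw.ext; rw [dif_neg]; rintro ⟨h1, -⟩; exact h h1

theorem ext_out2 {n : ℕ} {w q : ℤ} {U : Fin n → Fin n → ℂ} {x z : ℤ}
    (h : ¬ (0 ≤ z - q ∧ z - q < n)) : OLevSw.ext n w q U x z = 0 := by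
  unfold OLevSw.ext; rw [dif_neg]; rintro ⟨-, h1⟩; exact h h1

theorem sum_Ico_big {M : Type*} [AddCommMonoid M] (w : ℤ) (n N S : ℕ) (hS : n ≤ S * N) (f : ℤ → M)
    (hf : ∀ x, ¬ (0 ≤ x - w ∧ x - w < n) → f x = 0) :
    ∑ x ∈ Ico w (w + n), f x = ∑ s : Fin S, ∑ c : Fin N, f (w + ((s : ℕ) : ℤ) * N + ((c : ℕ) : ℤ)) := by
  have h1 : ∑ x ∈ Ico w (w + n), f x = ∑ x ∈ Ico w (w + S * N), f x := by
    refine Finset.sum_subset ?_ ?_
    · intro x hx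
      rw [Finset.mem_Ico] at hx ⊢
      have : (n : ℤ) ≤ S * N := by exact_mod_cast hS
      omega
    · intro x _ hx
      refine hf x fun hh => hx ?_
      rw [Finset.mem_Ico]; omega
  rw [h1, sum_Ico_blocks]
  refine Finset.sum_congr rfl fun s _ => ?_
  rw [OLevSw.sum_Ico_fin]

/-- sub-box sections -/
noncomputable def sub2 (n : ℕ) (w q : ℤ) (U : Fin n → Fin n → ℂ) (N : ℕ) (w' q' : ℤ)
    (c i : Fin N) : ℂ := OLevSw.ext n w q U (w' + ((c : ℕ) : ℤ)) (q' + ((i : ℕ) : ℤ))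

/-- decomposition of an atom into boxes of side `N` -/
theorem opA_blocks (k j e e' : Fin 4) (n N S : ℕ) (hS : n ≤ S * N) (w q u : ℤ) (m : ℤ → ℤ → ℂ)
    (U V : Fin n → Fin n → ℂ) (y : ℤ) :
    opA k j e e' n w q u m U V y = ∑ s : Fin S, ∑ r : Fin S, ∑ v : Fin S,
      opA k j e e' N (w + ((s : ℕ) : ℤ) * N) (q + ((r : ℕ) : ℤ) * N) (u + ((v : ℕ) : ℤ) * N) m
        (sub2 n w q U N (w + ((s : ℕ) : ℤ) * N) (q + ((r : ℕ) : ℤ) * N))
        (sub2 n w u V N (w + ((s : ℕ) : ℤ) * N) (u + ((v : ℕ) : ℤ) * N)) y := by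
  set a := sl j - sl k with ha
  set b := sl e - sl k with hb
  set d := sl e' - sl k with hd
  let G : ℤ → ℤ → ℤ → ℂ := fun x z v => if a * x + b * z + d * v = y then
    m z v * OLevSw.ext n w q U x z * OLevSw.ext n w u V x v else 0
  have hL : opA k j e e' n w q u m U V y =
      ∑ x ∈ Ico w (w + n), ∑ z ∈ Ico q (q + n), ∑ v ∈ Ico u (u + n), G x z v := by
    unfold opA
    rw [OLevSw.sum_Ico_fin]
    refine Finset.sum_congr rfl fun c _ => ?_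
    rw [OLevSw.sum_Ico_fin]
    refine Finset.sum_congr rfl fun i _ => ?_
    rw [OLevSw.sum_Ico_fin]
    refine Finset.sum_congr rfl fun i' _ => ?_
    show _ = ite _ _ _
    rw [OLevSw.ext_val, OLevSw.ext_val]
  have hG3 : ∀ x z v, ¬ (0 ≤ v - u ∧ v - u < n) → G x z v = 0 := by
    intro x z v h
    show ite _ _ _ = _
    rw [ext_out2 (U := V) h]; simp
  have hG2 : ∀ x z v, ¬ (0 ≤ z - q ∧ z - q < n) → G x z v = 0 := by
    intro x z v h
    show ite _ _ _ = _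
    rw [ext_out2 (U := U) h]; simp
  have hG1 : ∀ x z v, ¬ (0 ≤ x - w ∧ x - w < n) → G x z v = 0 := by
    intro x z v h
    show ite _ _ _ = _
    rw [ext_out1 (U := U) h]; simp
  rw [hL, sum_Ico_big w n N S hS _ (fun x h => Finset.sum_eq_zero fun z _ =>
    Finset.sum_eq_zero fun v _ => hG1 x z v h)]
  refine Finset.sum_congr rfl fun s _ => ?_
  have e1 : ∀ x : ℤ, ∑ z ∈ Ico q (q + n), ∑ v ∈ Ico u (u + n), G x z v =
      ∑ r : Fin S, ∑ i : Fin N, ∑ v : Fin S, ∑ i' : Fin N,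
        G x (q + ((r : ℕ) : ℤ) * N + ((i : ℕ) : ℤ)) (u + ((v : ℕ) : ℤ) * N + ((i' : ℕ) : ℤ)) := by
    intro x
    rw [sum_Ico_big q n N S hS _ (fun z h => Finset.sum_eq_zero fun v _ => hG2 x z v h)]
    refine Finset.sum_congr rfl fun r _ => Finset.sum_congr rfl fun i _ => ?_
    rw [sum_Ico_big u n N S hS _ (fun v h => hG3 _ _ v h)]
  rw [Finset.sum_congr rfl fun c _ => e1 _]
  rw [Finset.sum_comm]
  refine Finset.sum_congr rfl fun r _ => ?_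
  have e2 : ∀ c : Fin N, (∑ i : Fin N, ∑ v : Fin S, ∑ i' : Fin N,
        G (w + ((s : ℕ) : ℤ) * N + ((c : ℕ) : ℤ)) (q + ((r : ℕ) : ℤ) * N + ((i : ℕ) : ℤ))
          (u + ((v : ℕ) : ℤ) * N + ((i' : ℕ) : ℤ))) = ∑ v : Fin S, ∑ i : Fin N, ∑ i' : Fin N,
        G (w + ((s : ℕ) : ℤ) * N + ((c : ℕ) : ℤ)) (q + ((r : ℕ) : ℤ) * N + ((i : ℕ) : ℤ))
          (u + ((v : ℕ) : ℤ) * N + ((i' : ℕ) : ℤ)) := fun c => Finset.sum_comm
  rw [Finset.sum_congr rfl fun c _ => e2 c, Finset.sum_comm]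
  refine Finset.sum_congr rfl fun v _ => ?_
  rfl

/-! ### one box -/

section box

variable {N : ℕ} {Hf Ht : ℝ}

/-- the balanced data of one box: sections `U, V` with a weight `α` dominating the fibres -/
theorem box_unit (hN : 0 < N) {m : ℤ → ℤ → ℂ} (hm : ∀ z z', ‖m z z'‖ ≤ 1)
    {U V : Fin N → Fin N → ℂ} {α : Fin N → ℝ} (hα : ∀ c, 0 ≤ α c) (hHf : 0 ≤ Hf)
    (hαH : ∀ c, α c ≤ Ht)
    (hU : ∀ c i, ‖U c i‖ ^ 2 ≤ Hf * α c) (hV : ∀ c i, ‖V c i‖ ^ 2 ≤ Hf * α c) :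
    ∃ (U' V' : Fin N → Fin N → ℂ) (α' : Fin N → ℝ) (μ : ℝ),
      SD N ((Hf + 1) * Ht + 1) Hf m U' V' α' ∧ 0 ≤ μ ∧
      2 * (N * μ) ≤ ∑ c, ((1 / (N : ℝ)) * ∑ i, ‖U c i‖ ^ 2 + α c + 1) +
        ∑ c, ((1 / (N : ℝ)) * ∑ i, ‖V c i‖ ^ 2 + α c + 1) ∧
      ∀ c i i', U c i * V c i' = (μ : ℂ) * (U' c i * V' c i') := by
  have hN' : (0 : ℝ) < N := by exact_mod_cast hN
  set aa : Fin N → ℝ := fun c => (1 / (N : ℝ)) * ∑ i, ‖U c i‖ ^ 2 + α c + 1 with haa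
  set bb : Fin N → ℝ := fun c => (1 / (N : ℝ)) * ∑ i, ‖V c i‖ ^ 2 + α c + 1 with hbb
  have hsU : ∀ c, 0 ≤ (1 / (N : ℝ)) * ∑ i, ‖U c i‖ ^ 2 := fun c => by positivity
  have hsV : ∀ c, 0 ≤ (1 / (N : ℝ)) * ∑ i, ‖V c i‖ ^ 2 := fun c => by positivity
  have haa1 : ∀ c, 1 ≤ aa c := fun c => by
    have := hsU c; have := hα c; simp only [haa]; linarith
  have hbb1 : ∀ c, 1 ≤ bb c := fun c => by
    have := hsV c; have := hα c; simp only [hbb]; linarith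
  have haa0 : ∀ c, 0 < aa c := fun c => lt_of_lt_of_le one_pos (haa1 c)
  have hbb0 : ∀ c, 0 < bb c := fun c => lt_of_lt_of_le one_pos (hbb1 c)
  have hαa : ∀ c, α c ≤ aa c := fun c => by
    have := hsU c; simp only [haa]; linarith
  have hαb : ∀ c, α c ≤ bb c := fun c => by
    have := hsV c; simp only [hbb]; linarith
  have hUa : ∀ c, ∑ i, ‖U c i‖ ^ 2 ≤ N * aa c := fun c => by
    have h1 : (N : ℝ) * ((1 / (N : ℝ)) * ∑ i, ‖U c i‖ ^ 2) = ∑ i, ‖U c i‖ ^ 2 := by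
      field_simp
    have := hα c
    simp only [haa]; nlinarith
  have hVb : ∀ c, ∑ i, ‖V c i‖ ^ 2 ≤ N * bb c := fun c => by
    have h1 : (N : ℝ) * ((1 / (N : ℝ)) * ∑ i, ‖V c i‖ ^ 2) = ∑ i, ‖V c i‖ ^ 2 := by
      field_simp
    have := hα c
    simp only [hbb]; nlinarith
  have hcap : ∀ (W : Fin N → Fin N → ℂ), (∀ c i, ‖W c i‖ ^ 2 ≤ Hf * α c) → ∀ c,
      (1 / (N : ℝ)) * ∑ i, ‖W c i‖ ^ 2 + α c + 1 ≤ (Hf + 1) * Ht + 1 := by
    intro W hW c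
    have h1 : ∑ i, ‖W c i‖ ^ 2 ≤ N * (Hf * α c) := by
      calc ∑ i, ‖W c i‖ ^ 2 ≤ ∑ _i : Fin N, Hf * α c := Finset.sum_le_sum fun i _ => hW c i
        _ = N * (Hf * α c) := by simp
    have h2 : (1 / (N : ℝ)) * ∑ i, ‖W c i‖ ^ 2 ≤ Hf * α c := by
      rw [one_div, inv_mul_le_iff₀ hN']; exact h1
    have h3 : Hf * α c ≤ Hf * Ht := mul_le_mul_of_nonneg_left (hαH c) hHf
    have h4 := hαH c
    nlinarith
  -- square roots
  set ga : Fin N → ℝ := fun c => Real.sqrt (aa c * bb c) with hga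
  have hga1 : ∀ c, 1 ≤ ga c := fun c => by
    have : (1 : ℝ) ≤ aa c * bb c := one_le_mul_of_one_le_of_one_le (haa1 c) (hbb1 c)
    exact Real.one_le_sqrt.2 this
  have hga2 : ∀ c, 2 * ga c ≤ aa c + bb c := fun c => by
    have h1 : ga c ^ 2 = aa c * bb c := Real.sq_sqrt (by have := haa0 c; have := hbb0 c; positivity)
    have h2 : (2 * ga c) ^ 2 ≤ (aa c + bb c) ^ 2 := by nlinarith [sq_nonneg (aa c - bb c)]
    exact (abs_le_of_sq_le_sq' h2 (by have := haa0 c; have := hbb0 c; positivity)).2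
  set μ : ℝ := (1 / (N : ℝ)) * ∑ c, ga c with hμ
  have hμ1 : 1 ≤ μ := by
    have : (N : ℝ) ≤ ∑ c, ga c := by
      calc (N : ℝ) = ∑ _c : Fin N, (1 : ℝ) := by simp
        _ ≤ _ := Finset.sum_le_sum fun c _ => hga1 c
    rw [hμ, one_div, inv_mul_eq_div, le_div_iff₀ hN']; linarith
  have hμ0 : 0 < μ := lt_of_lt_of_le one_pos hμ1
  set ρ : Fin N → ℝ := fun c => Real.sqrt (bb c / aa c) with hρ
  have hρ0 : ∀ c, 0 < ρ c := fun c => Real.sqrt_pos.2 (div_pos (hbb0 c) (haa0 c))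
  have hρa : ∀ c, aa c * ρ c = ga c := by
    intro c
    have h1 : aa c * ρ c = Real.sqrt (aa c ^ 2 * (bb c / aa c)) := by
      rw [Real.sqrt_mul (sq_nonneg _), Real.sqrt_sq (haa0 c).le]
    rw [h1, hga]
    congr 1
    have := (haa0 c).ne'
    field_simp
  have hρb : ∀ c, bb c * (ρ c)⁻¹ = ga c := by
    intro c
    have h0 : ρ c ^ 2 = bb c / aa c := Real.sq_sqrt (div_pos (hbb0 c) (haa0 c)).le
    have h1 := hρa c
    have h2 : bb c = aa c * ρ c ^ 2 := by rw [h0]; field_simp [(haa0 c).ne']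
    rw [← h1, h2]
    have := (hρ0 c).ne'
    field_simp
  set τ : Fin N → ℝ := fun c => Real.sqrt (ρ c / μ) with hτ
  set σ : Fin N → ℝ := fun c => Real.sqrt ((ρ c)⁻¹ / μ) with hσ
  have hτ2 : ∀ c, τ c ^ 2 = ρ c / μ := fun c => Real.sq_sqrt (div_pos (hρ0 c) hμ0).le
  have hσ2 : ∀ c, σ c ^ 2 = (ρ c)⁻¹ / μ := fun c =>
    Real.sq_sqrt (div_pos (inv_pos.2 (hρ0 c)) hμ0).le
  have hτσ : ∀ c, μ * (τ c * σ c) = 1 := by
    intro c
    have h1 : τ c * σ c = Real.sqrt ((ρ c / μ) * ((ρ c)⁻¹ / μ)) :=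
      (Real.sqrt_mul (div_pos (hρ0 c) hμ0).le _).symm
    have h2 : (ρ c / μ) * ((ρ c)⁻¹ / μ) = (μ⁻¹) ^ 2 := by
      have := (hρ0 c).ne'
      field_simp
    rw [h1, h2, Real.sqrt_sq (inv_pos.2 hμ0).le]
    exact mul_inv_cancel₀ hμ0.ne'
  refine ⟨fun c i => ((τ c : ℝ) : ℂ) * U c i, fun c i => ((σ c : ℝ) : ℂ) * V c i,
    fun c => ga c / μ, μ, ⟨hm, ?_, ?_, ?_, ?_, ?_, ?_, ?_⟩, hμ0.le, ?_, ?_⟩
  · intro c
    exact div_nonneg (zero_le_one.trans (hga1 c)) hμ0.le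
  · intro c
    have h1 : ∀ i, ‖((τ c : ℝ) : ℂ) * U c i‖ ^ 2 = ρ c / μ * ‖U c i‖ ^ 2 := fun i => by
      rw [norm_mul, mul_pow, Complex.norm_real, Real.norm_eq_abs, sq_abs, hτ2]
    rw [Finset.sum_congr rfl fun i _ => h1 i, ← Finset.mul_sum]
    calc ρ c / μ * ∑ i, ‖U c i‖ ^ 2 ≤ ρ c / μ * (N * aa c) :=
          mul_le_mul_of_nonneg_left (hUa c) (div_pos (hρ0 c) hμ0).le
      _ = N * (ga c / μ) := by rw [← hρa c]; ring
  · intro c
    have h1 : ∀ i, ‖((σ c : ℝ) : ℂ) * V c i‖ ^ 2 = (ρ c)⁻¹ / μ * ‖V c i‖ ^ 2 := fun i => by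
      rw [norm_mul, mul_pow, Complex.norm_real, Real.norm_eq_abs, sq_abs, hσ2]
    rw [Finset.sum_congr rfl fun i _ => h1 i, ← Finset.mul_sum]
    calc (ρ c)⁻¹ / μ * ∑ i, ‖V c i‖ ^ 2 ≤ (ρ c)⁻¹ / μ * (N * bb c) :=
          mul_le_mul_of_nonneg_left (hVb c) (div_pos (inv_pos.2 (hρ0 c)) hμ0).le
      _ = N * (ga c / μ) := by rw [← hρb c]; ring
  · rw [← Finset.sum_div, div_le_iff₀ hμ0, hμ]
    refine le_of_eq ?_
    field_simp
  · intro c
    have h1 : ga c ≤ (Hf + 1) * Ht + 1 := by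
      have h2 := hga2 c
      have h3 := hcap U hU c
      have h4 := hcap V hV c
      have h5 : aa c ≤ (Hf + 1) * Ht + 1 := h3
      have h6 : bb c ≤ (Hf + 1) * Ht + 1 := h4
      linarith
    have h7 : ga c / μ ≤ ga c := div_le_self (zero_le_one.trans (hga1 c)) hμ1
    exact h7.trans h1
  · intro c i
    rw [norm_mul, mul_pow, Complex.norm_real, Real.norm_eq_abs, sq_abs, hτ2]
    calc ρ c / μ * ‖U c i‖ ^ 2 ≤ ρ c / μ * (Hf * aa c) := by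
          refine mul_le_mul_of_nonneg_left ((hU c i).trans ?_) (div_pos (hρ0 c) hμ0).le
          exact mul_le_mul_of_nonneg_left (hαa c) hHf
      _ = Hf * (ga c / μ) := by rw [← hρa c]; ring
  · intro c i
    rw [norm_mul, mul_pow, Complex.norm_real, Real.norm_eq_abs, sq_abs, hσ2]
    calc (ρ c)⁻¹ / μ * ‖V c i‖ ^ 2 ≤ (ρ c)⁻¹ / μ * (Hf * bb c) := by
          refine mul_le_mul_of_nonneg_left ((hV c i).trans ?_)
            (div_pos (inv_pos.2 (hρ0 c)) hμ0).le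
          exact mul_le_mul_of_nonneg_left (hαb c) hHf
      _ = Hf * (ga c / μ) := by rw [← hρb c]; ring
  · have h1 : (N : ℝ) * μ = ∑ c, ga c := by rw [hμ]; field_simp
    rw [h1, Finset.mul_sum, ← Finset.sum_add_distrib]
    exact Finset.sum_le_sum fun c _ => hga2 c
  · intro c i i'
    have h1 : ((μ * (τ c * σ c) : ℝ) : ℂ) = 1 := by rw [hτσ]; simp
    push_cast at h1
    calc U c i * V c i' = ((μ : ℂ) * ((τ c : ℂ) * (σ c : ℂ))) * (U c i * V c i') := by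
          rw [h1, one_mul]
      _ = _ := by ring

end box

/-! ### all boxes -/

/-- counting: indices with pairwise differences `< K` -/
theorem card_window {S K : ℕ} (T : Finset (Fin S)) (hT : ∀ v ∈ T, ∀ v' ∈ T, (v : ℕ) < v' + K) :
    T.card ≤ K := by
  classical
  rcases T.eq_empty_or_nonempty with h | h
  · subst h; simp
  · obtain ⟨v0, hv0, hmin⟩ := T.exists_min_image (fun v : Fin S => (v : ℕ)) h
    have h1 : T.image (fun v : Fin S => (v : ℕ)) ⊆ Finset.Ico (v0 : ℕ) (v0 + K) := by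
      intro a ha
      obtain ⟨v, hv, rfl⟩ := Finset.mem_image.1 ha
      rw [Finset.mem_Ico]
      exact ⟨hmin v hv, hT v hv v0 hv0⟩
    have h2 := Finset.card_le_card h1
    have h3 : (T.image (fun v : Fin S => (v : ℕ))).card = T.card :=
      Finset.card_image_of_injective _ Fin.val_injective
    rw [h3] at h2
    simpa using h2

theorem mem_ivS {p : Nd} {y : ℤ} :
    y ∈ iv p ↔ p.2 * 2 ^ (p.1 + 7) ≤ y ∧ y < (p.2 + 1) * 2 ^ (p.1 + 7) := by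
  unfold iv dI
  rw [Finset.mem_Ico]

/-- the boxes hitting an interval, at given `(s, r)` -/
theorem card_rel {k j e e' : Fin 4} (he' : k ≠ e') {N S : ℕ} (hN : 0 < N) {w q u : ℤ} {J : Nd}
    (hJ : len J ≤ 128 * N) (s r : Fin S) (T : Finset (Fin S))
    (hT : ∀ v ∈ T, ∃ c i i' : Fin N, (sl j - sl k) * (w + ((s : ℕ) : ℤ) * N + ((c : ℕ) : ℤ)) +
      (sl e - sl k) * (q + ((r : ℕ) : ℤ) * N + ((i : ℕ) : ℤ)) +
      (sl e' - sl k) * (u + ((v : ℕ) : ℤ) * N + ((i' : ℕ) : ℤ)) ∈ iv J) : T.card ≤ 137 := by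
  have hd0 : sl e' - sl k ≠ 0 := OLevSw.sl_ne (Ne.symm he')
  have ha3 := OLevSw.sl_bd j k
  have hb3 := OLevSw.sl_bd e k
  have hd3 := OLevSw.sl_bd e' k
  set a := sl j - sl k
  set b := sl e - sl k
  set d := sl e' - sl k
  have hNz : (0 : ℤ) < N := by exact_mod_cast hN
  have hlen : (2 : ℤ) ^ (J.1 + 7) ≤ 128 * N := by
    have : (2 : ℝ) ^ (J.1 + 7) ≤ 128 * N := hJ
    exact_mod_cast this
  refine card_window T fun v hv v' hv' => ?_
  obtain ⟨c, i, i', h1⟩ := hT v hv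
  obtain ⟨c1, i1, i1', h2⟩ := hT v' hv'
  by_contra hcon
  push Not at hcon
  have hy : |(a * (w + ((s : ℕ) : ℤ) * N + ((c : ℕ) : ℤ)) +
      b * (q + ((r : ℕ) : ℤ) * N + ((i : ℕ) : ℤ)) +
      d * (u + ((v : ℕ) : ℤ) * N + ((i' : ℕ) : ℤ))) -
      (a * (w + ((s : ℕ) : ℤ) * N + ((c1 : ℕ) : ℤ)) +
      b * (q + ((r : ℕ) : ℤ) * N + ((i1 : ℕ) : ℤ)) +
      d * (u + ((v' : ℕ) : ℤ) * N + ((i1' : ℕ) : ℤ)))| < 128 * N := by
    have h3 := mem_ivS.1 h1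
    have h4 := mem_ivS.1 h2
    rw [abs_lt]
    constructor <;> linarith [h3.1, h3.2, h4.1, h4.2, hlen]
  have hc : |((c : ℕ) : ℤ) - ((c1 : ℕ) : ℤ)| ≤ N := by
    have := c.2; have := c1.2
    rw [abs_le]; constructor <;> omega
  have hi : |((i : ℕ) : ℤ) - ((i1 : ℕ) : ℤ)| ≤ N := by
    have := i.2; have := i1.2
    rw [abs_le]; constructor <;> omega
  have hi' : |((i' : ℕ) : ℤ) - ((i1' : ℕ) : ℤ)| ≤ N := by
    have := i'.2; have := i1'.2
    rw [abs_le]; constructor <;> omega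
  have hac : |a * (((c : ℕ) : ℤ) - ((c1 : ℕ) : ℤ))| ≤ 3 * N := by
    rw [abs_mul]; exact mul_le_mul ha3 hc (abs_nonneg _) (by norm_num)
  have hbi : |b * (((i : ℕ) : ℤ) - ((i1 : ℕ) : ℤ))| ≤ 3 * N := by
    rw [abs_mul]; exact mul_le_mul hb3 hi (abs_nonneg _) (by norm_num)
  have hdi : |d * (((i' : ℕ) : ℤ) - ((i1' : ℕ) : ℤ))| ≤ 3 * N := by
    rw [abs_mul]; exact mul_le_mul hd3 hi' (abs_nonneg _) (by norm_num)
  have hkey : |d * ((((v : ℕ) : ℤ) - ((v' : ℕ) : ℤ)) * N)| < 137 * N := by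
    have e1 : d * ((((v : ℕ) : ℤ) - ((v' : ℕ) : ℤ)) * N) =
        ((a * (w + ((s : ℕ) : ℤ) * N + ((c : ℕ) : ℤ)) +
      b * (q + ((r : ℕ) : ℤ) * N + ((i : ℕ) : ℤ)) +
      d * (u + ((v : ℕ) : ℤ) * N + ((i' : ℕ) : ℤ))) -
      (a * (w + ((s : ℕ) : ℤ) * N + ((c1 : ℕ) : ℤ)) +
      b * (q + ((r : ℕ) : ℤ) * N + ((i1 : ℕ) : ℤ)) +
      d * (u + ((v' : ℕ) : ℤ) * N + ((i1' : ℕ) : ℤ)))) -
      a * (((c : ℕ) : ℤ) - ((c1 : ℕ) : ℤ)) - b * (((i : ℕ) : ℤ) - ((i1 : ℕ) : ℤ)) -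
      d * (((i' : ℕ) : ℤ) - ((i1' : ℕ) : ℤ)) := by ring
    rw [e1]
    rw [abs_lt] at hy ⊢
    rw [abs_le] at hac hbi hdi
    constructor <;> linarith [hy.1, hy.2, hac.1, hac.2, hbi.1, hbi.2, hdi.1, hdi.2]
  have hd1 : 1 ≤ |d| := Int.one_le_abs hd0
  have h5 : (137 : ℤ) * N ≤ |d * ((((v : ℕ) : ℤ) - ((v' : ℕ) : ℤ)) * N)| := by
    rw [abs_mul, abs_mul, abs_of_pos hNz]
    have h6 : (137 : ℤ) ≤ |((v : ℕ) : ℤ) - ((v' : ℕ) : ℤ)| := by
      rw [le_abs]; left; omega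
    calc (137 : ℤ) * N ≤ |((v : ℕ) : ℤ) - ((v' : ℕ) : ℤ)| * N :=
          mul_le_mul_of_nonneg_right h6 hNz.le
      _ = 1 * (|((v : ℕ) : ℤ) - ((v' : ℕ) : ℤ)| * N) := by ring
      _ ≤ |d| * (|((v : ℕ) : ℤ) - ((v' : ℕ) : ℤ)| * N) :=
          mul_le_mul_of_nonneg_right hd1 (by positivity)
  linarith

theorem sum_rel_le {S : ℕ} (P : Fin S → Fin S → Fin S → Prop) [∀ s r v, Decidable (P s r v)]
    (F : Fin S → Fin S → ℝ) (hF : ∀ s r, 0 ≤ F s r) (K : ℕ)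
    (hK : ∀ s r, (Finset.univ.filter fun v => P s r v).card ≤ K) :
    ∑ s, ∑ r, ∑ v, (if P s r v then F s r else 0) ≤ K * ∑ s, ∑ r, F s r := by
  rw [Finset.mul_sum]
  refine Finset.sum_le_sum fun s _ => ?_
  rw [Finset.mul_sum]
  refine Finset.sum_le_sum fun r _ => ?_
  rw [← Finset.sum_filter, Finset.sum_const, nsmul_eq_mul]
  exact mul_le_mul_of_nonneg_right (by exact_mod_cast hK s r) (hF s r)

/-- total of the box weights -/
theorem sum_aa {n N S : ℕ} (hN : 0 < N) (hS : n ≤ S * N) (hS2 : S * N ≤ 2 * n) {w q : ℤ}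
    {U : Fin n → Fin n → ℂ} {α : Fin n → ℝ} (hα : ∑ c, α c ≤ n)
    (hU : ∀ c, ∑ i, ‖U c i‖ ^ 2 ≤ n * α c) :
    ∑ s : Fin S, ∑ r : Fin S, ∑ c : Fin N, ((1 / (N : ℝ)) * ∑ i : Fin N,
      ‖sub2 n w q U N (w + ((s : ℕ) : ℤ) * N) (q + ((r : ℕ) : ℤ) * N) c i‖ ^ 2 +
        exa n w α (w + ((s : ℕ) : ℤ) * N + ((c : ℕ) : ℤ)) + 1) ≤ 7 * ((n : ℝ) ^ 2 / N) := by
  have hN' : (0 : ℝ) < N := by exact_mod_cast hN
  have hS2' : (S : ℝ) * N ≤ 2 * n := by exact_mod_cast hS2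
  have hn0 : (0 : ℝ) ≤ n := Nat.cast_nonneg n
  have hS0 : (0 : ℝ) ≤ S := Nat.cast_nonneg S
  have hSb : (S : ℝ) ≤ 2 * n / N := by rw [le_div_iff₀ hN']; exact hS2'
  -- the three parts
  have p1 : ∑ s : Fin S, ∑ r : Fin S, ∑ c : Fin N, ∑ i : Fin N,
      ‖sub2 n w q U N (w + ((s : ℕ) : ℤ) * N) (q + ((r : ℕ) : ℤ) * N) c i‖ ^ 2 ≤ (n : ℝ) ^ 2 := by
    have e1 : ∑ s : Fin S, ∑ r : Fin S, ∑ c : Fin N, ∑ i : Fin N,
        ‖sub2 n w q U N (w + ((s : ℕ) : ℤ) * N) (q + ((r : ℕ) : ℤ) * N) c i‖ ^ 2 =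
        ∑ c, ∑ i, ‖U c i‖ ^ 2 := by
      have e2 : ∑ x ∈ Ico w (w + n), ∑ z ∈ Ico q (q + n), ‖OLevSw.ext n w q U x z‖ ^ 2 =
          ∑ c, ∑ i, ‖U c i‖ ^ 2 := by
        rw [OLevSw.sum_Ico_fin]
        refine Finset.sum_congr rfl fun c _ => ?_
        rw [OLevSw.sum_Ico_fin]
        refine Finset.sum_congr rfl fun i _ => ?_
        rw [OLevSw.ext_val]
      rw [← e2, sum_Ico_big w n N S hS _ (fun x h => Finset.sum_eq_zero fun z _ => by
        rw [ext_out1 h]; simp)]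
      refine Finset.sum_congr rfl fun s _ => ?_
      rw [Finset.sum_comm]
      refine Finset.sum_congr rfl fun c _ => ?_
      rw [sum_Ico_big q n N S hS _ (fun z h => by rw [ext_out2 h]; simp)]
      rfl
    rw [e1]
    calc ∑ c, ∑ i, ‖U c i‖ ^ 2 ≤ ∑ c, n * α c := Finset.sum_le_sum fun c _ => hU c
      _ = n * ∑ c, α c := by rw [Finset.mul_sum]
      _ ≤ n * n := mul_le_mul_of_nonneg_left hα hn0
      _ = (n : ℝ) ^ 2 := by ring
  have p2 : ∑ s : Fin S, ∑ c : Fin N, exa n w α (w + ((s : ℕ) : ℤ) * N + ((c : ℕ) : ℤ)) ≤ n := by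
    have e2 : ∑ x ∈ Ico w (w + n), exa n w α x = ∑ c, α c := by
      rw [OLevSw.sum_Ico_fin]
      refine Finset.sum_congr rfl fun c _ => ?_
      rw [exa_val]
    have e3 := sum_Ico_big w n N S hS (exa n w α) (fun x h => by
      unfold exa; rw [dif_neg h])
    rw [← e3, e2]
    exact hα
  have hexp : ∑ s : Fin S, ∑ r : Fin S, ∑ c : Fin N, ((1 / (N : ℝ)) * ∑ i : Fin N,
      ‖sub2 n w q U N (w + ((s : ℕ) : ℤ) * N) (q + ((r : ℕ) : ℤ) * N) c i‖ ^ 2 +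
        exa n w α (w + ((s : ℕ) : ℤ) * N + ((c : ℕ) : ℤ)) + 1) =
      (1 / (N : ℝ)) * ∑ s : Fin S, ∑ r : Fin S, ∑ c : Fin N, ∑ i : Fin N,
      ‖sub2 n w q U N (w + ((s : ℕ) : ℤ) * N) (q + ((r : ℕ) : ℤ) * N) c i‖ ^ 2 +
      S * ∑ s : Fin S, ∑ c : Fin N, exa n w α (w + ((s : ℕ) : ℤ) * N + ((c : ℕ) : ℤ)) +
      S * (S * N) := by
    simp only [Finset.sum_add_distrib, Finset.mul_sum, Finset.sum_const, Finset.card_univ,
      Fintype.card_fin, nsmul_eq_mul, mul_one]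
  rw [hexp]
  have h1 : (1 / (N : ℝ)) * ∑ s : Fin S, ∑ r : Fin S, ∑ c : Fin N, ∑ i : Fin N,
      ‖sub2 n w q U N (w + ((s : ℕ) : ℤ) * N) (q + ((r : ℕ) : ℤ) * N) c i‖ ^ 2 ≤
      (n : ℝ) ^ 2 / N := by
    rw [one_div, inv_mul_eq_div]
    exact div_le_div_of_nonneg_right p1 hN'.le
  have h2 : (S : ℝ) * ∑ s : Fin S, ∑ c : Fin N,
      exa n w α (w + ((s : ℕ) : ℤ) * N + ((c : ℕ) : ℤ)) ≤ 2 * ((n : ℝ) ^ 2 / N) := by
    calc _ ≤ (S : ℝ) * n := mul_le_mul_of_nonneg_left p2 hS0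
      _ ≤ (2 * n / N) * n := mul_le_mul_of_nonneg_right hSb hn0
      _ = _ := by ring
  have h3 : (S : ℝ) * (S * N) ≤ 4 * ((n : ℝ) ^ 2 / N) := by
    calc (S : ℝ) * (S * N) ≤ (2 * n / N) * (2 * n) :=
          mul_le_mul hSb hS2' (by positivity) (by positivity)
      _ = _ := by ring
  linarith

open Classical in
/-- **RESTRICTION** -/
theorem restr_opS {k j e e' : Fin 4} (hd : Dst4 k j e e') {n N : ℕ} (hN : 0 < N) (hNn : N ≤ n)
    {J : Nd} (hJ : len J ≤ 128 * N) {Ht Hf : ℝ} (hHf : 0 ≤ Hf) {φ : Fn}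
    (h : IsOpS k j e e' n Ht Hf φ) :
    ∃ (L : ℕ) (μ : Fin L → ℝ) (ψ : Fin L → Fn), (∀ l, 0 ≤ μ l) ∧
      (∀ l, IsOpS k j e e' N ((Hf + 1) * Ht + 1) Hf (ψ l)) ∧ ∑ l, μ l ≤ 959 ∧
      ∀ y ∈ iv J, φ y / (n : ℂ) ^ 2 = ∑ l, ((μ l : ℝ) : ℂ) * (ψ l y / (N : ℂ) ^ 2) := by
  obtain ⟨w, q, u, m, U, V, α, hD, rfl⟩ := h
  have hn : 0 < n := lt_of_lt_of_le hN hNn
  have hHt : 0 ≤ Ht := hD.Ht0 hn
  have hN' : (0 : ℝ) < N := by exact_mod_cast hN
  have hn' : (0 : ℝ) < n := by exact_mod_cast hn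
  set S : ℕ := (n + N - 1) / N with hSdef
  have hS : n ≤ S * N := by
    have h1 := Nat.div_add_mod (n + N - 1) N
    have h2 := Nat.mod_lt (n + N - 1) hN
    rw [← hSdef] at h1
    have h3 : N * S = S * N := Nat.mul_comm _ _
    omega
  have hS2 : S * N ≤ 2 * n := by
    have h1 := Nat.div_mul_le_self (n + N - 1) N
    rw [← hSdef] at h1
    omega
  let T := Fin S × Fin S × Fin S
  let Ub : T → Fin N → Fin N → ℂ := fun t =>
    sub2 n w q U N (w + ((t.1 : ℕ) : ℤ) * N) (q + ((t.2.1 : ℕ) : ℤ) * N)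
  let Vb : T → Fin N → Fin N → ℂ := fun t =>
    sub2 n w u V N (w + ((t.1 : ℕ) : ℤ) * N) (u + ((t.2.2 : ℕ) : ℤ) * N)
  let αb : T → Fin N → ℝ := fun t c => exa n w α (w + ((t.1 : ℕ) : ℤ) * N + ((c : ℕ) : ℤ))
  have hbox := fun t : T => box_unit (N := N) (Hf := Hf) (Ht := Ht) hN hD.m1 (U := Ub t)
    (V := Vb t) (α := αb t) (fun c => exa_nonneg hD.α0 _) hHf (fun c => exa_le hHt hD.αH _)
    (fun c i => ext_cap hHf hD.α0 hD.UH _ _) (fun c i => ext_cap hHf hD.α0 hD.VH _ _)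
  choose U' V' α' μ hSD hμ0 hμ hUV using hbox
  let ψ : T → Fn := fun t => opA k j e e' N (w + ((t.1 : ℕ) : ℤ) * N)
    (q + ((t.2.1 : ℕ) : ℤ) * N) (u + ((t.2.2 : ℕ) : ℤ) * N) m (U' t) (V' t)
  let rel : T → Prop := fun t => ∃ c i i' : Fin N,
    (sl j - sl k) * (w + ((t.1 : ℕ) : ℤ) * N + ((c : ℕ) : ℤ)) +
      (sl e - sl k) * (q + ((t.2.1 : ℕ) : ℤ) * N + ((i : ℕ) : ℤ)) +
      (sl e' - sl k) * (u + ((t.2.2 : ℕ) : ℤ) * N + ((i' : ℕ) : ℤ)) ∈ iv J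
  have hψ : ∀ t y, opA k j e e' N (w + ((t.1 : ℕ) : ℤ) * N) (q + ((t.2.1 : ℕ) : ℤ) * N)
      (u + ((t.2.2 : ℕ) : ℤ) * N) m (Ub t) (Vb t) y = (μ t : ℂ) * ψ t y := by
    intro t y
    show _ = (μ t : ℂ) * opA _ _ _ _ _ _ _ _ _ _ _ _
    unfold opA
    rw [Finset.mul_sum]
    refine Finset.sum_congr rfl fun c _ => ?_
    rw [Finset.mul_sum]
    refine Finset.sum_congr rfl fun i _ => ?_
    rw [Finset.mul_sum]
    refine Finset.sum_congr rfl fun i' _ => ?_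
    split_ifs
    · have := hUV t c i i'
      calc m _ _ * Ub t c i * Vb t c i' = m _ _ * (Ub t c i * Vb t c i') := by ring
        _ = _ := by rw [this]; ring
    · simp
  have hval : ∀ y ∈ iv J, opA k j e e' n w q u m U V y =
      ∑ t : T, (if rel t then (μ t : ℂ) * ψ t y else 0) := by
    intro y hy
    rw [opA_blocks k j e e' n N S hS, Fintype.sum_prod_type]
    refine Finset.sum_congr rfl fun s _ => ?_
    rw [Fintype.sum_prod_type]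
    refine Finset.sum_congr rfl fun r _ => Finset.sum_congr rfl fun v _ => ?_
    by_cases hr : rel (s, r, v)
    · rw [if_pos hr]; exact hψ (s, r, v) y
    · rw [if_neg hr]
      unfold opA
      refine Finset.sum_eq_zero fun c _ => Finset.sum_eq_zero fun i _ =>
        Finset.sum_eq_zero fun i' _ => ?_
      rw [if_neg]
      intro hh
      exact hr ⟨c, i, i', by rw [hh]; exact hy⟩
  -- total mass
  have hmass : ∑ t : T, (if rel t then μ t else 0) ≤ 959 * ((n : ℝ) ^ 2 / (N : ℝ) ^ 2) := by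
    have hA := sum_aa (w := w) (q := q) (U := U) hN hS hS2 hD.α1 hD.U2
    have hB := sum_aa (w := w) (q := u) (U := V) hN hS hS2 hD.α1 hD.V2
    set FA : Fin S → Fin S → ℝ := fun s r => ∑ c : Fin N, ((1 / (N : ℝ)) * ∑ i : Fin N,
      ‖sub2 n w q U N (w + ((s : ℕ) : ℤ) * N) (q + ((r : ℕ) : ℤ) * N) c i‖ ^ 2 +
        exa n w α (w + ((s : ℕ) : ℤ) * N + ((c : ℕ) : ℤ)) + 1) with hFA
    set FB : Fin S → Fin S → ℝ := fun s v => ∑ c : Fin N, ((1 / (N : ℝ)) * ∑ i : Fin N,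
      ‖sub2 n w u V N (w + ((s : ℕ) : ℤ) * N) (u + ((v : ℕ) : ℤ) * N) c i‖ ^ 2 +
        exa n w α (w + ((s : ℕ) : ℤ) * N + ((c : ℕ) : ℤ)) + 1) with hFB
    have hexa : ∀ x, 0 ≤ exa n w α x := fun x => exa_nonneg hD.α0 x
    have hFA0 : ∀ s r, 0 ≤ FA s r := fun s r => Finset.sum_nonneg fun c _ => by
      have := hexa (w + ((s : ℕ) : ℤ) * N + ((c : ℕ) : ℤ))
      positivity
    have hFB0 : ∀ s r, 0 ≤ FB s r := fun s r => Finset.sum_nonneg fun c _ => by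
      have := hexa (w + ((s : ℕ) : ℤ) * N + ((c : ℕ) : ℤ))
      positivity
    have h1 : ∀ s r v, 2 * (N * (if rel (s, r, v) then μ (s, r, v) else 0)) ≤
        (if rel (s, r, v) then FA s r else 0) + (if rel (s, r, v) then FB s v else 0) := by
      intro s r v
      split_ifs
      · exact hμ (s, r, v)
      · simp
    have h2 : 2 * (N * ∑ t : T, (if rel t then μ t else 0)) ≤
        137 * ∑ s, ∑ r, FA s r + 137 * ∑ s, ∑ v, FB s v := by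
      have e1 := sum_rel_le (fun s r v => rel (s, r, v)) FA hFA0 137 (fun s r =>
        card_rel (q := q) (u := u) (w := w) (j := j) (e := e) (J := J) hd.ke' hN hJ s r _ fun v hv =>
          (Finset.mem_filter.1 hv).2)
      have e2 := sum_rel_le (fun s v r => rel (s, r, v)) FB hFB0 137 (fun s v =>
        card_rel (q := u) (u := q) (w := w) (j := j) (e := e') (J := J) hd.ke hN hJ s v _
          fun r hr => by
          obtain ⟨c, i, i', hh⟩ := (Finset.mem_filter.1 hr).2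
          exact ⟨c, i', i, by rwa [add_right_comm]⟩)
      have e3 : ∑ s, ∑ r, ∑ v, (if rel (s, r, v) then FB s v else 0) =
          ∑ s, ∑ v, ∑ r, (if rel (s, r, v) then FB s v else 0) :=
        Finset.sum_congr rfl fun s _ => Finset.sum_comm
      calc 2 * (N * ∑ t : T, (if rel t then μ t else 0)) =
          ∑ s, ∑ r, ∑ v, 2 * (N * (if rel (s, r, v) then μ (s, r, v) else 0)) := by
            simp only [Fintype.sum_prod_type, Finset.mul_sum, T]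
        _ ≤ ∑ s, ∑ r, ∑ v, ((if rel (s, r, v) then FA s r else 0) +
            (if rel (s, r, v) then FB s v else 0)) :=
            Finset.sum_le_sum fun s _ => Finset.sum_le_sum fun r _ =>
              Finset.sum_le_sum fun v _ => h1 s r v
        _ = ∑ s, ∑ r, ∑ v, (if rel (s, r, v) then FA s r else 0) +
            ∑ s, ∑ v, ∑ r, (if rel (s, r, v) then FB s v else 0) := by
            rw [← e3]
            simp only [Finset.sum_add_distrib]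
        _ ≤ _ := add_le_add (by exact_mod_cast e1) (by exact_mod_cast e2)
    have h3 : 2 * (N * ∑ t : T, (if rel t then μ t else 0)) ≤ 1918 * ((n : ℝ) ^ 2 / N) := by
      refine h2.trans ?_
      have hA' : ∑ s, ∑ r, FA s r ≤ 7 * ((n : ℝ) ^ 2 / N) := hA
      have hB' : ∑ s, ∑ v, FB s v ≤ 7 * ((n : ℝ) ^ 2 / N) := hB
      linarith
    have h4 : (959 : ℝ) * ((n : ℝ) ^ 2 / (N : ℝ) ^ 2) = (959 * ((n : ℝ) ^ 2 / N)) / N := by
      field_simp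
    rw [h4, le_div_iff₀ hN']
    linarith
  -- reindexing
  let I := {t : T // rel t}
  let eq := Fintype.equivFin I
  have hre : ∀ {M : Type} [AddCommMonoid M] (F : T → M),
      ∑ l : Fin (Fintype.card I), F (eq.symm l).1 = ∑ t : T, (if rel t then F t else 0) := by
    intro M _ F
    rw [Equiv.sum_comp eq.symm (fun t : I => F t.1), ← Finset.sum_filter]
    exact (Finset.sum_subtype (Finset.univ.filter rel) (fun t => by simp) F).symm
  refine ⟨Fintype.card I, fun l => ((N : ℝ) ^ 2 / (n : ℝ) ^ 2) * μ (eq.symm l).1,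
    fun l => ψ (eq.symm l).1, fun l => by have := hμ0 (eq.symm l).1; positivity,
    fun l => ⟨_, _, _, m, _, _, _, hSD (eq.symm l).1, rfl⟩, ?_, ?_⟩
  · rw [← Finset.mul_sum, hre μ]
    have : ((N : ℝ) ^ 2 / (n : ℝ) ^ 2) * (959 * ((n : ℝ) ^ 2 / (N : ℝ) ^ 2)) = 959 := by
      field_simp
    rw [← this]
    exact mul_le_mul_of_nonneg_left hmass (by positivity)
  · intro y hy
    have hnc : (n : ℂ) ≠ 0 := by exact_mod_cast hn.ne'
    have hNc : (N : ℂ) ≠ 0 := by exact_mod_cast hN.ne'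
    rw [hval y hy, ← hre (fun t => (μ t : ℂ) * ψ t y), Finset.sum_div]
    refine Finset.sum_congr rfl fun l _ => ?_
    push_cast
    field_simp

/-- **EMBEDDING of a small atom** -/
theorem emb_opS {k j e e' : Fin 4} {n N : ℕ} (hn : 0 < n) (hnN : n ≤ N) {Ht Hf : ℝ}
    (hHf : 0 ≤ Hf) {φ : Fn} (h : IsOpS k j e e' n Ht Hf φ) :
    ∃ ψ : Fn, IsOpS k j e e' N ((N / n : ℝ) * Ht) ((N / n : ℝ) * Hf) ψ ∧
      ∀ y, φ y / (n : ℂ) ^ 2 = ψ y / (N : ℂ) ^ 2 := by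
  obtain ⟨w, q, u, m, U, V, α, hD, rfl⟩ := h
  have hN : 0 < N := lt_of_lt_of_le hn hnN
  have hHt : 0 ≤ Ht := hD.Ht0 hn
  have hN' : (0 : ℝ) < N := by exact_mod_cast hN
  have hn' : (0 : ℝ) < n := by exact_mod_cast hn
  set ρ : ℝ := (N / n : ℝ) with hρ
  have hρ0 : 0 < ρ := div_pos hN' hn'
  have hρn : ρ * n = N := by rw [hρ]; field_simp
  have hcap : ∀ (q' : ℤ) (W : Fin n → Fin n → ℂ), (∀ c i, ‖W c i‖ ^ 2 ≤ Hf * α c) → ∀ c i : Fin N,
      ‖(ρ : ℂ) * OLevSw.ext n w q' W (w + ((c : ℕ) : ℤ)) (q' + ((i : ℕ) : ℤ))‖ ^ 2 ≤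
        (ρ * Hf) * (ρ * exa n w α (w + ((c : ℕ) : ℤ))) := by
    intro q' W hW c i
    rw [norm_mul, mul_pow, Complex.norm_real, Real.norm_eq_abs, sq_abs]
    have := ext_cap (w := w) (q := q') hHf hD.α0 hW (w + ((c : ℕ) : ℤ)) (q' + ((i : ℕ) : ℤ))
    calc _ ≤ ρ ^ 2 * (Hf * exa n w α (w + ((c : ℕ) : ℤ))) :=
          mul_le_mul_of_nonneg_left this (sq_nonneg _)
      _ = _ := by ring
  have hmar : ∀ (q' : ℤ) (W : Fin n → Fin n → ℂ), (∀ c, ∑ i, ‖W c i‖ ^ 2 ≤ n * α c) →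
      ∀ c : Fin N, ∑ i : Fin N,
      ‖(ρ : ℂ) * OLevSw.ext n w q' W (w + ((c : ℕ) : ℤ)) (q' + ((i : ℕ) : ℤ))‖ ^ 2 ≤
        N * (ρ * exa n w α (w + ((c : ℕ) : ℤ))) := by
    intro q' W hW c
    have h1 : ∀ i : Fin N,
        ‖(ρ : ℂ) * OLevSw.ext n w q' W (w + ((c : ℕ) : ℤ)) (q' + ((i : ℕ) : ℤ))‖ ^ 2 =
        ρ ^ 2 * ‖OLevSw.ext n w q' W (w + ((c : ℕ) : ℤ)) (q' + ((i : ℕ) : ℤ))‖ ^ 2 := by
      intro i
      rw [norm_mul, mul_pow, Complex.norm_real, Real.norm_eq_abs, sq_abs]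
    rw [Finset.sum_congr rfl fun i _ => h1 i, ← Finset.mul_sum]
    have h2 := sum_ext_le (w := w) (q := q') hD.α0 hW (w + ((c : ℕ) : ℤ)) (Ico q' (q' + N))
    rw [OLevSw.sum_Ico_fin] at h2
    calc _ ≤ ρ ^ 2 * (n * exa n w α (w + ((c : ℕ) : ℤ))) :=
          mul_le_mul_of_nonneg_left h2 (sq_nonneg _)
      _ = (ρ * n) * (ρ * exa n w α (w + ((c : ℕ) : ℤ))) := by ring
      _ = _ := by rw [hρn]
  refine ⟨opA k j e e' N w q u m
    (fun c i => (ρ : ℂ) * OLevSw.ext n w q U (w + ((c : ℕ) : ℤ)) (q + ((i : ℕ) : ℤ)))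
    (fun c i => (ρ : ℂ) * OLevSw.ext n w u V (w + ((c : ℕ) : ℤ)) (u + ((i : ℕ) : ℤ))),
    ⟨w, q, u, m, _, _, fun c => ρ * exa n w α (w + ((c : ℕ) : ℤ)),
      ⟨hD.m1, ?_, ?_, ?_, ?_, ?_, ?_, ?_⟩, rfl⟩, ?_⟩
  · intro c
    exact mul_nonneg hρ0.le (exa_nonneg hD.α0 _)
  · exact hmar q U hD.U2
  · exact hmar u V hD.V2
  · rw [← Finset.mul_sum]
    have h2 := sum_exa_le1 (w := w) hD.α0 hD.α1 (Ico w (w + N))
    rw [OLevSw.sum_Ico_fin] at h2
    calc _ ≤ ρ * n := mul_le_mul_of_nonneg_left h2 hρ0.le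
      _ = N := hρn
  · intro c
    exact mul_le_mul_of_nonneg_left (exa_le hHt hD.αH _) hρ0.le
  · exact hcap q U hD.UH
  · exact hcap u V hD.VH
  · intro y
    have hnc : (n : ℂ) ≠ 0 := by exact_mod_cast hn.ne'
    have hNc : (N : ℂ) ≠ 0 := by exact_mod_cast hN.ne'
    have hS : n ≤ 1 * N := by omega
    have h1 := opA_blocks k j e e' n N 1 hS w q u m U V y
    have h2 : opA k j e e' n w q u m U V y = opA k j e e' N w q u m
        (fun c i => OLevSw.ext n w q U (w + ((c : ℕ) : ℤ)) (q + ((i : ℕ) : ℤ)))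
        (fun c i => OLevSw.ext n w u V (w + ((c : ℕ) : ℤ)) (u + ((i : ℕ) : ℤ))) y := by
      rw [h1]
      simp only [Finset.univ_unique, Fin.default_eq_zero, Finset.sum_singleton, Fin.val_zero,
        Nat.cast_zero, zero_mul, add_zero]
      rfl
    have h3 : opA k j e e' N w q u m
        (fun c i => (ρ : ℂ) * OLevSw.ext n w q U (w + ((c : ℕ) : ℤ)) (q + ((i : ℕ) : ℤ)))
        (fun c i => (ρ : ℂ) * OLevSw.ext n w u V (w + ((c : ℕ) : ℤ)) (u + ((i : ℕ) : ℤ))) y =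
        (ρ : ℂ) ^ 2 * opA k j e e' N w q u m
        (fun c i => OLevSw.ext n w q U (w + ((c : ℕ) : ℤ)) (q + ((i : ℕ) : ℤ)))
        (fun c i => OLevSw.ext n w u V (w + ((c : ℕ) : ℤ)) (u + ((i : ℕ) : ℤ))) y := by
      unfold opA
      rw [Finset.mul_sum]
      refine Finset.sum_congr rfl fun c _ => ?_
      rw [Finset.mul_sum]
      refine Finset.sum_congr rfl fun i _ => ?_
      rw [Finset.mul_sum]
      refine Finset.sum_congr rfl fun i' _ => ?_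
      split_ifs
      · ring
      · simp
    rw [h3, h2, hρ]
    push_cast
    field_simp

end Crest.Agent.R079.OpS276
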