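import Crest.Agent.R079.T6d_252

/-! R079, T6 (helper252): GRADED ASSEMBLY of rule (A) for a mixture of operator atoms, ENERGY form.

`GenOM` = Step I (`GenM` of `T6d`) for the data `PRo`, `StatO` = Step II (`T6c`).
* `pairO_gradedM` : `GenOM` (`n` generations, losses `dl j`, gains `cG j`, window exponent `c1`) + `StatO`
  => `PairO`; conditions `c0 + 2 ∑ dl ≤ cS - c1`, `c0 + 2 ∑_{i<j} dl i ≤ cG j`,
  `c0 + CS ≤ n c1 - 2 ∑ dl + cS`;
* `pairO_existsM` : the parameters chosen.  Order: Step II (`cS`, `CS`), then `c1 ≤ cS / 2`, then the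
  weights `y_j` (gain `g y`, loss `C y`), then `e`, `k`, `t0`. -/

set_option autoImplicit false

namespace Crest.Agent.R079.T6bx252

open Finset Crest.Agent.R079.Grid Crest.Agent.R079.Growth Crest.Agent.R079.QRed
open Crest.Agent.R079.TRec Crest.Agent.R079.AsmA844 Crest.Agent.R079.AsmG734


theorem genM_mono {v : Fn → Fn → Nd → ℂ} {k : ℝ} {R0 : Finset Nd} {δ κ Λ r κ' Λ' : ℝ}
    (hδ : 0 ≤ δ) (h : GenM v k R0 δ κ Λ r) (hκ : κ ≤ κ') (hΛ : Λ ≤ Λ') :
    GenM v k R0 δ κ' Λ' r := by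
  intro s hs R J hR hRR X Y hXY
  obtain ⟨T, X', Y', hT, hS, hE, hV⟩ := h s hs R J hR hRR X Y hXY
  have hM := mul_nonneg (Ms_nonneg hδ s J X Y) (Growth.len_pos J).le
  refine ⟨T, X', Y', hT, hS, hE.trans ?_, hV.trans (add_le_add ?_ le_rfl)⟩
  · have := mul_le_mul_of_nonneg_right hΛ hM
    linarith
  · have := mul_le_mul_of_nonneg_right hκ hM
    linarith

/-- the numerology -/
theorem numM {c0 c1 cS CS t K B M : ℝ} {dl cG : ℕ → ℝ} (ht : 0 < t) (ht1 : t ≤ 1) (hK : 1 ≤ K)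
    (hB : 0 ≤ B) (hM : 0 ≤ M) (hM3 : M ≤ 3) (hdl : ∀ j, 0 ≤ dl j) (n : ℕ)
    (h1 : c0 + 2 * ∑ i ∈ range n, dl i ≤ cS - c1)
    (h2 : ∀ j, j < n → c0 + 2 * ∑ i ∈ range j, dl i ≤ cG j)
    (h3 : c0 + CS ≤ n * c1 - 2 * ∑ i ∈ range n, dl i + cS) :
    ((∏ i ∈ range n, (K * t ^ (-(dl i)))) * (K * (1 + B) * t ^ cS / t ^ c1) +
      ∑ j ∈ range n, (∏ i ∈ range j, (K * t ^ (-(dl i)))) * (K * (1 + B) * t ^ (cG j))) * M +
      (∏ i ∈ range n, (K * t ^ (c1 / 2 - dl i)) ^ 2) * (K * (1 + B) * t ^ cS) *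
        (K * t ^ (-CS)) ≤
      (3 * (K ^ n * (K + n * K)) + K ^ (2 * n + 2)) * (1 + B) * t ^ c0 := by
  have hK0 : 0 < K := by linarith
  have hB1 : 0 ≤ 1 + B := by linarith
  have prodL : ∀ j : ℕ, ∏ i ∈ range j, (K * t ^ (-(dl i))) =
      K ^ j * t ^ (-(∑ i ∈ range j, dl i)) := by
    intro j
    induction j with
    | zero => simp
    | succ j ih =>
      rw [Finset.prod_range_succ, ih, Finset.sum_range_succ]
      have e : t ^ (-(∑ i ∈ range j, dl i + dl j)) =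
          t ^ (-(∑ i ∈ range j, dl i)) * t ^ (-(dl j)) := by
        rw [← Real.rpow_add ht]
        congr 1
        ring
      rw [e]
      ring
  have hs0 : ∀ j : ℕ, 0 ≤ ∑ i ∈ range j, dl i := fun j => Finset.sum_nonneg fun i _ => hdl i
  rw [prodr ht, prodL n]
  have a1 : K ^ n * t ^ (-(∑ i ∈ range n, dl i)) * (K * (1 + B) * t ^ cS / t ^ c1) ≤
      K ^ n * K * (1 + B) * t ^ c0 := by
    have e : t ^ cS / t ^ c1 = t ^ (cS - c1) := (Real.rpow_sub ht _ _).symm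
    have g1 : t ^ (-(∑ i ∈ range n, dl i)) * t ^ (cS - c1) ≤ t ^ c0 := by
      rw [← Real.rpow_add ht]
      refine Real.rpow_le_rpow_of_exponent_ge ht ht1 ?_
      linarith [hs0 n]
    have p1 : 0 ≤ K ^ n * K * (1 + B) := by positivity
    calc K ^ n * t ^ (-(∑ i ∈ range n, dl i)) * (K * (1 + B) * t ^ cS / t ^ c1)
        = K ^ n * K * (1 + B) * (t ^ (-(∑ i ∈ range n, dl i)) * (t ^ cS / t ^ c1)) := by ring
      _ = K ^ n * K * (1 + B) * (t ^ (-(∑ i ∈ range n, dl i)) * t ^ (cS - c1)) := by rw [e]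
      _ ≤ _ := mul_le_mul_of_nonneg_left g1 p1
  have a2 : ∑ j ∈ range n, (∏ i ∈ range j, (K * t ^ (-(dl i)))) *
      (K * (1 + B) * t ^ (cG j)) ≤ n * (K ^ n * K * (1 + B) * t ^ c0) := by
    have h4 : ∀ j ∈ range n, (∏ i ∈ range j, (K * t ^ (-(dl i)))) *
        (K * (1 + B) * t ^ (cG j)) ≤ K ^ n * K * (1 + B) * t ^ c0 := by
      intro j hj
      have hjn : j < n := Finset.mem_range.1 hj
      rw [prodL j]
      have g1 : t ^ (-(∑ i ∈ range j, dl i)) * t ^ (cG j) ≤ t ^ c0 := by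
        rw [← Real.rpow_add ht]
        refine Real.rpow_le_rpow_of_exponent_ge ht ht1 ?_
        linarith [h2 j hjn, hs0 j]
      have g2 : K ^ j ≤ K ^ n := pow_le_pow_right₀ hK hjn.le
      have g3 : 0 ≤ t ^ c0 := Real.rpow_nonneg ht.le _
      calc K ^ j * t ^ (-(∑ i ∈ range j, dl i)) * (K * (1 + B) * t ^ (cG j))
          = K ^ j * (K * (1 + B)) * (t ^ (-(∑ i ∈ range j, dl i)) * t ^ (cG j)) := by ring
        _ ≤ K ^ j * (K * (1 + B)) * t ^ c0 :=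
            mul_le_mul_of_nonneg_left g1 (by positivity)
        _ ≤ K ^ n * (K * (1 + B)) * t ^ c0 :=
            mul_le_mul_of_nonneg_right (mul_le_mul_of_nonneg_right g2 (by positivity)) g3
        _ = _ := by ring
    refine (Finset.sum_le_sum h4).trans (le_of_eq ?_)
    rw [Finset.sum_const, Finset.card_range, nsmul_eq_mul]
  have a3 : K ^ (2 * n) * t ^ (n * c1 - 2 * ∑ i ∈ range n, dl i) * (K * (1 + B) * t ^ cS) *
      (K * t ^ (-CS)) ≤ K ^ (2 * n + 2) * (1 + B) * t ^ c0 := by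
    have g1 : t ^ (n * c1 - 2 * ∑ i ∈ range n, dl i) * t ^ cS * t ^ (-CS) ≤ t ^ c0 := by
      rw [← Real.rpow_add ht, ← Real.rpow_add ht]
      exact Real.rpow_le_rpow_of_exponent_ge ht ht1 (by linarith)
    have p1 : 0 ≤ K ^ (2 * n + 2) * (1 + B) := by positivity
    calc K ^ (2 * n) * t ^ (n * c1 - 2 * ∑ i ∈ range n, dl i) * (K * (1 + B) * t ^ cS) *
          (K * t ^ (-CS))
        = K ^ (2 * n + 2) * (1 + B) *
          (t ^ (n * c1 - 2 * ∑ i ∈ range n, dl i) * t ^ cS * t ^ (-CS)) := by ring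
      _ ≤ _ := mul_le_mul_of_nonneg_left g1 p1
  have hsum : 0 ≤ K ^ n * K * (1 + B) * t ^ c0 + n * (K ^ n * K * (1 + B) * t ^ c0) := by
    have g3 : 0 ≤ t ^ c0 := Real.rpow_nonneg ht.le _
    positivity
  calc _ ≤ (K ^ n * K * (1 + B) * t ^ c0 + n * (K ^ n * K * (1 + B) * t ^ c0)) * M +
        K ^ (2 * n + 2) * (1 + B) * t ^ c0 :=
        add_le_add (mul_le_mul_of_nonneg_right (add_le_add a1 a2) hM) a3
    _ ≤ (K ^ n * K * (1 + B) * t ^ c0 + n * (K ^ n * K * (1 + B) * t ^ c0)) * 3 +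
        K ^ (2 * n + 2) * (1 + B) * t ^ c0 :=
        add_le_add (mul_le_mul_of_nonneg_left hM3 hsum) le_rfl
    _ = _ := by ring




end Crest.Agent.R079.T6bx252
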